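import Vale.Agent.P202.Basic

/-! Interfaces of the modules C1, C2, C3, as propositions to be proved. -/

universe u

namespace Vale.Agent.P202

open IsLocalRing

/-- C1, first part. -/
def GoalReduction : Prop :=
  ∀ (A : Type u) [CommRing A] [IsLocalRing A] [IsNoetherianRing A],
    ∃ D : ℕ, 0 < D ∧ (Infinite (ResidueField A) → D = 1) ∧
      ∃ x : Fin (ndim A) → A, (∀ l, x l ∈ maximalIdeal A ^ D) ∧
        ∃ n₀ : ℕ, ∀ n, n₀ ≤ n →
          maximalIdeal A ^ (n + D) ≤ Ideal.span (Set.range x) * maximalIdeal A ^ n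

/-- C1, second part. -/
def GoalMultExists : Prop :=
  ∀ (A : Type u) [CommRing A] [IsLocalRing A] [IsNoetherianRing A],
    ∃ e : ℝ, 0 < e ∧ HasMult A e

/-- C2, finiteness of the Koszul homology. -/
def GoalKoszulFinite : Prop :=
  ∀ (A : Type u) [CommRing A] [IsLocalRing A] [IsNoetherianRing A]
    (M : Type u) [AddCommGroup M] [Module A M] [Module.Finite A M]
    (d : ℕ) (y : Fin d → A),
    IsFiniteLength A (M ⧸ (Ideal.span (Set.range y) • (⊤ : Submodule A M))) →
    ∀ p, khlen y M p ≠ ⊤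

/-- C2, the limit formula. -/
def GoalKoszulMult : Prop :=
  ∀ (A : Type u) [CommRing A] [IsLocalRing A] [IsNoetherianRing A]
    (M : Type u) [AddCommGroup M] [Module A M] [Module.Finite A M]
    (d : ℕ) (y : Fin d → A), (∀ l, y l ∈ maximalIdeal A) →
    IsFiniteLength A (M ⧸ (Ideal.span (Set.range y) • (⊤ : Submodule A M))) →
    Filter.Tendsto (fun n : ℕ => (d.factorial : ℝ) *
        ((Module.length A (M ⧸ (Ideal.span (Set.range y) ^ n • (⊤ : Submodule A M)))).toNat : ℝ) /
          (n : ℝ) ^ d) Filter.atTop (nhds (kchi y M : ℝ))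

/-- C2, additivity. -/
def GoalKoszulAdd : Prop :=
  ∀ (A : Type u) [CommRing A] [IsLocalRing A] [IsNoetherianRing A]
    (M₁ M₂ M₃ : Type u) [AddCommGroup M₁] [Module A M₁] [AddCommGroup M₂] [Module A M₂]
    [AddCommGroup M₃] [Module A M₃] [Module.Finite A M₁] [Module.Finite A M₂]
    [Module.Finite A M₃] (f : M₁ →ₗ[A] M₂) (g : M₂ →ₗ[A] M₃) (d : ℕ) (y : Fin d → A),
    IsFiniteLength A (M₂ ⧸ (Ideal.span (Set.range y) • (⊤ : Submodule A M₂))) →
    Function.Injective f → Function.Exact f g → Function.Surjective g →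
    kchi y M₂ = kchi y M₁ + kchi y M₃

/-- C3: completion, and an infinite residue field upstairs. -/
def GoalReduce : Prop :=
  ∀ (p : ℕ) [Fact p.Prime] (R S : Type u) [CommRing R] [IsLocalRing R] [IsNoetherianRing R]
    [CharP R p] [CommRing S] [IsLocalRing S] [IsNoetherianRing S] [Algebra R S]
    [IsLocalHom (algebraMap R S)] [Module.Flat R S],
    ∀ [CharP (ResidueField R) p], (frobenius (ResidueField R) p).Finite →
    ndim R = ndim S →
    ∃ (R' S' : Type u) (_ : CommRing R') (_ : IsLocalRing R') (_ : IsNoetherianRing R')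
      (_ : CharP R' p) (_ : CommRing S') (_ : IsLocalRing S') (_ : IsNoetherianRing S')
      (_ : Algebra R' S') (_ : IsLocalHom (algebraMap R' S')) (_ : Module.Flat R' S'),
      (frobenius R' p).Finite ∧ Infinite (ResidueField S') ∧
      ndim R' = ndim R ∧ ndim S' = ndim S ∧
      (∀ e : ℝ, HasMult R e → HasMult R' e) ∧ (∀ e : ℝ, HasMult S e → HasMult S' e)

end Vale.Agent.P202
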