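import Vale.Agent.P202.ReduceAux
import Vale.Agent.P202.InterfacesC

/-! Module C3: reduction to an F-finite base ring and an infinite residue field upstairs. -/

universe u v

namespace Vale.Agent.P202

open IsLocalRing

theorem isPrecomplete_pi {A : Type u} [CommRing A] (I : Ideal A) [IsPrecomplete I A]
    (ι : Type v) [Fintype ι] [DecidableEq ι] : IsPrecomplete I (ι → A) := by
  refine ⟨fun f hf => ?_⟩
  have hc : ∀ i, ∃ L : A, ∀ n, f n i ≡ L [SMOD (I ^ n • ⊤ : Submodule A A)] := fun i => by
    refine IsPrecomplete.prec' (I := I) (fun n => f n i) fun {m n} hmn => ?_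
    have := (hf hmn).map (LinearMap.proj i : (ι → A) →ₗ[A] A)
    exact this.mono (by rw [Submodule.map_smul'']; exact Submodule.smul_mono le_rfl le_top)
  choose L hL using hc
  refine ⟨L, fun n => ?_⟩
  rw [SModEq.sub_mem, ← Finset.univ_sum_single (f n - L)]
  refine Submodule.sum_mem _ fun i _ => ?_
  have h1 := Submodule.mem_map_of_mem (f := LinearMap.single A (fun _ : ι => A) i)
    (SModEq.sub_mem.mp (hL i n))
  rw [Submodule.map_smul''] at h1
  exact Submodule.smul_mono le_rfl le_top h1

/-- A map out of a complete ring is finite if it is finite modulo the extended ideal. -/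
theorem finite_of_complete {A : Type u} {B : Type v} [CommRing A] [CommRing B] (f : A →+* B)
    (I : Ideal A) [IsPrecomplete I A] [IsHausdorff (I.map f) B] (s : Finset B)
    (hs : ∀ b, ∃ w ∈ Submodule.span f.range (s : Set B), b - w ∈ I.map f) : f.Finite := by
  classical
  let _ := f.toAlgebra
  have hspan : ∀ w ∈ Submodule.span f.range (s : Set B), w ∈ Submodule.span A (s : Set B) := by
    intro w hw
    induction hw using Submodule.span_induction with
    | mem y hy => exact Submodule.subset_span hy
    | zero => exact zero_mem _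
    | add y z _ _ hy hz => exact add_mem hy hz
    | smul c y _ hy =>
      obtain ⟨_, a, rfl⟩ := c
      exact Submodule.smul_mem _ a hy
  have : IsHausdorff (I.map (algebraMap A B)) B := ‹IsHausdorff (I.map f) B›
  have : IsHausdorff I B := IsHausdorff.map_algebraMap_iff.mp this
  have := isPrecomplete_pi I (↥s)
  let F : ((↥s) → A) →ₗ[A] B := Fintype.linearCombination A (fun i : ↥s => (i : B))
  have hF : Function.Surjective F := by
    refine surjective_of_mkQ_comp_surjective (I := I) fun y => ?_
    obtain ⟨y, rfl⟩ := Submodule.mkQ_surjective _ y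
    obtain ⟨w, hw, hy⟩ := hs y
    have hw' : w ∈ LinearMap.range F := by
      rw [Fintype.range_linearCombination]
      convert hspan w hw using 2
      simp
    obtain ⟨c, rfl⟩ := hw'
    refine ⟨c, ?_⟩
    rw [LinearMap.comp_apply, Submodule.mkQ_apply, Submodule.mkQ_apply, eq_comm,
      Submodule.Quotient.eq, Ideal.smul_top_eq_map, Submodule.restrictScalars_mem]
    exact hy
  exact Module.Finite.of_surjective F hF

theorem exists_fin_of_finite {A : Type u} {B : Type v} [CommRing A] [CommRing B] (f : A →+* B)
    (hf : f.Finite) :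
    ∃ (n : ℕ) (v : Fin n → B), ∀ b : B, ∃ a : Fin n → A, b = ∑ j, f (a j) * v j := by
  let _ := f.toAlgebra
  have : Module.Finite A B := hf
  obtain ⟨n, v, hv⟩ := Module.Finite.exists_fin (R := A) (M := B)
  refine ⟨n, v, fun b => ?_⟩
  obtain ⟨a, ha⟩ := (Submodule.mem_span_range_iff_exists_fun A).mp
    (hv ▸ (Submodule.mem_top : b ∈ _))
  exact ⟨a, ha.symm⟩

/-- A complete Noetherian local ring of characteristic `p` with F-finite residue field is
F-finite. -/
theorem frobenius_finite_of_complete {T : Type u} [CommRing T] [IsLocalRing T]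
    [IsNoetherianRing T] [IsAdicComplete (maximalIdeal T) T] (p : ℕ) [hp : Fact p.Prime]
    [CharP T p] {n : ℕ} (c : Fin n → T)
    (hc : ∀ t : T, ∃ a : Fin n → T, t - ∑ j, a j ^ p * c j ∈ maximalIdeal T) :
    (frobenius T p).Finite := by
  classical
  set m := maximalIdeal T with hm
  have hrad : m ≤ (m.map (frobenius T p)).radical := fun t ht =>
    ⟨p, Ideal.mem_map_of_mem (frobenius T p) ht⟩
  obtain ⟨M, hM⟩ := Ideal.exists_pow_le_of_le_radical_of_fg hrad m.fg_of_isNoetherianRing
  have hstep : ∀ i, ∃ s : Finset T, ∀ t : T,
      ∃ w ∈ Submodule.span (frobenius T p).range (s : Set T), t - w ∈ m ^ i := by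
    intro i
    induction i with
    | zero => exact ⟨∅, fun t => ⟨0, zero_mem _, by simp⟩⟩
    | succ i ih =>
      obtain ⟨s, hs⟩ := ih
      obtain ⟨G, hG⟩ := (m ^ i).fg_of_isNoetherianRing
      refine ⟨s ∪ Finset.image₂ (fun j g => c j * g) Finset.univ G, fun t => ?_⟩
      obtain ⟨w, hw, htw⟩ := hs t
      have key : ∀ y ∈ m ^ i, ∃ w' ∈ Submodule.span (frobenius T p).range
          (Finset.image₂ (fun j g => c j * g) Finset.univ G : Set T), y - w' ∈ m ^ (i + 1) := by
        intro y hy
        rw [← hG, Submodule.mem_span_finset] at hy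
        obtain ⟨φ, -, rfl⟩ := hy
        choose a ha using hc
        refine ⟨∑ g ∈ G, ∑ j, a (φ g) j ^ p * (c j * g),
          Submodule.sum_mem _ fun g hg => Submodule.sum_mem _ fun j _ => ?_, ?_⟩
        · exact Submodule.smul_mem _ (⟨a (φ g) j ^ p, a (φ g) j, rfl⟩ : (frobenius T p).range)
            (Submodule.subset_span (Finset.mem_image₂_of_mem (Finset.mem_univ j) hg))
        · rw [← Finset.sum_sub_distrib]
          refine Submodule.sum_mem _ fun g hg => ?_
          have hg' : g ∈ m ^ i := hG ▸ Submodule.subset_span hg
          have := Ideal.mul_mem_mul (ha (φ g)) hg'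
          rw [← pow_succ'] at this
          simpa [sub_mul, Finset.sum_mul, mul_assoc] using this
      obtain ⟨w', hw', hy⟩ := key _ htw
      refine ⟨w + w', add_mem (Submodule.span_mono (by simp) hw)
        (Submodule.span_mono (by simp) hw'), ?_⟩
      rwa [sub_add_eq_sub_sub]
  obtain ⟨s, hs⟩ := hstep M
  have : IsHausdorff (m.map (frobenius T p)) T := by
    refine IsHausdorff.of_le_jacobson _ _ ?_
    refine le_trans ?_ (maximalIdeal_le_jacobson _)
    rw [Ideal.map_le_iff_le_comap]
    exact fun t ht => Ideal.pow_mem_of_mem _ ht p hp.out.pos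
  exact finite_of_complete (frobenius T p) m s
    fun t => (hs t).imp fun w hw => ⟨hw.1, hM hw.2⟩

/-- Completion, and an infinite residue field upstairs. -/
theorem goalReduce : GoalReduce.{u} := by
  classical
  intro p _ R S _ _ _ _ _ _ _ _ _ _ _ hfin hdim
  let q : Ideal (Polynomial S) := (maximalIdeal S).map Polynomial.C
  have : q.IsPrime := Ideal.isPrime_map_C_of_isPrime
  let B := Localization.AtPrime q
  have hSB : (maximalIdeal S).map (algebraMap S B) = maximalIdeal B := by
    rw [IsScalarTower.algebraMap_eq S (Polynomial S) B, ← Ideal.map_map]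
    exact Localization.AtPrime.map_eq_maximalIdeal
  have : IsLocalHom (algebraMap S B) := by
    refine ((local_hom_TFAE (algebraMap S B)).out 0 2).mpr ?_
    exact hSB.le
  have : IsNoetherianRing B := IsLocalization.isNoetherianRing q.primeCompl B inferInstance
  have hres : Infinite (ResidueField B) := by
    refine Infinite.of_injective
      (fun i : ℕ => residue B (algebraMap (Polynomial S) B (Polynomial.X ^ i))) fun i j hij => ?_
    by_contra hne
    simp only at hij
    rw [← sub_eq_zero, ← map_sub, residue_eq_zero_iff, ← map_sub,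
      IsLocalization.AtPrime.to_map_mem_maximal_iff B q, Ideal.mem_map_C_iff] at hij
    have := hij i
    simp [Polynomial.coeff_X_pow, hne] at this
  let R' := AdicCompletion (maximalIdeal R) R
  let S' := AdicCompletion (maximalIdeal B) B
  let g : R →+* B := (algebraMap S B).comp (algebraMap R S)
  have hg : (maximalIdeal R).map g ≤ maximalIdeal B :=
    map_maximalIdeal_le g
  let φ : R' →+* S' := completionMap (maximalIdeal R) (maximalIdeal B) g hg
  letI algRS : Algebra R' S' := φ.toAlgebra
  have hφ : φ.comp (algebraMap R R') = (algebraMap B S').comp g :=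
    completionMap_comp_algebraMap _ _ g hg
  have hloc : IsLocalHom φ := by
    refine ((local_hom_TFAE φ).out 0 2).mpr ?_
    rw [AdicCompletion.maximalIdeal_eq_map, AdicCompletion.maximalIdeal_eq_map, Ideal.map_map,
      hφ, ← Ideal.map_map]
    exact Ideal.map_mono hg
  have : IsLocalHom (algebraMap R' S') := hloc
  -- flatness of `S'` over `R`
  have : Module.Flat R B := Module.Flat.trans R S B
  have : Module.Flat R S' := Module.Flat.trans R B S'
  have : IsScalarTower R R' S' := IsScalarTower.of_algebraMap_eq' (by
    rw [RingHom.algebraMap_toAlgebra, hφ, IsScalarTower.algebraMap_eq R B S',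
      IsScalarTower.algebraMap_eq R S B])
  have hdense : ∀ (N : ℕ) (t : R'), ∃ a : R, t - algebraMap R R' a ∈ maximalIdeal R' ^ N := by
    intro N t
    obtain ⟨a, ha⟩ := Submodule.Quotient.mk_surjective _ (AdicCompletion.eval _ R N t)
    refine ⟨a, ?_⟩
    rw [AdicCompletion.maximalIdeal_eq_map, ← Ideal.map_pow, ← Submodule.restrictScalars_mem R,
      ← Ideal.smul_top_eq_map, AdicCompletion.pow_smul_top_eq_ker_eval
        (maximalIdeal R).fg_of_isNoetherianRing, LinearMap.mem_ker, map_sub, ← ha, sub_eq_zero]
    rfl
  have hflat : Module.Flat R' S' :=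
    flat_of_flat_of_dense (maximalIdeal R) AdicCompletion.maximalIdeal_eq_map.symm hdense
  -- characteristic and F-finiteness
  have hinj : Function.Injective (algebraMap R R') := fun x y hxy =>
    AdicCompletion.of_injective (maximalIdeal R) R hxy
  have hchar : CharP R' p := charP_of_injective_algebraMap hinj p
  have hFR : (frobenius R' p).Finite := by
    obtain ⟨n, v, hv⟩ := exists_fin_of_finite (frobenius (ResidueField R) p) hfin
    choose c hc using fun j => residue_surjective (v j)
    refine frobenius_finite_of_complete p (fun j => algebraMap R R' (c j)) fun t => ?_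
    obtain ⟨b, hb⟩ := hdense 1 t
    obtain ⟨a, ha⟩ := hv (residue R b)
    choose a' ha' using fun j => residue_surjective (a j)
    refine ⟨fun j => algebraMap R R' (a' j), ?_⟩
    have h2 : b - ∑ j, a' j ^ p * c j ∈ maximalIdeal R := by
      rw [← residue_eq_zero_iff, map_sub, map_sum, sub_eq_zero, ha]
      refine Finset.sum_congr rfl fun j _ => ?_
      rw [map_mul, map_pow, ha', hc, frobenius_def]
    have h3 := Ideal.mem_map_of_mem (algebraMap R R') h2
    rw [← AdicCompletion.maximalIdeal_eq_map, map_sub, map_sum] at h3
    rw [pow_one] at hb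
    simpa [map_mul, map_pow] using add_mem hb h3
  -- residue field of `S'`
  have hinf : Infinite (ResidueField S') :=
    Infinite.of_injective _ (AdicCompletion.residueField_map_bijective B).1
  -- dimensions and multiplicities
  have hR' : (maximalIdeal R).map (algebraMap R R') = maximalIdeal R' :=
    AdicCompletion.maximalIdeal_eq_map.symm
  have hS' : (maximalIdeal B).map (algebraMap B S') = maximalIdeal S' :=
    AdicCompletion.maximalIdeal_eq_map.symm
  refine ⟨R', S', inferInstance, inferInstance, inferInstance, hchar, inferInstance,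
    inferInstance, inferInstance, algRS, hloc, hflat, hFR, hinf,
    ndim_eq_of_map_maximalIdeal hR', ?_, fun e he => hasMult_of_map_maximalIdeal hR' he,
    fun e he => hasMult_of_map_maximalIdeal hS' (hasMult_of_map_maximalIdeal hSB he)⟩
  rw [ndim_eq_of_map_maximalIdeal hS', ndim_eq_of_map_maximalIdeal hSB]

end Vale.Agent.P202
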