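import Vale.Agent.P202.Scale
import Vale.Agent.P202.Reduce

/-!
`e(R) ≤ e(S)` for a flat local homomorphism with `dim R = dim S`, `R` of characteristic `p` with
F-finite residue field, from the modules of the blueprint.
-/

universe u

namespace Vale.Agent.P202

open TensorProduct IsLocalRing Filter

variable {R S : Type u} [CommRing R] [IsLocalRing R] [IsNoetherianRing R] [CommRing S]
  [IsLocalRing S] [IsNoetherianRing S] [Algebra R S] [IsLocalHom (algebraMap R S)]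
  [Module.Flat R S]

/-- The case of dimension zero. -/
lemma mult_le_of_dim_zero (hR : ndim R = 0) (hS : ndim S = 0) {eR eS : ℝ} (heR : HasMult R eR)
    (heS : HasMult S eS) : eR ≤ eS := by
  haveI : Ring.KrullDimLE 0 R := by
    rw [Ring.krullDimLE_iff, ringKrullDim_eq_coe_ndim, hR]
  haveI : Ring.KrullDimLE 0 S := by
    rw [Ring.krullDimLE_iff, ringKrullDim_eq_coe_ndim, hS]
  haveI : IsArtinianRing R := isArtinianRing_iff_krullDimLE_zero.2 inferInstance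
  haveI : IsArtinianRing S := isArtinianRing_iff_krullDimLE_zero.2 inferInstance
  have hev : ∀ (A : Type u) [CommRing A] [IsLocalRing A] [IsNoetherianRing A] [IsArtinianRing A],
      ∀ e : ℝ, HasMult A e → ndim A = 0 → e = ((Module.length A A).toNat : ℝ) := by
    intro A _ _ _ _ e he hA
    obtain ⟨N, hN⟩ := isArtinianRing_iff_isNilpotent_maximalIdeal A |>.1 ‹_›
    refine tendsto_nhds_unique he ?_
    refine tendsto_const_nhds.congr' ?_
    filter_upwards [eventually_ge_atTop N] with n hn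
    have h0 : maximalIdeal A ^ n = ⊥ := by
      rw [eq_bot_iff, ← Ideal.zero_eq_bot, ← hN]
      exact Ideal.pow_le_pow_right hn
    rw [hA, (Submodule.quotEquivOfEqBot _ h0).length_eq]
    simp
  rw [hev R eR heR hR, hev S eS heS hS, Nat.cast_le]
  refine ENat.toNat_le_toNat ?_ Module.length_ne_top
  rw [← (AlgebraTensorModule.rid R S S).length_eq, IsLocalRing.length_baseChange R S]
  refine le_mul_of_one_le_right bot_le ?_
  rw [Order.one_le_iff_pos, Module.length_pos_iff]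
  exact Ideal.Quotient.nontrivial_iff.2 (map_maximalIdeal_lt_top (algebraMap R S)).ne

/-- The error term is small when the cohomology of the blocks outside the window is small. -/
lemma errBound_le {A : Type*} [AddCommGroup A] [Module R A] (δ : A →ₗ[R] A)
    (P Gt : ℤ → Submodule R A) {d Bt K : ℕ} (β : ℕ → ℕ) (hK : Bt + d ≤ K) {B : ℝ}
    (hbound : ∀ j r : ℤ, -(K : ℤ) ≤ j → j ≤ K →
        ¬ (min (max (-j - 2) 0) ((d : ℤ) - 1) ≤ r ∧
              r ≤ min (max (-j - 1) 0) ((d : ℤ) - 1)) →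
        ((hg δ P Gt j r).toNat : ℝ) ≤ B) {r : ℤ} (hr : r ≠ 0) :
    (errBound d Bt β δ P Gt r : ℝ) ≤
      (Bt : ℝ) * (∑ i ∈ Finset.range (d + 1), (β i : ℝ)) * B := by
  rw [errBound, Nat.cast_sum]
  refine (Finset.sum_le_card_nsmul _ _
    ((∑ i ∈ Finset.range (d + 1), (β i : ℝ)) * B) fun k hk => ?_).trans_eq ?_
  · rw [Nat.cast_sum, Finset.sum_mul]
    refine Finset.sum_le_sum fun i hi => ?_
    rw [Finset.mem_range] at hk hi
    rw [Nat.cast_mul]
    refine mul_le_mul_of_nonneg_left ?_ (Nat.cast_nonneg _)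
    by_cases hpos : 0 < r
    · rw [if_pos hpos]
      exact hbound _ _ (by omega) (by omega) (by omega)
    · rw [if_neg hpos]
      exact hbound _ _ (by omega) (by omega) (by omega)
  · rw [Finset.card_range, nsmul_eq_mul]; ring

/-- The main sum is close to its `m = 0` term. -/
lemma sum_mul_le_main {d : ℕ} (hd : 0 < d) (T : ℕ → ℝ) (χ : ℤ → ℝ) (X B : ℝ)
    (h : ∀ j : ℤ, -(d : ℤ) ≤ j → j ≤ -1 → |χ j - (if j = -1 then X else 0)| ≤ B) :
    ∑ m ∈ Finset.range d, T m * χ (-((m + 1 : ℕ) : ℤ)) ≤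
      T 0 * X + (∑ m ∈ Finset.range d, |T m|) * B := by
  have h1 : ∀ m ∈ Finset.range d, T m * χ (-((m + 1 : ℕ) : ℤ)) ≤
      (if m = 0 then T 0 * X else 0) + |T m| * B := by
    intro m hm
    rw [Finset.mem_range] at hm
    have h' := h (-((m + 1 : ℕ) : ℤ)) (by omega) (by omega)
    by_cases hm0 : m = 0
    · subst hm0
      rw [if_pos (show -((0 + 1 : ℕ) : ℤ) = -1 by omega)] at h'
      rw [if_pos rfl]
      have h2 := le_abs_self (T 0 * (χ (-((0 + 1 : ℕ) : ℤ)) - X))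
      rw [abs_mul] at h2
      linarith [h2.trans (mul_le_mul_of_nonneg_left h' (abs_nonneg (T 0))),
        mul_sub (T 0) (χ (-((0 + 1 : ℕ) : ℤ))) X]
    · rw [if_neg (show ¬ -((m + 1 : ℕ) : ℤ) = -1 by omega), sub_zero] at h'
      rw [if_neg hm0, zero_add]
      have h2 := le_abs_self (T m * χ (-((m + 1 : ℕ) : ℤ)))
      rw [abs_mul] at h2
      exact h2.trans (mul_le_mul_of_nonneg_left h' (abs_nonneg (T m)))
  refine (Finset.sum_le_sum h1).trans_eq ?_
  rw [Finset.sum_add_distrib, ← Finset.sum_mul, Finset.sum_ite_eq', if_pos (Finset.mem_range.2 hd)]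

lemma combine_bounds {F qd qd1 eR eS b A C E S1 S2 : ℝ}
    (h0 : 0 ≤ F * (qd * eS) + S1 + S2) (h1 : S1 ≤ -b * (F * eR * qd) + A * (C * qd1))
    (h2 : S2 ≤ E * qd1) : F * (b * eR - eS) * qd ≤ (A * C + E) * qd1 := by
  linarith

/-- The alternating tail sums start with minus the number of generators. -/
lemma tail_sum_residue (G : KoszulGoals.{u}) {d : ℕ} (hd0 : 0 < d) {y : Fin d → S} (hpar : Par y)
    (hRS : ndim R = ndim S) :
    ∑ i ∈ Finset.Icc (0 + 1) d,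
      (-1 : ℤ) ^ i * ((khlen y (S ⊗[R] ResidueField R) i).toNat : ℤ) =
      -((khlen y (S ⊗[R] ResidueField R) 0).toNat : ℤ) := by
  have h := sum_khlen_residue G hd0 hpar hRS
  rw [Finset.range_eq_Ico, ← Finset.insert_Ico_add_one_left_eq_Ico (Nat.succ_pos d),
    Finset.sum_insert (by simp)] at h
  have : Finset.Ico (0 + 1) (d + 1) = Finset.Icc (0 + 1) d := by
    ext i; simp
  rw [this] at h
  simp only [pow_zero, one_mul] at h
  linarith

/-- The core inequality at every scale `q = p ^ e`, for all the data it needs. -/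
def ScaleInequality (p : ℕ) (R S : Type u) [CommRing R] [IsLocalRing R] [CommRing S]
    [IsLocalRing S] [Algebra R S] (d : ℕ) : Prop :=
  ∀ (D : ℕ) (x : Fin d → R), RedData R d D x → ∀ (y : Fin d → S), Par y → ∀ (M : ℕ), 0 < M →
    ∀ (c : Fin d → Fin d → S), (∀ i, algebraMap R S (x i) ^ M = ∑ l, y l * c i l) →
    ∀ (e : ℕ) (a : Fin (d - 1) → ℤ),
    (∀ j r, hg (phiD (mulFam x)) (phiDeg R R d) (phiG R D (p ^ e) a) j r ≠ ⊤) →
    0 ≤ ((d - 1).factorial : ℤ) * (((p ^ e : ℕ) : ℤ) ^ d * kchi y S) +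
      ∑ m ∈ Finset.range d, (∑ i ∈ Finset.Icc (m + 1) d,
          (-1 : ℤ) ^ i * ((khlen y (S ⊗[R] ResidueField R) i).toNat : ℤ)) *
        chiG d (phiD (mulFam x)) (phiDeg R R d) (phiG R D (p ^ e) a) (-((m + 1 : ℕ) : ℤ)) +
      ∑ r ∈ Finset.Icc (-((3 * d + 3 : ℕ) : ℤ)) (3 * d + 3 : ℕ),
        if r = 0 then 0 else (errBound d (d * (M * D))
          (fun i => (khlen y (S ⊗[R] ResidueField R) i).toNat)
          (phiD (mulFam x)) (phiDeg R R d) (phiG R D (p ^ e) a) r : ℤ)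

/-- What the scale `q = p ^ e` yields. -/
lemma scale_bound (G : KoszulGoals.{u}) (p : ℕ) [Fact p.Prime] {d : ℕ}
    (hSI : ScaleInequality p R S d) {D : ℕ} {x : Fin d → R}
    (hx : RedData R d D x) (hRS : ndim R = ndim S) {y : Fin d → S} (hpar : Par y) {c₁ : ℕ}
    (hc₁0 : 0 < c₁) (c : Fin d → Fin d → S)
    (hc : ∀ i, algebraMap R S (x i) ^ c₁ = ∑ l, y l * c i l) (e : ℕ) (a : Fin (d - 1) → ℤ)
    (hfin : ∀ j r, hg (phiD (mulFam x)) (phiDeg R R d) (phiG R D (p ^ e) a) j r ≠ ⊤) (eR C : ℝ)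
    (hC0 : 0 ≤ C) (K : ℕ) (hK : d * (c₁ * D) + d ≤ K)
    (hbound : ∀ j r : ℤ, -(K : ℤ) ≤ j → j ≤ K →
        ¬ (min (max (-j - 2) 0) ((d : ℤ) - 1) ≤ r ∧
              r ≤ min (max (-j - 1) 0) ((d : ℤ) - 1)) →
        ((hg (phiD (mulFam x)) (phiDeg R R d) (phiG R D (p ^ e) a) j r).toNat : ℝ) ≤
          C * ((p ^ e : ℕ) : ℝ) ^ (d - 1))
    (hmain : ∀ j : ℤ, -(d : ℤ) ≤ j → j ≤ -1 →
        |(chiG d (phiD (mulFam x)) (phiDeg R R d) (phiG R D (p ^ e) a) j : ℝ) -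
          (if j = -1 then ((d - 1).factorial : ℝ) * eR * ((p ^ e : ℕ) : ℝ) ^ d else 0)| ≤
          C * ((p ^ e : ℕ) : ℝ) ^ (d - 1)) :
    ((d - 1).factorial : ℝ) * (((khlen y (S ⊗[R] ResidueField R) 0).toNat : ℝ) * eR -
        (kchi y S : ℝ)) * ((p ^ e : ℕ) : ℝ) ≤
      (∑ m ∈ Finset.range d, |((∑ i ∈ Finset.Icc (m + 1) d, (-1 : ℤ) ^ i *
          ((khlen y (S ⊗[R] ResidueField R) i).toNat : ℤ) : ℤ) : ℝ)|) * C +
        ∑ _r ∈ Finset.Icc (-((3 * d + 3 : ℕ) : ℤ)) (3 * d + 3 : ℕ),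
          ((d * (c₁ * D) : ℕ) : ℝ) *
            (∑ i ∈ Finset.range (d + 1), ((khlen y (S ⊗[R] ResidueField R) i).toNat : ℝ)) * C := by
  classical
  have hd0 := hx.dpos
  set q := p ^ e with hq
  have hq0 : 0 < q := pow_pos (Fact.out : p.Prime).pos e
  set δ := phiD (mulFam x) with hδ
  set P := phiDeg R R d with hP
  set Gt := phiG R D q a with hGt
  set Bt : ℕ := d * (c₁ * D) with hBt
  set β : ℕ → ℕ := fun i => (khlen y (S ⊗[R] ResidueField R) i).toNat with hβ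
  set T : ℕ → ℤ := fun m => ∑ i ∈ Finset.Icc (m + 1) d, (-1 : ℤ) ^ i * (β i : ℤ) with hT
  set F : ℝ := ((d - 1).factorial : ℝ) with hFdef
  have hT0 : T 0 = -(β 0 : ℤ) := tail_sum_residue G hd0 hpar hRS
  have hineq := hSI D x hx y hpar c₁ hc₁0 c hc e a hfin
  have hineq' : (0 : ℝ) ≤ F * ((q : ℝ) ^ d * (kchi y S : ℝ)) +
      ∑ m ∈ Finset.range d, (T m : ℝ) * (chiG d δ P Gt (-((m + 1 : ℕ) : ℤ)) : ℝ) +
      ∑ r ∈ Finset.Icc (-((3 * d + 3 : ℕ) : ℤ)) (3 * d + 3 : ℕ),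
        if r = 0 then (0 : ℝ) else (errBound d Bt β δ P Gt r : ℝ) := by
    have h := (Int.cast_nonneg_iff (R := ℝ)).2 hineq
    simp only [Int.cast_add, Int.cast_mul, Int.cast_sum, Int.cast_pow, Int.cast_natCast,
      apply_ite (Int.cast : ℤ → ℝ), Int.cast_zero] at h
    simp only [hT, hFdef, Int.cast_sum, Int.cast_mul, Int.cast_pow, Int.cast_natCast]
    exact h
  have hsum : ∑ m ∈ Finset.range d, (T m : ℝ) * (chiG d δ P Gt (-((m + 1 : ℕ) : ℤ)) : ℝ) ≤
      -((β 0 : ℝ)) * (F * eR * (q : ℝ) ^ d) +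
        (∑ m ∈ Finset.range d, |(T m : ℝ)|) * (C * (q : ℝ) ^ (d - 1)) := by
    have h := sum_mul_le_main hd0 (fun m => (T m : ℝ)) (fun j => (chiG d δ P Gt j : ℝ))
      (F * eR * (q : ℝ) ^ d) (C * (q : ℝ) ^ (d - 1)) hmain
    have e0 : (T 0 : ℝ) = -((β 0 : ℝ)) := by exact_mod_cast hT0
    rwa [e0] at h
  have herr : ∀ r ∈ Finset.Icc (-((3 * d + 3 : ℕ) : ℤ)) (3 * d + 3 : ℕ),
      (if r = 0 then (0 : ℝ) else (errBound d Bt β δ P Gt r : ℝ)) ≤
        (Bt : ℝ) * (∑ i ∈ Finset.range (d + 1), (β i : ℝ)) * C * (q : ℝ) ^ (d - 1) := by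
    intro r _
    split_ifs with hr
    · positivity
    · exact (errBound_le δ P Gt β (by omega) hbound hr).trans_eq (mul_assoc _ _ _).symm
  have htot : F * ((β 0 : ℝ) * eR - (kchi y S : ℝ)) * (q : ℝ) ^ d ≤
      ((∑ m ∈ Finset.range d, |(T m : ℝ)|) * C +
        ∑ _r ∈ Finset.Icc (-((3 * d + 3 : ℕ) : ℤ)) (3 * d + 3 : ℕ),
          (Bt : ℝ) * (∑ i ∈ Finset.range (d + 1), (β i : ℝ)) * C) * (q : ℝ) ^ (d - 1) := by
    have h3 := Finset.sum_le_sum herr
    rw [← Finset.sum_mul] at h3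
    exact combine_bounds hineq' hsum h3
  have hqd : (q : ℝ) ^ d = (q : ℝ) * (q : ℝ) ^ (d - 1) := by
    rw [← pow_succ', Nat.sub_add_cancel hd0]
  rw [hqd, ← mul_assoc] at htot
  exact le_of_mul_le_mul_right htot (by positivity)

/-- The positive dimensional case, with an infinite residue field upstairs. -/
theorem mult_le_of_scale (G : KoszulGoals.{u}) (hRed : GoalReduction.{u})
    (hW : GoalPhiWindow.{u}) (p : ℕ) [Fact p.Prime] [Infinite (ResidueField S)] {d : ℕ}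
    (hSI : ScaleInequality p R S d) (hd0 : 0 < d)
    (hR : ndim R = d) (hS : ndim S = d) {eR eS : ℝ} (heR : HasMult R eR) (heS : HasMult S eS) :
    eR ≤ eS := by
  classical
  have hRS : ndim R = ndim S := hR.trans hS.symm
  obtain ⟨y, hy, n₁, hred⟩ : ∃ y : Fin d → S, (∀ l, y l ∈ maximalIdeal S) ∧ ∃ n₁ : ℕ,
      ∀ n, n₁ ≤ n → maximalIdeal S ^ (n + 1) ≤
        Ideal.span (Set.range y) * maximalIdeal S ^ n := by
    obtain ⟨D, -, hD, y, hy, n₁, hred⟩ := hRed S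
    obtain rfl := hD ‹_›
    subst hS
    exact ⟨y, fun l => by simpa using hy l, n₁, hred⟩
  obtain ⟨D, x, hx⟩ : ∃ D : ℕ, ∃ x : Fin d → R, RedData R d D x := by
    obtain ⟨D, hD0, -, x, hx, hxred⟩ := hRed R
    subst hR
    exact ⟨D, x, ⟨hd0, rfl, hD0, hx, hxred⟩⟩
  obtain ⟨c₁, hc₁0, hc₁⟩ := exists_pow_le_of_reduction (hred n₁ le_rfl)
  have hpar : Par y := par_of_pow_le hy hc₁
  have heS' : eS = (kchi y S : ℝ) := hasMult_eq_kchi G hS hy hred heS
  have hxm : ∀ l, x l ∈ maximalIdeal R :=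
    fun l => Ideal.pow_le_self hx.Dpos.ne' (hx.mem l)
  have hco : ∀ i, ∃ c : Fin d → S, algebraMap R S (x i) ^ c₁ = ∑ l, y l * c l := by
    intro i
    obtain ⟨c, hc⟩ := (Submodule.mem_span_range_iff_exists_fun S).1
      (hc₁ (Ideal.pow_mem_pow (map_nonunit (algebraMap R S) _ (hxm i)) c₁))
    exact ⟨c, by rw [← hc]; exact Finset.sum_congr rfl fun l _ => mul_comm _ _⟩
  choose c hc using hco
  obtain ⟨a, ha⟩ := hW R d D x hx eR heR
  set Bt : ℕ := d * (c₁ * D) with hBt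
  set K : ℕ := Bt + d + 1 with hK
  obtain ⟨C₀, hC₀⟩ := ha K
  set C : ℝ := max C₀ 0 with hCdef
  have hC0 : 0 ≤ C := le_max_right _ _
  set β : ℕ → ℕ := fun i => (khlen y (S ⊗[R] ResidueField R) i).toNat with hβ
  have hβ0 : 1 ≤ β 0 := khlen_toNat_residue_pos G hpar
  set T : ℕ → ℤ := fun m => ∑ i ∈ Finset.Icc (m + 1) d, (-1 : ℤ) ^ i * (β i : ℤ) with hT
  set F : ℝ := ((d - 1).factorial : ℝ) with hFdef
  have hFpos : 0 < F := by rw [hFdef]; exact_mod_cast Nat.factorial_pos _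
  set C' : ℝ := (∑ m ∈ Finset.range d, |(T m : ℝ)|) * C +
    ∑ _r ∈ Finset.Icc (-((3 * d + 3 : ℕ) : ℤ)) (3 * d + 3 : ℕ),
      (Bt : ℝ) * (∑ i ∈ Finset.range (d + 1), (β i : ℝ)) * C with hC'
  have key : ∀ e : ℕ, (F * ((β 0 : ℝ) * eR - eS)) * ((p ^ e : ℕ) : ℝ) ≤ C' := by
    intro e
    have hq0 : 0 < p ^ e := pow_pos (Fact.out : p.Prime).pos e
    rw [heS']
    refine scale_bound G p hSI hx hRS hpar hc₁0 c hc e (a (p ^ e)) (fun j r => ?_) eR C hC0 K
      (by omega) (fun j r h1 h2 h3 => ((hC₀ _ hq0 j h1 h2).2.1 r h3).trans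
        (mul_le_mul_of_nonneg_right (le_max_left _ _) (by positivity)))
      (fun j h1 h2 => ((hC₀ _ hq0 j (by omega) (by omega)).2.2 h1 h2).trans
        (mul_le_mul_of_nonneg_right (le_max_left _ _) (by positivity)))
    obtain ⟨_, h⟩ := ha j.natAbs
    exact (h _ hq0 j (by omega) (by omega)).1 r
  have hle : (β 0 : ℝ) * eR - eS ≤ 0 := by
    by_contra hpos
    push_neg at hpos
    obtain ⟨N, hN⟩ := exists_nat_gt (C' / (F * ((β 0 : ℝ) * eR - eS)))
    have hN' : (N : ℝ) ≤ ((p ^ N : ℕ) : ℝ) := by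
      exact_mod_cast (Nat.lt_pow_self (Fact.out : p.Prime).one_lt).le
    rw [div_lt_iff₀ (mul_pos hFpos hpos)] at hN
    nlinarith [key N, mul_le_mul_of_nonneg_left hN' (mul_pos hFpos hpos).le]
  have heR0 : 0 ≤ eR := ge_of_tendsto' heR fun n => by positivity
  have hβ' : (1 : ℝ) ≤ (β 0 : ℝ) := by exact_mod_cast hβ0
  nlinarith [mul_nonneg (sub_nonneg.2 hβ') heR0]

/-- The positive dimensional case for a ring with finite Frobenius. -/
theorem mult_le_of_infinite (G : KoszulGoals.{u}) (hRed : GoalReduction.{u})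
    (hC : GoalPhiClass.{u}) (hW : GoalPhiWindow.{u}) (p : ℕ) [Fact p.Prime] [CharP R p]
    (hF : (frobenius R p).Finite) [Infinite (ResidueField S)] {d : ℕ} (hd0 : 0 < d)
    (hR : ndim R = d) (hS : ndim S = d) {eR eS : ℝ} (heR : HasMult R eR) (heS : HasMult S eS) :
    eR ≤ eS :=
  mult_le_of_scale G hRed hW p
    (fun _ _ hx _ hy _ hM c hc e a hfin =>
      scale_inequality G hC p hF hx (hR.trans hS.symm) hy hM c hc e a hfin)
    hd0 hR hS heR heS

/-- `e(R) ≤ e(S)` when `dim R = dim S`, `R` has characteristic `p` and the residue field of `R` is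
F-finite. -/
theorem mult_le_of_ndim_eq (G : KoszulGoals.{u}) (hRed : GoalReduction.{u})
    (hC : GoalPhiClass.{u}) (hW : GoalPhiWindow.{u}) (p : ℕ) [Fact p.Prime] [CharP R p]
    [CharP (ResidueField R) p] (hF : (frobenius (ResidueField R) p).Finite)
    (h : ndim R = ndim S) {eR eS : ℝ} (heR : HasMult R eR) (heS : HasMult S eS) : eR ≤ eS := by
  rcases Nat.eq_zero_or_pos (ndim R) with h0 | h0
  · exact mult_le_of_dim_zero h0 (h ▸ h0) heR heS
  obtain ⟨R', S', _, _, _, _, _, _, _, _, _, _, hF', _, hR', hS', hmR, hmS⟩ :=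
    goalReduce p R S hF h
  exact mult_le_of_infinite G hRed hC hW p hF' h0 hR' (hS'.trans h.symm) (hmR eR heR)
    (hmS eS heS)

end Vale.Agent.P202
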