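import Vale.Agent.P202.M7Ghost

/-! Passing twisted complexes to a window and back (for the ghost of the band complexes). -/

universe u

namespace Vale.Agent.P202

open TensorProduct

section

variable {R S : Type*} [CommRing R] [CommRing S] {B : Type*} [AddCommGroup B] [Module R B]
  [Module S B] [SMulCommClass R S B] [Module.Flat R B] {A A₀ A' : Type*} [AddCommGroup A]
  [Module R A] [AddCommGroup A₀] [Module R A₀] [AddCommGroup A'] [Module R A'] {d : ℕ}
  {y : Fin d → S} {P Gt : ℤ → Submodule R A} {P' Gt' : ℤ → Submodule R A'}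

/-- A member of `DT` whose components lie in a submodule, pushed to another complex. -/
lemma exists_transfer {i : A₀ →ₗ[R] A} {g : A₀ →ₗ[R] A'}
    {τ : ℕ → ℤ} {r : ℤ}
    (hrange : ∀ l, l ≤ d → Gt (τ l) ≤ LinearMap.range i)
    (hPG : ∀ j r v, i v ∈ Gt j → i v ∈ P r → g v ∈ Gt' j ∧ g v ∈ P' r)
    (hG : ∀ j v, i v ∈ Gt j → g v ∈ Gt' j)
    {f : Finset (Fin d) → B ⊗[R] A} (hf : f ∈ DT B y P Gt τ r) :
    ∃ F : Finset (Fin d) → B ⊗[R] A₀, kmap d (lT S B i) F = f ∧
      kmap d (lT S B g) F ∈ DT B y P' Gt' τ r := by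
  rw [mem_DT] at hf
  have hc : ∀ s : Finset (Fin d), s.card ≤ d := fun s => (Finset.card_le_univ s).trans (by simp)
  have hex : ∀ s, ∃ z, lT S B i z = f s := by
    intro s
    have h1 := gbar_mono (S := S) (B := B) (inf_le_left.trans (hrange _ (hc s))) (hf.1 s)
    rw [← Submodule.map_top, gbar_map, gbar_top, Submodule.map_top] at h1
    exact h1
  choose F hF using hex
  have hkF : kmap d (lT S B i) F = f := funext fun s => by rw [kmap_apply, hF]
  refine ⟨F, hkF, ?_⟩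
  rw [mem_DT]
  refine ⟨fun s => ?_, fun s => ?_⟩
  · have h1 : F s ∈ gbar S B ((Gt (τ s.card) ⊓ P (r + s.card)).comap i) := by
      rw [gbar_comap, Submodule.mem_comap, hF]
      exact hf.1 s
    refine lT_mem_gbar ?_ h1
    rintro _ ⟨v, hv, rfl⟩
    exact hPG _ _ v hv.1 hv.2
  · have h1 : kd y (B ⊗[R] A₀) F s ∈ gbar S B ((Gt (τ s.card)).comap i) := by
      rw [gbar_comap, Submodule.mem_comap, ← kmap_apply (d := d), ← kd_kmap, hkF]
      exact hf.2 s
    rw [kd_kmap, kmap_apply]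
    refine lT_mem_gbar ?_ h1
    rintro _ ⟨v, hv, rfl⟩
    exact hG _ v hv

/-- Members of `DT` of a quotient window lift. -/
lemma exists_lift_DT {π : A →ₗ[R] A'} {c : ℤ}
    (hPG : ∀ j r, j ≤ c → Gt' j ⊓ P' r ≤ (Gt j ⊓ P r).map π)
    (hG : ∀ j, j ≤ c → (Gt' j).comap π ≤ Gt j)
    {τ : ℕ → ℤ} (hτ : ∀ l, l ≤ d → τ l ≤ c) {r : ℤ} {g : Finset (Fin d) → B ⊗[R] A'}
    (hg : g ∈ DT B y P' Gt' τ r) :
    ∃ h ∈ DT B y P Gt τ r, kmap d (lT S B π) h = g := by
  rw [mem_DT] at hg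
  have hc : ∀ s : Finset (Fin d), s.card ≤ d := fun s => (Finset.card_le_univ s).trans (by simp)
  have hex : ∀ s : Finset (Fin d),
      ∃ z ∈ gbar S B (Gt (τ s.card) ⊓ P (r + s.card)), lT S B π z = g s := by
    intro s
    have h1 := gbar_mono (S := S) (B := B) (hPG _ _ (hτ _ (hc s))) (hg.1 s)
    rw [gbar_map] at h1
    exact h1
  choose h hh hπ using hex
  have hkh : kmap d (lT S B π) h = g := funext fun s => by rw [kmap_apply, hπ]
  refine ⟨h, ?_, hkh⟩
  rw [mem_DT]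
  refine ⟨hh, fun s => ?_⟩
  refine gbar_mono (hG _ (hτ _ (hc s))) ?_
  rw [gbar_comap, Submodule.mem_comap, ← kmap_apply (d := d), ← kd_kmap, hkh]
  exact hg.2 s

end

end Vale.Agent.P202
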