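import Vale.Agent.P202.BandDefs

/-!
Interfaces for mixed characteristic: what the band ring gives, in three parts (complex and ghost,
block ranks, comparison of `H^0` with free modules), which combine to a rank system.
-/

universe u

namespace Vale.Agent.P202

open IsLocalRing TensorProduct

/-- The standing hypotheses on the band context. -/
structure BandCtx (p : ℕ) [Fact p.Prime] (R : Type u) [CommRing R] [IsLocalRing R] {k : Type u}
    [Field k] [CharP k p] [PerfectRing k p] (A : Type u) [CommRing A] [IsLocalRing A] [Algebra R A]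
    [Algebra (WittVector p k) A] {d : ℕ} (xR : Fin d → R) (b : ℕ) (G : ℕ → Ideal A)
    (ι : ResidueField R →+* k) (e : ℝ) : Prop where
  d_pos : 0 < d
  dim_eq : ndim R = d
  x_mem : ∀ l, xR l ∈ maximalIdeal R
  nu : NuFil p k A (fun l => algebraMap R A (xR l)) b G
  residue_surj : Function.Surjective ((residue A).comp (algebraMap (WittVector p k) A))
  map_max : (maximalIdeal R).map (algebraMap R A) = maximalIdeal A
  p_mem : (p : A) ∈ maximalIdeal A
  ι_spec : ∀ r : R, ∀ a, residue A (algebraMap (WittVector p k) A a) = residue A (algebraMap R A r) →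
    a.coeff 0 = ι (residue R r)
  hilbert : ∃ C : ℕ, ∀ T : ℕ,
    Module.length A (A ⧸ maximalIdeal A ^ T) ≤ Module.length R (R ⧸ maximalIdeal R ^ T) ∧
    Module.length R (R ⧸ maximalIdeal R ^ T) ≤
      Module.length A (A ⧸ maximalIdeal A ^ T) + (C * T ^ (d - 1) : ℕ)
  mult : HasMult R e

namespace Band

variable {p : ℕ} [Fact p.Prime] {R : Type u} [CommRing R] [IsLocalRing R] {k : Type u} [Field k]
  [CharP k p] [PerfectRing k p] {A : Type u} [CommRing A] [Algebra R A]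
  [Algebra (WittVector p k) A] {d : ℕ} {x : Fin d → A} {b : ℕ} {G : ℕ → Ideal A}
  {CI : CIData p k A x b G} {ι : ResidueField R →+* k} {i j K : ℕ}
  (B : Band p R CI ι i j K)

/-- The expansion `m = q / Q`. -/
def mm : ℕ := p ^ (B.jq - j)

/-- The unit of length: `[κ : k] m ^ (n + 1) q ^ d`. -/
def unit : ℕ := B.c * B.mm ^ (CI.n + 1) * B.qq ^ d

/-- The roots of the coefficients of the complete intersection lie in the residue field. -/
def Rich : Prop :=
  ∀ (v : Hv CI.n) (γ : Vr d CI.n →₀ ℕ), MvPolynomial.coeff γ (rootPoly p j (CI.F v)) ∈ B.κ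

/-- The rank of `D ^ a` on the block `t` of the `E`-part, in degree `r`, as an `R`-length. -/
noncomputable def blkRank (H : ℕ) (hK : 2 * b * H ≤ K) (t r : ℤ) (a : ℕ)
    (hdl : letI := B.rMod H hK; LevelEnd (B.toR H hK (B.dC H))
      (fun r => B.subR H hK (B.pC H r)) (fun t => B.subR H hK (B.gC H t))
      (B.toR H hK (B.dlC H))) : ℕ :=
  letI := B.rMod H hK
  rkD (hdl.winMap t (t + 1) r) a

end Band

/-- The part of the complex: filtered system, endomorphism, ghost. -/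
def GoalBandFilt : Prop :=
  ∀ (p : ℕ) [Fact p.Prime] (R : Type u) [CommRing R] [IsLocalRing R] [IsNoetherianRing R]
    (k : Type u) [Field k] [CharP k p] [PerfectRing k p] (A : Type u) [CommRing A] [IsLocalRing A]
    [IsNoetherianRing A] [Algebra R A] [Algebra (WittVector p k) A] (d : ℕ) (xR : Fin d → R)
    (b : ℕ) (G : ℕ → Ideal A) (ι : ResidueField R →+* k) (e : ℝ),
    BandCtx p R A xR b G ι e → ∀ (CI : CIData p k A (fun l => algebraMap R A (xR l)) b G)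
    (i j K : ℕ) (B : Band p R CI ι i j K) (H : ℕ) (hK : 2 * b * H ≤ K),
    letI := B.rMod H hK
    FiltSys (maximalIdeal R) d (B.toR H hK (B.dC H)) (fun r => B.subR H hK (B.pC H r))
        (fun t => B.subR H hK (B.gC H t)) ∧
      (∀ t : ℤ, t ≤ -(H : ℤ) → B.gC H t = B.gC H (-(H : ℤ))) ∧ B.gC H H = ⊥ ∧
      LevelEnd (B.toR H hK (B.dC H)) (fun r => B.subR H hK (B.pC H r))
        (fun t => B.subR H hK (B.gC H t)) (B.toR H hK (B.dlC H)) ∧
      ∀ (S : Type u) [CommRing S] [Algebra R S] [Module.Flat R S] (N : ℕ) (y : Fin d → S),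
        (∀ l, algebraMap R S (xR l) ^ N ∈ Ideal.span (Set.range y)) →
        ∀ (τ υ : ℕ → ℤ), (∀ l, l < d → τ (l + 1) ≤ τ l) → (∀ l, l < d → υ (l + 1) ≤ υ l) →
          (∀ l, l ≤ d → τ l ≤ υ l) → -(H : ℤ) + (d * N : ℕ) ≤ τ d → υ 0 ≤ H →
          ∀ (r : ℤ), ∀ f ∈ DT S y (fun r => B.subR H hK (B.pC H r))
              (fun t => B.subR H hK (B.gC H t)) τ r,
            dT S y (B.toR H hK (B.dC H)) f ∈ DT S y (fun r => B.subR H hK (B.pC H r))
              (fun t => B.subR H hK (B.gC H t)) υ (r + 1) →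
            kmap d (lT S S (B.toR H hK (B.dlC H) ^ (d + 1))) f ∈
              (DT S y (fun r => B.subR H hK (B.pC H r)) (fun t => B.subR H hK (B.gC H t))
                  (fun l => τ l - (d * N : ℕ)) (r - 1)).map (dT S y (B.toR H hK (B.dC H))) ⊔
                DT S y (fun r => B.subR H hK (B.pC H r)) (fun t => B.subR H hK (B.gC H t))
                  (fun l => υ l - (d * N : ℕ)) r

/-- The part of the block ranks. -/
def GoalBandBlocks : Prop :=
  ∀ (p : ℕ) [Fact p.Prime] (R : Type u) [CommRing R] [IsLocalRing R] [IsNoetherianRing R]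
    (k : Type u) [Field k] [CharP k p] [PerfectRing k p] (A : Type u) [CommRing A] [IsLocalRing A]
    [IsNoetherianRing A] [Algebra R A] [Algebra (WittVector p k) A] (d : ℕ) (xR : Fin d → R)
    (b : ℕ) (G : ℕ → Ideal A) (ι : ResidueField R →+* k) (e : ℝ),
    BandCtx p R A xR b G ι e → ∀ (CI : CIData p k A (fun l => algebraMap R A (xR l)) b G)
    (H J : ℕ) (ε : ℝ), 0 < ε → ∃ i₀, ∀ i, i₀ ≤ i → ∃ j₁, ∀ j, j₁ ≤ j → ∀ (K : ℕ)
      (B : Band p R CI ι i j K) (_ : B.Rich) (hK : 2 * b * H ≤ K),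
        ∃ η : ℕ, (η : ℝ) ≤ ε * B.unit ∧
        letI := B.rMod H hK
        ∀ hdl : LevelEnd (B.toR H hK (B.dC H)) (fun r => B.subR H hK (B.pC H r))
          (fun t => B.subR H hK (B.gC H t)) (B.toR H hK (B.dlC H)),
        (∀ t r : ℤ, Module.length R (winH (B.toR H hK (B.dC H))
          (fun r => B.subR H hK (B.pC H r)) (fun t => B.subR H hK (B.gC H t)) t (t + 1) r) ≠ ⊤) ∧
        (∀ t r : ℤ, -(H : ℤ) ≤ t → t < H → Reg (hdl.winMap t (t + 1) r) 2 η J) ∧
        (∀ t r : ℤ, -(H : ℤ) ≤ t → t < H → ¬ InExpected d t r →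
          B.blkRank H hK t r 2 hdl ≤ η) ∧
        ∀ t : ℤ, -(d : ℤ) ≤ t → t ≤ -1 → -(H : ℤ) ≤ t → ∀ a, 2 ≤ a → a ≤ J →
          |((∑ r ∈ Finset.Icc (-(d : ℤ)) d, ((Int.negOnePow r : ℤˣ) : ℤ) *
              (B.blkRank H hK t r a hdl : ℤ) : ℤ) : ℝ) -
            (if t = -1 then ((d - 1).factorial : ℝ) * e * B.unit else 0)| ≤ (η : ℝ)

/-- The comparison of `H^0` of the windows `[0, T)` with free modules. -/
structure BandV {p : ℕ} [Fact p.Prime] {R : Type u} [CommRing R] [IsLocalRing R] {k : Type u}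
    [Field k] [CharP k p] [PerfectRing k p] {A : Type u} [CommRing A] [Algebra R A]
    [Algebra (WittVector p k) A] {d : ℕ} {x : Fin d → A} {b : ℕ} {G : ℕ → Ideal A}
    {CI : CIData p k A x b G} {ι : ResidueField R →+* k} {i j K : ℕ}
    (B : Band p R CI ι i j K) (H : ℕ) (hK : 2 * b * H ≤ K) (C J η : ℕ)
    (hdl : letI := B.rMod H hK; LevelEnd (B.toR H hK (B.dC H))
      (fun r => B.subR H hK (B.pC H r)) (fun t => B.subR H hK (B.gC H t))
      (B.toR H hK (B.dlC H)))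
    (hanti : letI := B.rMod H hK; Antitone (fun t => B.subR H hK (B.gC H t))) : Type (u + 1) where
  V : ℕ → Type u
  [instVGroup : ∀ T, AddCommGroup (V T)]
  [instVMod : ∀ T, Module R (V T)]
  toV : letI := B.rMod H hK; ∀ T : ℕ, winH (B.toR H hK (B.dC H))
    (fun r => B.subR H hK (B.pC H r)) (fun t => B.subR H hK (B.gC H t)) 0 T 0 →ₗ[R] V T
  fromV : letI := B.rMod H hK; ∀ T : ℕ, V T →ₗ[R] winH (B.toR H hK (B.dC H))
    (fun r => B.subR H hK (B.pC H r)) (fun t => B.subR H hK (B.gC H t)) 0 T 0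
  DV : ∀ T, V T →ₗ[R] V T
  toV_comm : ∀ T : ℕ, letI := B.rMod H hK; DV T ∘ₗ toV T = toV T ∘ₗ hdl.winMap 0 (T : ℤ) 0
  fromV_comm : ∀ T : ℕ, letI := B.rMod H hK;
    hdl.winMap 0 (T : ℤ) 0 ∘ₗ fromV T = fromV T ∘ₗ DV T
  from_to : ∀ T : ℕ, letI := B.rMod H hK; fromV T ∘ₗ toV T = hdl.winMap 0 (T : ℤ) 0
  to_from : ∀ T, letI := B.rMod H hK; toV T ∘ₗ fromV T = DV T
  trV : ∀ T T' : ℕ, T ≤ T' → (V T' →ₗ[R] V T)
  trV_toV : ∀ T T' (h : T ≤ T'), letI := B.rMod H hK;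
    trV T T' h ∘ₗ toV T' = toV T ∘ₗ winTr (B.toR H hK (B.dC H)) hanti 0 (Int.ofNat_le.2 h) 0
  V_finite : ∀ T, T ≤ H → Module.length R (V T) ≠ ⊤
  DV_ker : ∀ T, T ≤ H → ∀ a ≤ J, len R ↥(LinearMap.ker (DV T ^ a)) ≤ η
  n₀ : ℕ
  n₀_le : n₀ ≤ (d - 1).factorial * B.unit
  g : ∀ T, (Fin n₀ → R) →ₗ[R] V T
  g_nat : ∀ T T' (h : T ≤ T'), trV T T' h ∘ₗ g T' = g T
  g_kill : ∀ T, T ≤ H → ∀ v, (∀ t, v t ∈ maximalIdeal R ^ T) → g T v = 0
  g_ker : ∀ T, 0 < T → T ≤ H →
    sq R (LinearMap.ker (g T)) (Submodule.pi Set.univ fun _ : Fin n₀ => maximalIdeal R ^ T) ≤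
      ((C * B.unit * T ^ (d - 1) + η : ℕ) : ℕ∞)
  g_coker : ∀ T, 0 < T → T ≤ H →
    Module.length R (V T ⧸ LinearMap.range (g T)) ≤ ((C * B.unit * T ^ (d - 1) + η : ℕ) : ℕ∞)

attribute [instance] BandV.instVGroup BandV.instVMod

/-- The part of `H^0`. -/
def GoalBandV : Prop :=
  ∀ (p : ℕ) [Fact p.Prime] (R : Type u) [CommRing R] [IsLocalRing R] [IsNoetherianRing R]
    [Infinite (ResidueField R)] (k : Type u) [Field k] [CharP k p] [PerfectRing k p] [Infinite k]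
    (A : Type u) [CommRing A] [IsLocalRing A]
    [IsNoetherianRing A] [Algebra R A] [Algebra (WittVector p k) A] (d : ℕ) (xR : Fin d → R)
    (b : ℕ) (G : ℕ → Ideal A) (ι : ResidueField R →+* k) (e : ℝ),
    BandCtx p R A xR b G ι e → ∀ (CI : CIData p k A (fun l => algebraMap R A (xR l)) b G),
    ∃ C : ℕ, ∀ (H J : ℕ) (ε : ℝ), 0 < ε → ∃ i₀, ∀ i, i₀ ≤ i → ∃ j₁, ∀ j, j₁ ≤ j →
      ∃ Sk : Finset k, ∀ (K : ℕ) (B : Band p R CI ι i j K), (∀ s ∈ Sk, s ∈ B.κ) →
      C * (H + 1) ≤ K → ∀ (hK : 2 * b * H ≤ K), ∃ η : ℕ, (η : ℝ) ≤ ε * B.unit ∧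
        letI := B.rMod H hK
        ∀ (hdl : LevelEnd (B.toR H hK (B.dC H)) (fun r => B.subR H hK (B.pC H r))
            (fun t => B.subR H hK (B.gC H t)) (B.toR H hK (B.dlC H)))
          (hanti : Antitone (fun t => B.subR H hK (B.gC H t))),
          Nonempty (BandV B H hK C J η hdl hanti)

/-- The band contexts give rank systems of any quality. -/
def GoalBandSys : Prop :=
  ∀ (p : ℕ) [Fact p.Prime] (R : Type u) [CommRing R] [IsLocalRing R] [IsNoetherianRing R]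
    [Infinite (ResidueField R)] (k : Type u) [Field k] [CharP k p] [PerfectRing k p] [Infinite k]
    (A : Type u) [CommRing A] [IsLocalRing A]
    [IsNoetherianRing A] [Algebra R A] [Algebra (WittVector p k) A] (d : ℕ) (xR : Fin d → R)
    (b : ℕ) (G : ℕ → Ideal A) (ι : ResidueField R →+* k) (e : ℝ),
    BandCtx p R A xR b G ι e → ∀ (CI : CIData p k A (fun l => algebraMap R A (xR l)) b G),
    ∃ C : ℕ, ∀ (H J : ℕ) (ε : ℝ), 0 < ε → ∃ i₀, ∀ i, i₀ ≤ i → ∃ j₁, ∀ j, j₁ ≤ j →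
      ∃ Sk : Finset k, ∀ (K : ℕ), C * (H + 1) ≤ K → ∀ (B : Band p R CI ι i j K),
      (∀ s ∈ Sk, s ∈ B.κ) → ∀ (S : Type u) [CommRing S] [Algebra R S] [Module.Flat R S],
        ∃ Z η : ℕ, 0 < Z ∧ (η : ℝ) ≤ ε * Z ∧ Nonempty (RankSys (S := S) xR e C H J Z η)

end Vale.Agent.P202
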