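import Vale.Agent.P202.InterfacesM7G

/-! M7: the operators of `PhiGhost` for a general module, and their naturality. -/

universe u

namespace Vale.Agent.P202

open Finset

section

variable {R : Type*} [CommRing R] {M M' : Type*} [AddCommGroup M] [Module R M] [AddCommGroup M']
  [Module R M'] {d : ℕ}

lemma phiFil_zero_eq_top : phiFil R M d 0 = ⊤ :=
  eq_top_iff.2 fun _ _ _ hi => absurd hi (Nat.not_lt_zero _)

lemma phiFil_self_eq_bot (hd : 0 < d) : phiFil R M d d = ⊥ := by
  rw [eq_bot_iff]
  intro f hf
  rw [Submodule.mem_bot]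
  ext i
  refine hf i ?_
  have : i.nBoth ≤ d - 1 := (Finset.card_le_univ _).trans (by simp)
  omega

lemma chainMap_shOp (g : M →ₗ[R] M') (c : PLaur d) (f : PIdx d →₀ M) :
    chainMap g (shOp R M c f) = shOp R M' c (chainMap g f) := by
  induction f using Finsupp.induction_linear with
  | zero => simp
  | add f f' hf hf' => simp only [map_add, hf, hf']
  | single i v => simp [shOp_apply_single, map_sum]

lemma chainMap_projC (g : M →ₗ[R] M') (C : Fin (d - 1) → Fin 3) (f : PIdx d →₀ M) :
    chainMap g (projC R M C f) = projC R M' C (chainMap g f) := by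
  induction f using Finsupp.induction_linear with
  | zero => simp
  | add f f' hf hf' => simp only [map_add, hf, hf']
  | single i v =>
    rw [chainMap_single, projC_single, projC_single]
    split <;> simp

lemma chainMap_remOp (g : M →ₗ[R] M') (l : Fin d) (f : PIdx d →₀ M) :
    chainMap g (remOp R M l f) = remOp R M' l (chainMap g f) := by
  induction f using Finsupp.induction_linear with
  | zero => simp
  | add f f' hf hf' => simp only [map_add, hf, hf']
  | single i v =>
    rw [chainMap_single, remOp_single, remOp_single]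
    split <;> simp [map_zsmul]

lemma chainMap_cMul (g : M →ₗ[R] M') (c : (Fin (d - 1) → Fin 3) → Fin d → PLaur d) (l : Fin d)
    (f : PIdx d →₀ M) : chainMap g (cMul R M c l f) = cMul R M' c l (chainMap g f) := by
  simp only [cMul, LinearMap.sum_apply, map_sum, Module.End.mul_apply, chainMap_shOp,
    chainMap_projC]

lemma xOp_pow_eq_chainMap (X : Fin d → M →ₗ[R] M) (l : Fin d) (N : ℕ) :
    xOp R X l ^ N = chainMap (X l ^ N) := by
  refine Finsupp.lhom_ext fun i m => ?_
  rw [xOp_pow_single, chainMap_single]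

lemma map_pow_intertwine {X : M →ₗ[R] M} {X' : M' →ₗ[R] M'} {g : M →ₗ[R] M'}
    (h : ∀ v, g (X v) = X' (g v)) (N : ℕ) (v : M) : g ((X ^ N) v) = (X' ^ N) (g v) := by
  induction N generalizing v with
  | zero => rfl
  | succ N ih => rw [pow_succ, pow_succ, Module.End.mul_apply, Module.End.mul_apply, ih, h]

lemma chainMap_powHom {X : Fin d → M →ₗ[R] M} {X' : Fin d → M' →ₗ[R] M'} (g : M →ₗ[R] M')
    (hg : ∀ l v, g (X l v) = X' l (g v)) (l : Fin d) (N : ℕ) (f : PIdx d →₀ M) :
    chainMap g (powHom R X l N f) = powHom R X' l N (chainMap g f) := by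
  simp only [powHom, Module.End.mul_apply, LinearMap.sum_apply, map_sum, rhoOp]
  refine Finset.sum_congr rfl fun i _ => ?_
  have hx : ∀ z, chainMap g ((xOp R X l ^ i) z) = (xOp R X' l ^ i) (chainMap g z) := by
    intro z
    rw [xOp_pow_eq_chainMap, xOp_pow_eq_chainMap]
    induction z using Finsupp.induction_linear with
    | zero => simp
    | add z z' hz hz' => simp only [map_add, hz, hz']
    | single j v => simp only [chainMap_single, map_pow_intertwine (hg l)]
  rw [hx, ← map_pow, ← map_pow, chainMap_shOp, chainMap_shOp, chainMap_remOp]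

lemma chainMap_ghostHom (hd : 0 < d) (N : ℕ) {X : Fin d → M →ₗ[R] M}
    {X' : Fin d → M' →ₗ[R] M'} (g : M →ₗ[R] M') (hg : ∀ l v, g (X l v) = X' l (g v))
    (f : PIdx d →₀ M) :
    chainMap g (ghostHom R hd N X f) = ghostHom R hd N X' (chainMap g f) := by
  simp only [ghostHom, LinearMap.neg_apply, map_neg, LinearMap.sum_apply, map_sum,
    Module.End.mul_apply, chainMap_cMul, chainMap_powHom g hg]

lemma ghostPhi_comm (hd : 0 < d) (N : ℕ) (X : Fin d → M →ₗ[R] M) (l : Fin d) (m : ℕ)
    {f : PIdx d →₀ M} (hf : f ∈ phiFil R M d m) :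
    ghostPhi R M hd N l (phiD X f) - phiD X (ghostPhi R M hd N l f) ∈ phiFil R M d (m + 1) := by
  rw [ghostPhi]
  have hk := LinearMap.congr_fun (cMul_commute_kOp R (partC hd N) (X := X) l).eq f
  simp only [Module.End.mul_apply] at hk
  have h1 : cMul R M (partC hd N) l (chOp R M d f) ∈ phiFil R M d (m + 1) :=
    presFil_cMul R _ l _ (Submodule.mem_map_of_mem (chOp_raise R m (Submodule.mem_map_of_mem hf)))
  have h2 : chOp R M d (cMul R M (partC hd N) l f) ∈ phiFil R M d (m + 1) :=
    chOp_raise R m (Submodule.mem_map_of_mem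
      (presFil_cMul R _ l m (Submodule.mem_map_of_mem hf)))
  rw [phiD_eq_add, LinearMap.add_apply, LinearMap.add_apply, map_add]
  convert Submodule.sub_mem _ h1 h2 using 1
  rw [hk]
  abel

end

theorem goalPhiGhostGen : GoalPhiGhostGen.{u} := by
  intro R _ M M' _ _ _ _ d D hd N X X' hX a
  refine ⟨phiFil_zero_eq_top, phiFil_self_eq_bot hd, fun l => presFil_cMul R _ l,
    presFil_ghostHom R hd N X, fun l r => ?_, fun r => ?_,
    fun W hW c => ghostHom_le R hd N hW c,
    fun W l c => cMul_le R (fun C l => (exists_partition hd C N).choose_spec.1 l) l c,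
    fun l m f hf => ghostPhi_comm hd N X l m hf, fun m f hf => ?_,
    fun g l f => chainMap_cMul g _ l f, fun g hg f => chainMap_ghostHom hd N g hg f⟩
  · simpa [ghostPhi] using presDeg_cMul R (M := M) (partC hd N) l r
  · simpa [sub_eq_add_neg] using presDeg_ghostHom R hd N X r
  · simpa only [ghostPhi, xOp_pow_eq_chainMap] using ghost_general R hd N hX m f hf

end Vale.Agent.P202
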