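import Vale.Agent.P202.BFStage
import Vale.Agent.P202.BFWin
import Vale.Agent.P202.M7GhostPhi
import Vale.Agent.P202.InterfacesBand

/-! The stages of the ghost of the band complexes. -/

universe u

namespace Vale.Agent.P202

open IsLocalRing

namespace Band

variable {p : ℕ} [Fact p.Prime] {R : Type u} [CommRing R] [IsLocalRing R] {k : Type u} [Field k]
  [CharP k p] [PerfectRing k p] {A : Type u} [CommRing A] [Algebra R A]
  [Algebra (WittVector p k) A] {d : ℕ} {x : Fin d → A} {b : ℕ} {G : ℕ → Ideal A}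
  {CI : CIData p k A x b G} {ι : ResidueField R →+* k} {i j K : ℕ}
  (B : Band p R CI ι i j K) (H N : ℕ)

section lin

variable {M M' : Type u} [AddCommGroup M] [Module B.L M] [AddCommGroup M'] [Module B.L M']

/-- An `L`-linear map as an `R`-linear map. -/
noncomputable def linR (h : ∀ z ∈ B.Ann, ∀ v : M, z • v = 0)
    (h' : ∀ z ∈ B.Ann, ∀ v : M', z • v = 0) (g : M →ₗ[B.L] M') :
    letI := B.modRInst M h; letI := B.modRInst M' h'; M →ₗ[R] M' :=
  letI := B.modRInst M h
  letI := B.modRInst M' h'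
  { g with
    map_smul' := fun r v => by
      obtain ⟨z, hz⟩ := Ideal.Quotient.mk_surjective (B.χ (algebraMap R B.As r))
      simp only [RingHom.id_apply]
      rw [B.modR_smul M h r z hz.symm, B.modR_smul M' h' r z hz.symm]
      exact g.map_smul z v }

/-- An `L`-submodule as an `R`-submodule. -/
noncomputable def subMR (h : ∀ z ∈ B.Ann, ∀ v : M, z • v = 0) (P : Submodule B.L M) :
    letI := B.modRInst M h; Submodule R M :=
  letI := B.modRInst M h
  { P.toAddSubgroup.toAddSubmonoid with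
    smul_mem' := fun r v hv => by
      obtain ⟨z, hz⟩ := Ideal.Quotient.mk_surjective (B.χ (algebraMap R B.As r))
      rw [B.modR_smul M h r z hz.symm]
      exact P.smul_mem z hv }

end lin

/-- The bottom of the stage `k`. -/
def stBot (k : ℕ) : ℤ := -(H : ℤ) + ((d - k : ℕ) : ℤ) * N

/-- The top of the stage `k`. -/
def stTop (d : ℕ) (k : ℕ) : ℤ := (H : ℤ) - ((min k d : ℕ) : ℤ) * N

/-- The stage `k`. -/
abbrev Stg (k : ℕ) : Type u := ↥(B.winQ H (stBot (d := d) H N k) (stTop H N d k))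

variable {H N} (hK : 2 * b * H ≤ K)

include hK in
lemma stg_ann (k : ℕ) : ∀ z ∈ B.Ann, ∀ v : B.Stg H N k, z • v = 0 :=
  fun _ hz v => B.winQ_ann H _ _ hK hz v

/-- The `R`-module structures of the stages. -/
@[reducible]
noncomputable def stgMod (k : ℕ) : Module R (B.Stg H N k) :=
  B.modRInst _ (B.stg_ann hK k)

/-- The groups of the stages. -/
@[reducible]
noncomputable def stgGrp (k : ℕ) : AddCommGroup (B.Stg H N k) := inferInstance

/-- The filtered complexes of the stages. -/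
noncomputable def stgSys :
    letI := B.stgGrp (H := H) (N := N)
    letI := fun k => B.stgMod (H := H) (N := N) hK k
    StageSys (R := R) (B.Stg H N) :=
  letI := B.stgGrp (H := H) (N := N)
  letI := fun k => B.stgMod (H := H) (N := N) hK k
  { δ := fun k => B.linR (B.stg_ann hK k) (B.stg_ann hK k) (B.dW H _ _)
    P := fun k r => B.subMR (B.stg_ann hK k) (B.pQ H _ _ r)
    Gt := fun k t => B.subMR (B.stg_ann hK k) (B.gQ H _ _ t)
    Fil := fun k m => B.subMR (B.stg_ann hK k) (B.fQ H _ _ m)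
    sq0 := fun k => LinearMap.ext fun v => by
      obtain ⟨v, hv⟩ := v
      obtain ⟨w, rfl⟩ := Submodule.mkQ_surjective _ v
      refine Subtype.ext ?_
      show Submodule.Quotient.mk (B.dAmb H (B.dAmb H w)) = 0
      rw [B.dAmb_dAmb H, Submodule.Quotient.mk_zero]
    degree := fun k r => by
      rintro _ ⟨⟨_, hv⟩, ⟨w, hw, rfl⟩, rfl⟩
      exact ⟨B.dAmb H w, B.degAmb_map H r (Submodule.mem_map_of_mem hw), rfl⟩
    level := fun k t => by
      rintro _ ⟨⟨_, hv⟩, ⟨w, hw, rfl⟩, rfl⟩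
      exact ⟨B.dAmb H w, B.eAmb_stable H t (Submodule.mem_map_of_mem hw), rfl⟩
    anti := fun k s t hst v hv => Submodule.map_mono (B.eAmb_anti H hst) hv }

lemma id_shift (t : ℤ) :
    (B.Lam t).map (LinearMap.id : (PIdx d →₀ B.L) →ₗ[B.L] (PIdx d →₀ B.L)) ≤
      B.Lam (t - (0 : ℕ)) := by
  simp

lemma phi_shift (hd : 0 < d) (l : Fin d) (t : ℤ) :
    (B.Lam t).map (ghostPhi B.L B.L hd (B.qq * N) l) ≤ B.Lam (t - N) := by
  refine le_trans (cMul_le B.L (fun C l => (exists_partition hd C (B.qq * N)).choose_spec.1 l) l _)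
    (le_of_eq ?_)
  rw [Lam]
  congr 1
  simp only [blen]
  push_cast
  ring

lemma hom_shift (hd : 0 < d) (t : ℤ) :
    (B.Lam t).map (ghostHom B.L hd (B.qq * N) B.mulX) ≤ B.Lam (t - N) :=
  (ghostHom_le B.L hd (B.qq * N) B.famStable _).trans (B.Lam_anti (by omega))

variable (hN : d * N ≤ 2 * H)

include hN in
lemma stage_bounds {k : ℕ} (hk : k < d) :
    stTop H N d (k + 1) ≤ (H : ℤ) - N ∧ -(H : ℤ) ≤ stTop H N d (k + 1) ∧
    stTop H N d (k + 1) = stTop H N d k - N ∧
    stBot (d := d) H N (k + 1) = stBot (d := d) H N k - N ∧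
    -(H : ℤ) + N ≤ stBot (d := d) H N k := by
  have h1 : min (k + 1) d = k + 1 := by omega
  have h2 : min k d = k := by omega
  have h3 : d - k = d - (k + 1) + 1 := by omega
  have h4 : (k + 1) * N ≤ d * N := Nat.mul_le_mul_right _ hk
  have hN' : ((k + 1 : ℕ) : ℤ) * N ≤ 2 * H := by exact_mod_cast h4.trans hN
  simp only [stTop, stBot, h1, h2, h3]
  push_cast at hN' ⊢
  have h5 : (0 : ℤ) ≤ (k : ℤ) * N := by positivity
  have h6 : (0 : ℤ) ≤ ((d - (k + 1) : ℕ) : ℤ) * N := by positivity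
  refine ⟨?_, ?_, ?_, ?_, ?_⟩ <;> nlinarith

/-- The chain map of a stage. -/
noncomputable def stgInc (k : ℕ) : B.Stg H N k →ₗ[B.L] B.Stg H N (k + 1) :=
  if hk : k < d then
    B.opW H LinearMap.id _ _ _ _ 0 B.id_shift
      (by have := stage_bounds hN hk; omega) (by have := stage_bounds hN hk; omega)
      (by have := stage_bounds hN hk; omega) (by have := stage_bounds hN hk; omega)
  else 0

/-- The maps of a stage multiplied by the scalars. -/
noncomputable def stgPhi (hd : 0 < d) (k : ℕ) (l : Fin d) :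
    B.Stg H N k →ₗ[B.L] B.Stg H N (k + 1) :=
  if hk : k < d then
    B.opW H (ghostPhi B.L B.L hd (B.qq * N) l) _ _ _ _ N (B.phi_shift hd l)
      (by have := stage_bounds hN hk; omega) (by have := stage_bounds hN hk; omega)
      (by have := stage_bounds hN hk; omega) (by have := stage_bounds hN hk; omega)
  else 0

/-- The homotopy of a stage. -/
noncomputable def stgHom (hd : 0 < d) (k : ℕ) : B.Stg H N k →ₗ[B.L] B.Stg H N (k + 1) :=
  if hk : k < d then
    B.opW H (ghostHom B.L hd (B.qq * N) B.mulX) _ _ _ _ N (B.hom_shift hd)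
      (by have := stage_bounds hN hk; omega) (by have := stage_bounds hN hk; omega)
      (by have := stage_bounds hN hk; omega) (by have := stage_bounds hN hk; omega)
  else 0

lemma stgInc_cls {k : ℕ} (hk : k < d) (v : B.Stg H N k) (z : PIdx d →₀ B.L)
    (hz : B.clsQ H _ z = (v : B.Qw H (stTop H N d k))) :
    ((B.stgInc hN k v : B.Stg H N (k + 1)) : B.Qw H (stTop H N d (k + 1))) =
      B.clsQ H _ (B.E • z) := by
  rw [stgInc, dif_pos hk, opW_coe, ← hz, opQ_cls]
  rfl

lemma stgPhi_cls (hd : 0 < d) {k : ℕ} (hk : k < d) (l : Fin d) (v : B.Stg H N k)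
    (z : PIdx d →₀ B.L) (hz : B.clsQ H _ z = (v : B.Qw H (stTop H N d k))) :
    ((B.stgPhi hN hd k l v : B.Stg H N (k + 1)) : B.Qw H (stTop H N d (k + 1))) =
      B.clsQ H _ (B.E • ghostPhi B.L B.L hd (B.qq * N) l z) := by
  rw [stgPhi, dif_pos hk, opW_coe, ← hz, opQ_cls]

lemma stgHom_cls (hd : 0 < d) {k : ℕ} (hk : k < d) (v : B.Stg H N k)
    (z : PIdx d →₀ B.L) (hz : B.clsQ H _ z = (v : B.Qw H (stTop H N d k))) :
    ((B.stgHom hN hd k v : B.Stg H N (k + 1)) : B.Qw H (stTop H N d (k + 1))) =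
      B.clsQ H _ (B.E • ghostHom B.L hd (B.qq * N) B.mulX z) := by
  rw [stgHom, dif_pos hk, opW_coe, ← hz, opQ_cls]

lemma chainMap_mulX_pow (l : Fin d) (n : ℕ) (g : PIdx d →₀ B.L) :
    chainMap (B.mulX l ^ n) g = B.X l ^ n • g := by
  refine Finsupp.ext fun c => ?_
  rw [chainMap_apply, Finsupp.smul_apply, mulX, LinearMap.pow_mulLeft, LinearMap.mulLeft_apply,
    smul_eq_mul]

/-- The scalar `xR l ^ N` acts as `X l ^ (q N)`. -/
lemma chi_x_pow {xR : Fin d → R} (hx : ∀ l, algebraMap R A (xR l) = x l) (l : Fin d) :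
    B.χ (algebraMap R B.As (xR l ^ N)) = Ideal.Quotient.mk B.Ann (B.X l ^ (B.qq * N)) := by
  have h : algebraMap R B.As (xR l) = ⟨x l, B.x_mem l⟩ := Subtype.ext (hx l)
  rw [map_pow, h, map_pow, B.χ_x l, ← map_pow, ← pow_mul]
  rfl

lemma level_of_win {k : ℕ} {t : ℤ} {v : B.Stg H N k} (hv : v ∈ B.gQ H _ _ t) :
    v ∈ B.gQ H _ _ (max t (stBot (d := d) H N k)) := by
  rcases max_choice t (stBot (d := d) H N k) with h | h <;> rw [h]
  · exact hv
  · exact v.2

/-- The data of the stages. -/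
noncomputable def stgData (hd : 0 < d) {xR : Fin d → R} (hx : ∀ l, algebraMap R A (xR l) = x l)
    (S : Type u) [CommRing S] [Algebra R S] (y : Fin d → S) (cf : Fin d → Fin d → S)
    (hcf : ∀ l, algebraMap R S (xR l) ^ N = ∑ m, y m * cf l m) :
    letI := B.stgGrp (H := H) (N := N)
    letI := fun k => B.stgMod (H := H) (N := N) hK k
    StageData (B.stgSys (H := H) (N := N) hK) S y d N (fun l => xR l ^ N) :=
  letI := B.stgGrp (H := H) (N := N)
  letI := fun k => B.stgMod (H := H) (N := N) hK k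
  { c := cf
    a_smul := fun l s => by
      rw [Algebra.smul_def, smul_eq_mul, map_pow, hcf]
    ι := fun k => B.linR (B.stg_ann hK k) (B.stg_ann hK (k + 1)) (B.stgInc hN k)
    φ := fun k l => B.linR (B.stg_ann hK k) (B.stg_ann hK (k + 1)) (B.stgPhi hN hd k l)
    h := fun k => B.linR (B.stg_ann hK k) (B.stg_ann hK (k + 1)) (B.stgHom hN hd k)
    fil_zero := eq_top_iff.2 fun v _ => by
      obtain ⟨z, hz⟩ := B.clsQ_surjective H _ (v : B.Qw H (stTop H N d 0))
      exact ⟨z, fun i hi => absurd hi (Nat.not_lt_zero _), hz⟩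
    fil_end := eq_bot_iff.2 fun v hv => by
      obtain ⟨z, hz, hzv⟩ := hv
      rw [phiFil_self_eq_bot hd, SetLike.mem_coe, Submodule.mem_bot] at hz
      rw [Submodule.mem_bot]
      refine Subtype.ext ?_
      rw [hz, map_zero] at hzv
      exact hzv.symm
    ι_comm := fun k hk => LinearMap.ext fun v => by
      obtain ⟨z, hz⟩ := B.clsQ_surjective H _ (v : B.Qw H (stTop H N d k))
      refine Subtype.ext ?_
      show B.dQ H (stTop H N d (k + 1)) ((B.stgInc hN k v : B.Stg H N (k + 1)) : B.Qw H (stTop H N d (k + 1))) = ((B.stgInc hN k (B.dW H _ _ v) : B.Stg H N (k + 1)) : B.Qw H (stTop H N d (k + 1)))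
      rw [B.stgInc_cls hN hk v z hz, B.stgInc_cls hN hk (B.dW H _ _ v) (phiD B.mulX z) ?_, dQ_cls,
        map_smul (phiD B.mulX)]
      rw [← dQ_cls, hz]
      rfl
    ι_deg := fun k hk r => by
      rintro _ ⟨v, hv, rfl⟩
      show B.stgInc hN k v ∈ B.pQ H _ _ r
      rw [stgInc, dif_pos hk]
      exact B.opW_deg H (by simp) hv
    φ_deg := fun k hk l r => by
      rintro _ ⟨v, hv, rfl⟩
      show B.stgPhi hN hd k l v ∈ B.pQ H _ _ r
      rw [stgPhi, dif_pos hk]
      exact B.opW_deg H (by simpa [ghostPhi] using presDeg_cMul B.L (M := B.L) (partC hd (B.qq * N)) l r) hv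
    h_deg := fun k hk r => by
      rintro _ ⟨v, hv, rfl⟩
      show B.stgHom hN hd k v ∈ B.pQ H _ _ (r - 1)
      rw [stgHom, dif_pos hk]
      exact B.opW_deg H
        (by simpa [sub_eq_add_neg] using presDeg_ghostHom B.L hd (B.qq * N) B.mulX r) hv
    ι_level := fun k hk t => by
      rintro _ ⟨v, hv, rfl⟩
      show B.stgInc hN k v ∈ B.gQ H _ _ t
      rw [stgInc, dif_pos hk]
      exact B.opW_level H (by omega) hv
    φ_level := fun k hk l t => by
      rintro _ ⟨v, hv, rfl⟩
      show B.stgPhi hN hd k l v ∈ B.gQ H _ _ (t - N)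
      rw [stgPhi, dif_pos hk]
      exact B.opW_level H (by have := stage_bounds hN hk; omega) (B.level_of_win hv)
    h_level := fun k hk t => by
      rintro _ ⟨v, hv, rfl⟩
      show B.stgHom hN hd k v ∈ B.gQ H _ _ (t - N)
      rw [stgHom, dif_pos hk]
      exact B.opW_level H (by have := stage_bounds hN hk; omega) (B.level_of_win hv)
    comm := fun k hk l v hv => by
      obtain ⟨z, hz, hzv⟩ := hv
      have hd' : B.clsQ H _ (phiD B.mulX z) =
          (B.dW H _ _ v : B.Qw H (stTop H N d k)) := by rw [← dQ_cls, hzv]; rfl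
      refine ⟨B.E • (ghostPhi B.L B.L hd (B.qq * N) l (phiD B.mulX z) -
        phiD B.mulX (ghostPhi B.L B.L hd (B.qq * N) l z)),
        Submodule.smul_mem _ _ (ghostPhi_comm hd _ B.mulX l k hz), ?_⟩
      show _ = ((B.stgPhi hN hd k l (B.dW H _ _ v) : B.Stg H N (k + 1)) : B.Qw H (stTop H N d (k + 1))) -
        B.dQ H _ ((B.stgPhi hN hd k l v : B.Stg H N (k + 1)) : B.Qw H (stTop H N d (k + 1)))
      rw [B.stgPhi_cls hN hd hk l _ _ hd', B.stgPhi_cls hN hd hk l v z hzv, dQ_cls, smul_sub,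
        map_sub, map_smul (phiD B.mulX)]
    identity := fun k hk v hv => by
      obtain ⟨z, hz, hzv⟩ := hv
      have hd' : B.clsQ H _ (phiD B.mulX z) =
          (B.dW H _ _ v : B.Qw H (stTop H N d k)) := by rw [← dQ_cls, hzv]; rfl
      set F := B.qq * N with hF
      refine ⟨B.E • (z - ∑ l, chainMap (B.mulX l ^ F) (ghostPhi B.L B.L hd F l z) -
          phiD B.mulX (ghostHom B.L hd F B.mulX z) - ghostHom B.L hd F B.mulX (phiD B.mulX z)),
        Submodule.smul_mem _ _ (by
          simpa only [ghostPhi, xOp_pow_eq_chainMap] using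
            ghost_general B.L hd F B.mulX_comm k z hz), ?_⟩
      have hsum : ∀ l, ((xR l ^ N) • (B.linR (B.stg_ann hK k) (B.stg_ann hK (k + 1))
          (B.stgPhi hN hd k l)) v : B.Stg H N (k + 1)) =
            B.X l ^ F • B.stgPhi hN hd k l v := fun l =>
        B.modR_smul _ (B.stg_ann hK (k + 1)) _ _ (B.chi_x_pow hx l) _
      show _ = (((B.stgInc hN k v - ∑ l, ((xR l ^ N) • (B.linR (B.stg_ann hK k)
          (B.stg_ann hK (k + 1)) (B.stgPhi hN hd k l)) v)) -
          B.dW H _ _ (B.stgHom hN hd k v) - B.stgHom hN hd k (B.dW H _ _ v) :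
            B.Stg H N (k + 1)) : B.Qw H (stTop H N d (k + 1)))
      rw [Finset.sum_congr rfl fun l _ => hsum l]
      simp only [Submodule.coe_sub, Submodule.coe_sum, Submodule.coe_smul]
      rw [B.stgInc_cls hN hk v z hzv, B.stgHom_cls hN hd hk _ _ hd',
        show (B.dW H _ _ (B.stgHom hN hd k v) : B.Qw H (stTop H N d (k + 1))) =
          B.dQ H _ (B.stgHom hN hd k v : B.Qw H (stTop H N d (k + 1))) from rfl, B.stgHom_cls hN hd hk v z hzv, dQ_cls]
      simp only [B.stgPhi_cls hN hd hk _ v z hzv, chainMap_mulX_pow, smul_sub, map_sub, map_sum,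
        Finset.smul_sum, map_smul, ← hF, smul_comm B.E] }

end Band

end Vale.Agent.P202
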