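import Vale.Agent.P202.BandDefs

/-!
The windows `[a, c)` of the `E`-part inside the chains modulo a level, and the operators
`E • Φ` between them.
-/

universe u

namespace Vale.Agent.P202

open IsLocalRing

namespace Band

variable {p : ℕ} [Fact p.Prime] {R : Type u} [CommRing R] [IsLocalRing R] {k : Type u} [Field k]
  [CharP k p] [PerfectRing k p] {A : Type u} [CommRing A] [Algebra R A]
  [Algebra (WittVector p k) A] {d : ℕ} {x : Fin d → A} {b : ℕ} {G : ℕ → Ideal A}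
  {CI : CIData p k A x b G} {ι : ResidueField R →+* k} {i j K : ℕ}
  (B : Band p R CI ι i j K) (H : ℕ)

/-- The action of `R` on a module killed by `Ann`. -/
noncomputable def modR (M : Type u) [AddCommGroup M] [Module B.L M]
    (h : ∀ z ∈ B.Ann, ∀ v : M, z • v = 0) : R →+* Module.End B.L M :=
  (Ideal.Quotient.lift B.Ann (Module.toModuleEnd B.L M)
    fun z hz => LinearMap.ext fun v => h z hz v).comp (B.χ.comp (algebraMap R B.As))

/-- The `R`-module structure. -/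
@[reducible]
noncomputable def modRInst (M : Type u) [AddCommGroup M] [Module B.L M]
    (h : ∀ z ∈ B.Ann, ∀ v : M, z • v = 0) : Module R M :=
  Module.compHom _ (B.modR M h)

lemma modR_smul (M : Type u) [AddCommGroup M] [Module B.L M]
    (h : ∀ z ∈ B.Ann, ∀ v : M, z • v = 0) (r : R) (z : B.L)
    (hz : B.χ (algebraMap R B.As r) = Ideal.Quotient.mk B.Ann z) (v : M) :
    letI := B.modRInst M h; r • v = z • v := by
  show B.modR M h r v = z • v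
  rw [modR, RingHom.comp_apply, RingHom.comp_apply, hz, Ideal.Quotient.lift_mk]
  rfl

/-- The chains modulo the level `H` and the level `c` of the `E`-part. -/
abbrev Qw (c : ℤ) : Type u := B.Amb H ⧸ B.eAmb H c

/-- The class of a chain. -/
noncomputable def clsQ (c : ℤ) : (PIdx d →₀ B.L) →ₗ[B.L] B.Qw H c :=
  (B.eAmb H c).mkQ ∘ₗ (B.Lam H).mkQ

lemma clsQ_surjective (c : ℤ) : Function.Surjective (B.clsQ H c) :=
  (Submodule.mkQ_surjective _).comp (Submodule.mkQ_surjective _)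

lemma eAmb_anti {s t : ℤ} (h : s ≤ t) : B.eAmb H t ≤ B.eAmb H s :=
  Submodule.map_mono (Submodule.map_mono (B.Lam_anti (max_le_max_right _ h)))

lemma mem_eAmb {t : ℤ} {v : B.Amb H} : v ∈ B.eAmb H t ↔
    ∃ w ∈ B.Lam (max t (-(H : ℤ))), (B.Lam H).mkQ (B.E • w) = v := by
  constructor
  · rintro ⟨_, ⟨w, hw, rfl⟩, rfl⟩
    exact ⟨w, hw, by rw [map_smul]; rfl⟩
  · rintro ⟨w, hw, rfl⟩
    exact ⟨_, Submodule.mem_map_of_mem hw, by rw [map_smul]; rfl⟩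

lemma eAmb_top : B.eAmb H H = ⊥ := by
  rw [eq_bot_iff]
  intro v hv
  obtain ⟨w, hw, rfl⟩ := (B.mem_eAmb H).1 hv
  rw [max_eq_left (by omega)] at hw
  rw [Submodule.mem_bot, Submodule.mkQ_apply, Submodule.Quotient.mk_eq_zero]
  exact Submodule.smul_mem _ _ hw

lemma eAmb_bottom {t : ℤ} (h : t ≤ -(H : ℤ)) : B.eAmb H t = B.eAmb H (-(H : ℤ)) := by
  simp only [eAmb, lamAmb, max_eq_right h, max_self]

lemma E_smul_mem_eAmb {t : ℤ} {z : PIdx d →₀ B.L} (hz : z ∈ B.Lam (max t (-(H : ℤ)))) :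
    (B.Lam H).mkQ (B.E • z) ∈ B.eAmb H t :=
  (B.mem_eAmb H).2 ⟨z, hz, rfl⟩

variable (a c : ℤ)

/-- The window `[a, c)` of the `E`-part. -/
noncomputable def winQ : Submodule B.L (B.Qw H c) := (B.eAmb H a).map (B.eAmb H c).mkQ

/-- Its levels. -/
noncomputable def gQ (t : ℤ) : Submodule B.L ↥(B.winQ H a c) :=
  ((B.eAmb H t).map (B.eAmb H c).mkQ).comap (B.winQ H a c).subtype

/-- Its degree parts. -/
noncomputable def pQ (r : ℤ) : Submodule B.L ↥(B.winQ H a c) :=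
  ((B.degAmb H r).map (B.eAmb H c).mkQ).comap (B.winQ H a c).subtype

/-- Its filtration. -/
noncomputable def fQ (m : ℕ) : Submodule B.L ↥(B.winQ H a c) :=
  ((phiFil B.L B.L d m).map (B.clsQ H c)).comap (B.winQ H a c).subtype

lemma winQ_ann (hK : 2 * b * H ≤ K) {z : B.L} (hz : z ∈ B.Ann) (v : ↥(B.winQ H a c)) :
    z • v = 0 := by
  obtain ⟨_, hv'⟩ := v
  obtain ⟨w, hw, rfl⟩ := hv'
  refine Subtype.ext ?_
  have hw' : w ∈ B.eAmb H (-(H : ℤ)) := by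
    rcases le_total a (-(H : ℤ)) with h | h
    · rwa [B.eAmb_bottom H h] at hw
    · exact B.eAmb_anti H h hw
  have h0 : z • w = 0 := by
    simpa using congrArg Subtype.val (B.ann_smul H hK hz ⟨w, hw'⟩)
  simp only [SetLike.val_smul, ZeroMemClass.coe_zero, ← map_smul, h0, map_zero]

/-- The operator `E • Φ` from the chains modulo the level `c` to those modulo `c'`. -/
noncomputable def opQ (Φ : (PIdx d →₀ B.L) →ₗ[B.L] (PIdx d →₀ B.L)) (c c' : ℤ) (σ : ℕ)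
    (hΦ : ∀ t : ℤ, (B.Lam t).map Φ ≤ B.Lam (t - σ)) (h1 : c' ≤ (H : ℤ) - σ)
    (h2 : -(H : ℤ) ≤ c') (h3 : c' ≤ c - σ) : B.Qw H c →ₗ[B.L] B.Qw H c' :=
  Submodule.liftQ _
    (Submodule.liftQ (B.Lam H) ((B.clsQ H c') ∘ₗ (B.E • Φ)) fun z hz => by
      rw [LinearMap.mem_ker, LinearMap.comp_apply, clsQ, LinearMap.comp_apply, Submodule.mkQ_apply,
        Submodule.Quotient.mk_eq_zero, LinearMap.smul_apply]
      refine B.E_smul_mem_eAmb H ?_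
      exact B.Lam_anti (by omega) (hΦ _ (Submodule.mem_map_of_mem hz)))
    fun v hv => by
      obtain ⟨w, hw, rfl⟩ := (B.mem_eAmb H).1 hv
      rw [LinearMap.mem_ker]
      show (B.clsQ H c') ((B.E • Φ) (B.E • w)) = 0
      rw [clsQ, LinearMap.comp_apply, Submodule.mkQ_apply, Submodule.Quotient.mk_eq_zero,
        LinearMap.smul_apply]
      refine B.E_smul_mem_eAmb H ?_
      exact B.Lam_anti (by omega) (hΦ _ (Submodule.mem_map_of_mem (Submodule.smul_mem _ _ hw)))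

variable {a} {Φ : (PIdx d →₀ B.L) →ₗ[B.L] (PIdx d →₀ B.L)} {c c' : ℤ} {σ : ℕ}
  {hΦ : ∀ t : ℤ, (B.Lam t).map Φ ≤ B.Lam (t - σ)} {h1 : c' ≤ (H : ℤ) - σ}
  {h2 : -(H : ℤ) ≤ c'} {h3 : c' ≤ c - σ}

lemma opQ_cls (z : PIdx d →₀ B.L) :
    B.opQ H Φ c c' σ hΦ h1 h2 h3 (B.clsQ H c z) = B.clsQ H c' (B.E • Φ z) := rfl

variable {a' : ℤ}

lemma opQ_level {t t' : ℤ} (ht : max t' (-(H : ℤ)) ≤ max t (-(H : ℤ)) - σ)
    {v : B.Qw H c} (hv : v ∈ (B.eAmb H t).map (B.eAmb H c).mkQ) :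
    B.opQ H Φ c c' σ hΦ h1 h2 h3 v ∈ (B.eAmb H t').map (B.eAmb H c').mkQ := by
  obtain ⟨_, hw', rfl⟩ := hv
  obtain ⟨w, hw, rfl⟩ := (B.mem_eAmb H).1 hw'
  refine ⟨_, B.E_smul_mem_eAmb H (B.Lam_anti ht
    (hΦ _ (Submodule.mem_map_of_mem (Submodule.smul_mem _ B.E hw)))), ?_⟩
  rfl

/-- The operator between windows. -/
noncomputable def opW (Φ : (PIdx d →₀ B.L) →ₗ[B.L] (PIdx d →₀ B.L)) (a c a' c' : ℤ) (σ : ℕ)
    (hΦ : ∀ t : ℤ, (B.Lam t).map Φ ≤ B.Lam (t - σ)) (h1 : c' ≤ (H : ℤ) - σ)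
    (h2 : -(H : ℤ) ≤ c') (h3 : c' ≤ c - σ)
    (h4 : max a' (-(H : ℤ)) ≤ max a (-(H : ℤ)) - σ) :
    ↥(B.winQ H a c) →ₗ[B.L] ↥(B.winQ H a' c') :=
  (B.opQ H Φ c c' σ hΦ h1 h2 h3).restrict fun _ hv => B.opQ_level H h4 hv

variable {h4 : max a' (-(H : ℤ)) ≤ max a (-(H : ℤ)) - σ}

@[simp] lemma opW_coe (v : ↥(B.winQ H a c)) :
    ((B.opW H Φ a c a' c' σ hΦ h1 h2 h3 h4 v : ↥(B.winQ H a' c')) : B.Qw H c') =
      B.opQ H Φ c c' σ hΦ h1 h2 h3 v := rfl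

lemma opW_level {t t' : ℤ} (ht : max t' (-(H : ℤ)) ≤ max t (-(H : ℤ)) - σ)
    {v : ↥(B.winQ H a c)} (hv : v ∈ B.gQ H a c t) :
    B.opW H Φ a c a' c' σ hΦ h1 h2 h3 h4 v ∈ B.gQ H a' c' t' :=
  B.opQ_level H (hΦ := hΦ) (h1 := h1) (h2 := h2) (h3 := h3) ht hv

lemma opW_deg {r r' : ℤ} (hdeg : (phiDeg B.L B.L d r).map Φ ≤ phiDeg B.L B.L d r')
    {v : ↥(B.winQ H a c)} (hv : v ∈ B.pQ H a c r) :
    B.opW H Φ a c a' c' σ hΦ h1 h2 h3 h4 v ∈ B.pQ H a' c' r' := by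
  obtain ⟨_, ⟨z, hz, rfl⟩, hzv⟩ := hv
  have h := congrArg (B.opQ H Φ c c' σ hΦ h1 h2 h3) hzv
  refine ⟨(B.Lam H).mkQ (B.E • Φ z), ⟨B.E • Φ z,
    Submodule.smul_mem _ _ (hdeg (Submodule.mem_map_of_mem hz)), rfl⟩, ?_⟩
  exact h

/-- The differential on the chains modulo the level `c`. -/
noncomputable def dQ (c : ℤ) : B.Qw H c →ₗ[B.L] B.Qw H c :=
  (B.eAmb H c).mapQ (B.eAmb H c) (B.dAmb H)
    (Submodule.map_le_iff_le_comap.1 (B.eAmb_stable H c))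

lemma dQ_cls (z : PIdx d →₀ B.L) : B.dQ H c (B.clsQ H c z) = B.clsQ H c (phiD B.mulX z) := rfl

lemma dQ_map {N : Submodule B.L (B.Amb H)} (hN : N.map (B.dAmb H) ≤ N) {v : B.Qw H c}
    (hv : v ∈ N.map (B.eAmb H c).mkQ) : B.dQ H c v ∈ N.map (B.eAmb H c).mkQ := by
  obtain ⟨w, hw, rfl⟩ := hv
  exact ⟨B.dAmb H w, hN (Submodule.mem_map_of_mem hw), rfl⟩

/-- The differential of a window. -/
noncomputable def dW (a c : ℤ) : ↥(B.winQ H a c) →ₗ[B.L] ↥(B.winQ H a c) :=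
  (B.dQ H c).restrict fun _ hv => B.dQ_map H (B.eAmb_stable H a) hv

lemma degAmb_map (r : ℤ) : (B.degAmb H r).map (B.dAmb H) ≤ B.degAmb H (r + 1) := by
  rintro _ ⟨_, ⟨z, hz, rfl⟩, rfl⟩
  exact ⟨phiD B.mulX z, phiDeg_stable B.mulX r (Submodule.mem_map_of_mem hz), rfl⟩

lemma dAmb_dAmb (v : B.Amb H) : B.dAmb H (B.dAmb H v) = 0 := by
  obtain ⟨z, rfl⟩ := Submodule.mkQ_surjective _ v
  show (B.Lam H).mkQ (phiD B.mulX (phiD B.mulX z)) = 0
  rw [← LinearMap.comp_apply (phiD B.mulX) (phiD B.mulX),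
    phiD_phiD (X := B.mulX) B.mulX_comm, LinearMap.zero_apply, map_zero]

lemma D_smul_eq (hK : 2 * b * H ≤ K) (v : B.Chains H) : B.E • v = B.D • v := by
  have h : (B.D - B.E) • v = 0 := B.ann_smul H hK ((B.mem_Ann _).2 B.E_idem) v
  exact (sub_eq_zero.1 ((sub_smul B.D B.E v).symm.trans h)).symm

end Band

end Vale.Agent.P202
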