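import Vale.Agent.P202.BFOps

/-! The filtered system, the endomorphism and the ghost of the band complexes. -/

universe u

namespace Vale.Agent.P202

open IsLocalRing TensorProduct

set_option linter.style.haveILetI false

namespace Band

variable {p : ℕ} [Fact p.Prime] {R : Type u} [CommRing R] [IsLocalRing R] {k : Type u} [Field k]
  [CharP k p] [PerfectRing k p] {A : Type u} [CommRing A] [Algebra R A]
  [Algebra (WittVector p k) A] {d : ℕ} {x : Fin d → A} {b : ℕ} {G : ℕ → Ideal A}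
  {CI : CIData p k A x b G} {ι : ResidueField R →+* k} {i j K : ℕ}
  (B : Band p R CI ι i j K) {H : ℕ} (hK : 2 * b * H ≤ K)

lemma dlC_pow (n : ℕ) (v : B.Chains H) :
    letI := B.rMod H hK; (B.toR H hK (B.dlC H) ^ n) v = B.D ^ n • v := by
  letI := B.rMod H hK
  induction n generalizing v with
  | zero => simp
  | succ n ih =>
    rw [pow_succ', Module.End.mul_apply, ih, pow_succ', mul_smul]
    rfl

include hK in
lemma E_pow_smul (n : ℕ) (v : B.Chains H) : B.E ^ n • v = B.D ^ n • v := by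
  induction n with
  | zero => simp
  | succ n ih =>
    rw [pow_succ', mul_smul, ih, B.D_smul_eq H hK, ← mul_smul, ← pow_succ']

lemma kill_gC (hA : ∀ a ∈ maximalIdeal R, ∃ z ∈ B.Fil B.blen,
    B.χ (algebraMap R B.As a) = Ideal.Quotient.mk B.Ann z) {t : ℤ} {a : R}
    (ha : a ∈ maximalIdeal R) {v : B.Chains H} (hv : v ∈ B.gC H t) :
    letI := B.rMod H hK; a • v ∈ B.gC H (t + 1) := by
  letI := B.rMod H hK
  obtain ⟨z, hz, hzc⟩ := hA a ha
  rw [B.smul_eq H hK a z hzc]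
  obtain ⟨w, hw, hwv⟩ := (B.mem_eAmb H).1 hv
  show z • (v : B.Amb H) ∈ B.eAmb H (t + 1)
  rw [← Submodule.coe_subtype, ← hwv, ← map_smul, smul_comm z B.E]
  refine B.E_smul_mem_eAmb H (B.Lam_anti (t := max t (-(H : ℤ)) + 1) (by omega) ?_)
  intro c
  refine ⟨?_, fun hc => by rw [Finsupp.smul_apply, (hw c).2 hc, smul_zero]⟩
  rw [Finsupp.smul_apply, smul_eq_mul]
  refine B.anti (le_of_eq ?_) (B.fil_mul _ _ (Ideal.mul_mem_mul hz (hw c).1))
  ring

lemma filtSys_band (hd : 0 < d) (hA : ∀ a ∈ maximalIdeal R, ∃ z ∈ B.Fil B.blen,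
    B.χ (algebraMap R B.As a) = Ideal.Quotient.mk B.Ann z) :
    letI := B.rMod H hK
    FiltSys (maximalIdeal R) d (B.toR H hK (B.dC H)) (fun r => B.subR H hK (B.pC H r))
      (fun t => B.subR H hK (B.gC H t)) := by
  letI := B.rMod H hK
  refine { sq0 := ?_, degree := ?_, level := ?_, anti := ?_, kill := ?_, bound := ?_ }
  · exact LinearMap.ext fun v => Subtype.ext (B.dAmb_dAmb H v.1)
  · intro r
    rintro _ ⟨v, hv, rfl⟩
    exact B.degAmb_map H r (Submodule.mem_map_of_mem hv)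
  · intro t
    rintro _ ⟨v, hv, rfl⟩
    exact B.eAmb_stable H t (Submodule.mem_map_of_mem hv)
  · intro s t hst v hv
    exact B.eAmb_anti H hst hv
  · exact fun t a ha v hv => B.kill_gC hK hA ha hv
  · intro r hr
    rw [eq_bot_iff]
    intro v hv
    obtain ⟨z, hz, hzv⟩ := hv
    rw [phiDeg_eq_bot hd hr, SetLike.mem_coe, Submodule.mem_bot] at hz
    rw [Submodule.mem_bot]
    refine Subtype.ext ?_
    rw [hz, map_zero] at hzv
    exact hzv.symm

lemma levelEnd_band :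
    letI := B.rMod H hK
    LevelEnd (B.toR H hK (B.dC H)) (fun r => B.subR H hK (B.pC H r))
      (fun t => B.subR H hK (B.gC H t)) (B.toR H hK (B.dlC H)) := by
  letI := B.rMod H hK
  refine ⟨?_, ?_, ?_⟩
  · exact LinearMap.ext fun v => (B.dC H).map_smul B.D v
  · intro r
    rintro _ ⟨v, hv, rfl⟩
    exact (B.pC H r).smul_mem B.D hv
  · intro t
    rintro _ ⟨v, hv, rfl⟩
    exact (B.gC H t).smul_mem B.D hv

theorem ghost_band (hd : 0 < d) {xR : Fin d → R} (hx : ∀ l, algebraMap R A (xR l) = x l)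
    (hF : letI := B.rMod H hK
      FiltSys (maximalIdeal R) d (B.toR H hK (B.dC H)) (fun r => B.subR H hK (B.pC H r))
        (fun t => B.subR H hK (B.gC H t)))
    (S : Type u) [CommRing S] [Algebra R S] [Module.Flat R S] (N : ℕ) (y : Fin d → S)
    (hy : ∀ l, algebraMap R S (xR l) ^ N ∈ Ideal.span (Set.range y)) (τ υ : ℕ → ℤ)
    (hτ : ∀ l, l < d → τ (l + 1) ≤ τ l) (hυ : ∀ l, l < d → υ (l + 1) ≤ υ l)
    (hle : ∀ l, l ≤ d → τ l ≤ υ l) (hbot : -(H : ℤ) + (d * N : ℕ) ≤ τ d) (htop : υ 0 ≤ H) :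
    letI := B.rMod H hK
    ∀ (r : ℤ), ∀ f ∈ DT S y (fun r => B.subR H hK (B.pC H r))
        (fun t => B.subR H hK (B.gC H t)) τ r,
      dT S y (B.toR H hK (B.dC H)) f ∈ DT S y (fun r => B.subR H hK (B.pC H r))
        (fun t => B.subR H hK (B.gC H t)) υ (r + 1) →
      kmap d (lT S S (B.toR H hK (B.dlC H) ^ (d + 1))) f ∈
        (DT S y (fun r => B.subR H hK (B.pC H r)) (fun t => B.subR H hK (B.gC H t))
            (fun l => τ l - (d * N : ℕ)) (r - 1)).map (dT S y (B.toR H hK (B.dC H))) ⊔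
          DT S y (fun r => B.subR H hK (B.pC H r)) (fun t => B.subR H hK (B.gC H t))
            (fun l => υ l - (d * N : ℕ)) r := by
  classical
  letI := B.rMod H hK
  intro r f hf hdf
  have hc : ∀ l, l ≤ d → υ l ≤ υ 0 ∧ τ d ≤ τ l := by
    have h1 : ∀ l, l ≤ d → υ l ≤ υ 0 := by
      intro l hl
      induction l with
      | zero => rfl
      | succ l ih => exact (hυ l hl).trans (ih (Nat.le_of_succ_le hl))
    have h2 : ∀ m, m ≤ d → τ d ≤ τ (d - m) := by
      intro m hm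
      induction m with
      | zero => rfl
      | succ m ih =>
        refine (ih (Nat.le_of_succ_le hm)).trans ?_
        have h := hτ (d - (m + 1)) (by omega)
        rwa [show d - (m + 1) + 1 = d - m by omega] at h
    intro l hl
    refine ⟨h1 l hl, ?_⟩
    simpa [show d - (d - l) = l by omega] using h2 (d - l) (by omega)
  have hN : d * N ≤ 2 * H := by
    have h1 := hle d le_rfl
    have h2 := (hc d le_rfl).1
    omega
  choose cf hcf using fun l => Ideal.mem_span_range_iff_exists_fun.1 (hy l)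
  have hcf' : ∀ l, algebraMap R S (xR l) ^ N = ∑ m, y m * cf l m := fun l => by
    rw [← hcf l]; exact Finset.sum_congr rfl fun m _ => mul_comm _ _
  letI := B.stgGrp (H := H) (N := N)
  letI := fun k => B.stgMod (H := H) (N := N) hK k
  let C := B.stgSys (H := H) (N := N) hK
  let SD := B.stgData hK hN hd hx S y cf hcf'
  -- the domain of the stages
  let a₀ : ℤ := stBot (d := d) H N 0
  have ha₀ : a₀ = -(H : ℤ) + (d * N : ℕ) := by simp [a₀, stBot]
  let G₀ := ↥(B.gC H a₀)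
  have hG₀ : ∀ z ∈ B.Ann, ∀ v : G₀, z • v = 0 := fun z hz v =>
    Subtype.ext (B.ann_smul H hK hz (v : B.Chains H))
  letI := B.modRInst G₀ hG₀
  let i₀ : G₀ →ₗ[R] B.Chains H :=
    B.linR (M := G₀) (M' := B.Chains H) hG₀ (fun z hz v => B.ann_smul H hK hz v) (B.gC H a₀).subtype
  let j₀ : G₀ →ₗ[R] B.Stg H N 0 := B.linR (M := G₀) (M' := B.Stg H N 0) hG₀ (B.stg_ann hK 0)
    (((B.eAmb H (stTop H N d 0)).mkQ ∘ₗ (B.eAmb H (-(H : ℤ))).subtype ∘ₗ
      (B.gC H a₀).subtype).codRestrict (B.winQ H a₀ (stTop H N d 0)) fun v =>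
        ⟨((v : B.Chains H) : B.Amb H), v.2, rfl⟩)
  have hbotd : stBot (d := d) H N d = -(H : ℤ) := by simp [stBot]
  let π : B.Chains H →ₗ[R] B.Stg H N d := B.linR (M := B.Chains H) (M' := B.Stg H N d) (fun z hz v => B.ann_smul H hK hz v)
    (B.stg_ann hK d) (((B.eAmb H (stTop H N d d)).mkQ ∘ₗ
      (B.eAmb H (-(H : ℤ))).subtype).codRestrict
        (B.winQ H (stBot (d := d) H N d) (stTop H N d d)) fun v =>
          ⟨(v : B.Amb H), by rw [hbotd]; exact v.2, rfl⟩)
  let δ₀ : G₀ →ₗ[R] G₀ := B.linR (M := G₀) (M' := G₀) hG₀ hG₀ ((B.dC H).restrict fun v hv =>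
    B.eAmb_stable H a₀ (Submodule.mem_map_of_mem hv))
  have hi : Function.Injective i₀ := Subtype.val_injective
  have hδi : B.toR H hK (B.dC H) ∘ₗ i₀ = i₀ ∘ₗ δ₀ := LinearMap.ext fun v => rfl
  have hδj : C.δ 0 ∘ₗ j₀ = j₀ ∘ₗ δ₀ := LinearMap.ext fun v => Subtype.ext rfl
  have hrange : ∀ t : ℤ, a₀ ≤ t → B.subR H hK (B.gC H t) ≤ LinearMap.range i₀ :=
    fun t ht v hv => ⟨⟨v, B.eAmb_anti H ht hv⟩, rfl⟩
  have hlev : ∀ (t : ℤ) (v : G₀), i₀ v ∈ B.subR H hK (B.gC H t) → j₀ v ∈ C.Gt 0 t :=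
    fun t v hv => ⟨((v : B.Chains H) : B.Amb H), hv, rfl⟩
  have hdeg : ∀ (q t : ℤ) (v : G₀), i₀ v ∈ B.subR H hK (B.gC H q) →
      i₀ v ∈ B.subR H hK (B.pC H t) → j₀ v ∈ C.Gt 0 q ∧ j₀ v ∈ C.P 0 t :=
    fun q t v hq ht => ⟨hlev q v hq, ((v : B.Chains H) : B.Amb H), ht, rfl⟩
  obtain ⟨F, hiF, hjF⟩ := exists_transfer (P' := C.P 0) (Gt' := C.Gt 0)
    (Gt := fun t => B.subR H hK (B.gC H t)) (P := fun r => B.subR H hK (B.pC H r)) (i := i₀)
    (g := j₀) (fun l hl => hrange _ (by have := (hc l hl).2; omega)) hdeg hlev hf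
  obtain ⟨F', hiF', hjF'⟩ := exists_transfer (P' := C.P 0) (Gt' := C.Gt 0)
    (Gt := fun t => B.subR H hK (B.gC H t)) (P := fun r => B.subR H hK (B.pC H r)) (i := i₀)
    (g := j₀) (fun l hl => hrange _ (by have := (hc l hl).2; have := hle l hl; omega)) hdeg hlev hdf
  have hF' : F' = dT S y δ₀ F := by
    funext s
    refine lT_injective (S := S) (B := S) hi ?_
    show kmap d (lT S S i₀) F' s = kmap d (lT S S i₀) (dT S y δ₀ F) s
    rw [hiF', ← dT_kmap i₀ hδi F, hiF]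
  rw [hF', ← dT_kmap j₀ hδj F] at hjF'
  have hghost := goalStageGhost R S S (B.Stg H N) C d d y d N (fun l => xR l ^ N) SD τ υ hτ hυ hle r
    _ hjF hjF'
  -- the composite of the stages
  have hcomp : ∀ k, k ≤ d → ∀ v : G₀,
      ((stageComp SD.ι k (j₀ v) : B.Stg H N k) : B.Qw H (stTop H N d k)) =
        (B.eAmb H (stTop H N d k)).mkQ (B.E ^ k • ((v : B.Chains H) : B.Amb H)) := by
    intro k hk v
    induction k with
    | zero => rw [pow_zero, one_smul]; rfl
    | succ k ih =>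
      obtain ⟨z, hz⟩ := Submodule.mkQ_surjective (B.Lam H)
        (B.E ^ k • ((v : B.Chains H) : B.Amb H))
      show ((B.stgInc hN k (stageComp SD.ι k (j₀ v)) : B.Stg H N (k + 1)) :
        B.Qw H (stTop H N d (k + 1))) = _
      rw [B.stgInc_cls hN hk _ z (by
          rw [ih (Nat.le_of_succ_le hk), clsQ, LinearMap.comp_apply, hz]),
        clsQ, LinearMap.comp_apply, map_smul (B.Lam H).mkQ, hz, smul_smul, ← pow_succ']
  let D₀ := B.toR H hK (B.dlC H)
  have hπ : stageComp SD.ι d ∘ₗ j₀ = π ∘ₗ (D₀ ^ d) ∘ₗ i₀ := LinearMap.ext fun v => by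
    refine Subtype.ext ?_
    rw [LinearMap.comp_apply, hcomp d le_rfl v]
    show _ = (B.eAmb H (stTop H N d d)).mkQ (((D₀ ^ d) (v : B.Chains H) : B.Chains H) : B.Amb H)
    rw [B.dlC_pow hK d, ← B.E_pow_smul hK d]
    rfl
  set f₁ := kmap d (lT S S (D₀ ^ d)) f with hf₁
  have hkey : kmap d (lT S S (stageComp SD.ι d)) (kmap d (lT S S j₀) F) =
      kmap d (lT S S π) f₁ := by
    funext s
    rw [hf₁, ← hiF]
    simp only [kmap_apply, lT_comp_apply]
    rw [hπ]
  rw [hkey] at hghost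
  obtain ⟨_, ⟨w, hw, rfl⟩, g, hg, hwg⟩ := Submodule.mem_sup.1 hghost
  -- lifting from the last stage
  have htopd : stTop H N d d = (H : ℤ) - (d * N : ℕ) := by simp [stTop]
  have hPG : ∀ q t : ℤ, q ≤ stTop H N d d →
      C.Gt d q ⊓ C.P d t ≤ (B.subR H hK (B.gC H q) ⊓ B.subR H hK (B.pC H t)).map π := by
    rintro q t hq v ⟨⟨u, hu, huv⟩, ⟨u', hu', hu'v⟩⟩
    have h1 : u' ∈ B.eAmb H q := by
      have h2 : u' - u ∈ B.eAmb H (stTop H N d d) := by
        have := hu'v.trans huv.symm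
        exact (Submodule.Quotient.eq _).1 this
      simpa using add_mem (B.eAmb_anti H hq h2) hu
    have h3 : u' ∈ B.eAmb H (-(H : ℤ)) := by
      rcases le_total q (-(H : ℤ)) with h | h
      · rwa [B.eAmb_bottom H h] at h1
      · exact B.eAmb_anti H h h1
    exact ⟨⟨u', h3⟩, ⟨h1, hu'⟩, Subtype.ext hu'v⟩
  have hGπ : ∀ q : ℤ, q ≤ stTop H N d d → (C.Gt d q).comap π ≤ B.subR H hK (B.gC H q) := by
    rintro q hq v ⟨u, hu, huv⟩
    have h2 : (v : B.Amb H) - u ∈ B.eAmb H (stTop H N d d) := (Submodule.Quotient.eq _).1 huv.symm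
    show (v : B.Amb H) ∈ B.eAmb H q
    simpa using add_mem (B.eAmb_anti H hq h2) hu
  have hδπ : C.δ d ∘ₗ π = π ∘ₗ B.toR H hK (B.dC H) := LinearMap.ext fun v => Subtype.ext rfl
  obtain ⟨w', hw', hπw⟩ := exists_lift_DT (P := fun r => B.subR H hK (B.pC H r))
    (Gt := fun t => B.subR H hK (B.gC H t)) hPG hGπ
    (fun l hl => by have := (hc l hl).1; have := hle l hl; omega) hw
  obtain ⟨g', hg', hπg⟩ := exists_lift_DT (P := fun r => B.subR H hK (B.pC H r))
    (Gt := fun t => B.subR H hK (B.gC H t)) hPG hGπ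
    (fun l hl => by have := (hc l hl).1; omega) hg
  set δC := B.toR H hK (B.dC H) with hδC
  have hD : ∀ (n : ℕ) (t : ℕ → ℤ) (q : ℤ), ∀ z ∈ DT S y (fun r => B.subR H hK (B.pC H r))
      (fun t => B.subR H hK (B.gC H t)) t q, kmap d (lT S S (D₀ ^ n)) z ∈
        DT S y (fun r => B.subR H hK (B.pC H r)) (fun t => B.subR H hK (B.gC H t)) t q := by
    intro n t q z hz
    refine kmap_mem_DT _ (fun m => ?_) (fun l => ?_) hz
    · rintro _ ⟨v, hv, rfl⟩
      rw [B.dlC_pow hK n]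
      exact (B.pC H _).smul_mem _ hv
    · rintro _ ⟨v, hv, rfl⟩
      rw [B.dlC_pow hK n]
      exact (B.gC H _).smul_mem _ hv
  set ρ := f₁ - dT S y δC w' - g' with hρ
  have hπρ : kmap d (lT S S π) ρ = 0 := by
    rw [hρ, map_sub, map_sub, hπg, ← dT_kmap π hδπ w', hπw, ← hwg]
    abel
  have hdTw : dT S y δC w' ∈ DT S y (fun r => B.subR H hK (B.pC H r))
      (fun t => B.subR H hK (B.gC H t)) (fun l => τ l - (d * N : ℕ)) r :=
    (DT_stable hF y _).map_pred r (Submodule.mem_map_of_mem hw')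
  have hρmem : ρ ∈ DT S y (fun r => B.subR H hK (B.pC H r))
      (fun t => B.subR H hK (B.gC H t)) (fun l => υ l - (d * N : ℕ)) r := by
    have h0 : ∀ s : Finset (Fin d), lT S S π (ρ s) = 0 := fun s => congrFun hπρ s
    have hker : ∀ z, lT S S π z = 0 → ∀ q : ℤ, q ≤ stTop H N d d →
        z ∈ gbar S S (B.subR H hK (B.gC H q)) := fun z hz q hq => by
      refine gbar_mono (hGπ q hq) ?_
      rw [gbar_comap, Submodule.mem_comap, hz]
      exact Submodule.zero_mem _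
    have hcard : ∀ s : Finset (Fin d), υ s.card - (d * N : ℕ) ≤ stTop H N d d := fun s => by
      have := (hc s.card ((Finset.card_le_univ s).trans (by simp))).1
      omega
    rw [mem_DT]
    refine ⟨fun s => ?_, fun s => ?_⟩
    · rw [gbar_inf]
      refine ⟨hker _ (h0 s) _ (hcard s), ?_⟩
      have h1 := hD d τ r f hf
      rw [mem_DT] at h1
      have h2 := hdTw
      rw [mem_DT] at h2
      have h3 := hg'
      rw [mem_DT] at h3
      simp only [hρ, Pi.sub_apply]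
      exact sub_mem (sub_mem (gbar_mono inf_le_right (h1.1 s)) (gbar_mono inf_le_right (h2.1 s)))
        (gbar_mono inf_le_right (h3.1 s))
    · refine hker _ ?_ _ (hcard s)
      rw [← kmap_apply (d := d), ← kd_kmap, hπρ, map_zero]
      rfl
  -- conclusion
  have hsucc : kmap d (lT S S (D₀ ^ (d + 1))) f =
      dT S y δC (kmap d (lT S S (D₀ ^ 1)) w') + kmap d (lT S S (D₀ ^ 1)) (g' + ρ) := by
    have hcm : δC ∘ₗ (D₀ ^ 1) = (D₀ ^ 1) ∘ₗ δC := by
      rw [pow_one]
      exact LinearMap.ext fun v => (B.dC H).map_smul B.D v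
    rw [dT_kmap (δ := δC) (δ' := δC) (D₀ ^ 1) hcm w', ← map_add,
      show dT S y δC w' + (g' + ρ) = f₁ by rw [hρ]; abel, hf₁]
    funext s
    rw [kmap_apply, kmap_apply, kmap_apply, lT_comp_apply, ← Module.End.mul_eq_comp, ← pow_add,
      add_comm d 1]
  rw [hsucc]
  exact Submodule.add_mem_sup (Submodule.mem_map_of_mem (hD 1 _ _ _ hw'))
    (hD 1 _ _ _ (add_mem hg' hρmem))

end Band

/-- The part of the complex. -/
theorem goalBandFilt : GoalBandFilt.{u} := by
  intro p _ R _ _ _ k _ _ _ A _ _ _ _ _ d xR b G ι e ctx CI i j K B H hK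
  have hA : ∀ a ∈ maximalIdeal R, ∃ z ∈ B.Fil B.blen,
      B.χ (algebraMap R B.As a) = Ideal.Quotient.mk B.Ann z := by
    intro a ha
    have h1 : algebraMap R A a ∈ G b :=
      ctx.nu.max_le (ctx.map_max ▸ Ideal.mem_map_of_mem _ ha)
    exact B.χ_fil b (algebraMap R B.As a) h1
  letI := B.rMod H hK
  have hF := B.filtSys_band (H := H) hK ctx.d_pos hA
  refine ⟨hF, fun t ht => ?_, ?_, B.levelEnd_band hK, ?_⟩
  · simp only [Band.gC, B.eAmb_bottom H ht]
  · simp only [Band.gC, B.eAmb_top H, Submodule.comap_bot, Submodule.ker_subtype]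
  · intro S _ _ _ N y hy τ υ hτ hυ hle hbot htop
    exact B.ghost_band hK ctx.d_pos (fun l => rfl) hF S N y hy τ υ hτ hυ hle hbot htop

end Vale.Agent.P202
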