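import Vale.Agent.P202.BandChi

/-!
M6: the band rings exist. The band ring is the root ring at the level `q` over the coefficients of
a stage, with the relations approximated modulo `p ^ T`.
-/

universe u

namespace Vale.Agent.P202

open IsLocalRing MvPolynomial

section assemble

variable (p : ℕ) [Fact p.Prime] {R : Type u} [CommRing R] [IsLocalRing R] {k : Type u} [Field k]
  [CharP k p] [PerfectRing k p] {A : Type u} [CommRing A] [IsLocalRing A] [Algebra R A]
  [Algebra (WittVector p k) A] {d : ℕ} {x : Fin d → A} {b : ℕ} {G : ℕ → Ideal A}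
  {ι : ResidueField R →+* k} {Z₀ : Finset A} {T : ℕ} {Sw : Finset (WittVector p k)}

/-- The band ring over a stage, with the approximations given. -/
lemma band_of_stage [DecidableEq A] (CI : CIData p k A x b G) (hν : NuFil p k A x b G)
    (cs : CoefStage p R k A ι Z₀ T Sw
      (Finset.univ.image fun v => CI.ev (MvPowerSeries.X v)))
    (hpA : (p : A) ∈ maximalIdeal A) {i j K jq : ℕ} (hjq : j ≤ jq)
    (hTqK : p ^ jq * K ≤ T) (hTc : p ^ (jq - i) * CI.c + 1 ≤ T)
    (hTw : ∀ v, p ^ (jq - j) * CI.deg v * CI.wt (hVar v) + 1 ≤ T)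
    (hmT : ∀ m, m ≤ K → maximalIdeal A ^ T ≤ G m)
    {hz : A → MvPolynomial (Fin d ⊕ Fin CI.n) (WittVector p k)}
    (hhz : ∀ z, z - CI.ev (hz z : MvPowerSeries (Fin d ⊕ Fin CI.n) (WittVector p k)) ∈ G K)
    (hzS : ∀ z ∈ Z₀, ∀ w ∈ (hz z).coeffs, ∃ w' ∈ cs.Ω, (p : WittVector p k) ^ T ∣ w - w')
    {g : Hv CI.n → MvPolynomial (Vr d CI.n) (WittVector p k)}
    {Dh Eh : MvPolynomial (Vr d CI.n) (WittVector p k)}
    (hg : ∀ v, g v - liftL p (expand (p ^ (jq - j)) (rootPoly p j (CI.F v))) ∈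
      Ideal.span {bandRel p (p ^ jq) (WittVector p k)} ⊔
        wIdeal _ CI.wt (p ^ (jq - j) * CI.deg v * CI.wt (hVar v) + 1))
    {TE TD : MvPolynomial (Vr d CI.n) k}
    (hTE : IsWeightedHomogeneous CI.wt TE (p ^ (jq - i) * CI.c))
    (hTD : IsWeightedHomogeneous CI.wt TD (p ^ (jq - i) * CI.c))
    (hTEeq : TE = expand (p ^ (jq - j))
      (rootPoly p j CI.U₀ * rootPoly p j (inX CI.δ₀) ^ (p ^ (j - i) - 1)))
    (hTDeq : TD = expand (p ^ (jq - j)) (rootPoly p j (inX CI.δ₀) ^ p ^ (j - i)))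
    (hD : Dh - liftL p TD ∈
      lIdeal p (p ^ jq) g ⊔ wIdeal _ CI.wt (p ^ (jq - i) * CI.c + 1))
    (hE : Eh - liftL p TE ∈
      lIdeal p (p ^ jq) g ⊔ wIdeal _ CI.wt (p ^ (jq - i) * CI.c + 1))
    (hED : Eh * (Dh - Eh) ∈ lIdeal p (p ^ jq) g ⊔ wIdeal _ CI.wt (p ^ jq * K))
    (hkill : ∀ h, CI.ev h = 0 → ∀ (h' : MvPolynomial (Fin d ⊕ Fin CI.n) (WittVector p k)),
      MemW p CI.wt K (h - (h' : MvPowerSeries (Fin d ⊕ Fin CI.n) (WittVector p k))) →
        Eh * piQ (p ^ jq) h' ∈ lIdeal p (p ^ jq) g ⊔ wIdeal _ CI.wt (p ^ jq * K))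
    {g' : Hv CI.n → MvPolynomial (Vr d CI.n) cs.Ω} {D' E' : MvPolynomial (Vr d CI.n) cs.Ω}
    (hg' : ∀ v, map cs.Ω.subtype (g' v) - g v ∈ Ideal.span {C ((p : WittVector p k) ^ T)})
    (hD' : map cs.Ω.subtype D' - Dh ∈ Ideal.span {C ((p : WittVector p k) ^ T)})
    (hE' : map cs.Ω.subtype E' - Eh ∈ Ideal.span {C ((p : WittVector p k) ^ T)})
    {Fκ : Hv CI.n → MvPolynomial (Vr d CI.n) cs.κ}
    (hFκ : ∀ v, map cs.κ.subtype (Fκ v) = expand (p ^ (jq - j)) (rootPoly p j (CI.F v)))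
    {E₀ D₀ : MvPolynomial (Vr d CI.n) cs.κ} (hE₀ : map cs.κ.subtype E₀ = TE)
    (hD₀ : map cs.κ.subtype D₀ = TD) : ∃ B : Band p R CI ι i j K, B.κ = cs.κ := by
  have hpp : 0 < p := (Fact.out : p.Prime).pos
  have hq : 0 < p ^ jq := pow_pos hpp _
  have he : 0 < p ^ (jq - j) := pow_pos hpp _
  have hY : 0 < CI.wt none := CI.wt_pos none
  have hB := bandBase_subring cs.Ω cs.κ cs.residue_mem cs.residue_surj cs.saturated
  obtain ⟨HΩ, HW⟩ := band_forms hB cs.saturated cs.residue_surj hq hY hTw hg'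
    (band_forms_hom CI j he) hg hFκ
  have hK' := band_forms_koszul CI j he
  have hkillW : ∀ (φ : MvPowerSeries (Fin d ⊕ Fin CI.n) (WittVector p k))
      (h' : MvPolynomial (Fin d ⊕ Fin CI.n) (WittVector p k)), CI.ev φ = 0 →
      MemW p CI.wt K (φ - (h' : MvPowerSeries (Fin d ⊕ Fin CI.n) (WittVector p k))) →
      map cs.Ω.subtype E' * piHom (p ^ jq) h' ∈
        lIdeal p (p ^ jq) g ⊔ wIdeal (WittVector p k) CI.wt (p ^ jq * K) := by
    intro φ h' h1 h2
    have h3 := add_mem (hkill φ h1 h' h2) (Ideal.mul_mem_right (piQ (p ^ jq) h') _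
      (sup_le_sup_right band_span_rel_le_lIdeal _ (band_span_le_sup hq hY hTqK hE')))
    rw [band_piHom_apply]
    convert h3 using 1
    ring
  have hvarAs : ∀ v, CI.ev (MvPowerSeries.X v) ∈ cs.As := fun v =>
    cs.Sa_As _ (Finset.mem_image_of_mem _ (Finset.mem_univ v))
  have hrange : ∀ a ∈ cs.As, Ideal.Quotient.mk (G K) a ∈
      ((Ideal.Quotient.mk (G K)).comp (bandEval CI cs.Ω)).range := fun a ha => by
    obtain ⟨a', ha', hd⟩ := cs.As_le a ha
    exact band_mem_range CI (hmT K le_rfl) hpA hhz hzS ha' hd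
  let Ann : Ideal (LR p (p ^ jq) g') :=
    Submodule.comap (LinearMap.mulLeft (LR p (p ^ jq) g') (Ideal.Quotient.mk _ E'))
      (lfil p CI.wt (p ^ jq) g' ((p ^ jq * K : ℕ) : ℤ).toNat)
  have hx : ∀ l, x l ∈ cs.As := fun l => CI.ev_X l ▸ hvarAs (Sum.inl l)
  obtain ⟨χ, hχfil, hχinit, hχx⟩ := exists_band_chi CI hν cs.As hvarAs cs.Ω_As hq hB g' E' Ann
    (fun f hf => by
      change Ideal.Quotient.mk (lIdeal p (p ^ jq) g') E' * Ideal.Quotient.mk (lIdeal p (p ^ jq) g') f ∈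
        lfil p CI.wt (p ^ jq) g' ((p ^ jq * K : ℕ) : ℤ).toNat
      rw [← map_mul]
      exact (band_mk_mem_lfil_int g').2 hf)
    hrange (fun h hh => band_ker CI cs.saturated cs.residue_mem cs.residue_surj hq hTqK hg' hkillW hh)
    (fun h m hh => band_film CI cs.saturated cs.residue_mem cs.residue_surj hq hTqK hg' hkillW hh)
    hx
  have hdesc : ∀ {t : ℕ}, t ≤ T → ∀ {f : MvPolynomial (Vr d CI.n) cs.Ω},
      map cs.Ω.subtype f ∈ lIdeal p (p ^ jq) g ⊔ wIdeal _ CI.wt t →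
      f ∈ lIdeal p (p ^ jq) g' ⊔ wIdeal cs.Ω CI.wt t := fun ht _ hf =>
    band_descend cs.saturated cs.residue_mem cs.residue_surj hq hY ht hg' hf
  have hC : ∀ {t : ℕ}, t ≤ T →
      Ideal.span {C ((p : WittVector p k) ^ T)} ≤
        lIdeal p (p ^ jq) g ⊔ wIdeal (WittVector p k) CI.wt t := fun ht =>
    le_trans (band_span_le_sup hq hY ht) (sup_le_sup_right band_span_rel_le_lIdeal _)
  refine ⟨{
    jq := jq
    j_le := hjq
    κ := cs.κ
    c := cs.c
    c_pos := cs.c_pos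
    bas := cs.bas
    bas_mem := cs.bas_mem
    bas_span := cs.bas_span
    ι_mem := cs.ι_mem
    L := LR p (p ^ jq) g'
    Fil := fun N => lfil p CI.wt (p ^ jq) g' N.toNat
    fil_top := fun N hN => band_lfil_int_top g' hN
    anti := band_lfil_int_anti g'
    fil_mul := band_lfil_int_mul g'
    lift := fun P => Ideal.Quotient.mk _ (bandLp hB P)
    lift_mem := fun N P hP => (band_mk_mem_lfil_int g').2 (Ideal.mem_sup_right (bandLp_mem hB hP))
    lift_add := fun N P P' hP hP' => band_lift_add g' hB hq hY hP hP'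
    lift_mul := fun M N P P' hP hP' => band_lift_mul g' hB hq hY hP hP'
    lift_one := band_lift_one g' hB hq hY
    lift_surj := fun N z hz => band_lift_surj g' hB hq hY z hz
    lift_ker := fun N P hP => ?lift_ker
    X := fun l => Ideal.Quotient.mk _ (X (some (Sum.inl l)))
    X_mem := fun l => ?X_mem
    X_init := fun l => ?X_init
    E := Ideal.Quotient.mk _ E'
    D := Ideal.Quotient.mk _ D'
    E₀ := E₀
    D₀ := D₀
    E₀_eq := hE₀.trans hTEeq
    D₀_eq := hD₀.trans hTDeq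
    E_init := ?E_init
    D_init := ?D_init
    E_idem := ?E_idem
    Ann := Ann
    mem_Ann := fun z => Iff.rfl
    As := cs.As
    χ := χ
    χ_fil := hχfil
    χ_init := hχinit
    x_mem := hx
    χ_x := hχx
    init_surj := fun m _ P hP => ?init_surj
    length_eq := fun m hm => cs.length_eq (G m) (hmT m hm)
      (band_span_inter CI hν (hmT m hm) cs.Ω_As hvarAs cs.deep_As)
    basA := cs.basA
    basA_span := fun a ha => ?basA_span }, rfl⟩
  case basA_span =>
    obtain ⟨r, hr⟩ := cs.basA_span a ha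
    exact ⟨r, hmT K le_rfl hr⟩
  case lift_ker =>
    rw [band_mk_mem_lfil_int_succ]
    constructor
    · intro h
      have h2 : map cs.Ω.subtype (bandLp hB P) ∈
          lIdeal p (p ^ jq) (fun v => map cs.Ω.subtype (g' v)) ⊔
            wIdeal (WittVector p k) CI.wt (N + 1) := by
        have := Ideal.mem_map_of_mem (map cs.Ω.subtype) h
        rwa [Ideal.map_sup, band_map_lIdeal, band_map_wIdeal] at this
      have h3 := HW.init_of_mem hK' (band_map_mem_wIdeal _ (bandLp_mem hB hP)) h2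
      rwa [← map_inI_bandRes cs.Ω cs.κ cs.residue_mem, inI_bandLp hB hP] at h3
    · intro h
      obtain ⟨rκ, hrκ, hrκ1⟩ := exists_subfield_retr cs.κ
      have h2 : map cs.κ.subtype P ∈ Ideal.span (map cs.κ.subtype '' Set.range Fκ) := by
        rw [← Set.range_comp, show map cs.κ.subtype ∘ Fκ =
          (fun v => expand (p ^ (jq - j)) (rootPoly p j (CI.F v))) from funext hFκ]
        exact h
      have h3 := band_mem_of_map_mem_span hrκ hrκ1 (Set.range Fκ) h2
      rw [Ideal.map_bot, sup_bot_eq] at h3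
      exact HΩ.mem_of_init (bandLp_mem hB hP) (by rwa [inI_bandLp hB hP])
  case X_mem =>
    have := (band_lift_X g' hB hq hY (some (Sum.inl l))).1
    rwa [CI.wt_X] at this
  case X_init =>
    have := (band_lift_X g' hB hq hY (some (Sum.inl l))).2
    rwa [CI.wt_X] at this
  case E_init =>
    rw [← map_sub]
    refine (band_mk_mem_lfil_int_succ g').2 (hdesc hTc ?_)
    rw [map_sub]
    convert add_mem (hC hTc hE') (sub_mem hE (sup_le_sup_right band_span_rel_le_lIdeal _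
      (band_lp_cmp (hmem := cs.residue_mem) hB hq hY hE₀ hTE))) using 1
    abel
  case D_init =>
    rw [← map_sub]
    refine (band_mk_mem_lfil_int_succ g').2 (hdesc hTc ?_)
    rw [map_sub]
    convert add_mem (hC hTc hD') (sub_mem hD (sup_le_sup_right band_span_rel_le_lIdeal _
      (band_lp_cmp (hmem := cs.residue_mem) hB hq hY hD₀ hTD))) using 1
    abel
  case E_idem =>
    rw [← map_sub, ← map_mul]
    refine (band_mk_mem_lfil_int g').2 (hdesc hTqK ?_)
    rw [map_mul, map_sub]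
    convert add_mem hED (sub_mem (add_mem (Ideal.mul_mem_right (Dh - Eh) _ (hC hTqK hE'))
      (Ideal.mul_mem_left _ (map cs.Ω.subtype E') (hC hTqK hD')))
      (Ideal.mul_mem_left _ (map cs.Ω.subtype E') (hC hTqK hE'))) using 1
    ring
  case init_surj =>
    obtain ⟨h, hh, -⟩ := exists_band_initPoly CI hB hq g' hP
    exact ⟨bandEval CI cs.Ω h, bandEval_mem CI cs.Ω cs.Ω_As hvarAs h, _,
      band_ev_coe_map CI cs.Ω h, hh⟩

end assemble

theorem goalBand : GoalBand.{u} := by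
  intro p hp R _ _ _ _ k _ _ _ A _ _ _ _ _ _ _ hpA ι Z₀ _ hstage d _ x b G hν CI i j K hij _ hE Sk
  classical
  obtain ⟨jq, g, D₁, E₁, hjq, hg, hD, hE₁, hED, hkill⟩ := hE
  obtain ⟨Dh, rfl⟩ := Ideal.Quotient.mk_surjective D₁
  obtain ⟨Eh, rfl⟩ := Ideal.Quotient.mk_surjective E₁
  rw [← map_sub, band_mk_mem_lfil] at hD hE₁
  rw [← map_sub, ← map_mul, band_mk_mem_lfil] at hED
  simp only [← map_mul, band_mk_mem_lfil] at hkill
  obtain ⟨hTE, hTD⟩ := band_targets_hom CI hij hjq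
  let w : Hv CI.n → ℕ := fun v => p ^ (jq - j) * CI.deg v * CI.wt (hVar v)
  obtain ⟨T, hTdef⟩ :
      ∃ T, T = p ^ jq * K + K + (p ^ (jq - i) * CI.c + 1) + ∑ v, (w v + 1) := ⟨_, rfl⟩
  have hTw : ∀ v, w v + 1 ≤ T := fun v => by
    have := Finset.single_le_sum (f := fun v => w v + 1) (fun _ _ => Nat.zero_le _)
      (Finset.mem_univ v)
    omega
  have hpowG : ∀ T', maximalIdeal A ^ T' ≤ G (b * T') := by
    intro T'
    induction T' with
    | zero => simp [hν.zero]
    | succ m ih =>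
      rw [pow_succ, mul_add, mul_one]
      exact le_trans (Ideal.mul_mono ih hν.max_le) (hν.mul _ _)
  have hmT : ∀ m, m ≤ K → maximalIdeal A ^ T ≤ G m := fun m hm =>
    (hpowG T).trans (hν.anti ((hm.trans (by omega : K ≤ T)).trans
      (Nat.le_mul_of_pos_left T hν.b_pos)))
  have hex : ∀ z : A, ∃ h : MvPolynomial (Fin d ⊕ Fin CI.n) (WittVector p k),
      z - CI.ev (h : MvPowerSeries (Fin d ⊕ Fin CI.n) (WittVector p k)) ∈ G K := by
    intro z
    obtain ⟨f, -, hf⟩ := (CI.strict 0 z).1 (hν.zero.symm ▸ Submodule.mem_top)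
    obtain ⟨h, hh, -⟩ := exists_band_trunc CI.wt_pos K f
    exact ⟨h, (CI.strict K _).2 ⟨_, hh, by rw [map_sub, hf]⟩⟩
  choose hz hhz using hex
  let tei : MvPolynomial (Vr d CI.n) k → Finset (WittVector p k) := fun P =>
    P.coeffs.image (WittVector.teichmuller p)
  let Sw : Finset (WittVector p k) := (Finset.univ.biUnion fun v =>
    (g v).coeffs ∪ tei (expand (p ^ (jq - j)) (rootPoly p j (CI.F v)))) ∪ Dh.coeffs ∪
    Eh.coeffs ∪ tei (expand (p ^ (jq - j))
      (rootPoly p j CI.U₀ * rootPoly p j (inX CI.δ₀) ^ (p ^ (j - i) - 1))) ∪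
    tei (expand (p ^ (jq - j)) (rootPoly p j (inX CI.δ₀) ^ p ^ (j - i))) ∪
    (Z₀.biUnion fun z => (hz z).coeffs) ∪ Sk.image (WittVector.teichmuller p)
  obtain ⟨cs⟩ := hstage T Sw (Finset.univ.image fun v => CI.ev (MvPowerSeries.X v))
  have hκ : ∀ P : MvPolynomial (Vr d CI.n) k, tei P ⊆ Sw → ∀ a ∈ P.coeffs, a ∈ cs.κ := by
    intro P hP a ha
    obtain ⟨w', hw', hdvd⟩ := cs.Sw_mem _ (hP (Finset.mem_image_of_mem _ ha))
    have h0 := band_coeff_zero_of_dvd ((dvd_pow_self _ (by omega : T ≠ 0)).trans hdvd)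
    rw [← WittVector.constantCoeff_apply, map_sub, WittVector.constantCoeff_apply,
      WittVector.constantCoeff_apply, WittVector.teichmuller_coeff_zero, sub_eq_zero] at h0
    exact h0 ▸ cs.residue_mem w' hw'
  have hdescκ := fun v => exists_band_descend cs.κ
    (expand (p ^ (jq - j)) (rootPoly p j (CI.F v))) (hκ _ fun a ha => by
      simp only [Sw, Finset.mem_union, Finset.mem_biUnion, Finset.mem_univ, true_and]
      exact Or.inl (Or.inl (Or.inl (Or.inl (Or.inl (Or.inl ⟨v, Or.inr ha⟩))))))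
  choose Fκ hFκ using hdescκ
  obtain ⟨E₀, hE₀⟩ := exists_band_descend cs.κ (expand (p ^ (jq - j))
      (rootPoly p j CI.U₀ * rootPoly p j (inX CI.δ₀) ^ (p ^ (j - i) - 1))) (hκ _ fun a ha => by
    simp only [Sw, Finset.mem_union]
    exact Or.inl (Or.inl (Or.inl (Or.inr ha))))
  obtain ⟨D₀, hD₀⟩ := exists_band_descend cs.κ (expand (p ^ (jq - j))
      ((rootPoly p j (inX CI.δ₀) : MvPolynomial (Vr d CI.n) k) ^ p ^ (j - i))) (hκ _ fun a ha => by
    simp only [Sw, Finset.mem_union]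
    exact Or.inl (Or.inl (Or.inr ha)))
  have happrox := fun v => exists_band_approx cs.Ω T (g v) fun a ha => cs.Sw_mem a (by
    simp only [Sw, Finset.mem_union, Finset.mem_biUnion, Finset.mem_univ, true_and]
    exact Or.inl (Or.inl (Or.inl (Or.inl (Or.inl (Or.inl ⟨v, Or.inl ha⟩))))))
  choose g' hg' using happrox
  obtain ⟨D', hD'⟩ := exists_band_approx cs.Ω T Dh fun a ha => cs.Sw_mem a (by
    simp only [Sw, Finset.mem_union]
    exact Or.inl (Or.inl (Or.inl (Or.inl (Or.inl (Or.inr ha))))))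
  obtain ⟨E', hE'⟩ := exists_band_approx cs.Ω T Eh fun a ha => cs.Sw_mem a (by
    simp only [Sw, Finset.mem_union]
    exact Or.inl (Or.inl (Or.inl (Or.inl (Or.inr ha)))))
  obtain ⟨B, hBκ⟩ := band_of_stage p CI hν cs hpA hjq (by omega) (by omega) hTw hmT hhz
    (fun z hz' a ha => cs.Sw_mem a (by
      simp only [Sw, Finset.mem_union, Finset.mem_biUnion]
      exact Or.inl (Or.inr ⟨z, hz', ha⟩)))
    (fun v => by rw [sup_comm, mul_assoc]; exact hg v)
    hTE hTD rfl rfl hD hE₁ hED (fun h h1 h' h2 => hkill h h1 K h' le_rfl h2) hg' hD' hE' hFκ hE₀ hD₀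
  refine ⟨B, fun s hs => hBκ ▸ ?_⟩
  obtain ⟨w', hw', hdvd⟩ := cs.Sw_mem _
    (Finset.mem_union_right _ (Finset.mem_image_of_mem (WittVector.teichmuller p) hs))
  have h0 := band_coeff_zero_of_dvd ((dvd_pow_self _ (by omega : T ≠ 0)).trans hdvd)
  rw [← WittVector.constantCoeff_apply, map_sub, WittVector.constantCoeff_apply,
    WittVector.constantCoeff_apply, WittVector.teichmuller_coeff_zero, sub_eq_zero] at h0
  exact h0 ▸ cs.residue_mem w' hw'

end Vale.Agent.P202
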