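import Vale.Agent.P202.BlkSym

/-!
GoalBandBlocks, finiteness: the cohomology of the blocks of the `E`-part has finite length, over
`L` and over `R`.
-/

universe u

namespace Vale.Agent.P202

open IsLocalRing MvPolynomial

/-- The identity as evaluation at the standard generators. -/
lemma evFree_std {κ : Type*} [CommRing κ] {m d : ℕ} :
    evFree (X := fun l => (xFree κ l : FreeMod κ m d →ₗ[κ] _)) xFree_comm
      (fun t : Fin m => Finsupp.single ((t, 0) : FIdx m d) (1 : κ)) = LinearMap.id := by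
  refine Finsupp.lhom_ext fun q a => ?_
  obtain ⟨t, β⟩ := q
  rw [evFree_single, LinearMap.id_apply]
  have : ∀ β : Fin d →₀ ℕ, xPow (X := fun l => (xFree κ l : FreeMod κ m d →ₗ[κ] _)) xFree_comm β
      (Finsupp.single ((t, 0) : FIdx m d) (1 : κ)) = Finsupp.single ((t, β) : FIdx m d) 1 := by
    refine xPow_induction ?_ ?_
    · rw [xPow_zero]
    · intro β l ih
      rw [xPow_add_single, ih, xFree_single]
  rw [this, Finsupp.smul_single', mul_one]

/-- A module generated by finitely many elements and killed by a maximal ideal has finite length. -/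
lemma length_ne_top_of_span {S : Type*} [CommRing S] {M : Type*} [AddCommGroup M] [Module S M]
    (m : Ideal S) [m.IsMaximal] {n : ℕ} (v : Fin n → M)
    (hv : Submodule.span S (Set.range v) = ⊤) (hm : ∀ z ∈ m, ∀ w : M, z • w = 0) :
    Module.length S M ≠ ⊤ := by
  let ψ : (Fin n → S ⧸ m) →ₗ[S] M :=
    LinearMap.lsum S (fun _ : Fin n => S ⧸ m) S fun t =>
      Submodule.liftQ m (LinearMap.toSpanSingleton S M (v t)) fun z hz => hm z hz (v t)
  have hψ : Function.Surjective ψ := by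
    rw [← LinearMap.range_eq_top, eq_top_iff, ← hv, Submodule.span_le]
    rintro _ ⟨t, rfl⟩
    refine ⟨Pi.single t (Submodule.Quotient.mk 1), ?_⟩
    simp [ψ, Pi.single_apply, apply_ite]
    exact one_smul S (v t)
  have : IsSimpleModule S (S ⧸ m) := isSimpleModule_iff_isCoatom.2 (Ideal.isMaximal_def.1 ‹_›)
  refine ne_top_of_le_ne_top ?_ (Module.length_le_of_surjective ψ hψ)
  rw [Module.length_pi]
  simp [Module.length_eq_one]

/-- Homology spanned by finitely many cycles and killed by a maximal ideal has finite length. -/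
lemma hlen_ne_top_of_gen {S : Type*} [CommRing S] {M : Type*} [AddCommGroup M] [Module S M]
    (δ : M →ₗ[S] M) (P Q : ℤ → Submodule S M) (r : ℤ) (m : Ideal S) [m.IsMaximal] {n : ℕ}
    (v : Fin n → M) (hv : ∀ t, v t ∈ hcyc δ P Q r)
    (hspan : ∀ e ∈ hcyc δ P Q r, ∃ a : Fin n → S, e - ∑ t, a t • v t ∈ hbd δ P Q r)
    (hm : ∀ y ∈ m, ∀ e ∈ hcyc δ P Q r, y • e ∈ hbd δ P Q r) :
    hlen S δ P Q r ≠ ⊤ := by
  rw [hlen_eq_length]
  refine length_ne_top_of_span m (fun t => hmk δ P Q r ⟨v t, hv t⟩) ?_ ?_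
  · refine eq_top_iff.2 fun w _ => ?_
    obtain ⟨⟨e, he⟩, rfl⟩ := hmk_surjective δ P Q r w
    obtain ⟨a, ha⟩ := hspan e he
    refine (Submodule.mem_span_range_iff_exists_fun S).2 ⟨a, ?_⟩
    simp only [← map_smul, ← map_sum]
    symm
    rw [← sub_eq_zero, ← map_sub, hmk_eq_zero]
    simpa only [Submodule.coe_sub, Submodule.coe_sum, Submodule.coe_smul] using ha
  · intro y hy w
    obtain ⟨⟨e, he⟩, rfl⟩ := hmk_surjective δ P Q r w
    rw [← map_smul, hmk_eq_zero]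
    exact hm y hy e he

/-- Finite homology is spanned by finitely many cycles. -/
lemma exists_gen_of_finite {S : Type*} [CommRing S] {M : Type*} [AddCommGroup M] [Module S M]
    (δ : M →ₗ[S] M) (P Q : ℤ → Submodule S M) (r : ℤ) (h : Module.Finite S (HMod δ P Q r)) :
    ∃ (n : ℕ) (v : Fin n → M), (∀ t, v t ∈ hcyc δ P Q r) ∧
      ∀ e ∈ hcyc δ P Q r, ∃ a : Fin n → S, e - ∑ t, a t • v t ∈ hbd δ P Q r := by
  obtain ⟨n, w, hw⟩ := @Module.Finite.exists_fin S _ _ _ _ h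
  choose z hz using fun t => hmk_surjective δ P Q r (w t)
  refine ⟨n, fun t => (z t).1, fun t => (z t).2, fun e he => ?_⟩
  obtain ⟨a, ha⟩ := (Submodule.mem_span_range_iff_exists_fun S).1
    (show hmk δ P Q r ⟨e, he⟩ ∈ Submodule.span S (Set.range w) from hw ▸ Submodule.mem_top)
  refine ⟨a, ?_⟩
  have h0 : hmk δ P Q r (⟨e, he⟩ - ∑ t, a t • z t) = 0 := by
    rw [map_sub, map_sum]
    simp only [map_smul, hz, ha, sub_self]
  have h1 := hmk_eq_zero.1 h0
  simpa only [Submodule.coe_sub, Submodule.coe_sum, Submodule.coe_smul] using h1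

/-- Length over `R` of a module identified with a module over `L`. -/
lemma length_ne_top_transport {R L : Type u} [CommRing R] [CommRing L] {M M' : Type u}
    [AddCommGroup M] [Module R M] [AddCommGroup M'] [Module L M'] (φ : M ≃+ M') (c : ℕ)
    (rel : R → L → Prop) (I : Set L)
    (hlen : ∀ [Module L M], (∀ a z, rel a z → ∀ v : M, a • v = z • v) →
      (∀ z ∈ I, ∀ v : M, z • v = 0) → Module.length R M = c * Module.length L M)
    (h1 : ∀ a z, rel a z → ∀ w : M, φ (a • w) = z • φ w) (h2 : ∀ z ∈ I, ∀ w : M', z • w = 0)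
    (h' : Module.length L M' ≠ ⊤) : Module.length R M ≠ ⊤ := by
  let inst : Module L M := φ.module L
  have hsm : ∀ (z : L) (v : M), z • v = φ.symm (z • φ v) := fun _ _ => rfl
  have φL : M ≃ₗ[L] M' :=
    AddEquiv.toLinearEquiv φ fun z v => by rw [hsm, AddEquiv.apply_symm_apply]
  rw [hlen (fun a z hz v => by rw [hsm, ← h1 a z hz, AddEquiv.symm_apply_apply])
    (fun z hz v => by rw [hsm, h2 z hz, map_zero]), φL.length_eq]
  exact WithTop.mul_ne_top (ENat.natCast_ne_top _) h'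

/-- Scalars killing the chains kill the homology. -/
lemma hmod_smul_eq_zero {S : Type*} [CommRing S] {M : Type*} [AddCommGroup M] [Module S M]
    (δ : M →ₗ[S] M) (P Q : ℤ → Submodule S M) (r : ℤ) {z : S} (hz : ∀ v : M, z • v = 0)
    (w : HMod δ P Q r) : z • w = 0 := by
  obtain ⟨v, rfl⟩ := hmk_surjective δ P Q r w
  rw [← map_smul, show z • v = 0 from Subtype.ext (hz v.1), map_zero]

namespace Band

variable {p : ℕ} [Fact p.Prime] {R : Type u} [CommRing R] [IsLocalRing R] {k : Type u} [Field k]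
  [CharP k p] [PerfectRing k p] {A : Type u} [CommRing A] [Algebra R A]
  [Algebra (WittVector p k) A] {d : ℕ} {x : Fin d → A} {b : ℕ} {G : ℕ → Ideal A}
  {CI : CIData p k A x b G} {ι : ResidueField R →+* k} {i j K : ℕ}
  (B : Band p R CI ι i j K)

/-- `E` times the class modulo the level `H`. -/
noncomputable def psiMap (H : ℕ) : (PIdx d →₀ B.L) →ₗ[B.L] B.Amb H :=
  (B.Lam H).mkQ ∘ₗ (B.E • LinearMap.id)

lemma psiMap_apply (H : ℕ) (f : PIdx d →₀ B.L) :
    B.psiMap H f = (B.Lam H).mkQ (B.E • f) := rfl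

lemma dAmb_psiMap (H : ℕ) (f : PIdx d →₀ B.L) :
    B.dAmb H (B.psiMap H f) = B.psiMap H (phiD B.mulX f) := by
  rw [psiMap_apply, psiMap_apply, ← map_smul (phiD B.mulX)]
  rfl

lemma dAmb_comp_dAmb (H : ℕ) : B.dAmb H ∘ₗ B.dAmb H = 0 := by
  refine Submodule.linearMap_qext _ (LinearMap.ext fun f => ?_)
  show (B.Lam H).mkQ (phiD B.mulX (phiD B.mulX f)) = 0
  rw [show phiD B.mulX (phiD B.mulX f) = 0 from LinearMap.congr_fun (phiD_phiD B.mulX_comm) f,
    map_zero]

/-- The chains of the fine level `u` of `L` in degree `r`. -/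
noncomputable abbrev lamC (u r : ℤ) : Submodule B.L (PIdx d →₀ B.L) :=
  phiC b B.tw (fun N => (B.Fil N : Submodule B.L B.L)) u r

/-- The fine levels of the `E`-part, by degree. -/
noncomputable def eLev (H : ℕ) (u r : ℤ) : Submodule B.L (B.Amb H) :=
  (B.LamF u).map (B.psiMap H) ⊓ B.degAmb H r

lemma lamF_anti {u v : ℤ} (h : u ≤ v) : B.LamF v ≤ B.LamF u :=
  phiSub_mono fun σ => B.anti (by omega)

lemma eLev_anti (H : ℕ) {u v : ℤ} (h : u ≤ v) (r : ℤ) : B.eLev H v r ≤ B.eLev H u r :=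
  inf_le_inf_right _ (Submodule.map_mono (B.lamF_anti h))

lemma eLev_eq (H : ℕ) (u r : ℤ) : B.eLev H u r = (B.lamC u r).map (B.psiMap H) := by
  classical
  apply le_antisymm
  · rintro z ⟨⟨w, hw, rfl⟩, ⟨v, hv, hvz⟩⟩
    let w' : PIdx d →₀ B.L := w.filter fun c => c.deg = r
    have hw' : w' ∈ B.lamC u r := by
      refine ⟨fun c => ?_, fun c hc => Finsupp.filter_apply_neg (fun c : PIdx d => c.deg = r) _ hc⟩
      by_cases hc : c.deg = r
      · rw [Finsupp.filter_apply_pos (fun c : PIdx d => c.deg = r) _ hc]; exact hw c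
      · rw [Finsupp.filter_apply_neg (fun c : PIdx d => c.deg = r) _ hc]; exact ⟨zero_mem _, fun _ => rfl⟩
    refine ⟨w', hw', ?_⟩
    rw [← hvz, psiMap_apply, Submodule.mkQ_apply, Submodule.mkQ_apply, Submodule.Quotient.eq]
    have hd : v - B.E • w ∈ B.Lam H := (Submodule.Quotient.eq _).1 hvz
    intro c
    have hdc : B.E • w c - v c ∈ B.Fil ((B.blen : ℤ) * H + (b : ℤ) * c.2.1) ∧
        (¬ c.Allowed B.tw → B.E • w c - v c = 0) := by
      have := (B.Lam H).neg_mem hd c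
      rwa [neg_sub, Finsupp.sub_apply, Finsupp.smul_apply] at this
    rw [Finsupp.sub_apply, Finsupp.smul_apply]
    by_cases hc : c.deg = r
    · rw [Finsupp.filter_apply_pos (fun c : PIdx d => c.deg = r) _ hc]; exact hdc
    · rw [Finsupp.filter_apply_neg (fun c : PIdx d => c.deg = r) _ hc, hv c hc, smul_zero, sub_zero]
      exact ⟨zero_mem _, fun _ => rfl⟩
  · rintro _ ⟨f, hf, rfl⟩
    exact ⟨Submodule.mem_map_of_mem hf.1,
      Submodule.mem_map_of_mem (show B.E • f ∈ phiDeg B.L B.L d r from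
        Submodule.smul_mem _ _ hf.2)⟩

lemma lamC_stable (u : ℤ) : IsStable (phiD B.mulX) (B.lamC u) :=
  phiC_stable B.famStable B.tw u

lemma eLev_stable (H : ℕ) (u : ℤ) : IsStable (B.dAmb H) (B.eLev H u) := by
  intro r
  rw [eLev_eq, eLev_eq]
  rintro _ ⟨_, ⟨f, hf, rfl⟩, rfl⟩
  rw [dAmb_psiMap]
  exact Submodule.mem_map_of_mem (B.lamC_stable u r (Submodule.mem_map_of_mem hf))

/-- The kernel of the passage from a level of `L` to the level of the `E`-part. -/
def KSet (Δ n : ℤ) : Set B.L :=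
  {v | v ∈ B.Fil n ∧ ∃ w ∈ B.Fil (n + 1), B.E * v - B.E * w ∈ B.Fil (n + Δ)}

lemma fil_le_KSet (Δ n : ℤ) {v : B.L} (hv : v ∈ B.Fil (n + 1)) : v ∈ B.KSet Δ n :=
  ⟨B.anti (by omega) hv, v, hv, by rw [sub_self]; exact zero_mem _⟩

lemma KSet_add (Δ n : ℤ) {v v' : B.L} (hv : v ∈ B.KSet Δ n) (hv' : v' ∈ B.KSet Δ n) :
    v + v' ∈ B.KSet Δ n := by
  obtain ⟨h1, w, hw, he⟩ := hv
  obtain ⟨h1', w', hw', he'⟩ := hv'
  refine ⟨add_mem h1 h1', w + w', add_mem hw hw', ?_⟩
  have := add_mem he he'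
  convert this using 1
  ring

lemma KSet_mul (Δ n : ℤ) (y : B.L) {v : B.L} (hv : v ∈ B.KSet Δ n) : y * v ∈ B.KSet Δ n := by
  obtain ⟨h1, w, hw, he⟩ := hv
  refine ⟨Ideal.mul_mem_left _ y h1, y * w, Ideal.mul_mem_left _ y hw, ?_⟩
  have := Ideal.mul_mem_left _ y he
  convert this using 1
  ring

lemma KSet_X (Δ n : ℤ) (l : Fin d) {v : B.L} (hv : v ∈ B.KSet Δ n) :
    B.X l * v ∈ B.KSet Δ (n + b) := by
  obtain ⟨h1, w, hw, he⟩ := hv
  refine ⟨B.anti (by omega) (fil_mul_mem (B.X_mem l) h1), B.X l * w,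
    B.anti (by omega) (fil_mul_mem (B.X_mem l) hw), ?_⟩
  have := B.anti (show n + (b : ℤ) + Δ ≤ b + (n + Δ) by omega) (fil_mul_mem (B.X_mem l) he)
  convert this using 1
  ring

lemma psiMap_mem_iff (H : ℕ) {u r : ℤ} {f : PIdx d →₀ B.L} (hf : f ∈ B.lamC u r) :
    B.psiMap H f ∈ (B.lamC (u + 1) r).map (B.psiMap H) ↔
      ∀ c : PIdx d, f c ∈ B.KSet ((B.blen : ℤ) * H - u) (u + (b : ℤ) * c.2.1) := by
  classical
  have hΔ : ∀ σ : ℤ, (B.blen : ℤ) * H + (b : ℤ) * σ =
      u + (b : ℤ) * σ + ((B.blen : ℤ) * H - u) := fun σ => by ring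
  constructor
  · rintro ⟨g, hg, hgf⟩ c
    rw [psiMap_apply, psiMap_apply, Submodule.mkQ_apply, Submodule.mkQ_apply,
      Submodule.Quotient.eq] at hgf
    refine ⟨(hf.1 c).1, g c, ?_, ?_⟩
    · have := (hg.1 c).1
      rwa [add_right_comm] at this
    · have := ((B.Lam H).neg_mem hgf c).1
      rw [neg_sub, Finsupp.sub_apply, Finsupp.smul_apply, Finsupp.smul_apply, smul_eq_mul,
        smul_eq_mul] at this
      rwa [← hΔ]
  · intro h
    choose h1 w hw he using h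
    let g : PIdx d →₀ B.L := Finsupp.onFinset f.support (fun c => if f c = 0 then 0 else w c)
      (fun c hc => Finsupp.mem_support_iff.2 fun e => hc (if_pos e))
    have hgc : ∀ c, g c = if f c = 0 then 0 else w c := fun c => rfl
    refine ⟨g, ⟨fun c => ⟨?_, fun hn => ?_⟩, fun c hc => ?_⟩, ?_⟩
    · rw [hgc, add_right_comm]
      split
      · exact zero_mem _
      · exact hw c
    · rw [hgc, if_pos ((hf.1 c).2 hn)]
    · rw [hgc, if_pos (hf.2 c hc)]
    · rw [psiMap_apply, psiMap_apply, Submodule.mkQ_apply, Submodule.mkQ_apply,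
        Submodule.Quotient.eq]
      refine (Submodule.neg_mem_iff _).1 fun c => ?_
      rw [neg_sub, Finsupp.sub_apply, Finsupp.smul_apply, Finsupp.smul_apply, smul_eq_mul,
        smul_eq_mul, hgc]
      refine ⟨?_, fun hn => ?_⟩
      · split
        · next e => rw [e, mul_zero, sub_self]; exact zero_mem _
        · rw [hΔ]; exact he c
      · rw [if_pos ((hf.1 c).2 hn), (hf.1 c).2 hn, mul_zero, sub_self]

variable {B}
variable (hc : B.Crd)

/-- The image of the kernel in the free family. -/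
noncomputable def Crd.kFam (Δ n : ℤ) : Submodule B.κ (FreeMod B.κ B.sN d) where
  carrier := {f | ∃ v ∈ B.KSet Δ n, hc.sym n v = f}
  add_mem' := by
    rintro _ _ ⟨v, hv, rfl⟩ ⟨v', hv', rfl⟩
    exact ⟨v + v', B.KSet_add Δ n hv hv', hc.sym_add hv.1 hv'.1⟩
  zero_mem' := ⟨0, B.fil_le_KSet Δ n (zero_mem _), (hc.sym_eq_zero (zero_mem _)).2 (zero_mem _)⟩
  smul_mem' := by
    rintro a _ ⟨v, hv, rfl⟩
    exact ⟨B.lift (C a) * v, B.KSet_mul Δ n _ hv, by rw [hc.sym_smul hv.1, hc.res_lift]⟩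

lemma Crd.kFam_le (Δ n : ℤ) : hc.kFam Δ n ≤ freeFam B.κ b B.sg n := by
  rintro _ ⟨v, hv, rfl⟩
  exact (hc.sym_spec hv.1).1

lemma Crd.kFam_stable (Δ : ℤ) :
    FamStable b (fun l => xFree B.κ l) (hc.kFam Δ) := by
  intro l n f hf
  obtain ⟨v, hv, rfl⟩ := hf
  exact ⟨B.X l * v, B.KSet_X Δ n l hv, hc.sym_X l hv.1⟩

lemma Crd.sym_mem_kFam (Δ n : ℤ) {v : B.L} (hv : v ∈ B.Fil n) :
    hc.sym n v ∈ hc.kFam Δ n ↔ v ∈ B.KSet Δ n := by
  refine ⟨?_, fun h => ⟨v, h, rfl⟩⟩
  rintro ⟨v', hv', he⟩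
  have h1 := hc.sym_add (sub_mem hv hv'.1) hv'.1
  rw [sub_add_cancel, he] at h1
  have := (hc.sym_eq_zero (sub_mem hv hv'.1)).1 (right_eq_add.1 h1)
  simpa using B.KSet_add Δ n (B.fil_le_KSet Δ n this) hv'

lemma Crd.sym_zero (n : ℤ) : hc.sym n 0 = 0 := (hc.sym_eq_zero (zero_mem _)).2 (zero_mem _)

/-- The symbol of a chain of level `u`. -/
noncomputable def Crd.theta (u : ℤ) (f : PIdx d →₀ B.L) : PIdx d →₀ FreeMod B.κ B.sN d :=
  Finsupp.onFinset f.support (fun c => hc.sym (u + (b : ℤ) * c.2.1) (f c)) fun c hne =>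
    Finsupp.mem_support_iff.2 fun e => hne (by rw [e, hc.sym_zero])

lemma Crd.theta_apply (u : ℤ) (f : PIdx d →₀ B.L) (c : PIdx d) :
    hc.theta u f c = hc.sym (u + (b : ℤ) * c.2.1) (f c) := rfl

/-- The symbol as an additive map on the level. -/
noncomputable def Crd.thetaHom (u : ℤ) :
    ↥(B.LamF u) →+ (PIdx d →₀ FreeMod B.κ B.sN d) where
  toFun f := hc.theta u f.1
  map_zero' := Finsupp.ext fun c => by
    rw [hc.theta_apply]
    exact hc.sym_zero _
  map_add' f g := Finsupp.ext fun c => by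
    rw [Finsupp.add_apply, hc.theta_apply, hc.theta_apply, hc.theta_apply]
    exact hc.sym_add (f.2 c).1 (g.2 c).1

lemma Crd.theta_smul (u : ℤ) {f : PIdx d →₀ B.L} (hf : f ∈ B.LamF u) (y : B.L) :
    hc.theta u (y • f) = hc.res y • hc.theta u f :=
  Finsupp.ext fun c => by
    rw [Finsupp.smul_apply, hc.theta_apply, hc.theta_apply, Finsupp.smul_apply, smul_eq_mul,
      hc.sym_smul (hf c).1]

lemma Crd.theta_single (u : ℤ) (c : PIdx d) (v : B.L) :
    hc.theta u (Finsupp.single c v) = Finsupp.single c (hc.sym (u + (b : ℤ) * c.2.1) v) := by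
  classical
  refine Finsupp.ext fun c' => ?_
  rw [hc.theta_apply, Finsupp.single_apply, Finsupp.single_apply]
  split
  · next e => subst e; rfl
  · exact hc.sym_zero _

lemma Crd.theta_mem {u r : ℤ} {f : PIdx d →₀ B.L} (hf : f ∈ B.lamC u r) :
    hc.theta u f ∈ phiC b B.tw (freeFam B.κ b B.sg) u r := by
  refine ⟨fun c => ⟨(hc.sym_spec (hf.1 c).1).1, fun hn => ?_⟩, fun c hd => ?_⟩
  · rw [hc.theta_apply, (hf.1 c).2 hn, hc.sym_zero]
  · rw [hc.theta_apply, hf.2 c hd, hc.sym_zero]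

lemma Crd.theta_sub {u : ℤ} {f g : PIdx d →₀ B.L} (hf : f ∈ B.LamF u) (hg : g ∈ B.LamF u) :
    hc.theta u (f - g) = hc.theta u f - hc.theta u g :=
  (hc.thetaHom u).map_sub ⟨f, hf⟩ ⟨g, hg⟩

lemma Crd.theta_sum {u : ℤ} {α : Type*} (s : Finset α) {g : α → (PIdx d →₀ B.L)}
    (hg : ∀ t, g t ∈ B.LamF u) : hc.theta u (∑ t ∈ s, g t) = ∑ t ∈ s, hc.theta u (g t) := by
  induction s using Finset.cons_induction with
  | empty =>
    rw [Finset.sum_empty, Finset.sum_empty]
    exact Finsupp.ext fun c => hc.sym_zero _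
  | cons a s ha ih =>
    rw [Finset.sum_cons, Finset.sum_cons, ← ih]
    exact (hc.thetaHom u).map_add ⟨_, hg a⟩ ⟨_, sum_mem fun t _ => hg t⟩

lemma Crd.theta_zsmul {u : ℤ} (n : ℤ) {f : PIdx d →₀ B.L} (hf : f ∈ B.LamF u) :
    hc.theta u (n • f) = n • hc.theta u f := by
  have := map_zsmul (hc.thetaHom u) n ⟨f, hf⟩
  exact this

lemma Crd.theta_phiD_single (u : ℤ) (c : PIdx d) {v : B.L}
    (hv : v ∈ B.Fil (u + (b : ℤ) * c.2.1)) (hA : c.Allowed B.tw) :
    hc.theta u (phiD B.mulX (Finsupp.single c v)) =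
      phiDF B.κ B.sN d (Finsupp.single c (hc.sym (u + (b : ℤ) * c.2.1) v)) := by
  classical
  obtain ⟨⟨J, C'⟩, σ, e⟩ := c
  have h1 : ∀ l : Fin (d - 1), Finsupp.single (((J, Function.update C' l 2), σ, e) : PIdx d) v ∈
      B.LamF u := fun l => single_mem_phiSub hv (allowed_update hA l)
  have hX : ∀ l ∈ Jᶜ,
      Finsupp.single (((insert l J, C'), σ + 1, e) : PIdx d) (B.mulX l v) ∈ B.LamF u := by
    intro l hl
    refine single_mem_phiSub ?_ (allowed_insert hA (by simpa using hl) (fun j => le_rfl)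
      fun j => by omega)
    rw [mulX, LinearMap.mulLeft_apply]
    refine B.anti ?_ (fil_mul_mem (B.X_mem l) hv)
    exact le_of_eq (by dsimp only; ring)
  have hε : ∀ (ε : Finset (Fin (d - 1))), ∀ l ∈ Jᶜ,
      Finsupp.single (((insert l J, C'), σ, fun j => e j + if j ∈ ε then 1 else 0) : PIdx d) v ∈
        B.LamF u := by
    intro ε l hl
    refine single_mem_phiSub hv (allowed_insert hA (by simpa using hl) ?_ ?_) <;>
      intro j <;> split <;> omega
  have hT : ∀ l ∈ Jᶜ, phiT B.mulX l (Finsupp.single (((insert l J, C'), σ, e) : PIdx d) v) ∈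
      B.LamF u := by
    intro l hl
    rw [phiT_single]
    exact sub_mem (hX l hl) (sum_mem fun ε _ => hε ε l hl)
  have hTs : ∀ l ∈ Jᶜ,
      hc.theta u (phiT B.mulX l (Finsupp.single (((insert l J, C'), σ, e) : PIdx d) v)) =
        phiT (fun l => (xFree B.κ l : FreeMod B.κ B.sN d →ₗ[B.κ] _)) l
          (Finsupp.single (((insert l J, C'), σ, e) : PIdx d) (hc.sym (u + (b : ℤ) * σ) v)) := by
    intro l hl
    rw [phiT_single, phiT_single, hc.theta_sub (hX l hl) (sum_mem fun ε _ => hε ε l hl),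
      hc.theta_sum _ fun ε => hε ε l hl]
    simp only [hc.theta_single]
    congr 1
    congr 1
    rw [mulX, LinearMap.mulLeft_apply, ← hc.sym_X l hv]
    congr 1
    dsimp only
    ring
  have hA1 : ∀ l : Fin (d - 1),
      cechSign C' l • Finsupp.single (((J, Function.update C' l 2), σ, e) : PIdx d) v ∈ B.LamF u :=
    fun l => zsmul_mem (h1 l) _
  have hB1 : ∀ l : Fin d, (if l ∈ Jᶜ then
      ksign l J • phiT B.mulX l (Finsupp.single (((insert l J, C'), σ, e) : PIdx d) v) else 0) ∈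
        B.LamF u := by
    intro l
    split
    · next hl => exact zsmul_mem (hT l hl) _
    · exact zero_mem _
  have hB2 : ∑ l ∈ Jᶜ,
      ksign l J • phiT B.mulX l (Finsupp.single (((insert l J, C'), σ, e) : PIdx d) v) =
      ∑ l ∈ Jᶜ, if l ∈ Jᶜ then
        ksign l J • phiT B.mulX l (Finsupp.single (((insert l J, C'), σ, e) : PIdx d) v) else 0 :=
    Finset.sum_congr rfl fun l hl => (if_pos hl).symm
  rw [phiD_single, phiD_single, hB2, ← sub_neg_eq_add,
    hc.theta_sub (sum_mem fun l _ => hA1 l) (neg_mem (zsmul_mem (sum_mem fun l _ => hB1 l) _)),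
    ← neg_zsmul, hc.theta_zsmul _ (sum_mem fun l _ => hB1 l), neg_zsmul, sub_neg_eq_add,
    hc.theta_sum _ hA1, hc.theta_sum _ hB1]
  congr 1
  · refine Finset.sum_congr rfl fun l _ => ?_
    rw [hc.theta_zsmul _ (h1 l), hc.theta_single]
  · congr 1
    refine Finset.sum_congr rfl fun l hl => ?_
    rw [if_pos hl, hc.theta_zsmul _ (hT l hl), hTs l hl]

lemma Crd.theta_phiD (u : ℤ) {f : PIdx d →₀ B.L} (hf : f ∈ B.LamF u) :
    hc.theta u (phiD B.mulX f) = phiDF B.κ B.sN d (hc.theta u f) := by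
  classical
  have hst : ∀ g ∈ B.LamF u, phiD B.mulX g ∈ B.LamF u := fun g hg =>
    phiSub_stable B.famStable B.tw u (Submodule.mem_map_of_mem hg)
  have hsum : f = ∑ c ∈ f.support, Finsupp.single c (f c) := f.sum_single.symm
  have hmem : ∀ c, Finsupp.single c (f c) ∈ B.LamF u := by
    intro c
    by_cases hA : c.Allowed B.tw
    · exact single_mem_phiSub (hf c).1 hA
    · rw [(hf c).2 hA, Finsupp.single_zero]; exact zero_mem _
  conv_lhs => rw [hsum, map_sum]
  conv_rhs => rw [hsum, hc.theta_sum _ hmem, map_sum]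
  rw [hc.theta_sum _ fun c => hst _ (hmem c)]
  refine Finset.sum_congr rfl fun c hcs => ?_
  have hA : c.Allowed B.tw := not_not.1 fun hn => Finsupp.mem_support_iff.1 hcs ((hf c).2 hn)
  rw [hc.theta_phiD_single u c (hf c).1 hA, hc.theta_single]

lemma Crd.exists_theta_eq {u r : ℤ} {φ : PIdx d →₀ FreeMod B.κ B.sN d}
    (hφ : φ ∈ phiC b B.tw (freeFam B.κ b B.sg) u r) :
    ∃ f ∈ B.lamC u r, hc.theta u f = φ := by
  classical
  let f : PIdx d →₀ B.L := Finsupp.onFinset φ.support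
    (fun c => if φ c = 0 then 0 else B.lift (B.sPoly (φ c)))
    fun c hc' => Finsupp.mem_support_iff.2 fun e => hc' (if_pos e)
  have hfc : ∀ c, f c = if φ c = 0 then 0 else B.lift (B.sPoly (φ c)) := fun c => rfl
  refine ⟨f, ⟨fun c => ⟨?_, fun hn => ?_⟩, fun c hd => ?_⟩, Finsupp.ext fun c => ?_⟩
  · rw [hfc]
    split
    · exact zero_mem _
    · exact lift_mem_fil (hφ.1 c).1
  · rw [hfc, if_pos ((hφ.1 c).2 hn)]
  · rw [hfc, if_pos (hφ.2 c hd)]
  · rw [hc.theta_apply, hfc]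
    split
    · next e => rw [hc.sym_zero, e]
    · exact hc.sym_lift (hφ.1 c).1

lemma Crd.theta_mem_ker {H : ℕ} {u r : ℤ} {f : PIdx d →₀ B.L} (hf : f ∈ B.lamC u r) :
    hc.theta u f ∈ phiC b B.tw (hc.kFam ((B.blen : ℤ) * H - u)) u r ↔
      B.psiMap H f ∈ (B.lamC (u + 1) r).map (B.psiMap H) := by
  rw [B.psiMap_mem_iff H hf]
  constructor
  · intro h c
    exact (hc.sym_mem_kFam _ _ (hf.1 c).1).1 (h.1 c).1
  · intro h
    obtain ⟨h1, h2⟩ := hc.theta_mem hf
    exact ⟨fun c => ⟨(hc.sym_mem_kFam _ _ (hf.1 c).1).2 (h c), (h1 c).2⟩, h2⟩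

lemma Crd.theta_comb {u : ℤ} {f : PIdx d →₀ B.L} (hf : f ∈ B.LamF u) {n : ℕ}
    {fl : Fin n → (PIdx d →₀ B.L)} (hfl : ∀ t, fl t ∈ B.LamF u) (a : Fin n → B.κ) :
    hc.theta u (f - ∑ t, B.lift (C (a t)) • fl t) =
      hc.theta u f - ∑ t, a t • hc.theta u (fl t) := by
  rw [hc.theta_sub hf (sum_mem fun t _ => Submodule.smul_mem _ _ (hfl t)),
    hc.theta_sum _ fun t => Submodule.smul_mem _ _ (hfl t)]
  simp only [hc.theta_smul u (hfl _), hc.res_lift]

lemma Crd.fil_one_isMaximal (hc : B.Crd) : (B.Fil 1).IsMaximal := by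
  have e : B.Fil 1 = RingHom.ker hc.res := Ideal.ext fun y => (hc.res_zero y).symm
  rw [e]
  exact RingHom.ker_isMaximal_of_surjective _ fun a => ⟨_, hc.res_lift a⟩

lemma Crd.psiMap_mem_hcyc {H : ℕ} {u r : ℤ} {f : PIdx d →₀ B.L} (hf : f ∈ B.lamC u r)
    (h : phiDF B.κ B.sN d (hc.theta u f) ∈
      phiC b B.tw (hc.kFam ((B.blen : ℤ) * H - u)) u (r + 1)) :
    B.psiMap H f ∈ hcyc (B.dAmb H) (B.eLev H u) (B.eLev H (u + 1)) r := by
  refine ⟨?_, ?_⟩
  · rw [B.eLev_eq]; exact Submodule.mem_map_of_mem hf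
  · show B.dAmb H (B.psiMap H f) ∈ B.eLev H (u + 1) (r + 1)
    rw [dAmb_psiMap, B.eLev_eq]
    refine (hc.theta_mem_ker (B.lamC_stable u r (Submodule.mem_map_of_mem hf))).1 ?_
    rwa [hc.theta_phiD u hf.1]

lemma Crd.theta_mem_hcyc {H : ℕ} {u r : ℤ} {f : PIdx d →₀ B.L} (hf : f ∈ B.lamC u r)
    (h : B.psiMap H f ∈ hcyc (B.dAmb H) (B.eLev H u) (B.eLev H (u + 1)) r) :
    hc.theta u f ∈ hcyc (phiDF B.κ B.sN d) (phiC b B.tw (freeFam B.κ b B.sg) u)
      (phiC b B.tw (hc.kFam ((B.blen : ℤ) * H - u)) u) r := by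
  refine ⟨hc.theta_mem hf, ?_⟩
  show phiDF B.κ B.sN d (hc.theta u f) ∈
    phiC b B.tw (hc.kFam ((B.blen : ℤ) * H - u)) u (r + 1)
  rw [← hc.theta_phiD u hf.1]
  refine (hc.theta_mem_ker (B.lamC_stable u r (Submodule.mem_map_of_mem hf))).2 ?_
  rw [← dAmb_psiMap, ← B.eLev_eq]
  exact h.2

lemma Crd.psiMap_mem_hbd {H : ℕ} {u r : ℤ} {f : PIdx d →₀ B.L} (hf : f ∈ B.lamC u r)
    (h : hc.theta u f ∈ hbd (phiDF B.κ B.sN d) (phiC b B.tw (freeFam B.κ b B.sg) u)
      (phiC b B.tw (hc.kFam ((B.blen : ℤ) * H - u)) u) r) :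
    B.psiMap H f ∈ hbd (B.dAmb H) (B.eLev H u) (B.eLev H (u + 1)) r := by
  obtain ⟨_, ⟨ψ, hψ, rfl⟩, κ', hκ', heq⟩ := Submodule.mem_sup.1 h
  obtain ⟨g, hg, rfl⟩ := hc.exists_theta_eq hψ
  have hdg : phiD B.mulX g ∈ B.lamC u r :=
    (B.lamC_stable u).map_pred r (Submodule.mem_map_of_mem hg)
  have hθ : hc.theta u (f - phiD B.mulX g) = κ' := by
    rw [hc.theta_sub hf.1 hdg.1, hc.theta_phiD u hg.1, ← heq, add_sub_cancel_left]
  have hψh : B.psiMap H (f - phiD B.mulX g) ∈ B.eLev H (u + 1) r := by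
    rw [B.eLev_eq]
    exact (hc.theta_mem_ker (sub_mem hf hdg)).1 (hθ ▸ hκ')
  have e : B.psiMap H f = B.dAmb H (B.psiMap H g) + B.psiMap H (f - phiD B.mulX g) := by
    rw [dAmb_psiMap, ← map_add, add_sub_cancel]
  rw [e]
  exact Submodule.add_mem_sup (Submodule.mem_map_of_mem (by
    rw [B.eLev_eq]; exact Submodule.mem_map_of_mem hg)) hψh

lemma smul_psiMap_mem (H : ℕ) {u r : ℤ} {y : B.L} (hy : y ∈ B.Fil 1) {f : PIdx d →₀ B.L}
    (hf : f ∈ B.lamC u r) : y • B.psiMap H f ∈ B.eLev H (u + 1) r := by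
  rw [← map_smul, B.eLev_eq]
  refine Submodule.mem_map_of_mem ⟨fun c => ⟨?_, fun hn => ?_⟩, Submodule.smul_mem _ y hf.2⟩
  · rw [Finsupp.smul_apply, smul_eq_mul]
    exact B.anti (by omega) (fil_mul_mem hy (hf.1 c).1)
  · rw [Finsupp.smul_apply, (hf.1 c).2 hn, smul_zero]

include hc in
lemma Crd.kFam_fgPair (Δ : ℤ) :
    FGPair b (X := fun l => (xFree B.κ l : FreeMod B.κ B.sN d →ₗ[B.κ] _)) xFree_comm
      (freeFam B.κ b B.sg) (hc.kFam Δ) := by
  refine ⟨freeFam_stable B.sg, hc.kFam_stable Δ, hc.kFam_le Δ, B.sN, B.sg,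
    fun t => Finsupp.single ((t, 0) : FIdx B.sN d) 1, fun t => mem_freeFam.2 fun q hq => ?_,
    fun n => le_sup_of_le_left (by rw [evFree_std, Submodule.map_id])⟩
  rw [Finsupp.single_apply] at hq
  split at hq
  · next e => subst e; simp [bdeg]
  · exact absurd rfl hq

include hc in
/-- One fine level of the `E`-part has finite cohomology. -/
theorem Crd.level_finite (hd : 0 < d) (hb : 0 < b) (H : ℕ) (u r : ℤ) :
    hlen B.L (B.dAmb H) (B.eLev H u) (B.eLev H (u + 1)) r ≠ ⊤ := by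
  classical
  obtain ⟨n, z, hzc, hzs⟩ := exists_gen_of_finite (phiDF B.κ B.sN d)
    (phiC b B.tw (freeFam B.κ b B.sg) u) (phiC b B.tw (hc.kFam ((B.blen : ℤ) * H - u)) u) r
    ((hc.kFam_fgPair _).finite hd hb B.tw u r)
  choose fl hfl hflz using fun t => hc.exists_theta_eq (hzc t).1
  have := hc.fil_one_isMaximal
  refine hlen_ne_top_of_gen (B.dAmb H) (B.eLev H u) (B.eLev H (u + 1)) r (B.Fil 1)
    (fun t => B.psiMap H (fl t))
    (fun t => hc.psiMap_mem_hcyc (hfl t) (by rw [hflz t]; exact (hzc t).2)) ?_ ?_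
  · intro e he
    have he1 : e ∈ (B.lamC u r).map (B.psiMap H) := B.eLev_eq H u r ▸ he.1
    obtain ⟨f, hf, rfl⟩ := he1
    obtain ⟨a, ha⟩ := hzs _ (hc.theta_mem_hcyc hf he)
    refine ⟨fun t => B.lift (C (a t)), ?_⟩
    have hmem : f - ∑ t, B.lift (C (a t)) • fl t ∈ B.lamC u r :=
      sub_mem hf (sum_mem fun t _ => Submodule.smul_mem _ _ (hfl t))
    have h2 := hc.psiMap_mem_hbd (H := H) hmem (by
      rw [hc.theta_comb hf.1 (fun t => (hfl t).1) a]
      simpa only [hflz] using ha)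
    simpa only [map_sub, map_sum, map_smul] using h2
  · intro y hy e he
    have he1 : e ∈ (B.lamC u r).map (B.psiMap H) := B.eLev_eq H u r ▸ he.1
    obtain ⟨f, hf, rfl⟩ := he1
    exact Submodule.mem_sup_right (smul_psiMap_mem H hy hf)

include hc in
/-- Finitely many fine levels have finite cohomology. -/
theorem Crd.window_finite (hd : 0 < d) (hb : 0 < b) (H : ℕ) (a : ℤ) (n : ℕ) (r : ℤ) :
    hlen B.L (B.dAmb H) (B.eLev H a) (B.eLev H (a + n)) r ≠ ⊤ := by
  induction n with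
  | zero =>
    rw [Nat.cast_zero, add_zero]
    refine ne_of_eq_of_ne ?_ ENat.zero_ne_top
    rw [hlen, sq_eq_zero_iff]
    exact inf_le_left.trans le_sup_right
  | succ n ih =>
    refine ne_top_of_le_ne_top ?_ (hlen_mid_le (P := B.eLev H (a + n)) (B.dAmb_comp_dAmb H)
      (B.eLev_stable H _) (B.eLev_stable H _) (B.eLev_stable H _)
      (fun r => B.eLev_anti H (by omega) r) (fun r => B.eLev_anti H (by omega) r) r)
    refine WithTop.add_ne_top.2 ⟨?_, ih⟩
    rw [show a + ((n + 1 : ℕ) : ℤ) = a + n + 1 by push_cast; ring]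
    exact hc.level_finite hd hb H _ r

variable (B)

lemma eAmb_eq (H : ℕ) {t : ℤ} (h : -(H : ℤ) ≤ t) :
    B.eAmb H t = (B.LamF ((B.blen : ℤ) * t)).map (B.psiMap H) := by
  rw [eAmb, lamAmb, max_eq_left h, psiMap, ← Submodule.map_comp]
  show (B.Lam t).map _ = (B.Lam t).map _
  congr 1

lemma eAmb_le (H : ℕ) (t : ℤ) : B.eAmb H t ≤ B.eAmb H (-(H : ℤ)) :=
  Submodule.map_mono (Submodule.map_mono (B.Lam_anti (max_le_iff.2 ⟨le_max_right _ _, le_max_right _ _⟩)))

section blkL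

variable {B}

include hc in
/-- The blocks of the `E`-part have finite cohomology over `L`. -/
theorem Crd.blk_finiteL (hd : 0 < d) (hb : 0 < b) (H : ℕ) (t r : ℤ) :
    Module.length B.L (winH (B.dC H) (B.pC H) (B.gC H) t (t + 1) r) ≠ ⊤ := by
  have hsub : ∀ (s r : ℤ), (lvl (B.pC H) (B.gC H) s r).map (B.eAmb H (-(H : ℤ))).subtype =
      B.eAmb H s ⊓ B.degAmb H r := fun s r => by
    rw [lvl, pC, gC, ← Submodule.comap_inf, Submodule.map_comap_subtype, inf_eq_right]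
    exact inf_le_left.trans (B.eAmb_le H s)
  rw [show Module.length B.L (winH (B.dC H) (B.pC H) (B.gC H) t (t + 1) r) =
    hlen B.L (B.dC H) (lvl (B.pC H) (B.gC H) t) (lvl (B.pC H) (B.gC H) (t + 1)) r from rfl]
  by_cases h1 : t < -(H : ℤ)
  · refine ne_of_eq_of_ne ?_ ENat.zero_ne_top
    rw [hlen, sq_eq_zero_iff]
    refine inf_le_left.trans (le_sup_of_le_right (le_of_eq ?_))
    show B.gC H t ⊓ B.pC H r = B.gC H (t + 1) ⊓ B.pC H r
    have e : B.eAmb H t = B.eAmb H (t + 1) := by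
      rw [eAmb, eAmb, lamAmb, lamAmb, max_eq_right (a := t) (by omega),
        max_eq_right (a := t + 1) (by omega)]
    rw [gC, gC, e]
  by_cases h2 : (H : ℤ) ≤ t
  · refine ne_of_eq_of_ne ?_ ENat.zero_ne_top
    rw [hlen, sq_eq_zero_iff]
    refine inf_le_left.trans (inf_le_left.trans (le_of_eq_of_le ?_ bot_le))
    have e : B.eAmb H t = ⊥ := by
      have e0 : (B.Lam t).map (B.Lam H).mkQ = ⊥ :=
        le_bot_iff.1 (Submodule.map_le_iff_le_comap.2 (by
          rw [← LinearMap.ker, Submodule.ker_mkQ]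
          exact B.Lam_anti h2))
      rw [eAmb, lamAmb, max_eq_left (a := t) (by omega), e0]
      exact le_bot_iff.1 (Submodule.map_le_iff_le_comap.2 bot_le)
    rw [gC, e, Submodule.comap_bot, Submodule.ker_subtype]
  push Not at h1 h2
  have hst : ∀ s, -(H : ℤ) ≤ s → ∀ r,
      B.eLev H ((B.blen : ℤ) * s) r = B.eAmb H s ⊓ B.degAmb H r := fun s hs r => by
    rw [eLev, B.eAmb_eq H hs]
  rw [hlen_map (d' := B.dAmb H) (B.eAmb H (-(H : ℤ))).subtype
    (P := lvl (B.pC H) (B.gC H) t) (Q := lvl (B.pC H) (B.gC H) (t + 1))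
    (P' := B.eLev H ((B.blen : ℤ) * t)) (Q' := B.eLev H ((B.blen : ℤ) * (t + 1))) ?_
    (B.eLev_stable H _) (fun r v _ => rfl) ?_ ?_ r]
  · rw [show (B.blen : ℤ) * (t + 1) = B.blen * t + (B.blen : ℕ) by ring]
    exact hc.window_finite hd hb H _ _ r
  · intro r
    rintro _ ⟨v, hv, rfl⟩
    refine ⟨?_, ?_⟩
    · show (B.dAmb H v.1) ∈ B.eAmb H t
      exact B.eAmb_stable H t (Submodule.mem_map_of_mem hv.1)
    · show (B.dAmb H v.1) ∈ B.degAmb H (r + 1)
      obtain ⟨w, hw, hwv⟩ := hv.2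
      rw [show v.1 = (B.eAmb H (-(H : ℤ))).subtype v from rfl, ← hwv]
      exact ⟨phiD B.mulX w, phiDeg_stable _ r (Submodule.mem_map_of_mem hw), rfl⟩
  · intro r
    rw [hsub, hst t h1, sup_eq_left, hst (t + 1) (by omega)]
    exact inf_le_inf_right _ (Submodule.map_mono (Submodule.map_mono (B.Lam_anti
      (max_le_max_right _ (by omega)))))
  · intro r
    refine le_antisymm ?_ ?_
    · rintro v ⟨hv, hv'⟩
      rw [SetLike.mem_coe, Submodule.mem_comap, hst (t + 1) (by omega)] at hv'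
      exact hv'
    · refine le_inf ?_ ?_
      · exact inf_le_inf_right _ (Submodule.comap_mono (Submodule.map_mono (Submodule.map_mono
          (B.Lam_anti (max_le_max_right _ (by omega))))))
      · rw [hst (t + 1) (by omega), ← hsub]
        exact Submodule.le_comap_map _ _

end blkL

section RL

variable (H : ℕ) (hK : 2 * b * H ≤ K)

lemma hcyc_RL (t c r : ℤ) (v : B.Chains H) :
    letI := B.rMod H hK
    v ∈ hcyc (B.toR H hK (B.dC H))
        (lvl (fun r => B.subR H hK (B.pC H r)) (fun t => B.subR H hK (B.gC H t)) t)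
        (lvl (fun r => B.subR H hK (B.pC H r)) (fun t => B.subR H hK (B.gC H t)) c) r ↔
      v ∈ hcyc (B.dC H) (lvl (B.pC H) (B.gC H) t) (lvl (B.pC H) (B.gC H) c) r := Iff.rfl

lemma hbd_RL (t c r : ℤ) (v : B.Chains H) :
    letI := B.rMod H hK
    v ∈ hbd (B.toR H hK (B.dC H))
        (lvl (fun r => B.subR H hK (B.pC H r)) (fun t => B.subR H hK (B.gC H t)) t)
        (lvl (fun r => B.subR H hK (B.pC H r)) (fun t => B.subR H hK (B.gC H t)) c) r ↔
      v ∈ hbd (B.dC H) (lvl (B.pC H) (B.gC H) t) (lvl (B.pC H) (B.gC H) c) r := by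
  letI := B.rMod H hK
  simp only [hbd, Submodule.mem_sup, Submodule.mem_map]
  rfl

/-- The windows over `R` are the windows over `L`. -/
noncomputable def winRL (t c r : ℤ) :
    letI := B.rMod H hK
    winH (B.toR H hK (B.dC H)) (fun r => B.subR H hK (B.pC H r))
        (fun t => B.subR H hK (B.gC H t)) t c r ≃+
      winH (B.dC H) (B.pC H) (B.gC H) t c r :=
  letI := B.rMod H hK
  QuotientAddGroup.congr _ _
    { toFun := fun v => ⟨v.1, (B.hcyc_RL H hK t c r v.1).1 v.2⟩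
      invFun := fun v => ⟨v.1, (B.hcyc_RL H hK t c r v.1).2 v.2⟩
      left_inv := fun v => rfl
      right_inv := fun v => rfl
      map_add' := fun v w => rfl }
    (by
      ext v
      constructor
      · rintro ⟨w, hw, rfl⟩
        exact (B.hbd_RL H hK t c r w.1).1 hw
      · intro hv
        exact ⟨⟨v.1, (B.hcyc_RL H hK t c r v.1).2 v.2⟩, (B.hbd_RL H hK t c r v.1).2 hv, rfl⟩)

lemma winRL_hmk (t c r : ℤ) (v : B.Chains H)
    (h :
      letI := B.rMod H hK
      v ∈ hcyc (B.toR H hK (B.dC H))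
        (lvl (fun r => B.subR H hK (B.pC H r)) (fun t => B.subR H hK (B.gC H t)) t)
        (lvl (fun r => B.subR H hK (B.pC H r)) (fun t => B.subR H hK (B.gC H t)) c) r)
    (h' : v ∈ hcyc (B.dC H) (lvl (B.pC H) (B.gC H) t) (lvl (B.pC H) (B.gC H) c) r) :
    letI := B.rMod H hK
    B.winRL H hK t c r (hmk (B.toR H hK (B.dC H))
      (lvl (fun r => B.subR H hK (B.pC H r)) (fun t => B.subR H hK (B.gC H t)) t)
      (lvl (fun r => B.subR H hK (B.pC H r)) (fun t => B.subR H hK (B.gC H t)) c) r ⟨v, h⟩) =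
    hmk (B.dC H) (lvl (B.pC H) (B.gC H) t) (lvl (B.pC H) (B.gC H) c) r ⟨v, h'⟩ := rfl

lemma winRL_smul (t c r : ℤ) (a : R) (z : B.L)
    (hz : B.χ (algebraMap R B.As a) = Ideal.Quotient.mk B.Ann z) :
    letI := B.rMod H hK
    ∀ w, B.winRL H hK t c r (a • w) = z • B.winRL H hK t c r w := by
  letI := B.rMod H hK
  intro w
  obtain ⟨⟨v, hv⟩, rfl⟩ := hmk_surjective _ _ _ _ w
  rw [← map_smul, B.winRL_hmk H hK t c r v hv ((B.hcyc_RL H hK t c r v).1 hv), ← map_smul]
  have e : ((a • ⟨v, hv⟩ : ↥(hcyc (B.toR H hK (B.dC H))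
        (lvl (fun r => B.subR H hK (B.pC H r)) (fun t => B.subR H hK (B.gC H t)) t)
        (lvl (fun r => B.subR H hK (B.pC H r)) (fun t => B.subR H hK (B.gC H t)) c) r)) :
        B.Chains H) = z • v := B.smul_eq H hK a z hz v
  exact congrArg (hmk _ _ _ r) (Subtype.ext e)

end RL

/-- The top level of `L` on a window of width `2 * H` kills the `E`-part. -/
lemma fil_smul_chains (H : ℕ) {z : B.L} (hz : z ∈ B.Fil ((2 * B.blen * H : ℕ) : ℤ))
    (w : B.Chains H) : z • w = 0 := by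
  refine Subtype.ext ?_
  obtain ⟨_, ⟨f, hf, rfl⟩, hfv⟩ := w.2
  rw [SetLike.val_smul, ← hfv]
  simp only [LinearMap.smul_apply, LinearMap.id_apply, ZeroMemClass.coe_zero, ← map_smul]
  rw [Submodule.mkQ_apply, Submodule.Quotient.mk_eq_zero, smul_comm]
  intro c
  refine ⟨?_, fun hn => ?_⟩
  · rw [Finsupp.smul_apply, smul_eq_mul]
    refine Ideal.mul_mem_left _ _ ?_
    rw [Finsupp.smul_apply, smul_eq_mul]
    refine B.anti ?_ (fil_mul_mem hz (hf c).1)
    rw [max_self]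
    push_cast
    nlinarith
  · rw [Finsupp.smul_apply, Finsupp.smul_apply, (hf c).2 hn, smul_zero, smul_zero]

end Band

/-- The finiteness conjunct of `GoalBandBlocks`, over `L` and over `R`. -/
theorem bandBlk_finite (hco : GoalBandCoord.{u}) (p : ℕ) [Fact p.Prime] (R : Type u) [CommRing R]
    [IsLocalRing R] [IsNoetherianRing R] (k : Type u) [Field k] [CharP k p] [PerfectRing k p]
    (A : Type u) [CommRing A] [IsLocalRing A] [IsNoetherianRing A] [Algebra R A]
    [Algebra (WittVector p k) A] (d : ℕ) (xR : Fin d → R) (b : ℕ) (G : ℕ → Ideal A)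
    (ι : ResidueField R →+* k) (e : ℝ) (hctx : BandCtx p R A xR b G ι e)
    (CI : CIData p k A (fun l => algebraMap R A (xR l)) b G) (i j K : ℕ)
    (B : Band p R CI ι i j K) (hR : B.Rich) (hK0 : 0 < K) (H : ℕ) (hK : 2 * b * H ≤ K) :
    letI := B.rMod H hK
    ∀ t r : ℤ, Module.length R (winH (B.toR H hK (B.dC H))
      (fun r => B.subR H hK (B.pC H r)) (fun t => B.subR H hK (B.gC H t)) t (t + 1) r) ≠ ⊤ := by
  letI := B.rMod H hK
  obtain ⟨⟨res, hres0, hres1⟩, hnf, hχ, hlen'⟩ :=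
    hco p R k A d xR b G ι e hctx CI i j K B hR hK0
  let hc : B.Crd := ⟨res, hres0, hres1, hnf⟩
  intro t r
  refine length_ne_top_transport (B.winRL H hK t (t + 1) r) B.c
    (fun a z => B.χ (algebraMap R B.As a) = Ideal.Quotient.mk B.Ann z)
    (B.Fil ((2 * B.blen * H : ℕ) : ℤ) : Set B.L) ?_
    (fun a z hz w => B.winRL_smul H hK t (t + 1) r a z hz w)
    (fun z hz => hmod_smul_eq_zero _ _ _ _ (B.fil_smul_chains H hz))
    (hc.blk_finiteL hctx.d_pos hctx.nu.b_pos H t r)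
  intro inst h1 h2
  exact hlen' _ (2 * B.blen * H) h1 h2

/-- The finiteness of the blocks of the `E`-part over `L`. -/
theorem bandBlk_finiteL (hco : GoalBandCoord.{u}) (p : ℕ) [Fact p.Prime] (R : Type u) [CommRing R]
    [IsLocalRing R] [IsNoetherianRing R] (k : Type u) [Field k] [CharP k p] [PerfectRing k p]
    (A : Type u) [CommRing A] [IsLocalRing A] [IsNoetherianRing A] [Algebra R A]
    [Algebra (WittVector p k) A] (d : ℕ) (xR : Fin d → R) (b : ℕ) (G : ℕ → Ideal A)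
    (ι : ResidueField R →+* k) (e : ℝ) (hctx : BandCtx p R A xR b G ι e)
    (CI : CIData p k A (fun l => algebraMap R A (xR l)) b G) (i j K : ℕ)
    (B : Band p R CI ι i j K) (hR : B.Rich) (hK0 : 0 < K) (H : ℕ) :
    ∀ t r : ℤ, Module.length B.L (winH (B.dC H) (B.pC H) (B.gC H) t (t + 1) r) ≠ ⊤ := by
  obtain ⟨⟨res, hres0, hres1⟩, hnf, -, -⟩ := hco p R k A d xR b G ι e hctx CI i j K B hR hK0
  exact fun t r => Band.Crd.blk_finiteL ⟨res, hres0, hres1, hnf⟩ hctx.d_pos hctx.nu.b_pos H t r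

end Vale.Agent.P202
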