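import Vale.Agent.P202.BandBlocksLen
import Vale.Agent.P202.BandBlkFin

/-!
GoalBandBlocks: the block ranks of the band complex (BLUEPRINT_BAND, sections 0 and 6), from the
rank estimates on the windows of levels of `L` and the coordinates of the band ring.
-/

universe u

namespace Vale.Agent.P202

open IsLocalRing Finset

namespace Band

variable {p : ℕ} [Fact p.Prime] {R : Type u} [CommRing R] [IsLocalRing R] {k : Type u} [Field k]
  [CharP k p] [PerfectRing k p] {A : Type u} [CommRing A] [Algebra R A]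
  [Algebra (WittVector p k) A] {d : ℕ} {x : Fin d → A} {b : ℕ} {G : ℕ → Ideal A}
  {CI : CIData p k A x b G} {ι : ResidueField R →+* k} {i j K : ℕ}
  (B : Band p R CI ι i j K)

/-- The endomorphism of a window over `R` is multiplication by `D` over `L`. -/
lemma winRL_winMap (H : ℕ) (hK : 2 * b * H ≤ K)
    (hdl : letI := B.rMod H hK; LevelEnd (B.toR H hK (B.dC H))
      (fun r => B.subR H hK (B.pC H r)) (fun t => B.subR H hK (B.gC H t))
      (B.toR H hK (B.dlC H))) (t c r : ℤ) :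
    letI := B.rMod H hK
    ∀ v, B.winRL H hK t c r (hdl.winMap t c r v) = B.D • B.winRL H hK t c r v := by
  letI := B.rMod H hK
  intro v
  obtain ⟨⟨w, hw⟩, rfl⟩ := hmk_surjective (B.toR H hK (B.dC H))
    (lvl (fun r => B.subR H hK (B.pC H r)) (fun t => B.subR H hK (B.gC H t)) t)
    (lvl (fun r => B.subR H hK (B.pC H r)) (fun t => B.subR H hK (B.gC H t)) c) r v
  have h' : B.D • w ∈ hcyc (B.dC H) (lvl (B.pC H) (B.gC H) t) (lvl (B.pC H) (B.gC H) c) r :=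
    Submodule.smul_mem _ B.D ((B.hcyc_RL H hK t c r w).1 hw)
  refine (congrArg (B.winRL H hK t c r) (hdl.winMap_hmk t c r ⟨w, hw⟩
    ((B.hcyc_RL H hK t c r _).2 h'))).trans ?_
  refine (B.winRL_hmk H hK t c r (B.D • w) ((B.hcyc_RL H hK t c r _).2 h') h').trans ?_
  rw [B.winRL_hmk H hK t c r w hw ((B.hcyc_RL H hK t c r w).1 hw), ← map_smul]
  rfl

end Band

/-- An alternating sum of numbers close to multiples of numbers with a known alternating sum. -/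
lemma alt_sum_close (s : Finset ℤ) (X N : ℤ → ℝ) (c T η₁ η₂ : ℝ)
    (h₁ : ∀ r ∈ s, |X r - c * N r| ≤ η₁)
    (h₂ : |∑ r ∈ s, (((Int.negOnePow r : ℤˣ) : ℤ) : ℝ) * N r - T| ≤ η₂) :
    |∑ r ∈ s, (((Int.negOnePow r : ℤˣ) : ℤ) : ℝ) * X r - c * T| ≤ s.card * η₁ + |c| * η₂ := by
  have e : ∑ r ∈ s, (((Int.negOnePow r : ℤˣ) : ℤ) : ℝ) * X r - c * T =
      ∑ r ∈ s, (((Int.negOnePow r : ℤˣ) : ℤ) : ℝ) * (X r - c * N r) +
        c * (∑ r ∈ s, (((Int.negOnePow r : ℤˣ) : ℤ) : ℝ) * N r - T) := by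
    rw [mul_sub, Finset.mul_sum]
    simp only [mul_sub, Finset.sum_sub_distrib, mul_left_comm c]
    ring
  rw [e]
  refine (abs_add_le _ _).trans (add_le_add ?_ ?_)
  · refine (Finset.abs_sum_le_sum_abs _ _).trans ?_
    refine (Finset.sum_le_sum (g := fun _ => η₁) fun r hr => ?_).trans_eq (by simp)
    rw [abs_mul]
    rcases Int.units_eq_one_or (Int.negOnePow r) with h | h <;> simp [h, h₁ r hr]
  · rw [abs_mul]
    exact mul_le_mul_of_nonneg_left h₂ (abs_nonneg _)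

/-- Small real bounds give bounds by the floor. -/
lemma le_floor_of_half {x y : ℝ} (hy : 2 ≤ y) (hx : x ≤ y / 2) : x ≤ (⌊y⌋₊ : ℝ) := by
  have := Nat.lt_floor_add_one y
  linarith

lemma reg_of_rk {S X : Type u} [CommRing S] [AddCommGroup X] [Module S X]
    (hX : Module.length S X ≠ ⊤) (f : Module.End S X) (rk : ℕ → ℕ) (c η J : ℕ)
    (hf : ∀ a, rkD f a = c * rk a) (h : rk 2 ≤ rk (J + 2) + η) : Reg f 2 (c * η) J := by
  obtain ⟨_, _⟩ := isFiniteLength_iff_isNoetherian_isArtinian.1 (Module.length_ne_top_iff.1 hX)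
  refine (goalRegRank S X f 2 _ J).1.2 ?_
  rw [hf, hf, ← mul_add, add_comm 2 J]
  exact Nat.mul_le_mul_left _ h

/-- The ranks of one block, from those of `E` on the block of levels. -/
theorem bandBlk_ranks (hco : GoalBandCoord.{u}) {p : ℕ} [Fact p.Prime] {R : Type u} [CommRing R]
    [IsLocalRing R] [IsNoetherianRing R] {k : Type u} [Field k] [CharP k p] [PerfectRing k p]
    {A : Type u} [CommRing A] [IsLocalRing A] [IsNoetherianRing A] [Algebra R A]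
    [Algebra (WittVector p k) A] {d : ℕ} {xR : Fin d → R} {b : ℕ} {G : ℕ → Ideal A}
    {ι : ResidueField R →+* k} {e : ℝ} (hctx : BandCtx p R A xR b G ι e)
    {CI : CIData p k A (fun l => algebraMap R A (xR l)) b G} {i j K : ℕ}
    (B : Band p R CI ι i j K) (hR : B.Rich) (hK0 : 0 < K) (H : ℕ) (hK : 2 * b * H ≤ K)
    (hdl : letI := B.rMod H hK; LevelEnd (B.toR H hK (B.dC H))
      (fun r => B.subR H hK (B.pC H r)) (fun t => B.subR H hK (B.gC H t))
      (B.toR H hK (B.dlC H))) (t r : ℤ) (h1 : -(H : ℤ) ≤ t) (h2 : t < H)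
    (hY : Module.length B.L (winH (phiD B.mulX) (phiDeg B.L B.L d) B.LamF
      ((B.blen : ℤ) * t) ((B.blen : ℤ) * (t + 1)) r) ≠ ⊤) :
    letI := B.rMod H hK
    (∀ η J : ℕ, rkD (B.winMul B.E ((B.blen : ℤ) * t) ((B.blen : ℤ) * (t + 1)) r) 1 ≤
        rkD (B.winMul B.E ((B.blen : ℤ) * t) ((B.blen : ℤ) * (t + 1)) r) (J + 2) + η →
      Reg (hdl.winMap t (t + 1) r) 2 (B.c * η) J) ∧
    ∀ a, B.blkRank H hK t r (a + 1) hdl ≤
        B.c * rkD (B.winMul B.E ((B.blen : ℤ) * t) ((B.blen : ℤ) * (t + 1)) r) a ∧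
      B.c * rkD (B.winMul B.E ((B.blen : ℤ) * t) ((B.blen : ℤ) * (t + 1)) r) (a + 1) ≤
        B.blkRank H hK t r a hdl := by
  letI := B.rMod H hK
  have hrk : ∀ a, rkD (hdl.winMap t (t + 1) r) a = B.c * rkD (B.D • LinearMap.id :
      Module.End B.L (winH (B.dC H) (B.pC H) (B.gC H) t (t + 1) r)) a :=
    fun a => rkD_of_conv (conv_of_coord hco hctx B hR hK0 (B.winRL H hK t (t + 1) r)
      (fun a z hz => B.winRL_smul H hK t (t + 1) r a z hz) (2 * B.blen * H)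
      (fun z hz v => B.winC_kill hz v)) (B.winRL_winMap H hK hdl t (t + 1) r) a
  obtain ⟨hc1, hc2⟩ := B.block_calc H hK t r h1 h2
    (bandBlk_finiteL hco p R k A d xR b G ι e hctx CI i j K B hR hK0 H t r) hY
  refine ⟨fun η J hη => ?_, fun a => ?_⟩
  · exact reg_of_rk
      (bandBlk_finite hco p R k A d xR b G ι e hctx CI i j K B hR hK0 H hK t r)
      (hdl.winMap t (t + 1) r) _ B.c η J hrk (hc1 η J hη)
  · exact ⟨(hrk (a + 1)).trans_le (Nat.mul_le_mul_left _ (hc2 a).1),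
      (Nat.mul_le_mul_left _ (hc2 a).2).trans_eq (hrk a).symm⟩

/-- What closeness of the ranks `f` of `E` to `N` gives for the ranks `g` of `D`. -/
lemma ranks_est (f g : ℕ → ℕ) (c η₀ J : ℕ) (N bd : ℝ) (hN : ∀ s, 1 ≤ s → s ≤ J + 2 →
      |(f s : ℝ) - N| ≤ η₀)
    (hg : ∀ a, g (a + 1) ≤ c * f a ∧ c * f (a + 1) ≤ g a) (hbd : (c : ℝ) * η₀ ≤ bd) :
    f 1 ≤ f (J + 2) + 2 * η₀ ∧ (g 2 : ℝ) ≤ c * N + bd ∧
      ∀ a, 2 ≤ a → a ≤ J → |(g a : ℝ) - c * N| ≤ bd := by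
  have hlo : ∀ a, (c : ℝ) * f (a + 1) ≤ g a := fun a => by exact_mod_cast (hg a).2
  have hhi : ∀ a, (g (a + 1) : ℝ) ≤ c * f a := fun a => by exact_mod_cast (hg a).1
  refine ⟨?_, ?_, fun a ha haJ => ?_⟩
  · have e1 := (abs_le.1 (hN 1 le_rfl (by omega))).2
    have e2 := (abs_le.1 (hN (J + 2) (by omega) le_rfl)).1
    exact_mod_cast (by push_cast; linarith : (f 1 : ℝ) ≤ ((f (J + 2) + 2 * η₀ : ℕ)))
  · have e1 := (abs_le.1 (hN 1 le_rfl (by omega))).2
    have m1 := mul_le_mul_of_nonneg_left e1 (Nat.cast_nonneg c (α := ℝ))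
    have := hhi 1
    norm_num at this ⊢
    linarith
  · have e1 := (abs_le.1 (hN (a - 1) (by omega) (by omega))).2
    have e2 := (abs_le.1 (hN (a + 1) (by omega) (by omega))).1
    have m1 := mul_le_mul_of_nonneg_left e1 (Nat.cast_nonneg c (α := ℝ))
    have m2 := mul_le_mul_of_nonneg_left e2 (Nat.cast_nonneg c (α := ℝ))
    have u1 := hhi (a - 1)
    rw [Nat.sub_add_cancel (by omega)] at u1
    have u2 := hlo a
    rw [abs_le]
    constructor <;> linarith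

theorem goalBandBlocks (hL : GoalLWin.{u}) (hco : GoalBandCoord.{u}) : GoalBandBlocks.{u} := by
  intro p _ R _ _ _ k _ _ _ A _ _ _ _ _ d xR b G ι e hctx CI H J ε hε
  have hd := hctx.d_pos
  have hb := hctx.nu.b_pos
  set ε₁ : ℝ := ε / (4 * (2 * (d : ℝ) + 1)) with hε₁
  set ε₂ : ℝ := ε / (4 * (|e| + 1)) with hε₂
  obtain ⟨i₀, hlw⟩ := hL p R k A d xR b G ι e hctx CI H (J + 2) ε₁ (by positivity)
  obtain ⟨N₁, -, hzero⟩ := bandCnt_block_eq_zero hd hb
  obtain ⟨N₂, -, heul⟩ := bandCnt_euler_neg hd hb (ε := ε₂) (by positivity)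
  obtain ⟨N₃, hN₃⟩ := exists_nat_ge (2 / ε)
  refine ⟨i₀, fun i hi => ?_⟩
  obtain ⟨j₁, hlw⟩ := hlw i hi
  refine ⟨max j₁ (max N₁ (max N₂ N₃)), fun j hj K B hR hK => ?_⟩
  simp only [max_le_iff] at hj
  obtain ⟨hj₁, hjN₁, hjN₂, hjN₃⟩ := hj
  have hq₁ := B.le_qq hjN₁
  have hq₂ := B.le_qq hjN₂
  have hq₃ : 2 / ε ≤ (B.qq : ℝ) := hN₃.trans (by exact_mod_cast B.le_qq hjN₃)
  have hεu : 2 ≤ ε * (B.unit : ℝ) := by
    rw [div_le_iff₀ hε] at hq₃
    have : (B.qq : ℝ) ≤ B.unit := by exact_mod_cast B.qq_le_unit hd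
    nlinarith
  refine ⟨⌊ε * (B.unit : ℝ)⌋₊, Nat.floor_le (by positivity), ?_⟩
  letI := B.rMod H hK
  intro hdl
  rcases Nat.eq_zero_or_pos H with rfl | hH
  · refine ⟨fun t r => ?_, fun t r h1 h2 => absurd h1 (by omega),
      fun t r h1 h2 => absurd h1 (by omega), fun t h1 h2 h3 => absurd h3 (by omega)⟩
    have := B.chains_subsingleton_zero
    have : Subsingleton (winH (B.toR 0 hK (B.dC 0)) (fun r => B.subR 0 hK (B.pC 0 r))
        (fun t => B.subR 0 hK (B.gC 0 t)) t (t + 1) r) := (hmk_surjective _ _ _ r).subsingleton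
    rw [Module.length_eq_zero]
    exact ENat.zero_ne_top
  have hK0 : 0 < K := lt_of_lt_of_le (Nat.mul_pos (Nat.mul_pos two_pos hb) hH) hK
  obtain ⟨η₀, hη₀, hwin⟩ := hlw j hj₁ K B hR hK hK0
  have hblk := fun (t r : ℤ) (h1 : -(H : ℤ) ≤ t) (h2 : t < H) =>
    have hq : (0 : ℤ) ≤ B.blen := by positivity
    have h := hwin ((B.blen : ℤ) * t) ((B.blen : ℤ) * (t + 1))
      (by rw [← mul_neg]; exact mul_le_mul_of_nonneg_left h1 hq)
      (mul_le_mul_of_nonneg_left (by omega) hq) (mul_le_mul_of_nonneg_left (by omega) hq) r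
    And.intro h.2.2 (bandBlk_ranks hco hctx B hR hK0 H hK hdl t r h1 h2 h.1)
  have hbound : (B.c : ℝ) * (η₀ : ℝ) ≤ ε₁ * B.unit := by rw [mul_comm]; exact hη₀
  have hε₁' : (2 * (d : ℝ) + 1) * ε₁ = ε / 4 := by rw [hε₁]; field_simp
  have hε₁0 : 0 ≤ ε₁ := by positivity
  have hd0 : (1 : ℝ) ≤ d := by exact_mod_cast hd
  have h2ε₁ : 2 * ε₁ ≤ ε / 4 := by nlinarith
  have hu0 : (0 : ℝ) ≤ B.unit := Nat.cast_nonneg _
  refine ⟨bandBlk_finite hco p R k A d xR b G ι e hctx CI i j K B hR hK0 H hK,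
    fun t r h1 h2 => ?_, fun t r h1 h2 hout => ?_, fun t h1 h2 h3 a ha haJ => ?_⟩
  · obtain ⟨hE, hReg, hS⟩ := hblk t r h1 h2
    obtain ⟨hdiff, -, -⟩ := ranks_est _ (fun a => B.blkRank H hK t r a hdl) B.c η₀ J _ _ hE hS
      hbound
    have h := hReg _ J hdiff
    have hle : B.c * (2 * η₀) ≤ ⌊ε * (B.unit : ℝ)⌋₊ := Nat.le_floor (by push_cast; nlinarith)
    exact fun s hs => (h s hs).trans hle
  · obtain ⟨hE, -, hS⟩ := hblk t r h1 h2
    obtain ⟨-, hout', -⟩ := ranks_est _ (fun a => B.blkRank H hK t r a hdl) B.c η₀ J _ _ hE hS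
      hbound
    have h0 : B.cnt ((B.blen : ℤ) * t) ((B.blen : ℤ) * (t + 1)) r = 0 :=
      hzero B.qq hq₁ t r hout
    rw [h0, Nat.cast_zero, mul_zero, mul_zero, zero_add] at hout'
    exact Nat.le_floor (hout'.trans (by nlinarith))
  · have ht2 : t < H := by omega
    have hX : ∀ r ∈ Icc (-(d : ℤ)) d, |(B.blkRank H hK t r a hdl : ℝ) -
        (B.c : ℝ) * e * (B.mm : ℝ) ^ (CI.n + 1) *
          (B.cnt ((B.blen : ℤ) * t) ((B.blen : ℤ) * (t + 1)) r : ℝ)| ≤ ε₁ * B.unit := by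
      intro r _
      obtain ⟨hE, -, hS⟩ := hblk t r h3 ht2
      have h := (ranks_est _ (fun a => B.blkRank H hK t r a hdl) B.c η₀ J _ _ hE hS
        hbound).2.2 a ha haJ
      simp only [mul_assoc] at h ⊢
      exact h
    have hN : |∑ r ∈ Icc (-(d : ℤ)) d, (((Int.negOnePow r : ℤˣ) : ℤ) : ℝ) *
        (B.cnt ((B.blen : ℤ) * t) ((B.blen : ℤ) * (t + 1)) r : ℝ) -
        (if t = -1 then ((d - 1).factorial : ℝ) else 0) * (B.qq : ℝ) ^ d| ≤
        ε₂ * (B.qq : ℝ) ^ d := by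
      have h := heul B.qq hq₂ t h1 h2
      push_cast at h
      exact h
    have h := alt_sum_close _ (fun r => (B.blkRank H hK t r a hdl : ℝ))
      (fun r => (B.cnt ((B.blen : ℤ) * t) ((B.blen : ℤ) * (t + 1)) r : ℝ))
      ((B.c : ℝ) * e * (B.mm : ℝ) ^ (CI.n + 1)) _ _ _ hX hN
    have htgt : (if t = -1 then ((d - 1).factorial : ℝ) * e * B.unit else 0) =
        (B.c : ℝ) * e * (B.mm : ℝ) ^ (CI.n + 1) *
          ((if t = -1 then ((d - 1).factorial : ℝ) else 0) * (B.qq : ℝ) ^ d) := by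
      simp only [Band.unit]
      push_cast
      split_ifs <;> ring
    push_cast
    rw [htgt]
    refine h.trans (le_floor_of_half hεu ?_)
    have hcard : ((Icc (-(d : ℤ)) d).card : ℝ) = 2 * d + 1 := by
      rw [Int.card_Icc, show ((d : ℤ) + 1 - -(d : ℤ)).toNat = 2 * d + 1 by omega]
      push_cast
      ring
    have he2 : |e| * ε₂ ≤ ε / 4 := by
      rw [hε₂, ← mul_div_assoc, div_le_div_iff₀ (by positivity) (by norm_num)]
      nlinarith [abs_nonneg e]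
    have hs : |(B.c : ℝ) * e * (B.mm : ℝ) ^ (CI.n + 1)| * (ε₂ * (B.qq : ℝ) ^ d) =
        |e| * ε₂ * B.unit := by
      rw [abs_mul, abs_mul, Nat.abs_cast, abs_pow, Nat.abs_cast]
      simp only [Band.unit]
      push_cast
      ring
    have m1 : (2 * (d : ℝ) + 1) * ε₁ * B.unit = ε / 4 * B.unit := by rw [hε₁']
    have m2 := mul_le_mul_of_nonneg_right he2 hu0
    rw [hcard, hs, ← mul_assoc]
    linarith

end Vale.Agent.P202
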