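import Vale.Agent.P202.InterfacesM8

/-! Proof of `GoalFreeBlock`: the counts over a block, uniform for generators small against the
block length. -/

universe u

namespace Vale.Agent.P202

open Finset

/-- The sum over a block of the products giving the free Euler characteristic, uniformly for a
shift `g` small against the block length. -/
theorem m8_block_sum {d D : ℕ} (hd : 0 < d) (hD : 0 < D) (ζ : Fin (d - 1) → ℝ)
    (hζ : ∀ l : Fin (d - 1), -((l : ℝ) + 2) < ζ l ∧ ζ l < -((l : ℝ) + 1))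
    (hder : ∀ v, (Polynomial.derivative (risePoly d)).eval v = d * ∏ l, (v - ζ l)) (K : ℕ) :
    ∃ C : ℝ, 0 ≤ C ∧ ∀ q : ℕ, 0 < q → ∀ σ : ℝ, (D : ℝ) ≤ σ * q → σ ≤ 1 →
      ∀ g : ℤ, |(g : ℝ)| ≤ σ * q → ∀ j : ℤ, -(K : ℤ) ≤ j → j ≤ K →
      |((∑ i ∈ range q, if (D : ℤ) ∣ g - ((q : ℤ) * j + i) then
          ∏ l, (((q : ℤ) * j + i - g) / D - zOf D ζ q l) else 0 : ℤ) : ℝ) -
        ((q : ℝ) / D) ^ d / d * ((risePoly d).eval ((j : ℝ) + 1) - (risePoly d).eval (j : ℝ))| ≤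
      C * σ * (q : ℝ) ^ d := by
  set M : ℝ := (K : ℝ) + d + 5 with hMdef
  have hMnn : 0 ≤ M := by positivity
  obtain ⟨C₀, hC₀, hT⟩ := poly_taylor_bound (risePoly d) hMnn
  refine ⟨2 * (d : ℝ) * M ^ d + C₀ + 2 * C₀, by positivity, ?_⟩
  intro q hq σ hDσ hσ1 g hg j hj1 hj2
  have hd0 : (0 : ℝ) ≤ (d : ℝ) := Nat.cast_nonneg _
  have hK0 : (0 : ℝ) ≤ (K : ℝ) := Nat.cast_nonneg _
  have hM1 : 1 ≤ M := by rw [hMdef]; linarith
  have hq0 : (0 : ℝ) < q := by exact_mod_cast hq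
  have hD' : (0 : ℝ) < D := by exact_mod_cast hD
  have hD1 : (1 : ℝ) ≤ D := by exact_mod_cast hD
  have hd' : (1 : ℝ) ≤ d := by exact_mod_cast hd
  have hDq : (D : ℝ) / q ≤ σ := by rw [div_le_iff₀ hq0]; linarith
  have hσ0 : 0 ≤ σ := le_trans (by positivity) hDq
  have hDqM : |(D : ℝ) / q| ≤ M := by
    rw [abs_of_nonneg (by positivity)]; linarith
  have hjR : |(j : ℝ)| ≤ K := by
    rw [abs_le]
    exact ⟨by exact_mod_cast hj1, by exact_mod_cast hj2⟩
  let F : ℤ → ℝ := fun c => (risePoly d).eval ((c : ℝ) / q)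
  let w : ℤ → ℝ := fun c => (q : ℝ) / D / d * (F (c + D) - F c)
  set E : ℝ := 2 * (d : ℝ) * M ^ d + C₀ with hE
  have hEnn : 0 ≤ E := by positivity
  have hterm : ∀ i ∈ range q, (D : ℤ) ∣ g - ((q : ℤ) * j + i) →
      |((∏ l, (((q : ℤ) * j + i - g) / D - zOf D ζ q l) : ℤ) : ℝ) -
        ((q : ℝ) / D) ^ (d - 1) * w ((q : ℤ) * j + i)| ≤ ((q : ℝ) / D) ^ (d - 1) * (E * σ) := by
    intro i hi hdvd
    rw [Finset.mem_range] at hi
    set c : ℤ := (q : ℤ) * j + i with hc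
    set v : ℝ := (c : ℝ) / q with hv
    have hvb : |v| ≤ (K : ℝ) + 1 := by
      have hi' : (i : ℝ) ≤ q := by exact_mod_cast hi.le
      have hv' : v = (j : ℝ) + i / q := by
        rw [hv, hc]; push_cast; field_simp
      rw [hv']
      refine (abs_add_le _ _).trans (add_le_add hjR ?_)
      rw [abs_of_nonneg (by positivity), div_le_one hq0]
      exact hi'
    obtain ⟨s, hs⟩ : ∃ s, c - g = (D : ℤ) * s := by
      obtain ⟨t, ht⟩ := hdvd
      exact ⟨-t, by linear_combination -ht⟩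
    rw [hs, Int.mul_ediv_cancel_left _ (by omega)]
    have hsR : (c : ℝ) - g = D * s := by exact_mod_cast hs
    let b : Fin (d - 1) → ℝ := fun l => (D : ℝ) * ((s : ℝ) - zOf D ζ q l) / q
    have hclose : ∀ l, |b l - (v - ζ l)| ≤ 2 * σ := by
      intro l
      obtain ⟨z1, z2⟩ := zOf_bounds hD ζ q l
      have e : b l - (v - ζ l) = (q * ζ l - D * zOf D ζ q l - g) / q := by
        simp only [b, hv]
        field_simp
        linear_combination -hsR
      rw [e, abs_div, abs_of_pos hq0, div_le_iff₀ hq0, abs_le]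
      have h1 := le_abs_self (g : ℝ)
      have h2 := neg_abs_le (g : ℝ)
      constructor <;> linarith
    have hvz : ∀ l, |v - ζ l| ≤ M - 2 := by
      intro l
      obtain ⟨z1, z2⟩ := hζ l
      have hl : ((l : ℕ) : ℝ) + 2 ≤ d + 1 := by
        have hl' : (l : ℕ) + 2 ≤ d + 1 := by omega
        exact_mod_cast hl'
      have hl0 : (0 : ℝ) ≤ ((l : ℕ) : ℝ) := Nat.cast_nonneg _
      have hzl : |ζ l| ≤ d + 1 := by rw [abs_le]; constructor <;> linarith
      refine (abs_sub _ _).trans ?_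
      rw [hMdef]; linarith
    have hb : ∀ l, |b l| ≤ M := by
      intro l
      have := abs_sub_abs_le_abs_sub (b l) (v - ζ l)
      have h1 := hclose l
      have h3 := hvz l
      linarith
    have hpc := prod_close univ b (fun l => v - ζ l) (M := M) (ε := 2 * σ) hM1
      (fun l _ => hb l) (fun l _ => (hvz l).trans (by linarith)) (fun l _ => hclose l)
    rw [Finset.card_univ, Fintype.card_fin] at hpc
    have hcast : ((∏ l, (s - zOf D ζ q l) : ℤ) : ℝ) = ((q : ℝ) / D) ^ (d - 1) * ∏ l, b l := by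
      rw [show ((q : ℝ) / D) ^ (d - 1) = ∏ _l : Fin (d - 1), ((q : ℝ) / D) by simp [div_pow],
        ← Finset.prod_mul_distrib]
      push_cast
      refine Finset.prod_congr rfl fun l _ => ?_
      simp only [b]
      field_simp
    rw [hcast, ← mul_sub, abs_mul,
      abs_of_nonneg (by positivity : (0 : ℝ) ≤ ((q : ℝ) / D) ^ (d - 1))]
    gcongr
    obtain ⟨-, -, -, h4⟩ := hT v ((D : ℝ) / q) (by rw [hMdef]; linarith) hDqM
    rw [hder] at h4
    have hw : |∏ l, (v - ζ l) - w c| ≤ C₀ * σ := by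
      have hFD : F (c + D) = (risePoly d).eval (v + (D : ℝ) / q) := by
        simp only [F, hv]; push_cast; rw [add_div]
      have hFc : F c = (risePoly d).eval v := rfl
      set Δ := (risePoly d).eval (v + (D : ℝ) / q) - (risePoly d).eval v with hΔ
      have e : ∏ l, (v - ζ l) - w c =
          -((q : ℝ) / D / d) * (Δ - (D : ℝ) / q * (d * ∏ l, (v - ζ l))) := by
        simp only [w, hFD, hFc, ← hΔ]
        field_simp
        ring
      rw [e, abs_mul, abs_neg, abs_of_nonneg (by positivity : (0 : ℝ) ≤ (q : ℝ) / D / d)]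
      calc (q : ℝ) / D / d * |Δ - (D : ℝ) / q * (d * ∏ l, (v - ζ l))|
          ≤ (q : ℝ) / D / 1 * (C₀ * ((D : ℝ) / q) ^ 2) := by gcongr
        _ = C₀ * ((D : ℝ) / q) := by field_simp
        _ ≤ _ := mul_le_mul_of_nonneg_left hDq hC₀
    have hcard : ((d - 1 : ℕ) : ℝ) * (2 * σ) * M ^ (d - 1) ≤ 2 * (d : ℝ) * M ^ d * σ := by
      have h1 : ((d - 1 : ℕ) : ℝ) ≤ d := by exact_mod_cast Nat.sub_le d 1
      have h2 : M ^ (d - 1) ≤ M ^ d := pow_le_pow_right₀ hM1 (Nat.sub_le d 1)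
      calc ((d - 1 : ℕ) : ℝ) * (2 * σ) * M ^ (d - 1) ≤ (d : ℝ) * (2 * σ) * M ^ d := by gcongr
        _ = _ := by ring
    calc |∏ l, b l - w c| ≤ |∏ l, b l - ∏ l, (v - ζ l)| + |∏ l, (v - ζ l) - w c| :=
          abs_sub_le _ _ _
      _ ≤ 2 * (d : ℝ) * M ^ d * σ + C₀ * σ := add_le_add (hpc.trans hcard) hw
      _ = E * σ := by rw [hE, add_mul]
  have htel := sum_progression hD g ((q : ℤ) * j) F q
  have hend : ∀ u : ℤ, -(K : ℤ) ≤ u → u ≤ K + 1 →
      |F (nextP D g ((q : ℤ) * u)) - (risePoly d).eval (u : ℝ)| ≤ C₀ * σ := by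
    intro u hu1 hu2
    obtain ⟨n1, n2⟩ := nextP_bounds hD g ((q : ℤ) * u)
    set h : ℝ := ((nextP D g ((q : ℤ) * u) : ℝ) - q * u) / q with hhdef
    have n1' : (q : ℝ) * u ≤ (nextP D g ((q : ℤ) * u) : ℝ) := by exact_mod_cast n1
    have n2' : (nextP D g ((q : ℤ) * u) : ℝ) ≤ q * u + D := by exact_mod_cast n2.le
    have hh0 : 0 ≤ h := div_nonneg (by linarith) hq0.le
    have hh1 : h ≤ (D : ℝ) / q := div_le_div_of_nonneg_right (by linarith) hq0.le
    have huR : |(u : ℝ)| ≤ M := by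
      have hu1' : -(K : ℝ) ≤ u := by exact_mod_cast hu1
      have hu2' : (u : ℝ) ≤ K + 1 := by exact_mod_cast hu2
      rw [abs_le, hMdef]; constructor <;> linarith
    obtain ⟨-, -, h3, -⟩ := hT (u : ℝ) h huR (by
      rw [abs_of_nonneg hh0]
      linarith)
    have e : (u : ℝ) + h = (nextP D g ((q : ℤ) * u) : ℝ) / q := by
      rw [hhdef]; field_simp; ring
    rw [e, abs_of_nonneg hh0] at h3
    calc _ ≤ C₀ * h := h3
      _ ≤ C₀ * σ := mul_le_mul_of_nonneg_left (hh1.trans hDq) hC₀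
  have hpow : ((q : ℝ) / D) ^ (d - 1) ≤ (q : ℝ) ^ (d - 1) :=
    pow_le_pow_left₀ (by positivity) (div_le_self hq0.le hD1) _
  have hA : |((∑ i ∈ range q, if (D : ℤ) ∣ g - ((q : ℤ) * j + i) then
        ∏ l, (((q : ℤ) * j + i - g) / D - zOf D ζ q l) else 0 : ℤ) : ℝ) -
      ((q : ℝ) / D) ^ d / d * (F (nextP D g ((q : ℤ) * j + q)) - F (nextP D g ((q : ℤ) * j)))| ≤
      (q : ℝ) ^ d * (E * σ) := by
    have e : ((q : ℝ) / D) ^ d / d *
        (F (nextP D g ((q : ℤ) * j + q)) - F (nextP D g ((q : ℤ) * j))) =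
        ∑ i ∈ range q, (if (D : ℤ) ∣ g - ((q : ℤ) * j + i) then
          ((q : ℝ) / D) ^ (d - 1) * w ((q : ℤ) * j + i) else 0) := by
      rw [← htel, Finset.mul_sum]
      refine Finset.sum_congr rfl fun i _ => ?_
      split
      · simp only [w]
        rw [show ((q : ℝ) / D) ^ d = ((q : ℝ) / D) ^ (d - 1) * ((q : ℝ) / D) by
          rw [← pow_succ, Nat.sub_add_cancel hd]]
        ring
      · rw [mul_zero]
    rw [e, Int.cast_sum, ← Finset.sum_sub_distrib]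
    refine (Finset.abs_sum_le_sum_abs _ _).trans ((Finset.sum_le_sum
      (g := fun _ => (q : ℝ) ^ (d - 1) * (E * σ)) fun i hi => ?_).trans (le_of_eq ?_))
    · split_ifs with hdvd
      · exact (hterm i hi hdvd).trans (mul_le_mul_of_nonneg_right hpow (by positivity))
      · rw [Int.cast_zero, sub_zero, abs_zero]; positivity
    · rw [Finset.sum_const, Finset.card_range, nsmul_eq_mul]
      rw [show (q : ℝ) ^ d = (q : ℝ) ^ (d - 1) * q by rw [← pow_succ, Nat.sub_add_cancel hd]]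
      ring
  have hB1 := hend (j + 1) (by omega) (by omega)
  have hB0 := hend j (by omega) (by omega)
  rw [mul_add, mul_one, Int.cast_add, Int.cast_one] at hB1
  have hB : |((q : ℝ) / D) ^ d / d *
        (F (nextP D g ((q : ℤ) * j + q)) - F (nextP D g ((q : ℤ) * j))) -
      ((q : ℝ) / D) ^ d / d * ((risePoly d).eval ((j : ℝ) + 1) - (risePoly d).eval (j : ℝ))| ≤
      (q : ℝ) ^ d * (2 * C₀ * σ) := by
    rw [← mul_sub, abs_mul, abs_of_nonneg (by positivity : (0 : ℝ) ≤ ((q : ℝ) / D) ^ d / d)]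
    refine mul_le_mul ?_ ?_ (abs_nonneg _) (by positivity)
    · exact (div_le_self (by positivity) hd').trans
        (pow_le_pow_left₀ (by positivity) (div_le_self hq0.le hD1) _)
    · rw [sub_sub_sub_comm]
      exact (abs_sub _ _).trans (by linarith)
  calc _ ≤ _ := abs_sub_le _ _ _
    _ ≤ (q : ℝ) ^ d * (E * σ) + (q : ℝ) ^ d * (2 * C₀ * σ) := add_le_add hA hB
    _ = _ := by ring

/-- For generators small against the block length, the sign of each factor is constant on a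
block. -/
lemma m8_sign_window {d D : ℕ} (hD : 0 < D) (ζ : Fin (d - 1) → ℝ)
    (hζ : ∀ l : Fin (d - 1), -((l : ℝ) + 2) < ζ l ∧ ζ l < -((l : ℝ) + 1)) :
    ∃ θ : ℝ, 0 < θ ∧ θ ≤ 1 ∧ ∀ q : ℕ, 0 < q → ∀ σ : ℝ, (D : ℝ) ≤ σ * q → σ ≤ θ →
      ∀ g : ℤ, |(g : ℝ)| ≤ σ * q → ∀ j : ℤ, ∀ i : ℕ, i < q → ∀ l : Fin (d - 1),
      (-((l : ℤ) + 1) ≤ j → 0 < (q : ℤ) * j + i - g - D * zOf D ζ q l) ∧
      (j + 1 ≤ -((l : ℤ) + 2) → (q : ℤ) * j + i - g - D * zOf D ζ q l < 0) := by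
  let μ : Fin (d - 1) → ℝ := fun l => min (-((l : ℝ) + 1) - ζ l) (ζ l + ((l : ℝ) + 2)) / 4
  have hμ : ∀ l, 0 < μ l := fun l => by
    obtain ⟨z1, z2⟩ := hζ l
    exact div_pos (lt_min (by linarith) (by linarith)) (by norm_num)
  obtain ⟨θ, hθ0, hθ1, hθ⟩ : ∃ θ : ℝ, 0 < θ ∧ θ ≤ 1 ∧ ∀ l, θ ≤ μ l := by
    rcases (univ : Finset (Fin (d - 1))).eq_empty_or_nonempty with h | h
    · exact ⟨1, one_pos, le_rfl, fun l => absurd (mem_univ l) (by rw [h]; simp)⟩
    · obtain ⟨l₀, -, hl₀⟩ := Finset.exists_min_image univ μ h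
      exact ⟨min 1 (μ l₀), lt_min one_pos (hμ l₀), min_le_left _ _,
        fun l => (min_le_right _ _).trans (hl₀ l (mem_univ l))⟩
  refine ⟨θ, hθ0, hθ1, fun q hq σ hDσ hσθ g hg j i hi l => ?_⟩
  have hσl := hσθ.trans (hθ l)
  have hm1 := min_le_left (-((l : ℝ) + 1) - ζ l) (ζ l + ((l : ℝ) + 2))
  have hm2 := min_le_right (-((l : ℝ) + 1) - ζ l) (ζ l + ((l : ℝ) + 2))
  obtain ⟨z1, z2⟩ := zOf_bounds hD ζ q l
  have hg1 := le_abs_self (g : ℝ)
  have hg2 := neg_abs_le (g : ℝ)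
  have hq0 : (0 : ℝ) < q := by exact_mod_cast hq
  have hi' : (i : ℝ) ≤ q := by exact_mod_cast hi.le
  have hi0 : (0 : ℝ) ≤ i := Nat.cast_nonneg _
  have hD0 : (0 : ℝ) < D := by exact_mod_cast hD
  have hσq : σ * q ≤ μ l * q := mul_le_mul_of_nonneg_right hσl hq0.le
  have hμ1 : μ l * q * 4 ≤ (-((l : ℝ) + 1) - ζ l) * q := by
    refine le_trans (le_of_eq ?_) (mul_le_mul_of_nonneg_right hm1 hq0.le)
    simp only [μ]; ring
  have hμ2 : μ l * q * 4 ≤ (ζ l + ((l : ℝ) + 2)) * q := by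
    refine le_trans (le_of_eq ?_) (mul_le_mul_of_nonneg_right hm2 hq0.le)
    simp only [μ]; ring
  have hμq : 0 < μ l * q := mul_pos (hμ l) hq0
  constructor
  · intro hj
    have hj' : -((l : ℝ) + 1) ≤ j := by exact_mod_cast hj
    have a1 := mul_le_mul_of_nonneg_left hj' hq0.le
    have : (0 : ℝ) < (((q : ℤ) * j + i - g - D * zOf D ζ q l : ℤ) : ℝ) := by push_cast; linarith
    exact_mod_cast this
  · intro hj
    have hj' : (j : ℝ) + 1 ≤ -((l : ℝ) + 2) := by exact_mod_cast hj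
    have a1 := mul_le_mul_of_nonneg_left hj' hq0.le
    have : (((q : ℤ) * j + i - g - D * zOf D ζ q l : ℤ) : ℝ) < 0 := by push_cast; linarith
    exact_mod_cast this

theorem goalFreeBlock : GoalFreeBlock := by
  intro d D hd hD ζ hcrit K
  obtain ⟨hζ, hder⟩ := hcrit
  obtain ⟨θ, hθ0, hθ1, hwin⟩ := m8_sign_window hD ζ hζ
  obtain ⟨C, hC0, hC⟩ := m8_block_sum hd hD ζ hζ hder K
  refine ⟨θ, C, hθ0, hC0, fun q hq σ hDσ hσθ m g hg j hj1 hj2 => ⟨fun i hi r hr => ?_, ?_⟩⟩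
  · refine baseR_eq_empty fun k hk he => hr ?_
    have key : ∀ l, (D : ℤ) * (tOf D (twistOf D ζ q) g ((q : ℤ) * j + i) k l + 1) =
        (q : ℤ) * j + i - g k - D * zOf D ζ q l := fun l => by
      rw [tOf_twistOf hk, mul_sub, Int.mul_ediv_cancel' (dvd_sub_comm.1 hk)]
    have hs := fun l => hwin q hq σ hDσ hσθ (g k) (hg k) j i hi l
    have hD' : (0 : ℤ) < D := by omega
    have hpos : ∀ l : Fin (d - 1), -((l : ℤ) + 1) ≤ j →
        ¬ tOf D (twistOf D ζ q) g ((q : ℤ) * j + i) k l < 0 := fun l hl hneg => by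
      have h1 := (hs l).1 hl
      rw [← key l] at h1
      have := (mul_pos_iff_of_pos_left hD').1 h1
      omega
    have hneg : ∀ l : Fin (d - 1), j + 1 ≤ -((l : ℤ) + 2) →
        tOf D (twistOf D ζ q) g ((q : ℤ) * j + i) k l < 0 := fun l hl => by
      have h1 := (hs l).2 hl
      rw [← key l] at h1
      by_contra hh
      have : (0 : ℤ) ≤ D * (tOf D (twistOf D ζ q) g ((q : ℤ) * j + i) k l + 1) :=
        mul_nonneg hD'.le (by omega)
      omega
    have hw := card_neg_window hpos hneg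
    rw [← nNeg, he] at hw
    omega
  simp only [sum_sign_baseR]
  rw [Finset.sum_comm]
  have e : ∀ k, (∑ i ∈ range q, if (D : ℤ) ∣ g k - ((q : ℤ) * j + i) then
      ∏ l, (tOf D (twistOf D ζ q) g ((q : ℤ) * j + i) k l + 1) else 0) =
      ∑ i ∈ range q, if (D : ℤ) ∣ g k - ((q : ℤ) * j + i) then
        ∏ l, (((q : ℤ) * j + i - g k) / D - zOf D ζ q l) else 0 := fun k =>
    Finset.sum_congr rfl fun i _ => by
      split_ifs with h
      · exact Finset.prod_congr rfl fun l _ => tOf_twistOf h l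
      · rfl
  rw [Finset.sum_congr rfl fun k _ => e k, Int.cast_sum]
  rw [show (m : ℝ) * (((q : ℝ) / D) ^ d / d *
      ((risePoly d).eval ((j : ℝ) + 1) - (risePoly d).eval (j : ℝ))) =
      ∑ _k : Fin m, (((q : ℝ) / D) ^ d / d *
        ((risePoly d).eval ((j : ℝ) + 1) - (risePoly d).eval (j : ℝ))) by simp,
    show C * σ * (m : ℝ) * (q : ℝ) ^ d = ∑ _k : Fin m, C * σ * (q : ℝ) ^ d by simp; ring,
    ← Finset.sum_sub_distrib]
  exact (Finset.abs_sum_le_sum_abs _ _).trans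
    (Finset.sum_le_sum fun k _ => hC q hq σ hDσ (hσθ.trans hθ1) (g k) (hg k) j hj1 hj2)

end Vale.Agent.P202
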