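import Vale.Agent.P202.InterfacesBand2
import Vale.Agent.P202.M8FreeBlock

/-!
Counts of free cohomology of one generator over the blocks of the band ring (BLUEPRINT_BAND,
items 4 and 6): vanishing out of the expected degrees, Euler characteristic of a block, the total
over the blocks `[0, T)`, and the size of a level. Everything is stated for a scale `Q` (`= q` of
the band) and then for `Band.cnt`.
-/

universe u

namespace Vale.Agent.P202

open Finset IsLocalRing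

/-- The count of free cohomology of one generator in `[a, c)` at the scale `Q`, twist of the band. -/
noncomputable def bandCnt (d b Q : ℕ) (a c r : ℤ) : ℕ :=
  ∑ u ∈ Ico a c,
    (baseR b (twistOf (d := d) b (zetaOf d) (Q * b)) (fun _ : Fin 1 => (0 : ℤ)) u r).card

lemma bandCnt_add {d b Q : ℕ} {a m c : ℤ} (h1 : a ≤ m) (h2 : m ≤ c) (r : ℤ) :
    bandCnt d b Q a c r = bandCnt d b Q a m r + bandCnt d b Q m c r := by
  rw [bandCnt, bandCnt, bandCnt, ← Finset.sum_union (Finset.Ico_disjoint_Ico_consecutive a m c),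
    Finset.Ico_union_Ico_eq_Ico h1 h2]

lemma bandCnt_self (d b Q : ℕ) (a r : ℤ) : bandCnt d b Q a a r = 0 := by
  simp [bandCnt]

lemma bandCnt_mono {d b Q : ℕ} {a a' c' c : ℤ} (h1 : a ≤ a') (h2 : c' ≤ c) (r : ℤ) :
    bandCnt d b Q a' c' r ≤ bandCnt d b Q a c r :=
  Finset.sum_le_sum_of_subset (Finset.Ico_subset_Ico h1 h2)

lemma bandCnt_range (d b Q : ℕ) (a : ℤ) (n : ℕ) (r : ℤ) :
    bandCnt d b Q a (a + n) r = ∑ i ∈ range n,
      (baseR b (twistOf (d := d) b (zetaOf d) (Q * b)) (fun _ : Fin 1 => (0 : ℤ)) (a + i) r).card := by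
  induction n with
  | zero => simp [bandCnt_self]
  | succ n ih =>
    rw [Finset.sum_range_succ, ← ih, bandCnt_add (a := a) (m := a + n) (c := a + (n + 1 : ℕ))
      (by omega) (by omega)]
    congr 1
    rw [bandCnt, show Ico (a + (n : ℤ)) (a + ((n + 1 : ℕ) : ℤ)) = {a + (n : ℤ)} by ext x; simp; omega,
      Finset.sum_singleton]

lemma bandCnt_block (d b Q : ℕ) (t r : ℤ) :
    bandCnt d b Q (((Q * b : ℕ) : ℤ) * t) (((Q * b : ℕ) : ℤ) * (t + 1)) r = ∑ i ∈ range (Q * b),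
      (baseR b (twistOf (d := d) b (zetaOf d) (Q * b)) (fun _ : Fin 1 => (0 : ℤ))
        (((Q * b : ℕ) : ℤ) * t + i) r).card := by
  rw [← bandCnt_range, mul_add, mul_one]

/-- Out of the expected degrees every level of a block is empty. -/
theorem bandCnt_level_empty {d b : ℕ} (hd : 0 < d) (hb : 0 < b) :
    ∃ N₀ : ℕ, 0 < N₀ ∧ ∀ Q, N₀ ≤ Q → ∀ (t : ℤ) (i : ℕ), i < Q * b → ∀ r : ℤ,
      ¬ InExpected d t r →
        baseR b (twistOf (d := d) b (zetaOf d) (Q * b)) (fun _ : Fin 1 => (0 : ℤ))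
          (((Q * b : ℕ) : ℤ) * t + i) r = ∅ := by
  obtain ⟨q₀, hq₀⟩ := baseR_twistOf_empty hd hb (fun _ : Fin 1 => (0 : ℤ)) (isCrit_zetaOf hd).1
  exact ⟨q₀ + 1, q₀.succ_pos, fun Q hQ t i hi r hr =>
    hq₀ (Q * b) (le_trans (by omega) (Nat.le_mul_of_pos_right Q hb)) t i hi r hr⟩

/-- Out of the expected degrees the count of a block is zero. -/
theorem bandCnt_block_eq_zero {d b : ℕ} (hd : 0 < d) (hb : 0 < b) :
    ∃ N₀ : ℕ, 0 < N₀ ∧ ∀ Q, N₀ ≤ Q → ∀ t r : ℤ, ¬ InExpected d t r →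
      bandCnt d b Q (((Q * b : ℕ) : ℤ) * t) (((Q * b : ℕ) : ℤ) * (t + 1)) r = 0 := by
  obtain ⟨N₀, hN0, hN⟩ := bandCnt_level_empty hd hb
  refine ⟨N₀, hN0, fun Q hQ t r hr => ?_⟩
  rw [bandCnt_block, Finset.sum_eq_zero]
  intro i hi
  rw [hN Q hQ t i (Finset.mem_range.1 hi) r hr, Finset.card_empty]

/-- The Euler characteristic of the count of a block, with an error one power of `Q` below. -/
theorem bandCnt_block_euler {d b : ℕ} (hd : 0 < d) (hb : 0 < b) (H : ℕ) :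
    ∃ C : ℝ, 0 ≤ C ∧ ∀ Q : ℕ, 0 < Q → ∀ t : ℤ, -(H : ℤ) ≤ t → t ≤ H →
      |((∑ r ∈ Icc (-(d : ℤ)) d, ((Int.negOnePow r : ℤˣ) : ℤ) *
          (bandCnt d b Q (((Q * b : ℕ) : ℤ) * t) (((Q * b : ℕ) : ℤ) * (t + 1)) r : ℤ) : ℤ) : ℝ) -
        (Q : ℝ) ^ d / d * ((risePoly d).eval ((t : ℝ) + 1) - (risePoly d).eval (t : ℝ))| ≤
      C * (Q : ℝ) ^ (d - 1) := by
  obtain ⟨hζ, hder⟩ := isCrit_zetaOf hd
  obtain ⟨C, hC⟩ := free_block (m := 1) hd hb (fun _ : Fin 1 => (0 : ℤ)) hζ hder H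
  refine ⟨|C| * (b : ℝ) ^ (d - 1), by positivity, fun Q hQ t h1 h2 => ?_⟩
  have h := hC (Q * b) (Nat.mul_pos hQ hb) t h1 h2
  have e : ∑ r ∈ Icc (-(d : ℤ)) d, ((Int.negOnePow r : ℤˣ) : ℤ) *
      (bandCnt d b Q (((Q * b : ℕ) : ℤ) * t) (((Q * b : ℕ) : ℤ) * (t + 1)) r : ℤ) =
      ∑ i ∈ range (Q * b), ∑ r ∈ Icc (-(d : ℤ)) d, ((Int.negOnePow r : ℤˣ) : ℤ) *
        ((baseR b (twistOf (d := d) b (zetaOf d) (Q * b)) (fun _ : Fin 1 => (0 : ℤ))
          (((Q * b : ℕ) : ℤ) * t + i) r).card : ℤ) := by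
    rw [Finset.sum_comm]
    exact Finset.sum_congr rfl fun r _ => by rw [bandCnt_block, Nat.cast_sum, Finset.mul_sum]
  rw [e]
  have hb' : (b : ℝ) ≠ 0 := by positivity
  have e2 : ((1 : ℕ) : ℝ) * ((((Q * b : ℕ) : ℝ) / b) ^ d / d *
      ((risePoly d).eval ((t : ℝ) + 1) - (risePoly d).eval (t : ℝ))) =
      (Q : ℝ) ^ d / d * ((risePoly d).eval ((t : ℝ) + 1) - (risePoly d).eval (t : ℝ)) := by
    push_cast
    rw [mul_div_assoc, div_self hb', mul_one, one_mul]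
  rw [e2] at h
  refine h.trans ?_
  push_cast
  rw [mul_pow, ← mul_assoc, mul_right_comm |C|]
  exact mul_le_mul_of_nonneg_right
    (mul_le_mul_of_nonneg_right (le_abs_self C) (by positivity)) (by positivity)

/-- An error one power of `Q` below is small against `Q ^ d` for large `Q`. -/
lemma band_small {d : ℕ} (hd : 0 < d) {C ε : ℝ} (hε : 0 < ε) :
    ∃ N₀ : ℕ, 0 < N₀ ∧ ∀ Q : ℕ, N₀ ≤ Q → C * (Q : ℝ) ^ (d - 1) ≤ ε * (Q : ℝ) ^ d := by
  obtain ⟨N, hN⟩ := exists_nat_gt (C / ε)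
  refine ⟨N + 1, N.succ_pos, fun Q hQ => ?_⟩
  have hC : C ≤ ε * Q := by
    rw [div_lt_iff₀ hε] at hN
    have : (N : ℝ) ≤ Q := by exact_mod_cast (by omega : N ≤ Q)
    nlinarith
  calc C * (Q : ℝ) ^ (d - 1) ≤ ε * Q * (Q : ℝ) ^ (d - 1) :=
        mul_le_mul_of_nonneg_right hC (by positivity)
    _ = ε * (Q : ℝ) ^ d := by rw [mul_assoc, ← pow_succ', Nat.sub_add_cancel hd]

/-- The Euler characteristic of the blocks `-d, …, -1`. -/
theorem bandCnt_euler_neg {d b : ℕ} (hd : 0 < d) (hb : 0 < b) {ε : ℝ} (hε : 0 < ε) :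
    ∃ N₀ : ℕ, 0 < N₀ ∧ ∀ Q, N₀ ≤ Q → ∀ t : ℤ, -(d : ℤ) ≤ t → t ≤ -1 →
      |((∑ r ∈ Icc (-(d : ℤ)) d, ((Int.negOnePow r : ℤˣ) : ℤ) *
          (bandCnt d b Q (((Q * b : ℕ) : ℤ) * t) (((Q * b : ℕ) : ℤ) * (t + 1)) r : ℤ) : ℤ) : ℝ) -
        (if t = -1 then ((d - 1).factorial : ℝ) else 0) * (Q : ℝ) ^ d| ≤ ε * (Q : ℝ) ^ d := by
  obtain ⟨C, -, hC⟩ := bandCnt_block_euler hd hb d
  obtain ⟨N₀, hN0, hN⟩ := band_small (C := C) hd hε
  refine ⟨N₀, hN0, fun Q hQ t h1 h2 => ?_⟩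
  refine le_trans (le_of_eq ?_) ((hC Q (by omega) t h1 (by omega)).trans (hN Q hQ))
  congr 2
  split_ifs with h
  · subst h
    have h0 := risePoly_eval_int (d := d) (j := -1) (by omega) le_rfl
    push_cast at h0 ⊢
    rw [neg_add_cancel, h0, risePoly_eval_zero, sub_zero,
      show d.factorial = d * (d - 1).factorial from (Nat.mul_factorial_pred (by omega)).symm]
    have : (d : ℝ) ≠ 0 := by positivity
    push_cast
    field_simp
  · have h3 := risePoly_eval_int (d := d) (j := t) h1 h2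
    have h4 := risePoly_eval_int (d := d) (j := t + 1) (by omega) (by omega)
    push_cast at h4
    rw [h3, h4, sub_self, mul_zero, zero_mul]

/-- A nonnegative block is concentrated in degree `0`. -/
lemma bandCnt_degree_zero {d b Q : ℕ} (hd : 0 < d) {t : ℤ} (ht : 0 ≤ t)
    (hN : ∀ r : ℤ, ¬ InExpected d t r →
      bandCnt d b Q (((Q * b : ℕ) : ℤ) * t) (((Q * b : ℕ) : ℤ) * (t + 1)) r = 0) :
    ∑ r ∈ Icc (-(d : ℤ)) d, ((Int.negOnePow r : ℤˣ) : ℤ) *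
        (bandCnt d b Q (((Q * b : ℕ) : ℤ) * t) (((Q * b : ℕ) : ℤ) * (t + 1)) r : ℤ) =
      (bandCnt d b Q (((Q * b : ℕ) : ℤ) * t) (((Q * b : ℕ) : ℤ) * (t + 1)) 0 : ℤ) := by
  rw [Finset.sum_eq_single (0 : ℤ)]
  · simp
  · intro r _ hr
    rw [hN r (fun h => hr (by simp only [InExpected] at h; omega)), Nat.cast_zero, mul_zero]
  · intro h
    simp at h

/-- The count of the blocks `[0, T)` in degree `0`. -/
theorem bandCnt_total {d b : ℕ} (hd : 0 < d) (hb : 0 < b) (H : ℕ) {ε : ℝ} (hε : 0 < ε) :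
    ∃ N₀ : ℕ, 0 < N₀ ∧ ∀ Q, N₀ ≤ Q → ∀ T : ℕ, T ≤ H →
      |(bandCnt d b Q 0 (((Q * b : ℕ) : ℤ) * T) 0 : ℝ) -
        (Q : ℝ) ^ d / d * ((risePoly d).eval (T : ℝ) - (risePoly d).eval 0)| ≤
      ε * (Q : ℝ) ^ d := by
  obtain ⟨C, hC0, hC⟩ := bandCnt_block_euler hd hb H
  obtain ⟨N₁, hN1, hN⟩ := bandCnt_block_eq_zero hd hb
  obtain ⟨N₂, -, hsmall⟩ := band_small (C := C * H) hd hε
  refine ⟨max N₁ N₂, lt_of_lt_of_le hN1 (le_max_left _ _), fun Q hQ T hT => ?_⟩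
  suffices h : |(bandCnt d b Q 0 (((Q * b : ℕ) : ℤ) * T) 0 : ℝ) -
      (Q : ℝ) ^ d / d * ((risePoly d).eval (T : ℝ) - (risePoly d).eval 0)| ≤
      T * (C * (Q : ℝ) ^ (d - 1)) by
    refine h.trans (le_trans ?_ (hsmall Q (le_of_max_le_right hQ)))
    have hTH : (T : ℝ) ≤ H := by exact_mod_cast hT
    calc (T : ℝ) * (C * (Q : ℝ) ^ (d - 1)) ≤ (H : ℝ) * (C * (Q : ℝ) ^ (d - 1)) :=
          mul_le_mul_of_nonneg_right hTH (by positivity)
      _ = _ := by ring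
  induction T with
  | zero => simp [bandCnt_self]
  | succ T ih =>
    have hQ1 := le_of_max_le_left hQ
    have h := hC Q (by omega) T (by omega) (by omega)
    rw [bandCnt_degree_zero hd (Int.natCast_nonneg T) (hN Q hQ1 T)] at h
    have ih' := ih (by omega)
    rw [bandCnt_add (a := 0) (m := ((Q * b : ℕ) : ℤ) * T) (by positivity)
      (mul_le_mul_of_nonneg_left (by omega) (by positivity))]
    push_cast at h ih' ⊢
    set x := (bandCnt d b Q 0 ((Q : ℤ) * b * T) 0 : ℝ)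
    set y := (bandCnt d b Q ((Q : ℤ) * b * T) ((Q : ℤ) * b * (T + 1)) 0 : ℝ)
    set w := (Q : ℝ) ^ d / d
    calc |x + y - w * ((risePoly d).eval ((T : ℝ) + 1) - (risePoly d).eval 0)|
        = |(x - w * ((risePoly d).eval (T : ℝ) - (risePoly d).eval 0)) +
            (y - w * ((risePoly d).eval ((T : ℝ) + 1) - (risePoly d).eval (T : ℝ)))| := by
          congr 1; ring
      _ ≤ _ := (abs_add_le _ _).trans (add_le_add ih' h)
      _ = _ := by ring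

/-- `(T + 1) ⋯ (T + d)` is `T ^ d` up to `O(T ^ (d - 1))`. -/
lemma risePoly_eval_nat_bounds (d : ℕ) :
    ∃ C : ℕ, ∀ T : ℕ, 0 < T → (T : ℝ) ^ d ≤ (risePoly d).eval (T : ℝ) ∧
      (risePoly d).eval (T : ℝ) ≤ (T : ℝ) ^ d + C * (T : ℝ) ^ (d - 1) := by
  induction d with
  | zero => exact ⟨0, fun T _ => by simp [risePoly_eval]⟩
  | succ d ih =>
    obtain ⟨C, hC⟩ := ih
    refine ⟨C * (d + 2) + d + 1, fun T hT => ?_⟩
    obtain ⟨h1, h2⟩ := hC T hT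
    have hT1 : (1 : ℝ) ≤ T := by exact_mod_cast hT
    rw [risePoly_eval] at h1 h2 ⊢
    rw [Finset.prod_range_succ]
    constructor
    · rw [pow_succ]
      exact mul_le_mul h1 (by linarith) (by positivity)
        (Finset.prod_nonneg fun i _ => by positivity)
    rcases Nat.eq_zero_or_pos d with rfl | hd
    · simp
    have hTd : (T : ℝ) ^ (d - 1) ≤ (T : ℝ) ^ d := pow_le_pow_right₀ hT1 (Nat.sub_le d 1)
    have hTd' : (T : ℝ) ^ (d - 1) * T = (T : ℝ) ^ d := by rw [← pow_succ, Nat.sub_add_cancel hd]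
    refine (mul_le_mul_of_nonneg_right h2 (by positivity)).trans ?_
    rw [Nat.add_sub_cancel, pow_succ]
    push_cast
    nlinarith [mul_le_mul_of_nonneg_left hTd (by positivity : (0 : ℝ) ≤ C * ((d : ℝ) + 1))]

/-- The count of `[0, T)` against `Q ^ d T ^ d / d`. -/
theorem bandCnt_total_pow {d b : ℕ} (hd : 0 < d) (hb : 0 < b) :
    ∃ C : ℕ, ∀ (H : ℕ) (ε : ℝ), 0 < ε → ∃ N₀ : ℕ, 0 < N₀ ∧ ∀ Q, N₀ ≤ Q → ∀ T : ℕ, 0 < T → T ≤ H →
      |(bandCnt d b Q 0 (((Q * b : ℕ) : ℤ) * T) 0 : ℝ) - (Q : ℝ) ^ d * (T : ℝ) ^ d / d| ≤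
      (C : ℝ) * (Q : ℝ) ^ d * (T : ℝ) ^ (d - 1) + ε * (Q : ℝ) ^ d := by
  obtain ⟨C, hC⟩ := risePoly_eval_nat_bounds d
  refine ⟨C + d.factorial, fun H ε hε => ?_⟩
  obtain ⟨N₀, hN0, hN⟩ := bandCnt_total hd hb H hε
  refine ⟨N₀, hN0, fun Q hQ T hT0 hT => ?_⟩
  have h := hN Q hQ T hT
  obtain ⟨h1, h2⟩ := hC T hT0
  rw [risePoly_eval_zero] at h
  set P := (risePoly d).eval (T : ℝ)
  set x := (bandCnt d b Q 0 (((Q * b : ℕ) : ℤ) * T) 0 : ℝ)
  have hdR : (1 : ℝ) ≤ d := by exact_mod_cast hd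
  have hT1 : (1 : ℝ) ≤ (T : ℝ) ^ (d - 1) := one_le_pow₀ (by exact_mod_cast hT0)
  have hfac : (0 : ℝ) ≤ d.factorial := Nat.cast_nonneg _
  have hrest : |(Q : ℝ) ^ d / d * (P - d.factorial) - (Q : ℝ) ^ d * (T : ℝ) ^ d / d| ≤
      ((C + d.factorial : ℕ) : ℝ) * (Q : ℝ) ^ d * (T : ℝ) ^ (d - 1) := by
    rw [show (Q : ℝ) ^ d / d * (P - d.factorial) - (Q : ℝ) ^ d * (T : ℝ) ^ d / d =
      (Q : ℝ) ^ d / d * (P - (T : ℝ) ^ d - d.factorial) by ring, abs_mul,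
      abs_of_nonneg (by positivity : (0 : ℝ) ≤ (Q : ℝ) ^ d / d)]
    calc (Q : ℝ) ^ d / d * |P - (T : ℝ) ^ d - d.factorial|
        ≤ (Q : ℝ) ^ d * (((C + d.factorial : ℕ) : ℝ) * (T : ℝ) ^ (d - 1)) := by
          refine mul_le_mul (div_le_self (by positivity) hdR) ?_ (abs_nonneg _) (by positivity)
          rw [abs_le]
          push_cast
          have : (0 : ℝ) ≤ (C : ℝ) * (T : ℝ) ^ (d - 1) := by positivity
          constructor <;> nlinarith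
      _ = _ := by ring
  calc |x - (Q : ℝ) ^ d * (T : ℝ) ^ d / d| ≤ _ := abs_sub_le _ _ _
    _ ≤ ε * (Q : ℝ) ^ d + _ := add_le_add h hrest
    _ = _ := by ring

/-- The size of one level. -/
theorem bandCnt_level_le {d b : ℕ} (hd : 0 < d) (hb : 0 < b) :
    ∃ C : ℕ, ∀ (H Q : ℕ), 0 < Q → ∀ u : ℤ, u.natAbs ≤ Q * b * H → ∀ r : ℤ,
      (baseR b (twistOf (d := d) b (zetaOf d) (Q * b)) (fun _ : Fin 1 => (0 : ℤ)) u r).card ≤
        C * ((H + 1) * Q) ^ (d - 1) := by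
  refine ⟨((5 * d + 12) * b) ^ (d - 1), fun H Q hQ u hu r => ?_⟩
  have hq : 0 < Q * b := Nat.mul_pos hQ hb
  refine (card_baseR_bound hb _ (2 * d + 4 + H) hq (hu.trans ?_) (fun l =>
    (natAbs_twistOf_le hb (isCrit_zetaOf hd).1 hq l).trans (Nat.mul_le_mul_right _ (by omega)))
      r).trans ?_
  · rw [mul_comm _ (Q * b)]
    exact Nat.mul_le_mul_left _ (by omega)
  · simp only [one_mul, Int.natAbs_zero, Finset.sum_const_zero, add_zero]
    rw [← mul_pow, ← mul_pow]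
    refine Nat.pow_le_pow_left ?_ _
    calc (d + 2 * (2 * d + 4 + H) + 2) * (Q * b) ≤ ((5 * d + 12) * (H + 1)) * (Q * b) :=
          Nat.mul_le_mul_right _ (by nlinarith)
      _ = _ := by ring

/-- The size of a window of levels. -/
theorem bandCnt_le {d b : ℕ} (hd : 0 < d) (hb : 0 < b) :
    ∃ C : ℕ, ∀ (H Q : ℕ), 0 < Q → ∀ a c : ℤ, -((Q * b * H : ℕ) : ℤ) ≤ a →
      c ≤ (Q * b * H : ℕ) → ∀ r : ℤ,
      bandCnt d b Q a c r ≤ (c - a).toNat * (C * ((H + 1) * Q) ^ (d - 1)) := by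
  obtain ⟨C, hC⟩ := bandCnt_level_le hd hb
  refine ⟨C, fun H Q hQ a c ha hc r => ?_⟩
  refine (Finset.sum_le_card_nsmul _ _ _ fun u hu => hC H Q hQ u ?_ r).trans ?_
  · rw [Finset.mem_Ico] at hu
    omega
  · rw [Int.card_Ico, smul_eq_mul]

/-! ### The statements for the band ring -/

namespace Band

variable {p : ℕ} [Fact p.Prime] {R : Type u} [CommRing R] [IsLocalRing R] {k : Type u} [Field k]
  [CharP k p] [PerfectRing k p] {A : Type u} [CommRing A] [Algebra R A]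
  [Algebra (WittVector p k) A] {d : ℕ} {x : Fin d → A} {b : ℕ} {G : ℕ → Ideal A}
  {CI : CIData p k A x b G} {ι : ResidueField R →+* k} {i j K : ℕ}
  (B : Band p R CI ι i j K)

lemma cnt_eq (a c r : ℤ) : B.cnt a c r = bandCnt d b B.qq a c r := rfl

lemma blen_eq : B.blen = B.qq * b := rfl

lemma cnt_add {a m c : ℤ} (h1 : a ≤ m) (h2 : m ≤ c) (r : ℤ) :
    B.cnt a c r = B.cnt a m r + B.cnt m c r :=
  bandCnt_add h1 h2 r

lemma cnt_self (a r : ℤ) : B.cnt a a r = 0 := bandCnt_self _ _ _ _ _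

lemma qq_pos : 0 < B.qq := pow_pos (Fact.out : p.Prime).pos _

lemma le_qq_of_le {N j₁ : ℕ} (hN : N ≤ p ^ j₁) (hj : j₁ ≤ j) : N ≤ B.qq :=
  hN.trans (Nat.pow_le_pow_right (Fact.out : p.Prime).pos (hj.trans B.j_le))

end Band

end Vale.Agent.P202
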