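import Vale.Agent.P202.BandBlocksMaps
import Vale.Agent.P202.BandCount

/-!
Blocks of the band complex: from lengths over `L` to lengths over `R` (BLUEPRINT_BAND, section 6).
-/

universe u

namespace Vale.Agent.P202

open IsLocalRing

section gen

variable {R L : Type u} [CommRing R] [CommRing L] {X' X : Type u} [AddCommGroup X'] [Module R X']
  [AddCommGroup X] [Module L X] {φ : X' ≃+ X} {c : ℕ}

lemma length_of_conv
    (hlen : ∀ (S' : Submodule R X') (S : Submodule L X), (∀ v, v ∈ S' ↔ φ v ∈ S) →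
      Module.length R S' = c * Module.length L S) :
    Module.length R X' = c * Module.length L X := by
  have h := hlen ⊤ ⊤ fun v => by simp
  rwa [Module.length_top, Module.length_top] at h

lemma rkD_of_conv
    (hlen : ∀ (S' : Submodule R X') (S : Submodule L X), (∀ v, v ∈ S' ↔ φ v ∈ S) →
      Module.length R S' = c * Module.length L S)
    {f : X' →ₗ[R] X'} {z : L} (hf : ∀ v, φ (f v) = z • φ v) (a : ℕ) :
    rkD f a = c * rkD (z • LinearMap.id : Module.End L X) a := by
  have hpow : ∀ v, φ ((f ^ a) v) = ((z • LinearMap.id : Module.End L X) ^ a) (φ v) := by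
    induction a with
    | zero => simp
    | succ a ih =>
      intro v
      simp only [pow_succ', Module.End.mul_apply, hf, ih, LinearMap.smul_apply, LinearMap.id_apply]
  have h := hlen (LinearMap.range (f ^ a))
    (LinearMap.range ((z • LinearMap.id : Module.End L X) ^ a)) fun v => by
      constructor
      · rintro ⟨w, rfl⟩
        exact ⟨φ w, (hpow w).symm⟩
      · rintro ⟨w, hw⟩
        refine ⟨φ.symm w, φ.injective ?_⟩
        rw [hpow, AddEquiv.apply_symm_apply, hw]
  rw [rkD, rkD, len, len, h, ENat.toNat_mul, ENat.toNat_natCast]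

end gen

namespace Band

variable {p : ℕ} [Fact p.Prime] {R : Type u} [CommRing R] [IsLocalRing R] {k : Type u} [Field k]
  [CharP k p] [PerfectRing k p] {A : Type u} [CommRing A] [Algebra R A]
  [Algebra (WittVector p k) A] {d : ℕ} {x : Fin d → A} {b : ℕ} {G : ℕ → Ideal A}
  {CI : CIData p k A x b G} {ι : ResidueField R →+* k} {i j K : ℕ}
  (B : Band p R CI ι i j K)

lemma winC_kill {H : ℕ} {t c r : ℤ} {z : B.L} (hz : z ∈ B.Fil ((2 * B.blen * H : ℕ) : ℤ))
    (v : winH (B.dC H) (B.pC H) (B.gC H) t c r) : z • v = 0 := by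
  obtain ⟨w, rfl⟩ := hmk_surjective (B.dC H) (lvl (B.pC H) (B.gC H) t)
    (lvl (B.pC H) (B.gC H) c) r v
  have h0 : z • w = 0 := Subtype.ext (Subtype.ext
    (B.smul_qAmb_eq_zero le_rfl hz (by push_cast; exact le_rfl)
      (B.eAmb_le_qAmb le_rfl w.1.2)))
  rw [← map_smul, h0, map_zero]

lemma chains_subsingleton_zero : Subsingleton (B.Chains 0) := by
  refine subsingleton_of_forall_eq 0 fun v => Subtype.ext ?_
  have h := B.smul_qAmb_eq_zero (H := 0) (t := -((0 : ℕ) : ℤ)) le_rfl (z := 1) (N := 0)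
    (by rw [B.fil_top 0 le_rfl]; exact Submodule.mem_top) (by simp)
    (B.eAmb_le_qAmb le_rfl v.2)
  rwa [one_smul] at h

lemma mm_pos : 0 < B.mm := pow_pos (Fact.out : p.Prime).pos _

lemma le_qq {M : ℕ} (hM : M ≤ j) : M ≤ B.qq :=
  hM.trans ((Nat.lt_pow_self (Fact.out : p.Prime).one_lt).le.trans
    (Nat.pow_le_pow_right (Fact.out : p.Prime).pos B.j_le))

lemma qq_le_unit (hd : 0 < d) : B.qq ≤ B.unit :=
  (Nat.le_self_pow (by omega) _).trans
    (Nat.le_mul_of_pos_left _ (Nat.mul_pos B.c_pos (pow_pos B.mm_pos _)))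

end Band

/-- Lengths over `R` of the submodules of a module over `L` killed by a level, seen over `R`. -/
theorem conv_of_coord (hco : GoalBandCoord.{u}) {p : ℕ} [Fact p.Prime] {R : Type u} [CommRing R]
    [IsLocalRing R] [IsNoetherianRing R] {k : Type u} [Field k] [CharP k p] [PerfectRing k p]
    {A : Type u} [CommRing A] [IsLocalRing A] [IsNoetherianRing A] [Algebra R A]
    [Algebra (WittVector p k) A] {d : ℕ} {xR : Fin d → R} {b : ℕ} {G : ℕ → Ideal A}
    {ι : ResidueField R →+* k} {e₀ : ℝ} (hctx : BandCtx p R A xR b G ι e₀)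
    {CI : CIData p k A (fun l => algebraMap R A (xR l)) b G} {i j K : ℕ}
    (B : Band p R CI ι i j K) (hR : B.Rich) (hK : 0 < K) {X' X : Type u} [AddCommGroup X']
    [Module R X'] [AddCommGroup X] [Module B.L X] (φ : X' ≃+ X)
    (hφ : ∀ (r : R) (z : B.L), B.χ (algebraMap R B.As r) = Ideal.Quotient.mk B.Ann z →
      ∀ v, φ (r • v) = z • φ v)
    (N : ℕ) (hN : ∀ z ∈ B.Fil N, ∀ v : X, z • v = 0) (S' : Submodule R X') (S : Submodule B.L X)
    (hS : ∀ v, v ∈ S' ↔ φ v ∈ S) :
    Module.length R S' = B.c * Module.length B.L S := by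
  let f : ↥S' ≃+ ↥S :=
    { toFun := fun v => ⟨φ v.1, (hS v.1).1 v.2⟩
      invFun := fun w => ⟨φ.symm w.1, (hS _).2 (by rw [AddEquiv.apply_symm_apply]; exact w.2)⟩
      left_inv := fun v => Subtype.ext (φ.symm_apply_apply v.1)
      right_inv := fun w => Subtype.ext (φ.apply_symm_apply w.1)
      map_add' := fun v w => Subtype.ext (map_add φ v.1 w.1) }
  let inst : Module R ↥S := AddEquiv.module R f.symm
  have e : ↥S' ≃ₗ[R] ↥S :=
    { f with
      map_smul' := fun r v => by
        show f (r • v) = f (r • f.symm (f v))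
        rw [AddEquiv.symm_apply_apply] }
  rw [e.length_eq]
  refine (hco p R k A d xR b G ι e₀ hctx CI i j K B hR hK).2.2.2 ↥S N (fun r z hz w => ?_)
    (fun z hz w => Subtype.ext (hN z hz w))
  show f (r • f.symm w) = z • w
  refine Subtype.ext ?_
  show φ (r • φ.symm w) = z • (w : X)
  rw [hφ r z hz, AddEquiv.apply_symm_apply]

end Vale.Agent.P202
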