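import Mathlib

/-! Interfaces for mixed characteristic: the almost calculus (BLUEPRINT_M2, item 6).

Modules of finite length over `P` with an endomorphism `D`. `rkD D a` is the length of `D ^ a X`,
`rkS D N a` that of `D ^ a N`, and `Reg D i η J` says that `D ^ j` is injective on `D ^ i X` up to
length `η` for all `j ≤ J`. -/

universe u v

namespace Vale.Agent.P202

/-- The length as a natural number. -/
noncomputable def len (P : Type u) [CommRing P] (M : Type v) [AddCommGroup M] [Module P M] : ℕ :=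
  (Module.length P M).toNat

/-- The rank of `D` at depth `a`. -/
noncomputable def rkD {P : Type u} [CommRing P] {X : Type v} [AddCommGroup X] [Module P X]
    (D : X →ₗ[P] X) (a : ℕ) : ℕ :=
  len P ↥(LinearMap.range (D ^ a))

/-- The rank of a submodule at depth `a`. -/
noncomputable def rkS {P : Type u} [CommRing P] {X : Type v} [AddCommGroup X] [Module P X]
    (D : X →ₗ[P] X) (N : Submodule P X) (a : ℕ) : ℕ :=
  len P ↥(N.map (D ^ a))

/-- Almost injectivity of the powers of `D` on the image of `D ^ i`. -/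
def Reg {P : Type u} [CommRing P] {X : Type v} [AddCommGroup X] [Module P X]
    (D : X →ₗ[P] X) (i η J : ℕ) : Prop :=
  ∀ j ≤ J, len P ↥(LinearMap.ker (D ^ j) ⊓ LinearMap.range (D ^ i)) ≤ η

/-- Regularity is a statement about ranks, and is monotone. -/
def GoalRegRank : Prop :=
  ∀ (P : Type u) [CommRing P] (X : Type v) [AddCommGroup X] [Module P X] [IsNoetherian P X]
    [IsArtinian P X] (D : X →ₗ[P] X) (i η J : ℕ),
    (Reg D i η J ↔ rkD D i ≤ rkD D (i + J) + η) ∧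
      ∀ i' η' J', i ≤ i' → η ≤ η' → J' ≤ J → Reg D i η J → Reg D i' η' J'

/-- Regularity passes to submodules. -/
def GoalRegSub : Prop :=
  ∀ (P : Type u) [CommRing P] (X Y : Type v) [AddCommGroup X] [Module P X] [AddCommGroup Y]
    [Module P Y] [IsNoetherian P Y] [IsArtinian P Y] (D : X →ₗ[P] X) (E : Y →ₗ[P] Y)
    (f : X →ₗ[P] Y) (i η J : ℕ),
    E ∘ₗ f = f ∘ₗ D → Function.Injective f → Reg E i η J → Reg D i η J

/-- Regularity passes to quotients. -/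
def GoalRegQuot : Prop :=
  ∀ (P : Type u) [CommRing P] (X Y : Type v) [AddCommGroup X] [Module P X] [AddCommGroup Y]
    [Module P Y] [IsNoetherian P X] [IsArtinian P X] (D : X →ₗ[P] X) (E : Y →ₗ[P] Y)
    (f : X →ₗ[P] Y) (i η J : ℕ),
    E ∘ₗ f = f ∘ₗ D → Function.Surjective f → Reg D i η J → Reg E i η J

/-- Regularity passes to extensions (exactness in the middle suffices). -/
def GoalRegExt : Prop :=
  ∀ (P : Type u) [CommRing P] (A B C : Type v) [AddCommGroup A] [Module P A] [AddCommGroup B]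
    [Module P B] [AddCommGroup C] [Module P C] [IsNoetherian P A] [IsArtinian P A]
    [IsNoetherian P B] [IsArtinian P B] [IsNoetherian P C] [IsArtinian P C] (DA : A →ₗ[P] A)
    (DB : B →ₗ[P] B) (DC : C →ₗ[P] C) (f : A →ₗ[P] B) (g : B →ₗ[P] C) (iA iC ηA ηC J : ℕ),
    DB ∘ₗ f = f ∘ₗ DA → DC ∘ₗ g = g ∘ₗ DB → Function.Exact f g → Reg DA iA ηA J →
      Reg DC iC ηC (J + iA) → Reg DB (iA + iC) (ηA + ηC) J

/-- A factorisation `X → Y → X` of `D`. -/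
def GoalRegFactor : Prop :=
  ∀ (P : Type u) [CommRing P] (X Y : Type v) [AddCommGroup X] [Module P X] [AddCommGroup Y]
    [Module P Y] [IsNoetherian P X] [IsArtinian P X] [IsNoetherian P Y] [IsArtinian P Y]
    (D : X →ₗ[P] X) (E : Y →ₗ[P] Y) (ι : X →ₗ[P] Y) (π : Y →ₗ[P] X) (i η J : ℕ),
    E ∘ₗ ι = ι ∘ₗ D → D ∘ₗ π = π ∘ₗ E → π ∘ₗ ι = D →
      (Reg E i η (J + 1) → Reg D (i + 1) η J) ∧ ∀ a, rkD D (a + 1) ≤ rkD E a

/-- The rank is almost additive at an exact place. -/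
def GoalRkExact : Prop :=
  ∀ (P : Type u) [CommRing P] (A B C : Type v) [AddCommGroup A] [Module P A] [AddCommGroup B]
    [Module P B] [AddCommGroup C] [Module P C] [IsNoetherian P A] [IsArtinian P A]
    [IsNoetherian P B] [IsArtinian P B] [IsNoetherian P C] [IsArtinian P C] (DA : A →ₗ[P] A)
    (DB : B →ₗ[P] B) (DC : C →ₗ[P] C) (f : A →ₗ[P] B) (g : B →ₗ[P] C) (i η J : ℕ),
    DB ∘ₗ f = f ∘ₗ DA → DC ∘ₗ g = g ∘ₗ DB → Function.Exact f g → Reg DA i η J → Reg DC i η J →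
      ∀ a, 2 * i ≤ a → a ≤ J →
        rkS DB (LinearMap.range f) a + rkS DC (LinearMap.range g) a ≤ rkD DB a ∧
        rkD DB a ≤ rkS DB (LinearMap.range f) a + rkS DC (LinearMap.range g) a + 2 * η

/-- A map with small kernel and cokernel hardly changes ranks. -/
def GoalRkApprox : Prop :=
  ∀ (P : Type u) [CommRing P] (X Y : Type v) [AddCommGroup X] [Module P X] [AddCommGroup Y]
    [Module P Y] [IsNoetherian P X] [IsArtinian P X] [IsNoetherian P Y] [IsArtinian P Y]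
    (D : X →ₗ[P] X) (E : Y →ₗ[P] Y) (f : X →ₗ[P] Y) (L : ℕ),
    E ∘ₗ f = f ∘ₗ D → len P ↥(LinearMap.ker f) ≤ L → len P (Y ⧸ LinearMap.range f) ≤ L →
      ∀ a, rkD D a ≤ rkD E a + L ∧ rkD E a ≤ rkD D a + L

/-- Lemma P: three stages `X₁ → X₂ → X₃`, exact in the middle stage, a complex in the last one.
If the images of both steps have almost the rank of the image of the composite, the alternating
sum of the ranks of the latter is small. -/
def GoalLemmaP : Prop :=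
  ∀ (P : Type u) [CommRing P] (X₁ X₂ X₃ : ℤ → Type v)
    [∀ n, AddCommGroup (X₁ n)] [∀ n, Module P (X₁ n)]
    [∀ n, AddCommGroup (X₂ n)] [∀ n, Module P (X₂ n)] [∀ n, IsNoetherian P (X₂ n)]
    [∀ n, IsArtinian P (X₂ n)]
    [∀ n, AddCommGroup (X₃ n)] [∀ n, Module P (X₃ n)] [∀ n, IsNoetherian P (X₃ n)]
    [∀ n, IsArtinian P (X₃ n)]
    (D₁ : ∀ n, X₁ n →ₗ[P] X₁ n) (D₂ : ∀ n, X₂ n →ₗ[P] X₂ n) (D₃ : ∀ n, X₃ n →ₗ[P] X₃ n)
    (f₁ : ∀ n, X₁ n →ₗ[P] X₁ (n + 1)) (f₂ : ∀ n, X₂ n →ₗ[P] X₂ (n + 1))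
    (f₃ : ∀ n, X₃ n →ₗ[P] X₃ (n + 1))
    (t : ∀ n, X₁ n →ₗ[P] X₂ n) (s : ∀ n, X₂ n →ₗ[P] X₃ n) (i η η' J a : ℕ),
    (∀ n, D₂ n ∘ₗ t n = t n ∘ₗ D₁ n) → (∀ n, D₃ n ∘ₗ s n = s n ∘ₗ D₂ n) →
    (∀ n, D₂ (n + 1) ∘ₗ f₂ n = f₂ n ∘ₗ D₂ n) → (∀ n, D₃ (n + 1) ∘ₗ f₃ n = f₃ n ∘ₗ D₃ n) →
    (∀ n, f₂ n ∘ₗ t n = t (n + 1) ∘ₗ f₁ n) → (∀ n, f₃ n ∘ₗ s n = s (n + 1) ∘ₗ f₂ n) →
    (∀ n, Function.Exact (f₂ n) (f₂ (n + 1))) → (∀ n, f₃ (n + 1) ∘ₗ f₃ n = 0) →
    (∀ n, Reg (D₂ n) i η J) → (∀ n, Reg (D₃ n) i η J) → 2 * i ≤ a → a ≤ J →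
    (∀ n, rkS (D₂ n) (LinearMap.range (t n)) a ≤
      rkS (D₃ n) (LinearMap.range (s n ∘ₗ t n)) a + η') →
    (∀ n, rkS (D₃ n) (LinearMap.range (s n)) a ≤
      rkS (D₃ n) (LinearMap.range (s n ∘ₗ t n)) a + η') →
    ∀ (lo : ℤ) (N : ℕ),
      rkS (D₃ (lo - 1)) (LinearMap.range (s (lo - 1) ∘ₗ t (lo - 1))) a = 0 →
      rkS (D₃ (lo + N)) (LinearMap.range (s (lo + N) ∘ₗ t (lo + N))) a = 0 →
      |∑ k ∈ Finset.range N, (-1 : ℤ) ^ k *
          (rkS (D₃ (lo + k)) (LinearMap.range (s (lo + k) ∘ₗ t (lo + k))) a : ℤ)| ≤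
        (N * (3 * η + 2 * η') : ℕ)

/-- A bounded exact sequence has small alternating rank sum. -/
def GoalRkEuler : Prop :=
  ∀ (P : Type u) [CommRing P] (X : ℤ → Type v) [∀ n, AddCommGroup (X n)] [∀ n, Module P (X n)]
    [∀ n, IsNoetherian P (X n)] [∀ n, IsArtinian P (X n)] (D : ∀ n, X n →ₗ[P] X n)
    (f : ∀ n, X n →ₗ[P] X (n + 1)) (i η J a : ℕ),
    (∀ n, D (n + 1) ∘ₗ f n = f n ∘ₗ D n) → (∀ n, Function.Exact (f n) (f (n + 1))) →
    (∀ n, Reg (D n) i η J) → 2 * i ≤ a → a ≤ J →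
    ∀ (lo : ℤ) (N : ℕ), rkD (D (lo - 1)) a = 0 → rkD (D (lo + N)) a = 0 →
      |∑ k ∈ Finset.range N, (-1 : ℤ) ^ k * (rkD (D (lo + k)) a : ℤ)| ≤ (3 * N * η : ℕ)

end Vale.Agent.P202
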