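import Mathlib
import Vale.Agent.P202.InterfacesM7

/-! Mixed characteristic, module M7: proofs of the almost calculus of `InterfacesM7`.

All counts come from one identity, `len N = len (g N) + len (N ⊓ ker g)`. -/

universe u v

namespace Vale.Agent.P202

namespace M7

variable {P : Type u} [CommRing P]
variable {X Y Z : Type v} [AddCommGroup X] [Module P X] [AddCommGroup Y] [Module P Y]
  [AddCommGroup Z] [Module P Z]

theorem len_top : len P ↥(⊤ : Submodule P X) = len P X := by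
  rw [len, len, Module.length_top]

theorem len_map_le [IsNoetherian P X] [IsArtinian P X] (g : X →ₗ[P] Y) (N : Submodule P X) :
    len P ↥(N.map g) ≤ len P N :=
  ENat.toNat_le_toNat (Module.length_le_of_surjective (g.submoduleMap N)
    (g.submoduleMap_surjective N)) Module.length_ne_top

theorem len_map_inj (g : X →ₗ[P] Y) (hg : Function.Injective g) (N : Submodule P X) :
    len P ↥(N.map g) = len P N :=
  congrArg ENat.toNat (Submodule.equivMapOfInjective g hg N).symm.length_eq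

theorem len_mono [IsNoetherian P X] [IsArtinian P X] {S N : Submodule P X} (h : S ≤ N) :
    len P S ≤ len P N :=
  ENat.toNat_le_toNat (Module.length_le_of_injective (Submodule.inclusion h)
    (Submodule.inclusion_injective h)) Module.length_ne_top

theorem len_split [IsNoetherian P X] [IsArtinian P X] (g : X →ₗ[P] Y) (N : Submodule P X) :
    len P N = len P ↥(N.map g) + len P ↥(N ⊓ LinearMap.ker g) := by
  have hex : Function.Exact (Submodule.inclusion (inf_le_left : N ⊓ LinearMap.ker g ≤ N))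
      (g.submoduleMap N) := by
    intro x
    constructor
    · intro hx
      exact ⟨⟨x.1, x.2, LinearMap.mem_ker.mpr (congrArg Subtype.val hx)⟩, rfl⟩
    · rintro ⟨y, rfl⟩
      exact Subtype.ext (LinearMap.mem_ker.mp y.2.2)
  have h := Module.length_eq_add_of_exact _ _ (Submodule.inclusion_injective _)
    (g.submoduleMap_surjective N) hex
  have hmap : Module.length P ↥(N.map g) ≠ ⊤ :=
    ne_top_of_le_ne_top Module.length_ne_top
      (Module.length_le_of_surjective (g.submoduleMap N) (g.submoduleMap_surjective N))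
  simp only [len]
  rw [h, ENat.toNat_add Module.length_ne_top hmap, add_comm]

theorem key [IsNoetherian P X] [IsArtinian P X] (g : X →ₗ[P] Y) {S N : Submodule P X}
    (h : S ≤ N) : len P ↥(N.map g) + len P S ≤ len P ↥(S.map g) + len P N := by
  have h1 := len_split g N
  have h2 := len_split g S
  have h3 : len P ↥(S ⊓ LinearMap.ker g) ≤ len P ↥(N ⊓ LinearMap.ker g) :=
    len_mono (inf_le_inf_right _ h)
  omega

theorem map_le_add [IsNoetherian P X] [IsArtinian P X] (G : X →ₗ[P] Y) (g : X →ₗ[P] Z)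
    (U : Submodule P X) :
    len P ↥(U.map G) ≤ len P ↥((U ⊓ LinearMap.ker g).map G) + len P ↥(U.map g) := by
  have h1 := key G (inf_le_left : U ⊓ LinearMap.ker g ≤ U)
  have h2 := len_split g U
  omega

theorem pow_apply_comm {D : X →ₗ[P] X} {E : Y →ₗ[P] Y} {f : X →ₗ[P] Y} (h : E ∘ₗ f = f ∘ₗ D)
    (j : ℕ) (x : X) : (E ^ j) (f x) = f ((D ^ j) x) :=
  LinearMap.congr_fun (Module.End.commute_pow_left_of_commute h j) x

theorem map_comm {D : X →ₗ[P] X} {E : Y →ₗ[P] Y} {f : X →ₗ[P] Y} (h : E ∘ₗ f = f ∘ₗ D)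
    (N : Submodule P X) (j : ℕ) : (N.map f).map (E ^ j) = (N.map (D ^ j)).map f := by
  rw [← Submodule.map_comp, ← Submodule.map_comp, Module.End.commute_pow_left_of_commute h j]

theorem map_pow_add (D : X →ₗ[P] X) (N : Submodule P X) (i j : ℕ) :
    (N.map (D ^ i)).map (D ^ j) = N.map (D ^ (j + i)) := by
  rw [pow_add, Module.End.mul_eq_comp, Submodule.map_comp]

theorem range_pow_anti (D : X →ₗ[P] X) {i a : ℕ} (h : i ≤ a) :
    LinearMap.range (D ^ a) ≤ LinearMap.range (D ^ i) := by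
  rintro _ ⟨x, rfl⟩
  refine ⟨(D ^ (a - i)) x, ?_⟩
  rw [← Module.End.mul_apply, ← pow_add, Nat.add_sub_cancel' h]

theorem pow_apply_add (D : X →ₗ[P] X) (i j : ℕ) (x : X) :
    (D ^ i) ((D ^ j) x) = (D ^ (i + j)) x := by
  rw [pow_add, Module.End.mul_apply]

theorem rkS_top (D : X →ₗ[P] X) (a : ℕ) : rkS D ⊤ a = rkD D a := by
  rw [rkS, rkD, Submodule.map_top]

theorem rkS_range {D : X →ₗ[P] X} {E : Y →ₗ[P] Y} {f : X →ₗ[P] Y} (h : E ∘ₗ f = f ∘ₗ D)
    (a : ℕ) : rkS E (LinearMap.range f) a = len P ↥((LinearMap.range (D ^ a)).map f) := by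
  rw [rkS, LinearMap.range_eq_map, map_comm h, ← LinearMap.range_eq_map]

theorem rk_split [IsNoetherian P X] [IsArtinian P X] (D : X →ₗ[P] X) (N : Submodule P X)
    (a j : ℕ) :
    rkS D N a = rkS D N (j + a) + len P ↥(N.map (D ^ a) ⊓ LinearMap.ker (D ^ j)) := by
  unfold rkS
  rw [len_split (D ^ j) (N.map (D ^ a)), map_pow_add]

theorem rkS_anti [IsNoetherian P X] [IsArtinian P X] (D : X →ₗ[P] X) (N : Submodule P X)
    {b a : ℕ} (h : b ≤ a) : rkS D N a ≤ rkS D N b := by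
  have h1 := rk_split D N b (a - b)
  rw [Nat.sub_add_cancel h] at h1
  omega

theorem rkS_mono [IsNoetherian P X] [IsArtinian P X] (D : X →ₗ[P] X) {M N : Submodule P X}
    (h : M ≤ N) (a : ℕ) : rkS D M a ≤ rkS D N a :=
  len_mono (Submodule.map_mono h)

theorem drop [IsNoetherian P X] [IsArtinian P X] {D : X →ₗ[P] X} {i η J : ℕ}
    (hR : Reg D i η J) (N : Submodule P X) {b a : ℕ} (hi : i ≤ b) (hb : b ≤ a)
    (hJ : a - b ≤ J) : rkS D N b ≤ rkS D N a + η := by
  have h1 := rk_split D N b (a - b)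
  rw [Nat.sub_add_cancel hb] at h1
  have h2 : len P ↥(N.map (D ^ b) ⊓ LinearMap.ker (D ^ (a - b))) ≤
      len P ↥(LinearMap.ker (D ^ (a - b)) ⊓ LinearMap.range (D ^ i)) :=
    len_mono (le_inf inf_le_right
      (inf_le_left.trans (LinearMap.map_le_range.trans (range_pow_anti D hi))))
  have h3 := hR (a - b) hJ
  omega

/-- The drop passes to images. -/
theorem drop_map [IsNoetherian P X] [IsArtinian P X] {D : X →ₗ[P] X} {E : Y →ₗ[P] Y}
    {f : X →ₗ[P] Y} (h : E ∘ₗ f = f ∘ₗ D) {i η J : ℕ} (hR : Reg D i η J) {b a : ℕ}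
    (hi : i ≤ b) (hb : b ≤ a) (hJ : a - b ≤ J) :
    rkS E (LinearMap.range f) b ≤ rkS E (LinearMap.range f) a + η := by
  rw [rkS_range h, rkS_range h]
  have h1 := key f (range_pow_anti D hb)
  have h2 := drop hR ⊤ hi hb hJ
  rw [rkS_top, rkS_top] at h2
  simp only [rkD] at h2
  omega

/-- The kernel of `g` at depth `a`, seen after any map `G`. -/
theorem kerK [IsNoetherian P X] [IsArtinian P X] [IsNoetherian P Y] [IsArtinian P Y]
    {D : X →ₗ[P] X} {E : Y →ₗ[P] Y} {g : X →ₗ[P] Y} (h : E ∘ₗ g = g ∘ₗ D) {i η J : ℕ}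
    (hR : Reg E i η J) {a : ℕ} (hia : i ≤ a) (haJ : a - i ≤ J) [IsNoetherian P Z]
    [IsArtinian P Z] (G : X →ₗ[P] Z) :
    len P ↥((LinearMap.range (D ^ a) ⊓ LinearMap.ker g).map G) ≤
      len P ↥(((LinearMap.ker g).map (D ^ (a - i))).map G) + η := by
  set U : Submodule P X :=
    LinearMap.range (D ^ i) ⊓ (LinearMap.ker g).comap (D ^ (a - i)) with hU
  have h1 : (LinearMap.range (D ^ a) ⊓ LinearMap.ker g).map G ≤
      U.map (G ∘ₗ D ^ (a - i)) := by
    rintro _ ⟨x, ⟨⟨z, rfl⟩, hz⟩, rfl⟩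
    refine ⟨(D ^ i) z, ⟨⟨z, rfl⟩, ?_⟩, ?_⟩
    · show (D ^ (a - i)) ((D ^ i) z) ∈ LinearMap.ker g
      rw [pow_apply_add, Nat.sub_add_cancel hia]
      exact hz
    · show G ((D ^ (a - i)) ((D ^ i) z)) = G ((D ^ a) z)
      rw [pow_apply_add, Nat.sub_add_cancel hia]
  have h2 := map_le_add (G ∘ₗ D ^ (a - i)) g U
  have h3 : len P ↥((U ⊓ LinearMap.ker g).map (G ∘ₗ D ^ (a - i))) ≤
      len P ↥(((LinearMap.ker g).map (D ^ (a - i))).map G) := by
    apply len_mono
    rw [Submodule.map_comp]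
    exact Submodule.map_mono (Submodule.map_mono inf_le_right)
  have h4 : len P ↥(U.map g) ≤
      len P ↥(LinearMap.ker (E ^ (a - i)) ⊓ LinearMap.range (E ^ i)) := by
    apply len_mono
    rintro _ ⟨x, ⟨⟨z, rfl⟩, hz⟩, rfl⟩
    refine ⟨?_, ⟨g z, pow_apply_comm h i z⟩⟩
    show (E ^ (a - i)) (g ((D ^ i) z)) = 0
    rw [pow_apply_comm h]
    exact hz
  have h5 := hR (a - i) haJ
  have h6 := len_mono h1
  omega

end M7

open M7

/-- Regularity is a statement about ranks, and is monotone. -/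
theorem goalRegRank : GoalRegRank.{u, v} := by
  intro P _ X _ _ _ _ D i η J
  have hs : ∀ j, rkD D i =
      rkD D (j + i) + len P ↥(LinearMap.ker (D ^ j) ⊓ LinearMap.range (D ^ i)) := by
    intro j
    have h := rk_split D ⊤ i j
    rw [rkS_top, rkS_top, Submodule.map_top] at h
    rw [inf_comm]
    exact h
  refine ⟨⟨fun h => ?_, fun h j hj => ?_⟩, ?_⟩
  · have h1 := h J le_rfl
    have h2 := hs J
    rw [add_comm J i] at h2
    omega
  · have h1 := hs j
    have h2 : rkD D (i + J) ≤ rkD D (j + i) := by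
      rw [← rkS_top, ← rkS_top]
      exact rkS_anti D ⊤ (by omega)
    omega
  · intro i' η' J' hi hη hJ h j hj
    exact ((len_mono (inf_le_inf_left _ (range_pow_anti D hi))).trans
      (h j (hj.trans hJ))).trans hη

/-- Regularity passes to submodules. -/
theorem goalRegSub : GoalRegSub.{u, v} := by
  intro P _ X Y _ _ _ _ _ _ D E f i η J h hf hR j hj
  have h1 : (LinearMap.ker (D ^ j) ⊓ LinearMap.range (D ^ i)).map f ≤
      LinearMap.ker (E ^ j) ⊓ LinearMap.range (E ^ i) := by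
    rintro _ ⟨x, ⟨hx, z, rfl⟩, rfl⟩
    refine ⟨?_, ⟨f z, pow_apply_comm h i z⟩⟩
    show (E ^ j) (f ((D ^ i) z)) = 0
    rw [pow_apply_comm h, show (D ^ j) ((D ^ i) z) = 0 from hx, map_zero]
  have h2 := len_mono h1
  rw [len_map_inj f hf] at h2
  exact h2.trans (hR j hj)

/-- Regularity passes to quotients. -/
theorem goalRegQuot : GoalRegQuot.{u, v} := by
  intro P _ X Y _ _ _ _ _ _ D E f i η J h hf hR j hj
  have : IsNoetherian P Y := isNoetherian_of_surjective f (LinearMap.range_eq_top.mpr hf)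
  have : IsArtinian P Y := isArtinian_of_surjective X f hf
  have hrk : ∀ a, rkD E a = len P ↥((LinearMap.range (D ^ a)).map f) := by
    intro a
    rw [← rkS_top, ← LinearMap.range_eq_top.mpr hf, rkS_range h]
  have h1 := rk_split D ⊤ i j
  have h2 := rk_split E ⊤ i j
  rw [rkS_top, rkS_top, Submodule.map_top, inf_comm] at h1 h2
  have h3 := key f (range_pow_anti D (Nat.le_add_left i j))
  have h4 := hR j hj
  rw [← hrk, ← hrk] at h3
  simp only [rkD] at h1 h2 h3
  omega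

/-- Regularity passes to extensions. -/
theorem goalRegExt : GoalRegExt.{u, v} := by
  intro P _ A B C _ _ _ _ _ _ _ _ _ _ _ _ DA DB DC f g iA iC ηA ηC J hf hg hex hA hC j hj
  set U : Submodule P B :=
    LinearMap.range (DB ^ iC) ⊓ LinearMap.ker (DB ^ (j + iA)) with hU
  have h1 : LinearMap.ker (DB ^ j) ⊓ LinearMap.range (DB ^ (iA + iC)) ≤ U.map (DB ^ iA) := by
    rintro _ ⟨hx, z, rfl⟩
    refine ⟨(DB ^ iC) z, ⟨⟨z, rfl⟩, ?_⟩, pow_apply_add DB iA iC z⟩
    show (DB ^ (j + iA)) ((DB ^ iC) z) = 0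
    rw [pow_apply_add, add_assoc, ← pow_apply_add]
    exact hx
  have h2 := map_le_add (DB ^ iA) g U
  have h3 : len P ↥(U.map g) ≤
      len P ↥(LinearMap.ker (DC ^ (j + iA)) ⊓ LinearMap.range (DC ^ iC)) := by
    apply len_mono
    rintro _ ⟨x, ⟨⟨z, rfl⟩, hz⟩, rfl⟩
    refine ⟨?_, ⟨g z, pow_apply_comm hg iC z⟩⟩
    show (DC ^ (j + iA)) (g ((DB ^ iC) z)) = 0
    rw [pow_apply_comm hg, show (DB ^ (j + iA)) ((DB ^ iC) z) = 0 from hz, map_zero]
  have h4 : (U ⊓ LinearMap.ker g).map (DB ^ iA) ≤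
      (LinearMap.range f).map (DB ^ iA) ⊓ LinearMap.ker (DB ^ j) := by
    rintro _ ⟨x, ⟨⟨-, hx⟩, hxg⟩, rfl⟩
    refine ⟨⟨x, ?_, rfl⟩, ?_⟩
    · rw [SetLike.mem_coe, ← LinearMap.exact_iff.mp hex]
      exact hxg
    · show (DB ^ j) ((DB ^ iA) x) = 0
      rw [pow_apply_add]
      exact hx
  have h5 := rk_split DB (LinearMap.range f) iA j
  have h6 := drop_map hf hA le_rfl (Nat.le_add_left iA j) (by omega)
  have h7 := len_mono h1
  have h8 := len_mono h4
  have h9 := hC (j + iA) (by omega)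
  omega

/-- A factorisation of `D`. -/
theorem goalRegFactor : GoalRegFactor.{u, v} := by
  intro P _ X Y _ _ _ _ _ _ _ _ D E ι π i η J hι hπ hfac
  have hstep : ∀ (a : ℕ) (z : X), (D ^ (a + 1)) z = π ((E ^ a) (ι z)) := by
    intro a z
    rw [pow_apply_comm hι, add_comm a 1, ← pow_apply_add, pow_one, ← hfac]
    rfl
  refine ⟨fun hR j hj => ?_, fun a => ?_⟩
  · have h1 : LinearMap.ker (D ^ j) ⊓ LinearMap.range (D ^ (i + 1)) ≤
        (LinearMap.ker (E ^ (j + 1)) ⊓ LinearMap.range (E ^ i)).map π := by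
      rintro _ ⟨hx, z, rfl⟩
      refine ⟨(E ^ i) (ι z), ⟨?_, ⟨ι z, rfl⟩⟩, (hstep i z).symm⟩
      show (E ^ (j + 1)) ((E ^ i) (ι z)) = 0
      rw [pow_apply_add, pow_apply_comm hι, show j + 1 + i = j + (i + 1) by omega,
        ← pow_apply_add, show (D ^ j) ((D ^ (i + 1)) z) = 0 from hx, map_zero]
    exact ((len_mono h1).trans (len_map_le π _)).trans (hR (j + 1) (by omega))
  · have h1 : LinearMap.range (D ^ (a + 1)) ≤ (LinearMap.range (E ^ a)).map π := by
      rintro _ ⟨z, rfl⟩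
      exact ⟨(E ^ a) (ι z), ⟨ι z, rfl⟩, (hstep a z).symm⟩
    exact (len_mono h1).trans (len_map_le π _)

/-- The rank is almost additive at an exact place. -/
theorem goalRkExact : GoalRkExact.{u, v} := by
  intro P _ A B C _ _ _ _ _ _ _ _ _ _ _ _ DA DB DC f g i η J hf hg hex hA hC a ha haJ
  have hs := len_split g (LinearMap.range (DB ^ a))
  rw [← rkS_range hg a] at hs
  have hlow : (LinearMap.range f).map (DB ^ a) ≤
      LinearMap.range (DB ^ a) ⊓ LinearMap.ker g := by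
    refine le_inf LinearMap.map_le_range ?_
    rintro _ ⟨_, ⟨z, rfl⟩, rfl⟩
    show g ((DB ^ a) (f z)) = 0
    rw [← pow_apply_comm hg, show g (f z) = 0 from hex.apply_apply_eq_zero z, map_zero]
  have h1 := len_mono hlow
  have h2 := kerK hg hC (by omega : i ≤ a) (by omega) LinearMap.id
  rw [Submodule.map_id, Submodule.map_id, LinearMap.exact_iff.mp hex] at h2
  have h3 := drop_map hf hA (by omega : i ≤ a - i) (Nat.sub_le a i) (by omega)
  rw [LinearMap.exact_iff.mp hex] at hs h1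
  simp only [rkD, rkS] at *
  omega

/-- A map with small kernel and cokernel hardly changes ranks. -/
theorem goalRkApprox : GoalRkApprox.{u, v} := by
  intro P _ X Y _ _ _ _ _ _ _ _ D E f L h hker hcok a
  have h1 := len_split f (LinearMap.range (D ^ a))
  rw [← rkS_range h a] at h1
  have h2 : len P ↥(LinearMap.range (D ^ a) ⊓ LinearMap.ker f) ≤ len P ↥(LinearMap.ker f) :=
    len_mono inf_le_right
  have h3 := rkS_mono E (le_top : LinearMap.range f ≤ ⊤) a
  have h4 := key (E ^ a) (le_top : LinearMap.range f ≤ ⊤)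
  have h5 := len_split (LinearMap.range f).mkQ ⊤
  rw [Submodule.map_top, Submodule.range_mkQ, Submodule.ker_mkQ, top_inf_eq, len_top,
    len_top] at h5
  have h6 : rkS E (LinearMap.range f) a ≤ rkD D a := by
    rw [rkS_range h]
    exact len_map_le f _
  rw [rkS_top] at h3
  rw [len_top, Submodule.map_top] at h4
  simp only [rkD, rkS] at *
  omega

namespace M7

theorem telescope (r u : ℤ → ℕ) (c : ℕ)
    (hlow : ∀ n, u n + u (n + 1) ≤ r (n + 1))
    (hup : ∀ n, r (n + 1) ≤ u n + u (n + 1) + c) (lo : ℤ) (N : ℕ) (h0 : u (lo - 1) = 0)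
    (hN : u (lo - 1 + N) = 0) :
    |∑ k ∈ Finset.range N, (-1 : ℤ) ^ k * (r (lo + k) : ℤ)| ≤ (N * c : ℕ) := by
  have key : ∀ M : ℕ, |∑ k ∈ Finset.range M, (-1 : ℤ) ^ k * (r (lo + k) : ℤ) +
      (-1 : ℤ) ^ M * (u (lo - 1 + M) : ℤ) - (u (lo - 1) : ℤ)| ≤ (M * c : ℕ) := by
    intro M
    induction M with
    | zero => simp
    | succ M ih =>
      have e1 := hlow (lo - 1 + M)
      have e2 := hup (lo - 1 + M)
      rw [show lo - 1 + (M : ℤ) + 1 = lo + M by ring] at e1 e2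
      rw [Finset.sum_range_succ,
        show lo - 1 + ((M + 1 : ℕ) : ℤ) = lo + M by push_cast; ring]
      set S := ∑ k ∈ Finset.range M, (-1 : ℤ) ^ k * (r (lo + k) : ℤ) with hS
      set e : ℤ := (r (lo + M) : ℤ) - u (lo + M) - u (lo - 1 + M) with he
      have he' : |(-1 : ℤ) ^ M * e| ≤ (c : ℤ) := by
        rw [abs_mul, abs_pow, abs_neg, abs_one, one_pow, one_mul, abs_le, he]
        constructor <;> omega
      rw [show S + (-1 : ℤ) ^ M * (r (lo + M) : ℤ) + (-1 : ℤ) ^ (M + 1) * (u (lo + M) : ℤ) -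
          (u (lo - 1) : ℤ) = (S + (-1 : ℤ) ^ M * (u (lo - 1 + M) : ℤ) - (u (lo - 1) : ℤ)) +
          (-1 : ℤ) ^ M * e by rw [he, pow_succ]; ring]
      refine (abs_add_le _ _).trans ?_
      push_cast at ih ⊢
      linarith
  have := key N
  rw [h0, hN] at this
  simpa using this

end M7

/-- Lemma P. -/
theorem goalLemmaP : GoalLemmaP.{u, v} := by
  intro P _ X₁ X₂ X₃ _ _ _ _ _ _ _ _ _ _ D₁ D₂ D₃ f₁ f₂ f₃ t s i η η' J a ht hs hf₂ hf₃ hcomm₁
    hcomm₂ hex hcx hR₂ hR₃ ha haJ hH₂ hH₃ lo N h0 hN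
  let I : ∀ n, Submodule P (X₃ n) := fun n => LinearMap.range (s n ∘ₗ t n)
  let r : ℤ → ℕ := fun n => rkS (D₃ n) (I n) a
  let u : ℤ → ℕ := fun n => rkS (D₃ (n + 1)) ((I n).map (f₃ n)) a
  have hu : ∀ n, u n = len P ↥(((I n).map (D₃ n ^ a)).map (f₃ n)) := by
    intro n
    show len P ↥(((I n).map (f₃ n)).map (D₃ (n + 1) ^ a)) = _
    rw [map_comm (hf₃ n)]
  have hI : ∀ n, ((LinearMap.range (t n)).map (D₂ n ^ a)).map (s n) =
      (I n).map (D₃ n ^ a) := by
    intro n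
    rw [← map_comm (hs n)]
    simp only [I, LinearMap.range_comp]
  have hlow : ∀ n, ((I n).map (f₃ n)).map (D₃ (n + 1) ^ a) ≤
      (I (n + 1)).map (D₃ (n + 1) ^ a) ⊓ LinearMap.ker (f₃ (n + 1)) := by
    intro n
    have hle : (I n).map (f₃ n) ≤ I (n + 1) := by
      rintro _ ⟨_, ⟨x, rfl⟩, rfl⟩
      exact ⟨f₁ n x, ((LinearMap.congr_fun (hcomm₂ n) (t n x)).trans
        (congrArg (s (n + 1)) (LinearMap.congr_fun (hcomm₁ n) x))).symm⟩
    refine le_inf (Submodule.map_mono hle) ?_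
    rintro _ ⟨_, ⟨x, -, rfl⟩, rfl⟩
    show f₃ (n + 1) ((D₃ (n + 1) ^ a) (f₃ n x)) = 0
    rw [← pow_apply_comm (hf₃ (n + 1)),
      show f₃ (n + 1) (f₃ n x) = 0 from LinearMap.congr_fun (hcx n) x, map_zero]
  have hsplit : ∀ n, r (n + 1) = u (n + 1) +
      len P ↥((I (n + 1)).map (D₃ (n + 1) ^ a) ⊓ LinearMap.ker (f₃ (n + 1))) := by
    intro n
    rw [hu]
    exact len_split (f₃ (n + 1)) ((I (n + 1)).map (D₃ (n + 1) ^ a))
  have h1 : ∀ n, u n + u (n + 1) ≤ r (n + 1) := by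
    intro n
    have := hsplit n
    have : u n ≤ _ := len_mono (hlow n)
    omega
  have h2 : ∀ n, r (n + 1) ≤ u n + u (n + 1) + (3 * η + 2 * η') := by
    intro n
    let M : ∀ m, Submodule P (X₂ m) := fun m => (LinearMap.range (t m)).map (D₂ m ^ a)
    set Z : Submodule P (X₂ (n + 1)) :=
      M (n + 1) ⊓ (LinearMap.ker (f₃ (n + 1))).comap (s (n + 1)) with hZ
    have a1 : (I (n + 1)).map (D₃ (n + 1) ^ a) ⊓ LinearMap.ker (f₃ (n + 1)) ≤
        Z.map (s (n + 1)) := by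
      rw [← hI (n + 1)]
      rintro _ ⟨⟨z, hz, rfl⟩, hy⟩
      exact ⟨z, ⟨hz, hy⟩, rfl⟩
    have a2 := map_le_add (s (n + 1)) (f₂ (n + 1)) Z
    have a3 : Z.map (f₂ (n + 1)) ≤ M (n + 1 + 1) ⊓ LinearMap.ker (s (n + 1 + 1)) := by
      rintro _ ⟨z, ⟨⟨_, ⟨x, rfl⟩, rfl⟩, hz⟩, rfl⟩
      refine ⟨⟨t (n + 1 + 1) (f₁ (n + 1) x), ⟨_, rfl⟩, ?_⟩, ?_⟩
      · show (D₂ (n + 1 + 1) ^ a) _ = f₂ (n + 1) ((D₂ (n + 1) ^ a) (t (n + 1) x))
        rw [← pow_apply_comm (hf₂ (n + 1))]
        exact congrArg _ (LinearMap.congr_fun (hcomm₁ (n + 1)) x).symm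
      · show s (n + 1 + 1) (f₂ (n + 1) _) = 0
        exact (LinearMap.congr_fun (hcomm₂ (n + 1)) _).symm.trans hz
    have a4 := len_split (s (n + 1 + 1)) (M (n + 1 + 1))
    rw [hI (n + 1 + 1)] at a4
    have a5 : len P ↥(M (n + 1 + 1)) ≤
        len P ↥((I (n + 1 + 1)).map (D₃ (n + 1 + 1) ^ a)) + η' := hH₂ (n + 1 + 1)
    have a6 : len P ↥((Z ⊓ LinearMap.ker (f₂ (n + 1))).map (s (n + 1))) ≤
        len P ↥((LinearMap.range (D₂ (n + 1) ^ a) ⊓
          LinearMap.ker (f₂ (n + 1))).map (s (n + 1))) :=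
      len_mono (Submodule.map_mono (inf_le_inf_right _ (inf_le_left.trans
        LinearMap.map_le_range)))
    have a7 := kerK (hf₂ (n + 1)) (hR₂ (n + 1 + 1)) (by omega : i ≤ a) (by omega)
      (s (n + 1))
    have a8 : ((LinearMap.ker (f₂ (n + 1))).map (D₂ (n + 1) ^ (a - i))).map (s (n + 1)) =
        ((LinearMap.range (s n)).map (D₃ n ^ (a - i))).map (f₃ n) := by
      rw [← map_comm (hs (n + 1)), ← map_comm (hf₃ n), LinearMap.exact_iff.mp (hex n),
        ← LinearMap.range_comp, ← hcomm₂ n, LinearMap.range_comp]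
    rw [a8] at a7
    have a9 := key (f₃ n) (Submodule.map_mono (f := D₃ n ^ (a - i))
      (LinearMap.range_comp_le_range (t n) (s n)))
    have b1 := drop (hR₃ n) (LinearMap.range (s n)) (by omega : i ≤ a - i) (Nat.sub_le a i)
      (by omega)
    have b2 := drop (hR₃ (n + 1)) ((I n).map (f₃ n)) (by omega : i ≤ a - i) (Nat.sub_le a i)
      (by omega)
    have b3 := rkS_anti (D₃ n) (I n) (Nat.sub_le a i)
    have b4 := hH₃ n
    have b5 := hsplit n
    have b6 : len P ↥(((I n).map (D₃ n ^ (a - i))).map (f₃ n)) =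
        rkS (D₃ (n + 1)) ((I n).map (f₃ n)) (a - i) := by
      rw [rkS, map_comm (hf₃ n)]
    have b7 := len_mono a1
    have b8 := len_mono a3
    simp only [rkS, r, u, I] at *
    omega
  refine telescope r u (3 * η + 2 * η') h1 h2 lo N ?_ ?_
  · have : u (lo - 1) ≤ r (lo - 1) := by
      rw [hu]
      exact len_map_le _ _
    exact Nat.le_zero.mp (this.trans_eq h0)
  · have := h1 (lo - 1 + N)
    rw [show lo - 1 + (N : ℤ) + 1 = lo + N by ring] at this
    have e : r (lo + N) = 0 := hN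
    omega

/-- A bounded exact sequence has small alternating rank sum. -/
theorem goalRkEuler : GoalRkEuler.{u, v} := by
  intro P _ X _ _ _ _ D f i η J a hf hex hR ha haJ lo N h0 hN
  have key := goalLemmaP P X X X D D D f f f (fun n => LinearMap.id) (fun n => LinearMap.id)
    i η 0 J a (fun n => rfl) (fun n => rfl) hf hf (fun n => rfl) (fun n => rfl) hex
    (fun n => (hex n).linearMap_comp_eq_zero) hR hR ha haJ (fun n => le_rfl) (fun n => le_rfl)
    lo N
  simp only [LinearMap.comp_id, LinearMap.range_id, rkS_top] at key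
  have h := key h0 hN
  rw [show N * (3 * η + 2 * 0) = 3 * N * η by ring] at h
  exact h

end Vale.Agent.P202
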