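import Vale.Agent.P202.InterfacesBand2
import Vale.Agent.P202.M7Calc

/-!
Blocks of the band complex (BLUEPRINT_BAND, sections 0 and 6): the maps `ι` from the `E`-block to
the block of levels over `L` and `π` back, and what the almost calculus makes of them.
-/

universe u

namespace Vale.Agent.P202

open IsLocalRing

section gen

variable {S : Type u} [CommRing S] {A : Type u} [AddCommGroup A] [Module S A] {δ : A →ₗ[S] A}
  {P Gt : ℤ → Submodule S A}

lemma LevelEnd.winMap_hmk {g : A →ₗ[S] A} (h : LevelEnd δ P Gt g) (a c r : ℤ)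
    (z : ↥(hcyc δ (lvl P Gt a) (lvl P Gt c) r))
    (h' : g z.1 ∈ hcyc δ (lvl P Gt a) (lvl P Gt c) r) :
    h.winMap a c r (hmk δ (lvl P Gt a) (lvl P Gt c) r z) =
      hmk δ (lvl P Gt a) (lvl P Gt c) r ⟨g z.1, h'⟩ := rfl

lemma LevelEnd.winMap_smul_id (z : S) (h : LevelEnd δ P Gt (z • LinearMap.id)) (a c r : ℤ) :
    h.winMap a c r = z • LinearMap.id := by
  refine LinearMap.ext fun x => ?_
  obtain ⟨v, rfl⟩ := hmk_surjective δ (lvl P Gt a) (lvl P Gt c) r x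
  have hv : (z • (LinearMap.id : A →ₗ[S] A)) v.1 ∈ hcyc δ (lvl P Gt a) (lvl P Gt c) r :=
    Submodule.smul_mem _ z v.2
  exact (h.winMap_hmk a c r v hv).trans ((congrArg (hmk δ (lvl P Gt a) (lvl P Gt c) r)
    (show (⟨_, hv⟩ : ↥(hcyc δ (lvl P Gt a) (lvl P Gt c) r)) = z • v from rfl)).trans
    (map_smul _ z v))

lemma bbLvl_stable (hG : ∀ u, (Gt u).map δ ≤ Gt u) (hP : IsStable δ P) (u : ℤ) :
    IsStable δ (lvl P Gt u) := fun r =>
  (Submodule.map_inf_le _).trans (inf_le_inf (hG u) (hP r))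

/-- The length of the images of a scalar does not depend on the model. -/
lemma rkD_smul_congr {X Y : Type u} [AddCommGroup X] [Module S X] [AddCommGroup Y] [Module S Y]
    (f : X ≃ₗ[S] Y) (z : S) (a : ℕ) :
    rkD (z • LinearMap.id : Module.End S X) a = rkD (z • LinearMap.id : Module.End S Y) a := by
  refine congrArg ENat.toNat ?_
  have h : (LinearMap.range ((z • LinearMap.id : Module.End S X) ^ a)).map (f : X →ₗ[S] Y) =
      LinearMap.range ((z • LinearMap.id : Module.End S Y) ^ a) := by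
    rw [← LinearMap.range_comp,
      show (f : X →ₗ[S] Y) ∘ₗ ((z • LinearMap.id : Module.End S X) ^ a) =
        ((z • LinearMap.id : Module.End S Y) ^ a) ∘ₗ (f : X →ₗ[S] Y) from
        (Module.End.commute_pow_left_of_commute (LinearMap.ext fun x => by simp) a).symm,
      LinearMap.range_comp, LinearEquiv.range, Submodule.map_top]
  exact ((f.submoduleMap _).trans (LinearEquiv.ofEq _ _ h)).length_eq

/-- The almost calculus of a pair of scalars which factor through one another. -/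
theorem factor_calc {X X' Y Y' : Type u} [AddCommGroup X] [Module S X] [AddCommGroup X']
    [Module S X'] [AddCommGroup Y] [Module S Y] [AddCommGroup Y'] [Module S Y']
    [IsNoetherian S X] [IsArtinian S X] [IsNoetherian S Y] [IsArtinian S Y]
    (e₁ : X ≃ₗ[S] X') (e₂ : Y ≃ₗ[S] Y') (inc : X' →ₗ[S] Y') (mul : Y' →ₗ[S] X') (z w : S)
    (hpi : ∀ v, mul (inc v) = z • v) (hip : ∀ v, inc (mul v) = w • v) :
    (∀ η J : ℕ, rkD (w • LinearMap.id : Module.End S Y) 1 ≤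
        rkD (w • LinearMap.id : Module.End S Y) (J + 2) + η →
      rkD (z • LinearMap.id : Module.End S X) 2 ≤
        rkD (z • LinearMap.id : Module.End S X) (J + 2) + η) ∧
    ∀ a, rkD (z • LinearMap.id : Module.End S X) (a + 1) ≤
        rkD (w • LinearMap.id : Module.End S Y) a ∧
      rkD (w • LinearMap.id : Module.End S Y) (a + 1) ≤
        rkD (z • LinearMap.id : Module.End S X) a := by
  set D' : Module.End S X := z • LinearMap.id with hD
  set E' : Module.End S Y := w • LinearMap.id with hE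
  let io := e₂.symm.toLinearMap ∘ₗ inc ∘ₗ e₁.toLinearMap
  let pr := e₁.symm.toLinearMap ∘ₗ mul ∘ₗ e₂.toLinearMap
  have h1 : pr ∘ₗ io = D' := LinearMap.ext fun v => by simp [pr, io, hD, hpi]
  have h2 : io ∘ₗ pr = E' := LinearMap.ext fun v => by simp [pr, io, hE, hip]
  have c1 : E' ∘ₗ io = io ∘ₗ D' := by rw [← h2, LinearMap.comp_assoc, h1]
  have c2 : D' ∘ₗ pr = pr ∘ₗ E' := by rw [← h1, LinearMap.comp_assoc, h2]
  refine ⟨fun η J hη => ?_, fun a => ⟨?_, ?_⟩⟩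
  · refine ((goalRegRank S X D' 2 η J).1.1 ?_).trans (by rw [add_comm 2 J])
    refine (goalRegFactor S X Y D' E' io pr 1 η J c1 c2 h1).1 ?_
    refine (goalRegRank S Y E' 1 η (J + 1)).1.2 ?_
    rwa [show 1 + (J + 1) = J + 2 by ring]
  · exact (goalRegFactor S X Y D' E' io pr 0 0 0 c1 c2 h1).2 a
  · exact (goalRegFactor S Y X E' D' pr io 0 0 0 c2 c1 h2).2 a

end gen

namespace Band

variable {p : ℕ} [Fact p.Prime] {R : Type u} [CommRing R] [IsLocalRing R] {k : Type u} [Field k]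
  [CharP k p] [PerfectRing k p] {A : Type u} [CommRing A] [Algebra R A]
  [Algebra (WittVector p k) A] {d : ℕ} {x : Fin d → A} {b : ℕ} {G : ℕ → Ideal A}
  {CI : CIData p k A x b G} {ι : ResidueField R →+* k} {i j K : ℕ}
  (B : Band p R CI ι i j K)

/-- The levels over `L` modulo the level `H`, without truncation. -/
noncomputable def qAmb (H : ℕ) (t : ℤ) : Submodule B.L (B.Amb H) :=
  (B.Lam t).map (B.Lam H).mkQ

lemma qAmb_stable (H : ℕ) (t : ℤ) : (B.qAmb H t).map (B.dAmb H) ≤ B.qAmb H t := by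
  rintro _ ⟨_, ⟨v, hv, rfl⟩, rfl⟩
  exact ⟨phiD B.mulX v, B.Lam_stable t (Submodule.mem_map_of_mem hv), rfl⟩

lemma degAmb_stable (H : ℕ) : IsStable (B.dAmb H) (B.degAmb H) := by
  rintro r _ ⟨_, ⟨v, hv, rfl⟩, rfl⟩
  exact ⟨phiD B.mulX v, phiDeg_stable _ r (Submodule.mem_map_of_mem hv), rfl⟩

lemma lamAmb_eq {H : ℕ} {t : ℤ} (ht : -(H : ℤ) ≤ t) : B.lamAmb H t = B.qAmb H t := by
  rw [lamAmb, max_eq_left ht, qAmb]

lemma eAmb_le_qAmb {H : ℕ} {t : ℤ} (ht : -(H : ℤ) ≤ t) : B.eAmb H t ≤ B.qAmb H t := by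
  rintro _ ⟨v, hv, rfl⟩
  rw [B.lamAmb_eq ht] at hv
  exact Submodule.smul_mem _ B.E hv

lemma eAmb_le_bot {H : ℕ} {t : ℤ} : B.eAmb H t ≤ B.eAmb H (-(H : ℤ)) :=
  Submodule.map_mono (Submodule.map_mono (B.Lam_anti (by omega)))

/-- An element of `L` which kills windows of `2 H` blocks kills the window modulo the level `H`. -/
lemma smul_qAmb_eq_zero {H : ℕ} {t : ℤ} (ht : -(H : ℤ) ≤ t) {z : B.L} {N : ℤ}
    (hz : z ∈ B.Fil N) (hN : 2 * (B.blen : ℤ) * H ≤ N) {v : B.Amb H} (hv : v ∈ B.qAmb H t) :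
    z • v = 0 := by
  obtain ⟨w, hw, rfl⟩ := hv
  rw [← map_smul, Submodule.mkQ_apply, Submodule.Quotient.mk_eq_zero]
  intro c
  refine ⟨?_, fun hc => by rw [Finsupp.smul_apply, (hw c).2 hc, smul_zero]⟩
  have h1 := B.fil_mul _ _ (Ideal.mul_mem_mul hz (hw c).1)
  rw [Finsupp.smul_apply, smul_eq_mul]
  refine B.anti ?_ h1
  have h2 : (B.blen : ℤ) * (-(H : ℤ)) ≤ B.blen * t :=
    mul_le_mul_of_nonneg_left ht (by positivity)
  nlinarith

lemma E_smul_eAmb {H : ℕ} (hK : 2 * b * H ≤ K) {t : ℤ} (ht : -(H : ℤ) ≤ t) {v : B.Amb H}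
    (hv : v ∈ B.eAmb H t) : B.E • v = B.D • v := by
  obtain ⟨w, hw, rfl⟩ := hv
  rw [B.lamAmb_eq ht] at hw
  simp only [LinearMap.smul_apply, LinearMap.id_apply, smul_smul]
  rw [eq_comm, ← sub_eq_zero, ← sub_smul,
    show B.D * B.E - B.E * B.E = B.E * (B.D - B.E) by ring]
  refine B.smul_qAmb_eq_zero ht B.E_idem ?_ hw
  simp only [blen, qq]
  push_cast
  have : ((p : ℤ) ^ B.jq) * (2 * b * H) ≤ (p : ℤ) ^ B.jq * K :=
    mul_le_mul_of_nonneg_left (by exact_mod_cast hK) (by positivity)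
  linarith

/-- Multiplication by `E` as an endomorphism of the levels of the `E`-part. -/
lemma dlC_levelEnd (H : ℕ) : LevelEnd (B.dC H) (B.pC H) (B.gC H) (B.D • LinearMap.id) where
  comm := LinearMap.ext fun v => by simp
  deg := fun r => by
    rintro _ ⟨v, hv, rfl⟩
    exact Submodule.smul_mem _ B.D hv
  level := fun t => by
    rintro _ ⟨v, hv, rfl⟩
    exact Submodule.smul_mem _ B.D hv

lemma pC_stable (H : ℕ) : IsStable (B.dC H) (B.pC H) := by
  rintro r _ ⟨v, hv, rfl⟩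
  exact B.degAmb_stable H r (Submodule.mem_map_of_mem (show (v : B.Amb H) ∈ B.degAmb H r from hv))

lemma gC_stable (H : ℕ) (t : ℤ) : (B.gC H t).map (B.dC H) ≤ B.gC H t := by
  rintro _ ⟨v, hv, rfl⟩
  exact B.eAmb_stable H t (Submodule.mem_map_of_mem (show (v : B.Amb H) ∈ B.eAmb H t from hv))

/-- The `E`-block, inside the chains modulo the level `H`. -/
noncomputable def eBlockEquiv (H : ℕ) (t r : ℤ) :
    winH (B.dC H) (B.pC H) (B.gC H) t (t + 1) r ≃ₗ[B.L]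
      winH (B.dAmb H) (B.degAmb H) (B.eAmb H) t (t + 1) r :=
  hequiv (B.eAmb H (-(H : ℤ))).subtype (δ' := B.dAmb H)
    (P := lvl (B.pC H) (B.gC H) t) (Q := lvl (B.pC H) (B.gC H) (t + 1))
    (P' := lvl (B.degAmb H) (B.eAmb H) t) (Q' := lvl (B.degAmb H) (B.eAmb H) (t + 1))
    (bbLvl_stable (B.gC_stable H) (B.pC_stable H) t)
    (bbLvl_stable (B.eAmb_stable H) (B.degAmb_stable H) (t + 1))
    (fun _ _ hv => hv) (fun _ _ hv => hv) (fun _ _ _ => rfl)
    (fun _ v hv => Submodule.mem_sup_left ⟨⟨v, B.eAmb_le_bot hv.1⟩, hv, rfl⟩)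
    (fun _ _ _ hv' => hv') r

lemma mem_lam_deg {H : ℕ} {t r : ℤ} {v : B.Amb H} (h1 : v ∈ B.qAmb H t)
    (h2 : v ∈ B.degAmb H r) (ht : t ≤ H) :
    ∃ w ∈ lvl (phiDeg B.L B.L d) B.LamF ((B.blen : ℤ) * t) r, (B.Lam H).mkQ w = v := by
  obtain ⟨w₁, hw₁, rfl⟩ := h1
  obtain ⟨w₂, hw₂, he⟩ := h2
  refine ⟨w₂, ⟨?_, hw₂⟩, he⟩
  rw [Submodule.mkQ_apply, Submodule.mkQ_apply, Submodule.Quotient.eq] at he
  have := (B.Lam t).add_mem (B.Lam_anti ht he) hw₁
  rw [sub_add_cancel] at this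
  exact this

/-- The block of levels over `L`, inside the chains modulo the level `H`. -/
noncomputable def lBlockEquiv (H : ℕ) (t r : ℤ) (ht : t + 1 ≤ H) :
    winH (phiD B.mulX) (phiDeg B.L B.L d) B.LamF ((B.blen : ℤ) * t) ((B.blen : ℤ) * (t + 1)) r
      ≃ₗ[B.L] winH (B.dAmb H) (B.degAmb H) (B.qAmb H) t (t + 1) r :=
  hequiv (B.Lam H).mkQ (δ' := B.dAmb H)
    (P := lvl (phiDeg B.L B.L d) B.LamF ((B.blen : ℤ) * t))
    (Q := lvl (phiDeg B.L B.L d) B.LamF ((B.blen : ℤ) * (t + 1)))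
    (P' := lvl (B.degAmb H) (B.qAmb H) t) (Q' := lvl (B.degAmb H) (B.qAmb H) (t + 1))
    (fun r => bbLvl_stable (fun u => phiSub_stable B.famStable _ u) (phiDeg_stable _) _ r)
    (bbLvl_stable (B.qAmb_stable H) (B.degAmb_stable H) (t + 1))
    (fun _ _ hv => ⟨Submodule.mem_map_of_mem hv.1, Submodule.mem_map_of_mem hv.2⟩)
    (fun _ _ hv => ⟨Submodule.mem_map_of_mem hv.1, Submodule.mem_map_of_mem hv.2⟩)
    (fun _ _ _ => rfl)
    (fun r v hv => Submodule.mem_sup_left (by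
      obtain ⟨w, hw, rfl⟩ := B.mem_lam_deg hv.1 hv.2 (by omega)
      exact Submodule.mem_map_of_mem hw))
    (fun r v hv hv' => by
      obtain ⟨w, hw, he⟩ := B.mem_lam_deg hv'.1 hv'.2 ht
      refine ⟨?_, hv.2⟩
      rw [Submodule.mkQ_apply, Submodule.mkQ_apply, Submodule.Quotient.eq] at he
      have := (B.Lam (t + 1)).sub_mem hw.1 (B.Lam_anti ht he)
      rw [sub_sub_cancel] at this
      exact this) r

/-- The inclusion of the `E`-block into the block of levels. -/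
noncomputable def blockInc (H : ℕ) (t r : ℤ) (ht : -(H : ℤ) ≤ t) :
    winH (B.dAmb H) (B.degAmb H) (B.eAmb H) t (t + 1) r →ₗ[B.L]
      winH (B.dAmb H) (B.degAmb H) (B.qAmb H) t (t + 1) r :=
  hmap LinearMap.id (δ := B.dAmb H) (δ' := B.dAmb H)
    (P := lvl (B.degAmb H) (B.eAmb H) t) (Q := lvl (B.degAmb H) (B.eAmb H) (t + 1))
    (P' := lvl (B.degAmb H) (B.qAmb H) t) (Q' := lvl (B.degAmb H) (B.qAmb H) (t + 1)) (fun _ _ hv => ⟨B.eAmb_le_qAmb ht hv.1, hv.2⟩)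
    (fun _ _ hv => ⟨B.eAmb_le_qAmb (by omega) hv.1, hv.2⟩) (fun _ _ _ => rfl) r

/-- Multiplication by `E` from the block of levels to the `E`-block. -/
noncomputable def blockMul (H : ℕ) (t r : ℤ) (ht : -(H : ℤ) ≤ t) :
    winH (B.dAmb H) (B.degAmb H) (B.qAmb H) t (t + 1) r →ₗ[B.L]
      winH (B.dAmb H) (B.degAmb H) (B.eAmb H) t (t + 1) r :=
  hmap (B.E • LinearMap.id) (δ := B.dAmb H) (δ' := B.dAmb H)
    (P := lvl (B.degAmb H) (B.qAmb H) t) (Q := lvl (B.degAmb H) (B.qAmb H) (t + 1))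
    (P' := lvl (B.degAmb H) (B.eAmb H) t) (Q' := lvl (B.degAmb H) (B.eAmb H) (t + 1))
    (fun _ v hv => ⟨⟨v, by rw [B.lamAmb_eq ht]; exact hv.1, rfl⟩, Submodule.smul_mem _ B.E hv.2⟩)
    (fun _ v hv => ⟨⟨v, by rw [B.lamAmb_eq (by omega)]; exact hv.1, rfl⟩,
      Submodule.smul_mem _ B.E hv.2⟩)
    (fun _ _ _ => by simp) r

lemma blockMul_blockInc (H : ℕ) (hK : 2 * b * H ≤ K) (t r : ℤ) (ht : -(H : ℤ) ≤ t)
    (v : winH (B.dAmb H) (B.degAmb H) (B.eAmb H) t (t + 1) r) :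
    B.blockMul H t r ht (B.blockInc H t r ht v) = B.D • v := by
  obtain ⟨z, rfl⟩ := hmk_surjective (B.dAmb H) (lvl (B.degAmb H) (B.eAmb H) t)
    (lvl (B.degAmb H) (B.eAmb H) (t + 1)) r v
  rw [← map_smul]
  exact congrArg (hmk (B.dAmb H) (lvl (B.degAmb H) (B.eAmb H) t)
    (lvl (B.degAmb H) (B.eAmb H) (t + 1)) r) (Subtype.ext (B.E_smul_eAmb hK ht z.2.1.1))

lemma blockInc_blockMul (H : ℕ) (t r : ℤ) (ht : -(H : ℤ) ≤ t)
    (v : winH (B.dAmb H) (B.degAmb H) (B.qAmb H) t (t + 1) r) :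
    B.blockInc H t r ht (B.blockMul H t r ht v) = B.E • v := by
  obtain ⟨z, rfl⟩ := hmk_surjective (B.dAmb H) (lvl (B.degAmb H) (B.qAmb H) t)
    (lvl (B.degAmb H) (B.qAmb H) (t + 1)) r v
  rw [← map_smul]
  rfl

/-- The almost calculus of a block: from the ranks of `E` on the block of levels to the ranks of
`D` on the `E`-block. -/
theorem block_calc (H : ℕ) (hK : 2 * b * H ≤ K) (t r : ℤ) (ht : -(H : ℤ) ≤ t) (ht' : t < H)
    (hX : Module.length B.L (winH (B.dC H) (B.pC H) (B.gC H) t (t + 1) r) ≠ ⊤)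
    (hY : Module.length B.L (winH (phiD B.mulX) (phiDeg B.L B.L d) B.LamF
      ((B.blen : ℤ) * t) ((B.blen : ℤ) * (t + 1)) r) ≠ ⊤) :
    let D' : Module.End B.L (winH (B.dC H) (B.pC H) (B.gC H) t (t + 1) r) := B.D • LinearMap.id
    let E' := B.winMul B.E ((B.blen : ℤ) * t) ((B.blen : ℤ) * (t + 1)) r
    (∀ η J : ℕ, rkD E' 1 ≤ rkD E' (J + 2) + η → rkD D' 2 ≤ rkD D' (J + 2) + η) ∧
      ∀ a, rkD D' (a + 1) ≤ rkD E' a ∧ rkD E' (a + 1) ≤ rkD D' a := by
  intro D' E'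
  obtain ⟨_, _⟩ := isFiniteLength_iff_isNoetherian_isArtinian.1 (Module.length_ne_top_iff.1 hX)
  obtain ⟨_, _⟩ := isFiniteLength_iff_isNoetherian_isArtinian.1 (Module.length_ne_top_iff.1 hY)
  have hE : E' = B.E • LinearMap.id := LevelEnd.winMap_smul_id B.E _ _ _ _
  rw [hE]
  exact factor_calc (B.eBlockEquiv H t r) (B.lBlockEquiv H t r (by omega))
    (B.blockInc H t r ht) (B.blockMul H t r ht) B.D B.E
    (B.blockMul_blockInc H hK t r ht) (B.blockInc_blockMul H t r ht)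

end Band

end Vale.Agent.P202
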