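import Vale.Agent.P202.BandEval

/-!
The forms at the level `q`, and the action `χ` of the stage on the band ring modulo the annihilator
of `E`.
-/

universe u

namespace Vale.Agent.P202

open IsLocalRing MvPolynomial

section forms

variable {p : ℕ} [Fact p.Prime] {k : Type u} [Field k] [CharP k p] [PerfectRing k p] {A : Type u}
  [CommRing A] [Algebra (WittVector p k) A] {d : ℕ} {x : Fin d → A} {b : ℕ} {G : ℕ → Ideal A}
  (CI : CIData p k A x b G)

lemma band_rootPoly_hom (j : ℕ) {N : ℕ} {P : MvPolynomial (Vr d CI.n) k}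
    (h : IsWeightedHomogeneous CI.wt P N) : IsWeightedHomogeneous CI.wt (rootPoly p j P) N :=
  band_isWeightedHomogeneous_map _ h

/-- The forms at the level `q` are homogeneous. -/
lemma band_forms_hom (j : ℕ) {e : ℕ} (he : 0 < e) (v : Hv CI.n) :
    IsWeightedHomogeneous CI.wt (expand e (rootPoly p j (CI.F v)))
      (e * CI.deg v * CI.wt (hVar v)) := by
  rw [mul_assoc]
  exact band_isWeightedHomogeneous_expand (band_rootPoly_hom CI j (CI.f_init v).1) he.ne'

/-- The forms at the level `q` have Koszul relations. -/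
lemma band_forms_koszul (j : ℕ) {e : ℕ} (he : 0 < e) :
    BandKoszul CI.wt (fun v => e * CI.deg v * CI.wt (hVar v))
      (fun v => expand e (rootPoly p j (CI.F v))) := by
  refine (goalMonicFree k d CI.n CI.wt CI.wt_pos (fun v => e * CI.deg v) _
    (band_forms_hom CI j he) fun v => ?_).2
  let ψ : MvPolynomial (Vr d CI.n) k →+* MvPolynomial (Vr d CI.n) k :=
    (expand e).toRingHom.comp (map ((iterateFrobeniusEquiv k p j).symm : k →+* k))
  have h := Ideal.mem_map_of_mem ψ (CI.F_monic v)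
  have hle : (Ideal.span (Set.range fun l : Fin d => (X (some (Sum.inl l)) :
      MvPolynomial (Vr d CI.n) k))).map ψ ≤ Ideal.span (Set.range fun l : Fin d =>
        (X (some (Sum.inl l)) : MvPolynomial (Vr d CI.n) k)) := by
    rw [Ideal.map_span, Ideal.span_le]
    rintro _ ⟨_, ⟨l, rfl⟩, rfl⟩
    change expand e (map _ (X (some (Sum.inl l)))) ∈ Ideal.span _
    rw [map_X, expand_X, ← Nat.sub_add_cancel he, pow_succ]
    exact Ideal.mul_mem_left _ _ (Ideal.subset_span ⟨l, rfl⟩)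
  have h' := hle h
  simpa [ψ, rootPoly, pow_mul] using h'

/-- The targets of `E` and `D` are homogeneous. -/
lemma band_targets_hom {i j jq : ℕ} (hij : i ≤ j) (hjq : j ≤ jq) :
    IsWeightedHomogeneous CI.wt (expand (p ^ (jq - j)) (rootPoly p j CI.U₀ *
        rootPoly p j (inX CI.δ₀) ^ (p ^ (j - i) - 1))) (p ^ (jq - i) * CI.c) ∧
      IsWeightedHomogeneous CI.wt (expand (p ^ (jq - j))
        ((rootPoly p j (inX CI.δ₀) : MvPolynomial (Vr d CI.n) k) ^ p ^ (j - i)))
          (p ^ (jq - i) * CI.c) := by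
  have hp : 0 < p := (Fact.out : p.Prime).pos
  have hpp : p ^ (jq - j) * p ^ (j - i) = p ^ (jq - i) := by
    rw [← pow_add]; congr 1; omega
  have he : p ^ (jq - j) ≠ 0 := (pow_pos hp _).ne'
  constructor
  · have h := band_isWeightedHomogeneous_expand ((band_rootPoly_hom CI j CI.u_init.1).mul
      ((band_rootPoly_hom CI j CI.δ_init.1).pow (p ^ (j - i) - 1))) he
    have h1 : 1 ≤ p ^ (j - i) := pow_pos hp _
    have : p ^ (jq - j) * (CI.c + (p ^ (j - i) - 1) • CI.c) = p ^ (jq - i) * CI.c := by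
      rw [← hpp, smul_eq_mul, mul_assoc]
      congr 1
      conv_rhs => rw [← Nat.sub_add_cancel h1, add_mul, one_mul, add_comm]
    rwa [this] at h
  · have h := band_isWeightedHomogeneous_expand
      ((band_rootPoly_hom CI j CI.δ_init.1).pow (p ^ (j - i))) he
    rwa [smul_eq_mul, ← mul_assoc, hpp] at h

end forms

section chi

variable {p : ℕ} [Fact p.Prime] {R : Type u} [CommRing R] {k : Type u} [Field k] [CharP k p]
  [PerfectRing k p] {A : Type u} [CommRing A] [IsLocalRing A] [Algebra R A]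
  [Algebra (WittVector p k) A] {d : ℕ} {x : Fin d → A} {b : ℕ} {G : ℕ → Ideal A}
  (CI : CIData p k A x b G) {Ω : Subring (WittVector p k)} {κ : Subfield k}
  {hmem : ∀ w ∈ Ω, w.coeff 0 ∈ κ}

/-- The action of the stage modulo the annihilator of `E`. -/
lemma exists_band_chi (hν : NuFil p k A x b G) (As : Subalgebra R A)
    (hvarAs : ∀ v, CI.ev (MvPowerSeries.X v) ∈ As)
    (hΩAs : ∀ w ∈ Ω, algebraMap (WittVector p k) A w ∈ As) {q K : ℕ} (hq : 0 < q)
    (hB : BandBase p (bandRes Ω κ hmem))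
    (g' : Hv CI.n → MvPolynomial (Vr d CI.n) Ω) (E' : MvPolynomial (Vr d CI.n) Ω)
    (Ann : Ideal (LR p q g'))
    (hAnn : ∀ f, E' * f ∈ lIdeal p q g' ⊔ wIdeal Ω CI.wt (q * K) →
      Ideal.Quotient.mk (lIdeal p q g') f ∈ Ann)
    (hrange : ∀ a ∈ As,
      Ideal.Quotient.mk (G K) a ∈ ((Ideal.Quotient.mk (G K)).comp (bandEval CI Ω)).range)
    (hker : ∀ h, bandEval CI Ω h ∈ G K →
      E' * piHom q h ∈ lIdeal p q g' ⊔ wIdeal Ω CI.wt (q * K))
    (hfilm : ∀ (h : MvPolynomial (Fin d ⊕ Fin CI.n) Ω) (m : ℕ), bandEval CI Ω h ∈ G m →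
      ∃ y ∈ wIdeal Ω CI.wt (q * m),
        E' * (piHom q h - y) ∈ lIdeal p q g' ⊔ wIdeal Ω CI.wt (q * K))
    (hx : ∀ l, x l ∈ As) :
    ∃ χ : As →+* LR p q g' ⧸ Ann,
      (∀ (m : ℕ) (a : As), (a : A) ∈ G m →
        ∃ z ∈ lfil p CI.wt q g' ((q * m : ℕ) : ℤ).toNat, χ a = Ideal.Quotient.mk Ann z) ∧
      (∀ (m : ℕ) (a : As) (P : MvPolynomial (Vr d CI.n) κ),
        (∃ f, CI.ev f = (a : A) ∧ HasInit p CI.wt m f (P.map κ.subtype)) →
          ∃ z ∈ lfil p CI.wt q g' (((q * m : ℕ) : ℤ) + 1).toNat,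
            χ a = Ideal.Quotient.mk Ann
              (Ideal.Quotient.mk (lIdeal p q g') (bandLp hB (expand q P)) + z)) ∧
      ∀ l, χ ⟨x l, hx l⟩ = Ideal.Quotient.mk Ann
        (Ideal.Quotient.mk (lIdeal p q g') (X (some (Sum.inl l))) ^ q) := by
  let Ψ : MvPolynomial (Fin d ⊕ Fin CI.n) Ω →+* A ⧸ G K :=
    (Ideal.Quotient.mk (G K)).comp (bandEval CI Ω)
  let Φ : MvPolynomial (Fin d ⊕ Fin CI.n) Ω →+* LR p q g' ⧸ Ann :=
    (Ideal.Quotient.mk Ann).comp ((Ideal.Quotient.mk (lIdeal p q g')).comp (piHom q))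
  let φ : As →+* Ψ.range :=
    ((Ideal.Quotient.mk (G K)).comp As.val.toRingHom).codRestrict Ψ.range fun a => hrange a a.2
  have hΨ : Function.Surjective Ψ.rangeRestrict := Ψ.rangeRestrict_surjective
  have hkerΦ : RingHom.ker Ψ.rangeRestrict ≤ RingHom.ker Φ := by
    intro h hh
    rw [RingHom.ker_rangeRestrict] at hh
    exact Ideal.Quotient.eq_zero_iff_mem.2
      (hAnn _ (hker h (Ideal.Quotient.eq_zero_iff_mem.1 hh)))
  let χ : As →+* LR p q g' ⧸ Ann :=
    (RingHom.liftOfSurjective Ψ.rangeRestrict hΨ ⟨Φ, hkerΦ⟩).comp φ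
  have hχ : ∀ (a : As) (h : MvPolynomial (Fin d ⊕ Fin CI.n) Ω),
      (a : A) - bandEval CI Ω h ∈ G K → χ a = Φ h := by
    intro a h hah
    have : φ a = Ψ.rangeRestrict h := Subtype.ext (Ideal.Quotient.eq.2 hah)
    change RingHom.liftOfSurjective Ψ.rangeRestrict hΨ ⟨Φ, hkerΦ⟩ (φ a) = _
    rw [this]
    exact RingHom.liftOfRightInverse_comp_apply _ _ _ _ _
  have hχfil : ∀ (m : ℕ) (a : As), (a : A) ∈ G m →
      ∃ z ∈ lfil p CI.wt q g' ((q * m : ℕ) : ℤ).toNat, χ a = Ideal.Quotient.mk Ann z := by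
    intro m a ha
    rcases le_or_gt m K with hm | hm
    · obtain ⟨h, hh⟩ : ∃ h, (a : A) - bandEval CI Ω h ∈ G K := by
        obtain ⟨h, hh⟩ := hrange a a.2
        exact ⟨h, Ideal.Quotient.eq.1 hh.symm⟩
      obtain ⟨y, hy, hy'⟩ := hfilm h m (by
        have := sub_mem ha (hν.anti hm hh)
        simpa using this)
      refine ⟨Ideal.Quotient.mk (lIdeal p q g') y,
        (band_mk_mem_lfil_int g').2 (Ideal.mem_sup_right hy), ?_⟩
      rw [hχ a h hh]
      refine Ideal.Quotient.eq.2 ?_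
      rw [RingHom.comp_apply, ← map_sub]
      exact hAnn _ hy'
    · refine ⟨0, zero_mem _, ?_⟩
      rw [hχ a 0 (by simpa using hν.anti hm.le ha)]
      simp
  refine ⟨χ, hχfil, ?_, ?_⟩
  · rintro m a P ⟨f, hfa, hfi⟩
    have hP : IsWeightedHomogeneous CI.wt P m :=
      band_isWeightedHomogeneous_of_map κ.subtype.injective hfi.1
    obtain ⟨h, hh, hlp⟩ := exists_band_initPoly CI hB hq g' hP
    have hd : (a : A) - bandEval CI Ω h ∈ G (m + 1) := by
      refine (CI.strict _ _).2 ⟨f - ((map Ω.subtype h : MvPolynomial _ (WittVector p k)) :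
        MvPowerSeries (Fin d ⊕ Fin CI.n) (WittVector p k)), ?_,
        by rw [map_sub, hfa, band_ev_coe_map]⟩
      convert band_memW_sub hfi.2 hh.2 using 1
      ring
    let a₀ : As := ⟨bandEval CI Ω h, bandEval_mem CI Ω hΩAs hvarAs h⟩
    obtain ⟨z, hz, hzχ⟩ := hχfil (m + 1) (a - a₀) hd
    rw [map_sub, hχ a₀ h (by simp [a₀]), sub_eq_iff_eq_add] at hzχ
    refine ⟨z + (Ideal.Quotient.mk (lIdeal p q g') (piHom q h) -
      Ideal.Quotient.mk (lIdeal p q g') (bandLp hB (expand q P))), add_mem ?_ ?_, ?_⟩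
    · refine band_lfil_int_anti g' ?_ hz
      have : (1 : ℤ) ≤ (q : ℤ) := by exact_mod_cast hq
      push_cast
      linarith
    · rw [← map_sub]
      exact (band_mk_mem_lfil_int_succ g').2 hlp
    · rw [hzχ, RingHom.comp_apply, RingHom.comp_apply, ← map_add]
      congr 1
      ring
  · intro l
    rw [hχ _ (X (Sum.inl l)) (by rw [bandEval_X, CI.ev_X, sub_self]; exact zero_mem _)]
    simp [Φ, piHom]

end chi

end Vale.Agent.P202
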