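import Vale.Agent.P202.PhiDefs

/-!
Module B, layer 1: the homology modules `HMod` of subquotient complexes, their functoriality, the
long exact sequence, and additive invariants along it.
-/

universe u

namespace Vale.Agent.P202

open Submodule

variable {S : Type*} [CommRing S] {A : Type*} [AddCommGroup A] [Module S A]
  {A' : Type*} [AddCommGroup A'] [Module S A']

/-- The cycles of the subquotient complex `P/Q`. -/
abbrev hcyc (δ : A →ₗ[S] A) (P Q : ℤ → Submodule S A) (r : ℤ) : Submodule S A :=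
  P r ⊓ (Q (r + 1)).comap δ

/-- The boundaries of the subquotient complex `P/Q`. -/
abbrev hbd (δ : A →ₗ[S] A) (P Q : ℤ → Submodule S A) (r : ℤ) : Submodule S A :=
  (P (r - 1)).map δ ⊔ Q r

/-- The class of a cycle. -/
def hmk (δ : A →ₗ[S] A) (P Q : ℤ → Submodule S A) (r : ℤ) :
    ↥(hcyc δ P Q r) →ₗ[S] HMod δ P Q r :=
  ((hbd δ P Q r).comap (hcyc δ P Q r).subtype).mkQ

lemma hmk_surjective (δ : A →ₗ[S] A) (P Q : ℤ → Submodule S A) (r : ℤ) :
    Function.Surjective (hmk δ P Q r) := Submodule.mkQ_surjective _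

lemma hmk_eq_zero {δ : A →ₗ[S] A} {P Q : ℤ → Submodule S A} {r : ℤ} {z : ↥(hcyc δ P Q r)} :
    hmk δ P Q r z = 0 ↔ (z : A) ∈ hbd δ P Q r :=
  Submodule.Quotient.mk_eq_zero _

lemma hlen_eq_length (δ : A →ₗ[S] A) (P Q : ℤ → Submodule S A) (r : ℤ) :
    hlen S δ P Q r = Module.length S (HMod δ P Q r) := rfl

lemma hmod_subsingleton {δ : A →ₗ[S] A} {P Q : ℤ → Submodule S A} {r : ℤ}
    (h : hcyc δ P Q r ≤ hbd δ P Q r) : Subsingleton (HMod δ P Q r) := by
  refine subsingleton_of_forall_eq 0 fun x => ?_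
  obtain ⟨z, rfl⟩ := hmk_surjective δ P Q r x
  exact hmk_eq_zero.2 (h z.2)

/-- Functoriality for a map commuting with the differentials on `P`. -/
def hmap {δ : A →ₗ[S] A} {δ' : A' →ₗ[S] A'} (φ : A →ₗ[S] A') {P Q : ℤ → Submodule S A}
    {P' Q' : ℤ → Submodule S A'} (hP : ∀ r, ∀ x ∈ P r, φ x ∈ P' r)
    (hQ : ∀ r, ∀ x ∈ Q r, φ x ∈ Q' r) (hcomm : ∀ r, ∀ x ∈ P r, φ (δ x) = δ' (φ x)) (r : ℤ) :
    HMod δ P Q r →ₗ[S] HMod δ' P' Q' r :=
  Submodule.mapQ _ _
    (φ.restrict (p := hcyc δ P Q r) (q := hcyc δ' P' Q' r) fun x hx =>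
      ⟨hP r x hx.1, show δ' (φ x) ∈ Q' (r + 1) by
        rw [← hcomm r x hx.1]; exact hQ _ _ hx.2⟩)
    (by
      rintro ⟨x, hx⟩ hx'
      obtain ⟨_, ⟨y, hy, rfl⟩, q, hq, hyq⟩ := Submodule.mem_sup.1 hx'
      change φ x ∈ hbd δ' P' Q' r
      have hyq' : δ y + q = x := hyq
      rw [← hyq', map_add, hcomm (r - 1) y hy]
      exact Submodule.add_mem_sup (Submodule.mem_map_of_mem (hP _ y hy)) (hQ r q hq))

lemma hmap_hmk {δ : A →ₗ[S] A} {δ' : A' →ₗ[S] A'} (φ : A →ₗ[S] A') {P Q : ℤ → Submodule S A}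
    {P' Q' : ℤ → Submodule S A'} (hP : ∀ r, ∀ x ∈ P r, φ x ∈ P' r)
    (hQ : ∀ r, ∀ x ∈ Q r, φ x ∈ Q' r) (hcomm : ∀ r, ∀ x ∈ P r, φ (δ x) = δ' (φ x)) (r : ℤ)
    (z : ↥(hcyc δ P Q r)) (h' : φ z.1 ∈ hcyc δ' P' Q' r) :
    hmap φ hP hQ hcomm r (hmk δ P Q r z) = hmk δ' P' Q' r ⟨φ z.1, h'⟩ := rfl

/-- A map identifying the two subquotient complexes identifies the homology. -/
lemma hmap_bijective {δ : A →ₗ[S] A} {δ' : A' →ₗ[S] A'} (φ : A →ₗ[S] A')
    {P Q : ℤ → Submodule S A} {P' Q' : ℤ → Submodule S A'} (hδP : IsStable δ P)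
    (hQ' : IsStable δ' Q') (hP : ∀ r, ∀ x ∈ P r, φ x ∈ P' r)
    (hQ : ∀ r, ∀ x ∈ Q r, φ x ∈ Q' r) (hcomm : ∀ r, ∀ x ∈ P r, φ (δ x) = δ' (φ x))
    (hsur : ∀ r, P' r ≤ (P r).map φ ⊔ Q' r) (hker : ∀ r, ∀ x ∈ P r, φ x ∈ Q' r → x ∈ Q r)
    (r : ℤ) : Function.Bijective (hmap φ hP hQ hcomm r) := by
  constructor
  · rw [injective_iff_map_eq_zero]
    intro a ha
    obtain ⟨⟨x, hx⟩, rfl⟩ := hmk_surjective δ P Q r a
    rw [hmap_hmk φ hP hQ hcomm r ⟨x, hx⟩
      ⟨hP r x hx.1, show δ' (φ x) ∈ Q' (r + 1) by rw [← hcomm r x hx.1]; exact hQ _ _ hx.2⟩,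
      hmk_eq_zero] at ha
    rw [hmk_eq_zero]
    obtain ⟨_, ⟨y', hy', rfl⟩, q', hq', he⟩ := Submodule.mem_sup.1 ha
    obtain ⟨_, ⟨y, hy, rfl⟩, q, hq, rfl⟩ := Submodule.mem_sup.1 (hsur _ hy')
    have hdy : δ y ∈ P r := hδP.map_pred r (Submodule.mem_map_of_mem hy)
    have hmem : x - δ y ∈ Q r := by
      refine hker r _ ((P r).sub_mem hx.1 hdy) ?_
      have he' : δ' (φ y + q) + q' = φ x := he
      rw [map_add] at he'
      have hdq : δ' q ∈ Q' r := hQ'.map_pred r (Submodule.mem_map_of_mem hq)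
      have e : φ (x - δ y) = δ' q + q' := by
        rw [map_sub, hcomm (r - 1) y hy, ← he']; abel
      rw [e]
      exact (Q' r).add_mem hdq hq'
    change x ∈ hbd δ P Q r
    rw [← add_sub_cancel (δ y) x]
    exact Submodule.add_mem_sup (Submodule.mem_map_of_mem hy) hmem
  · intro b
    obtain ⟨⟨x', hx'⟩, rfl⟩ := hmk_surjective δ' P' Q' r b
    obtain ⟨_, ⟨x, hx, rfl⟩, q, hq, he⟩ := Submodule.mem_sup.1 (hsur r hx'.1)
    have hdx : δ' (φ x) ∈ Q' (r + 1) := by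
      have h1 : δ' x' ∈ Q' (r + 1) := hx'.2
      rw [← he, map_add] at h1
      have := (Q' (r + 1)).sub_mem h1 (hQ'.le_comap r hq)
      simpa using this
    have hxc : x ∈ hcyc δ P Q r := by
      refine ⟨hx, ?_⟩
      change δ x ∈ Q (r + 1)
      exact hker (r + 1) _ (hδP.le_comap r hx) (by rw [hcomm r x hx]; exact hdx)
    refine ⟨hmk δ P Q r ⟨x, hxc⟩, ?_⟩
    rw [hmap_hmk φ hP hQ hcomm r ⟨x, hxc⟩ ⟨hP r x hx, hdx⟩, ← sub_eq_zero, ← map_sub,
      hmk_eq_zero]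
    refine Submodule.mem_sup_right ?_
    change φ x - x' ∈ Q' r
    rw [← he, sub_add_cancel_left]
    exact (Q' r).neg_mem hq

/-- A map identifying the two subquotient complexes, as an equivalence on homology. -/
noncomputable def hequiv {δ : A →ₗ[S] A} {δ' : A' →ₗ[S] A'} (φ : A →ₗ[S] A')
    {P Q : ℤ → Submodule S A} {P' Q' : ℤ → Submodule S A'} (hδP : IsStable δ P)
    (hQ' : IsStable δ' Q') (hP : ∀ r, ∀ x ∈ P r, φ x ∈ P' r)
    (hQ : ∀ r, ∀ x ∈ Q r, φ x ∈ Q' r) (hcomm : ∀ r, ∀ x ∈ P r, φ (δ x) = δ' (φ x))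
    (hsur : ∀ r, P' r ≤ (P r).map φ ⊔ Q' r) (hker : ∀ r, ∀ x ∈ P r, φ x ∈ Q' r → x ∈ Q r)
    (r : ℤ) : HMod δ P Q r ≃ₗ[S] HMod δ' P' Q' r :=
  LinearEquiv.ofBijective _ (hmap_bijective φ hδP hQ' hP hQ hcomm hsur hker r)

section LES

variable {δ : A →ₗ[S] A} {O P Q : ℤ → Submodule S A}

/-- `H(P/Q) → H(O/Q)`. -/
def hinc (hPO : ∀ r, P r ≤ O r) (r : ℤ) : HMod δ P Q r →ₗ[S] HMod δ O Q r :=
  hmap (δ := δ) (δ' := δ) (P := P) (Q := Q) (P' := O) (Q' := Q) LinearMap.id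
    (fun r _ h => hPO r h) (fun _ _ h => h) (fun _ _ _ => rfl) r

/-- `H(O/Q) → H(O/P)`. -/
def hproj (hQP : ∀ r, Q r ≤ P r) (r : ℤ) : HMod δ O Q r →ₗ[S] HMod δ O P r :=
  hmap (δ := δ) (δ' := δ) (P := O) (Q := Q) (P' := O) (Q' := P) LinearMap.id
    (fun _ _ h => h) (fun r _ h => hQP r h) (fun _ _ _ => rfl) r

/-- The connecting map `H(O/P) → H(P/Q)`. -/
def hconn (hd : δ ∘ₗ δ = 0) (hP : IsStable δ P) (r : ℤ) :
    HMod δ O P r →ₗ[S] HMod δ P Q (r + 1) :=
  Submodule.mapQ _ _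
    (δ.restrict (p := hcyc δ O P r) (q := hcyc δ P Q (r + 1)) fun x hx =>
      ⟨hx.2, show δ (δ x) ∈ Q (r + 1 + 1) by
        rw [← LinearMap.comp_apply, hd]; exact zero_mem _⟩)
    (by
      rintro ⟨x, hx⟩ hx'
      obtain ⟨_, ⟨y, hy, rfl⟩, p, hp, he⟩ := Submodule.mem_sup.1 hx'
      change δ x ∈ hbd δ P Q (r + 1)
      have he' : δ y + p = x := he
      rw [← he', map_add, ← LinearMap.comp_apply, hd, LinearMap.zero_apply, zero_add]
      exact Submodule.mem_sup_left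
        (Submodule.mem_map_of_mem (by rwa [show r + 1 - 1 = r by ring])))

lemma exact_hinc_hproj (hQP : ∀ r, Q r ≤ P r) (hPO : ∀ r, P r ≤ O r) (hd : δ ∘ₗ δ = 0) (r : ℤ) :
    Function.Exact (hinc (δ := δ) (Q := Q) hPO r) (hproj (δ := δ) (O := O) hQP r) := by
  intro b
  obtain ⟨⟨x, hx⟩, rfl⟩ := hmk_surjective δ O Q r b
  constructor
  · intro hb
    have hb' : x ∈ hbd δ O P r := hmk_eq_zero.1 hb
    obtain ⟨_, ⟨y, hy, rfl⟩, p, hp, he⟩ := Submodule.mem_sup.1 hb'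
    have hpc : p ∈ hcyc δ P Q r := by
      refine ⟨hp, ?_⟩
      change δ p ∈ Q (r + 1)
      have h1 : δ x ∈ Q (r + 1) := hx.2
      rwa [← he, map_add, ← LinearMap.comp_apply, hd, LinearMap.zero_apply, zero_add] at h1
    refine ⟨hmk δ P Q r ⟨p, hpc⟩, ?_⟩
    refine (sub_eq_zero.1 ?_)
    rw [hinc, hmap_hmk _ _ _ _ r ⟨p, hpc⟩ ⟨hPO r hp, hpc.2⟩, ← map_sub, hmk_eq_zero]
    change LinearMap.id p - x ∈ hbd δ O Q r
    rw [LinearMap.id_apply, ← he, sub_add_cancel_right]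
    exact Submodule.mem_sup_left (Submodule.neg_mem _ (Submodule.mem_map_of_mem hy))
  · rintro ⟨a, ha⟩
    obtain ⟨⟨p, hp⟩, rfl⟩ := hmk_surjective δ P Q r a
    rw [← ha]
    exact hmk_eq_zero.2 (Submodule.mem_sup_right hp.1)

lemma exact_hproj_hconn (hQP : ∀ r, Q r ≤ P r) (hPO : ∀ r, P r ≤ O r) (hd : δ ∘ₗ δ = 0)
    (hP : IsStable δ P) (r : ℤ) :
    Function.Exact (hproj (δ := δ) (O := O) hQP r) (hconn (Q := Q) (O := O) hd hP r) := by
  intro b
  obtain ⟨⟨x, hx⟩, rfl⟩ := hmk_surjective δ O P r b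
  constructor
  · intro hb
    have hb' : δ x ∈ hbd δ P Q (r + 1) := hmk_eq_zero.1 hb
    obtain ⟨_, ⟨p, hp, rfl⟩, q, hq, he⟩ := Submodule.mem_sup.1 hb'
    rw [show r + 1 - 1 = r by ring] at hp
    have hxc : x - p ∈ hcyc δ O Q r := by
      refine ⟨(O r).sub_mem hx.1 (hPO r hp), ?_⟩
      change δ (x - p) ∈ Q (r + 1)
      rwa [map_sub, ← he, add_sub_cancel_left]
    refine ⟨hmk δ O Q r ⟨x - p, hxc⟩, sub_eq_zero.1 ?_⟩
    rw [hproj, hmap_hmk _ _ _ _ r ⟨x - p, hxc⟩ ⟨hxc.1, hQP _ hxc.2⟩, ← map_sub, hmk_eq_zero]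
    refine Submodule.mem_sup_right ?_
    change LinearMap.id (x - p) - x ∈ P r
    rw [LinearMap.id_apply, sub_sub_cancel_left]
    exact (P r).neg_mem hp
  · rintro ⟨a, ha⟩
    obtain ⟨⟨z, hz⟩, rfl⟩ := hmk_surjective δ O Q r a
    rw [← ha]
    exact hmk_eq_zero.2 (Submodule.mem_sup_right hz.2)

lemma exact_hconn_hinc (hPO : ∀ r, P r ≤ O r) (hd : δ ∘ₗ δ = 0) (hP : IsStable δ P)
    (hQP : ∀ r, Q r ≤ P r) (r : ℤ) :
    Function.Exact (hconn (Q := Q) (O := O) hd hP r) (hinc (δ := δ) (Q := Q) hPO (r + 1)) := by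
  intro b
  obtain ⟨⟨x, hx⟩, rfl⟩ := hmk_surjective δ P Q (r + 1) b
  constructor
  · intro hb
    have hb' : x ∈ hbd δ O Q (r + 1) := hmk_eq_zero.1 hb
    obtain ⟨_, ⟨y, hy, rfl⟩, q, hq, he⟩ := Submodule.mem_sup.1 hb'
    rw [show r + 1 - 1 = r by ring] at hy
    have hyc : y ∈ hcyc δ O P r := by
      refine ⟨hy, ?_⟩
      change δ y ∈ P (r + 1)
      have := (P (r + 1)).sub_mem hx.1 (hQP _ hq)
      rwa [← he, add_sub_cancel_right] at this
    refine ⟨hmk δ O P r ⟨y, hyc⟩, sub_eq_zero.1 ?_⟩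
    change hmk δ P Q (r + 1) _ - hmk δ P Q (r + 1) _ = 0
    rw [← map_sub, hmk_eq_zero]
    refine Submodule.mem_sup_right ?_
    change δ y - x ∈ Q (r + 1)
    rw [← he, sub_add_cancel_left]
    exact (Q _).neg_mem hq
  · rintro ⟨a, ha⟩
    obtain ⟨⟨y, hy⟩, rfl⟩ := hmk_surjective δ O P r a
    rw [← ha]
    refine hmk_eq_zero.2 (Submodule.mem_sup_left ?_)
    exact Submodule.mem_map_of_mem (by rw [show r + 1 - 1 = r by ring]; exact hy.1)

end LES

/-- An invariant of modules that is additive on short exact sequences, on a class of modules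
closed under submodules and quotients. -/
structure AddInv (S : Type*) [CommRing S] where
  ok : ∀ (N : Type u) [AddCommGroup N] [Module S N], Prop
  val : ∀ (N : Type u) [AddCommGroup N] [Module S N], ℤ
  ok_of_injective : ∀ (N M : Type u) [AddCommGroup N] [Module S N] [AddCommGroup M] [Module S M]
    (f : N →ₗ[S] M), Function.Injective f → ok M → ok N
  ok_of_surjective : ∀ (N M : Type u) [AddCommGroup N] [Module S N] [AddCommGroup M] [Module S M]
    (f : M →ₗ[S] N), Function.Surjective f → ok M → ok N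
  add : ∀ (N₁ N₂ N₃ : Type u) [AddCommGroup N₁] [Module S N₁] [AddCommGroup N₂] [Module S N₂]
    [AddCommGroup N₃] [Module S N₃] (f : N₁ →ₗ[S] N₂) (g : N₂ →ₗ[S] N₃), ok N₂ →
    Function.Injective f → Function.Exact f g → Function.Surjective g →
    val N₂ = val N₁ + val N₃

namespace AddInv

variable {S : Type*} [CommRing S] (η : AddInv.{u} S)

lemma val_ker_add_range {N M : Type u} [AddCommGroup N] [Module S N] [AddCommGroup M]
    [Module S M] (f : N →ₗ[S] M) (h : η.ok N) :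
    η.val N = η.val ↥(LinearMap.ker f) + η.val ↥(LinearMap.range f) :=
  η.add _ _ _ (LinearMap.ker f).subtype f.rangeRestrict h (Submodule.injective_subtype _)
    (LinearMap.exact_iff.2 (by rw [LinearMap.ker_rangeRestrict, Submodule.range_subtype]))
    f.surjective_rangeRestrict

lemma val_zero (N : Type u) [AddCommGroup N] [Module S N] [Subsingleton N] (h : η.ok N) :
    η.val N = 0 := by
  have h2 := η.add N N N LinearMap.id LinearMap.id h Function.injective_id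
    (fun x => ⟨fun _ => ⟨x, rfl⟩, fun _ => Subsingleton.elim _ _⟩) Function.surjective_id
  omega

lemma val_congr {N M : Type u} [AddCommGroup N] [Module S N] [AddCommGroup M] [Module S M]
    (e : N ≃ₗ[S] M) (h : η.ok N) : η.val N = η.val M := by
  have hz : η.ok ↥(⊥ : Submodule S N) :=
    η.ok_of_injective _ N (⊥ : Submodule S N).subtype (Submodule.injective_subtype _) h
  have h2 := η.add ↥(⊥ : Submodule S N) N M (⊥ : Submodule S N).subtype e.toLinearMap h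
    (Submodule.injective_subtype _)
    (fun x => by simp) e.surjective
  rw [η.val_zero _ hz] at h2
  omega

lemma ok_mid {N₁ N₂ : Type u} [AddCommGroup N₂] [Module S N₂] [AddCommGroup N₁] [Module S N₁]
    (f : N₁ →ₗ[S] N₂) (h : η.ok N₁) : η.ok ↥(LinearMap.range f) :=
  η.ok_of_surjective _ _ f.rangeRestrict f.surjective_rangeRestrict h

/-- The Euler characteristic is additive along a long exact sequence. -/
lemma euler_of_exact (a b : ℤ) (A B C : ℤ → Type u) [∀ r, AddCommGroup (A r)]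
    [∀ r, Module S (A r)] [∀ r, AddCommGroup (B r)] [∀ r, Module S (B r)]
    [∀ r, AddCommGroup (C r)] [∀ r, Module S (C r)]
    (f : ∀ r, A r →ₗ[S] B r) (g : ∀ r, B r →ₗ[S] C r) (c : ∀ r, C r →ₗ[S] A (r + 1))
    (hfg : ∀ r, Function.Exact (f r) (g r)) (hgc : ∀ r, Function.Exact (g r) (c r))
    (hcf : ∀ r, Function.Exact (c r) (f (r + 1)))
    (hA : ∀ r, η.ok (A r)) (hB : ∀ r, η.ok (B r)) (hC : ∀ r, η.ok (C r))
    (hab : a ≤ b) (hlo : Subsingleton (C (a - 1))) (hhi : Subsingleton (A (b + 1))) :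
    ∑ r ∈ Finset.Icc a b, ((Int.negOnePow r : ℤˣ) : ℤ) * η.val (B r) =
      (∑ r ∈ Finset.Icc a b, ((Int.negOnePow r : ℤˣ) : ℤ) * η.val (A r)) +
      ∑ r ∈ Finset.Icc a b, ((Int.negOnePow r : ℤˣ) : ℤ) * η.val (C r) := by
  let i : ℤ → ℤ := fun r => η.val ↥(LinearMap.range (f r))
  let j : ℤ → ℤ := fun r => η.val ↥(LinearMap.range (g r))
  let k : ℤ → ℤ := fun r => η.val ↥(LinearMap.range (c r))
  have hBr : ∀ r, η.val (B r) = i r + j r := fun r => by
    rw [η.val_ker_add_range (g r) (hB r)]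
    exact congrArg (· + _) (η.val_congr (LinearEquiv.ofEq _ _ (LinearMap.exact_iff.1 (hfg r)))
      (η.ok_of_injective _ _ (LinearMap.ker (g r)).subtype (Submodule.injective_subtype _) (hB r)))
  have hCr : ∀ r, η.val (C r) = j r + k r := fun r => by
    rw [η.val_ker_add_range (c r) (hC r)]
    exact congrArg (· + _) (η.val_congr (LinearEquiv.ofEq _ _ (LinearMap.exact_iff.1 (hgc r)))
      (η.ok_of_injective _ _ (LinearMap.ker (c r)).subtype (Submodule.injective_subtype _) (hC r)))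
  have hAr : ∀ r, η.val (A (r + 1)) = k r + i (r + 1) := fun r => by
    rw [η.val_ker_add_range (f (r + 1)) (hA _)]
    exact congrArg (· + _) (η.val_congr (LinearEquiv.ofEq _ _ (LinearMap.exact_iff.1 (hcf r)))
      (η.ok_of_injective _ _ (LinearMap.ker (f (r + 1))).subtype (Submodule.injective_subtype _)
        (hA _)))
  have hklo : k (a - 1) = 0 := by
    have : Subsingleton ↥(LinearMap.range (c (a - 1))) := by
      refine subsingleton_of_forall_eq 0 fun x => ?_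
      obtain ⟨y, hy⟩ := x.2
      apply Subtype.ext
      rw [← hy, Subsingleton.elim y 0, map_zero]
      rfl
    exact η.val_zero _ (η.ok_of_injective _ _ (LinearMap.range (c (a - 1))).subtype
      (Submodule.injective_subtype _) (hA _))
  have hkhi : k b = 0 := by
    have : Subsingleton ↥(LinearMap.range (c b)) :=
      ⟨fun x y => Subtype.ext (@Subsingleton.elim _ hhi x.1 y.1)⟩
    exact η.val_zero _ (η.ok_of_injective _ _ (LinearMap.range (c b)).subtype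
      (Submodule.injective_subtype _) (hA _))
  have hA' : ∀ r, η.val (A r) = k (r - 1) + i r := by
    intro r
    have := hAr (r - 1)
    rwa [sub_add_cancel] at this
  have key : ∀ n : ℕ, ∑ r ∈ Finset.Icc a (a + n),
      ((Int.negOnePow r : ℤˣ) : ℤ) * (k (r - 1) + k r) =
      ((Int.negOnePow a : ℤˣ) : ℤ) * k (a - 1) +
        ((Int.negOnePow (a + n) : ℤˣ) : ℤ) * k (a + n) := by
    intro n
    induction n with
    | zero => simp [mul_add]
    | succ n ih =>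
      rw [show (a + (n + 1 : ℕ) : ℤ) = a + n + 1 by push_cast; ring,
        ← Finset.insert_Icc_right_eq_Icc_add_one (by omega), Finset.sum_insert (by simp), ih,
        add_sub_cancel_right, Int.negOnePow_succ]
      simp only [Units.val_neg]
      ring
  obtain ⟨n, rfl⟩ : ∃ n : ℕ, b = a + n := ⟨(b - a).toNat, by omega⟩
  have h0 := key n
  rw [hklo, hkhi, mul_zero, mul_zero, add_zero] at h0
  rw [← Finset.sum_add_distrib, ← sub_eq_zero, ← Finset.sum_sub_distrib, ← neg_eq_zero,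
    ← Finset.sum_neg_distrib, ← h0]
  refine Finset.sum_congr rfl fun r _ => ?_
  rw [hBr, hA', hCr]
  ring

end AddInv

end Vale.Agent.P202
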