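import Vale.Agent.P202.Functor

/-! The twisted total complexes `DT` and the effect of one elementary change of the twist. -/

universe u

namespace Vale.Agent.P202

open TensorProduct

/-- A filtered complex of `R`-modules whose steps are killed by `I`. -/
structure FiltSys {R : Type*} [CommRing R] {A : Type*} [AddCommGroup A] [Module R A] (I : Ideal R)
    (d : ℕ) (δ : A →ₗ[R] A) (P Gt : ℤ → Submodule R A) : Prop where
  sq0 : δ ∘ₗ δ = 0
  degree : ∀ i, (P i).map δ ≤ P (i + 1)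
  level : ∀ j, (Gt j).map δ ≤ Gt j
  anti : Antitone Gt
  kill : ∀ j, ∀ a ∈ I, ∀ v ∈ Gt j, a • v ∈ Gt (j + 1)
  bound : ∀ i : ℤ, i < -(d : ℤ) ∨ (d : ℤ) ≤ i → P i = ⊥

section

variable {R S : Type*} [CommRing R] [CommRing S] {B : Type*} [AddCommGroup B] [Module R B]
  [Module S B] [SMulCommClass R S B] {A : Type*} [AddCommGroup A] [Module R A] {d : ℕ}

variable (S B) in
/-- The part of the total differential coming from `δ`. -/
noncomputable def dlt (d : ℕ) (δ : A →ₗ[R] A) :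
    (Finset (Fin d) → B ⊗[R] A) →ₗ[S] (Finset (Fin d) → B ⊗[R] A) :=
  LinearMap.pi fun s => ((-1 : ℤ) ^ s.card) • (lT S B δ ∘ₗ LinearMap.proj s)

@[simp] lemma dlt_apply (δ : A →ₗ[R] A) (f : Finset (Fin d) → B ⊗[R] A) (s : Finset (Fin d)) :
    dlt S B d δ f s = ((-1 : ℤ) ^ s.card) • lT S B δ (f s) := rfl

variable (B) in
/-- The total differential. -/
noncomputable def dT (y : Fin d → S) (δ : A →ₗ[R] A) :
    (Finset (Fin d) → B ⊗[R] A) →ₗ[S] (Finset (Fin d) → B ⊗[R] A) :=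
  kd y (B ⊗[R] A) + dlt S B d δ

lemma dT_apply (y : Fin d → S) (δ : A →ₗ[R] A) (f : Finset (Fin d) → B ⊗[R] A)
    (s : Finset (Fin d)) :
    dT B y δ f s = kd y (B ⊗[R] A) f s + ((-1 : ℤ) ^ s.card) • lT S B δ (f s) := rfl

lemma kd_dlt (y : Fin d → S) (δ : A →ₗ[R] A) (f : Finset (Fin d) → B ⊗[R] A) :
    kd y (B ⊗[R] A) (dlt S B d δ f) = -dlt S B d δ (kd y (B ⊗[R] A) f) := by
  funext s
  simp only [kd_apply, dlt_apply, Pi.neg_apply, map_sum, Finset.smul_sum, ← Finset.sum_neg_distrib]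
  refine Finset.sum_congr rfl fun l hl => ?_
  rw [Finset.card_insert_of_notMem (by simpa using hl), map_zsmul, map_smul, pow_succ,
    smul_comm ((-1 : ℤ) ^ s.card) (ksign l s), smul_comm (y l) ((-1 : ℤ) ^ s.card * -1)]
  simp

lemma dT_dT (y : Fin d → S) (δ : A →ₗ[R] A) (h : δ ∘ₗ δ = 0) :
    dT B y δ ∘ₗ dT B y δ = 0 := by
  refine LinearMap.ext fun f => ?_
  have h1 : kd y (B ⊗[R] A) (kd y (B ⊗[R] A) f) = 0 := LinearMap.congr_fun (kd_kd y) f
  have h2 : dlt S B d δ (dlt S B d δ f) = 0 := by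
    funext s
    simp [map_zsmul, lT_comp_apply, h, lT_zero]
  simp only [dT, LinearMap.comp_apply, LinearMap.add_apply, map_add, LinearMap.zero_apply, h1, h2,
    kd_dlt]
  abel

/-- Functions with values in a given family of submodules indexed by the cardinality. -/
def cardPi {M : Type*} [AddCommGroup M] [Module S M] (d : ℕ) (N : ℕ → Submodule S M) :
    Submodule S (Finset (Fin d) → M) :=
  Submodule.pi Set.univ fun s => N s.card

@[simp] lemma mem_cardPi {M : Type*} [AddCommGroup M] [Module S M] {N : ℕ → Submodule S M}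
    {f : Finset (Fin d) → M} : f ∈ cardPi d N ↔ ∀ s, f s ∈ N s.card := by
  simp [cardPi]

variable (B) in
/-- The twisted total complex in degree `r`. -/
noncomputable def DT (y : Fin d → S) (P Gt : ℤ → Submodule R A) (τ : ℕ → ℤ) (r : ℤ) :
    Submodule S (Finset (Fin d) → B ⊗[R] A) :=
  cardPi d (fun l => gbar S B (Gt (τ l) ⊓ P (r + l))) ⊓
    (cardPi d (fun l => gbar S B (Gt (τ l)))).comap (kd y (B ⊗[R] A))

lemma mem_DT {y : Fin d → S} {P Gt : ℤ → Submodule R A} {τ : ℕ → ℤ} {r : ℤ}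
    {f : Finset (Fin d) → B ⊗[R] A} :
    f ∈ DT B y P Gt τ r ↔ (∀ s, f s ∈ gbar S B (Gt (τ s.card) ⊓ P (r + s.card))) ∧
      ∀ s, kd y (B ⊗[R] A) f s ∈ gbar S B (Gt (τ s.card)) := by
  simp [DT]

lemma lT_mem_gbar {A' : Type*} [AddCommGroup A'] [Module R A'] {g : A →ₗ[R] A'}
    {N : Submodule R A} {N' : Submodule R A'} (h : N.map g ≤ N') {x : B ⊗[R] A}
    (hx : x ∈ gbar S B N) : lT S B g x ∈ gbar S B N' :=
  gbar_mono h (by rw [gbar_map]; exact Submodule.mem_map_of_mem hx)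

lemma kd_mem_of_comp {M : Type*} [AddCommGroup M] [Module S M] (y : Fin d → S) (N : Submodule S M)
    (f : Finset (Fin d) → M) (s : Finset (Fin d))
    (h : ∀ l, l ∉ s → f (insert l s) ∈ N) : kd y M f s ∈ N := by
  rw [kd_apply]
  exact Submodule.sum_mem _ fun l hl =>
    zsmul_mem (N.smul_mem _ (h l (by simpa using hl))) _

lemma DT_stable [Module.Flat R B] {I : Ideal R} {δ : A →ₗ[R] A} {P Gt : ℤ → Submodule R A}
    (H : FiltSys I d δ P Gt) (y : Fin d → S) (τ : ℕ → ℤ) :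
    IsStable (dT B y δ) (DT B y P Gt τ) := by
  rintro r _ ⟨f, hf, rfl⟩
  rw [SetLike.mem_coe, mem_DT] at hf
  rw [mem_DT]
  refine ⟨fun s => ?_, fun s => ?_⟩
  · rw [dT_apply]
    refine Submodule.add_mem _ ?_ (zsmul_mem (lT_mem_gbar ?_ (hf.1 s)) _)
    · rw [gbar_inf]
      refine ⟨hf.2 s, ?_⟩
      refine kd_mem_of_comp y _ f s fun l hl => ?_
      have := gbar_mono (S := S) (B := B) inf_le_right (hf.1 (insert l s))
      rw [Finset.card_insert_of_notMem hl] at this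
      convert this using 2
      push_cast; ring_nf
    · refine (Submodule.map_inf_le _).trans (inf_le_inf (H.level _) ?_)
      convert H.degree (r + s.card) using 2
      ring
  · have : kd y (B ⊗[R] A) (dT B y δ f) = -dlt S B d δ (kd y (B ⊗[R] A) f) := by
      have h1 : kd y (B ⊗[R] A) (kd y (B ⊗[R] A) f) = 0 := LinearMap.congr_fun (kd_kd y) f
      simp [dT, h1, kd_dlt]
    rw [this, Pi.neg_apply, dlt_apply]
    exact Submodule.neg_mem _ (zsmul_mem (lT_mem_gbar (H.level _) (hf.2 s)) _)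

lemma DT_mono (y : Fin d → S) {P Gt : ℤ → Submodule R A} (hG : Antitone Gt) {τ τ' : ℕ → ℤ}
    (h : ∀ l, l ≤ d → τ' l ≤ τ l) (r : ℤ) : DT B y P Gt τ r ≤ DT B y P Gt τ' r := by
  intro f hf
  rw [mem_DT] at hf ⊢
  have hc : ∀ s : Finset (Fin d), s.card ≤ d := fun s =>
    (Finset.card_le_univ s).trans (by simp)
  exact ⟨fun s => gbar_mono (inf_le_inf_right _ (hG (h _ (hc s)))) (hf.1 s),
    fun s => gbar_mono (hG (h _ (hc s))) (hf.2 s)⟩

lemma hlen_neg (D : A →ₗ[R] A) (P Q : ℤ → Submodule R A) (r : ℤ) :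
    hlen R (-D) P Q r = hlen R D P Q r := by
  have h1 : ∀ N : Submodule R A, N.comap (-D) = N.comap D := fun N => by ext x; simp
  have h2 : ∀ N : Submodule R A, N.map (-D) = N.map D := fun N => by
    ext x
    constructor <;> rintro ⟨a, ha, rfl⟩ <;> exact ⟨-a, N.neg_mem ha, by simp⟩
  simp only [hlen, h1, h2]

lemma hlen_zsmul (D : A →ₗ[R] A) (P Q : ℤ → Submodule R A) (r : ℤ) (p : ℕ) :
    hlen R ((-1 : ℤ) ^ p • D) P Q r = hlen R D P Q r := by
  rcases Nat.even_or_odd p with hp | hp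
  · rw [hp.neg_one_pow, one_smul]
  · rw [hp.neg_one_pow, neg_one_smul, hlen_neg]

end

end Vale.Agent.P202
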