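import Vale.Agent.P202.InterfacesM10
import Vale.Agent.P202.InterfacesM7
import Vale.Agent.P202.Tot
import Vale.Agent.P202.PhiHMod

/-!
Interfaces for mixed characteristic: the rank system extracted from a band ring, and the inequality
drawn from it (sections 7 to 9 in the form of BLUEPRINT_M2).
-/

universe u

namespace Vale.Agent.P202

open IsLocalRing TensorProduct

section win

variable {R : Type u} [CommRing R] {A : Type u} [AddCommGroup A] [Module R A]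

/-- The levels inside degree `r`. -/
def lvl (P Gt : ℤ → Submodule R A) (j : ℤ) (r : ℤ) : Submodule R A := Gt j ⊓ P r

/-- The cohomology of the window `[a, c)` of levels. -/
abbrev winH (δ : A →ₗ[R] A) (P Gt : ℤ → Submodule R A) (a c : ℤ) (r : ℤ) : Type u :=
  HMod δ (lvl P Gt a) (lvl P Gt c) r

/-- A map commuting with `δ` and preserving degrees and levels. -/
structure LevelEnd (δ : A →ₗ[R] A) (P Gt : ℤ → Submodule R A) (g : A →ₗ[R] A) : Prop where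
  comm : δ ∘ₗ g = g ∘ₗ δ
  deg : ∀ i, (P i).map g ≤ P i
  level : ∀ j, (Gt j).map g ≤ Gt j

variable {δ g : A →ₗ[R] A} {P Gt : ℤ → Submodule R A}

lemma LevelEnd.mem (h : LevelEnd δ P Gt g) (j r : ℤ) : ∀ v ∈ lvl P Gt j r, g v ∈ lvl P Gt j r :=
  fun _ hv => ⟨h.level j (Submodule.mem_map_of_mem hv.1), h.deg r (Submodule.mem_map_of_mem hv.2)⟩

/-- The action of a level endomorphism on a window. -/
def LevelEnd.winMap (h : LevelEnd δ P Gt g) (a c r : ℤ) :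
    winH δ P Gt a c r →ₗ[R] winH δ P Gt a c r :=
  hmap g (h.mem a) (h.mem c) (fun _ v _ => (LinearMap.congr_fun h.comm v).symm) r

/-- The transition from the window `[a, c')` to `[a, c)` for `c ≤ c'`. -/
def winTr (δ : A →ₗ[R] A) {P Gt : ℤ → Submodule R A} (hG : Antitone Gt) (a : ℤ) {c c' : ℤ}
    (h : c ≤ c') (r : ℤ) : winH δ P Gt a c' r →ₗ[R] winH δ P Gt a c r :=
  hmap (δ := δ) (δ' := δ) (P := lvl P Gt a) (Q := lvl P Gt c') (P' := lvl P Gt a) (Q' := lvl P Gt c)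
    LinearMap.id (fun _ _ hv => hv) (fun r _ hv => (inf_le_inf_right (P r) (hG h) : _) hv)
    (fun _ _ _ => rfl) r

end win

/-- The window of expected degrees of the block `j`. -/
def InExpected (d : ℕ) (j r : ℤ) : Prop :=
  min (max (-j - 2) 0) ((d : ℤ) - 1) ≤ r ∧ r ≤ min (max (-j - 1) 0) ((d : ℤ) - 1)

/-- What the band ring yields at the levels `[-H, H]`: the complex of the `E`-part with the
endomorphism `Dl`, its block ranks, its ghost, and the comparison of `H^0` of `[0, T)` with free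
modules. `Z` is the unit of length, `η` bounds the small errors and `C` the error terms of order
`T ^ (d - 1)`. -/
structure RankSys {R S : Type u} [CommRing R] [IsLocalRing R] [CommRing S] [Algebra R S] {d : ℕ}
    (x : Fin d → R) (e : ℝ) (C H J Z η : ℕ) : Type (u + 1) where
  A : Type u
  [instGroup : AddCommGroup A]
  [instMod : Module R A]
  δ : A →ₗ[R] A
  P : ℤ → Submodule R A
  Gt : ℤ → Submodule R A
  filt : FiltSys (maximalIdeal R) d δ P Gt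
  bottom : ∀ j : ℤ, j ≤ -(H : ℤ) → Gt j = Gt (-(H : ℤ))
  top : Gt H = ⊥
  Dl : A →ₗ[R] A
  dl : LevelEnd δ P Gt Dl
  /-- the ghost: `Dl ^ (d + 1)` kills windows pushed down by `d N` levels -/
  ghost : ∀ (N : ℕ) (y : Fin d → S),
    (∀ l, algebraMap R S (x l) ^ N ∈ Ideal.span (Set.range y)) →
    ∀ (τ υ : ℕ → ℤ), (∀ l, l < d → τ (l + 1) ≤ τ l) → (∀ l, l < d → υ (l + 1) ≤ υ l) →
      (∀ l, l ≤ d → τ l ≤ υ l) → -(H : ℤ) + (d * N : ℕ) ≤ τ d → υ 0 ≤ H →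
      ∀ (r : ℤ), ∀ f ∈ DT S y P Gt τ r, dT S y δ f ∈ DT S y P Gt υ (r + 1) →
        kmap d (lT S S (Dl ^ (d + 1))) f ∈
          (DT S y P Gt (fun l => τ l - (d * N : ℕ)) (r - 1)).map (dT S y δ) ⊔
            DT S y P Gt (fun l => υ l - (d * N : ℕ)) r
  blk_finite : ∀ j r : ℤ, Module.length R (winH δ P Gt j (j + 1) r) ≠ ⊤
  blk_reg : ∀ j r : ℤ, -(H : ℤ) ≤ j → j < H → Reg (dl.winMap j (j + 1) r) 2 η J
  blk_out : ∀ j r : ℤ, -(H : ℤ) ≤ j → j < H → ¬ InExpected d j r →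
    rkD (dl.winMap j (j + 1) r) 2 ≤ η
  blk_euler : ∀ j : ℤ, -(d : ℤ) ≤ j → j ≤ -1 → -(H : ℤ) ≤ j → ∀ a, 2 ≤ a → a ≤ J →
    |((∑ r ∈ Finset.Icc (-(d : ℤ)) d, ((Int.negOnePow r : ℤˣ) : ℤ) *
        (rkD (dl.winMap j (j + 1) r) a : ℤ) : ℤ) : ℝ) -
      (if j = -1 then ((d - 1).factorial : ℝ) * e * Z else 0)| ≤ (η : ℝ)
  /-- the image of `H^0` of the window `[0, T)` in the free model -/
  V : ℕ → Type u
  [instVGroup : ∀ T, AddCommGroup (V T)]
  [instVMod : ∀ T, Module R (V T)]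
  toV : ∀ T : ℕ, winH δ P Gt 0 T 0 →ₗ[R] V T
  fromV : ∀ T : ℕ, V T →ₗ[R] winH δ P Gt 0 T 0
  DV : ∀ T, V T →ₗ[R] V T
  toV_comm : ∀ T : ℕ, DV T ∘ₗ toV T = toV T ∘ₗ dl.winMap 0 (T : ℤ) 0
  fromV_comm : ∀ T : ℕ, dl.winMap 0 (T : ℤ) 0 ∘ₗ fromV T = fromV T ∘ₗ DV T
  from_to : ∀ T : ℕ, fromV T ∘ₗ toV T = dl.winMap 0 (T : ℤ) 0
  to_from : ∀ T, toV T ∘ₗ fromV T = DV T
  trV : ∀ T T' : ℕ, T ≤ T' → (V T' →ₗ[R] V T)
  trV_toV : ∀ T T' (h : T ≤ T'),
    trV T T' h ∘ₗ toV T' = toV T ∘ₗ winTr δ filt.anti 0 (Int.ofNat_le.2 h) 0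
  V_finite : ∀ T, T ≤ H → Module.length R (V T) ≠ ⊤
  DV_ker : ∀ T, T ≤ H → ∀ a ≤ J, len R ↥(LinearMap.ker (DV T ^ a)) ≤ η
  n₀ : ℕ
  n₀_le : n₀ ≤ (d - 1).factorial * Z
  g : ∀ T, (Fin n₀ → R) →ₗ[R] V T
  g_nat : ∀ T T' (h : T ≤ T'), trV T T' h ∘ₗ g T' = g T
  g_kill : ∀ T, T ≤ H → ∀ v, (∀ t, v t ∈ maximalIdeal R ^ T) → g T v = 0
  g_ker : ∀ T, 0 < T → T ≤ H →
    sq R (LinearMap.ker (g T)) (Submodule.pi Set.univ fun _ : Fin n₀ => maximalIdeal R ^ T) ≤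
      ((C * Z * T ^ (d - 1) + η : ℕ) : ℕ∞)
  g_coker : ∀ T, 0 < T → T ≤ H →
    Module.length R (V T ⧸ LinearMap.range (g T)) ≤ ((C * Z * T ^ (d - 1) + η : ℕ) : ℕ∞)

attribute [instance] RankSys.instGroup RankSys.instMod RankSys.instVGroup RankSys.instVMod

/-- M10: the inequality follows from rank systems of arbitrarily good quality. -/
def GoalRankCore : Prop :=
  ∀ (R S : Type u) [CommRing R] [IsLocalRing R] [IsNoetherianRing R] [CommRing S] [IsLocalRing S]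
    [IsNoetherianRing S] [Algebra R S] [IsLocalHom (algebraMap R S)] [Module.Flat R S] (d : ℕ),
    0 < d → ndim R = d → ndim S = d → ∀ (x : Fin d → R), (∀ l, x l ∈ maximalIdeal R) →
    ∀ (y : Fin d → S), Par y → ∀ (e : ℝ), 0 ≤ e → ∀ C : ℕ,
      (∀ (H J : ℕ) (ε : ℝ), 0 < ε → ∃ Z η : ℕ, 0 < Z ∧ (η : ℝ) ≤ ε * Z ∧
        Nonempty (RankSys (S := S) x e C H J Z η)) →
      e ≤ (kchi y S : ℝ)

end Vale.Agent.P202
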