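import Vale.Agent.P202.PhiTorsion

/-!
Module B, layer 9d: the twists, and the asymptotics of the free cohomology over a block of levels.
-/

namespace Vale.Agent.P202

open Finset

/-- The polynomial `(t + 1) ⋯ (t + d)`. -/
noncomputable def risePoly (d : ℕ) : Polynomial ℝ :=
  ∏ i ∈ range d, (Polynomial.X + Polynomial.C ((i : ℝ) + 1))

lemma risePoly_eval (d : ℕ) (t : ℝ) :
    (risePoly d).eval t = ∏ i ∈ range d, (t + ((i : ℝ) + 1)) := by
  simp [risePoly, Polynomial.eval_prod]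

lemma risePoly_eval_zero (d : ℕ) : (risePoly d).eval 0 = (d.factorial : ℝ) := by
  rw [risePoly_eval, ← Finset.prod_range_add_one_eq_factorial]
  push_cast
  simp

lemma risePoly_eval_int {d : ℕ} {j : ℤ} (h1 : -(d : ℤ) ≤ j) (h2 : j ≤ -1) :
    (risePoly d).eval (j : ℝ) = 0 := by
  rw [risePoly_eval]
  refine Finset.prod_eq_zero (i := (-j - 1).toNat) (Finset.mem_range.2 (by omega)) ?_
  have : ((-j - 1).toNat : ℤ) = -j - 1 := by omega
  rw [show (((-j - 1).toNat : ℕ) : ℝ) = (((-j - 1).toNat : ℤ) : ℝ) by norm_cast, this]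
  push_cast
  ring

/-- The critical points of `(t + 1) ⋯ (t + d)`. -/
theorem exists_zeta (d : ℕ) (hd : 0 < d) :
    ∃ ζ : Fin (d - 1) → ℝ, (∀ l : Fin (d - 1), -((l : ℝ) + 2) < ζ l ∧ ζ l < -((l : ℝ) + 1)) ∧
      ∀ v, (Polynomial.derivative (risePoly d)).eval v = d * ∏ l, (v - ζ l) := by
  have hex : ∀ l : Fin (d - 1), ∃ z ∈ Set.Ioo (-((l : ℝ) + 2)) (-((l : ℝ) + 1)),
      (Polynomial.derivative (risePoly d)).eval z = 0 := by
    intro l
    obtain ⟨z, hz, hz'⟩ := exists_deriv_eq_zero (f := fun t => (risePoly d).eval t)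
      (show -((l : ℝ) + 2) < -((l : ℝ) + 1) by linarith) (risePoly d).continuous.continuousOn
      (by
        have e1 := risePoly_eval_int (d := d) (j := -((l : ℤ) + 2)) (by omega) (by omega)
        have e2 := risePoly_eval_int (d := d) (j := -((l : ℤ) + 1)) (by omega) (by omega)
        push_cast at e1 e2
        change (risePoly d).eval _ = (risePoly d).eval _
        rw [e1, e2])
    rw [Polynomial.deriv] at hz'
    exact ⟨z, hz, hz'⟩
  choose ζ hζ hζ' using hex
  refine ⟨ζ, fun l => ⟨(hζ l).1, (hζ l).2⟩, fun v => ?_⟩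
  have hinj : Function.Injective ζ := by
    intro a b hab
    by_contra hne
    rcases lt_or_gt_of_ne hne with h | h
    · have : ((a : ℕ) : ℝ) + 1 ≤ (b : ℕ) := by exact_mod_cast (Fin.lt_def.1 h)
      have := (hζ a).1; have := (hζ b).2; linarith
    · have : ((b : ℕ) : ℝ) + 1 ≤ (a : ℕ) := by exact_mod_cast (Fin.lt_def.1 h)
      have := (hζ a).2; have := (hζ b).1; linarith
  have hmon : (risePoly d).Monic :=
    Polynomial.monic_prod_of_monic _ _ fun i _ => Polynomial.monic_X_add_C _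
  have hdeg : (risePoly d).natDegree = d := by
    rw [risePoly, Polynomial.natDegree_prod_of_monic _ _ fun i _ => Polynomial.monic_X_add_C _,
      Finset.sum_congr rfl fun i _ => Polynomial.natDegree_X_add_C _]
    simp
  set R := ∏ l, (Polynomial.X - Polynomial.C (ζ l)) with hR
  have hRmon : R.Monic := Polynomial.monic_prod_of_monic _ _ fun i _ => Polynomial.monic_X_sub_C _
  have hRdeg : R.natDegree = d - 1 := by
    rw [hR, Polynomial.natDegree_prod_of_monic _ _ fun i _ => Polynomial.monic_X_sub_C _]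
    simp
  set f := Polynomial.derivative (risePoly d) - Polynomial.C (d : ℝ) * R with hf
  have hf0 : f = 0 := by
    refine Polynomial.eq_of_degree_sub_lt_of_eval_finset_eq (univ.image ζ)
      (f := f) (g := 0) ?_ ?_
    · rw [sub_zero, Finset.card_image_of_injective _ hinj, Finset.card_univ, Fintype.card_fin,
        Polynomial.degree_lt_iff_coeff_zero]
      intro j hj
      rw [hf, Polynomial.coeff_sub, Polynomial.coeff_derivative, Polynomial.coeff_C_mul]
      rcases eq_or_lt_of_le hj with h | h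
      · rw [← h, Nat.sub_add_cancel hd]
        have e1 : (risePoly d).coeff d = 1 := by
          have := hmon.coeff_natDegree
          rwa [hdeg] at this
        have e2 : R.coeff (d - 1) = 1 := by
          have := hRmon.coeff_natDegree
          rwa [hRdeg] at this
        rw [e1, e2, Nat.cast_sub hd]
        push_cast
        ring
      · rw [Polynomial.coeff_eq_zero_of_natDegree_lt (p := risePoly d) (by omega),
          Polynomial.coeff_eq_zero_of_natDegree_lt (p := R) (by omega)]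
        ring
    · intro z hz
      obtain ⟨l, -, rfl⟩ := Finset.mem_image.1 hz
      rw [hf, Polynomial.eval_sub, hζ' l, Polynomial.eval_mul, hR, Polynomial.eval_prod,
        Finset.prod_eq_zero (mem_univ l) (by simp)]
      simp
  rw [hf, sub_eq_zero] at hf0
  rw [hf0, Polynomial.eval_mul, Polynomial.eval_C, hR, Polynomial.eval_prod]
  simp

/-- Bounds for a polynomial and its increments on a bounded set. -/
lemma poly_taylor_bound (P : Polynomial ℝ) {M : ℝ} (hM : 0 ≤ M) :
    ∃ C : ℝ, 0 ≤ C ∧ ∀ v h : ℝ, |v| ≤ M → |h| ≤ M →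
      |P.eval v| ≤ C ∧ |(Polynomial.derivative P).eval v| ≤ C ∧
      |P.eval (v + h) - P.eval v| ≤ C * |h| ∧
      |P.eval (v + h) - P.eval v - h * (Polynomial.derivative P).eval v| ≤ C * h ^ 2 := by
  induction P using Polynomial.induction_on with
  | C a =>
    refine ⟨|a|, abs_nonneg a, fun v h _ _ => ?_⟩
    simp only [Polynomial.eval_C, Polynomial.derivative_C, Polynomial.eval_zero, sub_self, mul_zero,
      abs_zero]
    exact ⟨le_rfl, abs_nonneg _, by positivity, by positivity⟩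
  | add p q hp hq =>
    obtain ⟨C₁, h₁, hp⟩ := hp
    obtain ⟨C₂, h₂, hq⟩ := hq
    refine ⟨C₁ + C₂, add_nonneg h₁ h₂, fun v h hv hh => ?_⟩
    obtain ⟨a1, a2, a3, a4⟩ := hp v h hv hh
    obtain ⟨b1, b2, b3, b4⟩ := hq v h hv hh
    simp only [Polynomial.eval_add, Polynomial.derivative_add]
    refine ⟨(abs_add_le _ _).trans (add_le_add a1 b1), (abs_add_le _ _).trans (add_le_add a2 b2),
      ?_, ?_⟩
    · rw [add_mul]
      refine le_trans (le_of_eq ?_) ((abs_add_le _ _).trans (add_le_add a3 b3))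
      congr 1; ring
    · rw [add_mul]
      refine le_trans (le_of_eq ?_) ((abs_add_le _ _).trans (add_le_add a4 b4))
      congr 1; ring
  | monomial n a hp =>
    obtain ⟨C, hC, hp⟩ := hp
    refine ⟨(2 * M + 1) * C, by positivity, fun v h hv hh => ?_⟩
    rw [pow_succ, ← mul_assoc]
    set p := Polynomial.C a * Polynomial.X ^ n
    obtain ⟨a1, a2, a3, a4⟩ := hp v h hv hh
    have hvh : |v + h| ≤ 2 * M := (abs_add_le _ _).trans (by linarith)
    simp only [Polynomial.derivative_mul, Polynomial.derivative_X, mul_one, Polynomial.eval_add,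
      Polynomial.eval_mul, Polynomial.eval_X]
    refine ⟨?_, ?_, ?_, ?_⟩
    · rw [abs_mul]
      nlinarith [abs_nonneg (p.eval v), abs_nonneg v]
    · refine (abs_add_le _ _).trans ?_
      rw [abs_mul]
      nlinarith [abs_nonneg (p.eval v), abs_nonneg v,
        abs_nonneg ((Polynomial.derivative p).eval v)]
    · calc |p.eval (v + h) * (v + h) - p.eval v * v|
          = |(v + h) * (p.eval (v + h) - p.eval v) + h * p.eval v| := by congr 1; ring
        _ ≤ |v + h| * |p.eval (v + h) - p.eval v| + |h| * |p.eval v| := by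
          rw [← abs_mul, ← abs_mul]; exact abs_add_le _ _
        _ ≤ (2 * M) * (C * |h|) + |h| * C := by gcongr
        _ = _ := by ring
    · calc |p.eval (v + h) * (v + h) - p.eval v * v -
            h * ((Polynomial.derivative p).eval v * v + p.eval v)|
          = |(v + h) * (p.eval (v + h) - p.eval v - h * (Polynomial.derivative p).eval v) +
              h ^ 2 * (Polynomial.derivative p).eval v| := by congr 1; ring
        _ ≤ |v + h| * |p.eval (v + h) - p.eval v - h * (Polynomial.derivative p).eval v| +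
            |h ^ 2| * |(Polynomial.derivative p).eval v| := by
          rw [← abs_mul, ← abs_mul]; exact abs_add_le _ _
        _ ≤ (2 * M) * (C * h ^ 2) + h ^ 2 * C := by
          rw [abs_of_nonneg (sq_nonneg h)]; gcongr
        _ = _ := by ring

/-- Products of close bounded numbers are close. -/
lemma prod_close {ι : Type*} (s : Finset ι) (a b : ι → ℝ) {M ε : ℝ} (hM : 1 ≤ M)
    (ha : ∀ i ∈ s, |a i| ≤ M) (hb : ∀ i ∈ s, |b i| ≤ M) (hab : ∀ i ∈ s, |a i - b i| ≤ ε) :
    |∏ i ∈ s, a i - ∏ i ∈ s, b i| ≤ (s.card : ℝ) * ε * M ^ s.card := by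
  classical
  induction s using Finset.induction_on with
  | empty => simp
  | insert i s hi ih =>
    rw [Finset.prod_insert hi, Finset.prod_insert hi, Finset.card_insert_of_notMem hi]
    have h0 := ha i (Finset.mem_insert_self i s)
    have h2 := hab i (Finset.mem_insert_self i s)
    have hε : 0 ≤ ε := (abs_nonneg _).trans h2
    have h1 := ih (fun j hj => ha j (Finset.mem_insert_of_mem hj))
      (fun j hj => hb j (Finset.mem_insert_of_mem hj))
      (fun j hj => hab j (Finset.mem_insert_of_mem hj))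
    have h3 : |∏ j ∈ s, b j| ≤ M ^ s.card := by
      rw [Finset.abs_prod]
      exact (Finset.prod_le_prod (fun j _ => abs_nonneg _)
        fun j hj => hb j (Finset.mem_insert_of_mem hj)).trans (by simp)
    have hMn : M ^ s.card ≤ M ^ (s.card + 1) := pow_le_pow_right₀ hM (Nat.le_succ _)
    calc |a i * ∏ j ∈ s, a j - b i * ∏ j ∈ s, b j|
        = |a i * (∏ j ∈ s, a j - ∏ j ∈ s, b j) + (a i - b i) * ∏ j ∈ s, b j| := by congr 1; ring
      _ ≤ |a i| * |∏ j ∈ s, a j - ∏ j ∈ s, b j| + |a i - b i| * |∏ j ∈ s, b j| := by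
        rw [← abs_mul, ← abs_mul]; exact abs_add_le _ _
      _ ≤ M * ((s.card : ℝ) * ε * M ^ s.card) + ε * M ^ (s.card + 1) := by
        gcongr; exact h3.trans hMn
      _ = _ := by push_cast; ring

/-- The first element, at or after `c`, of the class of `g` modulo `D`. -/
def nextP (D : ℕ) (g c : ℤ) : ℤ := c + (g - c) % D

lemma nextP_bounds {D : ℕ} (hD : 0 < D) (g c : ℤ) : c ≤ nextP D g c ∧ nextP D g c < c + D := by
  have h1 := Int.emod_nonneg (g - c) (show (D : ℤ) ≠ 0 by omega)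
  have h2 := Int.emod_lt_of_pos (g - c) (show (0 : ℤ) < D by omega)
  unfold nextP
  omega

lemma nextP_step {D : ℕ} (hD : 0 < D) (g c : ℤ) :
    if (D : ℤ) ∣ g - c then nextP D g c = c ∧ nextP D g (c + 1) = c + D
    else nextP D g (c + 1) = nextP D g c := by
  have h1 := Int.emod_nonneg (g - c) (show (D : ℤ) ≠ 0 by omega)
  have h2 := Int.emod_lt_of_pos (g - c) (show (0 : ℤ) < D by omega)
  have h3 := Int.emod_add_ediv_mul (g - c) (D : ℤ)
  unfold nextP
  split_ifs with h
  · rw [Int.emod_eq_zero_of_dvd h] at h3 ⊢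
    refine ⟨by ring, ?_⟩
    have e : g - (c + 1) = (D : ℤ) - 1 + ((g - c) / D - 1) * D := by linear_combination -h3
    rw [e, Int.add_mul_emod_self_right, Int.emod_eq_of_lt (by omega) (by omega)]
    ring
  · have h0 : (g - c) % (D : ℤ) ≠ 0 := fun e => h (Int.dvd_of_emod_eq_zero e)
    have e : g - (c + 1) = (g - c) % (D : ℤ) - 1 + (g - c) / D * D := by linear_combination -h3
    rw [e, Int.add_mul_emod_self_right, Int.emod_eq_of_lt (by omega) (by omega)]
    ring

lemma sum_progression {D : ℕ} (hD : 0 < D) (g c₀ : ℤ) (F : ℤ → ℝ) (q : ℕ) :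
    ∑ i ∈ range q, (if (D : ℤ) ∣ g - (c₀ + i) then F (c₀ + i + D) - F (c₀ + i) else 0) =
      F (nextP D g (c₀ + q)) - F (nextP D g c₀) := by
  have e : ∀ i ∈ range q,
      (if (D : ℤ) ∣ g - (c₀ + i) then F (c₀ + i + D) - F (c₀ + i) else 0) =
        F (nextP D g (c₀ + ((i + 1 : ℕ) : ℤ))) - F (nextP D g (c₀ + (i : ℤ))) := by
    intro i _
    have h := nextP_step hD g (c₀ + i)
    rw [Nat.cast_add, Nat.cast_one, ← add_assoc]
    split_ifs at h ⊢ with hh
    · rw [h.1, h.2]
    · rw [h, sub_self]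
  rw [Finset.sum_congr rfl e,
    Finset.sum_range_sub (fun i => F (nextP D g (c₀ + (i : ℤ)))) q, Nat.cast_zero, add_zero]

/-- The rounded critical points. -/
noncomputable def zOf {n : ℕ} (D : ℕ) (ζ : Fin n → ℝ) (q : ℕ) (l : Fin n) : ℤ :=
  ⌊(q : ℝ) * ζ l / D⌋

lemma zOf_bounds {n D : ℕ} (hD : 0 < D) (ζ : Fin n → ℝ) (q : ℕ) (l : Fin n) :
    (D : ℝ) * zOf D ζ q l ≤ q * ζ l ∧ q * ζ l < D * zOf D ζ q l + D := by
  have h1 := Int.floor_le ((q : ℝ) * ζ l / D)
  have h2 := Int.lt_floor_add_one ((q : ℝ) * ζ l / D)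
  have hD' : (0 : ℝ) < D := by exact_mod_cast hD
  rw [le_div_iff₀ hD'] at h1
  rw [div_lt_iff₀ hD'] at h2
  unfold zOf
  exact ⟨by linarith, by linarith⟩

/-- The sum over a block of the products giving the free Euler characteristic. -/
theorem block_sum {d D : ℕ} (hd : 0 < d) (hD : 0 < D) (g : ℤ) (ζ : Fin (d - 1) → ℝ)
    (hζ : ∀ l : Fin (d - 1), -((l : ℝ) + 2) < ζ l ∧ ζ l < -((l : ℝ) + 1))
    (hder : ∀ v, (Polynomial.derivative (risePoly d)).eval v = d * ∏ l, (v - ζ l)) (K : ℕ) :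
    ∃ C : ℝ, ∀ q : ℕ, 0 < q → ∀ j : ℤ, -(K : ℤ) ≤ j → j ≤ K →
      |((∑ i ∈ range q, if (D : ℤ) ∣ g - ((q : ℤ) * j + i) then
          ∏ l, (((q : ℤ) * j + i - g) / D - zOf D ζ q l) else 0 : ℤ) : ℝ) -
        ((q : ℝ) / D) ^ d / d * ((risePoly d).eval ((j : ℝ) + 1) - (risePoly d).eval (j : ℝ))| ≤
      C * (q : ℝ) ^ (d - 1) := by
  set M : ℝ := (K : ℝ) + d + 2 + |(g : ℝ)| + D with hMdef
  have hMnn : 0 ≤ M := by positivity
  obtain ⟨C₀, hC₀, hT⟩ := poly_taylor_bound (risePoly d) hMnn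
  set M' : ℝ := 3 * M with hM'
  refine ⟨(d : ℝ) * M * M' ^ d + C₀ * D + 2 * C₀, fun q hq j hj1 hj2 => ?_⟩
  have hM1 : 1 ≤ M := by
    have : (0 : ℝ) ≤ (K : ℝ) + d + |(g : ℝ)| + D := by positivity
    linarith
  have hq0 : (0 : ℝ) < q := by exact_mod_cast hq
  have hq1 : (1 : ℝ) ≤ q := by exact_mod_cast hq
  have hD' : (0 : ℝ) < D := by exact_mod_cast hD
  have hD1 : (1 : ℝ) ≤ D := by exact_mod_cast hD
  have hd' : (1 : ℝ) ≤ d := by exact_mod_cast hd
  have hjR : |(j : ℝ)| ≤ K := by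
    rw [abs_le]
    exact ⟨by exact_mod_cast hj1, by exact_mod_cast hj2⟩
  have hDM : (D : ℝ) ≤ M := by
    have := abs_nonneg (g : ℝ)
    have := (Nat.cast_nonneg K : (0 : ℝ) ≤ K)
    rw [hMdef]; linarith
  let F : ℤ → ℝ := fun c => (risePoly d).eval ((c : ℝ) / q)
  let w : ℤ → ℝ := fun c => (q : ℝ) / D / d * (F (c + D) - F c)
  set E : ℝ := (d : ℝ) * M * M' ^ d + C₀ * D with hE
  have hEnn : 0 ≤ E := by positivity
  have hterm : ∀ i ∈ range q, (D : ℤ) ∣ g - ((q : ℤ) * j + i) →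
      |((∏ l, (((q : ℤ) * j + i - g) / D - zOf D ζ q l) : ℤ) : ℝ) -
        ((q : ℝ) / D) ^ (d - 1) * w ((q : ℤ) * j + i)| ≤ ((q : ℝ) / D) ^ (d - 1) * (E / q) := by
    intro i hi hdvd
    rw [Finset.mem_range] at hi
    set c : ℤ := (q : ℤ) * j + i with hc
    set v : ℝ := (c : ℝ) / q with hv
    have hvb : |v| ≤ (K : ℝ) + 1 := by
      have hi' : (i : ℝ) ≤ q := by exact_mod_cast hi.le
      have hv' : v = (j : ℝ) + i / q := by
        rw [hv, hc]; push_cast; field_simp
      rw [hv']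
      refine (abs_add_le _ _).trans (add_le_add hjR ?_)
      rw [abs_of_nonneg (by positivity), div_le_one hq0]
      exact hi'
    obtain ⟨s, hs⟩ : ∃ s, c - g = (D : ℤ) * s := by
      obtain ⟨t, ht⟩ := hdvd
      exact ⟨-t, by linear_combination -ht⟩
    rw [hs, Int.mul_ediv_cancel_left _ (by omega)]
    have hsR : (c : ℝ) - g = D * s := by exact_mod_cast hs
    let b : Fin (d - 1) → ℝ := fun l => (D : ℝ) * ((s : ℝ) - zOf D ζ q l) / q
    have hclose : ∀ l, |b l - (v - ζ l)| ≤ M / q := by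
      intro l
      obtain ⟨z1, z2⟩ := zOf_bounds hD ζ q l
      have e : b l - (v - ζ l) = (q * ζ l - D * zOf D ζ q l - g) / q := by
        simp only [b, hv]
        field_simp
        linear_combination -hsR
      rw [e, abs_div, abs_of_pos hq0]
      gcongr
      rw [abs_le]
      have h1 := le_abs_self (g : ℝ)
      have h2 := neg_abs_le (g : ℝ)
      have := (Nat.cast_nonneg K : (0 : ℝ) ≤ K)
      constructor <;> rw [hMdef] <;> linarith
    have hvz : ∀ l, |v - ζ l| ≤ 2 * M := by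
      intro l
      obtain ⟨z1, z2⟩ := hζ l
      have hl : ((l : ℕ) : ℝ) + 2 ≤ d + 1 := by
        have hl' : (l : ℕ) + 2 ≤ d + 1 := by omega
        exact_mod_cast hl'
      have hl0 : (0 : ℝ) ≤ ((l : ℕ) : ℝ) := Nat.cast_nonneg _
      have hzl : |ζ l| ≤ d + 1 := by rw [abs_le]; constructor <;> linarith
      refine (abs_sub _ _).trans ?_
      have := abs_nonneg (g : ℝ)
      rw [hMdef]; linarith
    have hb : ∀ l, |b l| ≤ M' := by
      intro l
      have := abs_sub_abs_le_abs_sub (b l) (v - ζ l)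
      have h1 := hclose l
      have h2 : M / q ≤ M := div_le_self hMnn hq1
      have h3 := hvz l
      rw [hM']; linarith
    have hpc := prod_close univ b (fun l => v - ζ l) (M := M') (ε := M / q) (by rw [hM']; linarith)
      (fun l _ => hb l) (fun l _ => (hvz l).trans (by rw [hM']; linarith)) (fun l _ => hclose l)
    rw [Finset.card_univ, Fintype.card_fin] at hpc
    have hcast : ((∏ l, (s - zOf D ζ q l) : ℤ) : ℝ) = ((q : ℝ) / D) ^ (d - 1) * ∏ l, b l := by
      rw [show ((q : ℝ) / D) ^ (d - 1) = ∏ _l : Fin (d - 1), ((q : ℝ) / D) by simp [div_pow],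
        ← Finset.prod_mul_distrib]
      push_cast
      refine Finset.prod_congr rfl fun l _ => ?_
      simp only [b]
      field_simp
    rw [hcast, ← mul_sub, abs_mul, abs_of_nonneg (by positivity : (0 : ℝ) ≤ ((q : ℝ) / D) ^ (d - 1))]
    gcongr
    have hh : |(D : ℝ) / q| ≤ M := by
      rw [abs_of_nonneg (by positivity)]
      exact (div_le_self hD'.le hq1).trans hDM
    obtain ⟨-, -, -, h4⟩ := hT v ((D : ℝ) / q) (by
      have := abs_nonneg (g : ℝ)
      rw [hMdef]; linarith) hh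
    rw [hder] at h4
    have hw : |∏ l, (v - ζ l) - w c| ≤ C₀ * D / q := by
      have hFD : F (c + D) = (risePoly d).eval (v + (D : ℝ) / q) := by
        simp only [F, hv]; push_cast; rw [add_div]
      have hFc : F c = (risePoly d).eval v := rfl
      set Δ := (risePoly d).eval (v + (D : ℝ) / q) - (risePoly d).eval v with hΔ
      have e : ∏ l, (v - ζ l) - w c =
          -((q : ℝ) / D / d) * (Δ - (D : ℝ) / q * (d * ∏ l, (v - ζ l))) := by
        simp only [w, hFD, hFc, ← hΔ]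
        field_simp
        ring
      rw [e, abs_mul, abs_neg, abs_of_nonneg (by positivity : (0 : ℝ) ≤ (q : ℝ) / D / d)]
      calc (q : ℝ) / D / d * |Δ - (D : ℝ) / q * (d * ∏ l, (v - ζ l))|
          ≤ (q : ℝ) / D / 1 * (C₀ * ((D : ℝ) / q) ^ 2) := by gcongr
        _ = _ := by field_simp
    have hcard : ((d - 1 : ℕ) : ℝ) * (M / q) * M' ^ (d - 1) ≤ (d : ℝ) * M * M' ^ d / q := by
      have h1 : ((d - 1 : ℕ) : ℝ) ≤ d := by exact_mod_cast Nat.sub_le d 1
      have h2 : M' ^ (d - 1) ≤ M' ^ d := pow_le_pow_right₀ (by rw [hM']; linarith) (Nat.sub_le d 1)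
      calc ((d - 1 : ℕ) : ℝ) * (M / q) * M' ^ (d - 1) ≤ (d : ℝ) * (M / q) * M' ^ d := by gcongr
        _ = _ := by ring
    calc |∏ l, b l - w c| ≤ |∏ l, b l - ∏ l, (v - ζ l)| + |∏ l, (v - ζ l) - w c| :=
          abs_sub_le _ _ _
      _ ≤ (d : ℝ) * M * M' ^ d / q + C₀ * D / q := add_le_add (hpc.trans hcard) hw
      _ = E / q := by rw [hE, add_div]
  have htel := sum_progression hD g ((q : ℤ) * j) F q
  have hend : ∀ u : ℤ, -(K : ℤ) ≤ u → u ≤ K + 1 →
      |F (nextP D g ((q : ℤ) * u)) - (risePoly d).eval (u : ℝ)| ≤ C₀ * D / q := by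
    intro u hu1 hu2
    obtain ⟨n1, n2⟩ := nextP_bounds hD g ((q : ℤ) * u)
    set h : ℝ := ((nextP D g ((q : ℤ) * u) : ℝ) - q * u) / q with hhdef
    have n1' : (q : ℝ) * u ≤ (nextP D g ((q : ℤ) * u) : ℝ) := by exact_mod_cast n1
    have n2' : (nextP D g ((q : ℤ) * u) : ℝ) ≤ q * u + D := by exact_mod_cast n2.le
    have hh0 : 0 ≤ h := div_nonneg (by linarith) hq0.le
    have hh1 : h ≤ (D : ℝ) / q := div_le_div_of_nonneg_right (by linarith) hq0.le
    have huR : |(u : ℝ)| ≤ M := by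
      have hu1' : -(K : ℝ) ≤ u := by exact_mod_cast hu1
      have hu2' : (u : ℝ) ≤ K + 1 := by exact_mod_cast hu2
      have := abs_nonneg (g : ℝ)
      rw [abs_le, hMdef]; constructor <;> linarith
    obtain ⟨-, -, h3, -⟩ := hT (u : ℝ) h huR (by
      rw [abs_of_nonneg hh0]
      exact hh1.trans ((div_le_self hD'.le hq1).trans hDM))
    have e : (u : ℝ) + h = (nextP D g ((q : ℤ) * u) : ℝ) / q := by
      rw [hhdef]; field_simp; ring
    rw [e, abs_of_nonneg hh0] at h3
    calc _ ≤ C₀ * h := h3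
      _ ≤ C₀ * ((D : ℝ) / q) := mul_le_mul_of_nonneg_left hh1 hC₀
      _ = _ := by ring
  have hA : |((∑ i ∈ range q, if (D : ℤ) ∣ g - ((q : ℤ) * j + i) then
        ∏ l, (((q : ℤ) * j + i - g) / D - zOf D ζ q l) else 0 : ℤ) : ℝ) -
      ((q : ℝ) / D) ^ d / d * (F (nextP D g ((q : ℤ) * j + q)) - F (nextP D g ((q : ℤ) * j)))| ≤
      ((q : ℝ) / D) ^ (d - 1) * E := by
    have e : ((q : ℝ) / D) ^ d / d *
        (F (nextP D g ((q : ℤ) * j + q)) - F (nextP D g ((q : ℤ) * j))) =
        ∑ i ∈ range q, (if (D : ℤ) ∣ g - ((q : ℤ) * j + i) then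
          ((q : ℝ) / D) ^ (d - 1) * w ((q : ℤ) * j + i) else 0) := by
      rw [← htel, Finset.mul_sum]
      refine Finset.sum_congr rfl fun i _ => ?_
      split
      · simp only [w]
        rw [show ((q : ℝ) / D) ^ d = ((q : ℝ) / D) ^ (d - 1) * ((q : ℝ) / D) by
          rw [← pow_succ, Nat.sub_add_cancel hd]]
        ring
      · rw [mul_zero]
    rw [e, Int.cast_sum, ← Finset.sum_sub_distrib]
    refine (Finset.abs_sum_le_sum_abs _ _).trans ((Finset.sum_le_sum
      (g := fun _ => ((q : ℝ) / D) ^ (d - 1) * (E / q)) fun i hi => ?_).trans (le_of_eq ?_))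
    · split_ifs with hdvd
      · exact hterm i hi hdvd
      · rw [Int.cast_zero, sub_zero, abs_zero]; positivity
    · rw [Finset.sum_const, Finset.card_range, nsmul_eq_mul]
      field_simp
  have hB1 := hend (j + 1) (by omega) (by omega)
  have hB0 := hend j (by omega) (by omega)
  rw [mul_add, mul_one, Int.cast_add, Int.cast_one] at hB1
  have hB : |((q : ℝ) / D) ^ d / d *
        (F (nextP D g ((q : ℤ) * j + q)) - F (nextP D g ((q : ℤ) * j))) -
      ((q : ℝ) / D) ^ d / d * ((risePoly d).eval ((j : ℝ) + 1) - (risePoly d).eval (j : ℝ))| ≤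
      ((q : ℝ) / D) ^ (d - 1) * (2 * C₀) := by
    rw [← mul_sub, abs_mul, abs_of_nonneg (by positivity : (0 : ℝ) ≤ ((q : ℝ) / D) ^ d / d)]
    calc _ ≤ ((q : ℝ) / D) ^ d / 1 * (2 * (C₀ * D / q)) := by
          gcongr
          rw [sub_sub_sub_comm]
          exact (abs_sub _ _).trans (by linarith)
      _ = _ := by
        rw [show ((q : ℝ) / D) ^ d = ((q : ℝ) / D) ^ (d - 1) * ((q : ℝ) / D) by
          rw [← pow_succ, Nat.sub_add_cancel hd]]
        field_simp
  have hpow : ((q : ℝ) / D) ^ (d - 1) ≤ (q : ℝ) ^ (d - 1) :=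
    pow_le_pow_left₀ (by positivity) (div_le_self hq0.le hD1) _
  calc _ ≤ _ := abs_sub_le _ _ _
    _ ≤ ((q : ℝ) / D) ^ (d - 1) * E + ((q : ℝ) / D) ^ (d - 1) * (2 * C₀) := add_le_add hA hB
    _ = ((q : ℝ) / D) ^ (d - 1) * (E + 2 * C₀) := by ring
    _ ≤ (q : ℝ) ^ (d - 1) * (E + 2 * C₀) := by gcongr
    _ = _ := by ring

/-- Far from the critical points the sign of each factor is constant on a block. -/
lemma sign_window {d D : ℕ} (hD : 0 < D) (g : ℤ) (ζ : Fin (d - 1) → ℝ)
    (hζ : ∀ l : Fin (d - 1), -((l : ℝ) + 2) < ζ l ∧ ζ l < -((l : ℝ) + 1)) :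
    ∃ q₀ : ℕ, ∀ q : ℕ, q₀ ≤ q → ∀ j : ℤ, ∀ i : ℕ, i < q → ∀ l : Fin (d - 1),
      (-((l : ℤ) + 1) ≤ j → 0 < (q : ℤ) * j + i - g - D * zOf D ζ q l) ∧
      (j + 1 ≤ -((l : ℤ) + 2) → (q : ℤ) * j + i - g - D * zOf D ζ q l < 0) := by
  have hex : ∀ l : Fin (d - 1), ∃ n : ℕ, |(g : ℝ)| + D < n * (-((l : ℝ) + 1) - ζ l) ∧
      |(g : ℝ)| + D < n * (ζ l + ((l : ℝ) + 2)) := by
    intro l
    obtain ⟨z1, z2⟩ := hζ l
    obtain ⟨n1, h1⟩ := exists_nat_gt ((|(g : ℝ)| + D) / (-((l : ℝ) + 1) - ζ l))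
    obtain ⟨n2, h2⟩ := exists_nat_gt ((|(g : ℝ)| + D) / (ζ l + ((l : ℝ) + 2)))
    rw [div_lt_iff₀ (by linarith)] at h1 h2
    refine ⟨max n1 n2, h1.trans_le ?_, h2.trans_le ?_⟩ <;>
      refine mul_le_mul_of_nonneg_right ?_ (by linarith) <;> push_cast
    · exact le_max_left _ _
    · exact le_max_right _ _
  choose n hn using hex
  refine ⟨univ.sup n, fun q hq j i hi l => ?_⟩
  have hnq : (n l : ℝ) ≤ q := by exact_mod_cast (Finset.le_sup (mem_univ l)).trans hq
  obtain ⟨h1, h2⟩ := hn l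
  obtain ⟨z1, z2⟩ := zOf_bounds hD ζ q l
  have hg1 := le_abs_self (g : ℝ)
  have hg2 := neg_abs_le (g : ℝ)
  have hD0 : (0 : ℝ) ≤ D := Nat.cast_nonneg _
  have hq0 : (0 : ℝ) ≤ q := Nat.cast_nonneg _
  have hi' : (i : ℝ) ≤ q := by exact_mod_cast hi.le
  have hi0 : (0 : ℝ) ≤ i := Nat.cast_nonneg _
  obtain ⟨w1, w2⟩ := hζ l
  constructor
  · intro hj
    have hj' : -((l : ℝ) + 1) ≤ j := by exact_mod_cast hj
    have a1 := mul_le_mul_of_nonneg_left hj' hq0
    have a2 := mul_le_mul_of_nonneg_right hnq (show (0 : ℝ) ≤ -((l : ℝ) + 1) - ζ l by linarith)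
    have : (0 : ℝ) < (((q : ℤ) * j + i - g - D * zOf D ζ q l : ℤ) : ℝ) := by push_cast; linarith
    exact_mod_cast this
  · intro hj
    have hj' : (j : ℝ) + 1 ≤ -((l : ℝ) + 2) := by exact_mod_cast hj
    have a1 := mul_le_mul_of_nonneg_left hj' hq0
    have a2 := mul_le_mul_of_nonneg_right hnq (show (0 : ℝ) ≤ ζ l + ((l : ℝ) + 2) by linarith)
    have : (((q : ℤ) * j + i - g - D * zOf D ζ q l : ℤ) : ℝ) < 0 := by push_cast; linarith
    exact_mod_cast this

section baseR

variable {d D m : ℕ} {a : Fin (d - 1) → ℤ} {g : Fin m → ℤ} {c : ℤ}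

lemma card_baseR (r : ℤ) :
    (baseR D a g c r).card = ∑ k, if (D : ℤ) ∣ g k - c ∧ (nNeg D a g c k : ℤ) = r then
      ∏ l, (ivl (tOf D a g c k l)).card else 0 := by
  rw [baseR, Finset.card_biUnion, Finset.sum_filter]
  · refine Finset.sum_congr rfl fun k _ => ?_
    split_ifs
    · rw [Finset.card_image_of_injective _ (fun e e' h => (Prod.mk.inj h).2), Fintype.card_piFinset]
      rfl
    · rfl
  · intro k _ k' _ hkk
    simp only [Function.onFun, Finset.disjoint_left, Finset.mem_image]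
    rintro b ⟨e, -, rfl⟩ ⟨e', -, h⟩
    exact hkk (Prod.mk.inj h).1.symm

/-- The Euler characteristic of the free cohomology at one level. -/
lemma sum_sign_baseR :
    ∑ r ∈ Icc (-(d : ℤ)) d, ((Int.negOnePow r : ℤˣ) : ℤ) * (baseR D a g c r).card =
      ∑ k, if (D : ℤ) ∣ g k - c then ∏ l, (tOf D a g c k l + 1) else 0 := by
  simp only [card_baseR, Nat.cast_sum, Finset.mul_sum, Nat.cast_ite, Nat.cast_zero, mul_ite,
    mul_zero]
  rw [Finset.sum_comm]
  refine Finset.sum_congr rfl fun k _ => ?_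
  by_cases hk : (D : ℤ) ∣ g k - c
  · have hle : nNeg D a g c k ≤ d - 1 :=
      (Finset.card_filter_le _ _).trans (le_of_eq (by simp))
    simp only [hk, true_and, if_true]
    rw [Finset.sum_ite_eq, if_pos (Finset.mem_Icc.2 ⟨by omega, by omega⟩)]
    have e : ((Int.negOnePow (nNeg D a g c k : ℤ) : ℤˣ) : ℤ) =
        ∏ l : Fin (d - 1), if tOf D a g c k l < 0 then (-1 : ℤ) else 1 := by
      rw [Finset.prod_ite, Finset.prod_const, Finset.prod_const_one, mul_one, nNeg,
        Int.negOnePow_def]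
      simp
    rw [e, Nat.cast_prod, ← Finset.prod_mul_distrib]
    refine Finset.prod_congr rfl fun l _ => ?_
    rw [ivl, Int.card_Icc]
    split <;> omega
  · simp [hk]

/-- Free cohomology lives in the degree given by the signs. -/
lemma baseR_eq_empty {r : ℤ} (h : ∀ k, (D : ℤ) ∣ g k - c → (nNeg D a g c k : ℤ) ≠ r) :
    baseR D a g c r = ∅ :=
  Finset.eq_empty_of_forall_notMem fun b hb =>
    h b.1 (mem_baseR.1 hb).1.1 (mem_baseR.1 hb).1.2

end baseR

/-- The number of factors of negative degree lies in the window of the block. -/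
lemma card_neg_window {n : ℕ} {p : Fin n → Prop} [DecidablePred p] {j : ℤ}
    (hpos : ∀ l : Fin n, -((l : ℤ) + 1) ≤ j → ¬ p l)
    (hneg : ∀ l : Fin n, j + 1 ≤ -((l : ℤ) + 2) → p l) :
    min (max (-j - 2) 0) (n : ℤ) ≤ ((univ.filter p).card : ℤ) ∧
      ((univ.filter p).card : ℤ) ≤ min (max (-j - 1) 0) (n : ℤ) := by
  have h1 : (univ.filter fun l : Fin n => (l : ℕ) < (-j - 2).toNat) ⊆ univ.filter p := by
    intro l hl
    rw [Finset.mem_filter] at hl ⊢
    exact ⟨mem_univ _, hneg l (by omega)⟩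
  have h2 : univ.filter p ⊆ univ.filter fun l : Fin n => (l : ℕ) < (-j - 1).toNat := by
    intro l hl
    rw [Finset.mem_filter] at hl ⊢
    refine ⟨mem_univ _, ?_⟩
    by_contra hh
    exact hpos l (by omega) hl.2
  have c1 := Finset.card_le_card h1
  have c2 := Finset.card_le_card h2
  rw [Fin.card_filter_val_lt] at c1 c2
  omega

end Vale.Agent.P202
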