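import Vale.Agent.P202.PhiHilbert
import Vale.Agent.P202.PhiCount

/-!
Module B, layer 9e: almost all cohomology of a block of levels sits in the expected degree, and its
Euler characteristic is asymptotically concentrated at the block `-1`.
-/

universe u

namespace Vale.Agent.P202

open Finset

/-- The length, as an additive function on modules of finite length. -/
noncomputable def lengthInv (S : Type*) [CommRing S] : AddInv.{u} S where
  ok := fun N _ _ => Module.length S N ≠ ⊤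
  val := fun N _ _ => ((Module.length S N).toNat : ℤ)
  ok_of_injective := fun N M _ _ _ _ f hf hM =>
    ne_top_of_le_ne_top hM (Module.length_le_of_injective f hf)
  ok_of_surjective := fun N M _ _ _ _ f hf hM =>
    ne_top_of_le_ne_top hM (Module.length_le_of_surjective f hf)
  add := fun N₁ N₂ N₃ _ _ _ _ _ _ f g hok hf he hg => by
    rw [Module.length_eq_add_of_exact f g hf hg he] at hok ⊢
    rw [ENat.toNat_add (fun e => hok (by rw [e, top_add])) (fun e => hok (by rw [e, add_top])),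
      Nat.cast_add]

section field

variable {k : Type u} [Field k] {d D : ℕ}

lemma lengthInv_ok {N : Type u} [AddCommGroup N] [Module k N] [Module.Finite k N] :
    (lengthInv k).ok N := by
  change Module.length k N ≠ ⊤
  rw [Module.length_eq_finrank]
  exact ENat.natCast_ne_top _

lemma lengthInv_val {N : Type u} [AddCommGroup N] [Module k N] [Module.Finite k N] :
    (lengthInv k).val N = (Module.finrank k N : ℤ) := by
  change ((Module.length k N).toNat : ℤ) = _
  rw [Module.length_eq_finrank, ENat.toNat_natCast]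

variable {M : Type u} [AddCommGroup M] [Module k M] {X : Fin d → M →ₗ[k] M}

/-- At one level the cohomology is that of the free part up to `O(q ^ (d - 2))`. -/
theorem level_estimates (hd : 0 < d) (hD : 0 < D) (hX : ∀ a b, X a ∘ₗ X b = X b ∘ₗ X a)
    {W : ℤ → Submodule k M} (hW : FGPair D hX W (fun _ => ⊥)) {s : ℕ} (h : Fin s → ℤ)
    (gen' : Fin s → M) (hgen' : ∀ i, gen' i ∈ W (h i))
    (hinj : ∀ n, ∀ f ∈ freeFam k (d := d) D h n, evFree hX gen' f = 0 → f = 0)
    {P : MvPolynomial (Fin d) k} {δ : ℕ} (hne : P ≠ 0) (hP : ∀ β ∈ P.support, bdeg β = δ)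
    (hkill : ∀ n, ∀ v ∈ W n, pAct hX P v ∈ (freeFam k D h (n + D * δ)).map (evFree hX gen'))
    (B : ℕ) :
    ∃ C : ℕ, ∀ q : ℕ, 0 < q → ∀ (a : Fin (d - 1) → ℤ) (c : ℤ),
      c.natAbs ≤ B * q → (∀ l, (a l).natAbs ≤ B * q) →
        |(∑ r ∈ Icc (-(d : ℤ)) d, ((Int.negOnePow r : ℤˣ) : ℤ) *
              (Module.finrank k (HPair D a X W (fun _ => ⊥) c r) : ℤ)) -
            ∑ r ∈ Icc (-(d : ℤ)) d, ((Int.negOnePow r : ℤˣ) : ℤ) *
              ((baseR D a h c r).card : ℤ)| * (q : ℤ) ≤ ((C * q ^ (d - 1) : ℕ) : ℤ) ∧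
        ∀ r, Module.finrank k (HPair D a X W (fun _ => ⊥) c r) * q ≤
          (baseR D a h c r).card * q + C * q ^ (d - 1) := by
  set T : ℤ → Submodule k M := fun n => (freeFam k D h n).map (evFree hX gen') with hT
  have hTst : FamStable D X T := by
    rintro l n _ ⟨f, hf, rfl⟩
    exact ⟨xFree k l f, freeFam_stable h l n f hf, evFree_xFree hX gen' l f⟩
  have hTW : ∀ n, T n ≤ W n := fun n =>
    Submodule.map_le_iff_le_comap.2 fun f hf => evFree_mem hX gen' hW.stable hgen' hf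
  have hWT : FGPair D hX W T := by
    obtain ⟨m, g, gen, hgen, hsur⟩ := hW.gens
    exact ⟨hW.stable, hTst, hTW, m, g, gen, hgen,
      fun n => (hsur n).trans (sup_le_sup_left bot_le _)⟩
  obtain ⟨C, hC⟩ := torsion_bound hd hD hP hne hWT hkill B
  refine ⟨(2 * d + 1) * C, fun q hq a c hc ha => ?_⟩
  have hB : ∀ r, Module.Finite k (HPair D a X W (fun _ => ⊥) c r) := fun r => hW.finite hd hD a c r
  have hC' : ∀ r, Module.Finite k (HPair D a X W T c r) := fun r => hWT.finite hd hD a c r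
  have eT : ∀ r, HPair D a X T (fun _ => ⊥) c r ≃ₗ[k] (↥(baseR D a h c r) →₀ k) := fun r =>
    ((pairEquiv (D := D) a (X := fun l => (xFree k l : FreeMod k s d →ₗ[k] _)) (X₂ := X)
      (W := freeFam k D h) (W' := fun _ => ⊥) (W₂ := T) (W₂' := fun _ => ⊥) (evFree hX gen')
      (evFree_xFree hX gen') (freeFam_stable h) (famBot_stable X) (fun _ => bot_le)
      (fun n v hv => ⟨v, hv, rfl⟩)
      (fun n v hv => by rw [(Submodule.mem_bot k).1 hv, map_zero]; exact zero_mem _) c
      (fun σ => le_sup_left)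
      (fun σ v hv hv' => (Submodule.mem_bot k).2 (hinj _ v hv ((Submodule.mem_bot k).1 hv')))
      r).symm.trans (hmodEq rfl (funext fun r => phiC_bot a c r) r)).trans (freeCohEquiv hD r).symm
  have hA : ∀ r, Module.Finite k (HPair D a X T (fun _ => ⊥) c r) := fun r =>
    Module.Finite.equiv (eT r).symm
  have hAdim : ∀ r, Module.finrank k (HPair D a X T (fun _ => ⊥) c r) = (baseR D a h c r).card :=
    fun r => by rw [(eT r).finrank_eq, Module.finrank_finsupp_self, Fintype.card_coe]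
  have hdd := phiD_phiD hX
  have l1 := phiC_le_of_le (D := D) a c (W := T) (W' := fun _ => ⊥) fun n => bot_le
  have l2 := phiC_le_of_le (D := D) a c (W := W) (W' := T) hTW
  refine ⟨?_, fun r => ?_⟩
  · have he := euPair_add (lengthInv k) hd hX a c hTst (W := W) (W'' := fun _ => ⊥)
      (fun n => bot_le) hTW (fun r => have := hA r; lengthInv_ok)
      (fun r => have := hB r; lengthInv_ok) (fun r => have := hC' r; lengthInv_ok)
    simp only [euPair] at he
    rw [Finset.sum_congr rfl fun r _ => by rw [← @lengthInv_val k _ _ _ _ (hB r)], he,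
      Finset.sum_congr rfl (fun r _ => by rw [@lengthInv_val k _ _ _ _ (hA r), hAdim r] :
        ∀ r ∈ Icc (-(d : ℤ)) d, ((Int.negOnePow r : ℤˣ) : ℤ) *
          (lengthInv k).val (HPair D a X T (fun _ => ⊥) c r) = _),
      add_sub_cancel_left]
    refine (mul_le_mul_of_nonneg_right (Finset.abs_sum_le_sum_abs _ _) (by omega)).trans ?_
    rw [Finset.sum_mul]
    refine (Finset.sum_le_sum (g := fun _ => ((C * q ^ (d - 1) : ℕ) : ℤ)) fun r _ => ?_).trans
      (le_of_eq ?_)
    · rw [abs_mul, @lengthInv_val k _ _ _ _ (hC' r), Nat.abs_cast]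
      rcases Int.units_eq_one_or (Int.negOnePow r) with e | e <;>
        · rw [e]
          simp only [Units.val_one, Units.val_neg, abs_one, abs_neg, one_mul]
          exact_mod_cast hC q hq a c hc ha r
    · rw [Finset.sum_const, Int.card_Icc, show ((d : ℤ) + 1 - -(d : ℤ)).toNat = 2 * d + 1 by omega,
        nsmul_eq_mul]
      push_cast
      ring
  · have := hA r; have := hB r; have := hC' r
    have hle := finrank_le_of_exact _ _ (exact_hinc_hproj (δ := phiD X) l1 l2 hdd r)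
    rw [← hAdim r]
    refine (Nat.mul_le_mul_right q hle).trans ?_
    rw [add_mul]
    refine Nat.add_le_add_left ((hC q hq a c hc ha r).trans ?_) _
    exact Nat.mul_le_mul_right _ (Nat.le_mul_of_pos_left _ (by omega))

end field

section ring

variable {R : Type u} [CommRing R] [IsLocalRing R] {d D : ℕ} {x : Fin d → R}

/-- The lengths and the Euler characteristic of a block, from those of its levels. -/
theorem block_dvd (hd : 0 < d) (hx : ∀ l, x l ∈ IsLocalRing.maximalIdeal R ^ D)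
    (a : Fin (d - 1) → ℤ) (N : ℤ → ℤ → ℕ)
    (hN : ∀ c r, hlen R (phiD (mulFam x)) (phiC D a (reesFam R) c)
      (phiC D a (reesFam R) (c + 1)) r = (N c r : ℕ∞)) (c₀ : ℤ) (q : ℕ) :
    (∀ r, hlen R (phiD (mulFam x)) (phiC D a (reesFam R) c₀)
        (phiC D a (reesFam R) (c₀ + q)) r ≠ ⊤ ∧
      (hlen R (phiD (mulFam x)) (phiC D a (reesFam R) c₀)
        (phiC D a (reesFam R) (c₀ + q)) r).toNat ≤ ∑ i ∈ range q, N (c₀ + i) r) ∧
    ∑ r ∈ Icc (-(d : ℤ)) d, ((Int.negOnePow r : ℤˣ) : ℤ) *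
        ((hlen R (phiD (mulFam x)) (phiC D a (reesFam R) c₀)
          (phiC D a (reesFam R) (c₀ + q)) r).toNat : ℤ) =
      ∑ i ∈ range q, ∑ r ∈ Icc (-(d : ℤ)) d,
        ((Int.negOnePow r : ℤˣ) : ℤ) * (N (c₀ + i) r : ℤ) := by
  have hX : ∀ i j, mulFam x i ∘ₗ mulFam x j = mulFam x j ∘ₗ mulFam x i := fun i j =>
    LinearMap.ext fun v => by
      simp only [mulFam, LinearMap.comp_apply, LinearMap.mulLeft_apply]; ring
  have hdd := phiD_phiD hX
  have hst := fun c => phiC_stable (reesFam_stable hx) a c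
  have hanti : ∀ c c' : ℤ, c ≤ c' → ∀ r,
      phiC D a (reesFam R) c' r ≤ phiC D a (reesFam R) c r := fun c c' h r =>
    inf_le_inf_right _ (phiSub_mono fun σ => reesFam_antitone (by omega))
  induction q with
  | zero =>
    have h0 : ∀ r, hlen R (phiD (mulFam x)) (phiC D a (reesFam R) c₀)
        (phiC D a (reesFam R) c₀) r = 0 := fun r => by
      rw [hlen, sq_eq_zero_iff]
      exact inf_le_left.trans le_sup_right
    simp [h0]
  | succ q ih =>
    obtain ⟨ih1, ih2⟩ := ih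
    rw [Nat.cast_succ, ← add_assoc]
    have l1 := hanti (c₀ + q) (c₀ + q + 1) (by omega)
    have l2 := hanti c₀ (c₀ + q) (by omega)
    have hmid := hlen_mid_le (S := R) hdd (hst (c₀ + q)) (hst (c₀ + q + 1)) (hst c₀) l1 l2
    have hfin : ∀ r, hlen R (phiD (mulFam x)) (phiC D a (reesFam R) c₀)
        (phiC D a (reesFam R) (c₀ + q + 1)) r ≠ ⊤ := fun r =>
      ne_top_of_le_ne_top (WithTop.add_ne_top.2
        ⟨by rw [hN]; exact ENat.natCast_ne_top _, (ih1 r).1⟩) (hmid r)
    refine ⟨fun r => ⟨hfin r, ?_⟩, ?_⟩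
    · have hr := hmid r
      rw [hN, ← ENat.natCast_toNat (hfin r), ← ENat.natCast_toNat (ih1 r).1, ← Nat.cast_add,
        Nat.cast_le] at hr
      rw [Finset.sum_range_succ]
      have := (ih1 r).2
      omega
    · have he := (lengthInv R).euler_of_exact (-(d : ℤ)) d
        (HMod (phiD (mulFam x)) (phiC D a (reesFam R) (c₀ + q))
          (phiC D a (reesFam R) (c₀ + q + 1)))
        (HMod (phiD (mulFam x)) (phiC D a (reesFam R) c₀) (phiC D a (reesFam R) (c₀ + q + 1)))
        (HMod (phiD (mulFam x)) (phiC D a (reesFam R) c₀) (phiC D a (reesFam R) (c₀ + q)))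
        (fun r => hinc (δ := phiD (mulFam x)) l2 r) (fun r => hproj (δ := phiD (mulFam x)) l1 r)
        (fun r => hconn hdd (hst (c₀ + q)) r) (fun r => exact_hinc_hproj l1 l2 hdd r)
        (fun r => exact_hproj_hconn l1 l2 hdd (hst (c₀ + q)) r)
        (fun r => exact_hconn_hinc l2 hdd (hst (c₀ + q)) l1 r)
        (fun r => (hN (c₀ + q) r).trans_ne (ENat.natCast_ne_top _)) hfin (fun r => (ih1 r).1)
        (by omega) (hmod_subsingleton_of_bot (phiC_eq_bot hd (Or.inl (by omega))))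
        (hmod_subsingleton_of_bot (phiC_eq_bot hd (Or.inr (by omega))))
      rw [Finset.sum_range_succ, ← ih2]
      refine he.trans ((add_comm _ _).trans (congrArg₂ (· + ·) rfl
        (Finset.sum_congr rfl fun r _ => ?_)))
      change _ * ((hlen R _ _ _ r).toNat : ℤ) = _
      rw [hN, ENat.toNat_natCast]

end ring

/-- The twist at scale `q`. -/
noncomputable def twistOf {d : ℕ} (D : ℕ) (ζ : Fin (d - 1) → ℝ) (q : ℕ) (l : Fin (d - 1)) : ℤ :=
  (d : ℤ) + 1 + zOf D ζ q l

section count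

variable {d D : ℕ} {ζ : Fin (d - 1) → ℝ}

lemma natAbs_twistOf_le (hD : 0 < D)
    (hζ : ∀ l : Fin (d - 1), -((l : ℝ) + 2) < ζ l ∧ ζ l < -((l : ℝ) + 1)) {q : ℕ} (hq : 0 < q)
    (l : Fin (d - 1)) : (twistOf D ζ q l).natAbs ≤ (2 * d + 4) * q := by
  obtain ⟨z1, z2⟩ := zOf_bounds hD ζ q l
  obtain ⟨w1, w2⟩ := hζ l
  have hl' : ((l : ℕ) : ℝ) + 2 ≤ d + 1 := by
    have : (l : ℕ) + 2 ≤ d + 1 := by omega
    exact_mod_cast this
  have hl0 : (0 : ℝ) ≤ ((l : ℕ) : ℝ) := Nat.cast_nonneg _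
  have hD1 : (1 : ℝ) ≤ D := by exact_mod_cast hD
  have hq0 : (0 : ℝ) ≤ q := Nat.cast_nonneg _
  set z := zOf D ζ q l with hz
  have hhi : z ≤ 0 := by
    by_contra hh
    have : (1 : ℝ) ≤ z := by exact_mod_cast (show (1 : ℤ) ≤ z by omega)
    nlinarith
  have hlo : -(((d + 1) * q + 1 : ℕ) : ℤ) ≤ z := by
    have : -((((d + 1) * q + 1 : ℕ) : ℝ)) ≤ z := by
      push_cast
      by_contra hh
      have p1 : (0 : ℝ) ≤ ((D : ℝ) - 1) * (((d : ℝ) + 1) * q) := by
        have : (0 : ℝ) ≤ (D : ℝ) - 1 := by linarith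
        positivity
      nlinarith
    exact_mod_cast this
  rw [twistOf, ← hz]
  have h2 : (2 * d + 4) * q = 2 * (d * q) + 4 * q := by ring
  have h3 : (d + 1) * q + 1 = d * q + q + 1 := by ring
  have h4 : d ≤ d * q := Nat.le_mul_of_pos_right d hq
  omega

lemma tOf_twistOf {m : ℕ} {g : Fin m → ℤ} {c : ℤ} {q : ℕ} {k : Fin m}
    (h : (D : ℤ) ∣ g k - c) (l : Fin (d - 1)) :
    tOf D (twistOf D ζ q) g c k l + 1 = (c - g k) / D - zOf D ζ q l := by
  rw [tOf, sigOf, twistOf, show c - g k = -(g k - c) by ring, Int.neg_ediv_of_dvd h]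
  ring

lemma baseR_twistOf_empty {m : ℕ} (hd : 0 < d) (hD : 0 < D) (g : Fin m → ℤ)
    (hζ : ∀ l : Fin (d - 1), -((l : ℝ) + 2) < ζ l ∧ ζ l < -((l : ℝ) + 1)) :
    ∃ q₀ : ℕ, ∀ q : ℕ, q₀ ≤ q → ∀ j : ℤ, ∀ i : ℕ, i < q → ∀ r : ℤ,
      ¬ (min (max (-j - 2) 0) ((d : ℤ) - 1) ≤ r ∧ r ≤ min (max (-j - 1) 0) ((d : ℤ) - 1)) →
      baseR D (twistOf D ζ q) g ((q : ℤ) * j + i) r = ∅ := by
  choose q₀ hq₀ using fun k => sign_window hD (g k) ζ hζ
  refine ⟨univ.sup q₀, fun q hq j i hi r hr => baseR_eq_empty fun k hk he => hr ?_⟩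
  have key : ∀ l, (D : ℤ) * (tOf D (twistOf D ζ q) g ((q : ℤ) * j + i) k l + 1) =
      (q : ℤ) * j + i - g k - D * zOf D ζ q l := fun l => by
    rw [tOf_twistOf hk, mul_sub, Int.mul_ediv_cancel' (dvd_sub_comm.1 hk)]
  have hs := fun l => hq₀ k q ((Finset.le_sup (mem_univ k)).trans hq) j i hi l
  have hD' : (0 : ℤ) < D := by omega
  have hpos : ∀ l : Fin (d - 1), -((l : ℤ) + 1) ≤ j →
      ¬ tOf D (twistOf D ζ q) g ((q : ℤ) * j + i) k l < 0 := fun l hl hneg => by
    have h1 := (hs l).1 hl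
    rw [← key l] at h1
    have := (mul_pos_iff_of_pos_left hD').1 h1
    omega
  have hneg : ∀ l : Fin (d - 1), j + 1 ≤ -((l : ℤ) + 2) →
      tOf D (twistOf D ζ q) g ((q : ℤ) * j + i) k l < 0 := fun l hl => by
    have h1 := (hs l).2 hl
    rw [← key l] at h1
    by_contra hh
    have : (0 : ℤ) ≤ D * (tOf D (twistOf D ζ q) g ((q : ℤ) * j + i) k l + 1) :=
      mul_nonneg hD'.le (by omega)
    omega
  have hw := card_neg_window hpos hneg
  rw [← nNeg, he] at hw
  omega

lemma free_block {m : ℕ} (hd : 0 < d) (hD : 0 < D) (g : Fin m → ℤ)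
    (hζ : ∀ l : Fin (d - 1), -((l : ℝ) + 2) < ζ l ∧ ζ l < -((l : ℝ) + 1))
    (hder : ∀ v, (Polynomial.derivative (risePoly d)).eval v = d * ∏ l, (v - ζ l)) (K : ℕ) :
    ∃ C : ℝ, ∀ q : ℕ, 0 < q → ∀ j : ℤ, -(K : ℤ) ≤ j → j ≤ K →
      |((∑ i ∈ range q, ∑ r ∈ Icc (-(d : ℤ)) d, ((Int.negOnePow r : ℤˣ) : ℤ) *
          ((baseR D (twistOf D ζ q) g ((q : ℤ) * j + i) r).card : ℤ) : ℤ) : ℝ) -
        (m : ℝ) * (((q : ℝ) / D) ^ d / d *
          ((risePoly d).eval ((j : ℝ) + 1) - (risePoly d).eval (j : ℝ)))| ≤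
      C * (q : ℝ) ^ (d - 1) := by
  choose C hC using fun k => block_sum hd hD (g k) ζ hζ hder K
  refine ⟨∑ k, C k, fun q hq j hj1 hj2 => ?_⟩
  simp only [sum_sign_baseR]
  rw [Finset.sum_comm]
  have e : ∀ k, (∑ i ∈ range q, if (D : ℤ) ∣ g k - ((q : ℤ) * j + i) then
      ∏ l, (tOf D (twistOf D ζ q) g ((q : ℤ) * j + i) k l + 1) else 0) =
      ∑ i ∈ range q, if (D : ℤ) ∣ g k - ((q : ℤ) * j + i) then
        ∏ l, (((q : ℤ) * j + i - g k) / D - zOf D ζ q l) else 0 := fun k =>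
    Finset.sum_congr rfl fun i _ => by
      split_ifs with h
      · exact Finset.prod_congr rfl fun l _ => tOf_twistOf h l
      · rfl
  rw [Finset.sum_congr rfl fun k _ => e k, Int.cast_sum]
  rw [show (m : ℝ) * (((q : ℝ) / D) ^ d / d *
      ((risePoly d).eval ((j : ℝ) + 1) - (risePoly d).eval (j : ℝ))) =
      ∑ _k : Fin m, (((q : ℝ) / D) ^ d / d *
        ((risePoly d).eval ((j : ℝ) + 1) - (risePoly d).eval (j : ℝ))) by simp,
    ← Finset.sum_sub_distrib, Finset.sum_mul]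
  exact (Finset.abs_sum_le_sum_abs _ _).trans
    (Finset.sum_le_sum fun k _ => hC k q hq j hj1 hj2)

lemma card_baseR_bound {m : ℕ} (hD : 0 < D) (g : Fin m → ℤ) (B : ℕ) {q : ℕ} (hq : 0 < q)
    {a : Fin (d - 1) → ℤ} {c : ℤ} (hc : c.natAbs ≤ B * q) (ha : ∀ l, (a l).natAbs ≤ B * q)
    (r : ℤ) :
    (baseR D a g c r).card ≤
      m * (d + (∑ k, (g k).natAbs) + 2 * B + 2) ^ (d - 1) * q ^ (d - 1) := by
  refine (card_baseR_le r ((d + (∑ k, (g k).natAbs) + 2 * B + 2) * q) fun k l => ?_).trans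
    (le_of_eq (by rw [mul_pow, mul_assoc]))
  refine (card_ivl_le hD k l).trans ?_
  have h1 : (g k).natAbs ≤ ∑ k, (g k).natAbs :=
    Finset.single_le_sum (f := fun k => (g k).natAbs) (fun _ _ => Nat.zero_le _) (mem_univ k)
  have h2 := ha l
  have h3 : (d + (∑ k, (g k).natAbs) + 2) * 1 ≤ (d + (∑ k, (g k).natAbs) + 2) * q :=
    Nat.mul_le_mul_left _ hq
  have h4 : (d + (∑ k, (g k).natAbs) + 2 * B + 2) * q =
      2 * (B * q) + (d + (∑ k, (g k).natAbs) + 2) * q := by ring
  omega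

end count

theorem goalPhiWindow : GoalPhiWindow.{u} := by
  intro R _ _ _ d D x hR e he
  have hd := hR.dpos
  have hD := hR.Dpos
  have hfg := grW_fg hR.mem hD hR.red
  obtain ⟨m, g, gen, hgen, hsur⟩ := hfg.gens
  have hsur' : ∀ n, grW R n ≤ (freeFam (IsLocalRing.ResidueField R) D g n).map
      (evFree (A := IsLocalRing.ResidueField R) (M := GrM R) (xGr_comm hR.mem) gen) := fun n =>
    (hsur n).trans (sup_le le_rfl bot_le)
  obtain ⟨s, h, gen', P, δ, hne, hP, hgen', hinj, hkill⟩ :=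
    free_part (k := IsLocalRing.ResidueField R) (M := GrM R) hD (xGr_comm hR.mem) g gen hgen hsur'
  have hes : e = (s : ℝ) / (D : ℝ) ^ d :=
    mult_eq hR he gen hgen hsur' h gen' hgen' hinj hne hP hkill
  obtain ⟨ζ, hζ, hder⟩ := exists_zeta d hd
  refine ⟨fun q => twistOf D ζ q, fun K => ?_⟩
  set B : ℕ := 2 * d + 4 + K + 1 with hB
  obtain ⟨C₁, hC₁⟩ := level_estimates (k := IsLocalRing.ResidueField R) (M := GrM R) hd hD
    (xGr_comm hR.mem) hfg h gen' hgen' hinj hne hP hkill B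
  obtain ⟨q₀, hq₀⟩ := baseR_twistOf_empty (d := d) hd hD h hζ
  obtain ⟨C₂, hC₂⟩ := free_block hd hD h hζ hder K
  set C₃ : ℕ := q₀ * (s * (d + (∑ k, (h k).natAbs) + 2 * B + 2) ^ (d - 1)) + C₁ with hC₃
  refine ⟨max (C₃ : ℝ) ((C₁ : ℝ) + C₂), fun q hq j hj1 hj2 => ?_⟩
  set a : Fin (d - 1) → ℤ := twistOf D ζ q with ha'
  have ha : ∀ l, (a l).natAbs ≤ B * q := fun l =>
    (natAbs_twistOf_le hD hζ hq l).trans (Nat.mul_le_mul_right q (by omega))
  have hc : ∀ i, i < q → ((q : ℤ) * j + i).natAbs ≤ B * q := by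
    intro i hi
    have h1 : ((q : ℤ) * j).natAbs ≤ q * K := by
      rw [Int.natAbs_mul, Int.natAbs_natCast]
      exact Nat.mul_le_mul_left _ (by omega)
    have h2 := Int.natAbs_add_le ((q : ℤ) * j) (i : ℤ)
    have h3 : B * q = (2 * d + 4) * q + q * K + q := by rw [hB]; ring
    omega
  let N : ℤ → ℤ → ℕ := fun c r => Module.finrank (IsLocalRing.ResidueField R)
    (HPair (A := IsLocalRing.ResidueField R) (M := GrM R) D a (xGr hR.mem) (grW R) (fun _ => ⊥) c r)
  have hN : ∀ c r, hlen R (phiD (mulFam x)) (phiC D a (reesFam R) c)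
      (phiC D a (reesFam R) (c + 1)) r = (N c r : ℕ∞) := fun c r => by
    rw [hlen_rees_gr hR.mem a c r]
    have := hfg.finite hd hD a c r
    exact Module.length_eq_finrank _ _
  obtain ⟨hb1, hb2⟩ := block_dvd hd hR.mem a N hN ((q : ℤ) * j) q
  have ej : (q : ℤ) * j + q = (q : ℤ) * (j + 1) := by ring
  rw [ej] at hb1 hb2
  have hqpow : (0 : ℝ) ≤ (q : ℝ) ^ (d - 1) := by positivity
  refine ⟨fun r => (hb1 r).1, fun r hr => ?_, fun hj3 hj4 => ?_⟩
  · have hle : ∀ i ∈ range q, N ((q : ℤ) * j + i) r * q ≤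
        (baseR D a h ((q : ℤ) * j + i) r).card * q + C₁ * q ^ (d - 1) := fun i hi =>
      (hC₁ q hq a _ (hc i (Finset.mem_range.1 hi)) ha).2 r
    have hcard : ∀ i ∈ range q, (baseR D a h ((q : ℤ) * j + i) r).card * q ≤
        q₀ * (s * (d + (∑ k, (h k).natAbs) + 2 * B + 2) ^ (d - 1)) * q ^ (d - 1) := by
      intro i hi
      rw [Finset.mem_range] at hi
      rcases le_or_gt q₀ q with hq' | hq'
      · rw [hq₀ q hq' j i hi r hr]; simp
      · refine (Nat.mul_le_mul_right q (card_baseR_bound hD h B hq (hc i hi) ha r)).trans ?_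
        rw [mul_comm _ q, ← mul_assoc]
        exact Nat.mul_le_mul_right _ (Nat.mul_le_mul_right _ hq'.le)
    have hsum := Finset.sum_le_sum fun i hi =>
      (hle i hi).trans (Nat.add_le_add_right (hcard i hi) _)
    rw [← Finset.sum_mul, Finset.sum_const, Finset.card_range, smul_eq_mul, ← add_mul, ← hC₃,
      mul_comm q] at hsum
    have hnat := (hb1 r).2.trans (Nat.le_of_mul_le_mul_right hsum hq)
    refine le_trans ?_ (mul_le_mul_of_nonneg_right (le_max_left _ _) hqpow)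
    exact_mod_cast hnat
  · refine le_trans ?_ (mul_le_mul_of_nonneg_right (le_max_right _ _) hqpow)
    rw [add_mul]
    refine le_trans ?_ (add_le_add le_rfl (hC₂ q hq j hj1 hj2))
    have hmain : (if j = -1 then ((d - 1).factorial : ℝ) * e * (q : ℝ) ^ d else 0) =
        (s : ℝ) * (((q : ℝ) / D) ^ d / d *
          ((risePoly d).eval ((j : ℝ) + 1) - (risePoly d).eval (j : ℝ))) := by
      split_ifs with h1
      · subst h1
        have h0 := risePoly_eval_int (d := d) (j := -1) (by omega) le_rfl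
        push_cast at h0 ⊢
        rw [neg_add_cancel, h0, risePoly_eval_zero, hes, sub_zero, div_pow,
          show d.factorial = d * (d - 1).factorial from (Nat.mul_factorial_pred (by omega)).symm]
        have : (d : ℝ) ≠ 0 := by positivity
        push_cast
        field_simp
      · have h2 := risePoly_eval_int (d := d) (j := j) hj3 hj4
        have h3 := risePoly_eval_int (d := d) (j := j + 1) (by omega) (by omega)
        push_cast at h3
        rw [h2, h3, sub_self, mul_zero, mul_zero]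
    rw [hmain]
    refine (abs_sub_le _ _ _).trans (add_le_add ?_ le_rfl)
    rw [show phiGr R D q a j = phiC D a (reesFam R) ((q : ℤ) * j) from rfl,
      show phiGr R D q a (j + 1) = phiC D a (reesFam R) ((q : ℤ) * (j + 1)) from rfl, hb2]
    have hsum := Finset.sum_le_sum (s := range q) fun i hi =>
      (hC₁ q hq a ((q : ℤ) * j + i) (hc i (Finset.mem_range.1 hi)) ha).1
    rw [← Finset.sum_mul, Finset.sum_const, Finset.card_range, nsmul_eq_mul] at hsum
    have hint := (Finset.abs_sum_le_sum_abs _ _).trans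
      (le_of_mul_le_mul_right (hsum.trans_eq (mul_comm _ _)) (by exact_mod_cast hq))
    rw [Finset.sum_sub_distrib] at hint
    have hreal := (Int.cast_le (R := ℝ)).2 hint
    rw [Int.cast_abs, Int.cast_sub] at hreal
    push_cast at hreal ⊢
    exact hreal

end Vale.Agent.P202
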