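import Vale.Agent.P202.InterfacesM6
import Vale.Agent.P202.InterfacesR
import Vale.Agent.P202.PhiWindow

/-!
The complex of the band ring in mixed characteristic: `φ` over `L` modulo the top level `H`, the
part `E φ` with its levels, and the `R`-action on it (BLUEPRINT_M2, sections 6 and 7).
-/

universe u

namespace Vale.Agent.P202

open IsLocalRing

/-- A fixed choice of the critical points of `risePoly d`. -/
noncomputable def zetaOf (d : ℕ) : Fin (d - 1) → ℝ :=
  if h : 0 < d then Classical.choose (exists_zeta d h) else 0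

lemma isCrit_zetaOf {d : ℕ} (h : 0 < d) :
    (∀ l : Fin (d - 1), -((l : ℝ) + 2) < zetaOf d l ∧ zetaOf d l < -((l : ℝ) + 1)) ∧
      ∀ v, (Polynomial.derivative (risePoly d)).eval v = d * ∏ l, (v - zetaOf d l) := by
  rw [zetaOf, dif_pos h]
  exact Classical.choose_spec (exists_zeta d h)

namespace Band

variable {p : ℕ} [Fact p.Prime] {R : Type u} [CommRing R] [IsLocalRing R] {k : Type u} [Field k]
  [CharP k p] [PerfectRing k p] {A : Type u} [CommRing A] [Algebra R A]
  [Algebra (WittVector p k) A] {d : ℕ} {x : Fin d → A} {b : ℕ} {G : ℕ → Ideal A}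
  {CI : CIData p k A x b G} {ι : ResidueField R →+* k} {i j K : ℕ}
  (B : Band p R CI ι i j K)

/-- The scale `q`. -/
def qq : ℕ := p ^ B.jq

/-- The number of levels in a block. -/
def blen : ℕ := B.qq * b

/-- Multiplication by the roots of the parameters. -/
noncomputable def mulX (l : Fin d) : B.L →ₗ[B.L] B.L := LinearMap.mulLeft B.L (B.X l)

lemma mulX_comm (l l' : Fin d) : B.mulX l ∘ₗ B.mulX l' = B.mulX l' ∘ₗ B.mulX l :=
  LinearMap.ext fun v => by
    simp only [mulX, LinearMap.comp_apply, LinearMap.mulLeft_apply]; ring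

lemma famStable : FamStable b B.mulX (fun N => (B.Fil N : Submodule B.L B.L)) := by
  intro l N v hv
  rw [mulX, LinearMap.mulLeft_apply, add_comm N]
  exact B.fil_mul _ _ (Ideal.mul_mem_mul (B.X_mem l) hv)

/-- The twist at the scale of the band. -/
noncomputable def tw : Fin (d - 1) → ℤ := twistOf b (zetaOf d) B.blen

/-- The block level `t` of the complex over `L`. -/
noncomputable def Lam (t : ℤ) : Submodule B.L (PIdx d →₀ B.L) :=
  phiSub b B.tw (fun N => (B.Fil N : Submodule B.L B.L)) ((B.blen : ℤ) * t)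

lemma Lam_anti {s t : ℤ} (h : s ≤ t) : B.Lam t ≤ B.Lam s :=
  phiSub_mono fun σ => B.anti (by
    have : (B.blen : ℤ) * s ≤ B.blen * t := mul_le_mul_of_nonneg_left h (by positivity)
    omega)

lemma Lam_stable (t : ℤ) : (B.Lam t).map (phiD B.mulX) ≤ B.Lam t :=
  phiSub_stable B.famStable _ _

/-- The chains over `L` modulo the level `H`. -/
abbrev Amb (H : ℕ) : Type u := (PIdx d →₀ B.L) ⧸ B.Lam H

/-- The differential on the chains modulo the level `H`. -/
noncomputable def dAmb (H : ℕ) : B.Amb H →ₗ[B.L] B.Amb H :=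
  (B.Lam H).mapQ (B.Lam H) (phiD B.mulX)
    (Submodule.map_le_iff_le_comap.1 (B.Lam_stable H))

/-- The degree parts modulo the level `H`. -/
noncomputable def degAmb (H : ℕ) (r : ℤ) : Submodule B.L (B.Amb H) :=
  (phiDeg B.L B.L d r).map (B.Lam H).mkQ

/-- The levels over `L` modulo the level `H`, from `-H` on. -/
noncomputable def lamAmb (H : ℕ) (t : ℤ) : Submodule B.L (B.Amb H) :=
  (B.Lam (max t (-(H : ℤ)))).map (B.Lam H).mkQ

/-- The levels of the `E`-part. -/
noncomputable def eAmb (H : ℕ) (t : ℤ) : Submodule B.L (B.Amb H) :=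
  (B.lamAmb H t).map (B.E • LinearMap.id)

lemma dAmb_smul (H : ℕ) (z : B.L) (v : B.Amb H) : B.dAmb H (z • v) = z • B.dAmb H v :=
  map_smul _ _ _

lemma eAmb_stable (H : ℕ) (t : ℤ) : (B.eAmb H t).map (B.dAmb H) ≤ B.eAmb H t := by
  rintro _ ⟨_, ⟨_, ⟨v, hv, rfl⟩, rfl⟩, rfl⟩
  refine ⟨(B.Lam H).mkQ (phiD B.mulX v),
    Submodule.mem_map_of_mem (B.Lam_stable _ (Submodule.mem_map_of_mem hv)), ?_⟩
  simp only [LinearMap.smul_apply, LinearMap.id_apply, dAmb_smul]
  rfl

/-- The `E`-part of the window `[-H, H)`. -/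
abbrev Chains (H : ℕ) : Type u := ↥(B.eAmb H (-(H : ℤ)))

/-- Its differential. -/
noncomputable def dC (H : ℕ) : B.Chains H →ₗ[B.L] B.Chains H :=
  (B.dAmb H).restrict fun _ hv => B.eAmb_stable H _ (Submodule.mem_map_of_mem hv)

/-- Its degree parts. -/
noncomputable def pC (H : ℕ) (r : ℤ) : Submodule B.L (B.Chains H) :=
  (B.degAmb H r).comap (B.eAmb H (-(H : ℤ))).subtype

/-- Its levels. -/
noncomputable def gC (H : ℕ) (t : ℤ) : Submodule B.L (B.Chains H) :=
  (B.eAmb H t).comap (B.eAmb H (-(H : ℤ))).subtype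

/-- The annihilator of `E` modulo weight `K` kills the `E`-part. -/
lemma ann_smul (H : ℕ) (hK : 2 * b * H ≤ K) {z : B.L} (hz : z ∈ B.Ann) (v : B.Chains H) :
    z • v = 0 := by
  refine Subtype.ext ?_
  obtain ⟨_, ⟨w, hw, rfl⟩, hv⟩ := v.2
  rw [SetLike.val_smul, ← hv]
  simp only [LinearMap.smul_apply, LinearMap.id_apply, ZeroMemClass.coe_zero, ← map_smul]
  rw [Submodule.mkQ_apply, Submodule.Quotient.mk_eq_zero, smul_smul, mul_comm]
  intro c
  refine ⟨?_, fun hc => by rw [Finsupp.smul_apply, (hw c).2 hc, smul_zero]⟩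
  have h1 := B.fil_mul _ _ (Ideal.mul_mem_mul ((B.mem_Ann z).1 hz) (hw c).1)
  rw [Finsupp.smul_apply, smul_eq_mul]
  refine B.anti ?_ h1
  rw [max_eq_right le_rfl]
  simp only [blen, qq]
  push_cast
  have : ((p : ℤ) ^ B.jq) * (2 * b * H) ≤ (p : ℤ) ^ B.jq * K :=
    mul_le_mul_of_nonneg_left (by exact_mod_cast hK) (by positivity)
  nlinarith

/-- The ring acting on the `E`-part through `χ`. -/
noncomputable def chiC (H : ℕ) (hK : 2 * b * H ≤ K) : R →+* Module.End B.L (B.Chains H) :=
  (Ideal.Quotient.lift B.Ann (Module.toModuleEnd B.L (B.Chains H))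
    fun z hz => LinearMap.ext fun v => B.ann_smul H hK hz v).comp
    (B.χ.comp (algebraMap R B.As))

/-- The `R`-module structure of the `E`-part. -/
@[reducible]
noncomputable def rMod (H : ℕ) (hK : 2 * b * H ≤ K) : Module R (B.Chains H) :=
  Module.compHom _ (B.chiC H hK)

lemma smul_eq (H : ℕ) (hK : 2 * b * H ≤ K) (r : R) (z : B.L)
    (hz : B.χ (algebraMap R B.As r) = Ideal.Quotient.mk B.Ann z) (v : B.Chains H) :
    letI := B.rMod H hK; r • v = z • v := by
  show B.chiC H hK r v = z • v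
  rw [chiC, RingHom.comp_apply, RingHom.comp_apply, hz, Ideal.Quotient.lift_mk]
  rfl

/-- An `L`-linear map seen as an `R`-linear map. -/
noncomputable def toR (H : ℕ) (hK : 2 * b * H ≤ K) (g : B.Chains H →ₗ[B.L] B.Chains H) :
    letI := B.rMod H hK; B.Chains H →ₗ[R] B.Chains H :=
  letI := B.rMod H hK
  { g with
    map_smul' := fun r v => by
      obtain ⟨z, hz⟩ := Ideal.Quotient.mk_surjective (B.χ (algebraMap R B.As r))
      simp only [RingHom.id_apply]
      rw [B.smul_eq H hK r z hz.symm, B.smul_eq H hK r z hz.symm]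
      exact g.map_smul z v }

/-- An `L`-submodule seen as an `R`-submodule. -/
noncomputable def subR (H : ℕ) (hK : 2 * b * H ≤ K) (N : Submodule B.L (B.Chains H)) :
    letI := B.rMod H hK; Submodule R (B.Chains H) :=
  letI := B.rMod H hK
  { N.toAddSubgroup.toAddSubmonoid with
    smul_mem' := fun r v hv => by
      obtain ⟨z, hz⟩ := Ideal.Quotient.mk_surjective (B.χ (algebraMap R B.As r))
      rw [B.smul_eq H hK r z hz.symm]
      exact N.smul_mem z hv }

/-- Multiplication by `D` on the `E`-part. -/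
noncomputable def dlC (H : ℕ) : B.Chains H →ₗ[B.L] B.Chains H := B.D • LinearMap.id

end Band

end Vale.Agent.P202
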