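import Vale.Agent.P202.InterfacesM

/-!
Descent from `W(k)` to a saturated subring `Ω`: an `Ω`-linear retraction modulo `p ^ T`, applied to
the coefficients of polynomials.
-/

universe u

namespace Vale.Agent.P202

open MvPolynomial

section retraction

variable {σ : Type*} {B B' : Type u} [CommRing B] [CommRing B'] (φ : B →+* B') {I : Ideal B}
  (r : B' →+ B ⧸ I)

/-- A retraction applied to the coefficients. -/
noncomputable def retrPoly : MvPolynomial σ B' →+ MvPolynomial σ (B ⧸ I) where
  toFun f := ∑ γ ∈ f.support, monomial γ (r (coeff γ f))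
  map_zero' := by simp
  map_add' f g := by
    classical
    ext γ
    simp only [coeff_sum, coeff_monomial, Finset.sum_ite_eq', coeff_add, mem_support_iff]
    have e : ∀ z : B', (if z ≠ 0 then r z else 0) = r z := fun z => by
      by_cases hz : z = 0 <;> simp [hz]
    rw [e, e, e, map_add]

lemma coeff_retrPoly (f : MvPolynomial σ B') (γ : σ →₀ ℕ) :
    coeff γ (retrPoly r f) = r (coeff γ f) := by
  classical
  change coeff γ (∑ γ ∈ f.support, monomial γ (r (coeff γ f))) = _
  simp only [coeff_sum, coeff_monomial, Finset.sum_ite_eq', mem_support_iff]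
  split_ifs with h
  · rfl
  · rw [not_not.1 h, map_zero]

variable {φ r}

lemma retrPoly_map_mul (hr : ∀ b x, r (φ b * x) = Ideal.Quotient.mk I b * r x)
    (a : MvPolynomial σ B) (x : MvPolynomial σ B') :
    retrPoly r (map φ a * x) = map (Ideal.Quotient.mk I) a * retrPoly r x := by
  classical
  ext γ
  rw [coeff_retrPoly, coeff_mul, map_sum, coeff_mul]
  refine Finset.sum_congr rfl fun ab _ => ?_
  rw [coeff_map, coeff_map, coeff_retrPoly, hr]

lemma retrPoly_map (hr : ∀ b x, r (φ b * x) = Ideal.Quotient.mk I b * r x) (h1 : r 1 = 1)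
    (a : MvPolynomial σ B) : retrPoly r (map φ a) = map (Ideal.Quotient.mk I) a := by
  ext γ
  rw [coeff_retrPoly, coeff_map, coeff_map, ← mul_one (φ _), hr, h1, mul_one]

lemma band_retrPoly_mem (hr : ∀ b x, r (φ b * x) = Ideal.Quotient.mk I b * r x)
    (S : Set (MvPolynomial σ B)) {x : MvPolynomial σ B'}
    (hx : x ∈ Ideal.span (map φ '' S)) :
    retrPoly r x ∈ (Ideal.span S).map (map (Ideal.Quotient.mk I)) := by
  suffices H : ∀ c, retrPoly r (c * x) ∈ (Ideal.span S).map (map (Ideal.Quotient.mk I)) by
    simpa using H 1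
  refine Submodule.span_induction (p := fun z _ => ∀ c, retrPoly r (c * z) ∈ _) ?_ ?_ ?_ ?_ hx
  · rintro _ ⟨s, hs, rfl⟩ c
    rw [mul_comm, retrPoly_map_mul hr]
    exact Ideal.mul_mem_right _ _ (Ideal.mem_map_of_mem _ (Ideal.subset_span hs))
  · intro c
    simp
  · intro a b _ _ ha hb c
    rw [mul_add, map_add]
    exact add_mem (ha c) (hb c)
  · intro a z _ hz c
    rw [smul_eq_mul, ← mul_assoc]
    exact hz (c * a)

lemma band_mem_of_map_mk_mem (J : Ideal (MvPolynomial σ B)) {f : MvPolynomial σ B}
    (h : map (Ideal.Quotient.mk I) f ∈ J.map (map (Ideal.Quotient.mk I))) :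
    f ∈ J ⊔ I.map C := by
  obtain ⟨y, hy, hyf⟩ := (Ideal.mem_map_iff_of_surjective _
    (map_surjective _ Ideal.Quotient.mk_surjective)).1 h
  have : f - y ∈ I.map C := by
    have h0 : f - y ∈ RingHom.ker (map (σ := σ) (Ideal.Quotient.mk I)) := by
      rw [RingHom.mem_ker, map_sub, hyf, sub_self]
    rwa [MvPolynomial.ker_map, Ideal.mk_ker] at h0
  simpa using add_mem (Ideal.mem_sup_left (T := I.map C) hy) (Ideal.mem_sup_right (S := J) this)

/-- An element over `B` in the extended span is in the span. -/
lemma band_mem_of_map_mem_span (hr : ∀ b x, r (φ b * x) = Ideal.Quotient.mk I b * r x) (h1 : r 1 = 1)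
    (S : Set (MvPolynomial σ B)) {f : MvPolynomial σ B} (h : map φ f ∈ Ideal.span (map φ '' S)) :
    f ∈ Ideal.span S ⊔ I.map C := by
  have := band_retrPoly_mem hr S h
  rw [retrPoly_map hr h1] at this
  exact band_mem_of_map_mk_mem _ this

end retraction

/-- A retraction of a field onto a subfield. -/
lemma exists_subfield_retr {k : Type u} [Field k] (κ : Subfield k) :
    ∃ r : k →+ κ ⧸ (⊥ : Ideal κ), (∀ b x, r (κ.subtype b * x) = Ideal.Quotient.mk ⊥ b * r x) ∧
      r 1 = 1 := by
  obtain ⟨g, hg⟩ := (Algebra.linearMap κ k).exists_leftInverse_of_injective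
    (LinearMap.ker_eq_bot.2 (algebraMap κ k).injective)
  refine ⟨(Ideal.Quotient.mk ⊥).toAddMonoidHom.comp g.toAddMonoidHom, fun b x => ?_, ?_⟩
  · change Ideal.Quotient.mk ⊥ (g (b • x)) = _
    rw [map_smul, smul_eq_mul, map_mul]
    rfl
  · have := LinearMap.congr_fun hg 1
    simp only [LinearMap.comp_apply, Algebra.linearMap_apply, map_one, LinearMap.id_apply] at this
    change Ideal.Quotient.mk ⊥ (g 1) = 1
    rw [this, map_one]

section witt

variable {p : ℕ} [Fact p.Prime] {k : Type u} [Field k] [CharP k p] [PerfectRing k p]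

lemma band_dvd_of_coeff_zero {w : WittVector p k} (h : w.coeff 0 = 0) :
    (p : WittVector p k) ∣ w := by
  have := (WittVector.mem_span_p_pow_iff_le_coeff_eq_zero w 1).mpr fun m hm => by
    obtain rfl : m = 0 := by omega
    exact h
  simpa [Ideal.mem_span_singleton] using this

lemma band_coeff_zero_of_dvd {w : WittVector p k} (h : (p : WittVector p k) ∣ w) :
    w.coeff 0 = 0 := by
  obtain ⟨c, rfl⟩ := h
  rw [← WittVector.constantCoeff_apply, map_mul, map_natCast, CharP.cast_eq_zero, zero_mul]

variable {Ω : Subring (WittVector p k)}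
  (hsat : ∀ w ∈ Ω, (p : WittVector p k) ∣ w → ∃ w' ∈ Ω, w = p * w')
include hsat

lemma band_dvd_pow {m : ℕ} {x : Ω} (h : (p : WittVector p k) ^ m ∣ (x : WittVector p k)) :
    (p : Ω) ^ m ∣ x := by
  induction m generalizing x with
  | zero => simp
  | succ m ih =>
    obtain ⟨y, hy, hxy⟩ := hsat x x.2 ((dvd_pow_self _ m.succ_ne_zero).trans h)
    obtain rfl : x = (p : Ω) * ⟨y, hy⟩ := Subtype.ext (by simpa using hxy)
    rw [pow_succ'] at h ⊢
    refine mul_dvd_mul_left _ (ih ?_)
    simpa using (mul_dvd_mul_iff_left (WittVector.p_nonzero p k)).1 (by simpa using h)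

variable (κ : Subfield k) (hmem : ∀ w ∈ Ω, w.coeff 0 ∈ κ)
  (hsurj : ∀ a ∈ κ, ∃ w ∈ Ω, w.coeff 0 = a)
include hmem hsurj

/-- An `Ω`-linear retraction of `W(k)` modulo `p ^ T`. -/
lemma exists_witt_retr (T : ℕ) :
    ∃ r : WittVector p k →+ Ω ⧸ Ideal.span {(p : Ω) ^ T},
      (∀ b x, r (Ω.subtype b * x) = Ideal.Quotient.mk _ b * r x) ∧ r 1 = 1 := by
  classical
  have hli : LinearIndepOn κ id ({1} : Set k) := LinearIndepOn.singleton (by simp)
  let B := Module.Basis.extend hli
  let i₀ : hli.extend (Set.subset_univ _) := ⟨1, hli.subset_extend _ rfl⟩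
  have hi₀ : B i₀ = 1 := Module.Basis.extend_apply_self hli i₀
  let et : hli.extend (Set.subset_univ _) → WittVector p k := fun i =>
    WittVector.teichmuller p (B i)
  let Φ := Finsupp.linearCombination Ω et
  have hres : ∀ c, (Φ c).coeff 0 = Finsupp.linearCombination κ B
      (c.mapRange (fun x : Ω => (⟨_, hmem x x.2⟩ : κ)) (Subtype.ext (by simp))) := by
    intro c
    rw [← WittVector.constantCoeff_apply, Finsupp.linearCombination_apply,
      Finsupp.linearCombination_apply, map_finsuppSum, Finsupp.sum_mapRange_index (by simp)]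
    refine Finsupp.sum_congr fun i _ => ?_
    change WittVector.constantCoeff ((c i : WittVector p k) * et i) = _
    rw [map_mul, WittVector.constantCoeff_apply, WittVector.constantCoeff_apply,
      WittVector.teichmuller_coeff_zero]
    rfl
  have hinj : ∀ (m : ℕ) c, (p : WittVector p k) ^ m ∣ Φ c → ∀ i, (p : Ω) ^ m ∣ c i := by
    intro m
    induction m with
    | zero => simp
    | succ m ih =>
      intro c hc i
      have h0 := band_coeff_zero_of_dvd ((dvd_pow_self _ m.succ_ne_zero).trans hc)
      rw [hres] at h0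
      have h1 := linearIndependent_iff.1 B.linearIndependent _ h0
      have h2 : ∀ i, ∃ y : Ω, c i = (p : Ω) * y := by
        intro i
        have := congrArg (fun (f : _ →₀ κ) => (f i : k)) h1
        simp only [Finsupp.mapRange_apply, Finsupp.coe_zero, Pi.zero_apply, ZeroMemClass.coe_zero]
          at this
        obtain ⟨y, hy, hxy⟩ := hsat _ (c i).2 (band_dvd_of_coeff_zero this)
        exact ⟨⟨y, hy⟩, Subtype.ext (by simpa using hxy)⟩
      choose y hy using h2
      let c' : _ →₀ Ω := Finsupp.onFinset c.support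
        (fun i => if i ∈ c.support then y i else 0) (fun i hi => by
          by_contra h
          simp [h] at hi)
      have hc' : c = (p : Ω) • c' := by
        ext j : 1
        rw [Finsupp.smul_apply, smul_eq_mul]
        by_cases hj : j ∈ c.support
        · simp only [c', Finsupp.onFinset_apply, if_pos hj]; exact hy j
        · simp only [c', Finsupp.onFinset_apply, if_neg hj, mul_zero]
          exact Finsupp.notMem_support_iff.1 hj
      rw [hc', Finsupp.smul_apply, smul_eq_mul, pow_succ']
      refine mul_dvd_mul_left _ (ih c' ?_ i)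
      rw [hc', map_smul, pow_succ'] at hc
      have e : (p : Ω) • Φ c' = (p : WittVector p k) * Φ c' := by
        change ((p : Ω) : WittVector p k) * Φ c' = _
        simp
      rw [e] at hc
      exact (mul_dvd_mul_iff_left (WittVector.p_nonzero p k)).1 hc
  have hexp : ∀ (m : ℕ) w, ∃ c, (p : WittVector p k) ^ m ∣ w - Φ c := by
    intro m
    induction m with
    | zero => exact fun w => ⟨0, by simp⟩
    | succ m ih =>
      intro w
      choose s hs hs0 using hsurj
      let c₁ : _ →₀ Ω := Finsupp.onFinset (B.repr (w.coeff 0)).support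
        (fun i => if i ∈ (B.repr (w.coeff 0)).support then
          ⟨s _ (B.repr (w.coeff 0) i).2, hs _ _⟩ else 0)
        (fun i hi => by by_contra h; simp [h] at hi)
      have h1 : (w - Φ c₁).coeff 0 = 0 := by
        rw [← WittVector.constantCoeff_apply, map_sub, WittVector.constantCoeff_apply,
          WittVector.constantCoeff_apply, hres, sub_eq_zero]
        refine (B.linearCombination_repr (w.coeff 0)).symm.trans ?_
        congr 1
        ext i : 2
        rw [Finsupp.mapRange_apply]
        by_cases hi : i ∈ (B.repr (w.coeff 0)).support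
        · simp only [c₁, Finsupp.onFinset_apply, if_pos hi, hs0]
        · simp only [c₁, Finsupp.onFinset_apply, if_neg hi,
            Finsupp.notMem_support_iff.1 hi, ZeroMemClass.coe_zero, WittVector.zero_coeff]
      obtain ⟨w', hw'⟩ := band_dvd_of_coeff_zero h1
      obtain ⟨c₂, hc₂⟩ := ih w'
      refine ⟨c₁ + (p : Ω) • c₂, ?_⟩
      have : w - Φ (c₁ + (p : Ω) • c₂) = (p : WittVector p k) * (w' - Φ c₂) := by
        rw [map_add, map_smul, ← sub_sub, hw', mul_sub]
        congr 1
      rw [this, pow_succ']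
      exact mul_dvd_mul_left _ hc₂
  choose co hco using hexp T
  have huniq : ∀ (w : WittVector p k) c, (p : WittVector p k) ^ T ∣ w - Φ c →
      Ideal.Quotient.mk (Ideal.span {(p : Ω) ^ T}) (co w i₀) =
        Ideal.Quotient.mk (Ideal.span {(p : Ω) ^ T}) (c i₀) := by
    intro w c hc
    rw [Ideal.Quotient.eq, Ideal.mem_span_singleton]
    have h := hinj T (co w - c) (by
      rw [map_sub]
      simpa using dvd_sub hc (hco w)) i₀
    simpa using h
  refine ⟨AddMonoidHom.mk' (fun w => Ideal.Quotient.mk _ (co w i₀)) fun a b => ?_,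
    fun b x => ?_, ?_⟩
  · rw [huniq (a + b) (co a + co b) (by
      rw [map_add, add_sub_add_comm]
      exact dvd_add (hco a) (hco b)), Finsupp.add_apply, map_add]
  · change Ideal.Quotient.mk _ (co _ i₀) = Ideal.Quotient.mk _ b * Ideal.Quotient.mk _ (co x i₀)
    rw [huniq _ (b • co x) (by
      rw [map_smul]
      change _ ∣ (b : WittVector p k) * x - (b : WittVector p k) * Φ (co x)
      rw [← mul_sub]
      exact Dvd.dvd.mul_left (hco x) _), Finsupp.smul_apply, smul_eq_mul, map_mul]
  · change Ideal.Quotient.mk _ (co 1 i₀) = 1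
    rw [huniq 1 (Finsupp.single i₀ 1) (by simp [Φ, et, hi₀]), Finsupp.single_eq_same, map_one]

end witt

end Vale.Agent.P202
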