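import Mathlib

/-!
Relations among monomials in separate variables are Koszul relations, with control of the supports.
-/

universe u v w

namespace Vale.Agent.P202

open MvPolynomial

variable {σ : Type v} {k : Type u} [CommRing k] {ι : Type w}

/-- Multiplication by a monomial in other variables commutes with dropping the multiples of a
monomial. -/
lemma mfMonomial_modMonomial {s t : σ →₀ ℕ} (hst : Disjoint s.support t.support)
    (p : MvPolynomial σ k) :
    (p * monomial t 1).modMonomial s = p.modMonomial s * monomial t 1 := by
  classical
  ext δ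
  rw [coeff_mul_monomial']
  have key : t ≤ δ → (s ≤ δ ↔ s ≤ δ - t) := by
    intro ht
    constructor
    · intro hs x
      by_cases hx : x ∈ s.support
      · have h0 : t x = 0 :=
          Finsupp.notMem_support_iff.1 (Finset.disjoint_left.1 hst hx)
        rw [Finsupp.tsub_apply, h0]
        simpa using hs x
      · rw [Finsupp.notMem_support_iff.1 hx]
        exact Nat.zero_le _
    · exact fun hs => hs.trans tsub_le_self
  by_cases hs : s ≤ δ
  · rw [coeff_modMonomial_of_le _ hs]
    split
    · rename_i ht
      rw [coeff_modMonomial_of_le _ ((key ht).1 hs), zero_mul]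
    · rfl
  · rw [coeff_modMonomial_of_not_le _ hs, coeff_mul_monomial']
    split
    · rename_i ht
      rw [coeff_modMonomial_of_not_le _ (fun h => hs ((key ht).2 h))]
    · rfl

/-- A relation among monomials in pairwise separate variables is a combination of the Koszul
relations; the weight of the supports is kept. -/
theorem mf_koszul_monomial [DecidableEq ι] (D : ι → σ →₀ ℕ)
    (hD : ∀ v w, v ≠ w → Disjoint (D v).support (D w).support) (deg : (σ →₀ ℕ) → ℕ)
    (hdeg : ∀ γ δ, deg (γ + δ) = deg γ + deg δ) (N : ℕ) :
    ∀ (s : Finset ι) (a : ι → MvPolynomial σ k),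
      (∀ v, a v ∈ restrictSupport k {γ | deg γ + deg (D v) = N}) →
      (∀ v, v ∉ s → a v = 0) →
      ∑ v ∈ s, a v * monomial (D v) 1 = 0 →
      ∃ b : ι → ι → MvPolynomial σ k,
        (∀ v w, b v w = -b w v) ∧ (∀ v, b v v = 0) ∧ (∀ v w, v ∉ s → b v w = 0) ∧
        (∀ v w, b v w ∈ restrictSupport k {γ | deg γ + deg (D v) + deg (D w) = N}) ∧
        ∀ v, a v = ∑ w ∈ s, b v w * monomial (D w) 1 := by
  classical
  intro s
  induction s using Finset.induction_on with
  | empty =>
    intro a _ ha _
    exact ⟨0, fun _ _ => by simp, fun _ => rfl, fun _ _ _ => rfl, fun _ _ => zero_mem _,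
      fun v => by simpa using ha v (Finset.notMem_empty v)⟩
  | insert u s hu ih =>
    intro a hN ha hsum
    set c : ι → MvPolynomial σ k := fun v => if v ∈ s then (a v).divMonomial (D u) else 0 with hc
    set a₀ : ι → MvPolynomial σ k := fun v => if v ∈ s then (a v).modMonomial (D u) else 0 with ha₀
    have hsplit : ∀ v ∈ s, a v = monomial (D u) 1 * c v + a₀ v := fun v hv => by
      simp [hc, ha₀, hv, divMonomial_add_modMonomial]
    rw [Finset.sum_insert hu] at hsum
    have h0 : ∑ v ∈ s, a₀ v * monomial (D v) 1 = 0 := by
      ext δ
      rw [coeff_sum, coeff_zero]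
      have h1 : ∀ v ∈ s, a₀ v * monomial (D v) 1 = (a v * monomial (D v) 1).modMonomial (D u) := by
        intro v hv
        rw [mfMonomial_modMonomial (hD u v fun h => hu (h ▸ hv))]
        simp [ha₀, hv]
      by_cases hle : D u ≤ δ
      · refine Finset.sum_eq_zero fun v hv => ?_
        rw [h1 v hv, coeff_modMonomial_of_le _ hle]
      · have h2 := congrArg (coeff δ) hsum
        rw [coeff_add, coeff_sum, coeff_zero, coeff_mul_monomial', if_neg hle, zero_add] at h2
        rw [← h2]
        exact Finset.sum_congr rfl fun v hv => by
          rw [h1 v hv, coeff_modMonomial_of_not_le _ hle]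
    obtain ⟨b, hb1, hb2, hb3, hb4, hb5⟩ := ih a₀ (fun v => by
        simp only [ha₀]
        split
        · rw [mem_restrictSupport_iff]
          intro γ hγ
          have hγ' : ¬ D u ≤ γ := fun h => by
            rw [Finset.mem_coe, mem_support_iff, coeff_modMonomial_of_le _ h] at hγ
            exact hγ rfl
          rw [Finset.mem_coe, mem_support_iff, coeff_modMonomial_of_not_le _ hγ'] at hγ
          exact (mem_restrictSupport_iff k).1 (hN v) (Finset.mem_coe.2 (mem_support_iff.2 hγ))
        · exact zero_mem _)
      (fun v hv => by simp [ha₀, hv]) h0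
    have hcN : ∀ v, c v ∈ restrictSupport k {γ | deg γ + deg (D v) + deg (D u) = N} := by
      intro v
      simp only [hc]
      split
      · rw [mem_restrictSupport_iff]
        intro γ hγ
        rw [Finset.mem_coe, mem_support_iff, coeff_divMonomial] at hγ
        have := (mem_restrictSupport_iff k).1 (hN v) (Finset.mem_coe.2 (mem_support_iff.2 hγ))
        simp only [Set.mem_setOf_eq, hdeg] at this ⊢
        omega
      · exact zero_mem _
    have hu0 : a u = -∑ v ∈ s, c v * monomial (D v) 1 := by
      have h2 : monomial (D u) 1 * (a u + ∑ v ∈ s, c v * monomial (D v) 1) = 0 := by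
        rw [Finset.sum_congr rfl fun v hv =>
          show a v * monomial (D v) 1 =
            monomial (D u) 1 * (c v * monomial (D v) 1) + a₀ v * monomial (D v) 1 by
          rw [hsplit v hv]; ring, Finset.sum_add_distrib, h0, add_zero, ← Finset.mul_sum,
          mul_comm (a u), ← mul_add] at hsum
        exact hsum
      have h3 := congrArg (fun q => divMonomial q (D u)) h2
      simp only [divMonomial_monomial_mul, zero_divMonomial] at h3
      exact eq_neg_of_add_eq_zero_left h3
    have hcs : ∀ v, v ∉ s → c v = 0 := fun v hv => by simp [hc, hv]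
    refine ⟨fun v w => if v = u then -c w else if w = u then c v else b v w, ?_, ?_, ?_, ?_, ?_⟩
    · intro v w
      by_cases hv : v = u <;> by_cases hw : w = u <;> simp [hv, hw, hcs u hu]
      exact hb1 v w
    · intro v
      by_cases hv : v = u
      · simp [hv, hcs u hu]
      · simp [hv, hb2 v]
    · intro v w hv
      rw [Finset.mem_insert, not_or] at hv
      simp only [if_neg hv.1]
      by_cases hw : w = u
      · simp [hw, hcs v hv.2]
      · simp [hw, hb3 v w hv.2]
    · intro v w
      by_cases hv : v = u
      · simp only [if_pos hv]
        refine neg_mem ?_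
        subst hv
        convert hcN w using 5 with γ
        omega
      · by_cases hw : w = u
        · simp only [if_neg hv, if_pos hw]
          subst hw
          exact hcN v
        · simp only [if_neg hv, if_neg hw]
          exact hb4 v w
    · intro v
      rw [Finset.sum_insert hu]
      by_cases hv : v = u
      · subst hv
        simp [hcs v hu, hu0, neg_mul]
      · simp only [if_neg hv, if_true]
        rw [Finset.sum_congr rfl fun w hw => by rw [if_neg (fun h : w = u => hu (h ▸ hw))]]
        by_cases hvs : v ∈ s
        · rw [← hb5 v, mul_comm]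
          exact hsplit v hvs
        · rw [ha v (by simp [hv, hvs]), hcs v hvs]
          simp [hb3 v _ hvs]

end Vale.Agent.P202
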