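import Vale.Agent.P202.InterfacesM2
import Vale.Agent.P202.MFKoszul

/-!
Forms monic in separate variables: a change of basis of the polynomial ring carries the pure powers
of the variables to the forms.

With `γ = rest γ + ∑ v, quo γ v * deg v` the map `monomial γ ↦ monomial (rest γ) * ∏ v, F v ^ quo γ v`
is unitriangular for the weight of the variables different from the `X`, keeps the weighted
homogeneous parts, and turns multiplication by `X v ^ deg v` into multiplication by `F v`.
-/

universe u

namespace Vale.Agent.P202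

open MvPolynomial

variable {k : Type u} [CommRing k] {d n : ℕ}

lemma mf_hVar_injective : Function.Injective (hVar (d := d) (n := n)) :=
  Option.map_injective Sum.inr_injective

lemma mf_hVar_ne (v : Hv n) (l : Fin d) : hVar (d := d) v ≠ some (Sum.inl l) := by
  cases v <;> simp [hVar]

lemma mf_cases (x : Vr d n) : (∃ v, x = hVar v) ∨ ∃ l, x = some (Sum.inl l) := by
  rcases x with _ | (l | z)
  · exact Or.inl ⟨none, rfl⟩
  · exact Or.inr ⟨l, rfl⟩
  · exact Or.inl ⟨some z, rfl⟩

/-- The weights of the variables different from the `X`. -/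
def mfW (wt : Vr d n → ℕ) : Vr d n → ℕ
  | some (Sum.inl _) => 0
  | x => wt x

/-- The weight outside the `X`. -/
noncomputable def mfH (wt : Vr d n → ℕ) (γ : Vr d n →₀ ℕ) : ℕ := Finsupp.weight (mfW wt) γ

/-- Same weight, less weight outside the `X`. -/
def mfLow (wt : Vr d n → ℕ) (γ : Vr d n →₀ ℕ) : Set (Vr d n →₀ ℕ) :=
  {δ | Finsupp.weight wt δ = Finsupp.weight wt γ ∧ mfH wt δ < mfH wt γ}

lemma mfH_add (wt : Vr d n → ℕ) (γ δ : Vr d n →₀ ℕ) :
    mfH wt (γ + δ) = mfH wt γ + mfH wt δ := map_add _ _ _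

/-- `P` has leading exponent `γ`. -/
def mfLead (wt : Vr d n → ℕ) (γ : Vr d n →₀ ℕ) (P : MvPolynomial (Vr d n) k) : Prop :=
  P - monomial γ 1 ∈ restrictSupport k (mfLow wt γ)

lemma mfLow_add_left {wt : Vr d n → ℕ} {γ δ x : Vr d n →₀ ℕ} (hx : x ∈ mfLow wt γ) :
    x + δ ∈ mfLow wt (γ + δ) := by
  obtain ⟨h1, h2⟩ := hx
  exact ⟨by rw [map_add, map_add, h1], by rw [mfH_add, mfH_add]; omega⟩

lemma mf_mul_mem {A B C : Set (Vr d n →₀ ℕ)} {p q : MvPolynomial (Vr d n) k}
    (hp : p ∈ restrictSupport k A) (hq : q ∈ restrictSupport k B)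
    (h : ∀ a ∈ A, ∀ b ∈ B, a + b ∈ C) : p * q ∈ restrictSupport k C := by
  classical
  rw [mem_restrictSupport_iff] at hp hq ⊢
  intro x hx
  obtain ⟨a, ha, b, hb, rfl⟩ := Finset.mem_add.1 (support_mul p q (Finset.mem_coe.1 hx))
  exact h a (hp ha) b (hq hb)

lemma mfLead_mul {wt : Vr d n → ℕ} {γ δ : Vr d n →₀ ℕ} {P Q : MvPolynomial (Vr d n) k}
    (hP : mfLead wt γ P) (hQ : mfLead wt δ Q) : mfLead wt (γ + δ) (P * Q) := by
  have e : P * Q - monomial (γ + δ) 1 = (P - monomial γ 1) * monomial δ 1 +
      monomial γ 1 * (Q - monomial δ 1) + (P - monomial γ 1) * (Q - monomial δ 1) := by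
    rw [show monomial (γ + δ) (1 : k) = monomial γ 1 * monomial δ 1 by
      rw [monomial_mul, one_mul]]
    ring
  unfold mfLead at hP hQ ⊢
  rw [e]
  refine add_mem (add_mem ?_ ?_) ?_
  · refine mf_mul_mem hP (B := {δ}) ?_ ?_
    · rw [monomial_mem_restrictSupport]; exact Or.inl rfl
    · rintro a ha b rfl
      exact mfLow_add_left ha
  · refine mf_mul_mem (A := {γ}) ?_ hQ ?_
    · rw [monomial_mem_restrictSupport]; exact Or.inl rfl
    · rintro a rfl b hb
      rw [add_comm a b, add_comm a δ]
      exact mfLow_add_left hb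
  · refine mf_mul_mem hP hQ ?_
    rintro a ⟨ha1, ha2⟩ b ⟨hb1, hb2⟩
    exact ⟨by rw [map_add, map_add, ha1, hb1], by rw [mfH_add, mfH_add]; omega⟩

lemma mfLead_monomial (wt : Vr d n → ℕ) (γ : Vr d n →₀ ℕ) :
    mfLead wt γ (monomial γ (1 : k)) := by
  unfold mfLead
  rw [sub_self]
  exact zero_mem _

lemma mfLead_pow {wt : Vr d n → ℕ} {γ : Vr d n →₀ ℕ} {P : MvPolynomial (Vr d n) k}
    (hP : mfLead wt γ P) (m : ℕ) : mfLead wt (m • γ) (P ^ m) := by
  induction m with
  | zero => simpa using mfLead_monomial wt (0 : Vr d n →₀ ℕ)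
  | succ m ih =>
    rw [succ_nsmul, pow_succ]
    exact mfLead_mul ih hP

lemma mfLead_prod {ι : Type*} {wt : Vr d n → ℕ} (s : Finset ι) (γ : ι → Vr d n →₀ ℕ)
    (P : ι → MvPolynomial (Vr d n) k) (h : ∀ i ∈ s, mfLead wt (γ i) (P i)) :
    mfLead wt (∑ i ∈ s, γ i) (∏ i ∈ s, P i) := by
  classical
  induction s using Finset.induction_on with
  | empty => simpa using mfLead_monomial wt (0 : Vr d n →₀ ℕ)
  | insert i s hi ih =>
    rw [Finset.sum_insert hi, Finset.prod_insert hi]
    exact mfLead_mul (h i (Finset.mem_insert_self _ _))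
      (ih fun j hj => h j (Finset.mem_insert_of_mem hj))

/-- The exponent of `X v ^ deg v`. -/
noncomputable def mfD (deg : Hv n → ℕ) (v : Hv n) : Vr d n →₀ ℕ :=
  Finsupp.single (hVar v) (deg v)

lemma mfLead_form {wt : Vr d n → ℕ} (hwt : ∀ x, 0 < wt x) {deg : Hv n → ℕ} (v : Hv n)
    {F : MvPolynomial (Vr d n) k} (hF : IsWeightedHomogeneous wt F (deg v * wt (hVar v)))
    (hF' : F - X (hVar v) ^ deg v ∈ Ideal.span (Set.range fun l : Fin d =>
      (X (some (Sum.inl l)) : MvPolynomial (Vr d n) k))) :
    mfLead wt (mfD deg v) F := by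
  classical
  unfold mfLead
  rw [mem_restrictSupport_iff]
  intro δ hδ
  have hD : Finsupp.weight wt (mfD deg v : Vr d n →₀ ℕ) = deg v * wt (hVar v) := by
    rw [mfD, Finsupp.weight_single, smul_eq_mul]
  have hne : δ ≠ mfD deg v → Finsupp.weight wt δ = deg v * wt (hVar v) := by
    intro hne
    refine hF ?_
    rw [Finset.mem_coe, mem_support_iff, coeff_sub, coeff_monomial, if_neg fun e => hne e.symm,
      sub_zero] at hδ
    exact hδ
  have hX : ∃ l : Fin d, δ (some (Sum.inl l)) ≠ 0 := by
    have h1 : F - X (hVar v) ^ deg v ∈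
        Ideal.span (X '' Set.range fun l : Fin d => (some (Sum.inl l) : Vr d n)) := by
      rwa [← Set.range_comp]
    rw [mem_ideal_span_X_image] at h1
    obtain ⟨_, ⟨l, rfl⟩, hl⟩ := h1 δ (by rwa [X_pow_eq_monomial])
    exact ⟨l, hl⟩
  obtain ⟨l, hl⟩ := hX
  have hne' : δ ≠ mfD deg v := by
    intro e
    rw [e, mfD, Finsupp.single_eq_of_ne (mf_hVar_ne v l).symm] at hl
    exact hl rfl
  have hw := hne hne'
  refine ⟨by rw [hw, hD], ?_⟩
  have hH : mfH wt (mfD deg v : Vr d n →₀ ℕ) = deg v * wt (hVar v) := by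
    rw [mfH, mfD, Finsupp.weight_single, smul_eq_mul]
    cases v <;> rfl
  rw [hH, ← hw, mfH, Finsupp.weight_apply, Finsupp.weight_apply]
  refine Finset.sum_lt_sum (fun x _ => ?_)
    ⟨some (Sum.inl l), Finsupp.mem_support_iff.2 hl, ?_⟩
  · refine smul_le_smul_of_nonneg_left ?_ (Nat.zero_le _)
    rcases mf_cases x with ⟨w, rfl⟩ | ⟨l', rfl⟩
    · cases w <;> exact le_rfl
    · exact Nat.zero_le _
  · simp only [mfW, smul_eq_mul, mul_zero]
    exact Nat.mul_pos (Nat.pos_of_ne_zero hl) (hwt _)

/-- The exponent left after removing the pure powers. -/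
noncomputable def mfRest (deg : Hv n → ℕ) (γ : Vr d n →₀ ℕ) : Vr d n →₀ ℕ :=
  Finsupp.equivFunOnFinite.symm fun
    | none => γ none % deg none
    | some (Sum.inl l) => γ (some (Sum.inl l))
    | some (Sum.inr z) => γ (some (Sum.inr z)) % deg (some z)

lemma mfRest_hVar (deg : Hv n → ℕ) (γ : Vr d n →₀ ℕ) (v : Hv n) :
    mfRest deg γ (hVar v) = γ (hVar v) % deg v := by
  cases v <;> rfl

lemma mfRest_inl (deg : Hv n → ℕ) (γ : Vr d n →₀ ℕ) (l : Fin d) :
    mfRest deg γ (some (Sum.inl l)) = γ (some (Sum.inl l)) := rfl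

lemma mf_decomp (deg : Hv n → ℕ) (γ : Vr d n →₀ ℕ) :
    mfRest deg γ + ∑ v, (γ (hVar v) / deg v) • mfD deg v = γ := by
  classical
  ext x
  rw [Finsupp.add_apply, Finsupp.finsetSum_apply]
  rcases mf_cases x with ⟨w, rfl⟩ | ⟨l, rfl⟩
  · rw [Finset.sum_eq_single w]
    · rw [mfRest_hVar, Finsupp.smul_apply, mfD, Finsupp.single_eq_same, smul_eq_mul, mul_comm]
      exact Nat.mod_add_div _ _
    · intro v _ hv
      rw [Finsupp.smul_apply, mfD,
        Finsupp.single_eq_of_ne fun e => hv (mf_hVar_injective e).symm, smul_zero]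
    · exact fun h => absurd (Finset.mem_univ w) h
  · rw [mfRest_inl, Finset.sum_eq_zero fun v _ => ?_, add_zero]
    rw [Finsupp.smul_apply, mfD, Finsupp.single_eq_of_ne (mf_hVar_ne v l).symm, smul_zero]

/-- The change of basis. -/
noncomputable def mfPsi (deg : Hv n → ℕ) (F : Hv n → MvPolynomial (Vr d n) k) :
    MvPolynomial (Vr d n) k →ₗ[k] MvPolynomial (Vr d n) k :=
  (basisMonomials (Vr d n) k).constr k fun γ =>
    monomial (mfRest deg γ) 1 * ∏ v, F v ^ (γ (hVar v) / deg v)

lemma mfPsi_one (deg : Hv n → ℕ) (F : Hv n → MvPolynomial (Vr d n) k) (γ : Vr d n →₀ ℕ) :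
    mfPsi deg F (monomial γ 1) =
      monomial (mfRest deg γ) 1 * ∏ v, F v ^ (γ (hVar v) / deg v) := by
  have h : (basisMonomials (Vr d n) k) γ = monomial γ 1 := by
    rw [coe_basisMonomials]
  rw [mfPsi, ← h, Module.Basis.constr_basis]

section

variable {wt : Vr d n → ℕ} (hwt : ∀ x, 0 < wt x) {deg : Hv n → ℕ}
  {F : Hv n → MvPolynomial (Vr d n) k}
  (hF : ∀ v, IsWeightedHomogeneous wt (F v) (deg v * wt (hVar v)))
  (hF' : ∀ v, F v - X (hVar v) ^ deg v ∈ Ideal.span (Set.range fun l : Fin d =>
    (X (some (Sum.inl l)) : MvPolynomial (Vr d n) k)))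

include hwt hF hF'

lemma mfPsi_lead (γ : Vr d n →₀ ℕ) : mfLead wt γ (mfPsi deg F (monomial γ 1)) := by
  have h1 := mfLead_mul (mfLead_monomial (k := k) wt (mfRest deg γ))
    (mfLead_prod Finset.univ (fun v => (γ (hVar v) / deg v) • mfD deg v)
      (fun v => F v ^ (γ (hVar v) / deg v))
      fun v _ => mfLead_pow (mfLead_form hwt v (hF v) (hF' v)) _)
  rw [mf_decomp] at h1
  rwa [mfPsi_one]

lemma mfPsi_injective : Function.Injective (mfPsi deg F) := by
  classical
  rw [← LinearMap.ker_eq_bot, Submodule.eq_bot_iff]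
  intro H hH
  rw [LinearMap.mem_ker] at hH
  by_contra hne
  obtain ⟨γ₀, hγ₀, hmax⟩ :=
    Finset.exists_max_image H.support (mfH wt) (support_nonempty.2 hne)
  have h1 : coeff γ₀ (mfPsi deg F H) = coeff γ₀ H := by
    conv_lhs => rw [as_sum H, map_sum, coeff_sum]
    rw [Finset.sum_eq_single γ₀]
    · rw [show monomial γ₀ (coeff γ₀ H) = coeff γ₀ H • monomial γ₀ (1 : k) by
        rw [smul_monomial, smul_eq_mul, mul_one], map_smul, coeff_smul, smul_eq_mul]
      have h2 := mfPsi_lead hwt hF hF' γ₀
      unfold mfLead at h2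
      rw [mem_restrictSupport_iff] at h2
      have h3 : coeff γ₀ (mfPsi deg F (monomial γ₀ 1) - monomial γ₀ 1) = 0 := by
        by_contra h
        exact lt_irrefl _ (h2 (Finset.mem_coe.2 (mem_support_iff.2 h))).2
      rw [coeff_sub, coeff_monomial, if_pos rfl, sub_eq_zero] at h3
      rw [h3, mul_one]
    · intro γ hγ hne'
      rw [show monomial γ (coeff γ H) = coeff γ H • monomial γ (1 : k) by
        rw [smul_monomial, smul_eq_mul, mul_one], map_smul, coeff_smul, smul_eq_mul]
      have h2 := mfPsi_lead hwt hF hF' γ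
      unfold mfLead at h2
      rw [mem_restrictSupport_iff] at h2
      have h3 : coeff γ₀ (mfPsi deg F (monomial γ 1) - monomial γ 1) = 0 := by
        by_contra h
        exact absurd (h2 (Finset.mem_coe.2 (mem_support_iff.2 h))).2 (not_lt.2 (hmax γ hγ))
      rw [coeff_sub, coeff_monomial, if_neg hne', sub_zero] at h3
      rw [h3, mul_zero]
    · exact fun h => absurd hγ₀ h
  rw [hH, coeff_zero] at h1
  exact mem_support_iff.1 hγ₀ h1.symm

lemma mfPsi_map_le (c N : ℕ) :
    (restrictSupport k {γ | Finsupp.weight wt γ + c = N}).map (mfPsi deg F) ≤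
      restrictSupport k {γ | Finsupp.weight wt γ + c = N} := by
  conv_lhs => rw [restrictSupport_eq_span, Submodule.map_span]
  rw [Submodule.span_le]
  rintro _ ⟨_, ⟨γ, hγ, rfl⟩, rfl⟩
  rw [SetLike.mem_coe]
  have h := mfPsi_lead hwt hF hF' γ
  unfold mfLead at h
  have h2 := add_mem (restrictSupport_mono k
    (t := {γ | Finsupp.weight wt γ + c = N}) (fun δ hδ => by
      show Finsupp.weight wt δ + c = N
      rw [hδ.1]; exact hγ) h)
    ((monomial_mem_restrictSupport (R := k) (r := 1)).2
      (Or.inl (show γ ∈ {γ | Finsupp.weight wt γ + c = N} from hγ)))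
  rwa [sub_add_cancel] at h2

lemma mfPsi_surj (c N : ℕ) {H : MvPolynomial (Vr d n) k}
    (hH : H ∈ restrictSupport k {γ | Finsupp.weight wt γ + c = N}) :
    ∃ H' ∈ restrictSupport k {γ | Finsupp.weight wt γ + c = N}, mfPsi deg F H' = H := by
  suffices h : ∀ m γ, mfH wt γ = m → Finsupp.weight wt γ + c = N →
      monomial γ (1 : k) ∈
        (restrictSupport k {γ | Finsupp.weight wt γ + c = N}).map (mfPsi deg F) by
    have h2 : restrictSupport k {γ | Finsupp.weight wt γ + c = N} ≤
        (restrictSupport k {γ | Finsupp.weight wt γ + c = N}).map (mfPsi deg F) := by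
      conv_lhs => rw [restrictSupport_eq_span]
      rw [Submodule.span_le]
      rintro _ ⟨γ, hγ, rfl⟩
      exact h _ γ rfl hγ
    exact h2 hH
  intro m
  induction m using Nat.strong_induction_on with
  | _ m ih =>
    intro γ hm hγ
    have hlow : restrictSupport k (mfLow wt γ) ≤
        (restrictSupport k {γ | Finsupp.weight wt γ + c = N}).map (mfPsi deg F) := by
      conv_lhs => rw [restrictSupport_eq_span]
      rw [Submodule.span_le]
      rintro _ ⟨δ, ⟨hδ1, hδ2⟩, rfl⟩
      exact ih _ (hm ▸ hδ2) δ rfl (by rw [hδ1]; exact hγ)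
    have h1 : mfPsi deg F (monomial γ 1) ∈
        (restrictSupport k {γ | Finsupp.weight wt γ + c = N}).map (mfPsi deg F) :=
      Submodule.mem_map_of_mem ((monomial_mem_restrictSupport k).2 (Or.inl hγ))
    have h2 := hlow (mfPsi_lead hwt hF hF' γ)
    simpa using sub_mem h1 h2

lemma mfPsi_surjective : Function.Surjective (mfPsi deg F) := by
  intro H
  induction H using MvPolynomial.induction_on' with
  | monomial γ a =>
    obtain ⟨H', -, h⟩ := mfPsi_surj hwt hF hF' 0 (Finsupp.weight wt γ) (H := monomial γ a)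
      ((monomial_mem_restrictSupport k).2 (Or.inl (by simp)))
    exact ⟨H', h⟩
  | add p q hp hq =>
    obtain ⟨p', rfl⟩ := hp
    obtain ⟨q', rfl⟩ := hq
    exact ⟨p' + q', map_add _ _ _⟩

omit hwt hF hF' in
lemma mfPsi_mul (hdeg : ∀ v, 0 < deg v) (v : Hv n) (H : MvPolynomial (Vr d n) k) :
    mfPsi deg F (H * monomial (mfD deg v) 1) = mfPsi deg F H * F v := by
  classical
  induction H using MvPolynomial.induction_on' with
  | monomial γ a =>
    have hr : mfRest deg (γ + mfD deg v) = mfRest deg γ := by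
      ext x
      rcases mf_cases x with ⟨w, rfl⟩ | ⟨l, rfl⟩
      · rw [mfRest_hVar, mfRest_hVar, Finsupp.add_apply, mfD]
        by_cases h : w = v
        · subst h
          rw [Finsupp.single_eq_same, Nat.add_mod_right]
        · rw [Finsupp.single_eq_of_ne fun e => h (mf_hVar_injective e), Nat.add_zero]
      · rw [mfRest_inl, mfRest_inl, Finsupp.add_apply, mfD,
          Finsupp.single_eq_of_ne (mf_hVar_ne v l).symm, Nat.add_zero]
    have hq : ∀ w, (γ + (mfD deg v : Vr d n →₀ ℕ)) (hVar w) / deg w =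
        γ (hVar w) / deg w + if w = v then 1 else 0 := by
      intro w
      rw [Finsupp.add_apply, mfD]
      by_cases h : w = v
      · subst h
        rw [Finsupp.single_eq_same, Nat.add_div_right _ (hdeg w), if_pos rfl]
      · rw [Finsupp.single_eq_of_ne fun e => h (mf_hVar_injective e), Nat.add_zero, if_neg h,
          Nat.add_zero]
    rw [monomial_mul, mul_one,
      show monomial (γ + mfD deg v) a = a • monomial (γ + mfD deg v) (1 : k) by
        rw [smul_monomial, smul_eq_mul, mul_one],
      show monomial γ a = a • monomial γ (1 : k) by rw [smul_monomial, smul_eq_mul, mul_one],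
      map_smul, map_smul, mfPsi_one, mfPsi_one, hr, smul_mul_assoc]
    congr 1
    simp only [hq, pow_add, Finset.prod_mul_distrib]
    rw [← mul_assoc]
    congr 1
    rw [Finset.prod_eq_single v (fun w _ hw => by rw [if_neg hw, pow_zero])
      (fun h => absurd (Finset.mem_univ v) h), if_pos rfl, pow_one]
  | add p q hp hq => simp only [add_mul, map_add, hp, hq]

omit hwt hF hF' in
lemma mfPsi_fix {γ : Vr d n →₀ ℕ} (h : ∀ v, γ (hVar v) < deg v) :
    mfPsi deg F (monomial γ 1) = monomial γ 1 := by
  have hr : mfRest deg γ = γ := by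
    ext x
    rcases mf_cases x with ⟨w, rfl⟩ | ⟨l, rfl⟩
    · rw [mfRest_hVar, Nat.mod_eq_of_lt (h w)]
    · rw [mfRest_inl]
  rw [mfPsi_one, hr, Finset.prod_eq_one fun v _ => by rw [Nat.div_eq_of_lt (h v), pow_zero],
    mul_one]

end

/-- The exponent in the `X` alone. -/
noncomputable def mfJoin {deg : Hv n → ℕ}
    (s : {γ // IsStdExp (d := d) deg γ} × (Fin d →₀ ℕ)) : Vr d n →₀ ℕ :=
  Finsupp.mapDomain (fun l => some (Sum.inl l)) s.2 + s.1.1

lemma mfJoin_inl {deg : Hv n → ℕ} (s : {γ // IsStdExp (d := d) deg γ} × (Fin d →₀ ℕ))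
    (l : Fin d) : mfJoin s (some (Sum.inl l)) = s.2 l := by
  rw [mfJoin, Finsupp.add_apply, s.1.2.1 l, Nat.add_zero,
    Finsupp.mapDomain_apply fun a b h => Sum.inl_injective (Option.some_injective _ h)]

lemma mfJoin_hVar {deg : Hv n → ℕ} (s : {γ // IsStdExp (d := d) deg γ} × (Fin d →₀ ℕ))
    (v : Hv n) : mfJoin s (hVar v) = s.1.1 (hVar v) := by
  rw [mfJoin, Finsupp.add_apply, Finsupp.mapDomain_of_notMem_range _ _ ?_, Nat.zero_add]
  rintro ⟨l, hl⟩
  exact mf_hVar_ne v l hl.symm

lemma mfJoin_injective {deg : Hv n → ℕ} : Function.Injective (mfJoin (d := d) (deg := deg)) := by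
  rintro s t h
  have h2 : s.2 = t.2 := Finsupp.ext fun l => by rw [← mfJoin_inl s l, h, mfJoin_inl]
  have h1 : s.1.1 = t.1.1 := by
    ext x
    rcases mf_cases x with ⟨w, rfl⟩ | ⟨l, rfl⟩
    · rw [← mfJoin_hVar s w, h, mfJoin_hVar]
    · rw [s.1.2.1 l, t.1.2.1 l]
  exact Prod.ext (Subtype.ext h1) h2

/-- A combination of the standard monomials. -/
noncomputable def mfTheta {deg : Hv n → ℕ}
    (a : {γ // IsStdExp (d := d) deg γ} →₀ MvPolynomial (Fin d) k) : MvPolynomial (Vr d n) k :=
  a.sum fun γ P => inX P * monomial γ.1 1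

lemma mf_inX_monomial {deg : Hv n → ℕ} (γ : {γ // IsStdExp (d := d) deg γ}) (α : Fin d →₀ ℕ)
    (c : k) : inX (monomial α c) * monomial γ.1 1 = monomial (mfJoin (γ, α)) c := by
  rw [inX, rename_monomial, monomial_mul, mul_one]
  rfl

lemma mf_coeff_inX {deg : Hv n → ℕ} (γ γ₀ : {γ // IsStdExp (d := d) deg γ})
    (P : MvPolynomial (Fin d) k) (α : Fin d →₀ ℕ) :
    coeff (mfJoin (γ₀, α)) (inX P * monomial γ.1 1) =
      haveI := Classical.propDecidable (γ = γ₀)
      if γ = γ₀ then coeff α P else 0 := by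
  classical
  induction P using MvPolynomial.induction_on' with
  | monomial β c =>
    rw [mf_inX_monomial, coeff_monomial, coeff_monomial]
    by_cases h : γ = γ₀
    · subst h
      simp [mfJoin_injective.eq_iff]
    · rw [if_neg h, if_neg fun e => h (congrArg Prod.fst (mfJoin_injective e))]
  | add p q hp hq =>
    rw [inX, map_add, ← inX, ← inX, add_mul, coeff_add, hp, hq, coeff_add]
    split <;> simp

lemma mfTheta_coeff {deg : Hv n → ℕ}
    (a : {γ // IsStdExp (d := d) deg γ} →₀ MvPolynomial (Fin d) k)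
    (γ₀ : {γ // IsStdExp (d := d) deg γ}) (α : Fin d →₀ ℕ) :
    coeff (mfJoin (γ₀, α)) (mfTheta a) = coeff α (a γ₀) := by
  classical
  rw [mfTheta, Finsupp.sum, coeff_sum]
  simp only [mf_coeff_inX]
  by_cases h : γ₀ ∈ a.support
  · rw [Finset.sum_eq_single γ₀]
    · exact if_pos rfl
    · exact fun γ _ hne => if_neg hne
    · exact fun h' => absurd h h'
  · rw [Finsupp.notMem_support_iff.1 h, coeff_zero]
    exact Finset.sum_eq_zero fun γ hγ => if_neg fun e => h (by rwa [e] at hγ)

lemma mfTheta_support {deg : Hv n → ℕ}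
    (a : {γ // IsStdExp (d := d) deg γ} →₀ MvPolynomial (Fin d) k) (v : Hv n)
    {γ : Vr d n →₀ ℕ} (h : coeff γ (mfTheta a) ≠ 0) : γ (hVar v) < deg v := by
  classical
  rw [mfTheta, Finsupp.sum, coeff_sum] at h
  obtain ⟨δ, -, hδ⟩ := Finset.exists_ne_zero_of_sum_ne_zero h
  by_contra hlt
  apply hδ
  have key : ∀ P : MvPolynomial (Fin d) k, coeff γ (inX P * monomial δ.1 1) = 0 := by
    intro P
    induction P using MvPolynomial.induction_on' with
    | monomial β c =>
      rw [mf_inX_monomial, coeff_monomial, if_neg]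
      intro e
      apply hlt
      rw [← e, mfJoin_hVar]
      exact δ.2.2 v
    | add p q hp hq => rw [inX, map_add, ← inX, ← inX, add_mul, coeff_add, hp, hq, add_zero]
  exact key _

/-- Forms monic in separate variables: the quotient is free on the standard monomials and the
relations are the Koszul ones. -/
theorem goalMonicFree : GoalMonicFree.{u} := by
  intro k _ d n wt hwt deg F hF hF'
  classical
  by_cases hdeg : ∀ v, 0 < deg v
  swap
  · -- some form is `1`
    push Not at hdeg
    obtain ⟨v₀, hv₀⟩ := hdeg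
    have hd0 : deg v₀ = 0 := by omega
    have hF1 : F v₀ = 1 := by
      have hl := mfLead_form hwt v₀ (hF v₀) (hF' v₀)
      unfold mfLead at hl
      rw [mem_restrictSupport_iff] at hl
      have h0 : (mfD deg v₀ : Vr d n →₀ ℕ) = 0 := by rw [mfD, hd0, Finsupp.single_zero]
      rw [h0] at hl
      have h1 : F v₀ - monomial 0 1 = 0 := by
        rw [← support_eq_empty, Finset.eq_empty_iff_forall_notMem]
        intro δ hδ
        have h2 := (hl (Finset.mem_coe.2 hδ)).2
        simp [mfH] at h2
      rw [sub_eq_zero] at h1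
      rw [h1]
      rfl
    have hmem : ∀ H, H ∈ Ideal.span (Set.range F) := fun H => by
      have h1 : F v₀ ∈ Ideal.span (Set.range F) := Ideal.subset_span ⟨v₀, rfl⟩
      rw [hF1] at h1
      simpa using Ideal.mul_mem_left _ H h1
    refine ⟨fun H => ⟨0, hmem _, fun a _ => ?_⟩, fun N a ha hsum => ?_⟩
    · ext γ : 1
      exact absurd (γ.2.2 v₀) (by omega)
    · refine ⟨fun v w => if v = w then 0 else if w = v₀ then a v else
        if v = v₀ then -a w else 0, ?_, fun v => if_pos rfl, ?_, ?_⟩
      · intro v w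
        by_cases h : v = w
        · simp [h]
        by_cases hw : w = v₀ <;> by_cases hv : v = v₀ <;> simp_all [Ne.symm]
      · intro v
        dsimp only
        by_cases hv : v = v₀
        · subst hv
          rw [← Finset.add_sum_erase _ _ (Finset.mem_univ v), hF1, mul_one] at hsum
          rw [← Finset.add_sum_erase _ _ (Finset.mem_univ v), if_pos rfl, zero_mul, zero_add,
            eq_neg_of_add_eq_zero_left hsum, ← Finset.sum_neg_distrib]
          refine Finset.sum_congr rfl fun w hw => ?_
          have hne : w ≠ v := Finset.ne_of_mem_erase hw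
          simp [hne, hne.symm]
        · rw [Finset.sum_eq_single v₀]
          · simp [hv, hF1]
          · intro w _ hw
            by_cases h : v = w <;> simp [h, hw, hv]
          · exact fun h => absurd (Finset.mem_univ v₀) h
      · intro v w γ hγ
        by_cases h : v = w
        · simp [h] at hγ
        by_cases hw : w = v₀
        · simp only [if_neg h, if_pos hw] at hγ
          rw [hw, hd0, zero_mul, Nat.add_zero]
          exact ha v γ hγ
        by_cases hv : v = v₀
        · simp only [if_neg h, if_neg hw, if_pos hv, coeff_neg, ne_eq, neg_eq_zero] at hγ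
          rw [hv, hd0, zero_mul, Nat.add_zero]
          exact ha w γ hγ
        · simp [h, hw, hv] at hγ
  -- transport along the change of basis
  have hsurj := mfPsi_surjective hwt hF hF'
  have hinj := mfPsi_injective hwt hF hF'
  have hmul := fun v H => mfPsi_mul (F := F) hdeg v H
  refine ⟨fun H => ?_, fun N a ha hsum => ?_⟩
  · have hex : ∀ H', ∃ a : {γ // IsStdExp (d := d) deg γ} →₀ MvPolynomial (Fin d) k,
        mfPsi deg F H' - mfTheta a ∈ Ideal.span (Set.range F) := by
      intro H'
      induction H' using MvPolynomial.induction_on' with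
      | monomial γ c =>
        rw [show monomial γ c = c • monomial γ (1 : k) by rw [smul_monomial, smul_eq_mul, mul_one],
          map_smul]
        by_cases hs : ∀ v, γ (hVar v) < deg v
        · let γ₁ : Vr d n →₀ ℕ := Finsupp.equivFunOnFinite.symm fun
            | some (Sum.inl _) => 0
            | x => γ x
          have hγ₁ : IsStdExp (d := d) deg γ₁ := by
            refine ⟨fun l => rfl, fun v => ?_⟩
            have : γ₁ (hVar v) = γ (hVar v) := by cases v <;> rfl
            rw [this]
            exact hs v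
          let α : Fin d →₀ ℕ := Finsupp.equivFunOnFinite.symm fun l => γ (some (Sum.inl l))
          have hj : mfJoin (⟨γ₁, hγ₁⟩, α) = γ := by
            ext x
            rcases mf_cases x with ⟨w, rfl⟩ | ⟨l, rfl⟩
            · rw [mfJoin_hVar]
              cases w <;> rfl
            · rw [mfJoin_inl]
              rfl
          refine ⟨Finsupp.single ⟨γ₁, hγ₁⟩ (monomial α c), ?_⟩
          rw [mfTheta, Finsupp.sum_single_index (by simp [inX]), mf_inX_monomial, hj,
            mfPsi_fix hs, smul_monomial, smul_eq_mul, mul_one, sub_self]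
          exact zero_mem _
        · push Not at hs
          obtain ⟨v, hv⟩ := hs
          refine ⟨0, ?_⟩
          rw [mfTheta, Finsupp.sum_zero_index, sub_zero, smul_eq_C_mul]
          refine Ideal.mul_mem_left _ _ ?_
          have hle : (mfD deg v : Vr d n →₀ ℕ) ≤ γ := by
            intro x
            rw [mfD]
            by_cases hx : x = hVar v
            · subst hx; rw [Finsupp.single_eq_same]; exact hv
            · rw [Finsupp.single_eq_of_ne hx]; exact Nat.zero_le _
          rw [show monomial γ (1 : k) = monomial (γ - mfD deg v) 1 * monomial (mfD deg v) 1 by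
            rw [monomial_mul, mul_one, tsub_add_cancel_of_le hle], hmul]
          exact Ideal.mul_mem_left _ _ (Ideal.subset_span ⟨v, rfl⟩)
      | add p q hp hq =>
        obtain ⟨a, ha⟩ := hp
        obtain ⟨b, hb⟩ := hq
        refine ⟨a + b, ?_⟩
        have e : mfTheta (a + b) = mfTheta a + mfTheta b :=
          Finsupp.sum_add_index' (fun γ => by simp [inX]) fun γ P Q => by
            rw [inX, map_add, add_mul]; rfl
        rw [map_add, e, add_sub_add_comm]
        exact add_mem ha hb
    obtain ⟨H', rfl⟩ := hsurj H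
    obtain ⟨a, ha⟩ := hex H'
    refine ⟨a, ha, fun a' ha' => ?_⟩
    have hθ : mfTheta (a' - a) ∈ Ideal.span (Set.range F) := by
      have e : mfTheta (a' - a) = mfTheta a' - mfTheta a :=
        Finsupp.sum_sub_index fun γ P Q => by rw [inX, map_sub, sub_mul]; rfl
      rw [e]
      have := sub_mem ha ha'
      simpa [mfTheta] using this
    obtain ⟨c, hc⟩ := (Submodule.mem_span_range_iff_exists_fun _).1 hθ
    choose c' hc' using fun v => hsurj (c v)
    have hfix : mfPsi deg F (mfTheta (a' - a)) = mfTheta (a' - a) := by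
      conv_lhs => rw [as_sum (mfTheta (a' - a)), map_sum]
      conv_rhs => rw [as_sum (mfTheta (a' - a))]
      refine Finset.sum_congr rfl fun γ hγ => ?_
      rw [show monomial γ (coeff γ (mfTheta (a' - a))) =
        coeff γ (mfTheta (a' - a)) • monomial γ (1 : k) by rw [smul_monomial, smul_eq_mul, mul_one],
        map_smul, mfPsi_fix fun v => mfTheta_support _ v (mem_support_iff.1 hγ)]
    have heq : mfTheta (a' - a) = ∑ v, c' v * monomial (mfD deg v) 1 := by
      apply hinj
      rw [hfix, map_sum, ← hc]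
      exact Finset.sum_congr rfl fun v _ => by rw [hmul, hc', smul_eq_mul]
    have hzero : ∀ γ, coeff γ (mfTheta (a' - a)) = 0 := by
      intro γ
      by_contra hne
      apply hne
      rw [heq, coeff_sum]
      refine Finset.sum_eq_zero fun v _ => ?_
      rw [coeff_mul_monomial', if_neg]
      intro hle
      have h1 := hle (hVar v)
      rw [mfD, Finsupp.single_eq_same] at h1
      have := mfTheta_support (a' - a) v hne
      omega
    rw [← sub_eq_zero]
    ext γ₀ α : 2
    rw [← mfTheta_coeff, hzero, Finsupp.zero_apply, coeff_zero]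
  · have hD : ∀ v, Finsupp.weight wt (mfD deg v : Vr d n →₀ ℕ) = deg v * wt (hVar v) := fun v => by
      rw [mfD, Finsupp.weight_single, smul_eq_mul]
    have haN : ∀ v, a v ∈
        restrictSupport k {γ | Finsupp.weight wt γ + deg v * wt (hVar v) = N} := fun v => by
      rw [mem_restrictSupport_iff]
      exact fun γ hγ => ha v γ (mem_support_iff.1 (Finset.mem_coe.1 hγ))
    choose a' ha' haa' using fun v => mfPsi_surj hwt hF hF' _ _ (haN v)
    have hsum' : ∑ v, a' v * monomial (mfD deg v) 1 = 0 := by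
      apply hinj
      rw [map_sum, map_zero, ← hsum]
      exact Finset.sum_congr rfl fun v _ => by rw [hmul, haa']
    obtain ⟨b, hb1, hb2, -, hb4, hb5⟩ := mf_koszul_monomial (mfD deg)
      (fun v w hvw => by
        rw [Finset.disjoint_left]
        intro x hx hx'
        rw [mfD] at hx hx'
        have h1 := Finsupp.support_single_subset hx
        have h2 := Finsupp.support_single_subset hx'
        rw [Finset.mem_singleton] at h1 h2
        exact hvw (mf_hVar_injective (h1.symm.trans h2)))
      (Finsupp.weight wt) (fun γ δ => map_add _ γ δ) N Finset.univ a'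
      (fun v => by simpa [hD v] using ha' v) (fun v hv => absurd (Finset.mem_univ v) hv) hsum'
    refine ⟨fun v w => mfPsi deg F (b v w), fun v w => ?_, fun v => ?_, fun v => ?_,
      fun v w γ hγ => ?_⟩
    · dsimp only
      rw [hb1 v w, map_neg]
    · dsimp only
      rw [hb2 v, map_zero]
    · rw [← haa' v, hb5 v, map_sum]
      exact Finset.sum_congr rfl fun w _ => hmul w _
    · have h1 := mfPsi_map_le hwt hF hF' (deg v * wt (hVar v) + deg w * wt (hVar w)) N
        (Submodule.mem_map_of_mem (f := mfPsi deg F) (r := b v w) (by simpa [hD, Nat.add_assoc] using hb4 v w))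
      rw [mem_restrictSupport_iff] at h1
      have h2 := h1 (Finset.mem_coe.2 (mem_support_iff.2 hγ))
      simpa [Nat.add_assoc] using h2

end Vale.Agent.P202
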