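import Vale.Agent.P202.BandSeries
import Vale.Agent.P202.BandDescent
import Vale.Agent.P202.MFMonicFree

/-!
The lift of forms to a band ring, the subrings of `W(k)`, and the forms of a complete intersection.
-/

universe u

namespace Vale.Agent.P202

open MvPolynomial

variable {d n : ℕ}

section lift

variable {p : ℕ} {B : Type u} [CommRing B] {κ : Type u} [CommRing κ] {res : B →+* κ}
  (hB : BandBase p res)

/-- A section of the residue map, on polynomials. -/
noncomputable def bandLp (P : MvPolynomial (Vr d n) κ) : MvPolynomial (Vr d n) B :=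
  ∑ γ ∈ P.support, monomial γ (Function.surjInv hB.surj (coeff γ P))

lemma map_bandLp (P : MvPolynomial (Vr d n) κ) : map res (bandLp hB P) = P := by
  simp only [bandLp, map_sum, map_monomial, Function.surjInv_eq hB.surj, ← as_sum]

variable {wt : Vr d n → ℕ}

lemma bandLp_mem {N : ℕ} {P : MvPolynomial (Vr d n) κ} (hP : IsWeightedHomogeneous wt P N) :
    bandLp hB P ∈ wIdeal B wt N :=
  Ideal.sum_mem _ fun _ hγ => band_monomial_mem_wIdeal (hP (mem_support_iff.1 hγ)).ge _

lemma inI_of_map_eq {N : ℕ} {f : MvPolynomial (Vr d n) B} {P : MvPolynomial (Vr d n) κ}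
    (hP : IsWeightedHomogeneous wt P N) (h : map res f = P) : inI res wt N f = P := by
  classical
  ext γ
  rw [coeff_inI, ← coeff_map, h]
  split_ifs with e
  · rfl
  · by_contra hne
    exact e (hP (Ne.symm hne))

lemma inI_bandLp {N : ℕ} {P : MvPolynomial (Vr d n) κ} (hP : IsWeightedHomogeneous wt P N) :
    inI res wt N (bandLp hB P) = P :=
  inI_of_map_eq hP (map_bandLp hB P)

include hB in
/-- Two elements with the same residue form differ by higher weight modulo `Y ^ q - p`. -/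
lemma band_raise_sub {q : ℕ} (hq : 0 < q) (hwt : 0 < wt none) {N : ℕ}
    {f g : MvPolynomial (Vr d n) B} (hf : f ∈ wIdeal B wt N) (hg : g ∈ wIdeal B wt N)
    (h : inI res wt N f = inI res wt N g) :
    f - g ∈ Ideal.span {bandRel p q B} ⊔ wIdeal B wt (N + 1) :=
  hB.raise hq hwt (sub_mem hf hg) (by rw [inI_sub, h, sub_self])

end lift

lemma band_isWeightedHomogeneous_of_map {κ k : Type u} [CommRing κ] [CommRing k] {φ : κ →+* k}
    (hφ : Function.Injective φ) {wt : Vr d n → ℕ} {N : ℕ} {P : MvPolynomial (Vr d n) κ}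
    (h : IsWeightedHomogeneous wt (map φ P) N) : IsWeightedHomogeneous wt P N := fun γ hγ =>
  h (by rwa [coeff_map, map_ne_zero_iff _ hφ])

lemma band_isWeightedHomogeneous_expand {k : Type u} [CommRing k] {wt : Vr d n → ℕ} {N : ℕ}
    {P : MvPolynomial (Vr d n) k} (h : IsWeightedHomogeneous wt P N) {e : ℕ} (he : e ≠ 0) :
    IsWeightedHomogeneous wt (expand e P) (e * N) := by
  classical
  intro γ hγ
  rw [← mem_support_iff, support_expand _ he, Finset.mem_image] at hγ
  obtain ⟨δ, hδ, rfl⟩ := hγ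
  rw [map_nsmul, h (mem_support_iff.1 hδ), smul_eq_mul]

lemma band_isWeightedHomogeneous_map {k k' : Type u} [CommRing k] [CommRing k'] (φ : k →+* k')
    {wt : Vr d n → ℕ} {N : ℕ} {P : MvPolynomial (Vr d n) k} (h : IsWeightedHomogeneous wt P N) :
    IsWeightedHomogeneous wt (map φ P) N := fun γ hγ =>
  h fun h0 => hγ (by rw [coeff_map, h0, map_zero])

section ring

variable {p : ℕ} {B : Type u} [CommRing B] {κ : Type u} [CommRing κ] {res : B →+* κ}
  {wt : Vr d n → ℕ} {q : ℕ} (g : Hv n → MvPolynomial (Vr d n) B)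

lemma band_mk_mem_lfil_int {N : ℕ} {f : MvPolynomial (Vr d n) B} :
    Ideal.Quotient.mk (lIdeal p q g) f ∈ lfil p wt q g (N : ℤ).toNat ↔
      f ∈ lIdeal p q g ⊔ wIdeal B wt N := by
  rw [Int.toNat_natCast]
  exact band_mk_mem_lfil

lemma band_mk_mem_lfil_int_succ {N : ℕ} {f : MvPolynomial (Vr d n) B} :
    Ideal.Quotient.mk (lIdeal p q g) f ∈ lfil p wt q g ((N : ℤ) + 1).toNat ↔
      f ∈ lIdeal p q g ⊔ wIdeal B wt (N + 1) := by
  rw [← band_mk_mem_lfil_int, Nat.cast_add, Nat.cast_one]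

lemma band_lfil_int_top {N : ℤ} (hN : N ≤ 0) : lfil p wt q g N.toNat = ⊤ := by
  rw [Int.toNat_of_nonpos hN, eq_top_iff]
  rintro z -
  obtain ⟨f, rfl⟩ := Ideal.Quotient.mk_surjective z
  exact band_mk_mem_lfil.2 (Ideal.mem_sup_right (band_mem_wIdeal_zero f))

lemma band_lfil_int_anti : Antitone fun N : ℤ => lfil p wt q g N.toNat := fun _ _ h =>
  Ideal.map_mono (band_wIdeal_anti (Int.toNat_le_toNat h))

lemma band_lfil_int_mul (M N : ℤ) :
    lfil p wt q g M.toNat * lfil p wt q g N.toNat ≤ lfil p wt q g (M + N).toNat := by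
  rw [lfil, lfil, lfil, ← Ideal.map_mul]
  exact Ideal.map_mono ((band_wIdeal_mul_le _ _).trans (band_wIdeal_anti (by omega)))

variable (hB : BandBase p res) (hq : 0 < q) (hwt : 0 < wt none)
include hB hq hwt

lemma band_mk_raise {N : ℕ} {f : MvPolynomial (Vr d n) B} (hf : f ∈ wIdeal B wt N)
    (h0 : inI res wt N f = 0) :
    Ideal.Quotient.mk (lIdeal p q g) f ∈ lfil p wt q g ((N : ℤ) + 1).toNat :=
  (band_mk_mem_lfil_int_succ g).2 (sup_le_sup_right band_span_rel_le_lIdeal _ (hB.raise hq hwt hf h0))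

/-- The lift is additive up to higher weight. -/
lemma band_lift_add {N : ℕ} {P P' : MvPolynomial (Vr d n) κ} (hP : IsWeightedHomogeneous wt P N)
    (hP' : IsWeightedHomogeneous wt P' N) :
    Ideal.Quotient.mk (lIdeal p q g) (bandLp hB (P + P')) -
      Ideal.Quotient.mk (lIdeal p q g) (bandLp hB P) -
      Ideal.Quotient.mk (lIdeal p q g) (bandLp hB P') ∈ lfil p wt q g ((N : ℤ) + 1).toNat := by
  rw [← map_sub, ← map_sub]
  refine band_mk_raise g hB hq hwt (sub_mem (sub_mem (bandLp_mem hB (hP.add hP'))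
    (bandLp_mem hB hP)) (bandLp_mem hB hP')) ?_
  rw [inI_sub, inI_sub, inI_bandLp hB (hP.add hP'), inI_bandLp hB hP, inI_bandLp hB hP']
  abel

/-- The lift is multiplicative up to higher weight. -/
lemma band_lift_mul {M N : ℕ} {P P' : MvPolynomial (Vr d n) κ} (hP : IsWeightedHomogeneous wt P M)
    (hP' : IsWeightedHomogeneous wt P' N) :
    Ideal.Quotient.mk (lIdeal p q g) (bandLp hB (P * P')) -
      Ideal.Quotient.mk (lIdeal p q g) (bandLp hB P) *
      Ideal.Quotient.mk (lIdeal p q g) (bandLp hB P') ∈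
        lfil p wt q g ((M : ℤ) + N + 1).toNat := by
  rw [← map_mul, ← map_sub, show (M : ℤ) + N = ((M + N : ℕ) : ℤ) by simp]
  refine band_mk_raise g hB hq hwt (sub_mem (bandLp_mem hB (hP.mul hP'))
    (band_mul_mem_wIdeal (bandLp_mem hB hP) (bandLp_mem hB hP'))) ?_
  rw [inI_sub, inI_bandLp hB (hP.mul hP'), inI_mul (bandLp_mem hB hP) (bandLp_mem hB hP'),
    inI_bandLp hB hP, inI_bandLp hB hP', sub_self]

lemma band_lift_one :
    Ideal.Quotient.mk (lIdeal p q g) (bandLp hB 1) - 1 ∈ lfil p wt q g (1 : ℤ).toNat := by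
  have h1 : IsWeightedHomogeneous wt (1 : MvPolynomial (Vr d n) κ) 0 :=
    isWeightedHomogeneous_one _ _
  rw [← map_one (Ideal.Quotient.mk (lIdeal p q g)), ← map_sub,
    show (1 : ℤ) = ((0 : ℕ) : ℤ) + 1 by simp]
  refine band_mk_raise g hB hq hwt (band_mem_wIdeal_zero _) ?_
  rw [inI_sub, inI_bandLp hB h1, inI_of_map_eq h1 (map_one _), sub_self]

/-- Every element of weight at least `N` starts with a lift. -/
lemma band_lift_surj {N : ℕ} (z : LR p q g) (hz : z ∈ lfil p wt q g (N : ℤ).toNat) :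
    ∃ P : MvPolynomial (Vr d n) κ, IsWeightedHomogeneous wt P N ∧
      z - Ideal.Quotient.mk (lIdeal p q g) (bandLp hB P) ∈
        lfil p wt q g ((N : ℤ) + 1).toNat := by
  obtain ⟨f, rfl⟩ := Ideal.Quotient.mk_surjective z
  obtain ⟨s, hs, y, hy, rfl⟩ := Submodule.mem_sup.1 ((band_mk_mem_lfil_int g).1 hz)
  refine ⟨inI res wt N y, inI_hom _ _, ?_⟩
  rw [map_add, Ideal.Quotient.eq_zero_iff_mem.2 hs, zero_add, ← map_sub]
  refine band_mk_raise g hB hq hwt (sub_mem hy (bandLp_mem hB (inI_hom _ _))) ?_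
  rw [inI_sub, inI_bandLp hB (inI_hom _ _), sub_self]

/-- The variables lie in the filtration and start with their lifts. -/
lemma band_lift_X (v : Vr d n) :
    Ideal.Quotient.mk (lIdeal p q g) (X v) ∈ lfil p wt q g (wt v : ℤ).toNat ∧
    Ideal.Quotient.mk (lIdeal p q g) (X v) - Ideal.Quotient.mk (lIdeal p q g) (bandLp hB (X v)) ∈
      lfil p wt q g ((wt v : ℤ) + 1).toNat := by
  have hX := band_mem_wIdeal_of_isWeightedHomogeneous (isWeightedHomogeneous_X B wt v)
  have hXκ := isWeightedHomogeneous_X κ wt v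
  refine ⟨(band_mk_mem_lfil_int g).2 (Ideal.mem_sup_right hX), ?_⟩
  rw [← map_sub]
  refine band_mk_raise g hB hq hwt (sub_mem hX (bandLp_mem hB hXκ)) ?_
  rw [inI_sub, inI_bandLp hB hXκ, inI_of_map_eq hXκ (map_X _ _), sub_self]

end ring

section witt

variable {p : ℕ} [Fact p.Prime] {k : Type u} [Field k] [CharP k p] [PerfectRing k p]

lemma bandBase_witt : BandBase p (WittVector.constantCoeff : WittVector p k →+* k) where
  surj a := ⟨WittVector.teichmuller p a, by
    rw [WittVector.constantCoeff_apply, WittVector.teichmuller_coeff_zero]⟩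
  dvd b h := band_dvd_of_coeff_zero (by rwa [WittVector.constantCoeff_apply] at h)
  char := by rw [map_natCast, CharP.cast_eq_zero]
  tfree b h := (mul_eq_zero.1 h).resolve_left (WittVector.p_nonzero p k)

variable (Ω : Subring (WittVector p k)) (κ : Subfield k) (hmem : ∀ w ∈ Ω, w.coeff 0 ∈ κ)

/-- The residue map of a subring of `W(k)`. -/
noncomputable def bandRes : Ω →+* κ :=
  (WittVector.constantCoeff.comp Ω.subtype).codRestrict κ fun w => hmem _ w.2

lemma coe_bandRes (w : Ω) : (bandRes Ω κ hmem w : k) = (w : WittVector p k).coeff 0 := rfl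

lemma bandBase_subring (hsurj : ∀ a ∈ κ, ∃ w ∈ Ω, w.coeff 0 = a)
    (hsat : ∀ w ∈ Ω, (p : WittVector p k) ∣ w → ∃ w' ∈ Ω, w = p * w') :
    BandBase p (bandRes Ω κ hmem) where
  surj a := by
    obtain ⟨w, hw, hwa⟩ := hsurj a a.2
    exact ⟨⟨w, hw⟩, Subtype.ext hwa⟩
  dvd b h := by
    obtain ⟨w, hw, hbw⟩ := hsat b b.2 (band_dvd_of_coeff_zero (congrArg Subtype.val h))
    exact ⟨⟨w, hw⟩, Subtype.ext (by simpa using hbw)⟩
  char := Subtype.ext (by
    rw [coe_bandRes]
    exact band_coeff_zero_of_dvd (by simp))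
  tfree b h := Subtype.ext ((mul_eq_zero.1 (by simpa using congrArg Subtype.val h)).resolve_left
    (WittVector.p_nonzero p k))

lemma map_inI_bandRes {wt : Vr d n → ℕ} (N : ℕ) (f : MvPolynomial (Vr d n) Ω) :
    map κ.subtype (inI (bandRes Ω κ hmem) wt N f) =
      inI WittVector.constantCoeff wt N (map Ω.subtype f) := by
  classical
  ext γ
  rw [coeff_map, coeff_inI, coeff_inI, coeff_map]
  split_ifs <;> simp [coe_bandRes, WittVector.constantCoeff_apply]

lemma band_map_liftL (F : MvPolynomial (Vr d n) k) :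
    map WittVector.constantCoeff (liftL p F) = F := by
  simp only [liftL, map_sum, map_monomial, WittVector.constantCoeff_apply,
    WittVector.teichmuller_coeff_zero, ← as_sum]

lemma band_liftL_mem {wt : Vr d n → ℕ} {N : ℕ} {F : MvPolynomial (Vr d n) k}
    (hF : IsWeightedHomogeneous wt F N) : liftL p F ∈ wIdeal (WittVector p k) wt N :=
  Ideal.sum_mem _ fun _ hγ => band_monomial_mem_wIdeal (hF (mem_support_iff.1 hγ)).ge _

omit [CharP k p] [PerfectRing k p] in
/-- Approximation of a polynomial with coefficients close to `Ω`. -/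
lemma exists_band_approx {σ : Type*} (T : ℕ) (f : MvPolynomial σ (WittVector p k))
    (h : ∀ w ∈ f.coeffs, ∃ w' ∈ Ω, (p : WittVector p k) ^ T ∣ w - w') :
    ∃ f' : MvPolynomial σ Ω,
      map Ω.subtype f' - f ∈ Ideal.span {C ((p : WittVector p k) ^ T)} := by
  classical
  choose s hs hsd using h
  refine ⟨∑ γ ∈ f.support.attach,
    monomial γ.1 ⟨s _ (coeff_mem_coeffs _ (mem_support_iff.1 γ.2)),
      hs _ (coeff_mem_coeffs _ (mem_support_iff.1 γ.2))⟩, ?_⟩
  rw [map_sum]
  conv in _ - f => arg 2; rw [f.as_sum, ← Finset.sum_attach f.support]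
  rw [← Finset.sum_sub_distrib]
  refine Ideal.sum_mem _ fun γ _ => ?_
  rw [map_monomial, ← map_sub, Ideal.mem_span_singleton]
  obtain ⟨c, hc⟩ := hsd _ (coeff_mem_coeffs _ (mem_support_iff.1 γ.2))
  refine ⟨monomial γ.1 (-c), ?_⟩
  rw [C_mul_monomial, mul_neg, ← hc, neg_sub]
  rfl

omit [CharP k p] [PerfectRing k p] in
/-- A polynomial over `k` with coefficients in `κ`. -/
lemma exists_band_descend {σ : Type*} (f : MvPolynomial σ k) (h : ∀ a ∈ f.coeffs, a ∈ κ) :
    ∃ f' : MvPolynomial σ κ, map κ.subtype f' = f := by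
  classical
  refine ⟨∑ γ ∈ f.support.attach,
    monomial γ.1 ⟨_, h _ (coeff_mem_coeffs _ (mem_support_iff.1 γ.2))⟩, ?_⟩
  simp only [map_sum, map_monomial]
  conv_rhs => rw [f.as_sum, ← Finset.sum_attach f.support]
  rfl

end witt

end Vale.Agent.P202
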