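import Vale.Agent.P202.InterfacesM6
import Vale.Agent.P202.BandLift

/-!
Evaluation of polynomials over a stage `Ω`, and the descent of the relations of `E` to it.
-/

universe u

namespace Vale.Agent.P202

open IsLocalRing MvPolynomial

section eval

variable {p : ℕ} [Fact p.Prime] {k : Type u} [Field k] [CharP k p] {A : Type u} [CommRing A]
  [Algebra (WittVector p k) A] {d : ℕ} {x : Fin d → A} {b : ℕ} {G : ℕ → Ideal A}
  (CI : CIData p k A x b G)

/-- Evaluation of polynomials with coefficients in `Ω`. -/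
noncomputable def bandEval (Ω : Subring (WittVector p k)) :
    MvPolynomial (Fin d ⊕ Fin CI.n) Ω →+* A :=
  eval₂Hom ((algebraMap (WittVector p k) A).comp Ω.subtype)
    fun v => CI.ev (MvPowerSeries.X v)

lemma band_ev_coe_map (Ω : Subring (WittVector p k)) (h : MvPolynomial (Fin d ⊕ Fin CI.n) Ω) :
    CI.ev ((map Ω.subtype h : MvPolynomial _ (WittVector p k)) :
      MvPowerSeries (Fin d ⊕ Fin CI.n) (WittVector p k)) = bandEval CI Ω h := by
  have e : (CI.ev.comp coeToMvPowerSeries.ringHom).comp (map Ω.subtype) = bandEval CI Ω := by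
    refine MvPolynomial.ringHom_ext (fun w => ?_) (fun v => ?_)
    · simp [bandEval, CI.ev_C]
    · simp [bandEval]
  rw [← e]; rfl

lemma bandEval_C (Ω : Subring (WittVector p k)) (w : Ω) :
    bandEval CI Ω (C w) = algebraMap (WittVector p k) A w := by
  simp [bandEval]

lemma bandEval_X (Ω : Subring (WittVector p k)) (v : Fin d ⊕ Fin CI.n) :
    bandEval CI Ω (X v) = CI.ev (MvPowerSeries.X v) := by
  simp [bandEval]

/-- The polynomials over `Ω` are sent into a subalgebra containing `Ω` and the variables. -/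
lemma bandEval_mem {R : Type u} [CommRing R] [Algebra R A] {As : Subalgebra R A}
    (Ω : Subring (WittVector p k)) (hΩAs : ∀ w ∈ Ω, algebraMap (WittVector p k) A w ∈ As)
    (hvarAs : ∀ v, CI.ev (MvPowerSeries.X v) ∈ As) (h : MvPolynomial (Fin d ⊕ Fin CI.n) Ω) :
    bandEval CI Ω h ∈ As := by
  induction h using MvPolynomial.induction_on with
  | C a => rw [bandEval_C]; exact hΩAs a a.2
  | add f g hf hg => rw [map_add]; exact As.add_mem hf hg
  | mul_X f v hf => rw [map_mul, bandEval_X]; exact As.mul_mem hf (hvarAs v)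

end eval

section descent

variable {p : ℕ} [Fact p.Prime] {k : Type u} [Field k] {d n : ℕ} {wt : Vr d n → ℕ}
  {Ω : Subring (WittVector p k)} {T q t : ℕ}

omit [Fact p.Prime] in
lemma band_span_le_sup {B : Type u} [CommRing B] (hq : 0 < q) (hwt : 0 < wt none) (ht : t ≤ T) :
    Ideal.span {C ((p : B) ^ T)} ≤ Ideal.span {bandRel p q B} ⊔ wIdeal B wt t :=
  Ideal.span_le.2 (Set.singleton_subset_iff.2 (band_C_pow_mem p hq hwt ht))

lemma band_map_ideal (hq : 0 < q) (hwt : 0 < wt none) (ht : t ≤ T)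
    {g : Hv n → MvPolynomial (Vr d n) (WittVector p k)} {g' : Hv n → MvPolynomial (Vr d n) Ω}
    (hg' : ∀ v, map Ω.subtype (g' v) - g v ∈ Ideal.span {C ((p : WittVector p k) ^ T)}) :
    (lIdeal p q g' ⊔ wIdeal Ω wt t).map (map Ω.subtype) =
      lIdeal p q g ⊔ wIdeal (WittVector p k) wt t := by
  rw [Ideal.map_sup, band_map_lIdeal, band_map_wIdeal]
  refine le_antisymm (band_lIdeal_sup_congr fun v => ?_) (band_lIdeal_sup_congr fun v => ?_)
  · exact sup_le_sup_right band_span_rel_le_lIdeal _ (band_span_le_sup hq hwt ht (hg' v))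
  · refine sup_le_sup_right band_span_rel_le_lIdeal _ (band_span_le_sup hq hwt ht ?_)
    simpa using neg_mem (hg' v)

variable [CharP k p] [PerfectRing k p] {κ : Subfield k}
  (hsat : ∀ w ∈ Ω, (p : WittVector p k) ∣ w → ∃ w' ∈ Ω, w = p * w')
  (hmem : ∀ w ∈ Ω, w.coeff 0 ∈ κ) (hsurj : ∀ a ∈ κ, ∃ w ∈ Ω, w.coeff 0 = a)
include hsat hmem hsurj

lemma band_descend_of_map {J : Ideal (MvPolynomial (Vr d n) Ω)} (hJ : C ((p : Ω) ^ T) ∈ J)
    {f : MvPolynomial (Vr d n) Ω} (hf : map Ω.subtype f ∈ J.map (map Ω.subtype)) : f ∈ J := by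
  obtain ⟨r, hr, hr1⟩ := exists_witt_retr hsat κ hmem hsurj T
  have h := band_mem_of_map_mem_span hr hr1 (J : Set (MvPolynomial (Vr d n) Ω)) hf
  rw [Ideal.span_eq] at h
  refine SetLike.le_def.1 (sup_le le_rfl ?_) h
  rw [Ideal.map_span, Set.image_singleton, Ideal.span_le, Set.singleton_subset_iff]
  exact hJ

lemma band_descend_rel (hq : 0 < q) (hwt : 0 < wt none) (ht : t ≤ T)
    {f : MvPolynomial (Vr d n) Ω}
    (hf : map Ω.subtype f ∈
      Ideal.span {bandRel p q (WittVector p k)} ⊔ wIdeal (WittVector p k) wt t) :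
    f ∈ Ideal.span {bandRel p q Ω} ⊔ wIdeal Ω wt t := by
  refine band_descend_of_map hsat hmem hsurj (band_C_pow_mem p hq hwt ht) ?_
  rwa [Ideal.map_sup, band_map_wIdeal, Ideal.map_span, Set.image_singleton, band_map_bandRel]

lemma band_descend (hq : 0 < q) (hwt : 0 < wt none) (ht : t ≤ T)
    {g : Hv n → MvPolynomial (Vr d n) (WittVector p k)} {g' : Hv n → MvPolynomial (Vr d n) Ω}
    (hg' : ∀ v, map Ω.subtype (g' v) - g v ∈ Ideal.span {C ((p : WittVector p k) ^ T)})
    {f : MvPolynomial (Vr d n) Ω}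
    (hf : map Ω.subtype f ∈ lIdeal p q g ⊔ wIdeal (WittVector p k) wt t) :
    f ∈ lIdeal p q g' ⊔ wIdeal Ω wt t := by
  rw [← band_map_ideal hq hwt ht hg'] at hf
  exact band_descend_of_map hsat hmem hsurj
    (sup_le_sup_right band_span_rel_le_lIdeal _ (band_C_pow_mem p hq hwt ht)) hf

end descent

section forms

variable {p : ℕ} [Fact p.Prime] {k : Type u} [Field k] [CharP k p] [PerfectRing k p] {d n : ℕ}
  {wt : Vr d n → ℕ} {Ω : Subring (WittVector p k)} {T q : ℕ} {κ : Subfield k}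
  {hmem : ∀ w ∈ Ω, w.coeff 0 ∈ κ} (hB : BandBase p (bandRes Ω κ hmem))
include hB

lemma band_lp_cmp (hq : 0 < q) (hwt : 0 < wt none) {N : ℕ}
    {P : MvPolynomial (Vr d n) κ} {Q : MvPolynomial (Vr d n) k}
    (hPQ : map κ.subtype P = Q) (hQ : IsWeightedHomogeneous wt Q N) :
    map Ω.subtype (bandLp hB P) - liftL p Q ∈
      Ideal.span {bandRel p q (WittVector p k)} ⊔ wIdeal (WittVector p k) wt (N + 1) := by
  have hP : IsWeightedHomogeneous wt P N :=
    band_isWeightedHomogeneous_of_map κ.subtype.injective (hPQ.symm ▸ hQ)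
  refine band_raise_sub bandBase_witt hq hwt (band_map_mem_wIdeal _ (bandLp_mem hB hP)) (band_liftL_mem hQ) ?_
  rw [← map_inI_bandRes Ω κ hmem, inI_bandLp hB hP, hPQ, inI_of_map_eq hQ (band_map_liftL Q)]

/-- The approximated forms have the initial forms of the original ones, on both sides. -/
lemma band_forms (hsat : ∀ w ∈ Ω, (p : WittVector p k) ∣ w → ∃ w' ∈ Ω, w = p * w')
    (hsurj : ∀ a ∈ κ, ∃ w ∈ Ω, w.coeff 0 = a) (hq : 0 < q) (hwt : 0 < wt none)
    {w : Hv n → ℕ} (hTw : ∀ v, w v + 1 ≤ T)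
    {g : Hv n → MvPolynomial (Vr d n) (WittVector p k)} {g' : Hv n → MvPolynomial (Vr d n) Ω}
    (hg' : ∀ v, map Ω.subtype (g' v) - g v ∈ Ideal.span {C ((p : WittVector p k) ^ T)})
    {Fk : Hv n → MvPolynomial (Vr d n) k} (hFk : ∀ v, IsWeightedHomogeneous wt (Fk v) (w v))
    (hg : ∀ v, g v - liftL p (Fk v) ∈
      Ideal.span {bandRel p q (WittVector p k)} ⊔ wIdeal (WittVector p k) wt (w v + 1))
    {Fκ : Hv n → MvPolynomial (Vr d n) κ} (hFκ : ∀ v, map κ.subtype (Fκ v) = Fk v) :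
    BandForms (p := p) (bandRes Ω κ hmem) wt q w g' Fκ ∧
      BandForms (p := p) (WittVector.constantCoeff : WittVector p k →+* k) wt q w
        (fun v => map Ω.subtype (g' v)) Fk := by
  have hFκhom : ∀ v, IsWeightedHomogeneous wt (Fκ v) (w v) := fun v =>
    band_isWeightedHomogeneous_of_map κ.subtype.injective ((hFκ v).symm ▸ hFk v)
  have hinit : ∀ v, g' v - bandLp hB (Fκ v) ∈
      Ideal.span {bandRel p q Ω} ⊔ wIdeal Ω wt (w v + 1) := by
    intro v
    refine band_descend_rel hsat hmem hsurj hq hwt (hTw v) ?_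
    rw [map_sub]
    convert add_mem (band_span_le_sup hq hwt (hTw v) (hg' v))
      (sub_mem (hg v) (band_lp_cmp hB hq hwt (hFκ v) (hFk v))) using 1
    abel
  have HΩ : BandForms (p := p) (bandRes Ω κ hmem) wt q w g' Fκ := by
    refine ⟨hB, hq, hwt, fun v => ?_⟩
    obtain ⟨s, hs, y, hy, hsy⟩ := Submodule.mem_sup.1 (hinit v)
    refine ⟨bandLp hB (Fκ v) + y, add_mem (bandLp_mem hB (hFκhom v))
      (band_wIdeal_anti (Nat.le_succ _) hy), ?_, ?_⟩
    · have : g' v - (bandLp hB (Fκ v) + y) = s := by linear_combination -hsy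
      rwa [this]
    · have h0 : inI (bandRes Ω κ hmem) wt (w v) (bandLp hB (Fκ v) + y - bandLp hB (Fκ v)) =
          0 := by
        rw [add_sub_cancel_left]
        exact inI_eq_zero_of_mem (Nat.lt_succ_self (w v)) hy
      rw [inI_sub, inI_bandLp hB (hFκhom v), sub_eq_zero] at h0
      exact h0
  refine ⟨HΩ, bandBase_witt, hq, hwt, fun v => ?_⟩
  obtain ⟨e', he', hge, hei⟩ := HΩ.init v
  refine ⟨map Ω.subtype e', band_map_mem_wIdeal _ he', ?_, ?_⟩
  · have := Ideal.mem_map_of_mem (map Ω.subtype) hge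
    rwa [Ideal.map_span, Set.image_singleton, band_map_bandRel, map_sub] at this
  · rw [← map_inI_bandRes Ω κ hmem, hei, hFκ]

end forms

section kill

variable {p : ℕ} [Fact p.Prime] {k : Type u} [Field k] [CharP k p] [PerfectRing k p] {A : Type u}
  [CommRing A] [Algebra (WittVector p k) A] {d : ℕ} {x : Fin d → A} {b : ℕ} {G : ℕ → Ideal A}
  (CI : CIData p k A x b G) {Ω : Subring (WittVector p k)} {κ : Subfield k}
  (hsat : ∀ w ∈ Ω, (p : WittVector p k) ∣ w → ∃ w' ∈ Ω, w = p * w')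
  (hmem : ∀ w ∈ Ω, w.coeff 0 ∈ κ) (hsurj : ∀ a ∈ κ, ∃ w ∈ Ω, w.coeff 0 = a)
  {q T K : ℕ} (hq : 0 < q) (hTqK : q * K ≤ T)
  {g : Hv CI.n → MvPolynomial (Vr d CI.n) (WittVector p k)}
  {g' : Hv CI.n → MvPolynomial (Vr d CI.n) Ω}
  (hg' : ∀ v, map Ω.subtype (g' v) - g v ∈ Ideal.span {C ((p : WittVector p k) ^ T)})
  {E' : MvPolynomial (Vr d CI.n) Ω}
  (hkillW : ∀ (φ : MvPowerSeries (Fin d ⊕ Fin CI.n) (WittVector p k))
      (h' : MvPolynomial (Fin d ⊕ Fin CI.n) (WittVector p k)), CI.ev φ = 0 →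
      MemW p CI.wt K (φ - (h' : MvPowerSeries (Fin d ⊕ Fin CI.n) (WittVector p k))) →
      map Ω.subtype E' * piHom q h' ∈ lIdeal p q g ⊔ wIdeal (WittVector p k) CI.wt (q * K))
include hsat hmem hsurj hq hTqK hg' hkillW

/-- `E` kills the polynomials which vanish in `A / G K`. -/
lemma band_ker {h : MvPolynomial (Fin d ⊕ Fin CI.n) Ω} (hh : bandEval CI Ω h ∈ G K) :
    E' * piHom q h ∈ lIdeal p q g' ⊔ wIdeal Ω CI.wt (q * K) := by
  obtain ⟨f, hf, hfe⟩ := (CI.strict K _).1 hh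
  refine band_descend hsat hmem hsurj hq (CI.wt_pos none) hTqK hg' ?_
  rw [map_mul, band_map_piHom]
  refine hkillW (((map Ω.subtype h : MvPolynomial _ (WittVector p k)) :
    MvPowerSeries (Fin d ⊕ Fin CI.n) (WittVector p k)) - f) _ ?_ ?_
  · rw [map_sub, band_ev_coe_map, hfe, sub_self]
  · rw [sub_sub_cancel_left]
    exact band_memW_neg hf

/-- Elements of `G m` have representatives of weight at least `q * m`. -/
lemma band_film {h : MvPolynomial (Fin d ⊕ Fin CI.n) Ω} {m : ℕ} (hh : bandEval CI Ω h ∈ G m) :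
    ∃ y ∈ wIdeal Ω CI.wt (q * m),
      E' * (piHom q h - y) ∈ lIdeal p q g' ⊔ wIdeal Ω CI.wt (q * K) := by
  obtain ⟨r, hr, hr1⟩ := exists_witt_retr hsat κ hmem hsurj T
  obtain ⟨f, hf, hfe⟩ := (CI.strict m _).1 hh
  obtain ⟨f₁, hf₁, hf₁m⟩ := exists_band_trunc CI.wt_pos K f
  have hrel : map Ω.subtype E' * piHom q (map Ω.subtype h - f₁) ∈
      lIdeal p q g ⊔ wIdeal (WittVector p k) CI.wt (q * K) := by
    refine hkillW (((map Ω.subtype h : MvPolynomial _ (WittVector p k)) :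
      MvPowerSeries (Fin d ⊕ Fin CI.n) (WittVector p k)) - f) _
      (by rw [map_sub, band_ev_coe_map, hfe, sub_self]) ?_
    have hcoe : ((map Ω.subtype h - f₁ : MvPolynomial (Fin d ⊕ Fin CI.n) (WittVector p k)) :
        MvPowerSeries (Fin d ⊕ Fin CI.n) (WittVector p k)) =
          ((map Ω.subtype h : MvPolynomial (Fin d ⊕ Fin CI.n) (WittVector p k)) :
            MvPowerSeries (Fin d ⊕ Fin CI.n) (WittVector p k)) -
          (f₁ : MvPowerSeries (Fin d ⊕ Fin CI.n) (WittVector p k)) :=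
      map_sub coeToMvPowerSeries.ringHom _ _
    rw [hcoe, sub_sub_sub_cancel_left, ← neg_sub]
    exact band_memW_neg hf₁
  have hterm : ∀ γ ∈ f₁.support, ∃ (i : ℕ) (ω : Ω),
      m ≤ i * CI.wt none + Finsupp.weight (fun v => CI.wt (some v)) γ ∧
      r (coeff γ f₁) = Ideal.Quotient.mk _ ((p : Ω) ^ i * ω) := by
    intro γ _
    obtain ⟨i, hi, w', hw'⟩ := hf₁m m hf γ
    rw [coeff_coe] at hw'
    obtain ⟨ω, hω⟩ := Ideal.Quotient.mk_surjective (r w')
    refine ⟨i, ω, hi, ?_⟩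
    rw [map_mul, hω, hw', ← hr]
    simp
  choose i ω hi hrc using hterm
  let f₂ : MvPolynomial (Vr d CI.n) Ω := ∑ γ ∈ f₁.support.attach,
    piHom q (monomial γ.1 ((p : Ω) ^ i γ.1 γ.2 * ω γ.1 γ.2))
  have hf₂ : f₂ ∈ Ideal.span {bandRel p q Ω} ⊔ wIdeal Ω CI.wt (q * m) :=
    Ideal.sum_mem _ fun γ _ => band_piHom_monomial_mem p q (hi γ.1 γ.2) _
  obtain ⟨s, hs, y, hy, hsy⟩ := Submodule.mem_sup.1 hf₂
  refine ⟨y, hy, ?_⟩
  have hretr : retrPoly r (piHom q f₁) = map (Ideal.Quotient.mk _) f₂ := by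
    conv_lhs => rw [f₁.as_sum, ← Finset.sum_attach f₁.support]
    rw [map_sum, map_sum]
    simp only [f₂, map_sum]
    refine Finset.sum_congr rfl fun γ _ => ?_
    rw [band_piHom_monomial, band_piHom_monomial, map_monomial, ← hrc γ.1 γ.2]
    classical
    ext δ
    rw [coeff_retrPoly, coeff_monomial, coeff_monomial]
    split_ifs
    · rfl
    · rw [map_zero]
  have h1 : E' * (piHom q h - f₂) ∈ lIdeal p q g' ⊔ wIdeal Ω CI.wt (q * K) := by
    rw [← band_map_ideal hq (CI.wt_pos none) hTqK hg'] at hrel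
    have h3 := band_retrPoly_mem hr ((lIdeal p q g' ⊔ wIdeal Ω CI.wt (q * K) : Ideal _) :
      Set (MvPolynomial (Vr d CI.n) Ω)) hrel
    rw [retrPoly_map_mul hr, map_sub (piHom q), ← band_map_piHom, map_sub,
      retrPoly_map hr hr1, hretr, ← map_sub, ← map_mul, Ideal.span_eq] at h3
    refine SetLike.le_def.1 (sup_le le_rfl ?_) (band_mem_of_map_mk_mem _ h3)
    rw [Ideal.map_span, Set.image_singleton, Ideal.span_le, Set.singleton_subset_iff]
    exact sup_le_sup_right band_span_rel_le_lIdeal _ (band_C_pow_mem p hq (CI.wt_pos none) hTqK)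
  have h2 : E' * s ∈ lIdeal p q g' ⊔ wIdeal Ω CI.wt (q * K) :=
    Ideal.mem_sup_left (Ideal.mul_mem_left _ _ (band_span_rel_le_lIdeal hs))
  convert add_mem h1 h2 using 1
  rw [← hsy]; ring

end kill

section init

variable {p : ℕ} [Fact p.Prime] {k : Type u} [Field k] [CharP k p] [PerfectRing k p] {A : Type u}
  [CommRing A] [Algebra (WittVector p k) A] {d : ℕ} {x : Fin d → A} {b : ℕ} {G : ℕ → Ideal A}
  (CI : CIData p k A x b G) {Ω : Subring (WittVector p k)} {κ : Subfield k}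
  {hmem : ∀ w ∈ Ω, w.coeff 0 ∈ κ} (hB : BandBase p (bandRes Ω κ hmem))

/-- A polynomial with given initial form. -/
lemma exists_band_initPoly {q : ℕ} (hq : 0 < q) (g' : Hv CI.n → MvPolynomial (Vr d CI.n) Ω)
    {m : ℕ} {P : MvPolynomial (Vr d CI.n) κ} (hP : IsWeightedHomogeneous CI.wt P m) :
    ∃ h : MvPolynomial (Fin d ⊕ Fin CI.n) Ω,
      HasInit p CI.wt m ((map Ω.subtype h : MvPolynomial _ (WittVector p k)) :
        MvPowerSeries (Fin d ⊕ Fin CI.n) (WittVector p k)) (P.map κ.subtype) ∧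
      piHom q h - bandLp hB (expand q P) ∈ lIdeal p q g' ⊔ wIdeal Ω CI.wt (q * m + 1) := by
  classical
  have hY := CI.wt_pos none
  let s : κ → Ω := Function.surjInv hB.surj
  have hs : ∀ a, ((s a : Ω) : WittVector p k).coeff 0 = (a : k) := fun a =>
    congrArg Subtype.val (Function.surjInv_eq hB.surj a)
  refine ⟨∑ γ ∈ P.support, monomial γ.some ((p : Ω) ^ γ none * s (coeff γ P)), ⟨?_, ?_⟩, ?_⟩
  · exact band_isWeightedHomogeneous_map _ hP
  · rw [map_sum, liftPi, support_map_of_injective _ κ.subtype.injective,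
      ← coeToMvPowerSeries.ringHom_apply, map_sum, ← Finset.sum_sub_distrib]
    refine band_memW_sum hY _ fun γ hγ => ?_
    rw [map_monomial, coeToMvPowerSeries.ringHom_apply, coe_monomial, ← map_sub, coeff_map]
    refine band_memW_monomial hY (i := γ none + 1) ?_ ?_
    · have h1 := band_weight_split CI.wt γ
      rw [hP (mem_support_iff.1 hγ)] at h1
      rw [add_mul, one_mul]
      omega
    · have h1 : (p : WittVector p k) ∣ (s (coeff γ P) : WittVector p k) -
          WittVector.teichmuller p (κ.subtype (coeff γ P)) :=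
        band_dvd_of_coeff_zero (by
          rw [← WittVector.constantCoeff_apply, map_sub, WittVector.constantCoeff_apply,
            WittVector.constantCoeff_apply, WittVector.teichmuller_coeff_zero, hs]
          exact sub_self _)
      rw [pow_succ]
      convert mul_dvd_mul_left ((p : WittVector p k) ^ γ none) h1 using 1
      simp [mul_sub, mul_comm]
  · let f₃ : MvPolynomial (Vr d CI.n) Ω :=
      ∑ γ ∈ P.support, monomial (q • γ) (s (coeff γ P))
    have hPq := band_isWeightedHomogeneous_expand hP hq.ne'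
    have hf₃map : map (bandRes Ω κ hmem) f₃ = expand q P := by
      conv_rhs => rw [P.as_sum, map_sum]
      simp only [f₃, map_sum, map_monomial, expand_monomial, s, Function.surjInv_eq hB.surj]
    have hf₃w : f₃ ∈ wIdeal Ω CI.wt (q * m) := Ideal.sum_mem _ fun γ hγ =>
      band_monomial_mem_wIdeal (by
        rw [map_nsmul, hP (mem_support_iff.1 hγ), smul_eq_mul]) _
    have h1 : f₃ - bandLp hB (expand q P) ∈ lIdeal p q g' ⊔ wIdeal Ω CI.wt (q * m + 1) :=
      sup_le_sup_right band_span_rel_le_lIdeal _ (band_raise_sub hB hq hY hf₃w (bandLp_mem hB hPq)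
        (by rw [inI_of_map_eq hPq hf₃map, inI_bandLp hB hPq]))
    have h2 : piHom q (∑ γ ∈ P.support, monomial γ.some ((p : Ω) ^ γ none * s (coeff γ P))) -
        f₃ ∈ lIdeal p q g' ⊔ wIdeal Ω CI.wt (q * m + 1) := by
      rw [map_sum, ← Finset.sum_sub_distrib]
      refine Ideal.sum_mem _ fun γ _ => ?_
      rw [band_piHom_monomial]
      have h3 := band_pow_rel p q (γ none) ((q • γ.some).mapDomain some) (s (coeff γ P))
      rw [band_smul_split] at h3
      exact Ideal.mem_sup_left (band_span_rel_le_lIdeal h3)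
    simpa using add_mem h2 h1

end init

section stage

variable {p : ℕ} [Fact p.Prime] {R : Type u} [CommRing R] {k : Type u} [Field k] [CharP k p]
  {A : Type u} [CommRing A] [IsLocalRing A] [Algebra R A] [Algebra (WittVector p k) A] {d : ℕ}
  {x : Fin d → A} {b : ℕ} {G : ℕ → Ideal A} (CI : CIData p k A x b G)
  {Ω : Subring (WittVector p k)} {As : Subalgebra R A} {T : ℕ}

lemma band_span_inter (hν : NuFil p k A x b G) {m : ℕ} (hTG : maximalIdeal A ^ T ≤ G m)
    (hΩAs : ∀ w ∈ Ω, algebraMap (WittVector p k) A w ∈ As)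
    (hvarAs : ∀ v, CI.ev (MvPowerSeries.X v) ∈ As) (hdeep : ∀ a ∈ maximalIdeal A ^ T, a ∈ As) :
    G m = Ideal.span ((G m : Set A) ∩ (As : Set A)) := by
  refine le_antisymm (fun a ha => ?_) (Ideal.span_le.2 Set.inter_subset_left)
  obtain ⟨f, hf, hfe⟩ := (CI.strict m a).1 ha
  obtain ⟨c₀, hc₀⟩ := hν.bound
  obtain ⟨f₁, hf₁, hf₁m⟩ := exists_band_trunc CI.wt_pos (b * (T + c₀)) f
  have h1 : a - CI.ev (f₁ : MvPowerSeries (Fin d ⊕ Fin CI.n) (WittVector p k)) ∈
      maximalIdeal A ^ T := by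
    have h2 := hc₀ _ ((CI.strict _ _).2 ⟨_, hf₁, rfl⟩)
    rwa [Nat.add_sub_cancel, map_sub, hfe] at h2
  have h2 : a - CI.ev (f₁ : MvPowerSeries (Fin d ⊕ Fin CI.n) (WittVector p k)) ∈
      Ideal.span ((G m : Set A) ∩ (As : Set A)) :=
    Ideal.subset_span ⟨hTG h1, hdeep _ h1⟩
  have h3 : CI.ev (f₁ : MvPowerSeries (Fin d ⊕ Fin CI.n) (WittVector p k)) ∈
      Ideal.span ((G m : Set A) ∩ (As : Set A)) := by
    rw [← coeToMvPowerSeries.ringHom_apply, f₁.as_sum, map_sum, map_sum]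
    refine Ideal.sum_mem _ fun γ _ => ?_
    obtain ⟨i, hi, w', hw'⟩ := hf₁m m hf γ
    rw [coeff_coe] at hw'
    have h4 : CI.ev (coeToMvPowerSeries.ringHom (monomial γ (coeff γ f₁))) =
        algebraMap (WittVector p k) A w' * bandEval CI Ω (monomial γ ((p : Ω) ^ i)) := by
      rw [← band_ev_coe_map, coeToMvPowerSeries.ringHom_apply, ← CI.ev_C, ← map_mul, ← coe_C,
        ← coe_mul, map_monomial, C_mul_monomial, hw', mul_comm w']
      simp
    rw [h4]
    refine Ideal.mul_mem_left _ _ (Ideal.subset_span ⟨?_, bandEval_mem CI Ω hΩAs hvarAs _⟩)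
    refine (CI.strict m _).2 ⟨((map Ω.subtype (monomial γ ((p : Ω) ^ i)) :
      MvPolynomial _ (WittVector p k)) : MvPowerSeries (Fin d ⊕ Fin CI.n) (WittVector p k)), ?_,
      band_ev_coe_map CI Ω _⟩
    rw [map_monomial, coe_monomial]
    exact band_memW_monomial (CI.wt_pos none) hi (by simp)
  simpa using add_mem h2 h3

lemma band_mem_range [DecidableEq A] {K : ℕ} (hTG : maximalIdeal A ^ T ≤ G K)
    (hpA : (p : A) ∈ maximalIdeal A) {Z₀ : Finset A}
    {hz : A → MvPolynomial (Fin d ⊕ Fin CI.n) (WittVector p k)}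
    (hhz : ∀ z, z - CI.ev (hz z : MvPowerSeries (Fin d ⊕ Fin CI.n) (WittVector p k)) ∈ G K)
    (hzS : ∀ z ∈ Z₀, ∀ w ∈ (hz z).coeffs, ∃ w' ∈ Ω, (p : WittVector p k) ^ T ∣ w - w')
    {a a' : A}
    (ha' : a' ∈ Subring.closure
      ((algebraMap (WittVector p k) A) '' (Ω : Set (WittVector p k)) ∪
        ↑(Finset.univ.image fun v => CI.ev (MvPowerSeries.X v)) ∪ ↑Z₀))
    (hd : a - a' ∈ maximalIdeal A ^ T) :
    Ideal.Quotient.mk (G K) a ∈ ((Ideal.Quotient.mk (G K)).comp (bandEval CI Ω)).range := by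
  rw [show Ideal.Quotient.mk (G K) a = Ideal.Quotient.mk (G K) a' from
    Ideal.Quotient.eq.2 (hTG hd)]
  refine (Subring.closure_le (t := ((Ideal.Quotient.mk (G K)).comp (bandEval CI Ω)).range.comap
    (Ideal.Quotient.mk (G K)))).2 ?_ ha'
  rintro z ((⟨w', hw', rfl⟩ | hz') | hz')
  · exact ⟨C ⟨w', hw'⟩, congrArg (Ideal.Quotient.mk (G K)) (bandEval_C CI Ω ⟨w', hw'⟩)⟩
  · obtain ⟨v, -, rfl⟩ := Finset.mem_image.1 hz'
    exact ⟨X v, congrArg (Ideal.Quotient.mk (G K)) (bandEval_X CI Ω v)⟩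
  · obtain ⟨h', hh'⟩ := exists_band_approx Ω T (hz z) (hzS z hz')
    refine ⟨h', Ideal.Quotient.eq.2 ?_⟩
    obtain ⟨c', hc'⟩ := Ideal.mem_span_singleton'.1 hh'
    have h1 := congrArg (fun f : MvPolynomial (Fin d ⊕ Fin CI.n) (WittVector p k) =>
      CI.ev (coeToMvPowerSeries.ringHom f)) hc'
    simp only [map_mul, map_sub, coeToMvPowerSeries.ringHom_apply, CI.ev_C, map_pow, map_natCast, band_ev_coe_map] at h1
    have h2 : bandEval CI Ω h' - CI.ev ((hz z : MvPolynomial _ (WittVector p k)) :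
        MvPowerSeries (Fin d ⊕ Fin CI.n) (WittVector p k)) ∈ G K := by
      rw [← h1]
      exact Ideal.mul_mem_left _ _ (hTG (Ideal.pow_mem_pow hpA T))
    convert sub_mem h2 (hhz z) using 1
    abel

end stage

end Vale.Agent.P202
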