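import Vale.Agent.P202.InterfacesM2

/-!
Polynomials over a ring `B` with residue ring `B / p`, filtered by weight modulo `Y ^ q - p`: the
initial forms, and the initial forms of the ideal of the forms `g` with a Koszul resolution.
-/

universe u

namespace Vale.Agent.P202

open MvPolynomial

variable {d n : ℕ}

/-- `Y ^ q - p`. -/
noncomputable abbrev bandRel (p q : ℕ) (B : Type u) [CommRing B] : MvPolynomial (Vr d n) B :=
  X none ^ q - C (p : B)

section

variable {B : Type u} [CommRing B] {wt : Vr d n → ℕ}

lemma band_mem_wIdeal {t : ℕ} {f : MvPolynomial (Vr d n) B} :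
    f ∈ wIdeal B wt t ↔ ∀ γ, coeff γ f ≠ 0 → t ≤ Finsupp.weight wt γ := by
  have e : {m : MvPolynomial (Vr d n) B | ∃ γ, t ≤ Finsupp.weight wt γ ∧ m = monomial γ 1} =
      (fun s => monomial s (1 : B)) '' {γ | t ≤ Finsupp.weight wt γ} := by
    ext m; simp [eq_comm]
  rw [wIdeal, e, mem_ideal_span_monomial_image]
  constructor
  · intro h γ hγ
    obtain ⟨δ, hδ, hle⟩ := h γ (mem_support_iff.2 hγ)
    obtain ⟨ε, rfl⟩ := le_iff_exists_add.1 hle
    rw [map_add]
    exact le_add_right hδ
  · intro h γ hγ
    exact ⟨γ, h γ (mem_support_iff.1 hγ), le_rfl⟩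

lemma band_coeff_eq_zero_of_mem_wIdeal {t : ℕ} {f : MvPolynomial (Vr d n) B} (h : f ∈ wIdeal B wt t)
    {γ : Vr d n →₀ ℕ} (hγ : Finsupp.weight wt γ < t) : coeff γ f = 0 := by
  by_contra hc
  exact absurd (band_mem_wIdeal.1 h γ hc) (not_le.2 hγ)

lemma band_monomial_mem_wIdeal {t : ℕ} {γ : Vr d n →₀ ℕ} (h : t ≤ Finsupp.weight wt γ) (a : B) :
    monomial γ a ∈ wIdeal B wt t := by
  classical
  rw [band_mem_wIdeal]
  intro δ hδ
  rw [coeff_monomial] at hδ
  split_ifs at hδ with e
  · exact e ▸ h
  · exact absurd rfl hδ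

lemma band_wIdeal_anti {s t : ℕ} (h : s ≤ t) : wIdeal B wt t ≤ wIdeal B wt s := fun f hf =>
  band_mem_wIdeal.2 fun γ hγ => h.trans (band_mem_wIdeal.1 hf γ hγ)

lemma band_mem_wIdeal_zero (f : MvPolynomial (Vr d n) B) : f ∈ wIdeal B wt 0 :=
  band_mem_wIdeal.2 fun _ _ => Nat.zero_le _

lemma band_mul_mem_wIdeal {s t : ℕ} {f g : MvPolynomial (Vr d n) B} (hf : f ∈ wIdeal B wt s)
    (hg : g ∈ wIdeal B wt t) : f * g ∈ wIdeal B wt (s + t) := by
  classical
  rw [band_mem_wIdeal] at hf hg ⊢
  intro γ hγ
  obtain ⟨a, ha, b, hb, rfl⟩ := Finset.mem_add.1 (support_mul f g (mem_support_iff.2 hγ))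
  rw [map_add]
  exact add_le_add (hf a (mem_support_iff.1 ha)) (hg b (mem_support_iff.1 hb))

lemma band_wIdeal_mul_le (s t : ℕ) : wIdeal B wt s * wIdeal B wt t ≤ wIdeal B wt (s + t) :=
  Ideal.mul_le.2 fun _ hf _ hg => band_mul_mem_wIdeal hf hg

lemma band_mem_wIdeal_of_isWeightedHomogeneous {t : ℕ} {f : MvPolynomial (Vr d n) B}
    (h : IsWeightedHomogeneous wt f t) : f ∈ wIdeal B wt t :=
  band_mem_wIdeal.2 fun _ hγ => (h hγ).ge

lemma band_map_mem_wIdeal {C' : Type u} [CommRing C'] (φ : B →+* C') {t : ℕ}
    {f : MvPolynomial (Vr d n) B} (h : f ∈ wIdeal B wt t) : map φ f ∈ wIdeal C' wt t :=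
  band_mem_wIdeal.2 fun γ hγ => band_mem_wIdeal.1 h γ fun h0 => hγ (by rw [coeff_map, h0, map_zero])

lemma band_weight_add_single (wt : Vr d n → ℕ) (q : ℕ) (γ : Vr d n →₀ ℕ) :
    Finsupp.weight wt (γ + Finsupp.single none q) = Finsupp.weight wt γ + q * wt none := by
  rw [map_add, Finsupp.weight_single, smul_eq_mul]

lemma band_monomial_mul_p (p q : ℕ) (γ : Vr d n →₀ ℕ) (b : B) :
    monomial γ ((p : B) * b) =
      monomial (γ + Finsupp.single none q) b - monomial γ b * bandRel p q B := by
  rw [mul_sub, X_pow_eq_monomial, monomial_mul, mul_one, mul_comm (monomial γ b) (C _),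
    C_mul_monomial]
  abel

end

section residue

variable (p : ℕ) {B : Type u} [CommRing B] {κ : Type u} [CommRing κ] (res : B →+* κ)

/-- `B` has no `p`-torsion and residue ring `B / p`. -/
structure BandBase : Prop where
  surj : Function.Surjective res
  dvd : ∀ b, res b = 0 → (p : B) ∣ b
  char : res (p : B) = 0
  tfree : ∀ b : B, (p : B) * b = 0 → b = 0

/-- The initial form of weight `N`. -/
noncomputable def inI (wt : Vr d n → ℕ) (N : ℕ) (f : MvPolynomial (Vr d n) B) :
    MvPolynomial (Vr d n) κ :=
  weightedHomogeneousComponent wt N (map res f)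

variable {res} {wt : Vr d n → ℕ}

lemma coeff_inI (N : ℕ) (f : MvPolynomial (Vr d n) B) (γ : Vr d n →₀ ℕ) :
    coeff γ (inI res wt N f) = if Finsupp.weight wt γ = N then res (coeff γ f) else 0 := by
  classical
  rw [inI, coeff_weightedHomogeneousComponent, coeff_map]

lemma inI_hom (N : ℕ) (f : MvPolynomial (Vr d n) B) :
    IsWeightedHomogeneous wt (inI res wt N f) N :=
  weightedHomogeneousComponent_isWeightedHomogeneous N _

lemma inI_sub (N : ℕ) (f g : MvPolynomial (Vr d n) B) :
    inI res wt N (f - g) = inI res wt N f - inI res wt N g := by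
  rw [inI, map_sub, map_sub]; rfl

lemma inI_sum {ι : Type*} (s : Finset ι) (N : ℕ) (f : ι → MvPolynomial (Vr d n) B) :
    inI res wt N (∑ i ∈ s, f i) = ∑ i ∈ s, inI res wt N (f i) := by
  rw [inI, map_sum, map_sum]; rfl

lemma inI_eq_zero_of_mem {N t : ℕ} (h : N < t) {f : MvPolynomial (Vr d n) B}
    (hf : f ∈ wIdeal B wt t) : inI res wt N f = 0 := by
  ext γ
  rw [coeff_inI, coeff_zero]
  split_ifs with e
  · rw [band_coeff_eq_zero_of_mem_wIdeal hf (e ▸ h), map_zero]
  · rfl

lemma inI_mul {M N : ℕ} {f g : MvPolynomial (Vr d n) B} (hf : f ∈ wIdeal B wt M)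
    (hg : g ∈ wIdeal B wt N) :
    inI res wt (M + N) (f * g) = inI res wt M f * inI res wt N g := by
  classical
  ext γ
  by_cases e : Finsupp.weight wt γ = M + N
  · rw [coeff_inI, if_pos e, coeff_mul, map_sum, coeff_mul]
    refine Finset.sum_congr rfl ?_
    rintro ⟨a, b⟩ hab
    rw [Finset.HasAntidiagonal.mem_antidiagonal] at hab
    subst hab
    dsimp only at e ⊢
    rw [map_add] at e
    rw [coeff_inI, coeff_inI, map_mul]
    by_cases ha : coeff a f = 0
    · simp [ha]
    by_cases hb : coeff b g = 0
    · simp [hb]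
    have h1 := band_mem_wIdeal.1 hf a ha
    have h2 := band_mem_wIdeal.1 hg b hb
    rw [if_pos (by omega), if_pos (by omega)]
  · rw [coeff_inI, if_neg e]
    by_contra hne
    exact e (((inI_hom M f).mul (inI_hom N g)) fun h => hne h.symm)

variable {p} (hB : BandBase p res)
include hB

lemma BandBase.exists_lift {N : ℕ} {P : MvPolynomial (Vr d n) κ}
    (hP : IsWeightedHomogeneous wt P N) :
    ∃ f ∈ wIdeal B wt N, inI res wt N f = P := by
  choose s hs using hB.surj
  refine ⟨∑ γ ∈ P.support, monomial γ (s (coeff γ P)), Ideal.sum_mem _ fun γ hγ =>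
    band_monomial_mem_wIdeal (hP (mem_support_iff.1 hγ)).ge _, ?_⟩
  rw [inI, map_sum]
  simp only [map_monomial, hs, ← as_sum]
  exact weightedHomogeneousComponent_of_mem (m := N) (by
    rw [mem_weightedHomogeneousSubmodule]; exact hP) |>.trans (by simp)

/-- A multiple of `Y ^ q - p` of weight at least `N` has a factor of weight at least `N`. -/
lemma BandBase.rel_factor {q : ℕ} (hq : 0 < q) (hwt : 0 < wt none) {N : ℕ}
    {r : MvPolynomial (Vr d n) B} (h : r * bandRel p q B ∈ wIdeal B wt N) :
    r ∈ wIdeal B wt N := by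
  classical
  rw [band_mem_wIdeal]
  intro γ hγ
  by_contra hlt
  rw [not_le] at hlt
  apply hγ
  induction hm : Finsupp.weight wt γ using Nat.strong_induction_on generalizing γ with
  | _ m ih =>
    have h0 := band_coeff_eq_zero_of_mem_wIdeal h hlt
    rw [mul_sub, coeff_sub, X_pow_eq_monomial, coeff_mul_monomial', mul_comm r (C _),
      coeff_C_mul, mul_one] at h0
    split_ifs at h0 with hle
    · have hlt' : Finsupp.weight wt (γ - Finsupp.single none q) < m := by
        have := band_weight_add_single wt q (γ - Finsupp.single none q)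
        rw [tsub_add_cancel_of_le hle] at this
        have : 0 < q * wt none := Nat.mul_pos hq hwt
        omega
      have hz : coeff (γ - Finsupp.single none q) r = 0 := by
        by_contra hne
        exact hne (ih _ hlt' _ hne (by omega) rfl)
      rw [hz, zero_sub, neg_eq_zero] at h0
      exact hB.tfree _ h0
    · rw [zero_sub, neg_eq_zero] at h0
      exact hB.tfree _ h0

/-- Congruent elements of weight at least `N` have the same initial form. -/
lemma BandBase.inI_congr {q : ℕ} (hq : 0 < q) (hwt : 0 < wt none) {N : ℕ}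
    {f g : MvPolynomial (Vr d n) B} (hf : f ∈ wIdeal B wt N) (hg : g ∈ wIdeal B wt N)
    (h : f - g ∈ Ideal.span {bandRel p q B}) : inI res wt N f = inI res wt N g := by
  obtain ⟨r, hr⟩ := Ideal.mem_span_singleton'.1 h
  have hrN : r ∈ wIdeal B wt N := hB.rel_factor hq hwt (hr ▸ sub_mem hf hg)
  rw [← sub_eq_zero, ← inI_sub, ← hr, mul_sub]
  have h1 : r * X none ^ q ∈ wIdeal B wt (N + q * wt none) :=
    band_mul_mem_wIdeal hrN (by
      rw [X_pow_eq_monomial]
      exact band_monomial_mem_wIdeal (by rw [Finsupp.weight_single, smul_eq_mul]) _)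
  have hqp : 0 < q * wt none := Nat.mul_pos hq hwt
  rw [inI_sub, inI_eq_zero_of_mem (by omega) h1, zero_sub, neg_eq_zero]
  ext γ
  rw [coeff_inI, coeff_zero]
  split_ifs
  · rw [mul_comm, coeff_C_mul, map_mul, hB.char, zero_mul]
  · rfl

/-- A vanishing initial form raises the weight modulo `Y ^ q - p`. -/
lemma BandBase.raise {q : ℕ} (hq : 0 < q) (hwt : 0 < wt none) {N : ℕ}
    {f : MvPolynomial (Vr d n) B} (hf : f ∈ wIdeal B wt N) (h0 : inI res wt N f = 0) :
    f ∈ Ideal.span {bandRel p q B} ⊔ wIdeal B wt (N + 1) := by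
  rw [f.as_sum]
  refine Ideal.sum_mem _ fun γ hγ => ?_
  rcases lt_or_eq_of_le (band_mem_wIdeal.1 hf γ (mem_support_iff.1 hγ)) with hlt | heq
  · exact Ideal.mem_sup_right (band_monomial_mem_wIdeal hlt _)
  · have hr : res (coeff γ f) = 0 := by
      have := congrArg (coeff γ) h0
      rwa [coeff_inI, if_pos heq.symm, coeff_zero] at this
    obtain ⟨b, hb⟩ := hB.dvd _ hr
    rw [hb, band_monomial_mul_p p q]
    have : 0 < q * wt none := Nat.mul_pos hq hwt
    exact sub_mem (Ideal.mem_sup_right (band_monomial_mem_wIdeal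
        (by rw [band_weight_add_single]; omega) _))
      (Ideal.mem_sup_left (Ideal.mul_mem_left _ _ (Ideal.subset_span rfl)))

end residue

section forms

variable {p : ℕ} [Fact p.Prime] {B : Type u} [CommRing B] {κ : Type u} [CommRing κ]
  {res : B →+* κ}

/-- Relations of the forms are antisymmetric combinations of the forms. -/
def BandKoszul (wt : Vr d n → ℕ) (w : Hv n → ℕ) (F : Hv n → MvPolynomial (Vr d n) κ) : Prop :=
  ∀ (N : ℕ) (a : Hv n → MvPolynomial (Vr d n) κ),
    (∀ v, ∀ γ, coeff γ (a v) ≠ 0 → Finsupp.weight wt γ + w v = N) →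
    ∑ v, a v * F v = 0 → ∃ b : Hv n → Hv n → MvPolynomial (Vr d n) κ,
      (∀ v u, b v u = -b u v) ∧ (∀ v, b v v = 0) ∧ (∀ v, a v = ∑ u, b v u * F u) ∧
      ∀ v u γ, coeff γ (b v u) ≠ 0 → Finsupp.weight wt γ + w v + w u = N

/-- The forms `g` have the initial forms `F`. -/
structure BandForms (res : B →+* κ) (wt : Vr d n → ℕ) (q : ℕ) (w : Hv n → ℕ)
    (g : Hv n → MvPolynomial (Vr d n) B) (F : Hv n → MvPolynomial (Vr d n) κ) : Prop where
  base : BandBase p res
  q_pos : 0 < q
  wt_pos : 0 < wt none
  init : ∀ v, ∃ e ∈ wIdeal B wt (w v), g v - e ∈ Ideal.span {bandRel p q B} ∧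
    inI res wt (w v) e = F v

variable {wt : Vr d n → ℕ} {q : ℕ} {w : Hv n → ℕ} {g : Hv n → MvPolynomial (Vr d n) B}
  {F : Hv n → MvPolynomial (Vr d n) κ}

omit [Fact p.Prime] in
lemma band_span_rel_le_lIdeal :
    Ideal.span {bandRel p q B} ≤ lIdeal p q g :=
  Ideal.span_mono (Set.singleton_subset_iff.2 (Set.mem_insert _ _))

/-- A form whose initial form is in the ideal of the `F` can be raised modulo the ideal. -/
lemma BandForms.mem_of_init (H : BandForms (p := p) res wt q w g F) {N : ℕ}
    {f : MvPolynomial (Vr d n) B} (hf : f ∈ wIdeal B wt N)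
    (h : inI res wt N f ∈ Ideal.span (Set.range F)) :
    f ∈ lIdeal p q g ⊔ wIdeal B wt (N + 1) := by
  classical
  choose e he heg hei using H.init
  obtain ⟨c, hc⟩ := Ideal.mem_span_range_iff_exists_fun.1 h
  have hA : ∀ v, ∃ a : MvPolynomial (Vr d n) B, a * e v ∈ wIdeal B wt N ∧
      inI res wt N (a * e v) = weightedHomogeneousComponent wt N (c v * F v) := by
    intro v
    have hF : IsWeightedHomogeneous wt (F v) (w v) := hei v ▸ inI_hom _ _
    by_cases hv : w v ≤ N
    · obtain ⟨a, ha, hai⟩ := H.base.exists_lift (N := N - w v)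
        (P := weightedHomogeneousComponent wt (N - w v) (c v))
        (weightedHomogeneousComponent_isWeightedHomogeneous _ _)
      refine ⟨a, by simpa [Nat.sub_add_cancel hv] using band_mul_mem_wIdeal ha (he v), ?_⟩
      have := inI_mul (res := res) ha (he v)
      rw [Nat.sub_add_cancel hv, hai, hei] at this
      rw [this]
      ext γ
      rw [coeff_weightedHomogeneousComponent]
      split_ifs with hγ
      · rw [coeff_mul, coeff_mul]
        refine Finset.sum_congr rfl ?_
        rintro ⟨x, y⟩ hxy
        rw [Finset.HasAntidiagonal.mem_antidiagonal] at hxy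
        subst hxy
        dsimp only at hγ ⊢
        rw [map_add] at hγ
        rw [coeff_weightedHomogeneousComponent]
        by_cases hy : coeff y (F v) = 0
        · simp [hy]
        · rw [if_pos (by have := hF hy; omega)]
      · by_contra hne
        exact hγ (by
          have := ((weightedHomogeneousComponent_isWeightedHomogeneous (N - w v) (c v)).mul hF)
            hne
          rwa [Nat.sub_add_cancel hv] at this)
    · refine ⟨0, by simp, ?_⟩
      rw [zero_mul]
      ext γ
      rw [coeff_inI, coeff_weightedHomogeneousComponent, coeff_zero, map_zero]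
      split_ifs with hγ
      · rw [coeff_mul, Finset.sum_eq_zero]
        rintro ⟨x, y⟩ hxy
        rw [Finset.HasAntidiagonal.mem_antidiagonal] at hxy
        subst hxy
        dsimp only at hγ ⊢
        rw [map_add] at hγ
        by_cases hy : coeff y (F v) = 0
        · simp [hy]
        · exact absurd (hF hy) (by omega)
      · rfl
  choose a ha hai using hA
  have hN : f - ∑ v, a v * e v ∈ wIdeal B wt N :=
    sub_mem hf (Ideal.sum_mem _ fun v _ => ha v)
  have h0 : inI res wt N (f - ∑ v, a v * e v) = 0 := by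
    rw [inI_sub, inI_sum, Finset.sum_congr rfl fun v _ => hai v, ← map_sum, hc, sub_eq_zero]
    exact ((weightedHomogeneousComponent_of_mem (m := N) (by
      rw [mem_weightedHomogeneousSubmodule]; exact inI_hom N f)).trans (by simp)).symm
  have h1 : ∑ v, a v * e v ∈ lIdeal p q g := by
    refine Ideal.sum_mem _ fun v _ => Ideal.mul_mem_left _ _ ?_
    have hg : g v ∈ lIdeal p q g := Ideal.subset_span (Set.mem_insert_of_mem _ ⟨v, rfl⟩)
    simpa using sub_mem hg (band_span_rel_le_lIdeal (heg v))
  have h2 := H.base.raise H.q_pos H.wt_pos hN h0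
  simpa using add_mem
    (sup_le_sup_right (band_span_rel_le_lIdeal (g := g)) (wIdeal B wt (N + 1)) h2)
    (Ideal.mem_sup_left (T := wIdeal B wt (N + 1)) h1)

/-- Initial forms of elements of the ideal are in the ideal of the `F`. -/
lemma BandForms.init_of_mem (H : BandForms (p := p) res wt q w g F) (hK : BandKoszul wt w F)
    {N : ℕ} {f : MvPolynomial (Vr d n) B} (hf : f ∈ wIdeal B wt N)
    (h : f ∈ lIdeal p q g ⊔ wIdeal B wt (N + 1)) :
    inI res wt N f ∈ Ideal.span (Set.range F) := by
  classical
  choose e he heg hei using H.init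
  set J : Ideal (MvPolynomial (Vr d n) B) := Ideal.span {bandRel p q B} ⊔ wIdeal B wt (N + 1)
    with hJ
  have start : ∃ a : Hv n → MvPolynomial (Vr d n) B, f - ∑ v, a v * e v ∈ J := by
    have hle : lIdeal p q g ⊔ wIdeal B wt (N + 1) ≤ Ideal.span (Set.range e) ⊔ J := by
      refine sup_le ?_ (le_trans le_sup_right le_sup_right)
      rw [lIdeal, Ideal.span_le]
      rintro x (rfl | ⟨v, rfl⟩)
      · exact Ideal.mem_sup_right (Ideal.mem_sup_left (Ideal.subset_span rfl))
      · have h1 : e v ∈ Ideal.span (Set.range e) ⊔ J :=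
          Ideal.mem_sup_left (Ideal.subset_span (Set.mem_range_self v))
        have h2 : g v - e v ∈ Ideal.span (Set.range e) ⊔ J :=
          Ideal.mem_sup_right (Ideal.mem_sup_left (heg v))
        simpa using add_mem h1 h2
    obtain ⟨x, hx, y, hy, hxy⟩ := Submodule.mem_sup.1 (hle h)
    obtain ⟨a, ha⟩ := Ideal.mem_span_range_iff_exists_fun.1 hx
    exact ⟨a, by rw [ha, ← hxy, add_sub_cancel_left]; exact hy⟩
  have key : ∀ M, M ≤ N → ∃ a : Hv n → MvPolynomial (Vr d n) B,
      (∀ v, a v ∈ wIdeal B wt (M - w v)) ∧ f - ∑ v, a v * e v ∈ J := by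
    intro M
    induction M with
    | zero =>
      intro _
      obtain ⟨a, ha⟩ := start
      exact ⟨a, fun v => by simpa using band_mem_wIdeal_zero (a v), ha⟩
    | succ M ih =>
      intro hM
      obtain ⟨a, ha, hfa⟩ := ih (by omega)
      have hae : ∀ v, a v * e v ∈ wIdeal B wt M := fun v =>
        band_wIdeal_anti (by omega) (band_mul_mem_wIdeal (ha v) (he v))
      set A : Hv n → MvPolynomial (Vr d n) κ :=
        fun v => if w v ≤ M then inI res wt (M - w v) (a v) else 0 with hAdef
      have hAe : ∀ v, inI res wt M (a v * e v) = A v * F v := by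
        intro v
        rw [hAdef]
        dsimp only
        split_ifs with hv
        · have := inI_mul (res := res) (ha v) (he v)
          rwa [Nat.sub_add_cancel hv, hei] at this
        · rw [zero_mul]
          exact inI_eq_zero_of_mem (not_le.1 hv) (Ideal.mul_mem_left _ _ (he v))
      have hsum : ∑ v, A v * F v = 0 := by
        obtain ⟨r, hr, y, hy, hry⟩ := Submodule.mem_sup.1 hfa
        have h1 : ∑ v, a v * e v ∈ wIdeal B wt M := Ideal.sum_mem _ fun v _ => hae v
        have h2 : f - y ∈ wIdeal B wt (M + 1) :=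
          sub_mem (band_wIdeal_anti hM hf) (band_wIdeal_anti (by omega) hy)
        have h3 := H.base.inI_congr H.q_pos H.wt_pos h1 (band_wIdeal_anti (by omega) h2) (by
          have h4 : ∑ v, a v * e v - (f - y) = -r := by linear_combination hry
          rw [h4]
          exact neg_mem hr)
        rw [inI_eq_zero_of_mem (Nat.lt_succ_self M) h2, inI_sum] at h3
        rw [← h3]
        exact Finset.sum_congr rfl fun v _ => (hAe v).symm
      obtain ⟨b, hb, hbd, hba, hbw⟩ := hK M A (fun v γ hγ => by
        rw [hAdef] at hγ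
        dsimp only at hγ
        split_ifs at hγ with hv
        · have := inI_hom (res := res) (M - w v) (a v) hγ
          omega
        · simp at hγ) hsum
      let o := Fintype.equivFin (Hv n)
      have hc : ∀ v u, ∃ x ∈ wIdeal B wt (M - w v - w u),
          inI res wt (M - w v - w u) x = if o v < o u then b v u else 0 := by
        intro v u
        refine H.base.exists_lift fun γ hγ => ?_
        split_ifs at hγ with hlt
        · have := hbw v u γ hγ
          omega
        · simp at hγ
      choose x hx hxi using hc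
      have hxw : ∀ v u, x v u ∈ wIdeal B wt (M - w v - w u) ∧
          x u v ∈ wIdeal B wt (M - w v - w u) := fun v u =>
        ⟨hx v u, band_wIdeal_anti (by omega) (hx u v)⟩
      have hbxi : ∀ v u, inI res wt (M - w v - w u) (x v u - x u v) = b v u := by
        intro v u
        rw [inI_sub, hxi, show M - w v - w u = M - w u - w v by omega, hxi]
        rcases lt_trichotomy (o v) (o u) with hlt | heq | hgt
        · rw [if_pos hlt, if_neg hlt.not_gt, sub_zero]
        · obtain rfl := o.injective heq
          rw [sub_self, hbd]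
        · rw [if_neg hgt.not_gt, if_pos hgt, zero_sub, hb v u]
      have hbM : ∀ v u, M < w v + w u → b v u = 0 := by
        intro v u hlt
        ext γ
        by_contra hne
        rw [coeff_zero] at hne
        have := hbw v u γ hne
        omega
      set a' : Hv n → MvPolynomial (Vr d n) B :=
        fun v => a v - ∑ u, (x v u - x u v) * e u with ha'
      have hsame : ∑ v, a' v * e v = ∑ v, a v * e v := by
        simp only [ha', sub_mul, Finset.sum_sub_distrib, Finset.sum_mul]
        rw [Finset.sum_comm (f := fun v u => x u v * e u * e v)]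
        rw [show (∑ v, ∑ u, x v u * e u * e v) = ∑ u, ∑ v, x u v * e u * e v from
          Finset.sum_congr rfl fun v _ => Finset.sum_congr rfl fun u _ => mul_right_comm _ _ _]
        simp
      have ha'w : ∀ v, a' v ∈ wIdeal B wt (M - w v) := fun v =>
        sub_mem (ha v) (Ideal.sum_mem _ fun u _ => band_wIdeal_anti (by omega)
          (band_mul_mem_wIdeal (sub_mem (hxw v u).1 (hxw v u).2) (he u)))
      have ha'' : ∀ v, ∃ y ∈ wIdeal B wt (M + 1 - w v),
          a' v - y ∈ Ideal.span {bandRel p q B} := by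
        intro v
        by_cases hv : w v ≤ M
        · have h0 : inI res wt (M - w v) (a' v) = 0 := by
            rw [ha', inI_sub, inI_sum, show inI res wt (M - w v) (a v) = A v by
              rw [hAdef]; exact (if_pos hv).symm, hba v, sub_eq_zero]
            refine Finset.sum_congr rfl fun u _ => ?_
            by_cases hu : w u ≤ M - w v
            · have := inI_mul (res := res) (sub_mem (hxw v u).1 (hxw v u).2) (he u)
              rw [hbxi, hei, Nat.sub_add_cancel hu] at this
              exact this.symm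
            · rw [hbM v u (by omega), zero_mul]
              exact (inI_eq_zero_of_mem (not_le.1 hu) (Ideal.mul_mem_left _ _ (he u))).symm
          obtain ⟨r, hr, y, hy, hry⟩ :=
            Submodule.mem_sup.1 (H.base.raise H.q_pos H.wt_pos (ha'w v) h0)
          exact ⟨y, by rwa [show M + 1 - w v = M - w v + 1 by omega],
            by rw [← hry, add_sub_cancel_right]; exact hr⟩
        · exact ⟨a' v, by rw [show M + 1 - w v = 0 by omega]; exact band_mem_wIdeal_zero _,
            by rw [sub_self]; exact zero_mem _⟩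
      choose y hy hay using ha''
      refine ⟨y, hy, ?_⟩
      have : f - ∑ v, y v * e v = (f - ∑ v, a v * e v) + ∑ v, (a' v - y v) * e v := by
        simp only [sub_mul, Finset.sum_sub_distrib, hsame]
        ring
      rw [this]
      exact add_mem hfa (Ideal.sum_mem _ fun v _ =>
        Ideal.mem_sup_left (Ideal.mul_mem_right _ _ (hay v)))
  obtain ⟨a, ha, hfa⟩ := key N le_rfl
  obtain ⟨r, hr, y, hy, hry⟩ := Submodule.mem_sup.1 hfa
  have h1 : ∑ v, a v * e v ∈ wIdeal B wt N :=
    Ideal.sum_mem _ fun v _ => band_wIdeal_anti (by omega) (band_mul_mem_wIdeal (ha v) (he v))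
  have h2 := H.base.inI_congr H.q_pos H.wt_pos (sub_mem hf (band_wIdeal_anti (Nat.le_succ N) hy)) h1
    (by
      have h4 : f - y - ∑ v, a v * e v = r := by linear_combination -hry
      rw [h4]
      exact hr)
  rw [inI_sub, inI_eq_zero_of_mem (Nat.lt_succ_self N) hy, sub_zero, inI_sum] at h2
  rw [h2]
  refine Ideal.sum_mem _ fun v _ => ?_
  by_cases hv : w v ≤ N
  · have := inI_mul (res := res) (ha v) (he v)
    rw [Nat.sub_add_cancel hv, hei] at this
    rw [this]
    exact Ideal.mul_mem_left _ _ (Ideal.subset_span ⟨v, rfl⟩)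
  · rw [inI_eq_zero_of_mem (not_le.1 hv) (Ideal.mul_mem_left _ _ (he v))]
    exact zero_mem _

end forms

end Vale.Agent.P202
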