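import Vale.Agent.P202.InterfacesM9

/-!
Independence of the monomials `u ^ e`, `e_l ≤ l`, over the symmetric polynomials: for fixed
exponents below `r` the rest of a relation is a polynomial of degree at most `r` in `u_r` with
coefficients invariant under permutations of `u_0, …, u_r`, and vanishes by Vandermonde.
-/

universe u

namespace Vale.Agent.P202

open MvPolynomial Finset

lemma mf_staircase_indep {k : Type u} [Field k] (m : ℕ)
    (R : ((l : Fin m) → Fin ((l : ℕ) + 1)) → MvPolynomial (Fin m) k)
    (hsym : ∀ e, (R e).IsSymmetric) (h : ∑ e, (∏ l, X l ^ (e l : ℕ)) * R e = 0) :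
    ∀ e, R e = 0 := by
  classical
  suffices hr : ∀ r ≤ m, ∀ f : (l : Fin m) → Fin ((l : ℕ) + 1),
      ∑ e ∈ univ.filter (fun e => ∀ l : Fin m, (l : ℕ) < r → e l = f l),
        (∏ l ∈ univ.filter (fun l : Fin m => r ≤ (l : ℕ)), X l ^ (e l : ℕ)) * R e = 0 by
    intro f
    have h1 := hr m le_rfl f
    rw [show univ.filter (fun e : (l : Fin m) → Fin ((l : ℕ) + 1) =>
        ∀ l : Fin m, (l : ℕ) < m → e l = f l) = {f} by
          ext e; simp [funext_iff],
      Finset.sum_singleton, show univ.filter (fun l : Fin m => m ≤ (l : ℕ)) = ∅ by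
        ext l; simp, Finset.prod_empty, one_mul] at h1
    exact h1
  intro r
  induction r with
  | zero =>
    intro _ f
    rw [show univ.filter (fun e : (l : Fin m) → Fin ((l : ℕ) + 1) =>
        ∀ l : Fin m, (l : ℕ) < 0 → e l = f l) = univ by ext e; simp,
      show univ.filter (fun l : Fin m => 0 ≤ (l : ℕ)) = univ by ext l; simp]
    exact h
  | succ r ih =>
    intro hr f
    let ρ : Fin m := ⟨r, hr⟩
    set T := univ.filter (fun e : (l : Fin m) → Fin ((l : ℕ) + 1) =>
      ∀ l : Fin m, (l : ℕ) < r → e l = f l) with hT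
    set tail : ((l : Fin m) → Fin ((l : ℕ) + 1)) → MvPolynomial (Fin m) k := fun e =>
      (∏ l ∈ univ.filter (fun l : Fin m => r + 1 ≤ (l : ℕ)), X l ^ (e l : ℕ)) * R e with htail
    let H : Fin (r + 1) → MvPolynomial (Fin m) k := fun j =>
      ∑ e ∈ T.filter (fun e => (e ρ : ℕ) = j), tail e
    have hsplit : ∑ j, H j * X ρ ^ (j : ℕ) = 0 := by
      rw [← ih (by omega) f, ← hT,
        ← Finset.sum_fiberwise_of_maps_to (s := T) (t := univ)
          (g := fun e => (⟨(e ρ : ℕ), (e ρ).isLt⟩ : Fin (r + 1))) fun e _ => mem_univ _]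
      refine Finset.sum_congr rfl fun j _ => ?_
      rw [Finset.sum_mul]
      refine Finset.sum_congr (Finset.filter_congr fun e _ => Fin.ext_iff.symm) fun e he => ?_
      rw [Finset.mem_filter] at he
      rw [show univ.filter (fun l : Fin m => r ≤ (l : ℕ)) =
          insert ρ (univ.filter (fun l : Fin m => r + 1 ≤ (l : ℕ))) by
            ext l; simp [ρ, Fin.ext_iff]; omega,
        Finset.prod_insert (by simp [ρ]), htail]
      have hj : (e ρ : ℕ) = (j : ℕ) := congrArg Fin.val he.2
      rw [hj]
      ring
    have hfix : ∀ i : Fin (r + 1), ∀ j,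
        rename (Equiv.swap (Fin.castLE hr i) ρ) (H j) = H j := by
      intro i j
      simp only [H, map_sum, htail, map_mul, map_prod, map_pow, rename_X]
      refine Finset.sum_congr rfl fun e _ => ?_
      congr 1
      · refine Finset.prod_congr rfl fun l hl => ?_
        rw [Finset.mem_filter] at hl
        rw [Equiv.swap_apply_of_ne_of_ne]
        · intro h'
          have := congrArg Fin.val h'
          rw [Fin.val_castLE] at this
          omega
        · intro h'
          have := congrArg Fin.val h'
          simp only [ρ] at this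
          omega
      · exact hsym e _
    have hH : H = 0 := by
      refine Matrix.eq_zero_of_forall_index_sum_mul_pow_eq_zero
        (f := fun i : Fin (r + 1) => (X (Fin.castLE hr i) : MvPolynomial (Fin m) k)) ?_ fun i => ?_
      · exact X_injective.comp (Fin.castLE_injective hr)
      · have h1 := congrArg (rename (Equiv.swap (Fin.castLE hr i) ρ)) hsplit
        simp only [map_sum, map_mul, map_pow, rename_X, hfix, Equiv.swap_apply_right,
          map_zero] at h1
        exact h1
    have h2 := congrFun hH ⟨(f ρ : ℕ), (f ρ).isLt⟩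
    rw [Pi.zero_apply] at h2
    rw [← h2]
    refine Finset.sum_congr ?_ fun e _ => rfl
    ext e
    simp only [hT, Finset.mem_filter, Finset.mem_univ, true_and]
    constructor
    · intro he
      exact ⟨fun l hl => he l (by omega), by rw [he ρ (Nat.lt_succ_self r)]⟩
    · rintro ⟨h3, h4⟩ l hl
      rcases Nat.lt_succ_iff_lt_or_eq.1 hl with h5 | h5
      · exact h3 l h5
      · obtain rfl : l = ρ := Fin.ext h5
        exact Fin.ext h4

lemma mf_splitBasis {k : Type u} [Field k] (m s : ℕ)
    (P : ((l : Fin m) → Fin ((l : ℕ) + 1)) → MvPolynomial (Fin (m + 1)) k)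
    (hP : ∀ e, (P e).IsHomogeneous s)
    (h : ∑ e, (∏ l, X l ^ (e l : ℕ)) *
      aeval (fun i : Fin (m + 1) => esymm (Fin m) k (i : ℕ)) (P e) = 0) :
    ∀ e, P e = 0 := by
  classical
  have h0 := mf_staircase_indep m
    (fun e => aeval (fun i : Fin (m + 1) => esymm (Fin m) k (i : ℕ)) (P e))
    (fun e σ => by
      rw [← AlgHom.comp_apply]
      exact congrArg (fun g : MvPolynomial (Fin (m + 1)) k →ₐ[k] _ => g (P e))
        (algHom_ext fun i => by simp [rename_esymm])) h
  intro e
  let φ : MvPolynomial (Fin (m + 1)) k →ₐ[k] MvPolynomial (Fin m) k :=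
    aeval (Fin.cases (1 : MvPolynomial (Fin m) k) fun i => X i)
  have h1 : φ (P e) = 0 := by
    apply esymmAlgHom_fin_injective k (le_refl m)
    rw [map_zero]
    apply Subtype.ext
    rw [esymmAlgHom_apply]
    refine Eq.trans ?_ ((h0 e).trans (ZeroMemClass.coe_zero _).symm)
    rw [← AlgHom.comp_apply]
    refine congrArg (fun g : MvPolynomial (Fin (m + 1)) k →ₐ[k] _ => g (P e))
      (algHom_ext fun i => ?_)
    induction i using Fin.cases with
    | zero => simp [φ]
    | succ i => simp [φ]
  ext γ
  rw [coeff_zero]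
  by_contra hne
  have hdeg : ∀ δ, coeff δ (P e) ≠ 0 → δ 0 + ∑ i : Fin m, δ i.succ = s := fun δ hδ => by
    have := hP e hδ
    rw [← this, Finsupp.weight_apply, Finsupp.sum_fintype _ _ (fun i => by simp),
      Fin.sum_univ_succ]
    simp
  have hmon : ∀ δ : Fin (m + 1) →₀ ℕ, ∀ c : k,
      φ (monomial δ c) = monomial (Finsupp.tail δ) c := fun δ c => by
    simp only [φ, aeval_monomial, algebraMap_eq]
    rw [Finsupp.prod_fintype _ _ (fun i => pow_zero _), Fin.prod_univ_succ, monomial_eq,
      Finsupp.prod_fintype _ _ (fun i => pow_zero _)]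
    simp [Finsupp.tail_apply]
  have h2 : coeff (Finsupp.tail γ) (φ (P e)) = coeff γ (P e) := by
    conv_lhs => rw [as_sum (P e), map_sum, coeff_sum]
    rw [Finset.sum_eq_single γ]
    · rw [hmon, coeff_monomial, if_pos rfl]
    · intro δ hδ hδγ
      rw [hmon, coeff_monomial, if_neg]
      intro heq
      apply hδγ
      have hsum : ∀ i : Fin m, δ i.succ = γ i.succ := fun i => by
        rw [← Finsupp.tail_apply, ← Finsupp.tail_apply, heq]
      ext i
      induction i using Fin.cases with
      | zero =>
        have h3 := hdeg δ (mem_support_iff.1 hδ)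
        have h4 := hdeg γ hne
        simp only [hsum] at h3
        omega
      | succ i => exact hsum i
    · exact fun hγ => absurd (mem_support_iff.2 hne) hγ
  rw [h1, coeff_zero] at h2
  exact hne h2.symm

/-- The monomials `u ^ e`, `e_l ≤ l`, are independent over the forms in the elementary symmetric
polynomials. -/
theorem goalSplitBasis : GoalSplitBasis.{u} := by
  intro k _ d hd s P hP h
  obtain ⟨m, rfl⟩ : ∃ m, d = m + 1 := ⟨d - 1, by omega⟩
  exact mf_splitBasis m s P hP h

end Vale.Agent.P202
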