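import Vale.Agent.P202.InterfacesBand3
import Vale.Agent.P202.MFSplitBasis

/-!
The comparison of `H^0` (BLUEPRINT_BAND, section 7): the cycles supported on the charts `{0, 1}`
with exponents `e l ≤ l` are boundaries of a window `[0, c)` only if all coefficients have weight
at least `c`.
-/

universe u

namespace Vale.Agent.P202

open Finset MvPolynomial

/-- Exponents below the staircase. -/
abbrev bvlStair (d : ℕ) : Type := (l : Fin (d - 1)) → Fin ((l : ℕ) + 1)

/-- The exponents as integers. -/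
def bvlExp {d : ℕ} (e : bvlStair d) : Fin (d - 1) → ℤ := fun l => ((e l : ℕ) : ℤ)

lemma bvlExp_injective {d : ℕ} : Function.Injective (bvlExp (d := d)) := fun _ _ h =>
  funext fun l => Fin.ext (Int.natCast_inj.1 (congrFun h l))

section chain

variable {R : Type*} [CommRing R] {M : Type*} [AddCommGroup M] [Module R M] {d : ℕ}

/-- The cell of an exponent vector, if any. -/
noncomputable def bvlIdx (i : PIdx d) : Option (bvlStair d) :=
  if h : i.1.1 = univ ∧ i.2.1 = 0 ∧ (∀ l, i.1.2 l ≠ 2) ∧ ∃ e, bvlExp e = i.2.2 then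
    some (Classical.choose h.2.2.2) else none

lemma bvlIdx_some {i : PIdx d} {e : bvlStair d} (h : bvlIdx i = some e) :
    i.1.1 = univ ∧ i.2.1 = 0 ∧ (∀ l, i.1.2 l ≠ 2) ∧ i.2.2 = bvlExp e := by
  rw [bvlIdx] at h
  split at h
  · rename_i h'
    cases h
    exact ⟨h'.1, h'.2.1, h'.2.2.1, (Classical.choose_spec h'.2.2.2).symm⟩
  · cases h

lemma bvlIdx_cell {C : Fin (d - 1) → Fin 3} (hC : ∀ l, C l ≠ 2) (e : bvlStair d) :
    bvlIdx (((univ, C), 0, bvlExp e) : PIdx d) = some e := by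
  rw [bvlIdx, dif_pos ⟨rfl, rfl, hC, e, rfl⟩]
  exact congrArg some (bvlExp_injective (Classical.choose_spec
    (⟨e, rfl⟩ : ∃ e', bvlExp e' = bvlExp e)))

/-- The charts without double inversion. -/
def bvlCharts (d : ℕ) : Finset (Fin (d - 1) → Fin 3) := Fintype.piFinset fun _ => {0, 1}

lemma mem_bvlCharts {C : Fin (d - 1) → Fin 3} : C ∈ bvlCharts d ↔ ∀ l, C l ≠ 2 := by
  rw [bvlCharts, Fintype.mem_piFinset]
  refine forall_congr' fun l => ?_
  generalize C l = x
  revert x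
  decide

variable (R M d) in
/-- The cycle with coefficients on the staircase. -/
noncomputable def bvlChain : (bvlStair d → M) →ₗ[R] (PIdx d →₀ M) :=
  ∑ e, ∑ C ∈ bvlCharts d,
    (Finsupp.lsingle (((univ, C), 0, bvlExp e) : PIdx d)) ∘ₗ LinearMap.proj e

lemma bvlChain_eq (z : bvlStair d → M) :
    bvlChain R M d z =
      ∑ e, ∑ C ∈ bvlCharts d, Finsupp.single (((univ, C), 0, bvlExp e) : PIdx d) (z e) := by
  simp [bvlChain, LinearMap.sum_apply]

lemma bvlChain_apply (z : bvlStair d → M) (i : PIdx d) :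
    bvlChain R M d z i = (bvlIdx i).elim 0 z := by
  classical
  rw [bvlChain_eq, Finsupp.finsetSum_apply,
    Finset.sum_congr rfl fun e _ => Finsupp.finsetSum_apply ..]
  rcases h : bvlIdx i with _ | e
  · refine Finset.sum_eq_zero fun e _ => Finset.sum_eq_zero fun C hC => ?_
    rw [Finsupp.single_apply, if_neg]
    rintro rfl
    rw [bvlIdx_cell (mem_bvlCharts.1 hC) e] at h
    cases h
  · obtain ⟨h1, h2, h3, h4⟩ := bvlIdx_some h
    obtain ⟨⟨J, C⟩, σ, x⟩ := i
    dsimp only at h1 h2 h3 h4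
    subst h1 h2 h4
    rw [Finset.sum_eq_single e, Finset.sum_eq_single C]
    · simp
    · intro C' _ hne
      rw [Finsupp.single_apply, if_neg]
      simpa using hne
    · exact fun hC => absurd (mem_bvlCharts.2 h3) hC
    · intro e' _ hne
      refine Finset.sum_eq_zero fun C' _ => ?_
      rw [Finsupp.single_apply, if_neg]
      simp only [Prod.mk.injEq, true_and, not_and]
      exact fun _ he => hne (bvlExp_injective he)
    · exact fun he => absurd (mem_univ e) he

lemma phiD_bvlChain (X : Fin d → M →ₗ[R] M) (z : bvlStair d → M) :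
    phiD X (bvlChain R M d z) = 0 := by
  have hins : ∀ l, insOp R M l (bvlChain R M d z) = 0 := fun l => by
    simp only [bvlChain_eq, map_sum]
    exact Finset.sum_eq_zero fun e _ => Finset.sum_eq_zero fun C _ => by
      rw [insOp_single, if_pos (mem_univ l)]
  rw [phiD_eq, LinearMap.add_apply, LinearMap.sum_apply,
    Finset.sum_eq_zero (fun l _ => by rw [LinearMap.comp_apply, hins, map_zero]), add_zero]
  ext T
  rw [chOp_apply, Finsupp.zero_apply]
  refine Finset.sum_eq_zero fun l _ => ?_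
  split
  swap
  · rfl
  rw [cechSign_zero_one, neg_smul, ← sub_eq_add_neg, sub_eq_zero, bvlChain_apply, bvlChain_apply]
  congr 2
  have hb : ∀ x : Fin 3, x ≠ 2 → ((∀ j, Function.update T.1.2 l x j ≠ 2) ↔
      ∀ j, j ≠ l → T.1.2 j ≠ 2) := by
    intro x hx
    constructor
    · intro h j hj
      have := h j
      rwa [Function.update_of_ne hj] at this
    · intro h j
      by_cases hj : j = l
      · subst hj; rwa [Function.update_self]
      · rw [Function.update_of_ne hj]; exact h j hj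
  unfold bvlIdx
  simp only [hb 0 (by decide), hb 1 (by decide)]

lemma bvlChain_deg (z : bvlStair d → M) : bvlChain R M d z ∈ phiDeg R M d 0 := by
  intro i hi
  rw [bvlChain_apply]
  rcases h : bvlIdx i with _ | e
  · rfl
  · obtain ⟨h1, h2, h3, h4⟩ := bvlIdx_some h
    refine absurd ?_ hi
    simp only [PIdx.deg, PIdx.nBoth, h1, Finset.card_univ, Fintype.card_fin,
      Finset.filter_eq_empty_iff.2 fun l _ => h3 l, Finset.card_empty]
    simp

lemma bvlChain_mem_phiSub {D : ℕ} {a : Fin (d - 1) → ℤ} {W : ℤ → Submodule R M} {c : ℤ}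
    (ha : ∀ l : Fin (d - 1), a l + (l : ℕ) ≤ d) {z : bvlStair d → M} (hz : ∀ e, z e ∈ W c) :
    bvlChain R M d z ∈ phiSub D a W c := by
  intro i
  rw [bvlChain_apply]
  rcases h : bvlIdx i with _ | e
  · exact ⟨zero_mem _, fun _ => rfl⟩
  · obtain ⟨h1, h2, h3, h4⟩ := bvlIdx_some h
    refine ⟨by simpa [h2] using hz e, fun hn => absurd (fun l => ⟨fun _ => ?_, fun _ => ?_⟩) hn⟩
    · have := (e l).isLt
      have := ha l
      simp only [PIdx.rest, h1, h2, h4, bvlExp, Finset.card_univ, Fintype.card_fin]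
      omega
    · simp only [h4, bvlExp]
      omega

end chain

section evaluation

variable {A : Type*} [CommRing A] {m d : ℕ}

/-- Laurent polynomials in the coordinates `u`. -/
abbrev bvlLP (A : Type*) [CommRing A] (d : ℕ) : Type _ := AddMonoidAlgebra A (Fin (d - 1) → ℤ)

/-- The elementary symmetric polynomials in the coordinates. -/
noncomputable def bvlSym (A : Type*) [CommRing A] (d : ℕ) (l : Fin d) : bvlLP A d :=
  ∑ ε ∈ univ.powersetCard (l : ℕ), AddMonoidAlgebra.single (fun j => if j ∈ ε then 1 else 0) 1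

/-- The value at the chart `0` of the projective lines, with `X l` equal to `e_l`. -/
noncomputable def bvlEv (A : Type*) [CommRing A] (m d : ℕ) :
    (PIdx d →₀ FreeMod A m d) →ₗ[A] (Fin m → bvlLP A d) :=
  Finsupp.lsum A fun i => if i.1 = (univ, fun _ => 0) then
      Finsupp.linearCombination A fun p : FIdx m d => Pi.single p.1
        (AddMonoidAlgebra.single i.2.2 1 * ∏ l, bvlSym A d l ^ p.2 l)
    else 0

lemma bvlEv_single (i : PIdx d) (p : FIdx m d) (v : A) :
    bvlEv A m d (Finsupp.single i (Finsupp.single p v)) = if i.1 = (univ, fun _ => 0) then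
      v • Pi.single p.1 (AddMonoidAlgebra.single i.2.2 1 * ∏ l, bvlSym A d l ^ p.2 l) else 0 := by
  rw [bvlEv, Finsupp.lsum_single]
  split <;> simp

lemma bvlEv_phiDF (f : PIdx d →₀ FreeMod A m d) : bvlEv A m d (phiDF A m d f) = 0 := by
  induction f using Finsupp.induction_linear with
  | zero => simp
  | add f g hf hg => rw [map_add, map_add, hf, hg, add_zero]
  | single i w =>
  induction w using Finsupp.induction_linear with
  | zero => simp
  | add f g hf hg => rw [Finsupp.single_add, map_add, map_add, hf, hg, add_zero]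
  | single p v =>
  obtain ⟨⟨J, C⟩, σ, e⟩ := i
  rw [phiDF, phiD_single, map_add, map_sum, map_zsmul, map_sum]
  rw [Finset.sum_eq_zero, zero_add, Finset.sum_eq_zero, smul_zero]
  · intro l hl
    rw [map_zsmul, phiT_single, map_sub, map_sum, xFree_single, bvlEv_single]
    simp only [bvlEv_single]
    by_cases hc : (insert l J, C) = ((univ : Finset (Fin d)), fun _ : Fin (d - 1) => (0 : Fin 3))
    swap
    · simp [hc]
    simp only [hc, if_true]
    rw [← Finset.smul_sum, ← smul_sub]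
    convert smul_zero (A := Fin m → bvlLP A d) _
    convert smul_zero (A := Fin m → bvlLP A d) _
    rw [sub_eq_zero]
    funext t
    rw [Finset.sum_apply]
    by_cases ht : t = p.1
    swap
    · simp [ht]
    subst ht
    simp only [Pi.single_eq_same]
    have hpow : ∀ j, bvlSym A d j ^ (p.2 + Finsupp.single l 1 : Fin d →₀ ℕ) j =
        bvlSym A d j ^ p.2 j * (if j = l then bvlSym A d j else 1) := fun j => by
      by_cases hj : j = l
      · subst hj; simp [pow_succ]
      · simp [hj]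
    rw [Finset.prod_congr rfl fun j _ => hpow j, Finset.prod_mul_distrib, Finset.prod_ite_eq',
      if_pos (mem_univ l), ← mul_assoc, mul_comm, ← mul_assoc]
    conv_lhs => arg 1; rw [bvlSym, Finset.sum_mul]
    rw [Finset.sum_mul]
    refine Finset.sum_congr rfl fun ε _ => ?_
    rw [AddMonoidAlgebra.single_mul_single, mul_one, add_comm]
    rfl
  · intro l _
    rw [map_zsmul, bvlEv_single, if_neg, smul_zero]
    intro h
    have := congrFun (congrArg Prod.snd h) l
    simp at this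

lemma bvlEv_chain_one (f : FreeMod A m d) (x : Fin (d - 1) → ℤ) (σ : ℤ) (t : Fin m) :
    bvlEv A m d (Finsupp.single (((univ, fun _ => 0), σ, x) : PIdx d) f) t =
      AddMonoidAlgebra.single x 1 * aeval (bvlSym A d) (polyEquiv A m d f t) := by
  induction f using Finsupp.induction_linear with
  | zero => simp
  | add f g hf hg =>
    rw [Finsupp.single_add, map_add, Pi.add_apply, hf, hg, map_add, Pi.add_apply, map_add, mul_add]
  | single p v =>
    rw [bvlEv_single, if_pos rfl, polyEquiv_single, Pi.smul_apply]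
    by_cases ht : t = p.1
    · subst ht
      rw [Pi.single_eq_same, Pi.single_eq_same, aeval_monomial,
        Finsupp.prod_fintype _ _ (fun _ => pow_zero _), ← Algebra.smul_def, mul_smul_comm]
    · simp [ht]

lemma bvlEv_chain (φ : bvlStair d → FreeMod A m d) (t : Fin m) :
    bvlEv A m d (bvlChain A (FreeMod A m d) d φ) t =
      ∑ e, AddMonoidAlgebra.single (bvlExp e) 1 * aeval (bvlSym A d) (polyEquiv A m d (φ e) t) := by
  rw [bvlChain_eq, map_sum, Finset.sum_apply]
  refine Finset.sum_congr rfl fun e _ => ?_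
  rw [map_sum, Finset.sum_apply, Finset.sum_eq_single (fun _ => 0)]
  · exact bvlEv_chain_one (φ e) _ _ t
  · intro C _ hne
    have h : ∀ w : FreeMod A m d,
        bvlEv A m d (Finsupp.single (((univ, C), 0, bvlExp e) : PIdx d) w) = 0 := by
      intro w
      rw [bvlEv, Finsupp.lsum_single, if_neg]
      · rfl
      · simpa using hne
    rw [h, Pi.zero_apply]
  · exact fun h => absurd (mem_bvlCharts.2 fun _ => by decide) h

/-- Exponents as integer vectors. -/
noncomputable def bvlCast (d : ℕ) : (Fin (d - 1) →₀ ℕ) →+ (Fin (d - 1) → ℤ) where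
  toFun β := fun j => (β j : ℤ)
  map_zero' := by funext j; simp
  map_add' β β' := by funext j; simp

/-- Polynomials as Laurent polynomials. -/
noncomputable def bvlToLP (A : Type*) [CommRing A] (d : ℕ) :
    MvPolynomial (Fin (d - 1)) A →ₐ[A] bvlLP A d :=
  AddMonoidAlgebra.mapDomainAlgHom A A (bvlCast d)

lemma bvlToLP_monomial (β : Fin (d - 1) →₀ ℕ) (v : A) :
    bvlToLP A d (monomial β v) = AddMonoidAlgebra.single (bvlCast d β) v :=
  AddMonoidAlgebra.mapDomain_single ..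

lemma bvlToLP_injective : Function.Injective (bvlToLP A d) :=
  AddMonoidAlgebra.mapDomain_injective fun _ _ h =>
    Finsupp.ext fun j => Int.natCast_inj.1 (congrFun h j)

lemma bvlToLP_esymm (l : Fin d) :
    bvlToLP A d (esymm (Fin (d - 1)) A (l : ℕ)) = bvlSym A d l := by
  rw [esymm_eq_sum_monomial, map_sum, bvlSym]
  refine Finset.sum_congr rfl fun ε _ => ?_
  rw [bvlToLP_monomial]
  congr 1
  funext j
  simp [bvlCast, Finsupp.single_apply]

lemma bvlToLP_prod (e : bvlStair d) :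
    bvlToLP A d (∏ l, MvPolynomial.X l ^ (e l : ℕ)) = AddMonoidAlgebra.single (bvlExp e) 1 := by
  rw [show (∏ l, MvPolynomial.X l ^ (e l : ℕ) : MvPolynomial (Fin (d - 1)) A) =
      monomial (Finsupp.equivFunOnFinite.symm fun l => (e l : ℕ)) 1 by
    rw [monomial_eq, map_one, one_mul, Finsupp.prod_fintype _ _ fun _ => pow_zero _]
    rfl]
  rw [bvlToLP_monomial]
  rfl

end evaluation

/-- On a free family a staircase cycle is a boundary only if it is zero. -/
lemma bvl_free_indep {κ : Type u} [Field κ] {m d b : ℕ} (hd : 0 < d) (hb : 0 < b)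
    {g : Fin m → ℤ} {μ : ℤ} {φ : bvlStair d → FreeMod κ m d}
    (hφ : ∀ e, φ e ∈ freeFam κ b g μ) {y : PIdx d →₀ FreeMod κ m d}
    (hy : phiDF κ m d y = bvlChain κ (FreeMod κ m d) d φ) : φ = 0 := by
  funext e
  ext ⟨t, β⟩
  have hhom : ∀ e, (polyEquiv κ m d (φ e) t).IsHomogeneous (((μ - g t) / b).toNat) := by
    intro e β hβ
    rw [coeff_polyEquiv] at hβ
    have h1 := mem_freeFam.1 (hφ e) (t, β) hβ
    have h2 : Finsupp.weight (1 : Fin d → ℕ) β = bdeg β := by
      simp [Finsupp.weight_apply, bdeg, Finsupp.sum_fintype]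
    rw [h2, ← h1, add_sub_cancel_left, Int.mul_ediv_cancel_left _ (by omega), Int.toNat_natCast]
  have h0 : ∑ e : bvlStair d, (∏ l, MvPolynomial.X l ^ (e l : ℕ)) *
      aeval (fun i : Fin d => esymm (Fin (d - 1)) κ (i : ℕ)) (polyEquiv κ m d (φ e) t) = 0 := by
    apply bvlToLP_injective
    rw [map_sum, map_zero]
    have h1 := congrFun (congrArg (bvlEv κ m d) hy) t
    rw [bvlEv_phiDF, bvlEv_chain, Pi.zero_apply] at h1
    rw [h1]
    refine Finset.sum_congr rfl fun e _ => ?_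
    rw [map_mul, bvlToLP_prod, ← AlgHom.comp_apply, comp_aeval]
    simp only [bvlToLP_esymm]
  have h3 := goalSplitBasis κ d hd _ _ hhom h0 e
  rw [Pi.zero_apply, Finsupp.zero_apply, ← coeff_polyEquiv, h3, coeff_zero]

lemma bvl_baseR_empty {m d D : ℕ} {a : Fin (d - 1) → ℤ} {g : Fin m → ℤ} {c : ℤ} :
    baseR D a g c (-1) = ∅ :=
  Finset.eq_empty_of_forall_notMem fun b hb => by
    have := (mem_baseR.1 hb).1.2
    omega

/-- The standard exponents are finite in number. -/
lemma bvl_stdEnum {d n : ℕ} (deg : Hv n → ℕ) :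
    ∃ (N : ℕ) (γ : Fin N → Vr d n →₀ ℕ), Function.Injective γ ∧
      ∀ v, (∃ t, γ t = v) ↔ IsStdExp (d := d) deg v := by
  have : Finite {v : Vr d n →₀ ℕ // IsStdExp (d := d) deg v} :=
    Finite.of_injective (β := (w : Hv n) → Fin (deg w))
      (fun v w => ⟨v.1 (hVar w), v.2.2 w⟩) fun v v' h => Subtype.ext <| Finsupp.ext fun x => by
        rcases x with _ | (l | r)
        · exact congrArg Fin.val (congrFun h none)
        · rw [v.2.1, v'.2.1]
        · exact congrArg Fin.val (congrFun h (some r))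
  obtain ⟨N, ⟨f⟩⟩ := Finite.exists_equiv_fin {v : Vr d n →₀ ℕ // IsStdExp (d := d) deg v}
  refine ⟨N, fun t => (f.symm t).1, fun t t' h => f.symm.injective (Subtype.ext h), fun v => ?_⟩
  exact ⟨by rintro ⟨t, rfl⟩; exact (f.symm t).2, fun h => ⟨f ⟨v, h⟩, by simp⟩⟩

namespace Band

variable {p : ℕ} [Fact p.Prime] {R : Type u} [CommRing R] [IsLocalRing R] {k : Type u} [Field k]
  [CharP k p] [PerfectRing k p] {A : Type u} [CommRing A] [Algebra R A]
  [Algebra (WittVector p k) A] {d : ℕ} {x : Fin d → A} {b : ℕ} {G : ℕ → Ideal A}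
  {CI : CIData p k A x b G} {ι : IsLocalRing.ResidueField R →+* k} {i j K : ℕ}
  (B : Band p R CI ι i j K)

lemma bvl_lift_zero (N : ℤ) : B.lift 0 ∈ B.Fil N :=
  B.anti (Int.self_le_toNat N) (B.lift_mem N.toNat 0 (isWeightedHomogeneous_zero ..))

lemma bvl_tw_le (hd : 0 < d) (hb : 0 < b) (l : Fin (d - 1)) : B.tw l + (l : ℕ) ≤ d := by
  have hq : 1 ≤ B.qq := Nat.one_le_pow _ _ (Fact.out : p.Prime).pos
  obtain ⟨h1, -⟩ := zOf_bounds hb (zetaOf d) B.blen l
  obtain ⟨-, h2⟩ := (isCrit_zetaOf hd).1 l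
  simp only [Band.tw, twistOf]
  generalize zOf b (zetaOf d) B.blen l = z at h1
  generalize zetaOf d l = ζ at h1 h2
  rw [Band.blen, Nat.cast_mul] at h1
  have hb' : (1 : ℝ) ≤ b := by exact_mod_cast hb
  have hq' : (1 : ℝ) ≤ B.qq := by exact_mod_cast hq
  have hl : (0 : ℝ) ≤ ((l : ℕ) : ℝ) := Nat.cast_nonneg _
  have h3 : (z : ℝ) ≤ B.qq * ζ := by
    have : (b : ℝ) * z ≤ b * (B.qq * ζ) := by linarith
    exact le_of_mul_le_mul_left this (by linarith)
  have h4 : (z : ℝ) < -((l : ℕ) + 1) := by nlinarith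
  have h5 : z < -(((l : ℕ) : ℤ) + 1) := by exact_mod_cast h4
  omega

lemma bvl_lamF_anti {s t : ℤ} (h : s ≤ t) : B.LamF t ≤ B.LamF s :=
  phiSub_mono fun σ => B.anti (by omega)

lemma bvlChain_mem_lvl (hd : 0 < d) (hb : 0 < b) {c : ℤ} {z : bvlStair d → B.L}
    (hz : ∀ e, z e ∈ B.Fil c) :
    bvlChain B.L B.L d z ∈ lvl (phiDeg B.L B.L d) B.LamF c 0 :=
  ⟨bvlChain_mem_phiSub (B.bvl_tw_le hd hb) hz, bvlChain_deg z⟩

end Band

namespace Band

variable {p : ℕ} [Fact p.Prime] {R : Type u} [CommRing R] [IsLocalRing R] {k : Type u} [Field k]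
  [CharP k p] [PerfectRing k p] {A : Type u} [CommRing A] [Algebra R A]
  [Algebra (WittVector p k) A] {d : ℕ} {x : Fin d → A} {b : ℕ} {G : ℕ → Ideal A}
  {CI : CIData p k A x b G} {ι : IsLocalRing.ResidueField R →+* k} {i j K : ℕ}
  (B : Band p R CI ι i j K)

lemma bvlChain_mem_hcyc (hd : 0 < d) (hb : 0 < b) {a c : ℤ} {z : bvlStair d → B.L}
    (hz : ∀ e, z e ∈ B.Fil a) : bvlChain B.L B.L d z ∈ hcyc (phiD B.mulX)
      (lvl (phiDeg B.L B.L d) B.LamF a) (lvl (phiDeg B.L B.L d) B.LamF c) 0 :=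
  ⟨B.bvlChain_mem_lvl hd hb hz, Submodule.mem_comap.2 (by
    rw [phiD_bvlChain]; exact zero_mem _)⟩

end Band

lemma bvl_nf_exists {κ : Type u} [Field κ] {d n b μ : ℕ} {wt : Vr d n → ℕ}
    (hwt : ∀ l, wt (some (Sum.inl l)) = b) {deg : Hv n → ℕ} {N : ℕ} {γ : Fin N → Vr d n →₀ ℕ}
    (hγ : ∀ v, IsStdExp (d := d) deg v → ∃ t, γ t = v) {P : MvPolynomial (Vr d n) κ}
    (hP : IsWeightedHomogeneous wt P μ) (hnf : ∀ v ∈ P.support, ∀ w, v (hVar w) < deg w) :
    ∃ φ ∈ freeFam κ b (fun t => (Finsupp.weight wt (γ t) : ℤ)) (μ : ℤ), nfPoly γ φ = P := by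
  let inc : Fin d → Vr d n := fun l => some (Sum.inl l)
  have hinc : Function.Injective inc := fun a a' h => Sum.inl_injective (Option.some_injective _ h)
  have hdec : ∀ v ∈ P.support, ∃ (t : Fin N) (β : Fin d →₀ ℕ),
      v = Finsupp.mapDomain inc β + γ t := by
    intro v hv
    obtain ⟨β, hβ⟩ : ∃ β, β = v.comapDomain inc hinc.injOn := ⟨_, rfl⟩
    have hi : ∀ l, Finsupp.mapDomain inc β (inc l) = v (inc l) := fun l => by
      rw [Finsupp.mapDomain_apply hinc, hβ, Finsupp.comapDomain_apply]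
    have ho : ∀ w : Hv n, Finsupp.mapDomain inc β (hVar w) = 0 := fun w =>
      Finsupp.mapDomain_of_notMem_range _ _ (by rintro ⟨l, hl⟩; cases w <;> simp [inc, hVar] at hl)
    have hle : Finsupp.mapDomain inc β ≤ v := by
      intro w
      rcases w with _ | (l | r)
      · exact le_of_eq_of_le (ho none) (Nat.zero_le _)
      · exact (hi l).le
      · exact le_of_eq_of_le (ho (some r)) (Nat.zero_le _)
    obtain ⟨t, ht⟩ := hγ (v - Finsupp.mapDomain inc β) ⟨fun l => by
        rw [Finsupp.tsub_apply]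
        change v (inc l) - Finsupp.mapDomain inc β (inc l) = 0
        rw [hi, Nat.sub_self],
      fun w => by rw [Finsupp.tsub_apply, ho, Nat.sub_zero]; exact hnf v hv w⟩
    exact ⟨t, β, by rw [ht, add_tsub_cancel_of_le hle]⟩
  choose t β hv using hdec
  refine ⟨∑ v ∈ P.support.attach, Finsupp.single (t v.1 v.2, β v.1 v.2) (coeff v.1 P),
    Submodule.sum_mem _ fun v _ => mem_freeFam.2 fun q hq => ?_, ?_⟩
  · obtain rfl : (t v.1 v.2, β v.1 v.2) = q := by
      by_contra h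
      exact hq (Finsupp.single_eq_of_ne (Ne.symm h))
    have h1 := hP (mem_support_iff.1 v.2)
    rw [hv v.1 v.2, map_add] at h1
    have h2 : Finsupp.weight wt (Finsupp.mapDomain inc (β v.1 v.2)) =
        b * bdeg (β v.1 v.2) := by
      rw [Finsupp.weight_apply, Finsupp.sum_mapDomain_index (by simp) (by simp [add_mul]),
        Finsupp.sum_fintype _ _ (by simp), bdeg, Finset.mul_sum]
      simp [inc, hwt, mul_comm]
    rw [h2] at h1
    dsimp only
    rw [← h1]
    push_cast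
    ring
  · rw [map_sum]
    conv_rhs => rw [P.as_sum, ← Finset.sum_attach]
    refine Finset.sum_congr rfl fun v _ => ?_
    rw [nfPoly, Finsupp.linearCombination_single, inX, rename_monomial, monomial_mul,
      smul_monomial, mul_one, smul_eq_mul, mul_one]
    exact congrArg (fun w => monomial w (coeff v.1 P)) (hv v.1 v.2).symm

namespace Band

variable {p : ℕ} [Fact p.Prime] {R : Type u} [CommRing R] [IsLocalRing R] {k : Type u} [Field k]
  [CharP k p] [PerfectRing k p] {A : Type u} [CommRing A] [Algebra R A]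
  [Algebra (WittVector p k) A] {d : ℕ} {x : Fin d → A} {b : ℕ} {G : ℕ → Ideal A}
  {CI : CIData p k A x b G} {ι : IsLocalRing.ResidueField R →+* k} {i j K : ℕ}
  (B : Band p R CI ι i j K) {N : ℕ} {γ : Fin N → Vr d CI.n →₀ ℕ}

/-- One level has no cohomology in degree `-1`: a chain bounding into the next level moves up. -/
lemma bvl_push (hb : 0 < b) {u : ℤ}
    (Φ : winH (phiD B.mulX) (phiDeg B.L B.L d) B.LamF u (u + 1) (-1) →+
      HMod (phiDF B.κ N d)
        (phiC b B.tw (freeFam B.κ b fun t => (Finsupp.weight CI.wt (γ t) : ℤ)) u) (fun _ => ⊥) (-1))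
    (hΦ : Function.Injective Φ) {y : PIdx d →₀ B.L}
    (hy : y ∈ lvl (phiDeg B.L B.L d) B.LamF u (-1))
    (hδy : phiD B.mulX y ∈ lvl (phiDeg B.L B.L d) B.LamF (u + 1) (-1 + 1)) :
    ∃ y'' ∈ lvl (phiDeg B.L B.L d) B.LamF (u + 1) (-1), phiD B.mulX y'' = phiD B.mulX y := by
  have h2 := (freeCohMap_bijective (A := B.κ) (a := B.tw)
    (g := fun t => (Finsupp.weight CI.wt (γ t) : ℤ)) (c := u) hb (-1)).2
  have hyc : y ∈ hcyc (phiD B.mulX) (lvl (phiDeg B.L B.L d) B.LamF u)
      (lvl (phiDeg B.L B.L d) B.LamF (u + 1)) (-1) := ⟨hy, hδy⟩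
  have h4 : Φ (hmk _ _ _ (-1) ⟨y, hyc⟩) = 0 := by
    obtain ⟨v, hv⟩ := h2 (Φ (hmk _ _ _ (-1) ⟨y, hyc⟩))
    rw [← hv, show v = 0 from Finsupp.ext fun q => absurd q.2 (by simp [bvl_baseR_empty]), map_zero]
  have h5 := hmk_eq_zero.1 (hΦ (h4.trans Φ.map_zero.symm))
  obtain ⟨_, ⟨y', -, rfl⟩, y'', hy'', hyy⟩ := Submodule.mem_sup.1 h5
  refine ⟨y'', hy'', ?_⟩
  have hdy : phiD B.mulX (phiD B.mulX y') = 0 := by
    rw [← LinearMap.comp_apply, phiD_phiD B.mulX_comm, LinearMap.zero_apply]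
  rw [← show phiD B.mulX y' + y'' = y from hyy, map_add, hdy, zero_add]

/-- A staircase cycle which bounds at its level has no lowest forms. -/
lemma bvl_lowest (hd : 0 < d) (hb : 0 < b) {μ : ℕ}
    (Φ : winH (phiD B.mulX) (phiDeg B.L B.L d) B.LamF (μ : ℤ) ((μ : ℤ) + 1) 0 →+
      HMod (phiDF B.κ N d)
        (phiC b B.tw (freeFam B.κ b fun t => (Finsupp.weight CI.wt (γ t) : ℤ)) (μ : ℤ))
        (fun _ => ⊥) 0)
    (hΦ : ∀ f φ, (∀ q : PIdx d,
      f.1 q - B.lift (nfPoly γ (φ.1 q)) ∈ B.Fil ((μ : ℤ) + (b : ℤ) * q.2.1 + 1)) →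
        Φ (hmk (phiD B.mulX) (lvl (phiDeg B.L B.L d) B.LamF (μ : ℤ))
            (lvl (phiDeg B.L B.L d) B.LamF ((μ : ℤ) + 1)) 0 f) =
          hmk (phiDF B.κ N d)
            (phiC b B.tw (freeFam B.κ b fun t => (Finsupp.weight CI.wt (γ t) : ℤ)) (μ : ℤ))
            (fun _ => ⊥) 0 φ)
    {z : bvlStair d → B.L} (hz : ∀ e, z e ∈ B.Fil (μ : ℤ))
    (hP : ∀ e, ∃ φ ∈ freeFam B.κ b (fun t => (Finsupp.weight CI.wt (γ t) : ℤ)) (μ : ℤ),
      z e - B.lift (nfPoly γ φ) ∈ B.Fil ((μ : ℤ) + 1))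
    (hzb : bvlChain B.L B.L d z ∈ hbd (phiD B.mulX) (lvl (phiDeg B.L B.L d) B.LamF (μ : ℤ))
      (lvl (phiDeg B.L B.L d) B.LamF ((μ : ℤ) + 1)) 0) :
    ∀ e, z e ∈ B.Fil ((μ : ℤ) + 1) := by
  choose φ hφ hφz using hP
  have hg : bvlChain B.κ (FreeMod B.κ N d) d φ ∈ hcyc (phiDF B.κ N d)
      (phiC b B.tw (freeFam B.κ b fun t => (Finsupp.weight CI.wt (γ t) : ℤ)) (μ : ℤ))
      (fun _ => ⊥) 0 :=
    ⟨⟨bvlChain_mem_phiSub (B.bvl_tw_le hd hb) hφ, bvlChain_deg φ⟩, Submodule.mem_comap.2 (by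
      rw [phiDF, phiD_bvlChain]; exact zero_mem _)⟩
  have hf : bvlChain B.L B.L d z ∈ hcyc (phiD B.mulX) (lvl (phiDeg B.L B.L d) B.LamF (μ : ℤ))
      (lvl (phiDeg B.L B.L d) B.LamF ((μ : ℤ) + 1)) 0 :=
    ⟨B.bvlChain_mem_lvl hd hb hz, Submodule.mem_comap.2 (by
      rw [phiD_bvlChain]; exact zero_mem _)⟩
  have he := hΦ ⟨_, hf⟩ ⟨_, hg⟩ fun q => by
    change bvlChain B.L B.L d z q - B.lift (nfPoly γ (bvlChain B.κ (FreeMod B.κ N d) d φ q)) ∈ _
    rw [bvlChain_apply, bvlChain_apply]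
    rcases hq : bvlIdx q with _ | e
    · simpa using B.bvl_lift_zero _
    · simpa [(bvlIdx_some hq).2.1] using hφz e
  rw [hmk_eq_zero.2 hzb, map_zero, eq_comm, hmk_eq_zero] at he
  obtain ⟨_, ⟨y, -, rfl⟩, w, hw, hyw⟩ := Submodule.mem_sup.1 he
  rw [(Submodule.mem_bot _).1 hw, add_zero] at hyw
  have h0 : φ = 0 := bvl_free_indep hd hb hφ hyw
  intro e
  have h1 := hφz e
  rw [h0, Pi.zero_apply, map_zero] at h1
  simpa using (B.Fil _).add_mem h1 (B.bvl_lift_zero ((μ : ℤ) + 1))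

end Band

/-- A staircase cycle is a boundary of the window `[0, c)` exactly when its coefficients have
weight at least `c`. -/
theorem bvl_boundary_iff (hco : GoalBandCoord.{u}) (hlev : GoalLevelIso.{u})
    {p : ℕ} [Fact p.Prime] {R : Type u} [CommRing R] [IsLocalRing R] [IsNoetherianRing R]
    {k : Type u} [Field k] [CharP k p] [PerfectRing k p] {A : Type u} [CommRing A] [IsLocalRing A]
    [IsNoetherianRing A] [Algebra R A] [Algebra (WittVector p k) A] {d : ℕ} {xR : Fin d → R}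
    {b : ℕ} {G : ℕ → Ideal A} {ι : IsLocalRing.ResidueField R →+* k} {e : ℝ}
    (hctx : BandCtx p R A xR b G ι e) {CI : CIData p k A (fun l => algebraMap R A (xR l)) b G}
    {i j K : ℕ} (B : Band p R CI ι i j K) (hR : B.Rich) (hK : 0 < K) (c : ℕ)
    (z : bvlStair d → B.L) :
    bvlChain B.L B.L d z ∈ hbd (phiD B.mulX) (lvl (phiDeg B.L B.L d) B.LamF 0)
        (lvl (phiDeg B.L B.L d) B.LamF (c : ℤ)) 0 ↔
      ∀ e, z e ∈ B.Fil (c : ℤ) := by
  have hd := hctx.d_pos
  have hb : 0 < b := by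
    have := CI.wt_pos (some (Sum.inl ⟨0, hd⟩))
    rwa [CI.wt_X] at this
  refine ⟨fun hbdz => ?_,
    fun hz => Submodule.mem_sup_right (B.bvlChain_mem_lvl hd hb hz)⟩
  obtain ⟨⟨res, hres, hresC⟩, hnf, -, -⟩ :=
    hco p R k A d xR b G ι e hctx CI i j K B hR hK
  obtain ⟨N, γ, hγ, hstd⟩ := bvl_stdEnum (d := d) (fun w => B.mm * CI.deg w)
  have hΦ := hlev p R k A d xR b G ι e hctx CI i j K B hR hK res hres hresC N γ hγ hstd
  suffices key : ∀ μ : ℕ, μ ≤ c → (∀ e, z e ∈ B.Fil (μ : ℤ)) ∧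
      bvlChain B.L B.L d z ∈ hbd (phiD B.mulX) (lvl (phiDeg B.L B.L d) B.LamF (μ : ℤ))
        (lvl (phiDeg B.L B.L d) B.LamF (c : ℤ)) 0 from (key c le_rfl).1
  intro μ
  induction μ with
  | zero => exact fun _ => ⟨fun e => by simp [B.fil_top], hbdz⟩
  | succ μ ih =>
    intro hμ
    obtain ⟨hz, hzb⟩ := ih (by omega)
    have hanti : lvl (phiDeg B.L B.L d) B.LamF (c : ℤ) 0 ≤
        lvl (phiDeg B.L B.L d) B.LamF ((μ : ℤ) + 1) 0 :=
      inf_le_inf_right _ (B.bvl_lamF_anti (by omega))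
    obtain ⟨Φ, -, -, hΦe⟩ := hΦ (μ : ℤ) 0
    have hlow := B.bvl_lowest hd hb Φ hΦe hz (fun e => by
        obtain ⟨P, ⟨hP1, hP2, hP3⟩, -⟩ := hnf μ (z e) (hz e)
        obtain ⟨φ, hφ, rfl⟩ := bvl_nf_exists CI.wt_X (fun v => (hstd v).2) hP1 hP2
        exact ⟨φ, hφ, hP3⟩)
      (sup_le_sup_left hanti _ hzb)
    refine ⟨fun e => by exact_mod_cast hlow e, ?_⟩
    obtain ⟨_, ⟨y, hy, rfl⟩, w, hw, hyw⟩ := Submodule.mem_sup.1 hzb
    have hδy : phiD B.mulX y ∈ lvl (phiDeg B.L B.L d) B.LamF ((μ : ℤ) + 1) 0 := by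
      rw [show phiD B.mulX y = bvlChain B.L B.L d z - w from eq_sub_of_add_eq hyw]
      exact Submodule.sub_mem _ (B.bvlChain_mem_lvl hd hb hlow) (hanti hw)
    obtain ⟨Φ', hΦ', -, -⟩ := hΦ (μ : ℤ) (-1)
    obtain ⟨y'', hy'', hyy⟩ := B.bvl_push hb Φ' hΦ'.1
      (by simpa using hy) (by simpa using hδy)
    rw [← hyw, ← hyy, Nat.cast_succ]
    exact Submodule.add_mem_sup ⟨y'', by simpa using hy'', rfl⟩ hw

end Vale.Agent.P202
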