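import Vale.Agent.P202.InterfacesBand2

/-!
Interfaces for mixed characteristic: one level of the complex over `L` is the free complex over the
residue field on the normal monomials.
-/

universe u

namespace Vale.Agent.P202

open IsLocalRing MvPolynomial

/-- The polynomial of a vector over the normal monomials `γ`. -/
noncomputable def nfPoly {κ : Type u} [CommRing κ] {d n N : ℕ} (γ : Fin N → Vr d n →₀ ℕ) :
    FreeMod κ N d →ₗ[κ] MvPolynomial (Vr d n) κ :=
  Finsupp.linearCombination κ fun t : FIdx N d =>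
    inX (MvPolynomial.monomial t.2 (1 : κ)) * MvPolynomial.monomial (γ t.1) 1

/-- One level of `L` is the free complex on the normal monomials, compatibly with coordinates. -/
def GoalLevelIso : Prop :=
  ∀ (p : ℕ) [Fact p.Prime] (R : Type u) [CommRing R] [IsLocalRing R] [IsNoetherianRing R]
    (k : Type u) [Field k] [CharP k p] [PerfectRing k p] (A : Type u) [CommRing A] [IsLocalRing A]
    [IsNoetherianRing A] [Algebra R A] [Algebra (WittVector p k) A] (d : ℕ) (xR : Fin d → R)
    (b : ℕ) (G : ℕ → Ideal A) (ι : ResidueField R →+* k) (e : ℝ),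
    BandCtx p R A xR b G ι e → ∀ (CI : CIData p k A (fun l => algebraMap R A (xR l)) b G)
    (i j K : ℕ) (B : Band p R CI ι i j K), B.Rich → 0 < K →
    ∀ res : B.L →+* B.κ, (∀ z, res z = 0 ↔ z ∈ B.Fil 1) → (∀ a : B.κ, res (B.lift (C a)) = a) →
    ∀ (N : ℕ) (γ : Fin N → Vr d CI.n →₀ ℕ), Function.Injective γ →
      (∀ v, (∃ t, γ t = v) ↔ IsStdExp (d := d) (fun w => B.mm * CI.deg w) v) →
    ∀ u r : ℤ, ∃ Φ : winH (phiD B.mulX) (phiDeg B.L B.L d) B.LamF u (u + 1) r →+
        HMod (phiDF B.κ N d)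
          (phiC b B.tw (freeFam B.κ b fun t => (Finsupp.weight CI.wt (γ t) : ℤ)) u)
          (fun _ => ⊥) r,
      Function.Bijective Φ ∧ (∀ z v, Φ (z • v) = res z • Φ v) ∧
      ∀ f φ, (∀ c : PIdx d,
          f.1 c - B.lift (nfPoly γ (φ.1 c)) ∈ B.Fil (u + (b : ℤ) * c.2.1 + 1)) →
        Φ (hmk (phiD B.mulX) (lvl (phiDeg B.L B.L d) B.LamF u)
            (lvl (phiDeg B.L B.L d) B.LamF (u + 1)) r f) =
          hmk (phiDF B.κ N d)
            (phiC b B.tw (freeFam B.κ b fun t => (Finsupp.weight CI.wt (γ t) : ℤ)) u)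
            (fun _ => ⊥) r φ

end Vale.Agent.P202
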