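import Vale.Agent.P202.InterfacesBand2
import Vale.Agent.P202.InterfacesBand3

/-!
Interfaces for `GoalBandV` (BLUEPRINT_BAND, sections 0 and 7): the image of the `E`-part in `H^0`
of the windows over `L`, with the classes of the exact cycles on the monomials `u ^ e`, `e_l ≤ l`,
and the fact that these cycles are boundaries only when all their coefficients are deep.
-/

universe u

namespace Vale.Agent.P202

open IsLocalRing

/-- The exponents `e_l ≤ l`. -/
abbrev Stair (d : ℕ) : Type := (l : Fin (d - 1)) → Fin ((l : ℕ) + 1)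

/-- The monomials `u ^ e`, `e_l ≤ l`, are regular in every chart. -/
def StairOK {d : ℕ} (a : Fin (d - 1) → ℤ) : Prop := ∀ l : Fin (d - 1), (l : ℤ) ≤ d - a l

/-- The exact cycle of degree `0` with the coefficient `z e` at the monomial `u ^ e`. -/
noncomputable def stairChain (L : Type u) [CommRing L] (d : ℕ) :
    (Stair d → L) →ₗ[L] (PIdx d →₀ L) :=
  ∑ e : Stair d, ∑ C ∈ Fintype.piFinset (fun _ : Fin (d - 1) => ({0, 1} : Finset (Fin 3))),
    (Finsupp.lsingle (((Finset.univ, C), 0, fun l => ((e l : ℕ) : ℤ)) : PIdx d)).comp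
      (LinearMap.proj e)

/-- The cycles: exact, of degree `0`, in the level `u` when the coefficients are in `Fil u`, and
boundaries of the window `[0, c)` exactly when all coefficients are in `Fil c`. -/
def GoalStairCycle : Prop :=
  (∀ (d b : ℕ), 0 < d → 0 < b → ∃ q₀ : ℕ, ∀ q : ℕ, q₀ ≤ q →
    StairOK (twistOf b (zetaOf d) q)) ∧
  ∀ (p : ℕ) [Fact p.Prime] (R : Type u) [CommRing R] [IsLocalRing R] [IsNoetherianRing R]
    (k : Type u) [Field k] [CharP k p] [PerfectRing k p] (A : Type u) [CommRing A] [IsLocalRing A]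
    [IsNoetherianRing A] [Algebra R A] [Algebra (WittVector p k) A] (d : ℕ) (xR : Fin d → R)
    (b : ℕ) (G : ℕ → Ideal A) (ι : ResidueField R →+* k) (e : ℝ),
    BandCtx p R A xR b G ι e → ∀ (CI : CIData p k A (fun l => algebraMap R A (xR l)) b G)
    (i j K : ℕ) (B : Band p R CI ι i j K), B.Rich → 0 < K → StairOK B.tw →
    ∀ z : Stair d → B.L,
      phiD B.mulX (stairChain B.L d z) = 0 ∧ stairChain B.L d z ∈ phiDeg B.L B.L d 0 ∧
      (∀ u : ℤ, (∀ s, z s ∈ B.Fil u) → stairChain B.L d z ∈ B.LamF u) ∧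
      ∀ c : ℕ, stairChain B.L d z ∈ hbd (phiD B.mulX) (lvl (phiDeg B.L B.L d) B.LamF 0)
          (lvl (phiDeg B.L B.L d) B.LamF c) 0 → ∀ s, z s ∈ B.Fil c

/-- The image of the `E`-part in `H^0` of the windows `[0, T)` over `L`, the classes `gen` of `E`
times the cycles, and the count. -/
structure BandH0 {p : ℕ} [Fact p.Prime] {R : Type u} [CommRing R] [IsLocalRing R] {k : Type u}
    [Field k] [CharP k p] [PerfectRing k p] {A : Type u} [CommRing A] [Algebra R A]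
    [Algebra (WittVector p k) A] {d : ℕ} {x : Fin d → A} {b : ℕ} {G : ℕ → Ideal A}
    {CI : CIData p k A x b G} {ι : ResidueField R →+* k} {i j K : ℕ}
    (B : Band p R CI ι i j K) (e : ℝ) (H : ℕ) (hK : 2 * b * H ≤ K) (C J η : ℕ)
    (hdl : letI := B.rMod H hK; LevelEnd (B.toR H hK (B.dC H))
      (fun r => B.subR H hK (B.pC H r)) (fun t => B.subR H hK (B.gC H t))
      (B.toR H hK (B.dlC H)))
    (hanti : letI := B.rMod H hK; Antitone (fun t => B.subR H hK (B.gC H t))) : Type (u + 1) where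
  V : ℕ → Type u
  [instVGroup : ∀ T, AddCommGroup (V T)]
  [instVMod : ∀ T, Module R (V T)]
  toV : letI := B.rMod H hK; ∀ T : ℕ, winH (B.toR H hK (B.dC H))
    (fun r => B.subR H hK (B.pC H r)) (fun t => B.subR H hK (B.gC H t)) 0 T 0 →ₗ[R] V T
  fromV : letI := B.rMod H hK; ∀ T : ℕ, V T →ₗ[R] winH (B.toR H hK (B.dC H))
    (fun r => B.subR H hK (B.pC H r)) (fun t => B.subR H hK (B.gC H t)) 0 T 0
  DV : ∀ T, V T →ₗ[R] V T
  toV_comm : ∀ T : ℕ, letI := B.rMod H hK; DV T ∘ₗ toV T = toV T ∘ₗ hdl.winMap 0 (T : ℤ) 0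
  fromV_comm : ∀ T : ℕ, letI := B.rMod H hK;
    hdl.winMap 0 (T : ℤ) 0 ∘ₗ fromV T = fromV T ∘ₗ DV T
  from_to : ∀ T : ℕ, letI := B.rMod H hK; fromV T ∘ₗ toV T = hdl.winMap 0 (T : ℤ) 0
  to_from : ∀ T, letI := B.rMod H hK; toV T ∘ₗ fromV T = DV T
  trV : ∀ T T' : ℕ, T ≤ T' → (V T' →ₗ[R] V T)
  trV_toV : ∀ T T' (h : T ≤ T'), letI := B.rMod H hK;
    trV T T' h ∘ₗ toV T' = toV T ∘ₗ winTr (B.toR H hK (B.dC H)) hanti 0 (Int.ofNat_le.2 h) 0
  V_finite : ∀ T, T ≤ H → Module.length R (V T) ≠ ⊤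
  DV_ker : ∀ T, T ≤ H → ∀ a ≤ J, len R ↥(LinearMap.ker (DV T ^ a)) ≤ η
  /-- the class of `E` times the cycle -/
  gen : ∀ T, (Stair d → B.L) →+ V T
  gen_smul : ∀ T (r : R) (w : B.L), B.χ (algebraMap R B.As r) = Ideal.Quotient.mk B.Ann w →
    ∀ z, r • gen T z = gen T (w • z)
  gen_tr : ∀ T T' (h : T ≤ T') z, trV T T' h (gen T' z) = gen T z
  gen_eq_zero : ∀ T, T ≤ H → ∀ z, (gen T z = 0 ↔
    stairChain B.L d (B.E • z) ∈ hbd (phiD B.mulX) (lvl (phiDeg B.L B.L d) B.LamF 0)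
      (lvl (phiDeg B.L B.L d) B.LamF ((B.blen : ℤ) * T)) 0)
  length_le : ∀ T, 0 < T → T ≤ H → ((Module.length R (V T)).toNat : ℝ) ≤
    e * B.unit * (T : ℝ) ^ d / d + (C : ℝ) * B.unit * (T : ℝ) ^ (d - 1) + η

attribute [instance] BandH0.instVGroup BandH0.instVMod

/-- The plumbing and the upper count. -/
def GoalBandH0 : Prop :=
  ∀ (p : ℕ) [Fact p.Prime] (R : Type u) [CommRing R] [IsLocalRing R] [IsNoetherianRing R]
    (k : Type u) [Field k] [CharP k p] [PerfectRing k p] (A : Type u) [CommRing A] [IsLocalRing A]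
    [IsNoetherianRing A] [Algebra R A] [Algebra (WittVector p k) A] (d : ℕ) (xR : Fin d → R)
    (b : ℕ) (G : ℕ → Ideal A) (ι : ResidueField R →+* k) (e : ℝ),
    BandCtx p R A xR b G ι e → ∀ (CI : CIData p k A (fun l => algebraMap R A (xR l)) b G),
    ∃ C : ℕ, ∀ (H J : ℕ) (ε : ℝ), 0 < ε → ∃ i₀, ∀ i, i₀ ≤ i → ∃ j₁, ∀ j, j₁ ≤ j → ∀ (K : ℕ)
      (B : Band p R CI ι i j K), B.Rich → 0 < K → StairOK B.tw → ∀ (hK : 2 * b * H ≤ K),
        ∃ η : ℕ, (η : ℝ) ≤ ε * B.unit ∧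
          letI := B.rMod H hK
          ∀ (hdl : LevelEnd (B.toR H hK (B.dC H)) (fun r => B.subR H hK (B.pC H r))
              (fun t => B.subR H hK (B.gC H t)) (B.toR H hK (B.dlC H)))
            (hanti : Antitone (fun t => B.subR H hK (B.gC H t))),
            Nonempty (BandH0 B e H hK C J η hdl hanti)

end Vale.Agent.P202
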