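import Vale.Agent.P202.BandVPlumb
import Vale.Agent.P202.BandVCyc
import Vale.Agent.P202.BandCount
import Vale.Agent.P202.InterfacesBandV
import Vale.Agent.P202.M7Calc

/-!
The classes of `E` times the exact cycles, and the upper count of the modules `VT`
(BLUEPRINT_BAND, sections 0 and 7).
-/

universe u

namespace Vale.Agent.P202

open IsLocalRing

/-- Counting in a submodule of finite length on which two scalars agree. -/
lemma len_of_injective {L : Type u} [CommRing L] {V W : Type u} [AddCommGroup V] [Module L V]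
    [AddCommGroup W] [Module L W] (χ : V →ₗ[L] W) (hχ : Function.Injective χ) {D E : L}
    (hDE : ∀ v : V, D • v = E • v) {J η : ℕ} (hfin : Module.length L W ≠ ⊤)
    (hker : ∀ s, s ≤ J → len L ↥(LinearMap.ker (D ^ s • LinearMap.id : W →ₗ[L] W)) ≤ η)
    (hJ : 1 ≤ J) :
    Module.length L V ≠ ⊤ ∧
      (∀ s, s ≤ J → len L ↥(LinearMap.ker (D ^ s • LinearMap.id : V →ₗ[L] V)) ≤ η) ∧
      len L V ≤ rkD (E • LinearMap.id : W →ₗ[L] W) 1 + η := by
  have hV := ne_top_of_le_ne_top hfin (Module.length_le_of_injective χ hχ)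
  have hW := isFiniteLength_iff_isNoetherian_isArtinian.1 (Module.length_ne_top_iff.1 hfin)
  have hV' := isFiniteLength_iff_isNoetherian_isArtinian.1 (Module.length_ne_top_iff.1 hV)
  have := hW.1
  have := hW.2
  have := hV'.1
  have := hV'.2
  have hk : ∀ s, s ≤ J →
      len L ↥(LinearMap.ker (D ^ s • LinearMap.id : V →ₗ[L] V)) ≤ η := fun s hs => by
    refine le_trans ?_ (hker s hs)
    rw [← M7.len_map_inj χ hχ]
    refine M7.len_mono ?_
    rintro _ ⟨v, hv, rfl⟩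
    show D ^ s • χ v = 0
    rw [← map_smul, show D ^ s • v = 0 from hv, map_zero]
  refine ⟨hV, hk, ?_⟩
  have hs := M7.len_split (D • LinearMap.id : V →ₗ[L] V) ⊤
  rw [M7.len_top, top_inf_eq] at hs
  rw [hs]
  refine Nat.add_le_add ?_ (le_of_eq_of_le (by rw [pow_one]) (hk 1 hJ))
  rw [← M7.len_map_inj χ hχ, rkD, pow_one]
  refine M7.len_mono ?_
  rintro _ ⟨_, ⟨v, -, rfl⟩, rfl⟩
  refine ⟨χ v, ?_⟩
  show E • χ v = χ (D • v)
  rw [hDE, map_smul]

/-- Kernels of a power of a scalar, seen over two compatible rings. -/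
lemma len_ker_compat {R L : Type u} [CommRing R] [CommRing L] {M : Type u} [AddCommGroup M]
    [Module R M] [Module L M] (f : M →ₗ[R] M) (z : L) (n c : ℕ) (hf : ∀ v, f v = z • v)
    (Rel : R → L → Prop) (hex : ∀ r, ∃ w, Rel r w)
    (hM : ∀ r w, Rel r w → ∀ v : M, r • v = w • v) (I : Ideal L)
    (hI : ∀ w ∈ I, ∀ v : M, w • v = 0)
    (hlen : ∀ (M' : Type u) [AddCommGroup M'] [Module R M'] [Module L M'],
      (∀ r w, Rel r w → ∀ v : M', r • v = w • v) → (∀ w ∈ I, ∀ v : M', w • v = 0) →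
      Module.length R M' = c * Module.length L M') :
    len R ↥(LinearMap.ker (f ^ n)) =
      c * len L ↥(LinearMap.ker (z ^ n • LinearMap.id : M →ₗ[L] M)) := by
  have hpow : ∀ v : M, (f ^ n) v = z ^ n • v := by
    intro v
    induction n generalizing v with
    | zero => simp
    | succ n ih => rw [pow_succ', Module.End.mul_apply, ih, hf, pow_succ', mul_smul]
  set Lk := LinearMap.ker (z ^ n • LinearMap.id : M →ₗ[L] M) with hLk
  have hmem : ∀ (r : R), ∀ v ∈ Lk, r • v ∈ Lk := fun r v hv => by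
    obtain ⟨w, hw⟩ := hex r
    rw [hM r w hw]
    exact Lk.smul_mem w hv
  let sm : SMul R ↥Lk := ⟨fun r v => ⟨r • v.1, hmem r v.1 v.2⟩⟩
  let md : Module R ↥Lk := Function.Injective.module R
    ⟨⟨Subtype.val, rfl⟩, fun _ _ => rfl⟩ Subtype.val_injective fun _ _ => rfl
  let eq : ↥(LinearMap.ker (f ^ n)) ≃ₗ[R] ↥Lk :=
    { toFun := fun v => ⟨v.1, by
        rw [hLk, LinearMap.mem_ker]; exact (hpow v.1).symm.trans (LinearMap.mem_ker.1 v.2)⟩
      invFun := fun v => ⟨v.1, by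
        rw [LinearMap.mem_ker]; exact (hpow v.1).trans (LinearMap.mem_ker.1 v.2)⟩
      left_inv := fun _ => rfl
      right_inv := fun _ => rfl
      map_add' := fun _ _ => rfl
      map_smul' := fun _ _ => rfl }
  rw [len, eq.length_eq, hlen ↥Lk (fun r w hw v => Subtype.ext (hM r w hw v.1))
    (fun w hw v => Subtype.ext (hI w hw v.1)), ENat.toNat_mul, ENat.toNat_natCast]
  rfl

/-- The arithmetic of the upper count. -/
lemma upper_count {c m q e ε l rk cn η₀ T' C₀ C F : ℝ} (hc : 0 ≤ c) (hm : 0 ≤ m) (hq : 0 ≤ q)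
    (he : 0 ≤ e) (hε : 0 ≤ ε) (hT : 0 ≤ T') (hl : l ≤ rk + η₀)
    (hrk : rk - e * m * cn ≤ η₀) {main : ℝ}
    (hcn : cn - main ≤ C₀ * q * T' + ε / (4 * (e + 1)) * q)
    (hη : η₀ * c ≤ ε / 4 * (c * m * q)) (hC : e * C₀ ≤ C)
    (hF : ε * (c * m * q) < F + 1) (hu : 4 ≤ ε * (c * m * q)) :
    c * l ≤ e * (c * m) * main + C * (c * m * q) * T' + F := by
  have h1 := mul_le_mul_of_nonneg_left (show l ≤ e * m * cn + 2 * η₀ by linarith) hc
  have h2 := mul_le_mul_of_nonneg_left hcn (by positivity : 0 ≤ c * m * e)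
  have h3 := mul_le_mul_of_nonneg_right hC (by positivity : 0 ≤ c * m * q * T')
  have h4 : e * (ε / (4 * (e + 1))) ≤ ε / 4 := by
    rw [mul_div_assoc', div_le_iff₀ (by positivity)]
    nlinarith
  have h5 := mul_le_mul_of_nonneg_right h4 (by positivity : 0 ≤ c * m * q)
  linarith

namespace Band

variable {p : ℕ} [Fact p.Prime] {R : Type u} [CommRing R] [IsLocalRing R] {k : Type u} [Field k]
  [CharP k p] [PerfectRing k p] {A : Type u} [CommRing A] [Algebra R A]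
  [Algebra (WittVector p k) A] {d : ℕ} {x : Fin d → A} {b : ℕ} {G : ℕ → Ideal A}
  {CI : CIData p k A x b G} {ι : ResidueField R →+* k} {i j K : ℕ}
  (B : Band p R CI ι i j K) (H : ℕ)

lemma lamAmb_nat (T : ℕ) :
    B.lamAmb H (T : ℤ) = (B.LamF ((B.blen : ℤ) * T)).map (B.Lam H).mkQ := by
  rw [lamAmb, max_eq_left (by omega)]
  rfl

lemma lamAmb_zero : B.lamAmb H 0 = (B.LamF 0).map (B.Lam H).mkQ := by
  rw [show (0 : ℤ) = ((0 : ℕ) : ℤ) from rfl, lamAmb_nat]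
  simp

lemma stairChain_mem (hd : 0 < d) (hb : 0 < b) (z : Stair d → B.L) :
    stairChain B.L d z ∈ B.LamF 0 ∧ stairChain B.L d z ∈ phiDeg B.L B.L d 0 :=
  B.bvlChain_mem_lvl hd hb fun _ => by rw [B.fil_top 0 le_rfl]; exact Submodule.mem_top

lemma stairChain_cycle (z : Stair d → B.L) : phiD B.mulX (stairChain B.L d z) = 0 :=
  phiD_bvlChain B.mulX z

/-- `E` times a cycle, as a chain of the `E`-part. -/
noncomputable def genC (hd : 0 < d) (hb : 0 < b) : (Stair d → B.L) →ₗ[B.L] B.Chains H :=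
  LinearMap.codRestrict _ (B.E • ((B.Lam H).mkQ ∘ₗ stairChain B.L d)) fun z =>
    B.eAmb_anti H (t := 0) (by omega) (B.smul_mem_eAmb H (by
      rw [B.lamAmb_zero H]
      exact Submodule.mem_map_of_mem (B.stairChain_mem hd hb z).1))

lemma genC_coe (hd : 0 < d) (hb : 0 < b) (z : Stair d → B.L) :
    (B.genC H hd hb z : B.Amb H) = (B.Lam H).mkQ (stairChain B.L d (B.E • z)) := by
  show B.E • (B.Lam H).mkQ (stairChain B.L d z) = _
  rw [map_smul, map_smul]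

lemma dC_genC (hd : 0 < d) (hb : 0 < b) (z : Stair d → B.L) :
    B.dC H (B.genC H hd hb z) = 0 := by
  refine Subtype.ext ?_
  show B.dAmb H (B.E • (B.Lam H).mkQ (stairChain B.L d z)) = 0
  rw [map_smul]
  show B.E • (B.Lam H).mkQ (phiD B.mulX (stairChain B.L d z)) = 0
  rw [B.stairChain_cycle, map_zero, smul_zero]

lemma genC_mem (hd : 0 < d) (hb : 0 < b) (T : ℕ) (z : Stair d → B.L) :
    B.genC H hd hb z ∈ B.cycV H T := by
  refine ⟨⟨?_, ?_⟩, ?_⟩
  · show B.E • (B.Lam H).mkQ (stairChain B.L d z) ∈ B.eAmb H 0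
    refine B.smul_mem_eAmb H ?_
    rw [B.lamAmb_zero H]
    exact Submodule.mem_map_of_mem (B.stairChain_mem hd hb z).1
  · exact (B.degAmb H 0).smul_mem _ (Submodule.mem_map_of_mem (B.stairChain_mem hd hb z).2)
  · show B.dC H (B.genC H hd hb z) ∈ B.gC H T ⊓ B.pC H (0 + 1)
    rw [B.dC_genC H hd hb]
    exact zero_mem _

/-- The class of `E` times a cycle. -/
noncomputable def genL (hd : 0 < d) (hb : 0 < b) (T : ℕ) : (Stair d → B.L) →ₗ[B.L] B.VT H T :=
  Submodule.mkQ _ ∘ₗ (B.genC H hd hb).codRestrict (B.cycV H T) (B.genC_mem H hd hb T)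

lemma genL_smul (hK : 2 * b * H ≤ K) (hd : 0 < d) (hb : 0 < b) (T : ℕ) (r : R) (w : B.L)
    (hw : B.χ (algebraMap R B.As r) = Ideal.Quotient.mk B.Ann w) (z : Stair d → B.L) :
    letI := B.vMod H hK T; r • B.genL H hd hb T z = B.genL H hd hb T (w • z) := by
  let := B.vMod H hK T
  rw [B.vMod_smul H hK T r w hw, map_smul]

lemma genL_tr (hd : 0 < d) (hb : 0 < b) {T T' : ℕ} (h : T ≤ T') (z : Stair d → B.L) :
    B.vTrL H h (B.genL H hd hb T' z) = B.genL H hd hb T z := rfl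

lemma exists_rep {T : ℕ} (hT : T ≤ H) {r : ℤ} {a : B.Amb H}
    (ha : a ∈ B.lamAmb H T ⊓ B.degAmb H r) :
    ∃ v ∈ B.LamF ((B.blen : ℤ) * T) ⊓ phiDeg B.L B.L d r, (B.Lam H).mkQ v = a := by
  obtain ⟨w, hw, rfl⟩ := ha.2
  have h := ha.1
  rw [B.lamAmb_nat H] at h
  obtain ⟨v, hv, hvw⟩ := h
  refine ⟨w, ⟨?_, hw⟩, rfl⟩
  have h1 : w - v ∈ B.Lam H := (Submodule.Quotient.eq _).1 hvw.symm
  rw [← sub_add_cancel w v]
  exact add_mem (B.Lam_anti (Int.ofNat_le.2 hT) h1) hv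

lemma mem_bdA_iff {T : ℕ} (hT : T ≤ H) {w : PIdx d →₀ B.L} (hw : w ∈ phiDeg B.L B.L d 0) :
    (B.Lam H).mkQ w ∈ B.bdA H T ↔ w ∈ hbd (phiD B.mulX)
      (lvl (phiDeg B.L B.L d) B.LamF 0)
      (lvl (phiDeg B.L B.L d) B.LamF ((B.blen : ℤ) * T)) 0 := by
  constructor
  · intro h
    obtain ⟨_, ⟨u', hu', rfl⟩, q', hq', he⟩ := Submodule.mem_sup.1 h
    obtain ⟨u, hu, rfl⟩ := B.exists_rep H (T := 0) (Nat.zero_le _) (a := u') hu'
    obtain ⟨q, hq, rfl⟩ := B.exists_rep H hT hq'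
    have h1 : phiD B.mulX u + q - w ∈ B.Lam H := (Submodule.Quotient.eq _).1 he
    have hdu : phiD B.mulX u ∈ phiDeg B.L B.L d 0 := by
      have := phiDeg_stable B.mulX _ (Submodule.mem_map_of_mem hu.2)
      rwa [sub_add_cancel] at this
    have hT' : phiD B.mulX u + q - w ∈ B.LamF ((B.blen : ℤ) * T) :=
      B.Lam_anti (Int.ofNat_le.2 hT) h1
    have e : w = phiD B.mulX u + (q - (phiD B.mulX u + q - w)) := by abel
    rw [e]
    refine Submodule.add_mem_sup (Submodule.mem_map_of_mem ⟨?_, hu.2⟩)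
      ⟨sub_mem hq.1 hT', sub_mem hq.2 (sub_mem (add_mem hdu hq.2) hw)⟩
    simpa using hu.1
  · intro h
    obtain ⟨_, ⟨u, hu, rfl⟩, q, hq, rfl⟩ := Submodule.mem_sup.1 h
    rw [map_add]
    refine Submodule.add_mem_sup ⟨(B.Lam H).mkQ u, ⟨?_, Submodule.mem_map_of_mem hu.2⟩, rfl⟩
      ⟨?_, Submodule.mem_map_of_mem hq.2⟩
    · rw [B.lamAmb_zero H]; exact Submodule.mem_map_of_mem hu.1
    · rw [B.lamAmb_nat H]; exact Submodule.mem_map_of_mem hq.1

lemma genL_eq_zero (hd : 0 < d) (hb : 0 < b) {T : ℕ} (hT : T ≤ H) (z : Stair d → B.L) :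
    B.genL H hd hb T z = 0 ↔ stairChain B.L d (B.E • z) ∈ hbd (phiD B.mulX)
      (lvl (phiDeg B.L B.L d) B.LamF 0)
      (lvl (phiDeg B.L B.L d) B.LamF ((B.blen : ℤ) * T)) 0 := by
  rw [← B.mem_bdA_iff H hT (B.stairChain_mem hd hb _).2, ← B.genC_coe H hd hb z]
  exact Submodule.Quotient.mk_eq_zero _

lemma Fil_smul_VT (T : ℕ) {z : B.L} (hz : z ∈ B.Fil ((B.blen * T : ℕ) : ℤ)) (v : B.VT H T) :
    z • v = 0 := by
  obtain ⟨w, rfl⟩ := Submodule.Quotient.mk_surjective _ v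
  rw [← Submodule.Quotient.mk_smul, Submodule.Quotient.mk_eq_zero]
  show z • (w.1 : B.Amb H) ∈ B.bdA H T
  obtain ⟨⟨h0, hdeg⟩, -⟩ := w.2
  refine Submodule.mem_sup_right ⟨?_, (B.degAmb H 0).smul_mem z hdeg⟩
  have h1 := B.eAmb_le_lamAmb H 0 h0
  rw [B.lamAmb_zero H] at h1
  obtain ⟨u, hu, hu'⟩ := h1
  rw [← Submodule.coe_subtype, ← hu', ← map_smul, B.lamAmb_nat H]
  refine Submodule.mem_map_of_mem fun c => ⟨?_, fun hc => ?_⟩
  · rw [Finsupp.smul_apply, smul_eq_mul]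
    refine B.anti (le_of_eq ?_) (B.fil_mul _ _ (Ideal.mul_mem_mul hz (hu c).1))
    push_cast
    ring
  · rw [Finsupp.smul_apply, (hu c).2 hc, smul_zero]

lemma winMul_eq (z : B.L) (a c r : ℤ) : B.winMul z a c r = z • LinearMap.id := by
  refine LinearMap.ext fun v => ?_
  obtain ⟨w, rfl⟩ := hmk_surjective _ _ _ _ v
  rfl

lemma smul_id_pow {M : Type u} [AddCommGroup M] [Module B.L M] (z : B.L) (n : ℕ) :
    (z • LinearMap.id : M →ₗ[B.L] M) ^ n = z ^ n • LinearMap.id := by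
  induction n with
  | zero => rw [pow_zero, pow_zero, one_smul]; rfl
  | succ n ih => rw [pow_succ', ih, pow_succ']; exact LinearMap.ext fun v => (mul_smul _ _ _).symm

/-- The window `[0, T)` of the complex over `L`. -/
abbrev WL (T : ℕ) : Type u :=
  winH (phiD B.mulX) (phiDeg B.L B.L d) B.LamF 0 ((B.blen : ℤ) * T) 0

/-- The window `[0, T)` of the complex over `L`, modulo the level `H`. -/
abbrev WA (T : ℕ) : Type u := winH (B.dAmb H) (B.degAmb H) (B.lamAmb H) 0 (T : ℤ) 0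

lemma lamAmb_stable (t : ℤ) : (B.lamAmb H t).map (B.dAmb H) ≤ B.lamAmb H t := by
  rintro _ ⟨_, ⟨v, hv, rfl⟩, rfl⟩
  exact ⟨phiD B.mulX v, B.Lam_stable _ (Submodule.mem_map_of_mem hv), rfl⟩

lemma isStable_lamAmb (t : ℤ) : IsStable (B.dAmb H) (lvl (B.degAmb H) (B.lamAmb H) t) := fun r =>
  (Submodule.map_inf_le _).trans (inf_le_inf (B.lamAmb_stable H t) (B.degAmb_map H r))

/-- The two windows agree for `T ≤ H`. -/
noncomputable def winEquiv {T : ℕ} (hT : T ≤ H) : B.WL T ≃ₗ[B.L] B.WA H T :=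
  hequiv (P := lvl (phiDeg B.L B.L d) B.LamF 0)
    (Q := lvl (phiDeg B.L B.L d) B.LamF ((B.blen : ℤ) * T))
    (P' := lvl (B.degAmb H) (B.lamAmb H) 0) (Q' := lvl (B.degAmb H) (B.lamAmb H) (T : ℤ))
    (B.Lam H).mkQ (phiC_stable B.famStable B.tw 0) (B.isStable_lamAmb H T)
    (fun r v hv => ⟨by rw [B.lamAmb_zero H]; exact Submodule.mem_map_of_mem hv.1,
      Submodule.mem_map_of_mem hv.2⟩)
    (fun r v hv => ⟨by rw [B.lamAmb_nat H]; exact Submodule.mem_map_of_mem hv.1,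
      Submodule.mem_map_of_mem hv.2⟩)
    (fun _ _ _ => rfl)
    (fun r a ha => by
      obtain ⟨v, hv, rfl⟩ := B.exists_rep H (T := 0) (Nat.zero_le _) (a := a) ha
      refine Submodule.mem_sup_left (Submodule.mem_map_of_mem ⟨?_, hv.2⟩)
      simpa using hv.1)
    (fun r v hv hv' => by
      obtain ⟨w, hw, hwv⟩ := B.exists_rep H hT hv'
      refine ⟨?_, hv.2⟩
      have h1 : v - w ∈ B.Lam H := (Submodule.Quotient.eq _).1 hwv.symm
      rw [← sub_add_cancel v w]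
      exact add_mem (B.Lam_anti (Int.ofNat_le.2 hT) h1) hw.1)
    0

lemma cycV_le_hcyc (T : ℕ) {w : B.Chains H} (hw : w ∈ B.cycV H T) :
    (w : B.Amb H) ∈ hcyc (B.dAmb H) (lvl (B.degAmb H) (B.lamAmb H) 0)
      (lvl (B.degAmb H) (B.lamAmb H) (T : ℤ)) 0 :=
  ⟨⟨B.eAmb_le_lamAmb H 0 hw.1.1, hw.1.2⟩, ⟨B.eAmb_le_lamAmb H T hw.2.1, hw.2.2⟩⟩

/-- The inclusion of `VT` in the window over `L`. -/
noncomputable def vIncl (T : ℕ) : B.VT H T →ₗ[B.L] B.WA H T :=
  Submodule.mapQ _ _ ((B.eAmb H (-(H : ℤ))).subtype.restrict fun _ hw => B.cycV_le_hcyc H T hw)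
    fun _ hw => hw

lemma vIncl_injective (T : ℕ) : Function.Injective (B.vIncl H T) := by
  rw [injective_iff_map_eq_zero]
  intro v hv
  obtain ⟨w, rfl⟩ := Submodule.Quotient.mk_surjective _ v
  exact (Submodule.Quotient.mk_eq_zero _).2 ((Submodule.Quotient.mk_eq_zero _).1 hv)

lemma D_smul_VT (hK : 2 * b * H ≤ K) (T : ℕ) (v : B.VT H T) : B.D • v = B.E • v := by
  rw [← sub_eq_zero, ← sub_smul]
  exact B.ann_smul_VT H hK T ((B.mem_Ann _).2 B.E_idem) v

/-- Lengths over `L` of `VT` and of the kernels of the powers of `D`. -/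
lemma len_VT (hK : 2 * b * H ≤ K) {T : ℕ} (hT : T ≤ H) {J η : ℕ}
    (hfin : Module.length B.L (B.WL T) ≠ ⊤)
    (hker : ∀ s, s ≤ J → len B.L ↥(LinearMap.ker
      (B.winMul B.D 0 ((B.blen : ℤ) * T) 0 ^ s)) ≤ η) (hJ : 1 ≤ J) :
    Module.length B.L (B.VT H T) ≠ ⊤ ∧
      (∀ s, s ≤ J → len B.L ↥(LinearMap.ker
        (B.D ^ s • LinearMap.id : B.VT H T →ₗ[B.L] B.VT H T)) ≤ η) ∧
      len B.L (B.VT H T) ≤ rkD (B.winMul B.E 0 ((B.blen : ℤ) * T) 0) 1 + η := by
  rw [B.winMul_eq]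
  refine len_of_injective ((B.winEquiv H hT).symm.toLinearMap ∘ₗ B.vIncl H T)
    ((B.winEquiv H hT).symm.injective.comp (B.vIncl_injective H T))
    (B.D_smul_VT H hK T) hfin (fun s hs => ?_) hJ
  have h := hker s hs
  rwa [B.winMul_eq, B.smul_id_pow] at h

/-- The kernels of the powers of `D` on `VT` as `R`-lengths. -/
lemma len_ker_VT (hK : 2 * b * H ≤ K) (T : ℕ) (a : ℕ)
    (hlen : ∀ (M : Type u) [AddCommGroup M] [Module R M] [Module B.L M] (N : ℕ),
      (∀ (r : R) (z : B.L), B.χ (algebraMap R B.As r) = Ideal.Quotient.mk B.Ann z →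
        ∀ v : M, r • v = z • v) →
      (∀ z ∈ B.Fil N, ∀ v : M, z • v = 0) →
      Module.length R M = B.c * Module.length B.L M) :
    letI := B.vMod H hK T
    len R ↥(LinearMap.ker (B.vToR H hK (B.vDL H T) ^ a)) = B.c * len B.L ↥(LinearMap.ker
      (B.D ^ a • LinearMap.id : B.VT H T →ₗ[B.L] B.VT H T)) := by
  let := B.vMod H hK T
  exact len_ker_compat (B.vToR H hK (B.vDL H T)) B.D a B.c (fun _ => rfl)
    (fun r w => B.χ (algebraMap R B.As r) = Ideal.Quotient.mk B.Ann w)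
    (fun r => (Ideal.Quotient.mk_surjective _).imp fun _ h => h.symm)
    (fun r w hw v => B.vMod_smul H hK T r w hw v) (B.Fil ((B.blen * T : ℕ) : ℤ))
    (fun w hw v => B.Fil_smul_VT H T hw v) fun M' _ _ _ h1 h2 => hlen M' (B.blen * T) h1 h2

end Band

private lemma hasMult_nonneg {R : Type u} [CommRing R] [IsLocalRing R] {e : ℝ}
    (h : HasMult R e) : 0 ≤ e :=
  ge_of_tendsto' h fun n => by positivity

/-- The plumbing and the upper count of `H^0`. -/
theorem goalBandH0 (hLW : GoalLWin.{u}) (hBC : GoalBandCoord.{u}) : GoalBandH0.{u} := by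
  intro p _ R _ _ _ k _ _ _ A _ _ _ _ _ d xR b G ι e ctx CI
  have hd := ctx.d_pos
  have hb := ctx.nu.b_pos
  have he := hasMult_nonneg ctx.mult
  obtain ⟨C₀, hC₀⟩ := bandCnt_total_pow hd hb
  refine ⟨⌈e⌉₊ * C₀, fun H J ε hε => ?_⟩
  obtain ⟨i₀, hi₀⟩ := hLW p R k A d xR b G ι e ctx CI H (J + 1) (ε / 4) (by linarith)
  refine ⟨i₀, fun i hi => ?_⟩
  obtain ⟨j₁, hj₁⟩ := hi₀ i hi
  obtain ⟨N₀, -, hN₀⟩ := hC₀ H (ε / (4 * (e + 1))) (by positivity)
  obtain ⟨j₂, hj₂⟩ := pow_unbounded_of_one_lt (R := ℝ) (max (N₀ : ℝ) (4 / ε))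
    (show (1 : ℝ) < p by exact_mod_cast (Fact.out : p.Prime).one_lt)
  refine ⟨max j₁ j₂, fun j hj K B hR hK0 _ hK => ?_⟩
  obtain ⟨η₀, hη₀, hwin⟩ := hj₁ j (le_of_max_le_left hj) K B hR hK hK0
  obtain ⟨-, -, -, hlen⟩ := hBC p R k A d xR b G ι e ctx CI i j K B hR hK0
  have hp : 1 ≤ p := (Fact.out : p.Prime).one_le
  have hqq : max (N₀ : ℝ) (4 / ε) ≤ (B.qq : ℝ) := by
    refine hj₂.le.trans ?_
    rw [Band.qq, Nat.cast_pow]
    exact pow_le_pow_right₀ (by exact_mod_cast hp) ((le_of_max_le_right hj).trans B.j_le)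
  have hunit : (B.qq : ℝ) ≤ B.unit := by
    refine Nat.cast_le.2 ?_
    refine le_trans (le_self_pow₀ B.qq_pos hd.ne') (Nat.le_mul_of_pos_left _ ?_)
    exact Nat.mul_pos B.c_pos (pow_pos (pow_pos hp _) _)
  have hu : 4 ≤ ε * B.unit :=
    (div_le_iff₀' hε).1 ((le_max_right _ _).trans (hqq.trans hunit))
  refine ⟨⌊ε * B.unit⌋₊, Nat.floor_le (by positivity), fun hdl hanti => ?_⟩
  have hT : ∀ T, T ≤ H → _ ∧ _ ∧ _ := fun T hT => by
    have hbl : (B.blen : ℤ) * T ≤ B.blen * H :=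
      mul_le_mul_of_nonneg_left (Int.ofNat_le.2 hT) (by positivity)
    obtain ⟨h1, h2, h3⟩ := hwin 0 ((B.blen : ℤ) * T)
      (by simp only [Left.neg_nonpos_iff]; positivity) (by positivity) hbl 0
    exact ⟨B.len_VT H hK hT h1 h2 (Nat.le_add_left _ _), h3 1 le_rfl (Nat.le_add_left _ _), trivial⟩
  have hlR : ∀ T, letI := B.vMod H hK T
      Module.length R (B.VT H T) = B.c * Module.length B.L (B.VT H T) := fun T =>
    let := B.vMod H hK T
    hlen (B.VT H T) (B.blen * T) (fun r z hz v => B.vMod_smul H hK T r z hz v)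
      fun z hz v => B.Fil_smul_VT H T hz v
  refine ⟨{
    V := B.VT H
    instVGroup := fun T => inferInstance
    instVMod := fun T => B.vMod H hK T
    toV := B.vTo H hK
    fromV := B.vFrom H hK
    DV := fun T => B.vToR H hK (B.vDL H T)
    toV_comm := fun T => B.vTo_comm H hK T hdl
    fromV_comm := fun T => B.vFrom_comm H hK T hdl
    from_to := fun T => B.vFrom_vTo H hK T hdl
    to_from := B.vTo_vFrom H hK
    trV := fun T T' h => B.vToR H hK (B.vTrL H h)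
    trV_toV := fun T T' h => B.vTr_vTo H hK h hanti
    V_finite := fun T h => ?_
    DV_ker := fun T h a ha => ?_
    gen := fun T => (B.genL H hd hb T).toAddMonoidHom
    gen_smul := fun T r w hw z => B.genL_smul H hK hd hb T r w hw z
    gen_tr := fun T T' h z => B.genL_tr H hd hb h z
    gen_eq_zero := fun T h z => B.genL_eq_zero H hd hb h z
    length_le := fun T h0 h => ?_ }⟩
  · rw [hlR]
    exact WithTop.mul_ne_top (ENat.natCast_ne_top _) (hT T h).1.1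
  · let := B.vMod H hK T
    rw [B.len_ker_VT H hK T a hlen]
    refine Nat.le_floor ?_
    have hk := (hT T h).1.2.1 a (ha.trans (Nat.le_succ _))
    push_cast
    refine (mul_le_mul_of_nonneg_left (Nat.cast_le.2 hk) (Nat.cast_nonneg _)).trans ?_
    rw [mul_comm]
    exact hη₀.trans (mul_le_mul_of_nonneg_right (by linarith) (Nat.cast_nonneg _))
  · obtain ⟨⟨-, -, hV⟩, hrk, -⟩ := hT T h
    have hcnt := (abs_le.1 (hN₀ B.qq (Nat.cast_le.1 ((le_max_left _ _).trans hqq)) T h0 h)).2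
    rw [← B.blen_eq, ← B.cnt_eq] at hcnt
    rw [hlR, ENat.toNat_mul, ENat.toNat_natCast]
    push_cast
    have hU : (B.unit : ℝ) = B.c * (B.mm : ℝ) ^ (CI.n + 1) * (B.qq : ℝ) ^ d := by
      simp [Band.unit]
    rw [hU] at hη₀ hu ⊢
    have := upper_count (C := ⌈e⌉₊ * (C₀ : ℝ)) (F := ⌊ε * B.unit⌋₊) (Nat.cast_nonneg B.c)
      (by positivity : (0 : ℝ) ≤ (B.mm : ℝ) ^ (CI.n + 1))
      (by positivity : (0 : ℝ) ≤ (B.qq : ℝ) ^ d) he hε.le
      (by positivity : (0 : ℝ) ≤ (T : ℝ) ^ (d - 1))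
      ((Nat.cast_le.2 hV).trans_eq (Nat.cast_add _ _)) (abs_le.1 hrk).2 hcnt hη₀
      (mul_le_mul_of_nonneg_right (Nat.le_ceil e) (Nat.cast_nonneg C₀))
      (by rw [← hU]; exact Nat.lt_floor_add_one _) hu
    rw [← hU] at this ⊢
    refine this.trans (le_of_eq ?_)
    rw [hU]
    ring

end Vale.Agent.P202
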