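import Vale.Agent.P202.BandGr

/-!
Weighted power series: truncation, and the passage of polynomials to the level `q`.
-/

universe u

namespace Vale.Agent.P202

open MvPolynomial

variable {p : ℕ} [Fact p.Prime] {k : Type u} [CommRing k] {d n : ℕ} {wt : Vr d n → ℕ}

omit [Fact p.Prime] in
lemma band_weight_split (wt : Vr d n → ℕ) (γ : Vr d n →₀ ℕ) :
    Finsupp.weight wt γ = γ none * wt none + Finsupp.weight (fun v => wt (some v)) γ.some := by
  induction γ using Finsupp.induction_linear with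
  | zero => simp
  | add a b ha hb =>
    rw [map_add, Finsupp.some_add, map_add, Finsupp.add_apply, ha, hb]
    ring
  | single x m =>
    cases x with
    | none => simp [Finsupp.weight_single]
    | some v => simp [Finsupp.weight_single]

lemma band_memW_mono {s t : ℕ} (h : s ≤ t)
    {f : MvPowerSeries (Fin d ⊕ Fin n) (WittVector p k)} (hf : MemW p wt t f) :
    MemW p wt s f := fun γ => by
  obtain ⟨i, hi, hdvd⟩ := hf γ
  exact ⟨i, h.trans hi, hdvd⟩

lemma band_memW_neg {t : ℕ} {f : MvPowerSeries (Fin d ⊕ Fin n) (WittVector p k)}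
    (hf : MemW p wt t f) : MemW p wt t (-f) := fun γ => by
  obtain ⟨i, hi, hdvd⟩ := hf γ
  exact ⟨i, hi, by rw [map_neg]; exact dvd_neg.2 hdvd⟩

lemma band_memW_add {t : ℕ} {f g : MvPowerSeries (Fin d ⊕ Fin n) (WittVector p k)}
    (hf : MemW p wt t f) (hg : MemW p wt t g) : MemW p wt t (f + g) := fun γ => by
  obtain ⟨i, hi, hfd⟩ := hf γ
  obtain ⟨j, hj, hgd⟩ := hg γ
  rcases le_total i j with h | h
  · exact ⟨i, hi, by rw [map_add]; exact dvd_add hfd ((pow_dvd_pow _ h).trans hgd)⟩
  · exact ⟨j, hj, by rw [map_add]; exact dvd_add ((pow_dvd_pow _ h).trans hfd) hgd⟩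

lemma band_memW_sub {t : ℕ} {f g : MvPowerSeries (Fin d ⊕ Fin n) (WittVector p k)}
    (hf : MemW p wt t f) (hg : MemW p wt t g) : MemW p wt t (f - g) := by
  rw [sub_eq_add_neg]
  exact band_memW_add hf (band_memW_neg hg)

lemma band_memW_zero (hwt : 0 < wt none) (t : ℕ) :
    MemW p wt t (0 : MvPowerSeries (Fin d ⊕ Fin n) (WittVector p k)) := fun γ =>
  ⟨t, le_trans (Nat.le_mul_of_pos_right t hwt) (Nat.le_add_right _ _), by simp⟩

lemma band_memW_sum {ι : Type*} (hwt : 0 < wt none) {t : ℕ} (s : Finset ι)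
    {f : ι → MvPowerSeries (Fin d ⊕ Fin n) (WittVector p k)}
    (hf : ∀ i ∈ s, MemW p wt t (f i)) : MemW p wt t (∑ i ∈ s, f i) :=
  Finset.sum_induction f (MemW p wt t) (fun _ _ => band_memW_add) (band_memW_zero hwt t) hf

lemma band_memW_monomial (hwt : 0 < wt none) {t i : ℕ} {γ : (Fin d ⊕ Fin n) →₀ ℕ}
    (h : t ≤ i * wt none + Finsupp.weight (fun v => wt (some v)) γ) {a : WittVector p k}
    (ha : (p : WittVector p k) ^ i ∣ a) : MemW p wt t (MvPowerSeries.monomial γ a) := fun δ => by
  classical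
  rw [MvPowerSeries.coeff_monomial]
  split_ifs with e
  · exact ⟨i, e ▸ h, ha⟩
  · exact ⟨t, le_trans (Nat.le_mul_of_pos_right t hwt) (Nat.le_add_right _ _), dvd_zero _⟩

/-- A polynomial which agrees with a series up to weight `N`. -/
lemma exists_band_trunc (hwt : ∀ v, 0 < wt v) (N : ℕ)
    (f : MvPowerSeries (Fin d ⊕ Fin n) (WittVector p k)) :
    ∃ h : MvPolynomial (Fin d ⊕ Fin n) (WittVector p k),
      MemW p wt N (f - (h : MvPowerSeries (Fin d ⊕ Fin n) (WittVector p k))) ∧
      ∀ m, MemW p wt m f → MemW p wt m (h : MvPowerSeries (Fin d ⊕ Fin n) (WittVector p k)) := by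
  classical
  have hfin := Finsupp.finite_of_nat_weight_le (fun v => wt (some v)) (fun v => (hwt _).ne') N
  have hc : ∀ γ, coeff γ (∑ δ ∈ hfin.toFinset, monomial δ (MvPowerSeries.coeff δ f)) =
      if Finsupp.weight (fun v => wt (some v)) γ ≤ N then MvPowerSeries.coeff γ f else 0 := by
    intro γ
    simp [coeff_sum, coeff_monomial]
  refine ⟨∑ δ ∈ hfin.toFinset, monomial δ (MvPowerSeries.coeff δ f), fun γ => ?_,
    fun m hm γ => ?_⟩
  · rw [map_sub, coeff_coe, hc]
    split_ifs with h
    · exact ⟨N, le_trans (Nat.le_mul_of_pos_right N (hwt none)) (Nat.le_add_right _ _), by simp⟩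
    · exact ⟨0, by omega, by simp⟩
  · rw [coeff_coe, hc]
    obtain ⟨i, hi, hdvd⟩ := hm γ
    exact ⟨i, hi, by split_ifs <;> simp [hdvd]⟩

section level

variable {B : Type u} [CommRing B]

/-- `piQ` as a ring map. -/
noncomputable def piHom (Q : ℕ) :
    MvPolynomial (Fin d ⊕ Fin n) B →+* MvPolynomial (Vr d n) B :=
  (rename some).toRingHom.comp (expand Q).toRingHom

lemma band_piHom_apply (Q : ℕ) (h : MvPolynomial (Fin d ⊕ Fin n) B) : piHom Q h = piQ Q h := rfl

lemma band_piHom_monomial (Q : ℕ) (γ : (Fin d ⊕ Fin n) →₀ ℕ) (a : B) :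
    piHom Q (monomial γ a) = monomial ((Q • γ).mapDomain some) a := by
  change rename some (expand Q (monomial γ a)) = _
  rw [expand_monomial]
  try rw [rename_monomial]

lemma band_map_piHom {B' : Type u} [CommRing B'] (φ : B →+* B') (Q : ℕ)
    (h : MvPolynomial (Fin d ⊕ Fin n) B) : map φ (piHom Q h) = piHom Q (map φ h) := by
  change map φ (rename some (expand Q h)) = rename some (expand Q (map φ h))
  rw [map_rename, map_expand]

lemma band_pow_rel (p q i : ℕ) (γ : Vr d n →₀ ℕ) (b : B) :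
    monomial γ ((p : B) ^ i * b) - monomial (γ + Finsupp.single none (i * q)) b ∈
      Ideal.span {bandRel p q B} := by
  induction i generalizing γ b with
  | zero => simp
  | succ i ih =>
    have h1 := ih γ ((p : B) * b)
    rw [← mul_assoc, ← pow_succ, band_monomial_mul_p p q, add_assoc, ← Finsupp.single_add,
      show i * q + q = (i + 1) * q by ring] at h1
    have h2 : monomial (γ + Finsupp.single none (i * q)) b * bandRel p q B ∈
        Ideal.span {bandRel p q B} := Ideal.mul_mem_left _ _ (Ideal.subset_span rfl)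
    convert sub_mem h1 h2 using 1
    abel

/-- A term `p ^ i X ^ γ` of weight at least `m` at the level `q`. -/
lemma band_piHom_monomial_mem (p q : ℕ) {m i : ℕ} {γ : (Fin d ⊕ Fin n) →₀ ℕ}
    (h : m ≤ i * wt none + Finsupp.weight (fun v => wt (some v)) γ) (b : B) :
    piHom q (monomial γ ((p : B) ^ i * b)) ∈
      Ideal.span {bandRel p q B} ⊔ wIdeal B wt (q * m) := by
  rw [band_piHom_monomial]
  have h1 : monomial ((q • γ).mapDomain some + Finsupp.single none (i * q)) b ∈
      wIdeal B wt (q * m) := by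
    refine band_monomial_mem_wIdeal ?_ b
    refine le_trans (Nat.mul_le_mul_left q h) (le_of_eq ?_)
    rw [band_weight_split wt, Finsupp.some_add, Finsupp.some_single_none, add_zero]
    have h2 : ((q • γ).mapDomain some).some = q • γ := by
      ext v
      rw [Finsupp.some_apply, Finsupp.mapDomain_apply (Option.some_injective _)]
    rw [h2, map_nsmul, Finsupp.add_apply, Finsupp.single_eq_same,
      Finsupp.mapDomain_of_notMem_range _ _ (by simp), zero_add, smul_eq_mul]
    ring
  have h3 := add_mem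
    (Ideal.mem_sup_left (T := wIdeal B wt (q * m))
      (band_pow_rel p q i ((q • γ).mapDomain some) b))
    (Ideal.mem_sup_right (S := Ideal.span {bandRel p q B}) h1)
  rwa [sub_add_cancel] at h3

lemma band_smul_split (q : ℕ) (γ : Vr d n →₀ ℕ) :
    (q • γ.some).mapDomain some + Finsupp.single none (γ none * q) = q • γ := by
  ext v
  cases v with
  | none =>
    rw [Finsupp.add_apply, Finsupp.mapDomain_of_notMem_range _ _ (by simp), Finsupp.single_eq_same,
      zero_add, Finsupp.smul_apply, smul_eq_mul, mul_comm]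
  | some v =>
    simp [Finsupp.mapDomain_apply (Option.some_injective _), Finsupp.some_apply]

lemma band_C_pow_mem (p : ℕ) {q t T : ℕ} (hq : 0 < q) (hwt : 0 < wt none) (h : t ≤ T) :
    C ((p : B) ^ T) ∈ Ideal.span {bandRel p q B} ⊔ wIdeal B wt t := by
  have h1 : monomial (Finsupp.single none (T * q) : Vr d n →₀ ℕ) (1 : B) ∈ wIdeal B wt t := by
    refine band_monomial_mem_wIdeal ?_ 1
    rw [Finsupp.weight_single, smul_eq_mul]
    calc t ≤ T * 1 * 1 := by simpa using h
      _ ≤ T * q * wt none := Nat.mul_le_mul (Nat.mul_le_mul_left T hq) hwt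
  have h2 := band_pow_rel (d := d) (n := n) p q T 0 (1 : B)
  rw [mul_one, zero_add, monomial_zero'] at h2
  simpa using add_mem (Ideal.mem_sup_left (T := wIdeal B wt t) h2)
    (Ideal.mem_sup_right (S := Ideal.span {bandRel p q B}) h1)

lemma band_map_bandRel {B' : Type u} [CommRing B'] (φ : B →+* B') (p q : ℕ) :
    map φ (bandRel (d := d) (n := n) p q B) = bandRel p q B' := by
  simp

lemma band_map_wIdeal {B' : Type u} [CommRing B'] (φ : B →+* B') (t : ℕ) :
    (wIdeal B wt t).map (map φ) = wIdeal B' wt t := by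
  rw [wIdeal, wIdeal, Ideal.map_span]
  congr 1
  ext m
  constructor
  · rintro ⟨_, ⟨γ, hγ, rfl⟩, rfl⟩
    exact ⟨γ, hγ, by rw [map_monomial, map_one]⟩
  · rintro ⟨γ, hγ, rfl⟩
    exact ⟨monomial γ 1, ⟨γ, hγ, rfl⟩, by rw [map_monomial, map_one]⟩

omit [Fact p.Prime] in
lemma band_map_lIdeal {B' : Type u} [CommRing B'] (φ : B →+* B') (q : ℕ)
    (g : Hv n → MvPolynomial (Vr d n) B) :
    (lIdeal p q g).map (map φ) = lIdeal p q (fun v => map φ (g v)) := by
  rw [lIdeal, lIdeal, Ideal.map_span, Set.image_insert_eq, ← Set.range_comp]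
  congr 2
  simp

omit [Fact p.Prime] in
lemma band_lIdeal_sup_congr {q t : ℕ} {g g' : Hv n → MvPolynomial (Vr d n) B}
    (h : ∀ v, g v - g' v ∈ lIdeal p q g' ⊔ wIdeal B wt t) :
    lIdeal p q g ⊔ wIdeal B wt t ≤ lIdeal p q g' ⊔ wIdeal B wt t := by
  refine sup_le ?_ le_sup_right
  rw [lIdeal, Ideal.span_le]
  rintro x (rfl | ⟨v, rfl⟩)
  · exact Ideal.mem_sup_left (Ideal.subset_span (Set.mem_insert _ _))
  · simpa using add_mem (h v) (Ideal.mem_sup_left (T := wIdeal B wt t)
      (Ideal.subset_span (Set.mem_insert_of_mem _ (Set.mem_range_self v)) : g' v ∈ lIdeal p q g'))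

omit [Fact p.Prime] in
lemma band_mk_mem_lfil {q t : ℕ} {g : Hv n → MvPolynomial (Vr d n) B} {x : MvPolynomial (Vr d n) B} :
    Ideal.Quotient.mk (lIdeal p q g) x ∈ lfil p wt q g t ↔
      x ∈ lIdeal p q g ⊔ wIdeal B wt t := by
  rw [lfil, Ideal.mem_quotient_iff_mem_sup, sup_comm]

end level

end Vale.Agent.P202
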