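import Vale.Agent.P202.InterfacesBand

/-!
The rank system of the band ring, assembled from its three parts.
-/

universe u

namespace Vale.Agent.P202

open IsLocalRing TensorProduct

variable {p : ℕ} [Fact p.Prime] {R : Type u} [CommRing R] [IsLocalRing R] {k : Type u} [Field k]
  [CharP k p] [PerfectRing k p] {A : Type u} [CommRing A] [Algebra R A]
  [Algebra (WittVector p k) A] {d : ℕ} {x : Fin d → A} {b : ℕ} {G : ℕ → Ideal A}
  {CI : CIData p k A x b G} {ι : ResidueField R →+* k} {i j K : ℕ}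

lemma Band.unit_pos (B : Band p R CI ι i j K) : 0 < B.unit := by
  have hp : 0 < p := (Fact.out : p.Prime).pos
  have h1 : 0 < B.mm := pow_pos hp _
  have h2 : 0 < B.qq := pow_pos hp _
  exact Nat.mul_pos (Nat.mul_pos B.c_pos (pow_pos h1 _)) (pow_pos h2 _)

lemma Band.subR_bot (B : Band p R CI ι i j K) (H : ℕ) (hK : 2 * b * H ≤ K) :
    letI := B.rMod H hK
    B.subR H hK ⊥ = ⊥ := by
  letI := B.rMod H hK
  ext v
  exact Iff.rfl

/-- The band contexts give rank systems of any quality, given the three parts. -/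
theorem goalBandSys (hBF : GoalBandFilt.{u}) (hBB : GoalBandBlocks.{u}) (hBV : GoalBandV.{u}) :
    GoalBandSys.{u} := by
  classical
  intro p _ R _ _ _ _ k _ _ _ _ A _ _ _ _ _ d xR b G ι e hctx CI
  obtain ⟨CV, hV⟩ := hBV p R k A d xR b G ι e hctx CI
  refine ⟨max CV (2 * b), fun H J ε hε => ?_⟩
  obtain ⟨i₁, hi₁⟩ := hBB p R k A d xR b G ι e hctx CI H J ε hε
  obtain ⟨i₂, hi₂⟩ := hV H J ε hε
  refine ⟨max i₁ i₂, fun i hi => ?_⟩
  obtain ⟨j₁, hj₁⟩ := hi₁ i (le_of_max_le_left hi)
  obtain ⟨j₂, hj₂⟩ := hi₂ i (le_of_max_le_right hi)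
  refine ⟨max j₁ j₂, fun j hj => ?_⟩
  obtain ⟨SV, hSV⟩ := hj₂ j (le_of_max_le_right hj)
  refine ⟨SV ∪ Finset.univ.biUnion fun v : Hv CI.n => (rootPoly p j (CI.F v)).support.image
    fun γ => MvPolynomial.coeff γ (rootPoly p j (CI.F v)),
    fun K hKC B hSk S _ _ _ => ?_⟩
  have hrich : B.Rich := by
    intro v γ
    by_cases hγ : γ ∈ (rootPoly p j (CI.F v)).support
    · exact hSk _ (Finset.mem_union_right _
        (Finset.mem_biUnion.2 ⟨v, Finset.mem_univ _, Finset.mem_image_of_mem _ hγ⟩))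
    · rw [MvPolynomial.notMem_support_iff.1 hγ]
      exact zero_mem _
  have hKV : CV * (H + 1) ≤ K := le_trans (Nat.mul_le_mul_right _ (le_max_left _ _)) hKC
  have hK : 2 * b * H ≤ K :=
    le_trans (Nat.mul_le_mul (le_max_right _ _) (Nat.le_succ H)) hKC
  obtain ⟨ηB, hηB, hblk⟩ := hj₁ j (le_of_max_le_left hj) K B hrich hK
  obtain ⟨ηV, hηV, hbv⟩ :=
    hSV K B (fun s hs => hSk s (Finset.mem_union_left _ hs)) hKV hK
  obtain ⟨hfilt, hbot, htop, hdl, hghost⟩ := hBF p R k A d xR b G ι e hctx CI i j K B H hK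
  letI := B.rMod H hK
  obtain ⟨hfin, hreg, hout, heul⟩ := hblk hdl
  obtain ⟨W⟩ := hbv hdl hfilt.anti
  refine ⟨B.unit, max ηB ηV, B.unit_pos, ?_, ⟨?_⟩⟩
  · rw [Nat.cast_max]
    exact max_le hηB hηV
  exact {
    A := B.Chains H
    δ := B.toR H hK (B.dC H)
    P := fun r => B.subR H hK (B.pC H r)
    Gt := fun t => B.subR H hK (B.gC H t)
    filt := hfilt
    bottom := fun t ht => congrArg (B.subR H hK) (hbot t ht)
    top := (congrArg (B.subR H hK) htop).trans (B.subR_bot H hK)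
    Dl := B.toR H hK (B.dlC H)
    dl := hdl
    ghost := fun N y hy => hghost S N y hy
    blk_finite := hfin
    blk_reg := fun t r h1 h2 a ha => (hreg t r h1 h2 a ha).trans (le_max_left _ _)
    blk_out := fun t r h1 h2 h3 => (hout t r h1 h2 h3).trans (le_max_left _ _)
    blk_euler := fun t h1 h2 h3 a ha1 ha2 =>
      (heul t h1 h2 h3 a ha1 ha2).trans (by exact_mod_cast le_max_left ηB ηV)
    V := W.V
    toV := W.toV
    fromV := W.fromV
    DV := W.DV
    toV_comm := W.toV_comm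
    fromV_comm := W.fromV_comm
    from_to := W.from_to
    to_from := W.to_from
    trV := W.trV
    trV_toV := W.trV_toV
    V_finite := W.V_finite
    DV_ker := fun T hT a ha => (W.DV_ker T hT a ha).trans (le_max_right _ _)
    n₀ := W.n₀
    n₀_le := W.n₀_le
    g := W.g
    g_nat := W.g_nat
    g_kill := W.g_kill
    g_ker := fun T hT0 hT => (W.g_ker T hT0 hT).trans (by
      refine Nat.cast_le.2 (add_le_add (Nat.mul_le_mul_right _ (Nat.mul_le_mul_right _ ?_))
        (le_max_right _ _))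
      exact le_max_left _ _)
    g_coker := fun T hT0 hT => (W.g_coker T hT0 hT).trans (by
      refine Nat.cast_le.2 (add_le_add (Nat.mul_le_mul_right _ (Nat.mul_le_mul_right _ ?_))
        (le_max_right _ _))
      exact le_max_left _ _) }

end Vale.Agent.P202
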