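import Vale.Agent.P202.Basic

/-! Lengths of subquotients of one ambient module. -/

universe u

namespace Vale.Agent.P202

open Submodule

variable {S : Type*} [CommRing S] {A : Type*} [AddCommGroup A] [Module S A]
  {A' : Type*} [AddCommGroup A'] [Module S A']

lemma sq_congr_inf {N L L' : Submodule S A} (h : N ⊓ L = N ⊓ L') : sq S N L = sq S N L' := by
  have : L.comap N.subtype = L'.comap N.subtype := by
    ext ⟨x, hx⟩
    constructor <;> intro hm
    · exact (h.le ⟨hx, hm⟩).2
    · exact (h.ge ⟨hx, hm⟩).2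
  rw [sq, sq, this]

lemma sq_map (f : A →ₗ[S] A') (N : Submodule S A) (L : Submodule S A') :
    sq S (N.map f) L = sq S N (L.comap f) := by
  let g : ↥N →ₗ[S] ↥(N.map f) := f.submoduleMap N
  let h := (L.comap (N.map f).subtype).mkQ ∘ₗ g
  have hs : Function.Surjective h := (Submodule.mkQ_surjective _).comp (f.submoduleMap_surjective N)
  have hk : LinearMap.ker h = (L.comap f).comap N.subtype := by
    ext x
    simp [h, g, Submodule.Quotient.mk_eq_zero]
  rw [sq, sq, ← hk]
  exact (h.quotKerEquivOfSurjective hs).symm.length_eq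

lemma sq_sup_left (N L : Submodule S A) : sq S (N ⊔ L) L = sq S N L := by
  rw [sq, sq]
  let g : ↥N →ₗ[S] ↥(N ⊔ L) ⧸ L.comap (N ⊔ L).subtype :=
    (L.comap (N ⊔ L).subtype).mkQ ∘ₗ Submodule.inclusion le_sup_left
  have hs : Function.Surjective g := by
    intro x
    obtain ⟨⟨x, hx⟩, rfl⟩ := Submodule.mkQ_surjective _ x
    obtain ⟨a, ha, b, hb, rfl⟩ := Submodule.mem_sup.1 hx
    refine ⟨⟨a, ha⟩, ?_⟩
    simp only [g, LinearMap.comp_apply, Submodule.mkQ_apply, Submodule.Quotient.eq]
    simpa using L.neg_mem hb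
  have hk : LinearMap.ker g = L.comap N.subtype := by
    ext x; simp [g, Submodule.Quotient.mk_eq_zero]
  rw [← hk]
  exact (g.quotKerEquivOfSurjective hs).symm.length_eq

lemma sq_congr_sup {N N' L : Submodule S A} (h : N ⊔ L = N' ⊔ L) : sq S N L = sq S N' L := by
  rw [← sq_sup_left, h, sq_sup_left]

lemma sq_eq_zero_iff {N L : Submodule S A} : sq S N L = 0 ↔ N ≤ L := by
  rw [sq, Module.length_eq_zero_iff, Submodule.Quotient.subsingleton_iff, Submodule.comap_subtype_eq_top]

lemma sq_add {N M L : Submodule S A} (h1 : L ≤ M) (h2 : M ≤ N) :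
    sq S N L = sq S N M + sq S M L := by
  let f : (↥M ⧸ L.comap M.subtype) →ₗ[S] (↥N ⧸ L.comap N.subtype) :=
    Submodule.mapQ _ _ (Submodule.inclusion h2) (fun x hx => hx)
  let g : (↥N ⧸ L.comap N.subtype) →ₗ[S] (↥N ⧸ M.comap N.subtype) :=
    Submodule.factor (Submodule.comap_mono h1)
  have hf : Function.Injective f := by
    rw [← LinearMap.ker_eq_bot, Submodule.eq_bot_iff]
    intro x
    obtain ⟨x, rfl⟩ := Submodule.mkQ_surjective _ x
    intro hx
    have hx' : Submodule.Quotient.mk (p := L.comap N.subtype) (Submodule.inclusion h2 x) = 0 := hx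
    rw [Submodule.Quotient.mk_eq_zero] at hx'
    rw [Submodule.mkQ_apply, Submodule.Quotient.mk_eq_zero]
    exact hx'
  have hg : Function.Surjective g := Submodule.factor_surjective _
  have he : Function.Exact f g := by
    intro x
    obtain ⟨⟨x, hx⟩, rfl⟩ := Submodule.mkQ_surjective _ x
    constructor
    · intro h
      have hm : x ∈ M := by simpa [g, Submodule.Quotient.mk_eq_zero] using h
      exact ⟨Submodule.Quotient.mk ⟨x, hm⟩, rfl⟩
    · rintro ⟨y, hy⟩
      obtain ⟨⟨y, hyM⟩, rfl⟩ := Submodule.mkQ_surjective _ y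
      rw [← hy]
      show Submodule.Quotient.mk (p := M.comap N.subtype) (Submodule.inclusion h2 ⟨y, hyM⟩) = 0
      rw [Submodule.Quotient.mk_eq_zero]
      exact hyM
  rw [sq, Module.length_eq_add_of_exact f g hf hg he, add_comm]
  rfl

lemma sq_mono_right {N L L' : Submodule S A} (h : L' ≤ L) : sq S N L ≤ sq S N L' :=
  Module.length_le_of_surjective _
    (Submodule.factor_surjective (Submodule.comap_mono (f := N.subtype) h))

lemma sq_mono_left {N N' L : Submodule S A} (h : N ≤ N') : sq S N L ≤ sq S N' L := by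
  let f : (↥N ⧸ L.comap N.subtype) →ₗ[S] (↥N' ⧸ L.comap N'.subtype) :=
    Submodule.mapQ _ _ (Submodule.inclusion h) (fun x hx => hx)
  refine Module.length_le_of_injective f ?_
  rw [← LinearMap.ker_eq_bot, Submodule.eq_bot_iff]
  intro x
  obtain ⟨x, rfl⟩ := Submodule.mkQ_surjective _ x
  intro hx
  have hx' : Submodule.Quotient.mk (p := L.comap N'.subtype) (Submodule.inclusion h x) = 0 := hx
  rw [Submodule.Quotient.mk_eq_zero] at hx'
  rw [Submodule.mkQ_apply, Submodule.Quotient.mk_eq_zero]
  exact hx'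

lemma sq_mono {N N' L L' : Submodule S A} (h : N ≤ N') (h' : L' ≤ L) :
    sq S N L ≤ sq S N' L' :=
  (sq_mono_left h).trans (sq_mono_right h')

lemma sq_comap_subtype (T N L : Submodule S A) (hN : N ≤ T) :
    sq S (N.comap T.subtype) (L.comap T.subtype) = sq S N L := by
  rw [← sq_map, Submodule.map_comap_subtype, inf_eq_right.2 hN]

end Vale.Agent.P202
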