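import Vale.Agent.P202.InterfacesBand2
import Vale.Agent.P202.Sq

/-!
The counts for the comparison of `H^0` (BLUEPRINT_BAND, section 7): the growth of `R` against the
filtration of `A`, and kernel and cokernel of a map from a free module which is injective modulo a
deep piece of `A`.
-/

universe u

namespace Vale.Agent.P202

open IsLocalRing

lemma bvc_pow_sub (d : ℕ) {x y : ℝ} (hy : 0 ≤ y) (h : y ≤ x) :
    x ^ d - y ^ d ≤ d * (x - y) * x ^ (d - 1) := by
  induction d with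
  | zero => simp
  | succ d ih =>
    rcases Nat.eq_zero_or_pos d with rfl | hd
    · simp
    have h1 : y ^ d ≤ x ^ d := pow_le_pow_left₀ hy h d
    have h2 : x * x ^ (d - 1) = x ^ d := by
      rw [← pow_succ', Nat.sub_add_cancel hd]
    have h3 := mul_le_mul_of_nonneg_left ih (hy.trans h)
    have h4 : y ^ d * (x - y) ≤ x ^ d * (x - y) :=
      mul_le_mul_of_nonneg_right h1 (by linarith)
    rw [Nat.add_sub_cancel]
    push_cast
    calc x ^ (d + 1) - y ^ (d + 1) = x * (x ^ d - y ^ d) + y ^ d * (x - y) := by ring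
      _ ≤ x * (↑d * (x - y) * x ^ (d - 1)) + x ^ d * (x - y) := add_le_add h3 h4
      _ = (↑d + 1) * (x - y) * x ^ d := by rw [← h2]; ring

/-- The lengths of `R / m ^ T` and of `A / G (b (T - C₁))` agree with `e T ^ d / d!` up to
`O (T ^ (d - 1))`, on the sides needed. -/
theorem bvc_growth {p : ℕ} [Fact p.Prime] {R : Type u} [CommRing R] [IsLocalRing R] {k : Type u}
    [Field k] [CharP k p] [PerfectRing k p] {A : Type u} [CommRing A] [IsLocalRing A] [Algebra R A]
    [Algebra (WittVector p k) A] {d : ℕ} {xR : Fin d → R} {b : ℕ} {G : ℕ → Ideal A}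
    {ι : ResidueField R →+* k} {e : ℝ} (hctx : BandCtx p R A xR b G ι e)
    (hgrad : ∃ C : ℕ, ∀ T : ℕ, 0 < T → Module.length A (A ⧸ G (b * T)) ≠ ⊤ ∧
      |((Module.length A (A ⧸ G (b * T))).toNat : ℝ) - e / d.factorial * (T : ℝ) ^ d| ≤
        (C : ℝ) * (T : ℝ) ^ (d - 1)) :
    ∀ C₁ : ℕ, ∃ C : ℕ, ∀ T : ℕ, 0 < T →
      Module.length R (R ⧸ maximalIdeal R ^ T) ≠ ⊤ ∧
      ((Module.length R (R ⧸ maximalIdeal R ^ T)).toNat : ℝ) ≤
        e * (T : ℝ) ^ d / d.factorial + C * (T : ℝ) ^ (d - 1) ∧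
      Module.length A (A ⧸ G (b * (T - C₁))) ≠ ⊤ ∧
      e * (T : ℝ) ^ d / d.factorial - C * (T : ℝ) ^ (d - 1) ≤
        ((Module.length A (A ⧸ G (b * (T - C₁)))).toNat : ℝ) := by
  intro C₁
  obtain ⟨Cg, hg⟩ := hgrad
  obtain ⟨Ch, hh⟩ := hctx.hilbert
  obtain ⟨c, hc⟩ := hctx.nu.bound
  set a : ℝ := e / d.factorial with ha
  obtain ⟨C, hC⟩ := exists_nat_ge (|a| * (d * c * (1 + c : ℝ) ^ (d - 1)) +
    Cg * (1 + c : ℝ) ^ (d - 1) + Ch + (|a| * (d * C₁ + 1) * (1 + C₁) + Cg) + |a| * d * C₁)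
  refine ⟨C, fun T hT => ?_⟩
  have hd1 := hctx.d_pos
  have hT1 : (1 : ℝ) ≤ T := by exact_mod_cast hT
  have hTd : (0 : ℝ) ≤ (T : ℝ) ^ (d - 1) := by positivity
  rw [show e * (T : ℝ) ^ d / d.factorial = a * (T : ℝ) ^ d by rw [ha]; ring]
  have p1 : (0 : ℝ) ≤ |a| * (d * c * (1 + c : ℝ) ^ (d - 1)) := by positivity
  have p2 : (0 : ℝ) ≤ (Cg : ℝ) * (1 + c : ℝ) ^ (d - 1) := by positivity
  have p3 : (0 : ℝ) ≤ |a| * (d * C₁ + 1) * (1 + C₁) + Cg := by positivity
  have p4 : (0 : ℝ) ≤ |a| * d * C₁ := by positivity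
  have p5 : (0 : ℝ) ≤ (Ch : ℝ) := Nat.cast_nonneg _
  obtain ⟨hg1, hg2⟩ := hg (T + c) (by omega)
  -- the upper bound
  have hle : Module.length A (A ⧸ maximalIdeal A ^ T) ≤ Module.length A (A ⧸ G (b * (T + c))) := by
    have h := hc (T + c)
    rw [Nat.add_sub_cancel] at h
    exact Module.length_le_of_surjective (Submodule.factor h) (Submodule.factor_surjective h)
  have hA : Module.length A (A ⧸ maximalIdeal A ^ T) ≠ ⊤ := ne_top_of_le_ne_top hg1 hle
  have hR := (hh T).2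
  have hfin : Module.length R (R ⧸ maximalIdeal R ^ T) ≠ ⊤ :=
    ne_top_of_le_ne_top (WithTop.add_ne_top.2 ⟨hA, ENat.natCast_ne_top _⟩) hR
  refine ⟨hfin, ?_, ?_⟩
  · have hn : (Module.length R (R ⧸ maximalIdeal R ^ T)).toNat ≤
        (Module.length A (A ⧸ G (b * (T + c)))).toNat + Ch * T ^ (d - 1) := by
      have := hR.trans (add_le_add_left hle _)
      rw [← ENat.natCast_toNat hfin, ← ENat.natCast_toNat hg1, ← Nat.cast_add] at this
      exact_mod_cast this
    have hn' : ((Module.length R (R ⧸ maximalIdeal R ^ T)).toNat : ℝ) ≤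
        ((Module.length A (A ⧸ G (b * (T + c)))).toNat : ℝ) + Ch * (T : ℝ) ^ (d - 1) := by
      exact_mod_cast hn
    push_cast at hg2
    have h1 := (abs_le.1 hg2).2
    have h2 : ((T : ℝ) + c) ^ (d - 1) ≤ (1 + c : ℝ) ^ (d - 1) * (T : ℝ) ^ (d - 1) := by
      rw [← mul_pow]
      refine pow_le_pow_left₀ (by positivity) ?_ _
      nlinarith [mul_le_mul_of_nonneg_left hT1 (Nat.cast_nonneg c : (0 : ℝ) ≤ c)]
    have h3 := bvc_pow_sub d (Nat.cast_nonneg T : (0 : ℝ) ≤ T)
      (by linarith [Nat.cast_nonneg (α := ℝ) c] : (T : ℝ) ≤ T + c)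
    rw [add_sub_cancel_left] at h3
    have h4 : a * ((T : ℝ) + c) ^ d - a * (T : ℝ) ^ d ≤
        |a| * (d * c * (1 + c : ℝ) ^ (d - 1)) * (T : ℝ) ^ (d - 1) := by
      rw [← mul_sub]
      refine (mul_le_mul_of_nonneg_right (le_abs_self a) (sub_nonneg.2 ?_)).trans ?_
      · exact pow_le_pow_left₀ (by positivity) (by linarith [Nat.cast_nonneg (α := ℝ) c]) _
      rw [mul_assoc |a|]
      refine mul_le_mul_of_nonneg_left (h3.trans ?_) (abs_nonneg _)
      rw [mul_assoc _ ((1 + c : ℝ) ^ (d - 1))]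
      exact mul_le_mul_of_nonneg_left h2 (by positivity)
    have h5 := mul_le_mul_of_nonneg_left h2 (Nat.cast_nonneg Cg : (0 : ℝ) ≤ Cg)
    have h6 : (|a| * (d * c * (1 + c : ℝ) ^ (d - 1)) + Cg * (1 + c : ℝ) ^ (d - 1) + Ch) *
        (T : ℝ) ^ (d - 1) ≤ C * (T : ℝ) ^ (d - 1) :=
      mul_le_mul_of_nonneg_right (by linarith) hTd
    nlinarith
  rcases Nat.eq_zero_or_pos (T - C₁) with h0 | h0
  · have hz : Module.length A (A ⧸ G (b * (T - C₁))) = 0 := by
      rw [h0, mul_zero, hctx.nu.zero, Module.length_eq_zero_iff,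
        Submodule.Quotient.subsingleton_iff]
    rw [hz]
    refine ⟨ENat.zero_ne_top, ?_⟩
    have hTC : (T : ℝ) ≤ C₁ := by exact_mod_cast (by omega : T ≤ C₁)
    have hpow : (T : ℝ) ^ d = T * (T : ℝ) ^ (d - 1) := by
      rw [← pow_succ', Nat.sub_add_cancel hd1]
    have hd' : (1 : ℝ) ≤ d := by exact_mod_cast hd1
    have h7 : a * T ≤ C := by
      have q1 : a * T ≤ |a| * C₁ :=
        (mul_le_mul_of_nonneg_right (le_abs_self a) (by positivity)).trans
          (mul_le_mul_of_nonneg_left hTC (abs_nonneg _))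
      have q2 : |a| * C₁ ≤ |a| * d * C₁ :=
        mul_le_mul_of_nonneg_right (le_mul_of_one_le_right (abs_nonneg _) hd') (by positivity)
      linarith
    have h8 := mul_le_mul_of_nonneg_right h7 hTd
    rw [mul_assoc, ← hpow] at h8
    simpa using h8
  · obtain ⟨hg1, hg2⟩ := hg (T - C₁) h0
    refine ⟨hg1, ?_⟩
    have h1 := (abs_le.1 hg2).1
    have hle' : ((T - C₁ : ℕ) : ℝ) ≤ T := by exact_mod_cast Nat.sub_le T C₁
    have h3 := bvc_pow_sub d (Nat.cast_nonneg (T - C₁) : (0 : ℝ) ≤ ((T - C₁ : ℕ) : ℝ)) hle'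
    have h5 : (T : ℝ) - ((T - C₁ : ℕ) : ℝ) ≤ C₁ := by
      have : T ≤ (T - C₁) + C₁ := by omega
      have : (T : ℝ) ≤ ((T - C₁ : ℕ) : ℝ) + C₁ := by exact_mod_cast this
      linarith
    have h4 : a * (T : ℝ) ^ d - a * ((T - C₁ : ℕ) : ℝ) ^ d ≤
        |a| * d * C₁ * (T : ℝ) ^ (d - 1) := by
      rw [← mul_sub]
      refine (mul_le_mul_of_nonneg_right (le_abs_self a) (sub_nonneg.2 ?_)).trans ?_
      · exact pow_le_pow_left₀ (Nat.cast_nonneg _) hle' _
      rw [mul_assoc |a|, mul_assoc |a|]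
      refine mul_le_mul_of_nonneg_left (h3.trans ?_) (abs_nonneg _)
      exact mul_le_mul_of_nonneg_right (mul_le_mul_of_nonneg_left h5 (Nat.cast_nonneg _)) hTd
    have h2 : (Cg : ℝ) * ((T - C₁ : ℕ) : ℝ) ^ (d - 1) ≤ Cg * (T : ℝ) ^ (d - 1) :=
      mul_le_mul_of_nonneg_left (pow_le_pow_left₀ (Nat.cast_nonneg _) hle' _) (Nat.cast_nonneg _)
    have h6 : (|a| * d * C₁ + Cg) * (T : ℝ) ^ (d - 1) ≤ C * (T : ℝ) ^ (d - 1) := by
      refine mul_le_mul_of_nonneg_right ?_ hTd
      have p0 : (0 : ℝ) ≤ |a| * (d * C₁ + 1) * (1 + C₁) := by positivity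
      linarith
    linarith

/-- Kernel and cokernel of a map from a free module whose kernel is deep in `A`. -/
theorem bvc_range_bounds {p : ℕ} [Fact p.Prime] {R : Type u} [CommRing R] [IsLocalRing R]
    {k : Type u} [Field k] [CharP k p] [PerfectRing k p] {A : Type u} [CommRing A] [Algebra R A]
    [Algebra (WittVector p k) A] {d : ℕ} {x : Fin d → A} {b : ℕ} {G : ℕ → Ideal A}
    {CI : CIData p k A x b G} {ι : ResidueField R →+* k} {i j K : ℕ} (B : Band p R CI ι i j K)
    {σ : Type} [Fintype σ] {n₀ T M : ℕ} (eq : Fin n₀ ≃ σ × Fin B.c) {V : Type u} [AddCommGroup V]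
    [Module R V] (g : (Fin n₀ → R) →ₗ[R] V) (hMK : M ≤ K) (hanti : Antitone G)
    (hker : ∀ v, g v = 0 → ∀ s,
      (∑ cc, algebraMap R A (v (eq.symm (s, cc))) * (B.basA cc : A)) ∈ G M)
    (hkill : ∀ v, (∀ t, v t ∈ maximalIdeal R ^ T) → g v = 0) :
    sq R (LinearMap.ker g) (Submodule.pi Set.univ fun _ => maximalIdeal R ^ T) +
        ((Fintype.card σ * B.c : ℕ) : ℕ∞) * Module.length A (A ⧸ G M) ≤
      (n₀ : ℕ∞) * Module.length R (R ⧸ maximalIdeal R ^ T) ∧
    Module.length R (V ⧸ LinearMap.range g) +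
        ((Fintype.card σ * B.c : ℕ) : ℕ∞) * Module.length A (A ⧸ G M) ≤ Module.length R V := by
  classical
  -- the map to `A / G M`, and its image
  set q : A →ₗ[R] A ⧸ (G M).restrictScalars R := ((G M).restrictScalars R).mkQ with hq
  let W : Submodule R (A ⧸ (G M).restrictScalars R) := (Subalgebra.toSubmodule B.As).map q
  have hW : Module.length R ↥W = (B.c : ℕ∞) * Module.length A (A ⧸ G M) := by
    rw [← B.length_eq M hMK, sq]
    let h := q.submoduleMap (Subalgebra.toSubmodule B.As)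
    have hk : LinearMap.ker h =
        ((G M).restrictScalars R).comap (Subalgebra.toSubmodule B.As).subtype := by
      ext y
      simp [h, q, LinearMap.mem_ker, Subtype.ext_iff, Submodule.Quotient.mk_eq_zero]
    rw [← hk]
    exact ((h.quotKerEquivOfSurjective (q.submoduleMap_surjective _)).length_eq).symm
  let Ψ : (Fin n₀ → R) →ₗ[R] (σ → ↥W) := LinearMap.pi fun s =>
    ∑ cc, (LinearMap.proj (eq.symm (s, cc))).smulRight
      (⟨q (B.basA cc : A), Submodule.mem_map_of_mem (B.basA cc).2⟩ : ↥W)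
  have hΨ : ∀ v s, (Ψ v s : A ⧸ (G M).restrictScalars R) =
      q (∑ cc, algebraMap R A (v (eq.symm (s, cc))) * (B.basA cc : A)) := by
    intro v s
    simp only [Ψ, LinearMap.pi_apply, LinearMap.sum_apply, LinearMap.smulRight_apply,
      LinearMap.proj_apply, Submodule.coe_sum, SetLike.val_smul, map_sum, ← Algebra.smul_def,
      map_smul]
  have hsur : Function.Surjective Ψ := by
    intro w
    choose a ha hw using fun s => (w s).2
    choose r hr using fun s => B.basA_span (a s) (ha s)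
    refine ⟨fun t => r (eq t).1 (eq t).2, funext fun s => Subtype.ext ?_⟩
    rw [hΨ, ← hw s, hq, Submodule.mkQ_apply, Submodule.mkQ_apply, Submodule.Quotient.eq]
    have h1 := (G M).neg_mem (hanti hMK (hr s))
    rw [neg_sub] at h1
    simpa using h1
  have hkerΨ : LinearMap.ker g ≤ LinearMap.ker Ψ := fun v hv =>
    LinearMap.mem_ker.2 <| funext fun s => Subtype.ext <| by
      rw [hΨ, hq, Submodule.mkQ_apply]
      exact (Submodule.Quotient.mk_eq_zero _).2 (hker v hv s)
  have hlow : ((Fintype.card σ * B.c : ℕ) : ℕ∞) * Module.length A (A ⧸ G M) ≤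
      Module.length R ((Fin n₀ → R) ⧸ LinearMap.ker g) := by
    rw [Nat.cast_mul, mul_assoc, ← hW]
    have h1 : Module.length R (σ → ↥W) = (Fintype.card σ : ℕ∞) * Module.length R ↥W := by
      rw [Module.length_pi_of_fintype, Finset.sum_const, Finset.card_univ, nsmul_eq_mul]
    rw [← h1]
    refine Module.length_le_of_surjective ((LinearMap.ker g).liftQ Ψ hkerΨ) fun w => ?_
    obtain ⟨v, hv⟩ := hsur w
    exact ⟨Submodule.Quotient.mk v, hv⟩
  constructor
  · set Q := Submodule.pi Set.univ fun _ : Fin n₀ => (maximalIdeal R ^ T : Ideal R) with hQ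
    have hQk : Q ≤ LinearMap.ker g := fun v hv => hkill v fun t => hv t trivial
    have hQlen : Module.length R ((Fin n₀ → R) ⧸ Q) =
        (n₀ : ℕ∞) * Module.length R (R ⧸ maximalIdeal R ^ T) := by
      rw [(Submodule.quotientPi fun _ : Fin n₀ => (maximalIdeal R ^ T : Ideal R)).length_eq,
        Module.length_pi_of_fintype, Finset.sum_const, Finset.card_univ, Fintype.card_fin,
        nsmul_eq_mul]
    rw [← hQlen]
    have h2 := Module.length_eq_add_of_exact (R := R)
      (Submodule.mapQ (Q.comap (LinearMap.ker g).subtype) Q (LinearMap.ker g).subtype le_rfl)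
      (Submodule.factor hQk) ?_ (Submodule.factor_surjective hQk) ?_
    · rw [h2]
      exact add_le_add_right hlow _
    · rw [← LinearMap.ker_eq_bot, Submodule.mapQ, Submodule.ker_liftQ_eq_bot']
      ext y
      simp [Submodule.Quotient.mk_eq_zero]
    · intro v
      obtain ⟨v, rfl⟩ := Submodule.mkQ_surjective _ v
      constructor
      · intro h
        exact ⟨Submodule.Quotient.mk ⟨v, (Submodule.Quotient.mk_eq_zero _).1 h⟩, rfl⟩
      · rintro ⟨y, hy⟩
        obtain ⟨y, rfl⟩ := Submodule.mkQ_surjective _ y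
        rw [← hy]
        exact (Submodule.Quotient.mk_eq_zero _).2 y.2
  · rw [Module.length_eq_add_of_exact (LinearMap.range g).subtype (LinearMap.range g).mkQ
      (Submodule.subtype_injective _) (Submodule.mkQ_surjective _)
      (LinearMap.exact_subtype_mkQ _), add_comm]
    exact add_le_add_left (hlow.trans_eq g.quotKerEquivRange.length_eq) _

end Vale.Agent.P202
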