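import Vale.Agent.P202.InterfacesBandV
import Vale.Agent.P202.BandVCyc

/-!
The statement on the staircase cycles, from `bvl_boundary_iff`.
-/

universe u

namespace Vale.Agent.P202

/-- The twists are regular on the staircase monomials once the scale is at least `b`. -/
lemma bvl_stairOK {d b q : ℕ} (hd : 0 < d) (hb : 0 < b) (hq : b ≤ q) :
    StairOK (twistOf b (zetaOf d) q) := by
  intro l
  obtain ⟨h1, -⟩ := zOf_bounds hb (zetaOf d) q l
  obtain ⟨-, h2⟩ := (isCrit_zetaOf hd).1 l
  simp only [twistOf]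
  generalize zOf b (zetaOf d) q l = z at h1
  generalize zetaOf d l = ζ at h1 h2
  have hl : (0 : ℝ) ≤ ((l : ℕ) : ℝ) := Nat.cast_nonneg _
  have hb' : (0 : ℝ) < b := by exact_mod_cast hb
  have hq' : (b : ℝ) ≤ q := by exact_mod_cast hq
  have h3 : (z : ℝ) ≤ ζ := by
    refine le_of_mul_le_mul_left ?_ hb'
    exact h1.trans (mul_le_mul_of_nonpos_right hq' (by linarith))
  have h4 : (z : ℝ) < -(((l : ℕ) : ℝ) + 1) := lt_of_le_of_lt h3 h2
  have h5 : z < -(((l : ℕ) : ℤ) + 1) := by exact_mod_cast h4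
  omega

lemma stairChain_eq_bvlChain (L : Type u) [CommRing L] (d : ℕ) :
    stairChain L d = bvlChain L L d := rfl

/-- The staircase cycles are boundaries only when their coefficients are deep. -/
theorem goalStairCycle (hlev : GoalLevelIso.{u}) (hco : GoalBandCoord.{u}) :
    GoalStairCycle.{u} := by
  refine ⟨fun d b hd hb => ⟨b, fun q hq => bvl_stairOK hd hb hq⟩, ?_⟩
  intro p _ R _ _ _ k _ _ _ A _ _ _ _ _ d xR b G ι e hctx CI i j K B hR hK hok z
  rw [stairChain_eq_bvlChain]
  refine ⟨phiD_bvlChain _ z, bvlChain_deg z, fun u hz => bvlChain_mem_phiSub (fun l => ?_) hz,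
    fun c hc => (bvl_boundary_iff hco hlev hctx B hR hK c z).1 hc⟩
  have := hok l
  omega

end Vale.Agent.P202
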