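import Vale.Agent.P202.BandVComp
import Vale.Agent.P202.BandVCount
import Vale.Agent.P202.BandVStair

/-!
`GoalBandV`: the comparison of `H^0` of the windows `[0, T)` with free modules.
-/

universe u

namespace Vale.Agent.P202

open IsLocalRing MvPolynomial

lemma bv_card_stair (d : ℕ) : Fintype.card (Stair d) = (d - 1).factorial := by
  rw [Fintype.card_pi]
  simp only [Fintype.card_fin]
  rw [Fin.prod_univ_eq_prod_range (fun l => l + 1), Finset.prod_range_add_one_eq_factorial]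

/-- The bound on the kernel, as numbers. -/
lemma bv_ker_est {S η n₀ C C' U T' : ℕ} {rR rA X : ℝ} (h : (S : ℝ) + n₀ * rA ≤ n₀ * rR)
    (hR : rR ≤ X + C' * T') (hA : X - C' * T' ≤ rA) (hC : 2 * C' * n₀ ≤ C * U) :
    S ≤ C * U * T' + η := by
  have h1 : (n₀ : ℝ) * (rR - rA) ≤ n₀ * (2 * C' * T') :=
    mul_le_mul_of_nonneg_left (by linarith) (Nat.cast_nonneg _)
  have h2 : (2 * C' * n₀ : ℝ) * T' ≤ (C * U : ℝ) * T' :=
    mul_le_mul_of_nonneg_right (by exact_mod_cast hC) (Nat.cast_nonneg _)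
  have h3 : (S : ℝ) ≤ ((C * U * T' + η : ℕ) : ℝ) := by
    push_cast
    have := Nat.cast_nonneg (α := ℝ) η
    nlinarith
  exact_mod_cast h3

/-- The bound on the cokernel, as numbers. -/
lemma bv_coker_est {S η n₀ C C₀ C' U T' : ℕ} {rV rA X Y : ℝ} (h : (S : ℝ) + n₀ * rA ≤ rV)
    (hA : X - C' * T' ≤ rA) (hV : rV ≤ Y + C₀ * U * T' + η) (hXY : n₀ * X = Y)
    (hC : C₀ * U + C' * n₀ ≤ C * U) : S ≤ C * U * T' + η := by
  have h1 : (n₀ : ℝ) * (X - C' * T') ≤ n₀ * rA :=
    mul_le_mul_of_nonneg_left hA (Nat.cast_nonneg _)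
  have h2 : ((C₀ * U + C' * n₀ : ℕ) : ℝ) * T' ≤ ((C * U : ℕ) : ℝ) * T' :=
    mul_le_mul_of_nonneg_right (by exact_mod_cast hC) (Nat.cast_nonneg _)
  have h3 : (S : ℝ) ≤ ((C * U * T' + η : ℕ) : ℝ) := by
    push_cast at h2 ⊢
    nlinarith
  exact_mod_cast h3

/-- `GoalBandV` from its parts. -/
theorem goalBandV_of (hgradA : GoalGradA.{u}) (hcomp : GoalCompData.{u})
    (hst : GoalStairCycle.{u}) (hH0 : GoalBandH0.{u}) : GoalBandV.{u} := by
  classical
  intro p _ R _ _ _ _ k _ _ _ _ A _ _ _ _ _ d xR b G ι e hctx CI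
  obtain ⟨hgrow, hUJ, hJ, -⟩ := hgradA p R k A d xR b G ι e hctx CI
  obtain ⟨ν, dS, P, s, -, hdS, hPp, hPJ, hs, hsP', hsmul, hw⟩ :=
    hcomp p k A d _ b G hctx.d_pos hctx.nu CI
  obtain ⟨hstq, hcyc⟩ := hst
  obtain ⟨q₀, hq₀⟩ := hstq d b hctx.d_pos hctx.nu.b_pos
  obtain ⟨C₀, hC₀⟩ := hH0 p R k A d xR b G ι e hctx CI
  obtain ⟨C', hC'⟩ := bvc_growth hctx hgrow (CI.bvCst dS)
  have hfin : ∀ T : ℕ, 0 < T → Module.length A (A ⧸ G (b * T)) ≠ ⊤ := fun T hT => by
    obtain ⟨C, hC⟩ := hgrow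
    exact (hC T hT).1
  refine ⟨2 * b + dS + 1 + C₀ + 2 * C' * (d - 1).factorial, fun H J ε hε => ?_⟩
  obtain ⟨i₀, hi₀⟩ := hC₀ H J ε hε
  refine ⟨i₀, fun i hi => ?_⟩
  obtain ⟨j₁, hj₁⟩ := hi₀ i hi
  refine ⟨max j₁ (max i q₀), fun j hj => ?_⟩
  have hjj : j₁ ≤ j := le_trans (le_max_left _ _) hj
  have hij : i ≤ j := le_trans (le_trans (le_max_left _ _) (le_max_right _ _)) hj
  have hqj : q₀ ≤ j := le_trans (le_trans (le_max_right _ _) (le_max_right _ _)) hj
  refine ⟨(Finset.univ.biUnion fun v => (rootPoly p j (CI.F v)).coeffs) ∪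
    Finset.univ.biUnion fun α => (s α).coeffs, fun K B hSk hCK hK => ?_⟩
  have hC1 : (2 * b + dS + 1) * (H + 1) ≤ K :=
    le_trans (Nat.mul_le_mul_right _ (by omega)) hCK
  have hdK : dS < K := lt_of_lt_of_le
    (by omega : dS < (2 * b + dS + 1) * 1) ((Nat.mul_le_mul_left _ (Nat.le_add_left 1 H)).trans hC1)
  have hK0 : 0 < K := by omega
  have hrich : B.Rich := fun v γ => by
    by_cases h0 : MvPolynomial.coeff γ (rootPoly p j (CI.F v)) = 0
    · rw [h0]; exact B.κ.zero_mem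
    · exact hSk _ (Finset.mem_union_left _ (Finset.mem_biUnion.2
        ⟨v, Finset.mem_univ v, coeff_mem_coeffs _ h0⟩))
  have hblen : q₀ ≤ B.blen := by
    have h1 : B.jq < p ^ B.jq := Nat.lt_pow_self (Fact.out : p.Prime).one_lt
    have h2 : p ^ B.jq ≤ B.blen := Nat.le_mul_of_pos_right _ hctx.nu.b_pos
    have := B.j_le
    omega
  have hOK : StairOK B.tw := hq₀ _ hblen
  obtain ⟨η, hη, hH0'⟩ := hj₁ j hjj K B hrich hK0 hOK hK
  refine ⟨η, hη, ?_⟩
  intro hdl hanti
  obtain ⟨D⟩ := hH0' hdl hanti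
  -- the separators
  have hsκ : ∀ α, ∃ sκ : MvPolynomial (Vr d CI.n) B.κ, sκ.map B.κ.subtype = s α := fun α =>
    exists_band_descend B.κ (s α) fun a ha =>
      hSk a (Finset.mem_union_right _ (Finset.mem_biUnion.2 ⟨α, Finset.mem_univ α, ha⟩))
  choose sκ hsκ using hsκ
  have hσex : ∀ α, ∃ σ : B.As, InitOf CI dS (σ : A) ((sκ α).map B.κ.subtype) := fun α => by
    obtain ⟨a, ha, f, hf⟩ := B.init_surj dS hdK (sκ α)
      (band_isWeightedHomogeneous_of_map (Subfield.subtype B.κ).injective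
        (by rw [hsκ]; exact (hs α).1))
    exact ⟨⟨a, ha⟩, f, hf⟩
  choose σ hσ using hσex
  choose rep hrep using fun a : B.As => Ideal.Quotient.mk_surjective (B.χ a)
  -- the monomials
  set l := B.jq - j with hl
  have hjl : j + l = B.jq := Nat.add_sub_cancel' B.j_le
  set N' := (p ^ l) ^ (CI.n + 1) * (p ^ (j + l)) ^ d with hN'
  choose w hwlt hwind using fun α => hw α j l
  set n₀ := (d - 1).factorial * B.unit with hn₀
  have hcard : Fintype.card (Stair d × Fin N') * B.c = n₀ := by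
    rw [Fintype.card_prod, bv_card_stair, Fintype.card_fin, hn₀, Band.unit, Band.mm, Band.qq, hN',
      hjl, ← hl]
    ring
  let eq : Fin n₀ ≃ (Stair d × Fin N') × Fin B.c :=
    (Fintype.equivFinOfCardEq (by rw [Fintype.card_prod, Fintype.card_fin, hcard])).symm
  let vv : Fin N' → B.L := fun t =>
    ∑ α, rep (σ α) ^ CI.bvN * B.lift (monomial (w α t) 1)
  let zb : Fin n₀ → Stair d → B.L := fun t =>
    Pi.single (eq t).1.1 (rep (B.basA (eq t).2) * vv (eq t).1.2)
  let gT : ∀ T, (Fin n₀ → R) →ₗ[R] D.V T := fun T =>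
    Fintype.linearCombination R fun t => D.gen T (zb t)
  have hgT : ∀ T v, gT T v = D.gen T (∑ t, rep (algebraMap R B.As (v t)) • zb t) := by
    intro T v
    rw [map_sum]
    simp only [gT, Fintype.linearCombination_apply]
    exact Finset.sum_congr rfl fun t _ => D.gen_smul T _ _ (hrep _).symm _
  have hblenT : ∀ T : ℕ, (B.blen : ℤ) * T = ((B.qq * (b * T) : ℕ) : ℤ) := fun T => by
    rw [Band.blen]; push_cast; ring
  have hbT : ∀ T, T ≤ H → b * T ≤ K := fun T hT => by
    refine le_trans ?_ hK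
    exact Nat.mul_le_mul (by omega) hT
  -- kill
  have hkill : ∀ T, T ≤ H → ∀ v, (∀ t, v t ∈ maximalIdeal R ^ T) → gT T v = 0 := by
    intro T hT v hv
    simp only [gT, Fintype.linearCombination_apply]
    refine Finset.sum_eq_zero fun t _ => ?_
    have hmG : ∀ n, maximalIdeal A ^ n ≤ G (b * n) := by
      intro n
      induction n with
      | zero => rw [mul_zero, hctx.nu.zero]; exact le_top
      | succ n ih =>
        rw [pow_succ, Nat.mul_succ]
        exact (Ideal.mul_mono ih hctx.nu.max_le).trans (hctx.nu.mul _ _)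
    have hG : algebraMap R A (v t) ∈ G (b * T) := hmG T (by
      have h1 := Ideal.mem_map_of_mem (algebraMap R A) (hv t)
      rwa [Ideal.map_pow, hctx.map_max] at h1)
    obtain ⟨z, hz, hχ⟩ := B.χ_fil (b * T) (algebraMap R B.As (v t)) hG
    rw [D.gen_smul T _ z hχ, D.gen_eq_zero T hT]
    have hlv : ∀ e', (B.E • (z • zb t)) e' ∈ B.Fil ((B.blen : ℤ) * T) := fun e' => by
      rw [hblenT]
      simp only [Pi.smul_apply, smul_eq_mul]
      exact Ideal.mul_mem_left _ _ (Ideal.mul_mem_right _ _ hz)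
    obtain ⟨-, hdeg, hlev, -⟩ :=
      hcyc p R k A d xR b G ι e hctx CI i j K B hrich hK0 hOK (B.E • (z • zb t))
    exact Submodule.mem_sup_right ⟨hlev _ hlv, hdeg⟩
  -- injectivity
  have hker : ∀ T, T ≤ H → ∀ v, gT T v = 0 → ∀ s' : Stair d × Fin N',
      (∑ cc, algebraMap R A (v (eq.symm (s', cc))) * (B.basA cc : A)) ∈
        G (b * (T - CI.bvCst dS)) := by
    intro T hT v hv
    rw [hgT, D.gen_eq_zero T hT] at hv
    obtain ⟨-, -, -, hbd⟩ := hcyc p R k A d xR b G ι e hctx CI i j K B hrich hK0 hOK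
      (B.E • ∑ t, rep (algebraMap R B.As (v t)) • zb t)
    rw [hblenT] at hv
    have hfil := hbd _ hv
    rintro ⟨e', t'⟩
    let a : Fin N' → B.As := fun t =>
      ∑ cc, algebraMap R B.As (v (eq.symm ((e', t), cc))) * B.basA cc
    let za : Fin N' → B.L := fun t =>
      ∑ cc, rep (algebraMap R B.As (v (eq.symm ((e', t), cc)))) * rep (B.basA cc)
    have hza : ∀ t, B.χ (a t) = Ideal.Quotient.mk B.Ann (za t) := fun t => by
      simp only [a, za, map_sum, map_mul, hrep]
    have hsum : (∑ t, rep (algebraMap R B.As (v t)) • zb t) e' =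
        ∑ t, za t * ∑ α, rep (σ α) ^ CI.bvN * B.lift (monomial (w α t) 1) := by
      rw [Finset.sum_apply, ← eq.symm.sum_comp, Fintype.sum_prod_type, Fintype.sum_prod_type,
        Finset.sum_eq_single e']
      · refine Finset.sum_congr rfl fun t _ => ?_
        simp only [za, Finset.sum_mul]
        refine Finset.sum_congr rfl fun cc _ => ?_
        simp only [zb, Equiv.apply_symm_apply, Pi.smul_apply, Pi.single_eq_same, smul_eq_mul, vv]
        ring
      · intro e'' _ hne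
        refine Finset.sum_eq_zero fun t _ => Finset.sum_eq_zero fun cc _ => ?_
        simp [zb, Pi.single_eq_of_ne (Ne.symm hne)]
      · exact fun hh => absurd (Finset.mem_univ e') hh
    have h1 := hfil e'
    rw [Pi.smul_apply, smul_eq_mul, hsum] at h1
    have h2 := B.bv_inject hctx hJ hfin hij
      (fun l a H hH => (hUJ j l a H).1 hH) hPp hPJ
      (s := sκ) (fun α => by rw [hsκ]; exact (hs α).2)
      (fun α α' h => by rw [hsκ]; exact hsP' α α' h)
      (fun α N H hH hHP => by rw [hsκ]; exact hsmul α N H hH hHP) hσ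
      (w := w) (fun α t x => by
        exact lt_of_lt_of_eq (hwlt α t x) (congrArg (p ^ ·) hjl))
      (fun α r hr => by
        refine hwind α r ?_
        have e : (expand B.qq : MvPolynomial (Vr d CI.n) k →ₐ[k] _) = expand (p ^ (j + l)) :=
          congrArg expand (show B.qq = p ^ (j + l) by rw [hjl]; rfl)
        rw [← e]
        exact hr)
      (fun α => (hrep (σ α)).symm) hza (hbT T hT) h1 t'
    have h4 : (a t' : A) =
        ∑ cc, algebraMap R A (v (eq.symm ((e', t'), cc))) * (B.basA cc : A) := by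
      simp only [a, AddSubmonoidClass.coe_finsetSum, Subalgebra.coe_mul, Subalgebra.coe_algebraMap]
    rw [← h4]
    refine hctx.nu.anti ?_ h2
    have hb := hctx.nu.b_pos
    rw [Nat.mul_sub]
    have := Nat.le_mul_of_pos_left (CI.bvCst dS) hb
    omega
  have hbounds : ∀ T, T ≤ H → _ := fun T hT => bvc_range_bounds B (σ := Stair d × Fin N') eq
    (gT T) (M := b * (T - CI.bvCst dS))
    (le_trans (Nat.mul_le_mul_left b (Nat.sub_le _ _)) (hbT T hT)) hctx.nu.anti
    (hker T hT) (hkill T hT)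
  have hd1 := hctx.d_pos
  have hfac : (d.factorial : ℝ) = d * ((d - 1).factorial : ℝ) := by
    rw [← Nat.mul_factorial_pred (by omega : d ≠ 0)]
    push_cast; rfl
  have hmain : ((n₀ : ℕ) : ℝ) * (e / d.factorial) = e * B.unit / d := by
    rw [hn₀, hfac]
    have : (d : ℝ) ≠ 0 := by positivity
    push_cast
    field_simp
  refine ⟨{
    V := D.V
    toV := D.toV
    fromV := D.fromV
    DV := D.DV
    toV_comm := D.toV_comm
    fromV_comm := D.fromV_comm
    from_to := D.from_to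
    to_from := D.to_from
    trV := D.trV
    trV_toV := D.trV_toV
    V_finite := D.V_finite
    DV_ker := D.DV_ker
    n₀ := n₀
    n₀_le := le_rfl
    g := gT
    g_nat := fun T T' h => LinearMap.ext fun v => by
      simp only [LinearMap.comp_apply, gT, Fintype.linearCombination_apply, map_sum, map_smul,
        D.gen_tr]
    g_kill := hkill
    g_ker := fun T hT0 hT => ?_
    g_coker := fun T hT0 hT => ?_ }⟩
  · obtain ⟨hR, hRle, hA, hAge⟩ := hC' T hT0
    have h1 := (hbounds T hT).1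
    rw [hcard] at h1
    obtain ⟨rR, hrR⟩ := ENat.ne_top_iff_exists.1 hR
    obtain ⟨rA, hrA⟩ := ENat.ne_top_iff_exists.1 hA
    rw [← hrR, ENat.toNat_natCast] at hRle
    rw [← hrA, ENat.toNat_natCast] at hAge
    rw [← hrR, ← hrA] at h1
    have hfinS : sq R (LinearMap.ker (gT T))
        (Submodule.pi Set.univ fun _ : Fin n₀ => maximalIdeal R ^ T) ≠ ⊤ := fun h => by
      rw [h, top_add, top_le_iff, ← Nat.cast_mul] at h1
      exact ENat.natCast_ne_top _ h1
    obtain ⟨S, hS⟩ := ENat.ne_top_iff_exists.1 hfinS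
    rw [← hS] at h1 ⊢
    norm_cast at h1 ⊢
    refine bv_ker_est (rR := rR) (rA := rA) (X := e * (T : ℝ) ^ d / d.factorial) (C' := C')
      (n₀ := n₀) (by exact_mod_cast h1) (by push_cast; exact hRle) (by push_cast; exact hAge) ?_
    rw [hn₀, ← mul_assoc]
    exact Nat.mul_le_mul_right _ (by omega)
  · obtain ⟨-, -, hA, hAge⟩ := hC' T hT0
    have h1 := (hbounds T hT).2
    rw [hcard] at h1
    obtain ⟨rA, hrA⟩ := ENat.ne_top_iff_exists.1 hA
    obtain ⟨rV, hrV⟩ := ENat.ne_top_iff_exists.1 (D.V_finite T hT)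
    have hV := D.length_le T hT0 hT
    rw [← hrV, ENat.toNat_natCast] at hV
    rw [← hrA, ENat.toNat_natCast] at hAge
    rw [← hrV, ← hrA] at h1
    have hfinS : Module.length R (D.V T ⧸ LinearMap.range (gT T)) ≠ ⊤ := fun h => by
      rw [h, top_add, top_le_iff] at h1
      exact ENat.natCast_ne_top _ h1
    obtain ⟨S, hS⟩ := ENat.ne_top_iff_exists.1 hfinS
    rw [← hS] at h1 ⊢
    norm_cast at h1 ⊢
    refine bv_coker_est (rV := rV) (rA := rA) (X := e * (T : ℝ) ^ d / d.factorial) (C' := C')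
      (C₀ := C₀) (n₀ := n₀) (Y := e * B.unit * (T : ℝ) ^ d / d) (by exact_mod_cast h1)
      (by push_cast; exact hAge) (by push_cast; exact hV) ?_ ?_
    · rw [show (n₀ : ℝ) * (e * (T : ℝ) ^ d / d.factorial) =
        (n₀ : ℝ) * (e / d.factorial) * (T : ℝ) ^ d by ring, hmain]
      ring
    · rw [hn₀, ← mul_assoc, ← add_mul]
      exact Nat.mul_le_mul_right _ (by rw [mul_comm 2 C', mul_assoc C', mul_left_comm C']; omega)

end Vale.Agent.P202
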