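import Vale.Agent.P202.BandVInit
import Vale.Agent.P202.BandChi

/-!
`GoalBandV`, part 2: the component argument. A combination `E * ∑ χ(a t) v t` is deep only if all
`a t` are deep, where `v t = ∑ χ(σ α) ^ N * lift (X ^ w α t)`, the `σ α` lift forms separating the
components and the monomials `X ^ w α t` are independent over the `q`-th powers on the component `α`.
-/

universe u

namespace Vale.Agent.P202

open IsLocalRing MvPolynomial

variable {p : ℕ} [Fact p.Prime] {R : Type u} [CommRing R] [IsLocalRing R] {k : Type u} [Field k]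
  [CharP k p] [PerfectRing k p] {A : Type u} [CommRing A] [IsLocalRing A] [Algebra R A]
  [Algebra (WittVector p k) A] {d : ℕ} {xR : Fin d → R} {b : ℕ} {G : ℕ → Ideal A}
  {ι : ResidueField R →+* k} {e : ℝ}
  {CI : CIData p k A (fun l => algebraMap R A (xR l)) b G} {i j K : ℕ}

/-- The exponent of the separators: above the weight of all monomials with exponents below one. -/
def CIData.bvN (CI : CIData p k A (fun l => algebraMap R A (xR l)) b G) : ℕ :=
  (∑ v, CI.wt v) + 1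

/-- The loss of depth in the component argument. -/
def CIData.bvCst (CI : CIData p k A (fun l => algebraMap R A (xR l)) b G) (dS : ℕ) : ℕ :=
  2 * CI.bvN * dS + 2 * CI.bvN + CI.c + 1

namespace Band

variable (B : Band p R CI ι i j K)

omit [IsLocalRing A] in
lemma bv_lift_zero (N : ℕ) : B.lift 0 ∈ B.Fil ((N : ℤ) + 1) :=
  (B.lift_ker N 0 (isWeightedHomogeneous_zero B.κ CI.wt N)).2 (by rw [map_zero]; exact zero_mem _)

omit [IsLocalRing A] in
lemma bv_lift_sum {τ : Type*} (S : Finset τ) (P : τ → MvPolynomial (Vr d CI.n) B.κ) (N : ℕ)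
    (hP : ∀ t ∈ S, IsWeightedHomogeneous CI.wt (P t) N) :
    B.lift (∑ t ∈ S, P t) - ∑ t ∈ S, B.lift (P t) ∈ B.Fil ((N : ℤ) + 1) := by
  classical
  induction S using Finset.induction_on with
  | empty => simpa using B.bv_lift_zero N
  | insert t S ht ih =>
    rw [Finset.sum_insert ht, Finset.sum_insert ht]
    have h1 := ih fun s hs => hP s (Finset.mem_insert_of_mem hs)
    have h2 := B.lift_add N (P t) (∑ s ∈ S, P s) (hP t (Finset.mem_insert_self t S))
      (IsWeightedHomogeneous.sum _ _ _ fun s hs => hP s (Finset.mem_insert_of_mem hs))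
    convert add_mem h1 h2 using 1
    ring

omit [IsLocalRing A] in
lemma bv_E0_hom (hij : i ≤ j) :
    IsWeightedHomogeneous CI.wt B.E₀ (p ^ (B.jq - i) * CI.c) := by
  refine band_isWeightedHomogeneous_of_map (Subfield.subtype B.κ).injective ?_
  rw [B.E₀_eq]
  exact (band_targets_hom CI hij B.j_le).1

omit [IsLocalRing A] in
lemma bv_E_mem (hij : i ≤ j) : B.E ∈ B.Fil (p ^ (B.jq - i) * CI.c : ℕ) := by
  rw [← sub_add_cancel B.E (B.lift B.E₀)]
  exact add_mem (B.anti (by omega) B.E_init) (B.lift_mem _ _ (B.bv_E0_hom hij))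

omit [IsLocalRing A] in
lemma bv_E_sub {z z' : B.L} (h : Ideal.Quotient.mk B.Ann z = Ideal.Quotient.mk B.Ann z') :
    B.E * z - B.E * z' ∈ B.Fil (p ^ B.jq * K : ℕ) := by
  rw [← mul_sub]
  exact (B.mem_Ann _).1 (Ideal.Quotient.eq.1 h)

omit [IsLocalRing A] in
lemma bv_mul_mem {M N : ℕ} {z z' : B.L} (h : z ∈ B.Fil (M : ℕ)) (h' : z' ∈ B.Fil (N : ℕ)) :
    z * z' ∈ B.Fil ((M + N : ℕ) : ℤ) := by
  push_cast
  exact B.fil_mul _ _ (Ideal.mul_mem_mul h h')

end Band

omit [IsLocalRing A] in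
lemma bv_G_pow {hG : ∀ i j, G i * G j ≤ G (i + j)} (h0 : G 0 = ⊤) {m : ℕ} {a : A} (ha : a ∈ G m)
    (l : ℕ) : a ^ l ∈ G (m * l) := by
  induction l with
  | zero => rw [mul_zero, h0]; trivial
  | succ l ih =>
    rw [pow_succ, Nat.mul_succ]
    exact hG _ _ (Ideal.mul_mem_mul ih ha)

namespace Band

variable (B : Band p R CI ι i j K)

/-- Multiplying by a separator, the initial form leaves the component or the element gains. -/
lemma bv_gain (hctx : BandCtx p R A xR b G ι e) (hJ : InitClosed CI)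
    (hfin : ∀ T : ℕ, 0 < T → Module.length A (A ⧸ G (b * T)) ≠ ⊤) {dS : ℕ}
    {P : Ideal (MvPolynomial (Vr d CI.n) k)} (hP : P.IsPrime)
    {s : MvPolynomial (Vr d CI.n) B.κ} (hsP : s.map B.κ.subtype ∉ P)
    (hmul : ∀ N H, IsWeightedHomogeneous CI.wt H N → H ∈ P →
      s.map B.κ.subtype * H ∈ CI.initIdeal)
    {σ : B.As} (hσ : InitOf CI dS (σ : A) (s.map B.κ.subtype)) {a : B.As} {ω : ℕ}
    (ha : (a : A) ∈ G ω) :
    ∀ n : ℕ, ω + n * dS + n < K →
      ∃ (ω' : ℕ) (Q : MvPolynomial (Vr d CI.n) B.κ),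
        InitOf CI ω' ((σ : A) ^ n * a) (Q.map B.κ.subtype) ∧ ω + n * dS ≤ ω' ∧
        ω' ≤ ω + n * dS + n ∧ (ω' < ω + n * dS + n → Q.map B.κ.subtype ∉ P) := by
  intro n
  induction n with
  | zero =>
    intro hK
    simp only [zero_mul, add_zero] at hK
    obtain ⟨Q, hQ⟩ := B.exists_rational_init hctx hJ hfin hK a.2 ha
    exact ⟨ω, Q, by simpa using hQ, by omega, by omega, by omega⟩
  | succ n ih =>
    intro hK
    have hns : (n + 1) * dS = n * dS + dS := by ring
    obtain ⟨ω', Q, hQ, h1, h2, h3⟩ := ih (by omega)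
    have hnext := hσ.mul hQ
    rw [← map_mul, ← mul_assoc, ← pow_succ'] at hnext
    by_cases hQP : Q.map B.κ.subtype ∈ P
    · have hw : ω' = ω + n * dS + n := by
        by_contra hne
        exact h3 (by omega) hQP
      have hmem : (σ : A) ^ (n + 1) * a ∈ G (dS + ω' + 1) := by
        refine (hnext.mem_succ_iff hJ).2 ?_
        rw [map_mul]
        exact hmul _ _ hQ.hom hQP
      have haA : (σ : A) ^ (n + 1) * a ∈ B.As := B.As.mul_mem (B.As.pow_mem σ.2 _) a.2
      obtain ⟨Q', hQ'⟩ := B.exists_rational_init hctx hJ hfin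
        (show dS + ω' + 1 < K by omega) haA hmem
      exact ⟨_, Q', hQ', by omega, by omega, fun h => by omega⟩
    · refine ⟨dS + ω', s * Q, hnext, by omega, by omega, fun _ hm => ?_⟩
      rw [map_mul] at hm
      exact (hP.mem_or_mem hm).elim hsP hQP

/-- The component argument. -/
theorem bv_inject (hctx : BandCtx p R A xR b G ι e) (hJ : InitClosed CI)
    (hfin : ∀ T : ℕ, 0 < T → Module.length A (A ⧸ G (b * T)) ≠ ⊤) (hij : i ≤ j)
    (hU : ∀ (l a : ℕ) (H : MvPolynomial (Vr d CI.n) k),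
      expand (p ^ l) (rootPoly p j CI.U₀ * rootPoly p j (inX CI.δ₀) ^ a) * H ∈
          Ideal.span (Set.range fun v => expand (p ^ l) (rootPoly p j (CI.F v))) →
        H ∈ Ideal.span ((fun P => expand (p ^ l) (rootPoly p j P)) ''
          (CI.initIdeal : Set (MvPolynomial (Vr d CI.n) k))))
    {ν dS : ℕ} {P : Fin ν → Ideal (MvPolynomial (Vr d CI.n) k)}
    (hPp : ∀ α, (P α).IsPrime) (hPJ : ∀ H, (∀ α, H ∈ P α) ↔ H ∈ CI.initIdeal)
    {s : Fin ν → MvPolynomial (Vr d CI.n) B.κ} (hsP : ∀ α, (s α).map B.κ.subtype ∉ P α)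
    (hsP' : ∀ α α', α ≠ α' → (s α).map B.κ.subtype ∈ P α')
    (hmul : ∀ α N H, IsWeightedHomogeneous CI.wt H N → H ∈ P α →
      (s α).map B.κ.subtype * H ∈ CI.initIdeal)
    {σ : Fin ν → B.As} (hσ : ∀ α, InitOf CI dS (σ α : A) ((s α).map B.κ.subtype))
    {N' : ℕ} {w : Fin ν → Fin N' → (Vr d CI.n →₀ ℕ)} (hw : ∀ α t v, w α t v < B.qq)
    (hwind : ∀ α (r : Fin N' → MvPolynomial (Vr d CI.n) k),
      ∑ t, expand B.qq (r t) * monomial (w α t) 1 ∈
        Ideal.span ((fun H => expand (p ^ (B.jq - j)) (rootPoly p j H)) ''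
          (CI.initIdeal : Set (MvPolynomial (Vr d CI.n) k))) → ∀ t, r t ∈ P α)
    {zσ : Fin ν → B.L} (hzσ : ∀ α, B.χ (σ α) = Ideal.Quotient.mk B.Ann (zσ α))
    {a : Fin N' → B.As} {za : Fin N' → B.L}
    (hza : ∀ t, B.χ (a t) = Ideal.Quotient.mk B.Ann (za t)) {L₀ : ℕ} (hLK : L₀ ≤ K)
    (h : B.E * ∑ t, za t * ∑ α, zσ α ^ CI.bvN * B.lift (monomial (w α t) 1) ∈
      B.Fil ((B.qq * L₀ : ℕ) : ℤ)) :
    ∀ t, (a t : A) ∈ G (L₀ - CI.bvCst dS) := by
  classical
  set N := CI.bvN with hN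
  set M := L₀ - CI.bvCst dS with hM
  by_contra hcon
  push Not at hcon
  obtain ⟨t₁, ht₁⟩ := hcon
  have hex : ∃ ω, ∃ t, (a t : A) ∉ G (ω + 1) :=
    ⟨M, t₁, fun hm => ht₁ (hctx.nu.anti (Nat.le_succ M) hm)⟩
  set ω := Nat.find hex with hω
  obtain ⟨t₀, ht₀⟩ := Nat.find_spec hex
  have hall : ∀ t, (a t : A) ∈ G ω := by
    intro t
    rcases Nat.eq_zero_or_pos ω with h0 | h0
    · rw [h0, hctx.nu.zero]; trivial
    · by_contra hn
      exact Nat.find_min hex (Nat.sub_lt h0 Nat.one_pos)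
        ⟨t, by rwa [Nat.sub_add_cancel h0]⟩
  have hωM : ω < M := by
    by_contra hn
    exact ht₁ (hctx.nu.anti (not_lt.1 hn) (hall t₁))
  have hb1 : ω + 2 * (N * dS) + 2 * N + CI.c + 1 < L₀ := by
    have : CI.bvCst dS = 2 * (N * dS) + 2 * N + CI.c + 1 := by
      rw [CIData.bvCst, hN]; ring
    omega
  have hNpos : 1 ≤ N := Nat.le_add_left 1 _
  -- the component
  obtain ⟨Q₀, hQ₀⟩ := B.exists_rational_init hctx hJ hfin (show ω < K by omega) (a t₀).2 (hall t₀)
  obtain ⟨α, hα⟩ : ∃ α, Q₀.map B.κ.subtype ∉ P α := by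
    by_contra hn
    push Not at hn
    exact ht₀ ((hQ₀.mem_succ_iff hJ).2 ((hPJ _).1 hn))
  have hgain := fun t => B.bv_gain hctx hJ hfin (hPp α) (hsP α) (hmul α) (hσ α) (hall t) N
    (by omega)
  choose ω' Q hQ hω1 hω2 hω3 using hgain
  have hω₀ : ω' t₀ = ω + N * dS := by
    by_contra hne
    have h1 : (σ α : A) ^ N * a t₀ ∈ G (N * dS + ω + 1) :=
      hctx.nu.anti (by have := hω1 t₀; omega) (hQ t₀).mem
    rw [(((hσ α).pow N).mul hQ₀).mem_succ_iff hJ] at h1
    exact ((hPp α).mem_or_mem ((hPJ _).2 h1 α)).elim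
      (fun h3 => hsP α ((hPp α).mem_of_pow_mem _ h3)) hα
  -- the levels
  set w0 := p ^ (B.jq - i) * CI.c with hw0
  have hq1 : 1 ≤ B.qq := Nat.one_le_pow _ _ (Fact.out : p.Prime).pos
  let lev : Fin N' → ℕ := fun t => B.qq * (ω' t + N * dS) + Finsupp.weight CI.wt (w α t)
  obtain ⟨tm, -, htm⟩ := Finset.exists_min_image Finset.univ lev ⟨t₀, Finset.mem_univ t₀⟩
  set μ := lev tm with hμ
  have hwt : ∀ β t, Finsupp.weight CI.wt (w β t) + B.qq ≤ B.qq * N := by
    intro β t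
    rw [hN, CIData.bvN, Nat.mul_succ, Finsupp.weight_apply,
      Finsupp.sum_fintype _ _ (fun v => by simp), Finset.mul_sum]
    refine Nat.add_le_add_right (Finset.sum_le_sum fun v _ => ?_) _
    rw [smul_eq_mul]
    exact Nat.mul_le_mul_right _ (hw β t v).le
  have hμ0 : μ + B.qq ≤ B.qq * (ω + 2 * (N * dS) + N) := by
    have h1 : μ ≤ B.qq * (ω' t₀ + N * dS) + Finsupp.weight CI.wt (w α t₀) :=
      htm t₀ (Finset.mem_univ t₀)
    rw [hω₀] at h1
    have h2 := hwt α t₀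
    have h3 : B.qq * (ω + 2 * (N * dS) + N) = B.qq * (ω + N * dS + N * dS) + B.qq * N := by ring
    omega
  have hw0q : w0 ≤ B.qq * CI.c :=
    Nat.mul_le_mul_right _ (Nat.pow_le_pow_right (Fact.out : p.Prime).pos (Nat.sub_le _ _))
  have hμL : μ + w0 + 1 ≤ B.qq * L₀ := by
    have h1 : B.qq * (ω + 2 * (N * dS) + 2 * N + CI.c + 1) ≤ B.qq * L₀ :=
      Nat.mul_le_mul_left _ hb1.le
    have h3 : B.qq * (ω + 2 * (N * dS) + 2 * N + CI.c + 1) =
        B.qq * (ω + 2 * (N * dS) + N) + B.qq * N + B.qq * CI.c + B.qq := by ring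
    omega
  have hμK : μ + w0 + 1 ≤ p ^ B.jq * K := hμL.trans (Nat.mul_le_mul_left _ hLK)
  set π := Ideal.Quotient.mk (B.Fil ((μ + w0 + 1 : ℕ) : ℤ)) with hπ
  have hπ0 : ∀ (m : ℕ) (z : B.L), z ∈ B.Fil (m : ℤ) → μ + w0 + 1 ≤ m → π z = 0 := fun m z hz hm =>
    Ideal.Quotient.eq_zero_iff_mem.2 (B.anti (by omega) hz)
  have hE := B.bv_E_mem hij
  rw [← hw0] at hE
  have hπE : ∀ z z', Ideal.Quotient.mk B.Ann z = Ideal.Quotient.mk B.Ann z' →
      π (B.E * z) = π (B.E * z') := fun z z' hz => by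
    rw [← sub_eq_zero, ← map_sub]
    exact hπ0 _ _ (B.bv_E_sub hz) hμK
  have hlift : ∀ β t, B.lift (monomial (w β t) 1) ∈
      B.Fil ((Finsupp.weight CI.wt (w β t) : ℕ) : ℤ) :=
    fun β t => B.lift_mem _ _ (isWeightedHomogeneous_monomial _ _ _ rfl)
  -- the other components are deep
  have hother : ∀ t β, β ≠ α →
      π (B.E * (zσ α ^ N * za t * zσ β ^ N * B.lift (monomial (w β t) 1))) = 0 := by
    intro t β hne
    have hJmem : (s α).map B.κ.subtype * (s β).map B.κ.subtype ∈ CI.initIdeal := by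
      refine (hPJ _).1 fun γ => ?_
      by_cases hγ : γ = α
      · subst hγ; exact Ideal.mul_mem_left _ _ (hsP' β γ hne)
      · exact Ideal.mul_mem_right _ _ (hsP' α γ (Ne.symm hγ))
    have h1 : (σ α : A) * σ β ∈ G (dS + dS + 1) := (((hσ α).mul (hσ β)).mem_succ_iff hJ).2 hJmem
    have h2 : ((σ α ^ N * a t * σ β ^ N : B.As) : A) ∈ G ((dS + dS + 1) * N + ω) := by
      have h3 := hctx.nu.mul _ _ (Ideal.mul_mem_mul
        (bv_G_pow (hG := hctx.nu.mul) hctx.nu.zero h1 N) (hall t))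
      rw [mul_pow] at h3
      push_cast
      rwa [mul_right_comm]
    obtain ⟨z, hz, hχ⟩ := B.χ_fil _ _ h2
    rw [map_mul, map_mul, map_pow, map_pow, hzσ, hzσ, hza, ← map_pow, ← map_pow, ← map_mul,
      ← map_mul] at hχ
    rw [← mul_assoc, map_mul, hπE _ _ hχ, ← map_mul]
    refine hπ0 _ _ (B.bv_mul_mem (B.bv_mul_mem hE hz) (hlift β t)) ?_
    have h4 : p ^ B.jq * ((dS + dS + 1) * N + ω) = B.qq * (ω + 2 * (N * dS) + N) := by
      change B.qq * _ = _; ring
    omega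
  -- the terms of the component
  let Q2 : Fin N' → MvPolynomial (Vr d CI.n) B.κ := fun t => s α ^ N * Q t
  let Ψ : Fin N' → MvPolynomial (Vr d CI.n) B.κ := fun t =>
    B.E₀ * expand B.qq (Q2 t) * monomial (w α t) 1
  have hQ2 : ∀ t, InitOf CI (N * dS + ω' t) ((σ α : A) ^ N * ((σ α : A) ^ N * a t))
      ((Q2 t).map B.κ.subtype) := fun t => by
    rw [map_mul, map_pow]
    exact ((hσ α).pow N).mul (hQ t)
  have hQ2h : ∀ t, IsWeightedHomogeneous CI.wt (expand B.qq (Q2 t))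
      (B.qq * (N * dS + ω' t)) := fun t =>
    band_isWeightedHomogeneous_expand (band_isWeightedHomogeneous_of_map
      (Subfield.subtype B.κ).injective (hQ2 t).hom) (by omega)
  have hΨh : ∀ t, IsWeightedHomogeneous CI.wt (Ψ t) (w0 + lev t) := fun t => by
    have h1 := ((B.bv_E0_hom hij).mul (hQ2h t)).mul
      (isWeightedHomogeneous_monomial CI.wt (w α t) (1 : B.κ) rfl)
    rw [show w0 + lev t = w0 + B.qq * (N * dS + ω' t) + Finsupp.weight CI.wt (w α t) by
      simp only [lev]; ring]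
    exact h1
  have hmain : ∀ t, π (B.E * (zσ α ^ N * za t * zσ α ^ N * B.lift (monomial (w α t) 1))) =
      if lev t = μ then π (B.lift (Ψ t)) else 0 := by
    intro t
    obtain ⟨f, hf, hfP⟩ := hQ2 t
    obtain ⟨ζ, hζ, hχ⟩ := B.χ_init (N * dS + ω' t) (σ α ^ N * (σ α ^ N * a t)) (Q2 t)
      ⟨f, by rw [hf]; push_cast; rfl, hfP⟩
    rw [map_mul, map_mul, map_pow, hzσ, hza, ← map_pow, ← map_mul, ← map_mul] at hχ
    have e1 : zσ α ^ N * za t * zσ α ^ N = zσ α ^ N * (zσ α ^ N * za t) := by ring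
    rw [← mul_assoc, map_mul, e1, hπE _ _ hχ, ← map_mul]
    set m := p ^ B.jq * (N * dS + ω' t) with hm
    have hlev : lev t = m + Finsupp.weight CI.wt (w α t) := by
      simp only [lev, hm, qq]; ring
    have hexp : B.lift (expand (p ^ B.jq) (Q2 t)) ∈ B.Fil (m : ℤ) := B.lift_mem _ _ (hQ2h t)
    have hζ' : ζ ∈ B.Fil ((m + 1 : ℕ) : ℤ) := by
      rwa [Nat.cast_add, Nat.cast_one, hm]
    split_ifs with hl
    · have hE1 : B.E - B.lift B.E₀ ∈ B.Fil ((w0 + 1 : ℕ) : ℤ) := by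
        rw [Nat.cast_add, Nat.cast_one, hw0]; exact B.E_init
      have d1 := B.bv_mul_mem (B.bv_mul_mem hE hζ') (hlift α t)
      have d2 := B.bv_mul_mem (B.bv_mul_mem hE1 hexp) (hlift α t)
      have d3 := B.lift_mul _ _ _ _ ((B.bv_E0_hom hij).mul (hQ2h t))
        (isWeightedHomogeneous_monomial CI.wt (w α t) (1 : B.κ) rfl)
      have d4 := B.lift_mul _ _ _ _ (B.bv_E0_hom hij) (hQ2h t)
      have k1 : B.E * (B.lift (expand (p ^ B.jq) (Q2 t)) + ζ) * B.lift (monomial (w α t) 1) -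
          B.lift (Ψ t) =
          B.E * ζ * B.lift (monomial (w α t) 1) +
          (B.E - B.lift B.E₀) * B.lift (expand (p ^ B.jq) (Q2 t)) * B.lift (monomial (w α t) 1) -
          (B.lift (B.E₀ * expand B.qq (Q2 t)) - B.lift B.E₀ * B.lift (expand B.qq (Q2 t))) *
            B.lift (monomial (w α t) 1) -
          (B.lift (B.E₀ * expand B.qq (Q2 t) * monomial (w α t) 1) -
            B.lift (B.E₀ * expand B.qq (Q2 t)) * B.lift (monomial (w α t) 1)) := by
        simp only [Ψ, qq]; ring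
      rw [← sub_eq_zero, ← map_sub, k1]
      have hμm : (μ : ℤ) = (p : ℤ) ^ B.jq * ((N : ℤ) * dS + ω' t) +
          (Finsupp.weight CI.wt (w α t) : ℕ) := by
        rw [← hl, hlev, hm]; push_cast; ring
      have hm' : (m : ℤ) = (p : ℤ) ^ B.jq * ((N : ℤ) * dS + ω' t) := by
        rw [hm]; push_cast; ring
      refine Ideal.Quotient.eq_zero_iff_mem.2 (sub_mem (sub_mem (add_mem (B.anti ?_ d1)
        (B.anti ?_ d2)) (B.anti ?_ (B.fil_mul _ _ (Ideal.mul_mem_mul d4 (hlift α t)))))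
        (B.anti ?_ d3))
      all_goals
        simp only [qq, ← hw0] at *
        push_cast at *
        linarith
    · refine hπ0 _ _ (B.bv_mul_mem (B.bv_mul_mem hE (add_mem hexp ?_)) (hlift α t)) ?_
      · exact B.anti (by omega) hζ'
      · have := htm t (Finset.mem_univ t)
        omega
  -- the lowest level
  set S : Finset (Fin N') := Finset.univ.filter fun t => lev t = μ with hS
  have hsum : B.E * (zσ α ^ N * ∑ t, za t * ∑ β, zσ β ^ N * B.lift (monomial (w β t) 1)) =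
      ∑ t, ∑ β, B.E * (zσ α ^ N * za t * zσ β ^ N * B.lift (monomial (w β t) 1)) := by
    simp only [Finset.mul_sum]
    exact Finset.sum_congr rfl fun t _ => Finset.sum_congr rfl fun β _ => by ring
  have h0 : π (B.lift (∑ t ∈ S, Ψ t)) = 0 := by
    have h1 : π (B.E * (zσ α ^ N * ∑ t, za t * ∑ β, zσ β ^ N *
        B.lift (monomial (w β t) 1))) = 0 := by
      rw [mul_left_comm]
      exact hπ0 _ _ (Ideal.mul_mem_left _ _ h) hμL
    have h2 : ∀ t, ∑ β, π (B.E * (zσ α ^ N * za t * zσ β ^ N *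
        B.lift (monomial (w β t) 1))) = if lev t = μ then π (B.lift (Ψ t)) else 0 := fun t => by
      rw [Finset.sum_eq_single α (fun β _ hβ => hother t β hβ)
        (fun hh => absurd (Finset.mem_univ α) hh), hmain]
    rw [hsum, map_sum] at h1
    simp only [map_sum, h2, ← Finset.sum_filter, ← hS] at h1
    rw [← h1, ← map_sum, ← sub_eq_zero, ← map_sub]
    refine Ideal.Quotient.eq_zero_iff_mem.2
      (B.anti (by push_cast; omega) (B.bv_lift_sum S Ψ (w0 + μ) fun t ht => ?_))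
    rw [← (Finset.mem_filter.1 ht).2]
    exact hΨh t
  have hker := (B.lift_ker (w0 + μ) _ (IsWeightedHomogeneous.sum S Ψ _ fun t ht => by
    rw [← (Finset.mem_filter.1 ht).2]; exact hΨh t)).1 (by
      have h1 := Ideal.Quotient.eq_zero_iff_mem.1 h0
      rwa [show ((μ + w0 + 1 : ℕ) : ℤ) = ((w0 + μ : ℕ) : ℤ) + 1 by push_cast; ring] at h1)
  let r : Fin N' → MvPolynomial (Vr d CI.n) k := fun t =>
    if lev t = μ then (Q2 t).map B.κ.subtype else 0
  have hr : (∑ t ∈ S, Ψ t).map B.κ.subtype =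
      expand (p ^ (B.jq - j)) (rootPoly p j CI.U₀ *
        rootPoly p j (inX CI.δ₀) ^ (p ^ (j - i) - 1)) *
      ∑ t, expand B.qq (r t) * monomial (w α t) 1 := by
    rw [map_sum, Finset.mul_sum, hS, Finset.sum_filter]
    refine Finset.sum_congr rfl fun t _ => ?_
    simp only [r]
    split_ifs with hl
    · simp only [Ψ, map_mul, map_expand, MvPolynomial.map_monomial, map_one, B.E₀_eq]
      ring
    · simp
  rw [hr] at hker
  have hin := hwind α r (hU _ _ _ hker) tm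
  simp only [r, hμ, if_pos] at hin
  have htgood : ω' tm < ω + N * dS + N := by
    by_contra hh
    have h1 : B.qq * (ω + N * dS + N + N * dS) ≤ B.qq * (ω' tm + N * dS) :=
      Nat.mul_le_mul_left _ (by omega)
    have h2 : B.qq * (ω + N * dS + N + N * dS) = B.qq * (ω + 2 * (N * dS) + N) := by ring
    have h3 : μ = B.qq * (ω' tm + N * dS) + Finsupp.weight CI.wt (w α tm) := rfl
    omega
  simp only [Q2, map_mul, map_pow] at hin
  exact ((hPp α).mem_or_mem hin).elim (fun h3 => hsP α ((hPp α).mem_of_pow_mem _ h3))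
    (hω3 tm htgood)

end Band

end Vale.Agent.P202
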