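import Vale.Agent.P202.LevelSym

/-!
One level of the complex over `L` is the free complex over the residue field on the normal monomials
(BLUEPRINT_BAND, section 4a): `goalLevelIso` and corollaries.
-/

universe u

namespace Vale.Agent.P202

open IsLocalRing MvPolynomial

namespace LevelIso

section generic

variable {A₁ : Type*} [CommRing A₁] {M₁ : Type*} [AddCommGroup M₁] [Module A₁ M₁]
  {A₂ : Type*} [CommRing A₂] {M₂ : Type*} [AddCommGroup M₂] [Module A₂ M₂] {d : ℕ}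

/-- A relation between the coefficients, shifted by the variables, is respected by `phiD`. -/
lemma phiD_rel (X₁ : Fin d → M₁ →ₗ[A₁] M₁) (X₂ : Fin d → M₂ →ₗ[A₂] M₂)
    (G : AddSubgroup ((PIdx d →₀ M₁) × (PIdx d →₀ M₂))) (P : ℤ → M₁ → M₂ → Prop)
    (hsingle : ∀ (c : PIdx d) m m', P c.2.1 m m' → (Finsupp.single c m, Finsupp.single c m') ∈ G)
    (hX : ∀ σ l m m', P σ m m' → P (σ + 1) (X₁ l m) (X₂ l m'))
    {f : PIdx d →₀ M₁} {φ : PIdx d →₀ M₂} (h : ∀ c : PIdx d, P c.2.1 (f c) (φ c)) :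
    (phiD X₁ f, phiD X₂ φ) ∈ G := by
  classical
  have hf : f = ∑ c ∈ f.support ∪ φ.support, Finsupp.single c (f c) := by
    conv_lhs => rw [← f.sum_single]
    exact Finset.sum_subset Finset.subset_union_left fun c _ hc => by
      simp [Finsupp.notMem_support_iff.1 hc]
  have hφ : φ = ∑ c ∈ f.support ∪ φ.support, Finsupp.single c (φ c) := by
    conv_lhs => rw [← φ.sum_single]
    exact Finset.sum_subset Finset.subset_union_right fun c _ hc => by
      simp [Finsupp.notMem_support_iff.1 hc]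
  rw [congrArg (phiD X₁) hf, congrArg (phiD X₂) hφ, map_sum, map_sum, prod_mk_sum]
  refine AddSubgroup.sum_mem _ fun c _ => ?_
  obtain ⟨⟨J, C'⟩, σ, e⟩ := c
  have hc := h ((J, C'), σ, e)
  rw [phiD_single, phiD_single, ← Prod.mk_add_mk]
  refine add_mem ?_ ?_
  · rw [prod_mk_sum]
    refine AddSubgroup.sum_mem _ fun l _ => ?_
    rw [← Prod.smul_mk]
    exact zsmul_mem (hsingle ((J, Function.update C' l 2), σ, e) _ _ hc) _
  · rw [← Prod.smul_mk]
    refine zsmul_mem ?_ _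
    rw [prod_mk_sum]
    refine AddSubgroup.sum_mem _ fun l _ => ?_
    rw [← Prod.smul_mk]
    refine zsmul_mem ?_ _
    rw [phiT_single, phiT_single, ← Prod.mk_sub_mk]
    refine sub_mem (hsingle ((insert l J, C'), σ + 1, e) _ _ (hX σ l _ _ hc)) ?_
    rw [prod_mk_sum]
    exact AddSubgroup.sum_mem _ fun ε _ =>
      hsingle ((insert l J, C'), σ, fun j => e j + if j ∈ ε then 1 else 0) _ _ hc

end generic

section band

variable {p : ℕ} [Fact p.Prime] {R : Type u} [CommRing R] [IsLocalRing R] {k : Type u} [Field k]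
  [CharP k p] [PerfectRing k p] {A : Type u} [CommRing A] [Algebra R A]
  [Algebra (WittVector p k) A] {d : ℕ} {x : Fin d → A} {b : ℕ} {G : ℕ → Ideal A}
  {CI : CIData p k A x b G} {ι : ResidueField R →+* k} {i j K N : ℕ}
  (B : Band p R CI ι i j K) {γ : Fin N → Vr d CI.n →₀ ℕ} {res : B.L →+* B.κ}

variable (γ)

/-- The chains of a level and their normal forms. -/
noncomputable def relC (u : ℤ) :
    AddSubgroup ((PIdx d →₀ B.L) × (PIdx d →₀ FreeMod B.κ N d)) where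
  carrier := {f | ∀ c : PIdx d, Rel B γ (u + (b : ℤ) * c.2.1) (f.1 c) (f.2 c)}
  add_mem' hf hg c := by simpa using (hf c).add B (hg c)
  zero_mem' c := by simpa using (rel_zero_iff B).2 (zero_mem _)
  neg_mem' hf c := by simpa using rel_neg B (hf c)

variable {γ}

lemma mem_relC {u : ℤ} {f : PIdx d →₀ B.L} {φ : PIdx d →₀ FreeMod B.κ N d} :
    (f, φ) ∈ relC B γ u ↔ ∀ c : PIdx d, Rel B γ (u + (b : ℤ) * c.2.1) (f c) (φ c) := Iff.rfl

lemma single_mem_relC {u : ℤ} {c : PIdx d} {z : B.L} {v : FreeMod B.κ N d}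
    (h : Rel B γ (u + (b : ℤ) * c.2.1) z v) :
    (Finsupp.single c z, Finsupp.single c v) ∈ relC B γ u := by
  rw [mem_relC]
  intro c'
  by_cases hc : c = c'
  · subst hc; simpa using h
  · simpa [Finsupp.single_apply, hc] using (rel_zero_iff B).2 (zero_mem _)

lemma phiD_mem_relC {u : ℤ} {f : PIdx d →₀ B.L} {φ : PIdx d →₀ FreeMod B.κ N d}
    (h : (f, φ) ∈ relC B γ u) : (phiD B.mulX f, phiDF B.κ N d φ) ∈ relC B γ u :=
  phiD_rel B.mulX (fun l => xFree B.κ l) (relC B γ u)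
    (fun σ z v => Rel B γ (u + (b : ℤ) * σ) z v) (fun c z v hzv => single_mem_relC B hzv)
    (fun σ l z v hzv => by
      have h1 := Rel.mulX B hzv l
      rw [show u + (b : ℤ) * (σ + 1) = u + (b : ℤ) * σ + b by ring]
      exact h1)
    ((mem_relC B).1 h)

variable {u r : ℤ}

/-- The chains over the residue field of a level. -/
noncomputable abbrev freeC (γ : Fin N → Vr d CI.n →₀ ℕ) (u : ℤ) (r : ℤ) :
    Submodule B.κ (PIdx d →₀ FreeMod B.κ N d) :=
  phiC b B.tw (freeFam B.κ b (gens γ)) u r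

lemma exists_free (hγ : IsNormalBasis B γ) (hNF : NFProp B) {f : PIdx d →₀ B.L}
    (hf : f ∈ lvl (phiDeg B.L B.L d) B.LamF u r) :
    ∃ φ ∈ freeC B γ u r, (f, φ) ∈ relC B γ u := by
  classical
  have hex : ∀ c : PIdx d, ∃ v, Rel B γ (u + (b : ℤ) * c.2.1) (f c) v ∧ (f c = 0 → v = 0) := by
    intro c
    by_cases hc : f c = 0
    · exact ⟨0, (rel_zero_iff B).2 (by rw [hc]; exact zero_mem _), fun _ => rfl⟩
    · obtain ⟨v, hv⟩ := exists_rel B hγ hNF (hf.1 c).1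
      exact ⟨v, hv, fun h => absurd h hc⟩
  choose v hv hv0 using hex
  let φ : PIdx d →₀ FreeMod B.κ N d := Finsupp.onFinset f.support v fun c hc =>
    Finsupp.mem_support_iff.2 fun h => hc (hv0 c h)
  exact ⟨φ, ⟨fun c => ⟨(hv c).1, fun hn => hv0 c ((hf.1 c).2 hn)⟩,
    fun c hc => hv0 c (hf.2 c hc)⟩, (mem_relC B).2 fun c => hv c⟩

lemma exists_chain {φ : PIdx d →₀ FreeMod B.κ N d} (hφ : φ ∈ freeC B γ u r) :
    ∃ f ∈ lvl (phiDeg B.L B.L d) B.LamF u r, (f, φ) ∈ relC B γ u := by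
  classical
  let f : PIdx d →₀ B.L := Finsupp.onFinset φ.support
    (fun c => if φ c = 0 then 0 else B.lift (nfPoly γ (φ c))) fun c hc =>
    Finsupp.mem_support_iff.2 fun h => hc (if_pos h)
  have hrel : ∀ c : PIdx d, Rel B γ (u + (b : ℤ) * c.2.1) (f c) (φ c) := by
    intro c
    simp only [f, Finsupp.onFinset_apply]
    split_ifs with h
    · rw [h]; exact (rel_zero_iff B).2 (zero_mem _)
    · exact ⟨(hφ.1 c).1, by rw [sub_self]; exact zero_mem _⟩
  exact ⟨f, ⟨fun c => ⟨(hrel c).mem, fun hn => if_pos ((hφ.1 c).2 hn)⟩,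
    fun c hc => if_pos (hφ.2 c hc)⟩, (mem_relC B).2 hrel⟩

lemma relC_unique (hγ : IsNormalBasis B γ) (hNF : NFProp B) {f : PIdx d →₀ B.L}
    {φ φ' : PIdx d →₀ FreeMod B.κ N d} (h : (f, φ) ∈ relC B γ u) (h' : (f, φ') ∈ relC B γ u) :
    φ = φ' :=
  Finsupp.ext fun c => Rel.unique B hγ hNF ((mem_relC B).1 h c) ((mem_relC B).1 h' c)

lemma relC_zero {f : PIdx d →₀ B.L}
    (hf : f ∈ lvl (phiDeg B.L B.L d) B.LamF (u + 1) r) : (f, 0) ∈ relC B γ u := by
  rw [mem_relC]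
  intro c
  have := (hf.1 c).1
  rw [Finsupp.coe_zero, Pi.zero_apply, rel_zero_iff]
  rwa [show u + (b : ℤ) * c.2.1 + 1 = u + 1 + (b : ℤ) * c.2.1 by ring]

lemma lvl_succ_of_relC {f : PIdx d →₀ B.L} (hf : f ∈ lvl (phiDeg B.L B.L d) B.LamF u r)
    (h : (f, (0 : PIdx d →₀ FreeMod B.κ N d)) ∈ relC B γ u) :
    f ∈ lvl (phiDeg B.L B.L d) B.LamF (u + 1) r := by
  refine ⟨fun c => ⟨?_, (hf.1 c).2⟩, hf.2⟩
  have := (mem_relC B).1 h c
  rw [Finsupp.coe_zero, Pi.zero_apply, rel_zero_iff] at this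
  rwa [show u + 1 + (b : ℤ) * c.2.1 = u + (b : ℤ) * c.2.1 + 1 by ring]

lemma lvl_stable : IsStable (phiD B.mulX) (lvl (phiDeg B.L B.L d) B.LamF u) :=
  phiC_stable B.famStable B.tw u

/-- The normal form of a cycle of a level is a cycle. -/
lemma cycle_free (hγ : IsNormalBasis B γ) (hNF : NFProp B) {f : PIdx d →₀ B.L}
    {φ : PIdx d →₀ FreeMod B.κ N d}
    (hf : f ∈ hcyc (phiD B.mulX) (lvl (phiDeg B.L B.L d) B.LamF u)
      (lvl (phiDeg B.L B.L d) B.LamF (u + 1)) r)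
    (hφ : φ ∈ freeC B γ u r) (h : (f, φ) ∈ relC B γ u) :
    φ ∈ hcyc (phiDF B.κ N d) (freeC B γ u) (fun _ => ⊥) r := by
  refine ⟨hφ, ?_⟩
  show phiDF B.κ N d φ ∈ (⊥ : Submodule B.κ (PIdx d →₀ FreeMod B.κ N d))
  rw [Submodule.mem_bot]
  exact relC_unique B hγ hNF (phiD_mem_relC B h) (relC_zero B hf.2)

/-- The zero subfamily of the free chains. -/
noncomputable abbrev freeBot (γ : Fin N → Vr d CI.n →₀ ℕ) (_ : ℤ) :
    Submodule B.κ (PIdx d →₀ FreeMod B.κ N d) := ⊥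

lemma boundary_free (hγ : IsNormalBasis B γ) (hNF : NFProp B) {f : PIdx d →₀ B.L}
    {φ : PIdx d →₀ FreeMod B.κ N d}
    (hf : f ∈ hbd (phiD B.mulX) (lvl (phiDeg B.L B.L d) B.LamF u)
      (lvl (phiDeg B.L B.L d) B.LamF (u + 1)) r)
    (h : (f, φ) ∈ relC B γ u) : φ ∈ hbd (phiDF B.κ N d) (freeC B γ u) (freeBot B γ) r := by
  obtain ⟨_, ⟨y, hy, rfl⟩, q, hq, rfl⟩ := Submodule.mem_sup.1 hf
  obtain ⟨ψ, hψ, hrel⟩ := exists_free B hγ hNF hy
  refine Submodule.mem_sup_left ⟨ψ, hψ, relC_unique B hγ hNF ?_ h⟩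
  have := add_mem (phiD_mem_relC B hrel) (relC_zero B (γ := γ) hq)
  rwa [Prod.mk_add_mk, add_zero] at this

lemma boundary_chain {f : PIdx d →₀ B.L} {φ : PIdx d →₀ FreeMod B.κ N d}
    (hf : f ∈ lvl (phiDeg B.L B.L d) B.LamF u r)
    (hφ : φ ∈ hbd (phiDF B.κ N d) (freeC B γ u) (freeBot B γ) r) (h : (f, φ) ∈ relC B γ u) :
    f ∈ hbd (phiD B.mulX) (lvl (phiDeg B.L B.L d) B.LamF u)
      (lvl (phiDeg B.L B.L d) B.LamF (u + 1)) r := by
  obtain ⟨_, ⟨ψ, hψ, rfl⟩, q, hq, rfl⟩ := Submodule.mem_sup.1 hφ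
  rw [Submodule.mem_bot] at hq
  subst hq
  obtain ⟨y, hy, hrel⟩ := exists_chain B hψ
  have hdy : phiD B.mulX y ∈ lvl (phiDeg B.L B.L d) B.LamF u r :=
    (lvl_stable B).map_pred r (Submodule.mem_map_of_mem hy)
  have h1 := sub_mem h (phiD_mem_relC B hrel)
  rw [Prod.mk_sub_mk, add_zero, sub_self] at h1
  rw [← add_sub_cancel (phiD B.mulX y) f]
  exact Submodule.add_mem_sup (Submodule.mem_map_of_mem hy)
    (lvl_succ_of_relC B (Submodule.sub_mem _ hf hdy) h1)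

lemma cycle_chain {f : PIdx d →₀ B.L} {φ : PIdx d →₀ FreeMod B.κ N d}
    (hf : f ∈ lvl (phiDeg B.L B.L d) B.LamF u r)
    (hφ : phiDF B.κ N d φ = 0) (h : (f, φ) ∈ relC B γ u) :
    f ∈ hcyc (phiD B.mulX) (lvl (phiDeg B.L B.L d) B.LamF u)
      (lvl (phiDeg B.L B.L d) B.LamF (u + 1)) r := by
  refine ⟨hf, lvl_succ_of_relC B ((lvl_stable B).le_comap r hf) (γ := γ) ?_⟩
  have := phiD_mem_relC B h
  rwa [hφ] at this

lemma relC_smul (hres : ∀ z, res z = 0 ↔ z ∈ B.Fil 1) (hC : ∀ a : B.κ, res (B.lift (C a)) = a)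
    {f : PIdx d →₀ B.L} {φ : PIdx d →₀ FreeMod B.κ N d} (h : (f, φ) ∈ relC B γ u) (z : B.L) :
    (z • f, res z • φ) ∈ relC B γ u := fun c => by
  simpa using Rel.smul B hres hC (h c) z

/-- The cohomology of a level over the residue field. -/
abbrev freeH (γ : Fin N → Vr d CI.n →₀ ℕ) (u r : ℤ) : Type _ :=
  HMod (phiDF B.κ N d) (freeC B γ u) (freeBot B γ) r

theorem bijective_main (hγ : IsNormalBasis B γ) (hNF : NFProp B)
    (hres : ∀ z, res z = 0 ↔ z ∈ B.Fil 1) (hC : ∀ a : B.κ, res (B.lift (C a)) = a) (u r : ℤ) :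
    ∃ Φ : winH (phiD B.mulX) (phiDeg B.L B.L d) B.LamF u (u + 1) r →+ freeH B γ u r,
      Function.Bijective Φ ∧ (∀ z v, Φ (z • v) = res z • Φ v) ∧
      ∀ f φ, (f.1, φ.1) ∈ relC B γ u →
        Φ (hmk (phiD B.mulX) (lvl (phiDeg B.L B.L d) B.LamF u)
            (lvl (phiDeg B.L B.L d) B.LamF (u + 1)) r f) =
          hmk (phiDF B.κ N d) (freeC B γ u) (freeBot B γ) r φ := by
  have hex : ∀ f : ↥(hcyc (phiD B.mulX) (lvl (phiDeg B.L B.L d) B.LamF u)
      (lvl (phiDeg B.L B.L d) B.LamF (u + 1)) r),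
      ∃ φ : ↥(hcyc (phiDF B.κ N d) (freeC B γ u) (freeBot B γ) r), (f.1, φ.1) ∈ relC B γ u := by
    intro f
    obtain ⟨φ, hφ, hrel⟩ := exists_free B hγ hNF f.2.1
    exact ⟨⟨φ, cycle_free B hγ hNF f.2 hφ hrel⟩, hrel⟩
  choose F hF using hex
  have hFu : ∀ f φ, (f.1, φ.1) ∈ relC B γ u → F f = φ := fun f φ h =>
    Subtype.ext (relC_unique B hγ hNF (hF f) h)
  let F' : ↥(hcyc (phiD B.mulX) (lvl (phiDeg B.L B.L d) B.LamF u)
      (lvl (phiDeg B.L B.L d) B.LamF (u + 1)) r) →+ freeH B γ u r :=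
    AddMonoidHom.mk' (fun f => hmk (phiDF B.κ N d) (freeC B γ u) (freeBot B γ) r (F f))
      fun f f' => by
        rw [hFu (f + f') (F f + F f') ?_, map_add]
        rw [Submodule.coe_add, Submodule.coe_add, ← Prod.mk_add_mk]
        exact add_mem (hF f) (hF f')
  have hker : ((hbd (phiD B.mulX) (lvl (phiDeg B.L B.L d) B.LamF u)
      (lvl (phiDeg B.L B.L d) B.LamF (u + 1)) r).comap
      (hcyc (phiD B.mulX) (lvl (phiDeg B.L B.L d) B.LamF u)
      (lvl (phiDeg B.L B.L d) B.LamF (u + 1)) r).subtype).toAddSubgroup ≤ F'.ker := fun f hf =>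
    AddMonoidHom.mem_ker.2 (hmk_eq_zero.2 (boundary_free B hγ hNF hf (hF f)))
  let Φ : winH (phiD B.mulX) (phiDeg B.L B.L d) B.LamF u (u + 1) r →+ freeH B γ u r :=
    QuotientAddGroup.lift _ F' hker
  have hΦ : ∀ f, Φ (hmk (phiD B.mulX) (lvl (phiDeg B.L B.L d) B.LamF u)
      (lvl (phiDeg B.L B.L d) B.LamF (u + 1)) r f) =
      hmk (phiDF B.κ N d) (freeC B γ u) (freeBot B γ) r (F f) := fun f => rfl
  refine ⟨Φ, ⟨?_, ?_⟩, ?_, fun f φ h => by rw [hΦ, hFu f φ h]⟩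
  · rw [injective_iff_map_eq_zero]
    intro a ha
    obtain ⟨f, rfl⟩ := hmk_surjective _ _ _ r a
    rw [hΦ] at ha
    exact hmk_eq_zero.2 (boundary_chain B f.2.1 (hmk_eq_zero.1 ha) (hF f))
  · intro a
    obtain ⟨φ, rfl⟩ := hmk_surjective _ _ _ r a
    obtain ⟨f, hf, hrel⟩ := exists_chain B φ.2.1
    refine ⟨hmk _ _ _ r ⟨f, cycle_chain B hf ((Submodule.mem_bot B.κ).1 φ.2.2) hrel⟩, ?_⟩
    rw [hΦ, hFu _ φ hrel]
  · intro z a
    obtain ⟨f, rfl⟩ := hmk_surjective _ _ _ r a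
    rw [← map_smul, hΦ, hΦ, ← map_smul]
    exact congrArg _ (hFu _ _ (relC_smul B hres hC (hF f) z))

/-- Every free cycle lifts to a cycle of the level. -/
theorem exists_cycle_lift (u r : ℤ)
    (φ : ↥(hcyc (phiDF B.κ N d) (freeC B γ u) (freeBot B γ) r)) :
    ∃ f : ↥(hcyc (phiD B.mulX) (lvl (phiDeg B.L B.L d) B.LamF u)
        (lvl (phiDeg B.L B.L d) B.LamF (u + 1)) r),
      ∀ c : PIdx d, f.1 c - B.lift (nfPoly γ (φ.1 c)) ∈ B.Fil (u + (b : ℤ) * c.2.1 + 1) := by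
  obtain ⟨f, hf, hrel⟩ := exists_chain B φ.2.1
  exact ⟨⟨f, cycle_chain B hf ((Submodule.mem_bot B.κ).1 φ.2.2) hrel⟩, fun c => (hrel c).2⟩

/-- The length of a level is the number of free basis elements. -/
theorem length_level (hb : 0 < b) (hγ : IsNormalBasis B γ) (hNF : NFProp B)
    (hres : ∀ z, res z = 0 ↔ z ∈ B.Fil 1) (hC : ∀ a : B.κ, res (B.lift (C a)) = a) (u r : ℤ) :
    Module.length B.L (winH (phiD B.mulX) (phiDeg B.L B.L d) B.LamF u (u + 1) r) =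
      (baseR b B.tw (gens γ) u r).card := by
  classical
  obtain ⟨Φ, hbij, hsm, -⟩ := bijective_main B hγ hNF hres hC u r
  have : RingHomSurjective res := ⟨fun a => ⟨_, hC a⟩⟩
  let f : winH (phiD B.mulX) (phiDeg B.L B.L d) B.LamF u (u + 1) r →ₛₗ[res] freeH B γ u r :=
    { toFun := Φ, map_add' := map_add Φ, map_smul' := hsm }
  have h1 : Module.length B.L (winH (phiD B.mulX) (phiDeg B.L B.L d) B.LamF u (u + 1) r) =
      Module.length B.κ (freeH B γ u r) := by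
    rw [Module.length, Module.length, WithBot.unbot_inj,
      Order.krullDim_eq_of_orderIso (Submodule.orderIsoMapComapOfBijective f hbij)]
  rw [h1, ← (freeCohEquiv (A := B.κ) (D := b) (a := B.tw) (g := gens γ) (c := u) hb r).length_eq]
  simp [Module.length_finsupp]

end band

end LevelIso

open LevelIso in
/-- One level of `L` is the free complex over the residue field on the normal monomials. -/
theorem goalLevelIso : GoalBandCoord.{u} → GoalLevelIso.{u} := by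
  intro hcoord p _ R _ _ _ k _ _ _ A _ _ _ _ _ d xR b G ι e hctx CI i j K B hB hK res hres hC N γ
    hinj hγ u r
  obtain ⟨-, hNF, -⟩ := hcoord p R k A d xR b G ι e hctx CI i j K B hB hK
  obtain ⟨Φ, h1, h2, h3⟩ := bijective_main B (γ := γ) ⟨hinj, hγ⟩ hNF hres hC u r
  exact ⟨Φ, h1, h2, fun f φ h => h3 f φ
    ((mem_relC B).2 fun c => ⟨(φ.2.1.1 c).1, h c⟩)⟩

end Vale.Agent.P202
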