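import Vale.Agent.P202.BandV
import Vale.Agent.P202.BandH0
import Vale.Agent.P202.LevelIso

/-!
`GoalBandV` from the graded ring, the components, the coordinates and the rank estimates.
-/

universe u

namespace Vale.Agent.P202

/-- The comparison of `H^0` with free modules. -/
theorem goalBandV (hgradA : GoalGradA.{u}) (hcomp : GoalCompData.{u}) (hco : GoalBandCoord.{u})
    (hLW : GoalLWin.{u}) : GoalBandV.{u} :=
  goalBandV_of hgradA hcomp (goalStairCycle (goalLevelIso hco) hco) (goalBandH0 hLW hco)

end Vale.Agent.P202
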