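import Vale.Agent.P202.InterfacesM

/-!
M3, part 1: the weight filtration on `W(k)[[X, Z]]`, Teichmuller lifts and initial forms.
-/

universe u

namespace Vale.Agent.P202

namespace CI

open MvPowerSeries Finset

variable (p : ℕ) [Fact p.Prime] {k : Type u} [Field k] [CharP k p] [PerfectRing k p] {d n : ℕ}
  (wt : Vr d n → ℕ)

/-- The power series ring. -/
abbrev Pw (p : ℕ) [Fact p.Prime] (k : Type u) [CommRing k] (d n : ℕ) : Type u :=
  MvPowerSeries (Fin d ⊕ Fin n) (WittVector p k)

/-- The weight of an exponent in `X`, `Z`. -/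
noncomputable def sWt : ((Fin d ⊕ Fin n) →₀ ℕ) →+ ℕ := Finsupp.weight fun v => wt (some v)

lemma sWt_single (v : Fin d ⊕ Fin n) (e : ℕ) :
    sWt wt (Finsupp.single v e) = e * wt (some v) := by
  simp [sWt, Finsupp.weight_apply, Finsupp.sum_single_index]

lemma weight_split (γ : Vr d n →₀ ℕ) :
    Finsupp.weight wt γ = γ none * wt none + sWt wt γ.some := by
  rw [Finsupp.weight_apply, Finsupp.sum_option_index]
  · simp [sWt, Finsupp.weight_apply]
  · simp
  · intro o a b; simp [add_mul]

variable {wt}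

lemma memW_iff (hwt : 0 < wt none) (N : ℕ) (f : Pw p k d n) :
    MemW p wt N f ↔ ∀ γ i, i * wt none + sWt wt γ < N →
      (p : WittVector p k) ^ (i + 1) ∣ coeff γ f := by
  constructor
  · intro h γ i hi
    obtain ⟨j, hj, hd⟩ := h γ
    refine (pow_dvd_pow _ ?_).trans hd
    by_contra hcon
    have : j * wt none ≤ i * wt none := Nat.mul_le_mul_right _ (by omega)
    have hj' : N ≤ j * wt none + sWt wt γ := hj
    omega
  · intro h γ
    have hex : ∃ i, N ≤ i * wt none + sWt wt γ :=
      ⟨N, le_add_right (Nat.le_mul_of_pos_right N hwt)⟩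
    classical
    refine ⟨Nat.find hex, Nat.find_spec hex, ?_⟩
    rcases Nat.eq_zero_or_pos (Nat.find hex) with h0 | h0
    · rw [h0, pow_zero]; exact one_dvd _
    · have hmin := Nat.find_min hex (Nat.sub_lt h0 Nat.one_pos)
      have := h γ (Nat.find hex - 1) (by omega)
      rwa [Nat.sub_add_cancel h0] at this

omit [CharP k p] [PerfectRing k p] in
lemma memW_mul_term {M N : ℕ} {f g : Pw p k d n} (hf : MemW p wt M f) (hg : MemW p wt N g)
    (a b : (Fin d ⊕ Fin n) →₀ ℕ) (i : ℕ) (hi : i * wt none + sWt wt (a + b) < M + N) :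
    (p : WittVector p k) ^ (i + 1) ∣ coeff a f * coeff b g := by
  obtain ⟨u, hu, hdu⟩ := hf a
  obtain ⟨v, hv, hdv⟩ := hg b
  have hu' : M ≤ u * wt none + sWt wt a := hu
  have hv' : N ≤ v * wt none + sWt wt b := hv
  have hle : i + 1 ≤ u + v := by
    by_contra hcon
    have : (u + v) * wt none ≤ i * wt none := Nat.mul_le_mul_right _ (by omega)
    rw [map_add] at hi
    rw [add_mul] at this
    omega
  refine (pow_dvd_pow _ hle).trans ?_
  rw [pow_add]
  exact mul_dvd_mul hdu hdv

lemma memW_mul (hwt : 0 < wt none) {M N : ℕ} {f g : Pw p k d n} (hf : MemW p wt M f)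
    (hg : MemW p wt N g) : MemW p wt (M + N) (f * g) := by
  classical
  rw [memW_iff p hwt]
  intro γ i hi
  rw [coeff_mul]
  refine Finset.dvd_sum fun ab hab => ?_
  rw [Finset.HasAntidiagonal.mem_antidiagonal] at hab
  exact memW_mul_term p hf hg ab.1 ab.2 i (by rw [hab]; exact hi)

omit [CharP k p] [PerfectRing k p] in
lemma memW_mono {M N : ℕ} (h : M ≤ N) {f : Pw p k d n} (hf : MemW p wt N f) : MemW p wt M f :=
  fun γ => (hf γ).imp fun _ hi => ⟨h.trans hi.1, hi.2⟩

omit [CharP k p] [PerfectRing k p] in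
lemma memW_zero_weight (f : Pw p k d n) : MemW p wt 0 f := fun γ => ⟨0, Nat.zero_le _, by simp⟩

/-- The series of weight at least `N`, as an ideal. -/
noncomputable def memWI (hwt : 0 < wt none) (N : ℕ) : Ideal (Pw p k d n) where
  carrier := {f | MemW p wt N f}
  zero_mem' := fun γ => ⟨N, le_add_right (Nat.le_mul_of_pos_right N hwt), by simp⟩
  add_mem' {f g} hf hg := by
    rw [Set.mem_setOf_eq, memW_iff p hwt] at *
    intro γ i hi
    rw [map_add]
    exact dvd_add (hf γ i hi) (hg γ i hi)
  smul_mem' c f hf := by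
    have := memW_mul p hwt (memW_zero_weight p c) hf
    simpa using this

@[simp] lemma mem_memWI {hwt : 0 < wt none} {N : ℕ} {f : Pw p k d n} :
    f ∈ memWI p hwt N ↔ MemW p wt N f := Iff.rfl

lemma memWI_mul_le (hwt : 0 < wt none) (M N : ℕ) :
    (memWI p hwt M : Ideal (Pw p k d n)) * memWI p hwt N ≤ memWI p hwt (M + N) :=
  Ideal.mul_le.2 fun _ hf _ hg => memW_mul p hwt hf hg

omit [CharP k p] [PerfectRing k p] in
lemma memW_monomial (hwt : 0 < wt none) {N i : ℕ} {γ : (Fin d ⊕ Fin n) →₀ ℕ} {a : WittVector p k}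
    (ha : (p : WittVector p k) ^ i ∣ a) (h : N ≤ i * wt none + sWt wt γ) :
    MemW p wt N (monomial γ a : Pw p k d n) := by
  classical
  intro δ
  rw [coeff_monomial]
  by_cases hδ : δ = γ
  · subst hδ; exact ⟨i, h, by simpa using ha⟩
  · exact ⟨N, le_add_right (Nat.le_mul_of_pos_right N hwt), by simp [hδ]⟩

omit [CharP k p] [PerfectRing k p] in
lemma memW_X (hwt : 0 < wt none) (v : Fin d ⊕ Fin n) :
    MemW p wt (wt (some v)) (X v : Pw p k d n) := by
  rw [X_def]
  exact memW_monomial p hwt (i := 0) (by simp) (by simp [sWt_single])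

omit [CharP k p] [PerfectRing k p] in
lemma memW_C_pow (hwt : 0 < wt none) (i : ℕ) :
    MemW p wt (i * wt none) (C ((p : WittVector p k) ^ i) : Pw p k d n) := by
  classical
  rw [← monomial_zero_eq_C_apply]
  exact memW_monomial p hwt dvd_rfl (by simp)

/-- One term of a lift. -/
noncomputable def T (γ : Vr d n →₀ ℕ) (c : k) : Pw p k d n :=
  monomial γ.some (WittVector.teichmuller p c * (p : WittVector p k) ^ γ none)

omit [CharP k p] [PerfectRing k p] in
lemma T_zero (γ : Vr d n →₀ ℕ) : T p γ (0 : k) = 0 := by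
  simp [T, WittVector.teichmuller_zero]

omit [CharP k p] [PerfectRing k p] in
lemma T_mul (γ γ' : Vr d n →₀ ℕ) (c c' : k) : T p (γ + γ') (c * c') = T p γ c * T p γ' c' := by
  simp only [T, monomial_mul_monomial, map_mul, Finsupp.some_add, Finsupp.add_apply, pow_add]
  ring_nf

omit [CharP k p] [PerfectRing k p] in
lemma memW_T (hwt : 0 < wt none) (γ : Vr d n →₀ ℕ) (c : k) :
    MemW p wt (Finsupp.weight wt γ) (T p γ c : Pw p k d n) :=
  memW_monomial p hwt (dvd_mul_left _ _) (weight_split wt γ).le

lemma p_dvd_iff (a : WittVector p k) : (p : WittVector p k) ∣ a ↔ a.coeff 0 = 0 := by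
  rw [← Ideal.mem_span_singleton, WittVector.mem_span_p_iff_coeff_zero_eq_zero]

lemma memW_T_add (hwt : 0 < wt none) (γ : Vr d n →₀ ℕ) (a b : k) :
    MemW p wt (Finsupp.weight wt γ + 1) (T p γ (a + b) - T p γ a - T p γ b : Pw p k d n) := by
  have h : T p γ (a + b) - T p γ a - T p γ b = monomial γ.some
      ((WittVector.teichmuller p (a + b) - WittVector.teichmuller p a -
        WittVector.teichmuller p b) * (p : WittVector p k) ^ γ none) := by
    simp [T, map_sub, sub_mul]
  rw [h]
  refine memW_monomial p hwt (i := γ none + 1) ?_ ?_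
  · rw [pow_succ']
    refine mul_dvd_mul ?_ dvd_rfl
    rw [p_dvd_iff]
    rw [← WittVector.constantCoeff_apply, map_sub, map_sub, WittVector.constantCoeff_apply,
      WittVector.constantCoeff_apply, WittVector.constantCoeff_apply]
    simp [WittVector.teichmuller_coeff_zero]
  · rw [weight_split, add_mul, one_mul]; omega

omit [CharP k p] [PerfectRing k p] in
lemma liftPi_eq {S : Finset (Vr d n →₀ ℕ)} (F : MvPolynomial (Vr d n) k) (h : F.support ⊆ S) :
    liftPi p F = ∑ γ ∈ S, T p γ (MvPolynomial.coeff γ F) := by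
  refine Finset.sum_subset h fun γ _ hγ => ?_
  rw [MvPolynomial.notMem_support_iff] at hγ
  rw [hγ]
  exact T_zero p γ

omit [CharP k p] [PerfectRing k p] in
lemma liftPi_monomial (γ : Vr d n →₀ ℕ) (c : k) :
    liftPi p (MvPolynomial.monomial γ c) = T p γ c := by
  classical
  rw [liftPi_eq p _ MvPolynomial.support_monomial_subset]
  simp

omit [CharP k p] [PerfectRing k p] in
@[simp] lemma liftPi_zero : liftPi p (0 : MvPolynomial (Vr d n) k) = 0 := by simp [liftPi]

lemma memW_liftPi (hwt : 0 < wt none) {F : MvPolynomial (Vr d n) k} {N : ℕ}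
    (hF : MvPolynomial.IsWeightedHomogeneous wt F N) :
    MemW p wt N (liftPi p F : Pw p k d n) := by
  rw [← mem_memWI p (hwt := hwt)]
  refine Ideal.sum_mem _ fun γ hγ => ?_
  rw [mem_memWI, ← hF (MvPolynomial.mem_support_iff.1 hγ)]
  exact memW_T p hwt γ _

/-- Equality up to weight `> N`. -/
def Cong (wt : Vr d n → ℕ) (N : ℕ) (f g : Pw p k d n) : Prop := MemW p wt (N + 1) (f - g)

lemma cong_iff (hwt : 0 < wt none) {N : ℕ} {f g : Pw p k d n} :
    Cong p wt N f g ↔ f - g ∈ memWI p hwt (N + 1) := Iff.rfl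

lemma liftPi_add (hwt : 0 < wt none) {F G : MvPolynomial (Vr d n) k} {N : ℕ}
    (hF : MvPolynomial.IsWeightedHomogeneous wt F N)
    (hG : MvPolynomial.IsWeightedHomogeneous wt G N) :
    Cong p wt N (liftPi p (F + G)) (liftPi p F + liftPi p G) := by
  classical
  rw [cong_iff p hwt]
  have h1 : F.support ⊆ F.support ∪ G.support := Finset.subset_union_left
  have h2 : G.support ⊆ F.support ∪ G.support := Finset.subset_union_right
  rw [liftPi_eq p _ (MvPolynomial.support_add (p := F) (q := G)), liftPi_eq p _ h1,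
    liftPi_eq p _ h2, ← Finset.sum_add_distrib, ← Finset.sum_sub_distrib]
  refine Ideal.sum_mem _ fun γ hγ => ?_
  rw [MvPolynomial.coeff_add, ← sub_sub, mem_memWI]
  have hw : Finsupp.weight wt γ = N := by
    rcases Finset.mem_union.1 hγ with h | h
    · exact hF (MvPolynomial.mem_support_iff.1 h)
    · exact hG (MvPolynomial.mem_support_iff.1 h)
  rw [← hw]
  exact memW_T_add p hwt γ _ _

lemma liftPi_neg (hwt : 0 < wt none) {F : MvPolynomial (Vr d n) k} {N : ℕ}
    (hF : MvPolynomial.IsWeightedHomogeneous wt F N) :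
    Cong p wt N (liftPi p (-F)) (-liftPi p F) := by
  have := liftPi_add p hwt hF hF.neg
  rw [add_neg_cancel, liftPi_zero] at this
  rw [cong_iff p hwt] at this ⊢
  convert (memWI p hwt (N + 1)).neg_mem this using 1
  ring

lemma liftPi_sub (hwt : 0 < wt none) {F G : MvPolynomial (Vr d n) k} {N : ℕ}
    (hF : MvPolynomial.IsWeightedHomogeneous wt F N)
    (hG : MvPolynomial.IsWeightedHomogeneous wt G N) :
    Cong p wt N (liftPi p (F - G)) (liftPi p F - liftPi p G) := by
  have h1 := liftPi_add p hwt hF hG.neg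
  have h2 := liftPi_neg p hwt hG
  rw [← sub_eq_add_neg] at h1
  rw [cong_iff p hwt] at h1 h2 ⊢
  convert (memWI p hwt (N + 1)).add_mem h1 h2 using 1
  ring

lemma liftPi_sum (hwt : 0 < wt none) {ι : Type*} (s : Finset ι)
    (F : ι → MvPolynomial (Vr d n) k) {N : ℕ}
    (hF : ∀ i ∈ s, MvPolynomial.IsWeightedHomogeneous wt (F i) N) :
    Cong p wt N (liftPi p (∑ i ∈ s, F i)) (∑ i ∈ s, liftPi p (F i)) := by
  classical
  induction s using Finset.induction_on with
  | empty => simp [cong_iff p hwt]
  | insert a s ha ih =>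
    rw [Finset.sum_insert ha, Finset.sum_insert ha]
    have h1 := liftPi_add p hwt (hF a (Finset.mem_insert_self a s))
      (MvPolynomial.IsWeightedHomogeneous.sum s _ _ fun i hi => hF i (Finset.mem_insert_of_mem hi))
    have h2 := ih fun i hi => hF i (Finset.mem_insert_of_mem hi)
    rw [cong_iff p hwt] at h1 h2 ⊢
    convert (memWI p hwt (N + 1)).add_mem h1 h2 using 1
    ring

omit [CharP k p] [PerfectRing k p] in
lemma liftPi_monomial_mul (γ : Vr d n →₀ ℕ) (c : k) (G : MvPolynomial (Vr d n) k) :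
    liftPi p (MvPolynomial.monomial γ c * G) = T p γ c * liftPi p G := by
  classical
  have hsub : (MvPolynomial.monomial γ c * G).support ⊆ G.support.map (addLeftEmbedding γ) := by
    intro δ hδ
    rw [MvPolynomial.mem_support_iff, MvPolynomial.coeff_monomial_mul'] at hδ
    split_ifs at hδ with hle
    · exact Finset.mem_map.2 ⟨δ - γ, MvPolynomial.mem_support_iff.2 (right_ne_zero_of_mul hδ),
        add_tsub_cancel_of_le hle⟩
    · exact absurd rfl hδ
  rw [liftPi_eq p _ hsub, Finset.sum_map, liftPi_eq p G (subset_refl _), Finset.mul_sum]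
  refine Finset.sum_congr rfl fun δ _ => ?_
  rw [addLeftEmbedding_apply, MvPolynomial.coeff_monomial_mul, T_mul]

lemma liftPi_mul (hwt : 0 < wt none) {F G : MvPolynomial (Vr d n) k} {M N : ℕ}
    (hF : MvPolynomial.IsWeightedHomogeneous wt F M)
    (hG : MvPolynomial.IsWeightedHomogeneous wt G N) :
    Cong p wt (M + N) (liftPi p (F * G)) (liftPi p F * liftPi p G) := by
  classical
  have h0 := liftPi_sum p hwt F.support
    (fun γ => MvPolynomial.monomial γ (MvPolynomial.coeff γ F) * G) (N := M + N) fun γ hγ =>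
      (MvPolynomial.isWeightedHomogeneous_monomial _ _ _
        (hF (MvPolynomial.mem_support_iff.1 hγ))).mul hG
  rw [← Finset.sum_mul, ← MvPolynomial.as_sum] at h0
  simp only [liftPi_monomial_mul, ← Finset.sum_mul] at h0
  exact h0

omit [CharP k p] [PerfectRing k p] in
lemma liftPi_one : liftPi p (1 : MvPolynomial (Vr d n) k) = 1 := by
  classical
  rw [← MvPolynomial.C_1, MvPolynomial.C_apply, liftPi_monomial]
  simp [T]

lemma liftPi_pow (hwt : 0 < wt none) {F : MvPolynomial (Vr d n) k} {M : ℕ}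
    (hF : MvPolynomial.IsWeightedHomogeneous wt F M) (l : ℕ) :
    Cong p wt (l * M) (liftPi p (F ^ l)) (liftPi p F ^ l) := by
  induction l with
  | zero => simp [cong_iff p hwt, liftPi_one]
  | succ l ih =>
    have h1 := liftPi_mul p hwt (hF.pow l) hF
    rw [smul_eq_mul, ← pow_succ] at h1
    rw [cong_iff p hwt] at ih h1 ⊢
    rw [Nat.succ_mul]
    convert (memWI p hwt (l * M + M + 1)).add_mem h1
      (show (liftPi p (F ^ l) - liftPi p F ^ l) * liftPi p F ∈ memWI p hwt (l * M + M + 1) by
        rw [show l * M + M + 1 = l * M + 1 + M by ring]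
        exact memW_mul p hwt ih (memW_liftPi p hwt hF)) using 1
    ring

lemma finite_weight_eq (hwt : ∀ v, 0 < wt v) (N : ℕ) :
    {γ : Vr d n →₀ ℕ | Finsupp.weight wt γ = N}.Finite := by
  refine (Set.finite_Iic (Finsupp.equivFunOnFinite.symm fun _ : Vr d n => N)).subset ?_
  intro γ hγ v
  have h1 := Finsupp.le_weight wt (s := v) (Nat.pos_iff_ne_zero.1 (hwt v)) γ
  rw [Set.mem_setOf_eq] at hγ
  simp only [Finsupp.equivFunOnFinite_symm_apply_apply]
  omega

/-- Every series of weight at least `N` has an initial form in weight `N`. -/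
lemma exists_init (hwt : ∀ v, 0 < wt v) {N : ℕ} {g : Pw p k d n} (hg : MemW p wt N g) :
    ∃ H : MvPolynomial (Vr d n) k, MvPolynomial.IsWeightedHomogeneous wt H N ∧
      MemW p wt (N + 1) (g - liftPi p H) := by
  classical
  let S := (finite_weight_eq hwt N).toFinset
  have hS : ∀ γ, γ ∈ S ↔ Finsupp.weight wt γ = N := by simp [S]
  have hdiv : ∀ γ ∈ S, ∃ w, coeff γ.some g = (p : WittVector p k) ^ γ none * w := by
    intro γ hγ
    rcases Nat.eq_zero_or_pos (γ none) with h0 | h0
    · exact ⟨coeff γ.some g, by simp [h0]⟩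
    · have := (memW_iff p (hwt none) N g).1 hg γ.some (γ none - 1) (by
        have h1 := (hS γ).1 hγ
        rw [weight_split] at h1
        have h2 : (γ none - 1) * wt none + wt none = γ none * wt none := by
          rw [← Nat.succ_mul, Nat.succ_eq_add_one, Nat.sub_add_cancel h0]
        have := hwt none
        omega)
      rwa [Nat.sub_add_cancel h0] at this
  choose! w hw using hdiv
  let H : MvPolynomial (Vr d n) k := ∑ γ ∈ S, MvPolynomial.monomial γ ((w γ).coeff 0)
  have hcoef : ∀ γ ∈ S, MvPolynomial.coeff γ H = (w γ).coeff 0 := fun γ hγ => by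
    simp [H, MvPolynomial.coeff_sum, hγ]
  have hsupp : H.support ⊆ S := fun γ hγ => by
    obtain ⟨δ, hδ, hδ'⟩ := Finset.mem_biUnion.1 (MvPolynomial.support_sum hγ)
    have := Finset.mem_singleton.1 (MvPolynomial.support_monomial_subset hδ')
    exact this ▸ hδ
  refine ⟨H, fun γ hγ => (hS γ).1 (hsupp (MvPolynomial.mem_support_iff.2 hγ)), ?_⟩
  rw [memW_iff p (hwt none)]
  intro σ i hi
  rw [map_sub, liftPi_eq p H hsupp, map_sum]
  simp only [T, coeff_monomial]
  by_cases hex : ∃ γ ∈ S, γ.some = σ
  · obtain ⟨γ, hγ, rfl⟩ := hex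
    have hγw := (hS γ).1 hγ
    rw [weight_split] at hγw
    rw [Finset.sum_eq_single γ]
    · rw [if_pos rfl, hcoef γ hγ, hw γ hγ, mul_comm (WittVector.teichmuller p _),
        ← mul_sub]
      rcases lt_trichotomy i (γ none) with h | h | h
      · exact (pow_dvd_pow _ h).trans (dvd_mul_right _ _)
      · subst h
        rw [pow_succ]
        refine mul_dvd_mul dvd_rfl ((p_dvd_iff p _).2 ?_)
        rw [← WittVector.constantCoeff_apply, map_sub, WittVector.constantCoeff_apply,
          WittVector.constantCoeff_apply]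
        simp [WittVector.teichmuller_coeff_zero]
      · exfalso
        have : (γ none + 1) * wt none ≤ i * wt none := Nat.mul_le_mul_right _ h
        rw [Nat.succ_mul] at this
        have := hwt none
        omega
    · intro δ hδ hne
      rw [if_neg]
      intro he
      have hδw := (hS δ).1 hδ
      rw [weight_split, ← he] at hδw
      refine hne ?_
      have h0 : δ none = γ none := Nat.eq_of_mul_eq_mul_right (hwt none) (by omega)
      ext (_ | v)
      · exact h0
      · exact (DFunLike.congr_fun he v).symm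
    · exact fun h => absurd hγ h
  · rw [Finset.sum_eq_zero fun γ hγ => if_neg fun he => hex ⟨γ, hγ, he.symm⟩, sub_zero]
    refine (memW_iff p (hwt none) N g).1 hg σ i ?_
    by_contra hcon
    refine hex ⟨Finsupp.optionElim i σ, (hS _).2 ?_, by simp⟩
    rw [weight_split]
    simp only [Finsupp.optionElim_apply_none, Finsupp.some_optionElim]
    omega

end CI

end Vale.Agent.P202
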