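import Vale.Agent.P202.Sq

/-!
P202, module C1: upper bounds for the growth of `length (M / m ^ n M)`.
-/

universe u

namespace Vale.Agent.P202

open IsLocalRing

variable {A : Type u} [CommRing A] [IsLocalRing A] [IsNoetherianRing A]

lemma ringKrullDim_eq_ndim : ringKrullDim A = (ndim A : WithBot ℕ∞) := by
  have h := IsLocalRing.maximalIdeal_height_eq_ringKrullDim (R := A)
  have hfin : (maximalIdeal A).height ≠ ⊤ :=
    (Ideal.height_lt_top_of_isPrime).ne
  rw [ndim, ← h]
  show ((maximalIdeal A).height : WithBot ℕ∞) =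
    ((((maximalIdeal A).height : WithBot ℕ∞).unbotD 0).toNat : ℕ)
  rw [WithBot.unbotD_coe]
  conv_lhs => rw [← ENat.natCast_toNat hfin]
  rfl

lemma height_maximalIdeal_eq_ndim : (maximalIdeal A).height = (ndim A : ℕ∞) := by
  have h := IsLocalRing.maximalIdeal_height_eq_ringKrullDim (R := A)
  rw [ringKrullDim_eq_ndim] at h
  exact_mod_cast h

/-- There are `ndim A` elements of the maximal ideal generating an ideal containing a power of it. -/
lemma exists_parameters :
    ∃ ys : List A, ys.length ≤ ndim A ∧ (∀ y ∈ ys, y ∈ maximalIdeal A) ∧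
      ∃ c : ℕ, maximalIdeal A ^ c ≤ Ideal.span {a | a ∈ ys} := by
  classical
  obtain ⟨J, hJ, hr, hh⟩ :=
    Ideal.exists_spanRank_eq_and_height_eq (maximalIdeal A) (maximalIdeal.isMaximal A).ne_top
  rw [height_maximalIdeal_eq_ndim] at hr hh
  have hfg : J.FG := IsNoetherian.noetherian J
  have hcard : J.spanFinrank = ndim A := by
    have h1 : J.spanRank = (J.spanFinrank : Cardinal) :=
      Submodule.fg_iff_spanRank_eq_spanFinrank.mpr hfg
    rw [h1] at hr
    have := congrArg Cardinal.toENat hr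
    simpa using this
  obtain ⟨S, hScard, hSspan⟩ := Submodule.FG.exists_span_finset_card_eq_spanFinrank hfg
  refine ⟨S.toList, ?_, ?_, ?_⟩
  · rw [Finset.length_toList, hScard, hcard]
  · intro y hy
    rw [Finset.mem_toList] at hy
    exact hJ (hSspan ▸ Submodule.subset_span hy)
  · have hset : {a | a ∈ S.toList} = (S : Set A) := by ext; simp
    rw [hset]
    have hrad : maximalIdeal A ≤ J.radical := by
      rw [Ideal.radical_eq_sInf]
      refine le_sInf ?_
      rintro p ⟨hJp, hp⟩
      have h1 : (ndim A : ℕ∞) ≤ p.height := hh ▸ Ideal.height_mono hJp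
      have h2 : p.height = ringKrullDim A := by
        refine le_antisymm (Ideal.height_le_ringKrullDim_of_ne_top hp.ne_top) ?_
        rw [ringKrullDim_eq_ndim]
        exact_mod_cast h1
      rw [(Ideal.height_eq_ringKrullDim_iff (R := A)).1 h2]
    obtain ⟨c, hc⟩ := Ideal.exists_pow_le_of_le_radical_of_fg hrad (IsNoetherian.noetherian _)
    exact ⟨c, hc.trans (le_of_eq hSspan.symm)⟩

lemma length_quot_pow_lt_top (M : Type*) [AddCommGroup M] [Module A M] [Module.Finite A M]
    (c : ℕ) : sq A ⊤ (maximalIdeal A ^ c • (⊤ : Submodule A M)) ≠ ⊤ := by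
  rcases Nat.eq_zero_or_pos c with rfl | hc
  · simp [sq_eq_zero_iff.2 (le_refl _)]
  have hmin : maximalIdeal A ∈ (maximalIdeal A ^ c).minimalPrimes := by
    refine ⟨⟨inferInstance, Ideal.pow_le_self hc.ne'⟩, fun p hp _ => ?_⟩
    exact hp.1.le_of_pow_le hp.2
  have : IsArtinianRing (A ⧸ maximalIdeal A ^ c) :=
    IsLocalRing.quotient_artinian_of_mem_minimalPrimes_of_isLocalRing _ hmin
  have e : sq A ⊤ (maximalIdeal A ^ c • (⊤ : Submodule A M)) =
      Module.length A (M ⧸ (maximalIdeal A ^ c • (⊤ : Submodule A M))) := by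
    rw [sq]
    exact (Submodule.Quotient.equiv _ _ Submodule.topEquiv (by ext; simp)).length_eq
  rw [e, Module.length_eq_of_surjective (R := A ⧸ maximalIdeal A ^ c) Ideal.Quotient.mk_surjective]
  have : Module.Finite (A ⧸ maximalIdeal A ^ c) (M ⧸ (maximalIdeal A ^ c • (⊤ : Submodule A M))) :=
    Module.Finite.of_restrictScalars_finite A _ _
  exact Module.length_ne_top

/-- Lengths of `M / (N + m ^ n M)` grow at most like `n ^ r` when `r` elements of `m`, together
with `N`, cover a power of the maximal ideal. -/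
lemma exists_growth_bound {M : Type*} [AddCommGroup M] [Module A M] [Module.Finite A M] :
    ∀ (ys : List A) (N : Submodule A M) (c : ℕ), (∀ y ∈ ys, y ∈ maximalIdeal A) →
      maximalIdeal A ^ c • (⊤ : Submodule A M) ≤ N ⊔ Ideal.span {a | a ∈ ys} • ⊤ →
      ∃ C : ℕ, ∀ n : ℕ, sq A ⊤ (N ⊔ maximalIdeal A ^ n • (⊤ : Submodule A M)) ≤
        ((C * (n + 1) ^ ys.length : ℕ) : ℕ∞) := by
  intro ys
  induction ys with
  | nil =>
    intro N c _ hc
    refine ⟨(sq A ⊤ (maximalIdeal A ^ c • (⊤ : Submodule A M))).toNat, fun n => ?_⟩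
    have hc' : maximalIdeal A ^ c • (⊤ : Submodule A M) ≤ N := by
      simpa using hc
    rw [List.length_nil, pow_zero, Nat.mul_one, ENat.natCast_toNat (length_quot_pow_lt_top M c)]
    exact sq_mono_right (hc'.trans le_sup_left)
  | cons y ys ih =>
    intro N c hy hc
    set f : M →ₗ[A] M := LinearMap.lsmul A M y with hf
    set N' := N ⊔ (⊤ : Submodule A M).map f with hN'
    have hc' : maximalIdeal A ^ c • (⊤ : Submodule A M) ≤ N' ⊔ Ideal.span {a | a ∈ ys} • ⊤ := by
      refine hc.trans (sup_le (le_sup_of_le_left le_sup_left) ?_)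
      have hset : {a | a ∈ y :: ys} = insert y {a | a ∈ ys} := by ext; simp
      rw [hset, Ideal.span_insert, Submodule.sup_smul]
      refine sup_le (le_sup_of_le_left (le_sup_of_le_right ?_)) le_sup_right
      rw [Submodule.ideal_span_singleton_smul]
      intro x hx
      obtain ⟨z, -, rfl⟩ := (Submodule.mem_smul_pointwise_iff_exists _ _ _).1 hx
      exact ⟨z, trivial, rfl⟩
    obtain ⟨C, hC⟩ := ih N' c (fun z hz => hy z (List.mem_cons_of_mem _ hz)) hc'
    refine ⟨C, fun n => ?_⟩
    have hrec : ∀ m : ℕ, sq A ⊤ (N ⊔ maximalIdeal A ^ (m + 1) • (⊤ : Submodule A M)) ≤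
        sq A ⊤ (N' ⊔ maximalIdeal A ^ (m + 1) • (⊤ : Submodule A M)) +
        sq A ⊤ (N ⊔ maximalIdeal A ^ m • (⊤ : Submodule A M)) := by
      intro m
      rw [sq_add (M := N' ⊔ maximalIdeal A ^ (m + 1) • (⊤ : Submodule A M))
        (sup_le_sup_right le_sup_left _) le_top]
      gcongr
      have e : N' ⊔ maximalIdeal A ^ (m + 1) • (⊤ : Submodule A M) =
          (⊤ : Submodule A M).map f ⊔ (N ⊔ maximalIdeal A ^ (m + 1) • ⊤) := by
        rw [hN', sup_comm N _, sup_assoc]
      rw [e, sq_sup_left, sq_map]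
      refine sq_mono_right (Submodule.map_le_iff_le_comap.1 ?_)
      rw [Submodule.map_sup]
      refine sup_le_sup ?_ ?_
      · rintro _ ⟨x, hx, rfl⟩
        exact N.smul_mem y hx
      · rw [Submodule.map_smul'', pow_succ, Submodule.mul_smul]
        refine Submodule.smul_mono le_rfl ?_
        rintro _ ⟨x, -, rfl⟩
        exact Submodule.smul_mem_smul (hy y List.mem_cons_self) trivial
    induction n with
    | zero =>
      have : sq A ⊤ (N ⊔ maximalIdeal A ^ 0 • (⊤ : Submodule A M)) = 0 := by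
        simp [sq_eq_zero_iff]
      rw [this]; exact zero_le
    | succ m ihm =>
      refine (hrec m).trans ((add_le_add (hC (m + 1)) ihm).trans ?_)
      rw [← Nat.cast_add, Nat.cast_le, List.length_cons]
      calc C * (m + 1 + 1) ^ ys.length + C * (m + 1) ^ (ys.length + 1)
          ≤ C * (m + 1 + 1) ^ ys.length + C * ((m + 1 + 1) ^ ys.length * (m + 1)) := by
            gcongr
            rw [pow_succ]
            gcongr
            omega
        _ = C * (m + 1 + 1) ^ (ys.length + 1) := by ring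

omit [IsLocalRing A] [IsNoetherianRing A] in
lemma sq_top_eq_length {M : Type*} [AddCommGroup M] [Module A M] (L : Submodule A M) :
    sq A ⊤ L = Module.length A (M ⧸ L) :=
  (Submodule.Quotient.equiv _ _ Submodule.topEquiv (by ext; simp)).length_eq

lemma length_quot_maximalIdeal_pow_ne_top (n : ℕ) :
    Module.length A (A ⧸ maximalIdeal A ^ n) ≠ ⊤ := by
  have h := length_quot_pow_lt_top (A := A) A n
  rwa [smul_eq_mul, Ideal.mul_top, sq_top_eq_length] at h

/-- `length (A / m ^ n) = O(n ^ dim A)`. -/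
theorem exists_length_quot_pow_le :
    ∃ C : ℕ, ∀ n : ℕ, Module.length A (A ⧸ maximalIdeal A ^ n) ≤
      ((C * (n + 1) ^ ndim A : ℕ) : ℕ∞) := by
  obtain ⟨ys, hlen, hy, c, hc⟩ := exists_parameters (A := A)
  obtain ⟨C, hC⟩ := exists_growth_bound (M := A) ys ⊥ c hy (by simpa [Ideal.mul_top] using hc)
  refine ⟨C, fun n => ?_⟩
  have := hC n
  rw [bot_sup_eq, smul_eq_mul, Ideal.mul_top, sq_top_eq_length] at this
  exact this.trans (Nat.cast_le.2 (Nat.mul_le_mul_left C (Nat.pow_le_pow_right n.succ_pos hlen)))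

/-- If `z` kills a finite module `M` and `dim A / (z) < dim A` then
`length (M / m ^ n M) = O(n ^ (dim A - 1))`. -/
theorem exists_length_quot_pow_le_of_killed (M : Type*) [AddCommGroup M] [Module A M]
    [Module.Finite A M] (z : A) (hz : ∀ x : M, z • x = 0)
    (hdim : ringKrullDim (A ⧸ Ideal.span {z}) < ringKrullDim A) :
    ∃ C : ℕ, ∀ n : ℕ, Module.length A (M ⧸ (maximalIdeal A ^ n • (⊤ : Submodule A M))) ≤
      ((C * (n + 1) ^ (ndim A - 1) : ℕ) : ℕ∞) := by
  classical
  rcases subsingleton_or_nontrivial (A ⧸ Ideal.span {z}) with h | h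
  · refine ⟨0, fun n => ?_⟩
    have hu : IsUnit z := Ideal.span_singleton_eq_top.1 (Ideal.Quotient.subsingleton_iff.1 h)
    have : Subsingleton M := ⟨fun a b => by
      rw [hu.smul_eq_zero.1 (hz a), hu.smul_eq_zero.1 (hz b)]⟩
    simp
  have : IsLocalRing (A ⧸ Ideal.span {z}) :=
    IsLocalRing.of_surjective' _ Ideal.Quotient.mk_surjective
  have hlt : ndim (A ⧸ Ideal.span {z}) < ndim A := by
    rw [ringKrullDim_eq_ndim, ringKrullDim_eq_ndim] at hdim
    exact_mod_cast hdim
  obtain ⟨ys, hlen, hy, c, hc⟩ := exists_parameters (A := A ⧸ Ideal.span {z})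
  have hsurj := Ideal.Quotient.mk_surjective (I := Ideal.span {z})
  set ys' : List A := ys.map (Function.surjInv hsurj) with hys'
  have hmap : ys'.map (Ideal.Quotient.mk (Ideal.span {z})) = ys := by
    rw [hys', List.map_map]
    simp [Function.comp_def, Function.surjInv_eq hsurj]
  have hy' : ∀ y ∈ ys', y ∈ maximalIdeal A := by
    intro y hmem hu
    have h1 : Ideal.Quotient.mk _ y ∈ ys := hmap ▸ List.mem_map_of_mem hmem
    exact hy _ h1 (hu.map _)
  have hc' : maximalIdeal A ^ c ≤ Ideal.span {z} ⊔ Ideal.span {a | a ∈ ys'} := by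
    intro a ha
    have himg : Ideal.span {b | b ∈ ys} =
        (Ideal.span {a | a ∈ ys'}).map (Ideal.Quotient.mk (Ideal.span {z})) := by
      rw [Ideal.map_span]
      congr 1
      ext b
      conv_lhs => rw [← hmap]
      simp
    have hm : (maximalIdeal A).map (Ideal.Quotient.mk (Ideal.span {z})) ≤
        maximalIdeal (A ⧸ Ideal.span {z}) := by
      refine Ideal.map_le_iff_le_comap.2 fun b hb => ?_
      intro hu
      have : IsLocalHom (Ideal.Quotient.mk (Ideal.span {z})) :=
        IsLocalHom.of_surjective _ hsurj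
      exact hb (isUnit_of_map_unit (Ideal.Quotient.mk (Ideal.span {z})) b hu)
    have h1 : Ideal.Quotient.mk _ a ∈ Ideal.span {b | b ∈ ys} := by
      refine hc (Ideal.pow_right_mono hm c ?_)
      rw [← Ideal.map_pow]
      exact Ideal.mem_map_of_mem _ ha
    rw [himg, Ideal.mem_quotient_iff_mem_sup, sup_comm] at h1
    exact h1
  have hzM : Ideal.span {z} • (⊤ : Submodule A M) = ⊥ := by
    rw [eq_bot_iff, Submodule.smul_le]
    intro r hr x _
    obtain ⟨b, rfl⟩ := Ideal.mem_span_singleton'.1 hr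
    rw [mul_smul, hz, smul_zero]
    exact Submodule.zero_mem _
  obtain ⟨C, hC⟩ := exists_growth_bound (M := M) ys' ⊥ c hy' (by
    refine (Submodule.smul_mono_left hc').trans ?_
    rw [Submodule.sup_smul, hzM])
  refine ⟨C, fun n => ?_⟩
  have := hC n
  rw [bot_sup_eq, sq_top_eq_length] at this
  refine this.trans (Nat.cast_le.2 (Nat.mul_le_mul_left C (Nat.pow_le_pow_right n.succ_pos ?_)))
  rw [hys', List.length_map]
  omega

end Vale.Agent.P202
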