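import Vale.Agent.P202.InterfacesBand2
import Vale.Agent.P202.CIWeight
import Vale.Agent.P202.Sq
import Vale.Agent.P202.GrowthBound

/-!
`GoalBandV`, part 1: initial forms of products and sums, and the fact that the initial forms of the
elements of a stage `As` at weights below `K` have coefficients in the residue field of the stage
(the lengths of the layers agree).
-/

universe u

namespace Vale.Agent.P202

open IsLocalRing MvPolynomial
open CI (memWI mem_memWI memW_liftPi memW_mul memW_zero_weight liftPi_add liftPi_mul liftPi_zero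
  liftPi_monomial exists_init cong_iff)

section series

variable {p : ℕ} [Fact p.Prime] {k : Type u} [Field k] [CharP k p] [PerfectRing k p] {d n : ℕ}
  {wt : Vr d n → ℕ} (hwt : 0 < wt none)

lemma bv_hasInit_zero (N : ℕ) {f : CI.Pw p k d n} (hf : MemW p wt (N + 1) f) :
    HasInit p wt N f 0 :=
  ⟨isWeightedHomogeneous_zero k wt N, by rwa [liftPi_zero, sub_zero]⟩

include hwt in
lemma bv_hasInit_memW {N : ℕ} {f : CI.Pw p k d n} {F : MvPolynomial (Vr d n) k}
    (h : HasInit p wt N f F) : MemW p wt N f := by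
  rw [← mem_memWI p (hwt := hwt), ← sub_add_cancel f (liftPi p F)]
  exact add_mem (CI.memW_mono p (Nat.le_succ N) h.2) (memW_liftPi p hwt h.1)

include hwt in
lemma bv_hasInit_add {N : ℕ} {f g : CI.Pw p k d n} {F G : MvPolynomial (Vr d n) k}
    (hf : HasInit p wt N f F) (hg : HasInit p wt N g G) : HasInit p wt N (f + g) (F + G) := by
  refine ⟨hf.1.add hg.1, ?_⟩
  have h := liftPi_add p hwt hf.1 hg.1
  rw [cong_iff p hwt] at h
  rw [← mem_memWI p (hwt := hwt)]
  convert sub_mem (add_mem (show f - liftPi p F ∈ memWI p hwt (N + 1) from hf.2)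
    (show g - liftPi p G ∈ memWI p hwt (N + 1) from hg.2)) h using 1
  ring

include hwt in
lemma bv_hasInit_mul {M N : ℕ} {f g : CI.Pw p k d n} {F G : MvPolynomial (Vr d n) k}
    (hf : HasInit p wt M f F) (hg : HasInit p wt N g G) :
    HasInit p wt (M + N) (f * g) (F * G) := by
  refine ⟨hf.1.mul hg.1, ?_⟩
  have h := liftPi_mul p hwt hf.1 hg.1
  rw [cong_iff p hwt] at h
  rw [← mem_memWI p (hwt := hwt)]
  have h1 : (f - liftPi p F) * g ∈ memWI p hwt (M + N + 1) := by
    rw [mem_memWI, show M + N + 1 = M + 1 + N by ring]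
    exact memW_mul p hwt hf.2 (bv_hasInit_memW hwt hg)
  have h2 : liftPi p F * (g - liftPi p G) ∈ memWI p hwt (M + N + 1) := by
    rw [mem_memWI, show M + N + 1 = M + (N + 1) by ring]
    exact memW_mul p hwt (memW_liftPi p hwt hf.1) hg.2
  convert sub_mem (add_mem h1 h2) h using 1
  ring

include hwt in
lemma bv_hasInit_one : HasInit p wt 0 (1 : CI.Pw p k d n) 1 :=
  ⟨isWeightedHomogeneous_one k wt, by
    rw [CI.liftPi_one, sub_self, ← mem_memWI p (hwt := hwt)]
    exact zero_mem _⟩

include hwt in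
lemma bv_hasInit_pow {M : ℕ} {f : CI.Pw p k d n} {F : MvPolynomial (Vr d n) k}
    (hf : HasInit p wt M f F) (l : ℕ) : HasInit p wt (l * M) (f ^ l) (F ^ l) := by
  induction l with
  | zero => simpa using bv_hasInit_one hwt
  | succ l ih =>
    rw [Nat.succ_mul, pow_succ, pow_succ]
    exact bv_hasInit_mul hwt ih hf

include hwt in
lemma bv_hasInit_C (w : WittVector p k) :
    HasInit p wt 0 (MvPowerSeries.C w : CI.Pw p k d n) (MvPolynomial.C (w.coeff 0)) := by
  refine ⟨isWeightedHomogeneous_C wt _, ?_⟩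
  rw [MvPolynomial.C_apply, liftPi_monomial, CI.T, Finsupp.zero_apply, pow_zero, mul_one,
    show (Finsupp.some (0 : Vr d n →₀ ℕ)) = 0 from Finsupp.some_zero,
    ← MvPowerSeries.monomial_zero_eq_C_apply, ← map_sub]
  refine CI.memW_monomial p hwt (i := 1) ?_ (by omega)
  rw [pow_one, CI.p_dvd_iff, ← WittVector.constantCoeff_apply, map_sub,
    WittVector.constantCoeff_apply, WittVector.constantCoeff_apply]
  simp [WittVector.teichmuller_coeff_zero]

end series

section init

variable {p : ℕ} [Fact p.Prime] {k : Type u} [Field k] [CharP k p] [PerfectRing k p] {A : Type u}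
  [CommRing A] [Algebra (WittVector p k) A] {d : ℕ} {x : Fin d → A} {b : ℕ} {G : ℕ → Ideal A}

/-- `P` is an initial form of weight `N` of `a`. -/
def InitOf (CI : CIData p k A x b G) (N : ℕ) (a : A) (P : MvPolynomial (Vr d CI.n) k) : Prop :=
  ∃ f, CI.ev f = a ∧ HasInit p CI.wt N f P

/-- The initial ideal tells which initial forms vanish. -/
def InitClosed (CI : CIData p k A x b G) : Prop :=
  ∀ N H, MvPolynomial.IsWeightedHomogeneous CI.wt H N → (H ∈ CI.initIdeal ↔
    ∃ h, CI.ev h = 0 ∧ HasInit p CI.wt N h H)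

variable {CI : CIData p k A x b G}

lemma InitOf.hom {N : ℕ} {a : A} {P : MvPolynomial (Vr d CI.n) k} (h : InitOf CI N a P) :
    IsWeightedHomogeneous CI.wt P N := by
  obtain ⟨f, -, hf⟩ := h
  exact hf.1

lemma InitOf.mem {N : ℕ} {a : A} {P : MvPolynomial (Vr d CI.n) k} (h : InitOf CI N a P) :
    a ∈ G N := by
  obtain ⟨f, hf, hP⟩ := h
  exact (CI.strict N a).2 ⟨f, bv_hasInit_memW (CI.wt_pos none) hP, hf⟩

lemma InitOf.add {N : ℕ} {a a' : A} {P P' : MvPolynomial (Vr d CI.n) k} (h : InitOf CI N a P)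
    (h' : InitOf CI N a' P') : InitOf CI N (a + a') (P + P') := by
  obtain ⟨f, hf, hP⟩ := h
  obtain ⟨f', hf', hP'⟩ := h'
  exact ⟨f + f', by rw [map_add, hf, hf'], bv_hasInit_add (CI.wt_pos none) hP hP'⟩

lemma InitOf.mul {M N : ℕ} {a a' : A} {P P' : MvPolynomial (Vr d CI.n) k} (h : InitOf CI M a P)
    (h' : InitOf CI N a' P') : InitOf CI (M + N) (a * a') (P * P') := by
  obtain ⟨f, hf, hP⟩ := h
  obtain ⟨f', hf', hP'⟩ := h'
  exact ⟨f * f', by rw [map_mul, hf, hf'], bv_hasInit_mul (CI.wt_pos none) hP hP'⟩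

lemma InitOf.pow {M : ℕ} {a : A} {P : MvPolynomial (Vr d CI.n) k} (h : InitOf CI M a P) (l : ℕ) :
    InitOf CI (l * M) (a ^ l) (P ^ l) := by
  obtain ⟨f, hf, hP⟩ := h
  exact ⟨f ^ l, by rw [map_pow, hf], bv_hasInit_pow (CI.wt_pos none) hP l⟩

lemma initOf_zero {N : ℕ} {a : A} (h : a ∈ G (N + 1)) : InitOf CI N a 0 := by
  obtain ⟨f, hf, hfa⟩ := (CI.strict _ _).1 h
  exact ⟨f, hfa, bv_hasInit_zero N hf⟩

lemma initOf_algebraMap (w : WittVector p k) :
    InitOf CI 0 (algebraMap (WittVector p k) A w) (MvPolynomial.C (w.coeff 0)) :=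
  ⟨MvPowerSeries.C w, CI.ev_C w, bv_hasInit_C (CI.wt_pos none) w⟩

lemma InitOf.smul {N : ℕ} {a : A} {P : MvPolynomial (Vr d CI.n) k} (h : InitOf CI N a P) (z : k) :
    InitOf CI N (algebraMap (WittVector p k) A (WittVector.teichmuller p z) * a)
      (MvPolynomial.C z * P) := by
  have := (initOf_algebraMap (CI := CI) (WittVector.teichmuller p z)).mul h
  rwa [zero_add, WittVector.teichmuller_coeff_zero] at this

lemma exists_initOf {N : ℕ} {a : A} (h : a ∈ G N) :
    ∃ P, InitOf CI N a P := by
  obtain ⟨f, hf, hfa⟩ := (CI.strict _ _).1 h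
  obtain ⟨H, hH, hH'⟩ := exists_init p CI.wt_pos hf
  exact ⟨H, f, hfa, hH, hH'⟩

lemma InitOf.mem_succ_iff (hJ : InitClosed CI) {N : ℕ} {a : A}
    {P : MvPolynomial (Vr d CI.n) k} (h : InitOf CI N a P) :
    a ∈ G (N + 1) ↔ P ∈ CI.initIdeal := by
  have hwt := CI.wt_pos none
  obtain ⟨f, hf, hP⟩ := h
  constructor
  · intro ha
    obtain ⟨g, hg, hga⟩ := (CI.strict _ _).1 ha
    refine (hJ N P hP.1).2 ⟨f - g, by rw [map_sub, hf, hga, sub_self], hP.1, ?_⟩
    rw [← mem_memWI p (hwt := hwt)]
    have h1 := sub_mem (show f - liftPi p P ∈ memWI p hwt (N + 1) from hP.2)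
      (show g ∈ memWI p hwt (N + 1) from hg)
    rwa [sub_right_comm] at h1
  · intro hm
    obtain ⟨h, h0, hh⟩ := (hJ N P hP.1).1 hm
    refine (CI.strict _ _).2 ⟨f - h, ?_, by rw [map_sub, hf, h0, sub_zero]⟩
    rw [← mem_memWI p (hwt := hwt)]
    have h1 := sub_mem (show f - liftPi p P ∈ memWI p hwt (N + 1) from hP.2)
      (show h - liftPi p P ∈ memWI p hwt (N + 1) from hh.2)
    rwa [sub_sub_sub_cancel_right] at h1

end init

section forms

/-- A basis of the forms of weight `m` over a smaller field modulo an ideal over the larger one. -/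
lemma bv_forms_basis {κ k : Type u} [Field κ] [Field k] (φ : κ →+* k) {d n : ℕ}
    (wt : Vr d n → ℕ) (hwt : ∀ v, 0 < wt v) (J : Ideal (MvPolynomial (Vr d n) k)) (m : ℕ) :
    ∃ (r : ℕ) (v : Fin r → MvPolynomial (Vr d n) κ),
      (∀ t, IsWeightedHomogeneous wt (v t) m) ∧
      (∀ z : Fin r → κ, ∑ t, MvPolynomial.C (φ (z t)) * (v t).map φ ∈ J → z = 0) ∧
      ∀ γ, Finsupp.weight wt γ = m → ∃ z : Fin r → κ,
        MvPolynomial.monomial γ (1 : k) - ∑ t, MvPolynomial.C (φ (z t)) * (v t).map φ ∈ J := by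
  classical
  haveI : Module.Finite κ (weightedHomogeneousSubmodule κ wt m) := Module.Finite.iff_fg.2
    (weightedHomogeneousSubmodule_fg κ wt (fun v => (hwt v).ne') m)
  let K0 : Submodule κ (weightedHomogeneousSubmodule κ wt m) :=
    { carrier := {P | (P : MvPolynomial (Vr d n) κ).map φ ∈ J}
      zero_mem' := by simp
      add_mem' := fun {P P'} hP hP' => by
        simp only [Set.mem_ofPred_eq, Submodule.coe_add, map_add]
        exact add_mem hP hP'
      smul_mem' := fun z P hP => by
        simp only [Set.mem_ofPred_eq, Submodule.coe_smul, smul_eq_C_mul, map_mul, MvPolynomial.map_C]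
        exact Ideal.mul_mem_left _ _ hP }
  let bv := Module.finBasis κ (↥(weightedHomogeneousSubmodule κ wt m) ⧸ K0)
  choose v hv using fun t => Submodule.mkQ_surjective K0 (bv t)
  refine ⟨_, fun t => (v t).1, fun t => (v t).2, fun z hz => ?_, fun γ hγ => ?_⟩
  · have h1 : ∑ t, z t • v t ∈ K0 := by
      change MvPolynomial.map φ (∑ t, z t • v t : weightedHomogeneousSubmodule κ wt m).1 ∈ J
      simpa [map_sum, Submodule.coe_sum, smul_eq_C_mul] using hz
    have h2 : K0.mkQ (∑ t, z t • v t) = 0 := (Submodule.Quotient.mk_eq_zero _).2 h1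
    rw [map_sum] at h2
    simp only [map_smul, hv] at h2
    exact funext fun t => Fintype.linearIndependent_iff.1 bv.linearIndependent z h2 t
  · let M : weightedHomogeneousSubmodule κ wt m :=
      ⟨MvPolynomial.monomial γ 1, isWeightedHomogeneous_monomial _ _ _ hγ⟩
    refine ⟨fun t => bv.repr (K0.mkQ M) t, ?_⟩
    have h1 : M - ∑ t, bv.repr (K0.mkQ M) t • v t ∈ K0 := by
      rw [← Submodule.Quotient.mk_eq_zero, ← Submodule.mkQ_apply, map_sub, map_sum]
      simp only [map_smul, hv, bv.sum_repr, sub_self]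
    change MvPolynomial.map φ (M - ∑ t, bv.repr (K0.mkQ M) t • v t :
      weightedHomogeneousSubmodule κ wt m).1 ∈ J at h1
    simpa [M, map_sub, map_sum, Submodule.coe_sum, smul_eq_C_mul, MvPolynomial.map_monomial]
      using h1

end forms

section rational

variable {p : ℕ} [Fact p.Prime] {R : Type u} [CommRing R] [IsLocalRing R] {k : Type u} [Field k]
  [CharP k p] [PerfectRing k p] {A : Type u} [CommRing A] [IsLocalRing A] [Algebra R A]
  [Algebra (WittVector p k) A] {d : ℕ} {xR : Fin d → R} {b : ℕ} {G : ℕ → Ideal A}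
  {ι : ResidueField R →+* k} {e : ℝ}
  {CI : CIData p k A (fun l => algebraMap R A (xR l)) b G} {i j K : ℕ}

lemma BandCtx.exists_witt (hctx : BandCtx p R A xR b G ι e) (r : R) :
    ∃ w : WittVector p k, w.coeff 0 = ι (residue R r) ∧
      algebraMap R A r - algebraMap (WittVector p k) A w ∈ G 1 := by
  obtain ⟨w, hw⟩ := hctx.residue_surj (residue A (algebraMap R A r))
  refine ⟨w, hctx.ι_spec r w hw, hctx.nu.anti hctx.nu.b_pos (hctx.nu.max_le ?_)⟩
  rw [← residue_eq_zero_iff, map_sub, sub_eq_zero]
  exact hw.symm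

lemma InitOf.rsmul (hctx : BandCtx p R A xR b G ι e) {N : ℕ} {a : A}
    {P : MvPolynomial (Vr d CI.n) k} (h : InitOf CI N a P) (r : R) :
    InitOf CI N (r • a) (MvPolynomial.C (ι (residue R r)) * P) := by
  obtain ⟨w, hw, hmem⟩ := hctx.exists_witt r
  have h1 := (initOf_algebraMap (CI := CI) w).mul h
  rw [zero_add, hw] at h1
  have h2 : (algebraMap R A r - algebraMap (WittVector p k) A w) * a ∈ G (N + 1) := by
    rw [add_comm]
    exact hctx.nu.mul 1 N (Ideal.mul_mem_mul hmem h.mem)
  have h3 := h1.add (initOf_zero (CI := CI) h2)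
  rw [add_zero, ← add_mul, add_sub_cancel, ← Algebra.smul_def] at h3
  exact h3

lemma bv_length_quot_G_ne_top (hctx : BandCtx p R A xR b G ι e)
    (hfin : ∀ T : ℕ, 0 < T → Module.length A (A ⧸ G (b * T)) ≠ ⊤) (m : ℕ) :
    Module.length A (A ⧸ G m) ≠ ⊤ :=
  ne_top_of_le_ne_top (hfin (m + 1) (Nat.succ_pos m))
    (Module.length_le_of_surjective (Submodule.factor (hctx.nu.anti (by
      have := Nat.mul_le_mul_right (m + 1) (show 1 ≤ b from hctx.nu.b_pos); omega)))
      (Submodule.factor_surjective _))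

variable (B : Band p R CI ι i j K)

/-- The elements of `As` of weight `m` with an initial form over the residue field of the stage. -/
noncomputable def Band.ratSub (hctx : BandCtx p R A xR b G ι e) (m : ℕ) : Submodule R A where
  carrier := {a | a ∈ B.As ∧ ∃ P : MvPolynomial (Vr d CI.n) B.κ,
    InitOf CI m a (P.map B.κ.subtype)}
  zero_mem' := ⟨B.As.zero_mem, 0, by rw [map_zero]; exact initOf_zero (G (m + 1)).zero_mem⟩
  add_mem' := by
    rintro a a' ⟨ha, P, hP⟩ ⟨ha', P', hP'⟩
    exact ⟨B.As.add_mem ha ha', P + P', by rw [map_add]; exact hP.add hP'⟩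
  smul_mem' := by
    rintro r a ⟨ha, P, hP⟩
    refine ⟨B.As.smul_mem ha r, MvPolynomial.C ⟨ι (residue R r), B.ι_mem _⟩ * P, ?_⟩
    rw [map_mul, MvPolynomial.map_C]
    exact hP.rsmul hctx r

/-- The initial forms of the elements of `As` of weight less than `K` have coefficients in the
residue field of the stage. -/
theorem Band.exists_rational_init (hctx : BandCtx p R A xR b G ι e) (hJ : InitClosed CI)
    (hfin : ∀ T : ℕ, 0 < T → Module.length A (A ⧸ G (b * T)) ≠ ⊤) {m : ℕ} (hm : m < K)
    {a : A} (ha : a ∈ B.As) (haG : a ∈ G m) :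
    ∃ P : MvPolynomial (Vr d CI.n) B.κ, InitOf CI m a (P.map B.κ.subtype) := by
  classical
  have hG1 : G (m + 1) ≤ G m := hctx.nu.anti (Nat.le_succ m)
  obtain ⟨r, v, hvhom, hindep, hspan⟩ :=
    bv_forms_basis B.κ.subtype CI.wt CI.wt_pos CI.initIdeal m
  -- the lifts to `As`
  have hsurj : ∀ P : {P : MvPolynomial (Vr d CI.n) B.κ // IsWeightedHomogeneous CI.wt P m},
      ∃ a, a ∈ B.ratSub hctx m ∧ InitOf CI m a (P.1.map B.κ.subtype) := by
    intro P
    obtain ⟨a, ha, f, hf, hP⟩ := B.init_surj m hm P.1 P.2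
    exact ⟨a, ⟨ha, P.1, f, hf, hP⟩, f, hf, hP⟩
  choose lft hlft hlftI using hsurj
  -- the vectors over the residue field of `R`
  let co : ((Fin r × Fin B.c) → ResidueField R) → Fin r → B.κ := fun f t =>
    ∑ c, (⟨ι (f (t, c)), B.ι_mem _⟩ * ⟨B.bas c, B.bas_mem c⟩ : B.κ)
  let comb : ((Fin r × Fin B.c) → ResidueField R) →
      {P : MvPolynomial (Vr d CI.n) B.κ // IsWeightedHomogeneous CI.wt P m} := fun f =>
    ⟨∑ t, MvPolynomial.C (co f t) * v t, IsWeightedHomogeneous.sum _ _ _ fun t _ => by
      simpa using (isWeightedHomogeneous_C CI.wt (co f t)).mul (hvhom t)⟩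
  have hcomb_add : ∀ f g, (comb (f + g)).1 = (comb f).1 + (comb g).1 := fun f g => by
    simp only [comb, ← Finset.sum_add_distrib, ← add_mul, ← map_add]
    refine Finset.sum_congr rfl fun t _ => ?_
    congr 2
    simp only [co, ← Finset.sum_add_distrib, ← add_mul]
    refine Finset.sum_congr rfl fun c _ => ?_
    congr 1
    exact Subtype.ext (map_add ι _ _)
  have hcomb_smul : ∀ (z : R) f, (comb (z • f)).1 =
      MvPolynomial.C (⟨ι (residue R z), B.ι_mem _⟩ : B.κ) * (comb f).1 := fun z f => by
    simp only [comb, Finset.mul_sum, ← mul_assoc, ← map_mul]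
    refine Finset.sum_congr rfl fun t _ => ?_
    congr 2
    simp only [co, Finset.mul_sum, ← mul_assoc]
    refine Finset.sum_congr rfl fun c _ => ?_
    congr 1
    refine Subtype.ext ?_
    rw [Subfield.coe_mul, ← map_mul]
    rfl
  let Q := ↥(B.ratSub hctx m) ⧸
    ((G (m + 1)).restrictScalars R).comap (B.ratSub hctx m).subtype
  let cls : {P : MvPolynomial (Vr d CI.n) B.κ // IsWeightedHomogeneous CI.wt P m} → Q := fun P =>
    Submodule.Quotient.mk ⟨lft P, hlft P⟩
  have hcls : ∀ (P : {P : MvPolynomial (Vr d CI.n) B.κ // IsWeightedHomogeneous CI.wt P m})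
      (a : A) (ha : a ∈ B.ratSub hctx m), InitOf CI m a (P.1.map B.κ.subtype) →
      cls P = Submodule.Quotient.mk ⟨a, ha⟩ := by
    intro P a ha hI
    refine (Submodule.Quotient.eq _).2 ?_
    change lft P - a ∈ G (m + 1)
    have hneg := hI.smul (-1 : k)
    have h1 := (hlftI P).add hneg
    rw [MvPolynomial.C_neg, MvPolynomial.C_1, neg_one_mul, add_neg_cancel] at h1
    have h2 := (h1.mem_succ_iff hJ).2 (zero_mem _)
    have h3 : algebraMap (WittVector p k) A (WittVector.teichmuller p (-1 : k)) * a + a ∈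
        G (m + 1) := by
      have h4 := hneg.add hI
      rw [MvPolynomial.C_neg, MvPolynomial.C_1, neg_one_mul, neg_add_cancel] at h4
      exact (h4.mem_succ_iff hJ).2 (zero_mem _)
    have h5 := (G (m + 1)).sub_mem h2 h3
    convert h5 using 1
    ring
  let Ψ : ((Fin r × Fin B.c) → ResidueField R) →ₗ[R] Q :=
    { toFun := fun f => cls (comb f)
      map_add' := fun f g => by
        refine (hcls _ _ ((B.ratSub hctx m).add_mem (hlft (comb f)) (hlft (comb g))) ?_).trans rfl
        rw [hcomb_add, map_add]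
        exact (hlftI _).add (hlftI _)
      map_smul' := fun z f => by
        refine (hcls _ _ ((B.ratSub hctx m).smul_mem z (hlft (comb f))) ?_).trans rfl
        rw [hcomb_smul, map_mul, MvPolynomial.map_C]
        exact (hlftI _).rsmul hctx z }
  have hΨ : Function.Injective Ψ := by
    rw [injective_iff_map_eq_zero]
    intro f hf
    have h1 : lft (comb f) ∈ G (m + 1) := by
      have h0 : (Submodule.Quotient.mk ⟨lft (comb f), hlft _⟩ : Q) = 0 := hf
      have h0' := (Submodule.Quotient.mk_eq_zero _).1 h0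
      exact h0'
    have h2 : (comb f).1.map B.κ.subtype ∈ CI.initIdeal :=
      ((hlftI (comb f)).mem_succ_iff hJ).1 h1
    have h5 : co f = 0 := by
      refine hindep _ ?_
      simpa [comb, map_sum] using h2
    funext tc
    obtain ⟨t, c⟩ := tc
    have h6 := congrArg (fun z : B.κ => (z : k)) (congrFun h5 t)
    simp only [co, Pi.zero_apply] at h6
    simp only [AddSubmonoidClass.coe_finset_sum, Subfield.coe_mul, Subfield.coe_zero] at h6
    obtain ⟨r0, hr0, huniq⟩ := B.bas_span 0 B.κ.zero_mem
    have e1 := huniq (fun c => f (t, c)) h6.symm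
    have e2 := huniq 0 (by simp)
    exact (congrFun e1 c).trans (congrFun e2 c).symm
  -- lower bound
  have hlow : ((r * B.c : ℕ) : ℕ∞) ≤
      sq R (B.ratSub hctx m) ((G (m + 1)).restrictScalars R) := by
    have h := Module.length_le_of_injective Ψ hΨ
    rw [Module.length_pi_of_fintype] at h
    haveI : IsSimpleModule R (ResidueField R) := isSimpleModule_iff_quot_maximal.2
      ⟨_, maximalIdeal.isMaximal R, ⟨LinearEquiv.refl _ _⟩⟩
    simp only [Module.length_eq_one R (ResidueField R), Finset.sum_const, Finset.card_univ,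
      Fintype.card_prod, Fintype.card_fin, nsmul_one] at h
    exact h
  -- upper bound
  have hupp : sq A (G m) (G (m + 1)) ≤ (r : ℕ∞) := by
    let L : Submodule A ↥(G m) := Submodule.comap (G m).subtype (G (m + 1))
    let gen : Fin r → (↥(G m) ⧸ L) := fun t =>
      Submodule.Quotient.mk ⟨lft ⟨v t, hvhom t⟩, (hlftI ⟨v t, hvhom t⟩).mem⟩
    have hkill : ∀ z ∈ maximalIdeal A, ∀ q : ↥(G m) ⧸ L, z • q = 0 := by
      intro z hz q
      induction q using Submodule.Quotient.induction_on with
      | _ y =>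
        rw [← Submodule.Quotient.mk_smul, Submodule.Quotient.mk_eq_zero]
        change z * (y : A) ∈ G (m + 1)
        have := hctx.nu.mul b m (Ideal.mul_mem_mul (hctx.nu.max_le hz) y.2)
        exact hctx.nu.anti (by have := hctx.nu.b_pos; omega) this
    let φ : (Fin r → ResidueField A) →ₗ[A] (↥(G m) ⧸ L) :=
      ∑ t, (Submodule.liftQ (maximalIdeal A) (LinearMap.toSpanSingleton A _ (gen t))
        (fun z hz => hkill z hz _)).comp (LinearMap.proj t)
    have hφ : Function.Surjective φ := by
      intro q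
      induction q using Submodule.Quotient.induction_on with
      | _ y =>
        obtain ⟨H, hH⟩ := exists_initOf (CI := CI) y.2
        have hmono : ∀ γ ∈ H.support, ∃ z : Fin r → B.κ,
            MvPolynomial.monomial γ (1 : k) -
              ∑ t, MvPolynomial.C (z t : k) *
                ((v t).map B.κ.subtype) ∈ CI.initIdeal := by
          intro γ hγ
          exact hspan γ (hH.hom (mem_support_iff.1 hγ))
        choose! z hz using hmono
        let c : Fin r → k := fun t => ∑ γ ∈ H.support, MvPolynomial.coeff γ H * (z γ t : k)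
        refine ⟨fun t => residue A (algebraMap (WittVector p k) A
          (WittVector.teichmuller p (c t))), ?_⟩
        have hval : φ (fun t => residue A (algebraMap (WittVector p k) A
            (WittVector.teichmuller p (c t)))) = Submodule.Quotient.mk
              ⟨∑ t, algebraMap (WittVector p k) A (WittVector.teichmuller p (c t)) * lft ⟨v t, hvhom t⟩,
                (G m).sum_mem fun t _ => (G m).mul_mem_left _ (hlftI ⟨v t, hvhom t⟩).mem⟩ := by
          simp only [φ, LinearMap.sum_apply, LinearMap.comp_apply, LinearMap.proj_apply]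
          have e : (⟨∑ t, algebraMap (WittVector p k) A (WittVector.teichmuller p (c t)) *
              lft ⟨v t, hvhom t⟩, (G m).sum_mem fun t _ => (G m).mul_mem_left _ (hlftI ⟨v t, hvhom t⟩).mem⟩ : ↥(G m))
              = ∑ t, algebraMap (WittVector p k) A (WittVector.teichmuller p (c t)) •
                (⟨lft ⟨v t, hvhom t⟩, (hlftI ⟨v t, hvhom t⟩).mem⟩ : ↥(G m)) :=
            Subtype.ext (by simp [Submodule.coe_sum, Algebra.smul_def])
          rw [e, ← Submodule.mkQ_apply, map_sum]
          exact Finset.sum_congr rfl fun t _ => rfl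
        rw [hval, Submodule.Quotient.eq]
        change (∑ t, algebraMap (WittVector p k) A (WittVector.teichmuller p (c t)) *
          lft ⟨v t, hvhom t⟩) - (y : A) ∈ G (m + 1)
        have hsum : ∀ s : Finset (Fin r), InitOf CI m
            (∑ t ∈ s, algebraMap (WittVector p k) A (WittVector.teichmuller p (c t)) * lft ⟨v t, hvhom t⟩)
            (∑ t ∈ s, MvPolynomial.C (c t) *
              ((v t).map B.κ.subtype)) := by
          intro s
          induction s using Finset.induction_on with
          | empty => simpa using initOf_zero (CI := CI) (G (m + 1)).zero_mem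
          | insert t s hts ih =>
            rw [Finset.sum_insert hts, Finset.sum_insert hts]
            exact ((hlftI ⟨v t, hvhom t⟩).smul (c t)).add ih
        have hneg := hH.smul (-1 : k)
        have h1 := (hsum Finset.univ).add hneg
        have hJmem : (∑ t, MvPolynomial.C (c t) *
            ((v t).map B.κ.subtype)) +
              MvPolynomial.C (-1 : k) * H ∈ CI.initIdeal := by
          have h2 : H - ∑ t, MvPolynomial.C (c t) *
              ((v t).map B.κ.subtype) =
              ∑ γ ∈ H.support, MvPolynomial.C (MvPolynomial.coeff γ H) *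
                (MvPolynomial.monomial γ (1 : k) - ∑ t, MvPolynomial.C (z γ t : k) *
                  ((v t).map B.κ.subtype)) := by
            simp only [mul_sub, Finset.sum_sub_distrib, C_mul_monomial, mul_one, ← H.as_sum,
              Finset.mul_sum, c, map_sum, map_mul, Finset.sum_mul, mul_assoc]
            rw [Finset.sum_comm]
          have h3 : H - ∑ t, MvPolynomial.C (c t) *
              ((v t).map B.κ.subtype) ∈ CI.initIdeal := by
            rw [h2]
            exact Ideal.sum_mem _ fun γ hγ => Ideal.mul_mem_left _ _ (hz γ hγ)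
          have h4 := neg_mem h3
          rw [MvPolynomial.C_neg, MvPolynomial.C_1, neg_one_mul, ← sub_eq_add_neg]
          rwa [neg_sub] at h4
        have h5 := (h1.mem_succ_iff hJ).2 hJmem
        have h6 := hneg.add hH
        rw [MvPolynomial.C_neg, MvPolynomial.C_1, neg_one_mul, neg_add_cancel] at h6
        have h7 := (G (m + 1)).sub_mem h5 ((h6.mem_succ_iff hJ).2 (zero_mem _))
        convert h7 using 1
        ring
    have h := Module.length_le_of_surjective φ hφ
    rw [Module.length_pi_of_fintype] at h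
    haveI : IsSimpleModule A (ResidueField A) := isSimpleModule_iff_quot_maximal.2
      ⟨_, maximalIdeal.isMaximal A, ⟨LinearEquiv.refl _ _⟩⟩
    simp only [Module.length_eq_one A (ResidueField A), Finset.sum_const, Finset.card_univ,
      Fintype.card_fin, nsmul_one] at h
    exact h
  -- comparison
  set S : Submodule R A := Subalgebra.toSubmodule B.As with hS
  have hRS : B.ratSub hctx m ≤ S ⊓ (G m).restrictScalars R :=
    fun z hz => ⟨hz.1, by obtain ⟨P, hP⟩ := hz.2; exact hP.mem⟩
  have hSR : S ⊓ (G (m + 1)).restrictScalars R ≤ B.ratSub hctx m :=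
    fun z hz => ⟨hz.1, 0, by rw [map_zero]; exact initOf_zero hz.2⟩
  have hN : ∀ (M : Submodule R A), M ≤ S →
      sq R M (S ⊓ (G (m + 1)).restrictScalars R) = sq R M ((G (m + 1)).restrictScalars R) :=
    fun M hM => sq_congr_inf (by rw [← inf_assoc, inf_eq_left.2 hM])
  have e1 := sq_add (S := R) (N := S) (M := S ⊓ (G m).restrictScalars R)
    (L := S ⊓ (G (m + 1)).restrictScalars R)
    (inf_le_inf_left _ fun _ hz => hG1 hz) inf_le_left
  rw [hN S le_rfl, hN _ inf_le_left,
    sq_congr_inf (N := S) (L := S ⊓ (G m).restrictScalars R) (L' := (G m).restrictScalars R)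
      (by rw [← inf_assoc, inf_idem]), hS, B.length_eq (m + 1) hm, B.length_eq m hm.le, ← hS] at e1
  have e2 := sq_add (S := R) hSR hRS
  rw [hN _ inf_le_left, hN _ (hRS.trans inf_le_left)] at e2
  have e3 := sq_add (S := A) (N := (⊤ : Submodule A A)) hG1 le_top
  rw [show sq A (⊤ : Submodule A A) (G (m + 1)) = Module.length A (A ⧸ G (m + 1)) from
      sq_top_eq_length _,
    show sq A (⊤ : Submodule A A) (G m) = Module.length A (A ⧸ G m) from sq_top_eq_length _] at e3
  set X := sq R (S ⊓ (G m).restrictScalars R) (B.ratSub hctx m)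
  set Y := sq R (B.ratSub hctx m) ((G (m + 1)).restrictScalars R)
  set Z := sq A (G m) (G (m + 1))
  have ne1 := bv_length_quot_G_ne_top hctx hfin (m + 1)
  have ne2 := bv_length_quot_G_ne_top hctx hfin m
  have hX : X = 0 := by
    obtain ⟨z, hz⟩ := ENat.ne_top_iff_exists.1 (ne_top_of_le_ne_top (ENat.coe_ne_top r) hupp)
    obtain ⟨a1, h1⟩ := ENat.ne_top_iff_exists.1 ne1
    obtain ⟨a0, h0⟩ := ENat.ne_top_iff_exists.1 ne2
    rw [e3, ← h0, ← hz, mul_add, e2] at e1
    have hcast : ((B.c * a0 + B.c * z : ℕ) : ℕ∞) = (B.c : ℕ∞) * a0 + (X + Y) := by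
      push_cast; exact e1
    have hfinXY : X + Y ≠ ⊤ := fun h => by
      rw [h, add_top] at hcast; exact ENat.coe_ne_top _ hcast
    obtain ⟨x, hx⟩ := ENat.ne_top_iff_exists.1 (WithTop.add_ne_top.1 hfinXY).1
    obtain ⟨y, hy⟩ := ENat.ne_top_iff_exists.1 (WithTop.add_ne_top.1 hfinXY).2
    rw [← hx, ← hy] at hcast
    rw [← hy] at hlow
    rw [← hz] at hupp
    rw [← hx]
    norm_cast at hcast hlow hupp ⊢
    have := Nat.mul_le_mul_right B.c hupp
    rw [mul_comm z] at this
    omega
  exact (sq_eq_zero_iff.1 hX ⟨ha, haG⟩).2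

end rational

end Vale.Agent.P202
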