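import Vale.Agent.P202.InterfacesBand
import Vale.Agent.P202.BFStage

/-!
The module `V T`, the part of `H^0` of the window `[0, T)` of the complex over `L` which comes from
the `E`-part, with its maps to and from the `E`-part (BLUEPRINT_BAND, section 7).
-/

universe u

namespace Vale.Agent.P202

open IsLocalRing

/-- The subquotient of two submodules. -/
abbrev SubQuot {S : Type*} [CommRing S] {M : Type u} [AddCommGroup M] [Module S M]
    (N L : Submodule S M) : Type u := ↥N ⧸ L.comap N.subtype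

/-- An additive map out of a subquotient. -/
noncomputable def SubQuot.addLift {S : Type*} [CommRing S] {M : Type u} [AddCommGroup M]
    [Module S M] {N L : Submodule S M} {Y : Type*} [AddCommGroup Y] (φ : ↥N →+ Y)
    (h : ∀ w : ↥N, (w : M) ∈ L → φ w = 0) : SubQuot N L →+ Y :=
  QuotientAddGroup.lift (L.comap N.subtype).toAddSubgroup φ
    fun w hw => AddMonoidHom.mem_ker.2 (h w hw)

lemma SubQuot.addLift_mk {S : Type*} [CommRing S] {M : Type u} [AddCommGroup M]
    [Module S M] {N L : Submodule S M} {Y : Type*} [AddCommGroup Y] (φ : ↥N →+ Y)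
    (h : ∀ w : ↥N, (w : M) ∈ L → φ w = 0) (w : ↥N) :
    SubQuot.addLift φ h (Submodule.Quotient.mk w) = φ w := rfl

namespace Band

variable {p : ℕ} [Fact p.Prime] {R : Type u} [CommRing R] [IsLocalRing R] {k : Type u} [Field k]
  [CharP k p] [PerfectRing k p] {A : Type u} [CommRing A] [Algebra R A]
  [Algebra (WittVector p k) A] {d : ℕ} {x : Fin d → A} {b : ℕ} {G : ℕ → Ideal A}
  {CI : CIData p k A x b G} {ι : ResidueField R →+* k} {i j K : ℕ}
  (B : Band p R CI ι i j K) (H : ℕ)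

lemma eAmb_le_lamAmb (t : ℤ) : B.eAmb H t ≤ B.lamAmb H t := by
  rintro _ ⟨v, hv, rfl⟩
  exact (B.lamAmb H t).smul_mem B.E hv

lemma lamAmb_anti {s t : ℤ} (h : s ≤ t) : B.lamAmb H t ≤ B.lamAmb H s :=
  Submodule.map_mono (B.Lam_anti (max_le_max h le_rfl))

lemma smul_mem_eAmb {t : ℤ} {v : B.Amb H} (hv : v ∈ B.lamAmb H t) : B.E • v ∈ B.eAmb H t :=
  ⟨v, hv, rfl⟩

/-- The cycles of the window `[0, T)` of the `E`-part. -/
noncomputable def cycV (T : ℕ) : Submodule B.L (B.Chains H) :=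
  (B.gC H 0 ⊓ B.pC H 0) ⊓ (B.gC H T ⊓ B.pC H (0 + 1)).comap (B.dC H)

/-- The boundaries of the window `[0, T)` of the complex over `L`. -/
noncomputable def bdA (T : ℕ) : Submodule B.L (B.Amb H) :=
  (B.lamAmb H 0 ⊓ B.degAmb H (0 - 1)).map (B.dAmb H) ⊔ (B.lamAmb H T ⊓ B.degAmb H 0)

/-- The cycles of the `E`-part which bound over `L`. -/
noncomputable def kerV (T : ℕ) : Submodule B.L (B.Chains H) :=
  (B.bdA H T).comap (B.eAmb H (-(H : ℤ))).subtype

/-- The image of `H^0` of the window `[0, T)` of the `E`-part in that of the complex over `L`. -/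
abbrev VT (T : ℕ) : Type u := SubQuot (B.cycV H T) (B.kerV H T)

lemma ann_smul_VT (hK : 2 * b * H ≤ K) (T : ℕ) {z : B.L} (hz : z ∈ B.Ann) (v : B.VT H T) :
    z • v = 0 := by
  obtain ⟨w, rfl⟩ := Submodule.Quotient.mk_surjective _ v
  rw [← Submodule.Quotient.mk_smul]
  exact (congrArg Submodule.Quotient.mk (Subtype.ext (B.ann_smul H hK hz w.1))).trans
    (Submodule.Quotient.mk_zero _)

/-- The `R`-module structure of `VT`. -/
@[reducible]
noncomputable def vMod (hK : 2 * b * H ≤ K) (T : ℕ) : Module R (B.VT H T) :=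
  B.modRInst (B.VT H T) fun _ hz v => B.ann_smul_VT H hK T hz v

lemma vMod_smul (hK : 2 * b * H ≤ K) (T : ℕ) (r : R) (z : B.L)
    (hz : B.χ (algebraMap R B.As r) = Ideal.Quotient.mk B.Ann z) (v : B.VT H T) :
    letI := B.vMod H hK T; r • v = z • v :=
  B.modR_smul _ _ r z hz v

/-- An `L`-linear map between the `VT`, seen as an `R`-linear map. -/
noncomputable def vToR (hK : 2 * b * H ≤ K) {T T' : ℕ} (g : B.VT H T →ₗ[B.L] B.VT H T') :
    letI := B.vMod H hK T; letI := B.vMod H hK T'; B.VT H T →ₗ[R] B.VT H T' :=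
  letI := B.vMod H hK T; letI := B.vMod H hK T'
  { toFun := g
    map_add' := g.map_add
    map_smul' := fun r v => by
      obtain ⟨z, hz⟩ := Ideal.Quotient.mk_surjective (B.χ (algebraMap R B.As r))
      simp only [RingHom.id_apply]
      rw [B.vMod_smul H hK T r z hz.symm, B.vMod_smul H hK T' r z hz.symm, map_smul] }

lemma vToR_apply (hK : 2 * b * H ≤ K) {T T' : ℕ} (g : B.VT H T →ₗ[B.L] B.VT H T')
    (v : B.VT H T) :
    letI := B.vMod H hK T; letI := B.vMod H hK T'; B.vToR H hK g v = g v := rfl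

/-- The transition from the window `[0, T')` to `[0, T)`. -/
noncomputable def vTrL {T T' : ℕ} (h : T ≤ T') : B.VT H T' →ₗ[B.L] B.VT H T :=
  Submodule.mapQ _ _
    (Submodule.inclusion (inf_le_inf_left _ (Submodule.comap_mono (inf_le_inf_right _
      (Submodule.comap_mono (Submodule.map_mono (B.lamAmb_anti H (Int.ofNat_le.2 h))))))))
    (fun _ hw => (Submodule.comap_mono
      (sup_le_sup_left (inf_le_inf_right _ (B.lamAmb_anti H (Int.ofNat_le.2 h))) _) :
        B.kerV H T' ≤ B.kerV H T) hw)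

lemma vTrL_mk {T T' : ℕ} (h : T ≤ T') (v : B.Chains H) (hv : v ∈ B.cycV H T') :
    ∃ hv' : v ∈ B.cycV H T, B.vTrL H h (Submodule.Quotient.mk ⟨v, hv⟩) =
      Submodule.Quotient.mk ⟨v, hv'⟩ :=
  ⟨(inf_le_inf_left _ (Submodule.comap_mono (inf_le_inf_right _ (Submodule.comap_mono
    (Submodule.map_mono (B.lamAmb_anti H (Int.ofNat_le.2 h))))))) hv, rfl⟩

/-- The window `[0, T)` of the `E`-part. -/
abbrev winM (hK : 2 * b * H ≤ K) (T : ℕ) : Type u :=
  letI := B.rMod H hK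
  winH (B.toR H hK (B.dC H)) (fun r => B.subR H hK (B.pC H r))
    (fun t => B.subR H hK (B.gC H t)) 0 T 0

/-- The cycles of `winM` in `VT`. -/
noncomputable def toVAux (hK : 2 * b * H ≤ K) (T : ℕ) :
    letI := B.rMod H hK; letI := B.vMod H hK T
    ↥(hcyc (B.toR H hK (B.dC H))
      (lvl (fun r => B.subR H hK (B.pC H r)) (fun t => B.subR H hK (B.gC H t)) 0)
      (lvl (fun r => B.subR H hK (B.pC H r)) (fun t => B.subR H hK (B.gC H t)) T) 0)
      →ₗ[R] B.VT H T :=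
  letI := B.rMod H hK; letI := B.vMod H hK T
  { toFun := fun w => Submodule.Quotient.mk ⟨w.1, w.2⟩
    map_add' := fun _ _ => rfl
    map_smul' := fun r w => by
      obtain ⟨z, hz⟩ := Ideal.Quotient.mk_surjective (B.χ (algebraMap R B.As r))
      simp only [RingHom.id_apply]
      rw [B.vMod_smul H hK T r z hz.symm, ← Submodule.Quotient.mk_smul]
      exact congrArg Submodule.Quotient.mk (Subtype.ext (B.smul_eq H hK r z hz.symm w.1)) }

lemma bd_le_kerV (hK : 2 * b * H ≤ K) (T : ℕ) (w : B.Chains H)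
    (hw : letI := B.rMod H hK; w ∈ hbd (B.toR H hK (B.dC H))
      (lvl (fun r => B.subR H hK (B.pC H r)) (fun t => B.subR H hK (B.gC H t)) 0)
      (lvl (fun r => B.subR H hK (B.pC H r)) (fun t => B.subR H hK (B.gC H t)) T) 0) :
    w ∈ B.kerV H T := by
  let := B.rMod H hK
  obtain ⟨_, ⟨u, hu, rfl⟩, q, hq, rfl⟩ := Submodule.mem_sup.1 hw
  exact Submodule.add_mem_sup ⟨u.1, ⟨B.eAmb_le_lamAmb H 0 hu.1, hu.2⟩, rfl⟩
    ⟨B.eAmb_le_lamAmb H T hq.1, hq.2⟩

/-- From the `E`-part to `VT`. -/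
noncomputable def vTo (hK : 2 * b * H ≤ K) (T : ℕ) :
    letI := B.rMod H hK; letI := B.vMod H hK T; B.winM H hK T →ₗ[R] B.VT H T :=
  letI := B.rMod H hK; letI := B.vMod H hK T
  Submodule.liftQ _ (B.toVAux H hK T) fun w hw =>
    (Submodule.Quotient.mk_eq_zero _).2 (B.bd_le_kerV H hK T w.1 hw)

lemma D_smul_mem_bd (hK : 2 * b * H ≤ K) (T : ℕ) {w : B.Chains H} (hw : w ∈ B.kerV H T) :
    letI := B.rMod H hK; B.D • w ∈ hbd (B.toR H hK (B.dC H))
      (lvl (fun r => B.subR H hK (B.pC H r)) (fun t => B.subR H hK (B.gC H t)) 0)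
      (lvl (fun r => B.subR H hK (B.pC H r)) (fun t => B.subR H hK (B.gC H t)) T) 0 := by
  let := B.rMod H hK
  obtain ⟨_, ⟨u, hu, rfl⟩, q, hq, he⟩ := Submodule.mem_sup.1 hw
  have low : ∀ {t : ℤ} {v : B.Amb H}, -(H : ℤ) ≤ t → v ∈ B.lamAmb H t →
      B.E • v ∈ B.eAmb H (-(H : ℤ)) :=
    fun ht hv => Submodule.map_mono (B.lamAmb_anti H ht) (B.smul_mem_eAmb H hv)
  have hu' := low (by omega) hu.1
  have hq' := low (by omega) hq.1
  have e : B.D • w = B.dC H ⟨B.E • u, hu'⟩ + ⟨B.E • q, hq'⟩ := Subtype.ext <| by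
    rw [← B.D_smul_eq H hK, Submodule.coe_add, SetLike.val_smul]
    show B.E • (w : B.Amb H) = B.dAmb H (B.E • u) + B.E • q
    rw [map_smul, ← smul_add]
    exact congrArg (B.E • ·) he.symm
  rw [e]
  exact Submodule.add_mem_sup
    ⟨⟨B.E • u, hu'⟩, ⟨B.smul_mem_eAmb H hu.1, (B.degAmb H _).smul_mem _ hu.2⟩, rfl⟩
    ⟨B.smul_mem_eAmb H hq.1, (B.degAmb H _).smul_mem _ hq.2⟩

lemma cycV_mem_hcyc (hK : 2 * b * H ≤ K) (T : ℕ) {w : B.Chains H} (hw : w ∈ B.cycV H T) :
    letI := B.rMod H hK; w ∈ hcyc (B.toR H hK (B.dC H))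
      (lvl (fun r => B.subR H hK (B.pC H r)) (fun t => B.subR H hK (B.gC H t)) 0)
      (lvl (fun r => B.subR H hK (B.pC H r)) (fun t => B.subR H hK (B.gC H t)) T) 0 :=
  hw

/-- The class of `D` times a cycle, in the window of the `E`-part. -/
noncomputable def vFromAux (hK : 2 * b * H ≤ K) (T : ℕ) : ↥(B.cycV H T) →+ B.winM H hK T :=
  letI := B.rMod H hK
  AddMonoidHom.mk'
    (fun w => hmk _ _ _ _
      ⟨B.D • w.1, B.cycV_mem_hcyc H hK T ((B.cycV H T).smul_mem B.D w.2)⟩)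
    (fun w w' => by
      rw [← map_add]
      exact congrArg _ (Subtype.ext (smul_add B.D w.1 w'.1)))

lemma vFromAux_eq_zero (hK : 2 * b * H ≤ K) (T : ℕ) (w : ↥(B.cycV H T))
    (hw : w.1 ∈ B.kerV H T) : B.vFromAux H hK T w = 0 := by
  let := B.rMod H hK
  exact hmk_eq_zero.2 (B.D_smul_mem_bd H hK T hw)

/-- From `VT` to the `E`-part, as an additive map. -/
noncomputable def vFromAdd (hK : 2 * b * H ≤ K) (T : ℕ) : B.VT H T →+ B.winM H hK T :=
  SubQuot.addLift (B.vFromAux H hK T) (B.vFromAux_eq_zero H hK T)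

lemma vFromAdd_mk (hK : 2 * b * H ≤ K) (T : ℕ) (w : ↥(B.cycV H T)) :
    B.vFromAdd H hK T (Submodule.Quotient.mk w) = B.vFromAux H hK T w :=
  SubQuot.addLift_mk _ _ w

/-- From `VT` to the `E`-part. -/
noncomputable def vFrom (hK : 2 * b * H ≤ K) (T : ℕ) :
    letI := B.rMod H hK; letI := B.vMod H hK T; B.VT H T →ₗ[R] B.winM H hK T :=
  letI := B.rMod H hK; letI := B.vMod H hK T
  { toFun := B.vFromAdd H hK T
    map_add' := (B.vFromAdd H hK T).map_add
    map_smul' := fun r v => by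
      obtain ⟨z, hz⟩ := Ideal.Quotient.mk_surjective (B.χ (algebraMap R B.As r))
      obtain ⟨w, rfl⟩ := Submodule.Quotient.mk_surjective _ v
      simp only [RingHom.id_apply]
      rw [B.vMod_smul H hK T r z hz.symm, ← Submodule.Quotient.mk_smul]
      show hmk _ _ _ _ _ = r • hmk _ _ _ _ _
      rw [← map_smul]
      exact congrArg _ (Subtype.ext ((smul_comm B.D z w.1).trans
        (B.smul_eq H hK r z hz.symm (B.D • w.1)).symm)) }

/-- Multiplication by `D` on `VT`. -/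
noncomputable def vDL (T : ℕ) : B.VT H T →ₗ[B.L] B.VT H T := B.D • LinearMap.id

lemma vTo_comm (hK : 2 * b * H ≤ K) (T : ℕ)
    (hdl : letI := B.rMod H hK; LevelEnd (B.toR H hK (B.dC H))
      (fun r => B.subR H hK (B.pC H r)) (fun t => B.subR H hK (B.gC H t))
      (B.toR H hK (B.dlC H))) :
    letI := B.rMod H hK; letI := B.vMod H hK T
    B.vToR H hK (B.vDL H T) ∘ₗ B.vTo H hK T = B.vTo H hK T ∘ₗ hdl.winMap 0 (T : ℤ) 0 := by
  let := B.rMod H hK; let := B.vMod H hK T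
  refine LinearMap.ext fun v => ?_
  obtain ⟨w, rfl⟩ := hmk_surjective _ _ _ _ v
  rfl

lemma vFrom_comm (hK : 2 * b * H ≤ K) (T : ℕ)
    (hdl : letI := B.rMod H hK; LevelEnd (B.toR H hK (B.dC H))
      (fun r => B.subR H hK (B.pC H r)) (fun t => B.subR H hK (B.gC H t))
      (B.toR H hK (B.dlC H))) :
    letI := B.rMod H hK; letI := B.vMod H hK T
    hdl.winMap 0 (T : ℤ) 0 ∘ₗ B.vFrom H hK T = B.vFrom H hK T ∘ₗ B.vToR H hK (B.vDL H T) := by
  let := B.rMod H hK; let := B.vMod H hK T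
  refine LinearMap.ext fun v => ?_
  obtain ⟨w, rfl⟩ := Submodule.Quotient.mk_surjective _ v
  rfl

lemma vFrom_vTo (hK : 2 * b * H ≤ K) (T : ℕ)
    (hdl : letI := B.rMod H hK; LevelEnd (B.toR H hK (B.dC H))
      (fun r => B.subR H hK (B.pC H r)) (fun t => B.subR H hK (B.gC H t))
      (B.toR H hK (B.dlC H))) :
    letI := B.rMod H hK; letI := B.vMod H hK T
    B.vFrom H hK T ∘ₗ B.vTo H hK T = hdl.winMap 0 (T : ℤ) 0 := by
  let := B.rMod H hK; let := B.vMod H hK T
  refine LinearMap.ext fun v => ?_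
  obtain ⟨w, rfl⟩ := hmk_surjective _ _ _ _ v
  rfl

lemma vTo_vFrom (hK : 2 * b * H ≤ K) (T : ℕ) :
    letI := B.rMod H hK; letI := B.vMod H hK T
    B.vTo H hK T ∘ₗ B.vFrom H hK T = B.vToR H hK (B.vDL H T) := by
  let := B.rMod H hK; let := B.vMod H hK T
  refine LinearMap.ext fun v => ?_
  obtain ⟨w, rfl⟩ := Submodule.Quotient.mk_surjective _ v
  rfl

lemma vTr_vTo (hK : 2 * b * H ≤ K) {T T' : ℕ} (h : T ≤ T')
    (hanti : letI := B.rMod H hK; Antitone (fun t => B.subR H hK (B.gC H t))) :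
    letI := B.rMod H hK; letI := B.vMod H hK T; letI := B.vMod H hK T'
    B.vToR H hK (B.vTrL H h) ∘ₗ B.vTo H hK T' =
      B.vTo H hK T ∘ₗ winTr (B.toR H hK (B.dC H)) hanti 0 (Int.ofNat_le.2 h) 0 := by
  let := B.rMod H hK; let := B.vMod H hK T; let := B.vMod H hK T'
  refine LinearMap.ext fun v => ?_
  obtain ⟨w, rfl⟩ := hmk_surjective _ _ _ _ v
  rfl

end Band

end Vale.Agent.P202
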