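import Mathlib

/-!
Shared definitions for P202: lengths of subquotients, homology of a complex given by a family of
submodules of one ambient module with one square zero endomorphism, and the Koszul differential on
functions `Finset (Fin d) → M`.
-/

universe u

namespace Vale.Agent.P202

open Finset

/-- The length of the subquotient `(N ⊔ L) / L`. -/
noncomputable def sq (S : Type*) [CommRing S] {A : Type*} [AddCommGroup A] [Module S A]
    (N L : Submodule S A) : ℕ∞ :=
  Module.length S (↥N ⧸ (L.comap N.subtype))

/-- Homology length, in degree `r`, of the quotient of the subcomplex `P` by its subcomplex `Q`. -/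
noncomputable def hlen (S : Type*) [CommRing S] {A : Type*} [AddCommGroup A] [Module S A]
    (d : A →ₗ[S] A) (P Q : ℤ → Submodule S A) (r : ℤ) : ℕ∞ :=
  sq S (P r ⊓ (Q (r + 1)).comap d) ((P (r - 1)).map d ⊔ Q r)

/-- The sign attached to `l` and `s`. -/
def ksign {d : ℕ} (l : Fin d) (s : Finset (Fin d)) : ℤ :=
  (-1) ^ (s.filter (fun j => j < l)).card

/-- The Koszul differential lowering the cardinality by one. -/
def kd {S : Type*} [CommRing S] {d : ℕ} (y : Fin d → S) (M : Type*) [AddCommGroup M]
    [Module S M] : (Finset (Fin d) → M) →ₗ[S] (Finset (Fin d) → M) where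
  toFun f s := ∑ l ∈ sᶜ, ksign l s • (y l • f (insert l s))
  map_add' f g := by
    funext s; simp only [Pi.add_apply, smul_add, Finset.sum_add_distrib]
  map_smul' c f := by
    funext s
    simp only [Pi.smul_apply, RingHom.id_apply, Finset.smul_sum]
    refine Finset.sum_congr rfl fun l _ => ?_
    rw [smul_comm (y l) c, smul_comm (ksign l s) c]

/-- Chains supported in cardinality `p`. -/
def kchain (S : Type*) [CommRing S] (d : ℕ) (M : Type*) [AddCommGroup M] [Module S M] (p : ℕ) :
    Submodule S (Finset (Fin d) → M) where
  carrier := {f | ∀ s, s.card ≠ p → f s = 0}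
  add_mem' hf hg s h := by simp [hf s h, hg s h]
  zero_mem' := fun _ _ => rfl
  smul_mem' c f hf s h := by simp [hf s h]

/-- The length of the `p`-th Koszul homology of `M`. -/
noncomputable def khlen {S : Type*} [CommRing S] {d : ℕ} (y : Fin d → S) (M : Type*)
    [AddCommGroup M] [Module S M] (p : ℕ) : ℕ∞ :=
  sq S (kchain S d M p ⊓ LinearMap.ker (kd y M)) ((kchain S d M (p + 1)).map (kd y M))

/-- The Koszul Euler characteristic. -/
noncomputable def kchi {S : Type*} [CommRing S] {d : ℕ} (y : Fin d → S) (M : Type*)
    [AddCommGroup M] [Module S M] : ℤ :=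
  ∑ p ∈ Finset.range (d + 1), (-1 : ℤ) ^ p * ((khlen y M p).toNat : ℤ)

/-- The dimension of a ring as a natural number (used for Noetherian local rings only). -/
noncomputable def ndim (A : Type*) [CommRing A] : ℕ := ((ringKrullDim A).unbotD 0).toNat

/-- `HasMult A e` says that `e = lim d! * length (A / m ^ n) / n ^ d` with `d = dim A`. -/
def HasMult (A : Type*) [CommRing A] [IsLocalRing A] (e : ℝ) : Prop :=
  Filter.Tendsto (fun n : ℕ =>
      ((ndim A).factorial : ℝ) *
        ((Module.length A (A ⧸ IsLocalRing.maximalIdeal A ^ n)).toNat : ℝ) / (n : ℝ) ^ ndim A)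
    Filter.atTop (nhds e)

end Vale.Agent.P202
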