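import Vale.Agent.P202.PhiFreeCoh
import Vale.Agent.P202.PhiHMod

/-!
Module B, layer 5: pairs of families, their comparison maps, and finitely generated pairs.
-/

universe u

namespace Vale.Agent.P202

open Finset

section functor

variable {A : Type*} [CommRing A] {d : ℕ} {M : Type*} [AddCommGroup M] [Module A M]
  {M₂ : Type*} [AddCommGroup M₂] [Module A M₂]

/-- The map of chains induced by a map of modules. -/
noncomputable abbrev chainMap (Φ : M →ₗ[A] M₂) : (PIdx d →₀ M) →ₗ[A] (PIdx d →₀ M₂) :=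
  Finsupp.mapRange.linearMap Φ

lemma chainMap_single (Φ : M →ₗ[A] M₂) (i : PIdx d) (v : M) :
    chainMap Φ (Finsupp.single i v) = Finsupp.single i (Φ v) :=
  Finsupp.mapRange_single (hf := Φ.map_zero)

lemma chainMap_apply (Φ : M →ₗ[A] M₂) (f : PIdx d →₀ M) (i : PIdx d) :
    chainMap Φ f i = Φ (f i) :=
  Finsupp.mapRange_apply (hf := Φ.map_zero) ..

lemma chainMap_phiD {X : Fin d → M →ₗ[A] M} {X₂ : Fin d → M₂ →ₗ[A] M₂} (Φ : M →ₗ[A] M₂)
    (hΦ : ∀ l v, Φ (X l v) = X₂ l (Φ v)) (f : PIdx d →₀ M) :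
    chainMap Φ (phiD X f) = phiD X₂ (chainMap Φ f) := by
  induction f using Finsupp.induction_linear with
  | zero => simp
  | add f g hf hg => simp only [map_add, hf, hg]
  | single i v =>
    obtain ⟨⟨J, C⟩, σ, e⟩ := i
    rw [chainMap_single, phiD_single, phiD_single]
    simp only [map_add, map_sum, map_zsmul, phiT_single, map_sub, chainMap_single, hΦ]

lemma chainMap_phiC {D : ℕ} {a : Fin (d - 1) → ℤ} {W : ℤ → Submodule A M}
    {W₂ : ℤ → Submodule A M₂} (Φ : M →ₗ[A] M₂) (h : ∀ n, ∀ v ∈ W n, Φ v ∈ W₂ n) (c r : ℤ) :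
    ∀ f ∈ phiC D a W c r, chainMap Φ f ∈ phiC D a W₂ c r := by
  rintro f ⟨h1, h2⟩
  refine ⟨fun i => ?_, fun i hi => ?_⟩
  · rw [chainMap_apply]
    exact ⟨h _ _ (h1 i).1, fun hn => by rw [(h1 i).2 hn, map_zero]⟩
  · rw [chainMap_apply, h2 i hi, map_zero]

lemma chainMap_sur {D : ℕ} {a : Fin (d - 1) → ℤ} {W : ℤ → Submodule A M}
    {W₂ W₂' : ℤ → Submodule A M₂} (Φ : M →ₗ[A] M₂) (h : ∀ n, ∀ v ∈ W n, Φ v ∈ W₂ n)
    (h' : ∀ n, W₂' n ≤ W₂ n) (c : ℤ)
    (hsur : ∀ σ : ℤ, W₂ (c + D * σ) ≤ (W (c + D * σ)).map Φ ⊔ W₂' (c + D * σ)) (r : ℤ) :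
    phiC D a W₂ c r ≤ (phiC D a W c r).map (chainMap Φ) ⊔ phiC D a W₂' c r := by
  rintro f ⟨h1, h2⟩
  have hex : ∀ i, ∃ v ∈ W (c + D * i.2.1), f i - Φ v ∈ W₂' (c + D * i.2.1) ∧ (f i = 0 → v = 0) := by
    intro i
    by_cases hi : f i = 0
    · exact ⟨0, zero_mem _, by simp [hi], fun _ => rfl⟩
    obtain ⟨_, ⟨v, hv, rfl⟩, w, hw, e⟩ := Submodule.mem_sup.1 (hsur _ (h1 i).1)
    exact ⟨v, hv, by rw [← e, add_sub_cancel_left]; exact hw, fun h => absurd h hi⟩
  choose v hv hvw hv0 using hex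
  let g : PIdx d →₀ M := Finsupp.onFinset f.support v fun i hi =>
    Finsupp.mem_support_iff.2 fun e => hi (hv0 i e)
  have hg : g ∈ phiC D a W c r :=
    ⟨fun i => ⟨hv i, fun hn => hv0 i ((h1 i).2 hn)⟩, fun i hi => hv0 i (h2 i hi)⟩
  rw [← add_sub_cancel (chainMap Φ g) f]
  refine Submodule.add_mem_sup (Submodule.mem_map_of_mem hg) ⟨fun i => ⟨?_, fun hn => ?_⟩,
    fun i hi => ?_⟩
  · rw [Finsupp.sub_apply, chainMap_apply]
    exact hvw i
  · rw [Finsupp.sub_apply, chainMap_apply]
    change f i - Φ (v i) = 0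
    rw [(h1 i).2 hn, hv0 i ((h1 i).2 hn), map_zero, sub_zero]
  · rw [Finsupp.sub_apply, chainMap_apply]
    change f i - Φ (v i) = 0
    rw [h2 i hi, hv0 i (h2 i hi), map_zero, sub_zero]

/-- A map of modules that identifies two pairs at level `c` identifies their homology. -/
noncomputable def pairEquiv {D : ℕ} (a : Fin (d - 1) → ℤ) {X : Fin d → M →ₗ[A] M}
    {X₂ : Fin d → M₂ →ₗ[A] M₂} {W W' : ℤ → Submodule A M} {W₂ W₂' : ℤ → Submodule A M₂}
    (Φ : M →ₗ[A] M₂) (hΦ : ∀ l v, Φ (X l v) = X₂ l (Φ v)) (hW : FamStable D X W)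
    (hW₂' : FamStable D X₂ W₂') (h₂ : ∀ n, W₂' n ≤ W₂ n)
    (hmap : ∀ n, ∀ v ∈ W n, Φ v ∈ W₂ n) (hmap' : ∀ n, ∀ v ∈ W' n, Φ v ∈ W₂' n) (c : ℤ)
    (hsur : ∀ σ : ℤ, W₂ (c + D * σ) ≤ (W (c + D * σ)).map Φ ⊔ W₂' (c + D * σ))
    (hker : ∀ σ : ℤ, ∀ v ∈ W (c + D * σ), Φ v ∈ W₂' (c + D * σ) → v ∈ W' (c + D * σ)) (r : ℤ) :
    HMod (phiD X) (phiC D a W c) (phiC D a W' c) r ≃ₗ[A]
      HMod (phiD X₂) (phiC D a W₂ c) (phiC D a W₂' c) r :=
  hequiv (chainMap Φ) (phiC_stable hW a c) (phiC_stable hW₂' a c)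
    (chainMap_phiC Φ hmap c) (chainMap_phiC Φ hmap' c) (fun _ f _ => chainMap_phiD Φ hΦ f)
    (chainMap_sur Φ hmap h₂ c hsur)
    (fun r f hf hf' => ⟨fun i => ⟨hker _ _ (hf.1 i).1
      (by have := (hf'.1 i).1; rwa [chainMap_apply] at this), (hf.1 i).2⟩, hf.2⟩) r

end functor

section eval

open scoped IsMulCommutative

variable {A : Type*} [CommRing A] {d : ℕ} {M : Type*} [AddCommGroup M] [Module A M]
  {X : Fin d → M →ₗ[A] M}

/-- The action of polynomials through commuting operators. -/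
noncomputable def pAct (hX : ∀ a b, X a ∘ₗ X b = X b ∘ₗ X a) :
    MvPolynomial (Fin d) A →ₐ[A] Module.End A M :=
  have : IsMulCommutative (Algebra.adjoin A (Set.range (X : Fin d → Module.End A M))) :=
    Algebra.isMulCommutative_adjoin A (by rintro _ ⟨a, rfl⟩ _ ⟨b, rfl⟩; exact hX a b)
  (Algebra.adjoin A (Set.range (X : Fin d → Module.End A M))).val.comp
    (MvPolynomial.aeval (S₁ := ↥(Algebra.adjoin A (Set.range (X : Fin d → Module.End A M))))
      (fun l => ⟨X l, Algebra.subset_adjoin ⟨l, rfl⟩⟩ :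
        Fin d → ↥(Algebra.adjoin A (Set.range (X : Fin d → Module.End A M)))))

variable (hX : ∀ a b, X a ∘ₗ X b = X b ∘ₗ X a)

lemma pAct_X (l : Fin d) : pAct hX (MvPolynomial.X l) = X l := by
  simp [pAct]

/-- The monomial `X ^ β` as an operator. -/
noncomputable def xPow (β : Fin d →₀ ℕ) : M →ₗ[A] M := pAct hX (MvPolynomial.monomial β 1)

lemma xPow_zero (v : M) : xPow hX 0 v = v := by
  rw [xPow, show MvPolynomial.monomial (0 : Fin d →₀ ℕ) (1 : A) = 1 from rfl, map_one,
    Module.End.one_apply]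

lemma xPow_add_single (β : Fin d →₀ ℕ) (l : Fin d) (v : M) :
    xPow hX (β + Finsupp.single l 1) v = X l (xPow hX β v) := by
  rw [xPow, xPow, ← pAct_X hX l, ← Module.End.mul_apply, ← map_mul, mul_comm, MvPolynomial.X,
    MvPolynomial.monomial_mul, mul_one]

lemma exists_eq_add_single {β : Fin d →₀ ℕ} (h : β ≠ 0) :
    ∃ (β' : Fin d →₀ ℕ) (l : Fin d), β = β' + Finsupp.single l 1 ∧ bdeg β' + 1 = bdeg β := by
  obtain ⟨l, hl⟩ := Finsupp.ne_iff.1 h
  rw [Finsupp.zero_apply] at hl
  refine ⟨β - Finsupp.single l 1, l, Finsupp.ext fun j => ?_, bdeg_sub_single hl⟩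
  by_cases hj : l = j
  · subst hj; simp; omega
  · simp [hj]

lemma xPow_induction {P : (Fin d →₀ ℕ) → Prop} (h0 : P 0)
    (hs : ∀ β l, P β → P (β + Finsupp.single l 1)) (β : Fin d →₀ ℕ) : P β := by
  induction hn : bdeg β generalizing β with
  | zero =>
    by_cases h : β = 0
    · exact h ▸ h0
    · obtain ⟨β', l, -, hb⟩ := exists_eq_add_single h; omega
  | succ n ih =>
    obtain ⟨β', l, rfl, hb⟩ := exists_eq_add_single (β := β) fun h => by
      subst h; simp [bdeg] at hn
    exact hs β' l (ih β' (by omega))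

lemma xPow_mem {D : ℕ} {W : ℤ → Submodule A M} (hW : FamStable D X W) {n : ℤ} {v : M}
    (hv : v ∈ W n) (β : Fin d →₀ ℕ) : xPow hX β v ∈ W (n + D * bdeg β) := by
  refine xPow_induction (P := fun β => xPow hX β v ∈ W (n + D * bdeg β)) ?_ ?_ β
  · simpa [xPow_zero, bdeg] using hv
  · intro β l ih
    rw [xPow_add_single, bdeg_add_single]
    convert hW l _ _ ih using 2
    push_cast; ring

variable {m : ℕ} (gen : Fin m → M)

/-- Evaluation of a free module at elements of `M`. -/
noncomputable def evFree : FreeMod A m d →ₗ[A] M :=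
  Finsupp.linearCombination A fun p : FIdx m d => xPow hX p.2 (gen p.1)

lemma evFree_single (p : FIdx m d) (v : A) :
    evFree hX gen (Finsupp.single p v) = v • xPow hX p.2 (gen p.1) :=
  Finsupp.linearCombination_single ..

lemma evFree_xFree (l : Fin d) (f : FreeMod A m d) :
    evFree hX gen (xFree A l f) = X l (evFree hX gen f) := by
  induction f using Finsupp.induction_linear with
  | zero => simp
  | add f g hf hg => simp only [map_add, hf, hg]
  | single p v => rw [xFree_single, evFree_single, evFree_single, xPow_add_single, map_smul]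

lemma evFree_mem {D : ℕ} {W : ℤ → Submodule A M} (hW : FamStable D X W) {g : Fin m → ℤ}
    (hgen : ∀ k, gen k ∈ W (g k)) {n : ℤ} {f : FreeMod A m d} (hf : f ∈ freeFam A D g n) :
    evFree hX gen f ∈ W n := by
  refine finsupp_map_mem _ _ fun p hp => ?_
  rw [evFree_single, ← mem_freeFam.1 hf p hp]
  exact Submodule.smul_mem _ _ (xPow_mem hX hW (hgen p.1) p.2)

end eval

section fg

variable {A : Type*} [CommRing A] {d : ℕ} {M : Type*} [AddCommGroup M] [Module A M]

/-- A pair of families with finitely many homogeneous generators modulo the smaller one. -/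
structure FGPair (D : ℕ) {X : Fin d → M →ₗ[A] M} (hX : ∀ a b, X a ∘ₗ X b = X b ∘ₗ X a)
    (W W' : ℤ → Submodule A M) : Prop where
  stable : FamStable D X W
  stable' : FamStable D X W'
  le : ∀ n, W' n ≤ W n
  gens : ∃ (m : ℕ) (g : Fin m → ℤ) (gen : Fin m → M), (∀ k, gen k ∈ W (g k)) ∧
    ∀ n, W n ≤ (freeFam A D g n).map (evFree hX gen) ⊔ W' n

/-- The kernel family of an evaluation map. -/
noncomputable def kerFam (D : ℕ) {X : Fin d → M →ₗ[A] M} (hX : ∀ a b, X a ∘ₗ X b = X b ∘ₗ X a)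
    (W' : ℤ → Submodule A M) {m : ℕ} (g : Fin m → ℤ) (gen : Fin m → M) (n : ℤ) :
    Submodule A (FreeMod A m d) :=
  freeFam A D g n ⊓ (W' n).comap (evFree hX gen)

lemma kerFam_stable {D : ℕ} {X : Fin d → M →ₗ[A] M} (hX : ∀ a b, X a ∘ₗ X b = X b ∘ₗ X a)
    {W' : ℤ → Submodule A M} (hW' : FamStable D X W') {m : ℕ} (g : Fin m → ℤ) (gen : Fin m → M) :
    FamStable D (fun l => (xFree A l : FreeMod A m d →ₗ[A] _)) (kerFam D hX W' g gen) :=
  fun l n f hf => ⟨freeFam_stable g l n f hf.1, by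
    change evFree hX gen (xFree A l f) ∈ W' (n + D)
    rw [evFree_xFree]
    exact hW' l n _ hf.2⟩

/-- The homology of a finitely generated pair is that of a free family modulo the kernel. -/
noncomputable def evEquiv {D : ℕ} (a : Fin (d - 1) → ℤ) {X : Fin d → M →ₗ[A] M}
    (hX : ∀ a b, X a ∘ₗ X b = X b ∘ₗ X a) {W W' : ℤ → Submodule A M} (hW : FamStable D X W)
    (hW' : FamStable D X W') (hle : ∀ n, W' n ≤ W n) {m : ℕ} (g : Fin m → ℤ) (gen : Fin m → M)
    (hgen : ∀ k, gen k ∈ W (g k)) (c : ℤ)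
    (hsur : ∀ σ : ℤ, W (c + D * σ) ≤
      (freeFam A D g (c + D * σ)).map (evFree hX gen) ⊔ W' (c + D * σ)) (r : ℤ) :
    HMod (phiDF A m d) (phiC D a (freeFam A D g) c) (phiC D a (kerFam D hX W' g gen) c) r ≃ₗ[A]
      HMod (phiD X) (phiC D a W c) (phiC D a W' c) r :=
  pairEquiv a (W' := kerFam D hX W' g gen) (W₂' := W') (evFree hX gen) (evFree_xFree hX gen) (freeFam_stable g) hW' hle
    (fun _ _ hv => evFree_mem hX gen hW hgen hv) (fun _ _ hv => hv.2) c hsur
    (fun _ _ hv hv' => ⟨hv, hv'⟩) r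

/-- The equivalence of a free module with a finite power of the polynomial ring. -/
noncomputable def polyEquiv (A : Type*) [CommRing A] (m d : ℕ) :
    FreeMod A m d ≃ₗ[A] (Fin m → MvPolynomial (Fin d) A) :=
  (Finsupp.curryLinearEquiv A).trans ((Finsupp.linearEquivFunOnFinite A _ (Fin m)).trans
    (LinearEquiv.piCongrRight fun _ => (MvPolynomial.basisMonomials (Fin d) A).repr.symm))

lemma polyEquiv_single {m : ℕ} (k : Fin m) (β : Fin d →₀ ℕ) (v : A) :
    polyEquiv A m d (Finsupp.single (k, β) v) = Pi.single k (MvPolynomial.monomial β v) := by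
  funext j
  have h : ∀ w : (Fin d →₀ ℕ) →₀ A, (MvPolynomial.basisMonomials (Fin d) A).repr.symm w =
      w.sum fun s b => MvPolynomial.monomial s b := by
    intro w
    rw [Module.Basis.repr_symm_apply, Finsupp.linearCombination_apply, MvPolynomial.coe_basisMonomials]
    refine Finset.sum_congr rfl fun s _ => ?_
    simp [MvPolynomial.smul_monomial]
  simp only [polyEquiv, LinearEquiv.trans_apply, LinearEquiv.piCongrRight_apply,
    Finsupp.linearEquivFunOnFinite_apply, h]
  by_cases hj : j = k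
  · subst hj
    simp [Finsupp.curryLinearEquiv]
  · simp [Finsupp.curryLinearEquiv, hj]

lemma polyEquiv_xFree {m : ℕ} (l : Fin d) (f : FreeMod A m d) :
    polyEquiv A m d (xFree A l f) = (MvPolynomial.X l : MvPolynomial (Fin d) A) • polyEquiv A m d f := by
  induction f using Finsupp.induction_linear with
  | zero => simp
  | add f g hf hg => simp only [map_add, hf, hg, smul_add]
  | single p v =>
    rw [xFree_single, polyEquiv_single, polyEquiv_single, ← Pi.single_smul', smul_eq_mul,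
      MvPolynomial.X, MvPolynomial.monomial_mul, one_mul, add_comm]

lemma polyEquiv_pAct {m : ℕ} (P : MvPolynomial (Fin d) A) (f : FreeMod A m d) :
    polyEquiv A m d (pAct (X := fun l => (xFree A l : FreeMod A m d →ₗ[A] _)) xFree_comm P f) =
      P • polyEquiv A m d f := by
  induction P using MvPolynomial.induction_on generalizing f with
  | C b =>
    rw [← MvPolynomial.algebraMap_eq, AlgHom.commutes, Module.algebraMap_end_apply, map_smul,
      algebraMap_smul]
  | add P Q hP hQ => rw [map_add, LinearMap.add_apply, map_add, hP, hQ, add_smul]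
  | mul_X P l hP => rw [map_mul, Module.End.mul_apply, hP, pAct_X, polyEquiv_xFree, mul_smul]

lemma filter_smul_xPow_mem {m m' : ℕ} {D : ℕ} {g : Fin m → ℤ} {h : Fin m' → ℤ}
    (kgen : Fin m' → FreeMod A m d) (hk : ∀ j, kgen j ∈ freeFam A D g (h j)) (n : ℤ) (j : Fin m')
    (β : Fin d →₀ ℕ) (b : A) :
    (Finsupp.filter (fun p : FIdx m d => g p.1 + D * bdeg p.2 = n)
        (b • xPow (X := fun l => (xFree A l : FreeMod A m d →ₗ[A] _)) xFree_comm β (kgen j))) ∈
      (freeFam A D h n).map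
        (evFree (X := fun l => (xFree A l : FreeMod A m d →ₗ[A] _)) xFree_comm kgen) := by
  set w := xPow (X := fun l => (xFree A l : FreeMod A m d →ₗ[A] _)) xFree_comm β (kgen j) with hw
  have hdeg : w ∈ freeFam A D g (h j + D * bdeg β) := xPow_mem _ (freeFam_stable g) (hk j) β
  by_cases hn : h j + D * bdeg β = n
  · have e : Finsupp.filter (fun p : FIdx m d => g p.1 + D * bdeg p.2 = n) (b • w) = b • w := by
      rw [Finsupp.filter_eq_self_iff]
      intro p hp
      rw [← hn]
      exact mem_freeFam.1 hdeg p fun e => hp (by simp [e])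
    rw [e]
    refine ⟨Finsupp.single (j, β) b, mem_freeFam.2 fun p hp => ?_, evFree_single ..⟩
    rw [Finsupp.single_apply] at hp
    split at hp
    · rename_i hpp; subst hpp; exact hn
    · exact absurd rfl hp
  · have e : Finsupp.filter (fun p : FIdx m d => g p.1 + D * bdeg p.2 = n) (b • w) = 0 := by
      rw [Finsupp.filter_eq_zero_iff]
      intro p hp
      by_contra hne
      refine hn ?_
      rw [← mem_freeFam.1 hdeg p fun e => hne (by simp [e])]
      exact hp
    rw [e]
    exact zero_mem _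

/-- Over a Noetherian ring the kernel of an evaluation map is again finitely generated. -/
lemma kerFam_fg [IsNoetherianRing A] {D : ℕ} {X : Fin d → M →ₗ[A] M}
    (hX : ∀ a b, X a ∘ₗ X b = X b ∘ₗ X a) {W' : ℤ → Submodule A M} (hW' : FamStable D X W')
    {m : ℕ} (g : Fin m → ℤ) (gen : Fin m → M) :
    FGPair D (X := fun l => (xFree A l : FreeMod A m d →ₗ[A] _)) xFree_comm
      (kerFam D hX W' g gen) (fun _ => ⊥) := by
  refine ⟨kerFam_stable hX hW' g gen, fun l n v hv => ?_, fun n => bot_le, ?_⟩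
  · rw [(Submodule.mem_bot A).1 hv, map_zero]; exact zero_mem _
  set G : Set (Fin m → MvPolynomial (Fin d) A) :=
    ⋃ n, polyEquiv A m d '' (kerFam D hX W' g gen n : Set (FreeMod A m d)) with hG
  obtain ⟨T, hTG, hT⟩ := (Submodule.fg_span_iff_fg_span_finset_subset G).1
    (IsNoetherian.noetherian (Submodule.span (MvPolynomial (Fin d) A) G))
  have hmem : ∀ j : Fin T.card, ∃ n : ℤ, ∃ f ∈ kerFam D hX W' g gen n,
      polyEquiv A m d f = (T.equivFin.symm j : Fin m → MvPolynomial (Fin d) A) := by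
    intro j
    obtain ⟨s, ⟨n, rfl⟩, f, hf, he⟩ := hTG (T.equivFin.symm j).2
    exact ⟨n, f, hf, he⟩
  choose h kgen hkgen he using hmem
  refine ⟨T.card, h, kgen, hkgen, fun n f hf => Submodule.mem_sup_left ?_⟩
  have hfT : polyEquiv A m d f ∈ Submodule.span (MvPolynomial (Fin d) A)
      (Set.range fun j => (T.equivFin.symm j : Fin m → MvPolynomial (Fin d) A)) := by
    have hr : (Set.range fun j => (T.equivFin.symm j : Fin m → MvPolynomial (Fin d) A)) = ↑T := by
      ext x
      constructor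
      · rintro ⟨j, rfl⟩; exact (T.equivFin.symm j).2
      · intro hx; exact ⟨T.equivFin ⟨x, hx⟩, by simp⟩
    rw [hr, ← hT]
    exact Submodule.subset_span (Set.mem_iUnion.2 ⟨n, f, hf, rfl⟩)
  obtain ⟨P, hP⟩ := (Submodule.mem_span_range_iff_exists_fun _).1 hfT
  have hfsum : f = ∑ j, ∑ β ∈ (P j).support, MvPolynomial.coeff β (P j) •
      xPow (X := fun l => (xFree A l : FreeMod A m d →ₗ[A] _)) xFree_comm β (kgen j) := by
    apply (polyEquiv A m d).injective
    rw [← hP, map_sum]
    refine Finset.sum_congr rfl fun j _ => ?_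
    rw [← he j, ← polyEquiv_pAct]
    congr 1
    conv_lhs => rw [(P j).as_sum]
    rw [map_sum, LinearMap.sum_apply]
    refine Finset.sum_congr rfl fun β _ => ?_
    have : MvPolynomial.monomial β (MvPolynomial.coeff β (P j)) =
        MvPolynomial.coeff β (P j) • MvPolynomial.monomial β (1 : A) := by
      rw [MvPolynomial.smul_monomial, smul_eq_mul, mul_one]
    rw [this, map_smul, LinearMap.smul_apply]
    rfl
  have hfil : f = Finsupp.filter (fun p : FIdx m d => g p.1 + D * bdeg p.2 = n) f :=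
    ((Finsupp.filter_eq_self_iff _ _).2 fun p hp => mem_freeFam.1 hf.1 p hp).symm
  rw [hfil, hfsum, Finsupp.filter_sum]
  refine Submodule.sum_mem _ fun j _ => ?_
  rw [Finsupp.filter_sum]
  exact Submodule.sum_mem _ fun β _ =>
    filter_smul_xPow_mem kgen (fun j => (hkgen j).1) n j β _

end fg

section finite

variable {A : Type u} [CommRing A] [IsNoetherianRing A] {d D : ℕ}

lemma hmod_subsingleton_of_bot {S : Type*} [CommRing S] {N : Type*} [AddCommGroup N] [Module S N]
    {δ : N →ₗ[S] N} {P Q : ℤ → Submodule S N} {r : ℤ} (h : P r = ⊥) :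
    Subsingleton (HMod δ P Q r) :=
  hmod_subsingleton (by rw [hcyc, h, bot_inf_eq]; exact bot_le)

lemma phiC_bot (a : Fin (d - 1) → ℤ) (c : ℤ) {M : Type*} [AddCommGroup M] [Module A M] (r : ℤ) :
    phiC D a (fun _ => (⊥ : Submodule A M)) c r = ⊥ := by
  rw [Submodule.eq_bot_iff]
  exact fun f hf => Finsupp.ext fun i => (Submodule.mem_bot A).1 (hf.1 i).1

/-- The homology of a finitely generated pair is finite over the base. -/
theorem FGPair.finite_hmod (hd : 0 < d) (hD : 0 < D) :
    ∀ (t : ℕ) (r : ℤ), (d : ℤ) - t ≤ r → ∀ (M : Type u) [AddCommGroup M] [Module A M]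
      {X : Fin d → M →ₗ[A] M} (hX : ∀ a b, X a ∘ₗ X b = X b ∘ₗ X a) (W W' : ℤ → Submodule A M),
      FGPair D hX W W' → ∀ (a : Fin (d - 1) → ℤ) (c : ℤ),
        Module.Finite A (HMod (phiD X) (phiC D a W c) (phiC D a W' c) r) := by
  intro t
  induction t with
  | zero =>
    intro r hr M _ _ X hX W W' hW a c
    have : Subsingleton (HMod (phiD X) (phiC D a W c) (phiC D a W' c) r) :=
      hmod_subsingleton_of_bot (phiC_eq_bot hd (Or.inr (by omega)))
    exact Module.Finite.of_finite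
  | succ t ih =>
    intro r hr M _ _ X hX W W' hW a c
    obtain ⟨m, g, gen, hgen, hsur⟩ := hW.gens
    let e := evEquiv a hX hW.stable hW.stable' hW.le g gen hgen c (fun σ => hsur _) r
    have hK := kerFam_fg hX hW.stable' g gen
    have hdd : phiDF A m d ∘ₗ phiDF A m d = 0 :=
      phiD_phiD (X := fun l => (xFree A l : FreeMod A m d →ₗ[A] _)) fun a b => xFree_comm a b
    have hbot : phiC D a (fun _ => (⊥ : Submodule A (FreeMod A m d))) c = fun _ => ⊥ :=
      funext fun r => phiC_bot a c r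
    have h1 : Module.Finite A
        (HMod (phiDF A m d) (phiC D a (freeFam A D g) c) (fun _ => ⊥) r) :=
      Module.Finite.equiv (freeCohEquiv hD r)
    have h2 : Module.Finite A
        (HMod (phiDF A m d) (phiC D a (kerFam D hX W' g gen) c) (fun _ => ⊥) (r + 1)) := by
      have := ih (r + 1) (by push_cast at hr; omega) _ _ _ _ hK a c
      rwa [hbot] at this
    have hPO : ∀ r, phiC D a (kerFam D hX W' g gen) c r ≤ phiC D a (freeFam A D g) c r :=
      fun r => inf_le_inf_right _ (phiSub_mono fun σ => inf_le_left)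
    have hex := exact_hproj_hconn (δ := phiDF A m d) (O := phiC D a (freeFam A D g) c)
      (Q := fun _ => ⊥) (fun r => bot_le) hPO hdd
      (phiC_stable (kerFam_stable hX hW.stable' g gen) a c) r
    have h3 : Module.Finite A (HMod (phiDF A m d) (phiC D a (freeFam A D g) c)
        (phiC D a (kerFam D hX W' g gen) c) r) := by
      set f := hconn (Q := fun _ => ⊥) (O := phiC D a (freeFam A D g) c) hdd
        (phiC_stable (kerFam_stable hX hW.stable' g gen) a c) r
      have : IsNoetherian A (HMod (phiDF A m d) (phiC D a (kerFam D hX W' g gen) c)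
        (fun _ => ⊥) (r + 1)) := isNoetherian_of_isNoetherianRing_of_finite A _
      exact Module.Finite.of_exact (f := hproj (δ := phiDF A m d) (fun r => bot_le) r)
        (g := f.rangeRestrict) (fun x => by
          rw [← hex x]
          exact ⟨fun h => congrArg Subtype.val h, fun h => Subtype.ext h⟩)
        f.surjective_rangeRestrict
    exact Module.Finite.equiv e

/-- The homology of a finitely generated pair is finite over the base, in every degree. -/
theorem FGPair.finite {M : Type u} [AddCommGroup M] [Module A M] {X : Fin d → M →ₗ[A] M}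
    {hX : ∀ a b, X a ∘ₗ X b = X b ∘ₗ X a} {W W' : ℤ → Submodule A M} (h : FGPair D hX W W')
    (hd : 0 < d) (hD : 0 < D) (a : Fin (d - 1) → ℤ) (c r : ℤ) :
    Module.Finite A (HMod (phiD X) (phiC D a W c) (phiC D a W' c) r) :=
  FGPair.finite_hmod hd hD ((d : ℤ) - r).toNat r (by omega) M hX W W' h a c

end finite

end Vale.Agent.P202
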