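import Vale.Agent.P202.InterfacesBand3
import Vale.Agent.P202.PhiFam

/-!
GoalBandBlocks, finiteness: the symbol of a member of a level of `L` in the free module over the
residue field on the normal monomials.
-/

universe u

namespace Vale.Agent.P202

open IsLocalRing MvPolynomial

namespace Band

variable {p : ℕ} [Fact p.Prime] {R : Type u} [CommRing R] [IsLocalRing R] {k : Type u} [Field k]
  [CharP k p] [PerfectRing k p] {A : Type u} [CommRing A] [Algebra R A]
  [Algebra (WittVector p k) A] {d : ℕ} {x : Fin d → A} {b : ℕ} {G : ℕ → Ideal A}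
  {CI : CIData p k A x b G} {ι : ResidueField R →+* k} {i j K : ℕ}
  (B : Band p R CI ι i j K)

/-- The conclusions of `GoalBandCoord` on elements. -/
structure Crd where
  res : B.L →+* B.κ
  res_zero : ∀ z, res z = 0 ↔ z ∈ B.Fil 1
  res_lift : ∀ a : B.κ, res (B.lift (C a)) = a
  nf : ∀ (u : ℕ), ∀ z ∈ B.Fil u, ∃! P : MvPolynomial (Vr d CI.n) B.κ,
    MvPolynomial.IsWeightedHomogeneous CI.wt P u ∧ B.IsNF P ∧ z - B.lift P ∈ B.Fil (u + 1)

/-- The bound of the normal exponents of a variable. -/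
abbrev SBound := fun v : Hv CI.n => Fin (B.mm * CI.deg v)

/-- The number of normal monomials. -/
def sN : ℕ := Fintype.card (∀ v, B.SBound v)

/-- The normal monomials. -/
noncomputable def sγ (t : Fin B.sN) : Vr d CI.n →₀ ℕ :=
  Finsupp.equivFunOnFinite.symm fun a => match a with
    | none => (((Fintype.equivFin (∀ v, B.SBound v)).symm t) none : ℕ)
    | some (Sum.inl _) => 0
    | some (Sum.inr m) => (((Fintype.equivFin (∀ v, B.SBound v)).symm t) (some m) : ℕ)

lemma sγ_X (t : Fin B.sN) (l : Fin d) : B.sγ t (some (Sum.inl l)) = 0 := by simp [sγ]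

lemma sγ_hVar (t : Fin B.sN) (v : Hv CI.n) :
    B.sγ t (hVar v) = (((Fintype.equivFin (∀ v, B.SBound v)).symm t) v : ℕ) := by
  cases v <;> simp [sγ, hVar]

/-- The weights of the normal monomials. -/
noncomputable def sg (t : Fin B.sN) : ℤ := (Finsupp.weight CI.wt (B.sγ t) : ℤ)

/-- The exponent of a basis vector of the free module. -/
noncomputable def sE (q : FIdx B.sN d) : Vr d CI.n →₀ ℕ :=
  Finsupp.mapDomain (fun l => some (Sum.inl l)) q.2 + B.sγ q.1

lemma sE_X (q : FIdx B.sN d) (l : Fin d) : B.sE q (some (Sum.inl l)) = q.2 l := by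
  rw [sE, Finsupp.add_apply, sγ_X, add_zero, Finsupp.mapDomain_apply]
  intro a a' h
  simpa using h

lemma sE_hVar (q : FIdx B.sN d) (v : Hv CI.n) :
    B.sE q (hVar v) = (((Fintype.equivFin (∀ v, B.SBound v)).symm q.1) v : ℕ) := by
  rw [sE, Finsupp.add_apply, sγ_hVar, Finsupp.mapDomain_of_notMem_range, zero_add]
  rintro ⟨l, hl⟩
  cases v <;> simp [hVar] at hl

lemma sE_injective : Function.Injective B.sE := by
  rintro ⟨t, β⟩ ⟨t', β'⟩ h
  have h1 : t = t' := (Fintype.equivFin (∀ v, B.SBound v)).symm.injective (funext fun v => Fin.ext (by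
    rw [← B.sE_hVar (t, β) v, ← B.sE_hVar (t', β') v, h]))
  have h2 : β = β' := Finsupp.ext fun l => by rw [← B.sE_X (t, β) l, ← B.sE_X (t', β') l, h]
  rw [h1, h2]

lemma exists_sE (δ : Vr d CI.n →₀ ℕ) (h : ∀ v, δ (hVar v) < B.mm * CI.deg v) :
    ∃ q, B.sE q = δ := by
  refine ⟨(Fintype.equivFin (∀ v, B.SBound v) fun v => ⟨δ (hVar v), h v⟩,
    Finsupp.equivFunOnFinite.symm fun l => δ (some (Sum.inl l))), Finsupp.ext fun a => ?_⟩
  have hh : ∀ v : Hv CI.n, B.sE (Fintype.equivFin (∀ v, B.SBound v) fun v => ⟨δ (hVar v), h v⟩,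
      Finsupp.equivFunOnFinite.symm fun l => δ (some (Sum.inl l))) (hVar v) = δ (hVar v) := fun v => by
    rw [sE_hVar, Equiv.symm_apply_apply]
  rcases a with _ | l | m
  · exact hh none
  · rw [sE_X]; simp
  · exact hh (some m)

lemma weight_sE (q : FIdx B.sN d) :
    (Finsupp.weight CI.wt (B.sE q) : ℤ) = B.sg q.1 + (b : ℤ) * bdeg q.2 := by
  have e : Finsupp.weight CI.wt
      (Finsupp.mapDomain (fun l => (some (Sum.inl l) : Vr d CI.n)) q.2) = b * bdeg q.2 := by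
    rw [Finsupp.weight_apply, Finsupp.sum_mapDomain_index (fun _ => by simp)
      (fun _ _ _ => add_smul _ _ _), Finsupp.sum_fintype _ _ (fun _ => by simp), bdeg,
      Finset.mul_sum]
    refine Finset.sum_congr rfl fun l _ => ?_
    rw [CI.wt_X, smul_eq_mul, mul_comm]
  rw [sE, map_add, e, sg]
  push_cast
  ring

/-- The polynomial of a vector. -/
noncomputable def sPoly : FreeMod B.κ B.sN d →ₗ[B.κ] MvPolynomial (Vr d CI.n) B.κ :=
  Finsupp.linearCombination B.κ fun q => monomial (B.sE q) 1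

lemma coeff_sPoly (f : FreeMod B.κ B.sN d) (q : FIdx B.sN d) :
    coeff (B.sE q) (B.sPoly f) = f q := by
  classical
  induction f using Finsupp.induction_linear with
  | zero => simp
  | add f g hf hg => simp [hf, hg]
  | single q' a =>
    rw [sPoly, Finsupp.linearCombination_single, coeff_smul, coeff_monomial, Finsupp.single_apply]
    by_cases h : q' = q
    · subst h; simp
    · rw [if_neg h, if_neg fun e => h (B.sE_injective e), smul_zero]

lemma sPoly_injective : Function.Injective B.sPoly := fun f g h =>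
  Finsupp.ext fun q => by rw [← B.coeff_sPoly, h, B.coeff_sPoly]

lemma support_sPoly (f : FreeMod B.κ B.sN d) {δ : Vr d CI.n →₀ ℕ}
    (h : coeff δ (B.sPoly f) ≠ 0) : ∃ q, f q ≠ 0 ∧ B.sE q = δ := by
  classical
  rw [sPoly, Finsupp.linearCombination_apply, Finsupp.sum, coeff_sum] at h
  obtain ⟨q, hq, hne⟩ := Finset.exists_ne_zero_of_sum_ne_zero h
  rw [coeff_smul, coeff_monomial] at hne
  refine ⟨q, Finsupp.mem_support_iff.1 hq, ?_⟩
  by_contra he
  rw [if_neg he, smul_zero] at hne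
  exact hne rfl

lemma sPoly_isNF (f : FreeMod B.κ B.sN d) : B.IsNF (B.sPoly f) := by
  intro δ hδ v
  obtain ⟨q, -, rfl⟩ := B.support_sPoly f (mem_support_iff.1 hδ)
  rw [sE_hVar]
  exact Fin.is_lt _

lemma sPoly_hom {n : ℕ} {f : FreeMod B.κ B.sN d} (hf : f ∈ freeFam B.κ b B.sg (n : ℤ)) :
    IsWeightedHomogeneous CI.wt (B.sPoly f) n := by
  intro δ hδ
  obtain ⟨q, hq, rfl⟩ := B.support_sPoly f hδ
  have := mem_freeFam.1 hf q hq
  rw [← B.weight_sE] at this
  exact_mod_cast this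

lemma exists_sPoly {n : ℕ} {P : MvPolynomial (Vr d CI.n) B.κ}
    (hP : IsWeightedHomogeneous CI.wt P n) (hn : B.IsNF P) :
    ∃ f ∈ freeFam B.κ b B.sg (n : ℤ), B.sPoly f = P := by
  classical
  let f : FreeMod B.κ B.sN d :=
    Finsupp.onFinset (P.support.preimage B.sE (fun a _ a' _ h => B.sE_injective h))
      (fun q => coeff (B.sE q) P) (fun q hq => Finset.mem_preimage.2 (mem_support_iff.2 hq))
  have hf : ∀ q, f q = coeff (B.sE q) P := fun q => rfl
  refine ⟨f, mem_freeFam.2 fun q hq => ?_, MvPolynomial.ext _ _ fun δ => ?_⟩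
  · rw [hf] at hq
    rw [← B.weight_sE]
    exact_mod_cast hP hq
  · by_cases h : ∃ q, B.sE q = δ
    · obtain ⟨q, rfl⟩ := h
      rw [coeff_sPoly, hf]
    · have h1 : coeff δ (B.sPoly f) = 0 := by
        by_contra hne
        obtain ⟨q, -, hq⟩ := B.support_sPoly f hne
        exact h ⟨q, hq⟩
      have h2 : coeff δ P = 0 := by
        by_contra hne
        exact h (B.exists_sE δ (hn δ (mem_support_iff.2 hne)))
      rw [h1, h2]

lemma sPoly_xFree (l : Fin d) (f : FreeMod B.κ B.sN d) :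
    B.sPoly (xFree B.κ l f) = MvPolynomial.X (some (Sum.inl l)) * B.sPoly f := by
  induction f using Finsupp.induction_linear with
  | zero => simp
  | add f g hf hg => simp only [map_add, hf, hg, mul_add]
  | single q a =>
    rw [xFree_single, sPoly, Finsupp.linearCombination_single, Finsupp.linearCombination_single,
      mul_smul_comm]
    unfold MvPolynomial.X
    rw [monomial_mul, one_mul]
    have e : B.sE (q.1, q.2 + Finsupp.single l 1) =
        Finsupp.single (some (Sum.inl l) : Vr d CI.n) 1 + B.sE q := by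
      simp only [sE, Finsupp.mapDomain_add, Finsupp.mapDomain_single]
      rw [add_right_comm, add_comm]
    rw [e]

lemma freeFam_neg {n : ℤ} (hn : n < 0) {f : FreeMod B.κ B.sN d}
    (hf : f ∈ freeFam B.κ b B.sg n) : f = 0 := by
  refine Finsupp.ext fun q => ?_
  by_contra hq
  have := mem_freeFam.1 hf q hq
  rw [← B.weight_sE] at this
  omega

variable {B}

lemma Crd.exists_sym (hc : B.Crd) (n : ℤ) {z : B.L} (hz : z ∈ B.Fil n) :
    ∃! f : FreeMod B.κ B.sN d, f ∈ freeFam B.κ b B.sg n ∧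
      z - B.lift (B.sPoly f) ∈ B.Fil (n + 1) := by
  rcases lt_or_ge n 0 with hn | hn
  · refine ⟨0, ⟨zero_mem _, ?_⟩, fun f hf => B.freeFam_neg hn hf.1⟩
    rw [B.fil_top (n + 1) (by omega)]
    trivial
  · obtain ⟨m, rfl⟩ := Int.eq_ofNat_of_zero_le hn
    obtain ⟨P, ⟨hP, hnf, hzP⟩, huniq⟩ := hc.nf m z hz
    obtain ⟨f, hf, rfl⟩ := B.exists_sPoly hP hnf
    refine ⟨f, ⟨hf, hzP⟩, fun g hg => B.sPoly_injective ?_⟩
    exact huniq _ ⟨B.sPoly_hom hg.1, B.sPoly_isNF g, hg.2⟩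

open Classical in
/-- The symbol at weight `n` (zero off `Fil n`). -/
noncomputable def Crd.sym (hc : B.Crd) (n : ℤ) (z : B.L) : FreeMod B.κ B.sN d :=
  if h : z ∈ B.Fil n then (hc.exists_sym n h).choose else 0

lemma Crd.sym_spec (hc : B.Crd) {n : ℤ} {z : B.L} (hz : z ∈ B.Fil n) :
    hc.sym n z ∈ freeFam B.κ b B.sg n ∧ z - B.lift (B.sPoly (hc.sym n z)) ∈ B.Fil (n + 1) := by
  rw [Crd.sym, dif_pos hz]
  exact (hc.exists_sym n hz).choose_spec.1

lemma Crd.sym_eq (hc : B.Crd) {n : ℤ} {z : B.L} (hz : z ∈ B.Fil n) {f : FreeMod B.κ B.sN d}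
    (hf : f ∈ freeFam B.κ b B.sg n) (h : z - B.lift (B.sPoly f) ∈ B.Fil (n + 1)) :
    hc.sym n z = f :=
  (hc.exists_sym n hz).unique (hc.sym_spec hz) ⟨hf, h⟩

lemma lift_mem_fil {n : ℤ} {f : FreeMod B.κ B.sN d} (hf : f ∈ freeFam B.κ b B.sg n) :
    B.lift (B.sPoly f) ∈ B.Fil n := by
  rcases lt_or_ge n 0 with hn | hn
  · rw [B.fil_top n hn.le]; trivial
  · obtain ⟨m, rfl⟩ := Int.eq_ofNat_of_zero_le hn
    exact B.lift_mem m _ (B.sPoly_hom hf)

lemma Crd.sym_lift (hc : B.Crd) {n : ℤ} {f : FreeMod B.κ B.sN d}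
    (hf : f ∈ freeFam B.κ b B.sg n) : hc.sym n (B.lift (B.sPoly f)) = f :=
  hc.sym_eq (lift_mem_fil hf) hf (by rw [sub_self]; exact zero_mem _)

lemma blk_lift_zero_mem (n : ℤ) : B.lift (0 : MvPolynomial (Vr d CI.n) B.κ) ∈ B.Fil n := by
  rcases lt_or_ge n 1 with hn | hn
  · rw [B.fil_top n (by omega)]; trivial
  · obtain ⟨m, rfl⟩ : ∃ m : ℕ, n = m := ⟨n.toNat, by omega⟩
    exact B.lift_mem m 0 (isWeightedHomogeneous_zero _ _ _)

lemma Crd.sym_eq_zero (hc : B.Crd) {n : ℤ} {z : B.L} (hz : z ∈ B.Fil n) :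
    hc.sym n z = 0 ↔ z ∈ B.Fil (n + 1) := by
  constructor
  · intro h
    have h1 := (hc.sym_spec hz).2
    rw [h, map_zero] at h1
    have := (B.Fil (n + 1)).add_mem h1 (blk_lift_zero_mem (n + 1))
    rwa [sub_add_cancel] at this
  · intro h
    refine hc.sym_eq hz (zero_mem _) ?_
    rw [map_zero]
    exact (B.Fil (n + 1)).sub_mem h (blk_lift_zero_mem (n + 1))

lemma Crd.sym_add (hc : B.Crd) {n : ℤ} {z z' : B.L} (hz : z ∈ B.Fil n) (hz' : z' ∈ B.Fil n) :
    hc.sym n (z + z') = hc.sym n z + hc.sym n z' := by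
  obtain ⟨h1, h2⟩ := hc.sym_spec hz
  obtain ⟨h1', h2'⟩ := hc.sym_spec hz'
  refine hc.sym_eq ((B.Fil n).add_mem hz hz') (add_mem h1 h1') ?_
  rcases lt_or_ge n 0 with hn | hn
  · rw [B.fil_top (n + 1) (by omega)]; trivial
  · obtain ⟨m, rfl⟩ := Int.eq_ofNat_of_zero_le hn
    have h3 := B.lift_add m _ _ (B.sPoly_hom h1) (B.sPoly_hom h1')
    rw [map_add]
    have := (B.Fil ((m : ℤ) + 1)).sub_mem ((B.Fil ((m : ℤ) + 1)).add_mem h2 h2') h3
    convert this using 1
    ring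

lemma fil_mul_mem {a c : ℤ} {y z : B.L} (hy : y ∈ B.Fil a) (hz : z ∈ B.Fil c) :
    y * z ∈ B.Fil (a + c) :=
  B.fil_mul a c (Ideal.mul_mem_mul hy hz)

lemma Crd.sym_smul (hc : B.Crd) {n : ℤ} {z : B.L} (hz : z ∈ B.Fil n) (y : B.L) :
    hc.sym n (y * z) = hc.res y • hc.sym n z := by
  obtain ⟨h1, h2⟩ := hc.sym_spec hz
  refine hc.sym_eq ((B.Fil n).mul_mem_left y hz) (Submodule.smul_mem _ _ h1) ?_
  rcases lt_or_ge n 0 with hn | hn
  · rw [B.fil_top (n + 1) (by omega)]; trivial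
  obtain ⟨m, rfl⟩ := Int.eq_ofNat_of_zero_le hn
  have e1 : y - B.lift (C (hc.res y)) ∈ B.Fil 1 := by
    rw [← hc.res_zero, map_sub, hc.res_lift, sub_self]
  have hP := B.sPoly_hom h1
  have e2 := B.lift_mul 0 m (C (hc.res y)) _ (isWeightedHomogeneous_C _ _) hP
  have e3 : B.sPoly (hc.res y • hc.sym (m : ℤ) z) = C (hc.res y) * B.sPoly (hc.sym (m : ℤ) z) := by
    rw [map_smul, smul_eq_C_mul]
  have t1 : y * (z - B.lift (B.sPoly (hc.sym (m : ℤ) z))) ∈ B.Fil ((m : ℤ) + 1) :=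
    (B.Fil _).mul_mem_left y h2
  have t2 := fil_mul_mem e1 (B.lift_mem m _ hP)
  rw [add_comm (1 : ℤ)] at t2
  rw [Nat.cast_zero, zero_add] at e2
  rw [e3]
  have := (B.Fil ((m : ℤ) + 1)).sub_mem ((B.Fil ((m : ℤ) + 1)).add_mem t1 t2) e2
  convert this using 1
  ring

lemma Crd.sym_X (hc : B.Crd) (l : Fin d) {n : ℤ} {z : B.L} (hz : z ∈ B.Fil n) :
    hc.sym (n + (b : ℤ)) (B.X l * z) = xFree B.κ l (hc.sym n z) := by
  obtain ⟨h1, h2⟩ := hc.sym_spec hz
  have hXz : B.X l * z ∈ B.Fil (n + (b : ℤ)) := by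
    rw [add_comm]; exact fil_mul_mem (B.X_mem l) hz
  refine hc.sym_eq hXz (freeFam_stable B.sg l n _ h1) ?_
  rcases lt_or_ge n 0 with hn | hn
  · rw [B.freeFam_neg hn h1, map_zero, map_zero]
    refine (B.Fil _).sub_mem ?_ (blk_lift_zero_mem _)
    refine B.anti ?_ (fil_mul_mem (B.X_mem l) (show z ∈ B.Fil 0 by rw [B.fil_top 0 le_rfl]; trivial))
    omega
  obtain ⟨m, rfl⟩ := Int.eq_ofNat_of_zero_le hn
  have hP := B.sPoly_hom h1
  have hXh : IsWeightedHomogeneous CI.wt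
      (MvPolynomial.X (some (Sum.inl l)) : MvPolynomial (Vr d CI.n) B.κ) b := by
    have := isWeightedHomogeneous_X B.κ CI.wt (some (Sum.inl l) : Vr d CI.n)
    rwa [CI.wt_X l] at this
  have e2 := B.lift_mul b m _ _ hXh hP
  have t1 : B.X l * (z - B.lift (B.sPoly (hc.sym (m : ℤ) z))) ∈ B.Fil ((m : ℤ) + b + 1) := by
    refine B.anti ?_ (fil_mul_mem (B.X_mem l) h2)
    omega
  have t2 := fil_mul_mem (B.X_init l) (B.lift_mem m _ hP)
  rw [sPoly_xFree]
  have e2' : B.lift (MvPolynomial.X (some (Sum.inl l)) * B.sPoly (hc.sym (m : ℤ) z)) -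
      B.lift (MvPolynomial.X (some (Sum.inl l))) * B.lift (B.sPoly (hc.sym (m : ℤ) z)) ∈
      B.Fil ((m : ℤ) + b + 1) := B.anti (by omega) e2
  have t2' := B.anti (show (m : ℤ) + b + 1 ≤ (b : ℤ) + 1 + m by omega) t2
  have := (B.Fil ((m : ℤ) + b + 1)).sub_mem ((B.Fil ((m : ℤ) + b + 1)).add_mem t1 t2') e2'
  convert this using 1
  ring

end Band

end Vale.Agent.P202
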