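import Vale.Agent.P202.CIGraded

/-!
M3, part 4: commutative algebra of section 3. A homogeneous radical ideal `J` of `k[Y, X, Z]` with
finite torsion-free quotient over `k[X]` is, at each of its minimal primes, cut out by forms monic
in separate variables modulo the `X`.
-/

universe u

namespace Vale.Agent.P202

namespace CI

open MvPolynomial

attribute [local instance] MvPolynomial.weightedGradedAlgebra

section gen

variable {k : Type u} [CommRing k] {σ : Type*}

lemma mem_supported_iff {s : Set σ} {f : MvPolynomial σ k} :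
    f ∈ supported k s ↔ ∀ γ ∈ f.support, ∀ v, γ v ≠ 0 → v ∈ s := by
  rw [mem_supported]
  constructor
  · exact fun h γ hγ v hv =>
      h ((mem_vars_iff_mem_support v).2 ⟨γ, hγ, Finsupp.mem_support_iff.2 hv⟩)
  · intro h v hv
    obtain ⟨γ, hγ, hv'⟩ := (mem_vars_iff_mem_support v).1 hv
    exact h γ hγ v (Finsupp.mem_support_iff.1 hv')

lemma comp_supported (w : σ → ℕ) {s : Set σ} {f : MvPolynomial σ k} (hf : f ∈ supported k s)
    (D : ℕ) : weightedHomogeneousComponent w D f ∈ supported k s := by
  classical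
  rw [mem_supported_iff] at hf ⊢
  intro γ hγ
  refine hf γ ?_
  rw [mem_support_iff, coeff_weightedHomogeneousComponent] at hγ
  split_ifs at hγ
  · exact mem_support_iff.2 hγ
  · exact absurd rfl hγ

/-- Split off one variable. -/
lemma exists_split {s : Set σ} {v : σ} {f : MvPolynomial σ k}
    (hf : f ∈ supported k (insert v s)) : ∃ (m : ℕ) (a : ℕ → MvPolynomial σ k),
      (∀ j, a j ∈ supported k s) ∧ f = ∑ j ∈ Finset.range (m + 1), a j * X v ^ j := by
  classical
  let a : ℕ → MvPolynomial σ k := fun j =>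
    ∑ γ ∈ f.support.filter (fun γ => γ v = j), monomial (γ.erase v) (coeff γ f)
  refine ⟨f.support.sup fun γ => γ v, a, fun j => ?_, ?_⟩
  · refine Subalgebra.sum_mem _ fun γ hγ => ?_
    rw [mem_supported_iff]
    intro δ hδ w hw
    rw [Finset.mem_singleton.1 (support_monomial_subset hδ)] at hw
    have hwv : w ≠ v := fun h => hw (by rw [h, Finsupp.erase_same])
    rw [Finsupp.erase_ne hwv] at hw
    exact (mem_supported_iff.1 hf γ (Finset.mem_filter.1 hγ).1 w hw).resolve_left hwv
  · conv_lhs => rw [f.as_sum]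
    rw [← Finset.sum_fiberwise_of_maps_to (g := fun γ => γ v)
      (t := Finset.range (f.support.sup (fun γ => γ v) + 1))
      fun γ hγ => Finset.mem_range.2 (Nat.lt_succ_iff.2 (Finset.le_sup (f := fun γ => γ v) hγ))]
    refine Finset.sum_congr rfl fun j _ => ?_
    rw [Finset.sum_mul]
    refine Finset.sum_congr rfl fun γ hγ => ?_
    rw [X_pow_eq_monomial, monomial_mul, mul_one, ← (Finset.mem_filter.1 hγ).2,
      Finsupp.erase_add_single]

lemma wh_pow (w : σ → ℕ) {f : MvPolynomial σ k} {D : ℕ} (h : IsWeightedHomogeneous w f D)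
    (m : ℕ) : IsWeightedHomogeneous w (f ^ m) (m * D) := by
  simpa using h.pow m

lemma det_mul_mem {ι : Type*} [Fintype ι] [DecidableEq ι] {S : Type*} [CommRing S] (K : Ideal S)
    (M : Matrix ι ι S) (μ : ι → S) (h : ∀ i, ∑ j, M i j * μ j ∈ K) (i : ι) :
    M.det * μ i ∈ K := by
  have h1 : M.det * μ i = ∑ j, M.adjugate i j * ∑ l, M j l * μ l := by
    have h2 : (M.adjugate * M).mulVec μ i = M.det * μ i := by
      rw [Matrix.adjugate_mul, Matrix.smul_mulVec, Matrix.one_mulVec]; rfl
    rw [← h2, ← Matrix.mulVec_mulVec]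
    rfl
  rw [h1]
  exact Ideal.sum_mem _ fun j _ => K.mul_mem_left _ (h j)

end gen

section main

variable {k : Type u} [Field k] {d n : ℕ} (wt : Vr d n → ℕ)

/-- The variables `X` and the first `i` of the others. -/
def before (d n : ℕ) (e : Fin (n + 1) ≃ Hv n) (i : ℕ) : Set (Vr d n) :=
  Base.xSet d n ∪ (fun j => hVar (d := d) (e j)) '' {j | (j : ℕ) < i}

lemma hVar_inj : Function.Injective (hVar (d := d) (n := n)) :=
  Option.map_injective Sum.inr_injective

lemma X_prime_mem {q : Ideal (MvPolynomial (Vr d n) k)} (hq : ∀ i, ∀ f ∈ q,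
    weightedHomogeneousComponent wt i f ∈ q) {f : MvPolynomial (Vr d n) k} (hf : f ∉ q) :
    ∃ D, weightedHomogeneousComponent wt D f ∉ q := by
  by_contra hcon
  push Not at hcon
  refine hf ?_
  rw [← sum_weightedHomogeneousComponent wt f]
  exact finsum_induction (fun g => g ∈ q) q.zero_mem (fun _ _ => q.add_mem) hcon

/-- Pseudo-division generators at a homogeneous prime meeting `k[X]` in zero. -/
lemma exists_local_gen (e : Fin (n + 1) ≃ Hv n) (q : Ideal (MvPolynomial (Vr d n) k)) [q.IsPrime]
    (hq : ∀ i, ∀ f ∈ q, weightedHomogeneousComponent wt i f ∈ q)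
    (h0 : ∀ P ∈ supported k (Base.xSet d n), P ∈ q → P = 0)
    (hint : ∀ v : Hv n, ∃ (m : ℕ) (a : ℕ → MvPolynomial (Vr d n) k),
      (∀ j, a j ∈ supported k (Base.xSet d n)) ∧ a m = 1 ∧
        ∑ j ∈ Finset.range (m + 1), a j * X (hVar v) ^ j ∈ q) :
    ∃ (ev : Hv n → ℕ) (α : Hv n → ℕ) (μ cc : Hv n → MvPolynomial (Vr d n) k),
      (∀ v, 1 ≤ ev v) ∧ (∀ v, X (hVar v) ∈ q → ev v = 1) ∧
      (∀ v, IsWeightedHomogeneous wt (μ v) (α v + ev v * wt (hVar v))) ∧
      (∀ v, IsWeightedHomogeneous wt (cc v) (α v)) ∧ (∀ v, cc v ∉ q) ∧ (∀ v, μ v ∈ q) ∧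
      ∀ f ∈ q, ∃ c, c ∉ q ∧ c * f ∈ Ideal.span (Set.range μ) := by
  classical
  let R : Hv n → Subalgebra k (MvPolynomial (Vr d n) k) :=
    fun v => supported k (before d n e (e.symm v))
  let good : Hv n → ℕ → Prop := fun v m => ∃ a : ℕ → MvPolynomial (Vr d n) k,
    (∀ j, a j ∈ R v) ∧ a m ∉ q ∧ ∑ j ∈ Finset.range (m + 1), a j * X (hVar v) ^ j ∈ q
  have hone : (1 : MvPolynomial (Vr d n) k) ∉ q :=
    fun h => Ideal.IsPrime.ne_top inferInstance ((Ideal.eq_top_iff_one _).2 h)
  have hex : ∀ v, ∃ m, good v m := by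
    intro v
    obtain ⟨m, a, ha, ham, hs⟩ := hint v
    exact ⟨m, a, fun j => supported_mono Set.subset_union_left (ha j), ham ▸ hone, hs⟩
  let ev : Hv n → ℕ := fun v => Nat.find (hex v)
  have hstep : ∀ v, ∃ (α : ℕ) (μ c : MvPolynomial (Vr d n) k),
      1 ≤ ev v ∧ IsWeightedHomogeneous wt μ (α + ev v * wt (hVar v)) ∧
      IsWeightedHomogeneous wt c α ∧ c ∉ q ∧ μ ∈ q ∧
      ∃ a' : ℕ → MvPolynomial (Vr d n) k, (∀ j, a' j ∈ R v) ∧ a' (ev v) = c ∧
        μ = ∑ j ∈ Finset.range (ev v + 1), a' j * X (hVar v) ^ j := by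
    intro v
    obtain ⟨a, ha, ham, hs⟩ := Nat.find_spec (hex v)
    have h1 : 1 ≤ ev v := by
      by_contra hcon
      have h0' : ev v = 0 := by omega
      change a (ev v) ∉ q at ham
      change ∑ j ∈ Finset.range (ev v + 1), _ ∈ q at hs
      rw [h0'] at ham hs
      simp at hs
      exact ham hs
    obtain ⟨α, hα⟩ := X_prime_mem wt hq ham
    set D := α + ev v * wt (hVar v)
    let a' : ℕ → MvPolynomial (Vr d n) k := fun j =>
      if j * wt (hVar v) ≤ D then weightedHomogeneousComponent wt (D - j * wt (hVar v)) (a j)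
      else 0
    have hμ : weightedHomogeneousComponent wt D
        (∑ j ∈ Finset.range (ev v + 1), a j * X (hVar v) ^ j) =
        ∑ j ∈ Finset.range (ev v + 1), a' j * X (hVar v) ^ j := by
      rw [map_sum]
      refine Finset.sum_congr rfl fun j _ => ?_
      rw [wcomp_mul wt (wh_pow wt (isWeightedHomogeneous_X k wt _) j)]
      simp only [a']
      split_ifs <;> simp
    have htop : a' (ev v) = weightedHomogeneousComponent wt α (a (ev v)) := by
      simp [a', D]
    refine ⟨α, ∑ j ∈ Finset.range (ev v + 1), a' j * X (hVar v) ^ j,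
      weightedHomogeneousComponent wt α (a (ev v)), h1, ?_,
      weightedHomogeneousComponent_isWeightedHomogeneous _ _, hα, ?_, a', ?_, htop, rfl⟩
    · rw [← hμ]; exact weightedHomogeneousComponent_isWeightedHomogeneous _ _
    · rw [← hμ]; exact hq _ _ hs
    · intro j
      simp only [a']
      split_ifs
      · exact comp_supported wt (ha j) _
      · exact Subalgebra.zero_mem _
  choose α μ cc h1 hμh hch hcq hμq a' ha' hatop hμdef using hstep
  refine ⟨ev, α, μ, cc, h1, fun v hv => le_antisymm ?_ (h1 v), hμh, hch, hcq, hμq, ?_⟩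
  · refine Nat.find_min' (hex v) ⟨fun j => if j = 1 then 1 else 0, fun j => ?_, ?_, ?_⟩
    · simp only
      split_ifs
      · exact Subalgebra.one_mem _
      · exact Subalgebra.zero_mem _
    · simpa using hone
    · simpa [Finset.sum_range_succ] using hv
  set M := Ideal.span (Set.range μ)
  suffices ∀ i, i ≤ n + 1 → ∀ f ∈ supported k (before d n e i), f ∈ q →
      ∃ c, c ∉ q ∧ c * f ∈ M by
    intro f hf
    refine this (n + 1) le_rfl f ?_ hf
    have : before d n e (n + 1) = Set.univ := by
      refine Set.eq_univ_of_forall fun v => ?_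
      rcases v with _ | (l | j)
      · exact .inr ⟨e.symm none, (e.symm none).2, by simp [hVar]⟩
      · exact .inl ⟨l, rfl⟩
      · exact .inr ⟨e.symm (some j), (e.symm (some j)).2, by simp [hVar]⟩
    rw [this, supported_univ]
    exact Algebra.mem_top
  intro i
  induction i with
  | zero =>
    intro _ f hf hfq
    have : before d n e 0 = Base.xSet d n := by simp [before]
    rw [this] at hf
    exact ⟨1, hone, by rw [h0 f hf hfq, mul_zero]; exact M.zero_mem⟩
  | succ i ih =>
    intro hi f hf hfq
    set v := e ⟨i, by omega⟩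
    have hRv : R v = supported k (before d n e i) := by simp [R, v]
    have hins : before d n e (i + 1) ⊆ insert (hVar v) (before d n e i) := by
      rintro w (hw | ⟨j, hj, rfl⟩)
      · exact .inr (.inl hw)
      · rcases Nat.lt_succ_iff_lt_or_eq.1 hj with hj | hj
        · exact .inr (.inr ⟨j, hj, rfl⟩)
        · left
          rw [show j = ⟨i, by omega⟩ from Fin.ext hj]
    obtain ⟨m, a, ha, rfl⟩ := exists_split (supported_mono hins hf)
    clear hf
    induction m using Nat.strong_induction_on generalizing a with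
    | _ m ihm =>
      have hlow : ∀ (a : ℕ → MvPolynomial (Vr d n) k), (∀ j, a j ∈ supported k (before d n e i)) →
          ∑ j ∈ Finset.range m, a j * X (hVar v) ^ j ∈ q →
          ∃ c, c ∉ q ∧ c * ∑ j ∈ Finset.range m, a j * X (hVar v) ^ j ∈ M := by
        intro a ha hq'
        rcases m with _ | m
        · exact ⟨1, hone, by simp⟩
        · exact ihm m (Nat.lt_succ_self m) a ha hq'
      by_cases ham : a m ∈ q
      · obtain ⟨c', hc', hc'M⟩ := ih (by omega) _ (ha m) ham
        rw [Finset.sum_range_succ] at hfq ⊢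
        have hl := (Submodule.add_mem_iff_left _ (q.mul_mem_right _ ham)).1 hfq
        obtain ⟨c, hc, hcM⟩ := hlow a ha hl
        refine ⟨c * c', fun h => (Ideal.IsPrime.mem_or_mem ‹_› h).elim hc hc', ?_⟩
        rw [mul_add]
        refine M.add_mem ?_ ?_
        · rw [mul_assoc, mul_left_comm]; exact M.mul_mem_left _ hcM
        · rw [← mul_assoc, mul_assoc c c']
          exact M.mul_mem_right _ (M.mul_mem_left _ hc'M)
      · have hge : ev v ≤ m := Nat.find_min' (hex v) ⟨a, by rw [hRv]; exact ha, ham, hfq⟩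
        let b' : ℕ → MvPolynomial (Vr d n) k := fun j =>
          cc v * a j - if m - ev v ≤ j then a m * a' v (j - (m - ev v)) else 0
        have hb' : ∀ j, b' j ∈ supported k (before d n e i) := by
          intro j
          have hc : cc v ∈ supported k (before d n e i) := by
            rw [← hRv, ← hatop v]; exact ha' v _
          refine Subalgebra.sub_mem _ (Subalgebra.mul_mem _ hc (ha j)) ?_
          split_ifs
          · exact Subalgebra.mul_mem _ (ha m) (by rw [← hRv]; exact ha' v _)
          · exact Subalgebra.zero_mem _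
        have hid : cc v * ∑ j ∈ Finset.range (m + 1), a j * X (hVar v) ^ j -
            a m * X (hVar v) ^ (m - ev v) * μ v =
            ∑ j ∈ Finset.range m, b' j * X (hVar v) ^ j := by
          have e1 : a m * X (hVar v) ^ (m - ev v) * μ v = ∑ j ∈ Finset.range (m + 1),
              (if m - ev v ≤ j then a m * a' v (j - (m - ev v)) else 0) * X (hVar v) ^ j := by
            have hμv : μ v = ∑ j ∈ Finset.range (ev v + 1), a' v j * X (hVar v) ^ j := hμdef v
            rw [hμv, Finset.mul_sum, show m + 1 = (m - ev v) + (ev v + 1) by omega,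
              Finset.sum_range_add _ (m - ev v) (ev v + 1)]
            rw [Finset.sum_eq_zero (s := Finset.range (m - ev v)) fun j hj => by
              rw [if_neg (by have := Finset.mem_range.1 hj; omega), zero_mul], zero_add]
            refine Finset.sum_congr rfl fun j _ => ?_
            rw [if_pos (Nat.le_add_right _ _), Nat.add_sub_cancel_left, pow_add]
            ring
          rw [e1, Finset.mul_sum, ← Finset.sum_sub_distrib, Finset.sum_range_succ]
          have e2 : cc v * (a m * X (hVar v) ^ m) -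
              (if m - ev v ≤ m then a m * a' v (m - (m - ev v)) else 0) * X (hVar v) ^ m = 0 := by
            rw [if_pos (Nat.sub_le _ _), Nat.sub_sub_self hge, hatop v]; ring
          rw [e2, add_zero]
          exact Finset.sum_congr rfl fun j _ => by simp only [b']; ring
        have hq' : ∑ j ∈ Finset.range m, b' j * X (hVar v) ^ j ∈ q := by
          rw [← hid]; exact q.sub_mem (q.mul_mem_left _ hfq) (q.mul_mem_left _ (hμq v))
        obtain ⟨c, hc, hcM⟩ := hlow b' hb' hq'
        refine ⟨c * cc v, fun h => (Ideal.IsPrime.mem_or_mem ‹_› h).elim hc (hcq v), ?_⟩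
        rw [← hid, mul_sub, sub_eq_add_neg, Submodule.add_mem_iff_left] at hcM
        · rwa [← mul_assoc] at hcM
        · exact M.neg_mem (M.mul_mem_left _ (M.mul_mem_left _ (Ideal.subset_span ⟨v, rfl⟩)))

end main

end CI

end Vale.Agent.P202
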