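import Vale.Agent.P202.EPowerSeries
import Vale.Agent.P202.Reduce

/-!
E2: lengths over a coefficient ring, evaluation of power series in a complete local ring, and
finiteness of the evaluation map.
-/

universe u v w

namespace Vale.Agent.P202

open IsLocalRing

/-- With surjective residue map, lengths over the two rings agree. -/
lemma length_eq_of_residue {A : Type u} {B : Type v} [CommRing A] [IsLocalRing A] [CommRing B]
    [IsLocalRing B] [Algebra A B] [IsLocalHom (algebraMap A B)]
    (hres : ∀ b : B, ∃ a : A, b - algebraMap A B a ∈ maximalIdeal B) (M : Type w) [AddCommGroup M]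
    [Module A M] [Module B M] [IsScalarTower A B M] : Module.length A M = Module.length B M := by
  have hsurj : Function.Surjective
      (Algebra.linearMap (ResidueField A) (ResidueField B)) := by
    intro r
    obtain ⟨b, rfl⟩ := residue_surjective r
    obtain ⟨a, ha⟩ := hres b
    refine ⟨residue A a, ?_⟩
    rw [← residue_eq_zero_iff, map_sub, sub_eq_zero] at ha
    rw [ha]; rfl
  have hres1 : Module.length (ResidueField A) (ResidueField B) = 1 := by
    rw [← (LinearEquiv.ofBijective (Algebra.linearMap (ResidueField A) (ResidueField B))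
      ⟨RingHom.injective _, hsurj⟩).length_eq, Module.length_eq_finrank, Module.finrank_self,
      Nat.cast_one]
  rw [IsLocalRing.length_restrictScalars A B M, hres1, mul_one]

section Eval

open MvPowerSeries

variable {K S : Type u} [Field K] [CommRing S] [IsLocalRing S]
  [IsAdicComplete (maximalIdeal S) S] [Algebra K S] {d : ℕ}

/-- Evaluation of power series at elements of the maximal ideal. -/
lemma exists_evalSeries (x : Fin d → S) (hx : ∀ i, x i ∈ maximalIdeal S) :
    ∃ ι : MvPowerSeries (Fin d) K →+* S,
      (∀ c, ι (C c) = algebraMap K S c) ∧ ∀ i, ι (X i) = x i := by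
  set P := MvPolynomial (Fin d) K
  let g : P →+* S := (MvPolynomial.aeval x).toRingHom
  have hg : (MvPolynomial.idealOfVars (Fin d) K).map g ≤ maximalIdeal S := by
    rw [MvPolynomial.idealOfVars, Ideal.map_span, Ideal.span_le]
    rintro _ ⟨_, ⟨i, rfl⟩, rfl⟩
    simpa [g] using hx i
  let E := toAdicCompletionAlgEquiv (Fin d) K
  let ι : MvPowerSeries (Fin d) K →+* S :=
    (AdicCompletion.ofAlgEquiv (maximalIdeal S)).symm.toRingHom.comp
      ((completionMap _ (maximalIdeal S) g hg).comp E.toRingHom)
  have key : ∀ q : P, ι (algebraMap P (MvPowerSeries (Fin d) K) q) = g q := by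
    intro q
    show (AdicCompletion.ofAlgEquiv (maximalIdeal S)).symm
      (completionMap _ (maximalIdeal S) g hg (E (algebraMap P _ q))) = g q
    rw [E.commutes, completionMap_algebraMap, AlgEquiv.commutes]
    rfl
  refine ⟨ι, fun c => ?_, fun i => ?_⟩
  · have := key (MvPolynomial.C c)
    rw [MvPowerSeries.algebraMap_apply'] at this
    have h2 : g (MvPolynomial.C c) = algebraMap K S c := MvPolynomial.aeval_C _ _
    rw [h2] at this
    simpa using this
  · have := key (MvPolynomial.X i)
    rw [MvPowerSeries.algebraMap_apply'] at this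
    have h2 : g (MvPolynomial.X i) = x i := MvPolynomial.aeval_X _ _
    rw [h2] at this
    simpa using this

omit [IsAdicComplete (maximalIdeal S) S] in
/-- Evaluation at elements generating an ideal primary to the maximal ideal is finite. -/
lemma finite_evalSeries [IsNoetherianRing S]
    (hres : ∀ t : S, ∃ c : K, t - algebraMap K S c ∈ maximalIdeal S)
    (x : Fin d → S) (ι : MvPowerSeries (Fin d) K →+* S)
    (hιC : ∀ c, ι (C c) = algebraMap K S c) (hιX : ∀ i, ι (X i) = x i)
    (hx : ∀ i, x i ∈ maximalIdeal S)
    {L : ℕ} (hL : maximalIdeal S ^ L ≤ Ideal.span (Set.range x)) : ι.Finite := by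
  classical
  have hstep : ∀ j, ∃ s : Finset S, ∀ t : S,
      ∃ w ∈ Submodule.span ι.range (s : Set S), t - w ∈ maximalIdeal S ^ j := by
    intro j
    induction j with
    | zero => exact ⟨∅, fun t => ⟨0, zero_mem _, by simp⟩⟩
    | succ j ih =>
      obtain ⟨s, hs⟩ := ih
      obtain ⟨G, hG⟩ := (maximalIdeal S ^ j).fg_of_isNoetherianRing
      refine ⟨s ∪ G, fun t => ?_⟩
      obtain ⟨w, hw, htw⟩ := hs t
      rw [← hG, Submodule.mem_span_finset] at htw
      obtain ⟨φ, -, hφ⟩ := htw
      choose c hc using hres
      refine ⟨w + ∑ g ∈ G, algebraMap K S (c (φ g)) * g, add_mem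
        (Submodule.span_mono (by simp) hw) (Submodule.sum_mem _ fun g hg => ?_), ?_⟩
      · rw [← hιC]
        exact Submodule.smul_mem _ (⟨ι (C (c (φ g))), _, rfl⟩ : ι.range)
          (Submodule.subset_span (Finset.mem_coe.2 (Finset.mem_union_right _ hg)))
      · rw [← sub_sub, ← hφ, ← Finset.sum_sub_distrib]
        refine Submodule.sum_mem _ fun g hg => ?_
        have hg' : g ∈ maximalIdeal S ^ j := hG ▸ Submodule.subset_span hg
        rw [smul_eq_mul, ← sub_mul, pow_succ']
        exact Ideal.mul_mem_mul (hc _) hg'
  obtain ⟨s, hs⟩ := hstep L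
  set I := Ideal.span (Set.range (X : Fin d → MvPowerSeries (Fin d) K))
  have hmap : I.map ι = Ideal.span (Set.range x) := by
    rw [Ideal.map_span, ← Set.range_comp]
    exact congrArg Ideal.span (congrArg Set.range (funext hιX))
  have : IsHausdorff (I.map ι) S := by
    refine IsHausdorff.of_le_jacobson _ _ ?_
    refine le_trans ?_ (maximalIdeal_le_jacobson _)
    rw [hmap, Ideal.span_le]
    rintro _ ⟨i, rfl⟩
    exact hx i
  exact finite_of_complete ι I s fun t => (hs t).imp fun w hw => ⟨hw.1, hmap ▸ hL hw.2⟩

end Eval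

end Vale.Agent.P202
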