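import Vale.Agent.P202.GrowthBound

/-!
Formal power series in finitely many variables: the powers of the ideal of the variables, and the
multiplicity one of `k[[x]]`.
-/

universe u v

namespace Vale.Agent.P202

open MvPowerSeries IsLocalRing Filter

section Ring

variable {σ : Type v} {R : Type u} [Finite σ] [CommRing R]

/-- `(X)^n` consists of the series without terms of degree less than `n`. -/
lemma mem_span_X_pow_iff (n : ℕ) (p : MvPowerSeries σ R) :
    p ∈ Ideal.span (Set.range (X : σ → MvPowerSeries σ R)) ^ n ↔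
      ∀ e : σ →₀ ℕ, e.degree < n → coeff e p = 0 := by
  classical
  set P := MvPolynomial σ R
  set I := MvPolynomial.idealOfVars σ R with hI
  have hspan : Ideal.span (Set.range (X : σ → MvPowerSeries σ R)) =
      I.map (algebraMap P (MvPowerSeries σ R)) := by
    rw [hI, Ideal.map_span, ← Set.range_comp]
    congr 1
    refine congrArg Set.range (funext fun i => ?_)
    exact (MvPolynomial.coe_X i).symm
  let E := toAdicCompletionAlgEquiv σ R
  have h1 : p ∈ Ideal.span (Set.range (X : σ → MvPowerSeries σ R)) ^ n ↔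
      E p ∈ (I ^ n • ⊤ : Submodule P (AdicCompletion I P)) := by
    rw [hspan, ← Ideal.map_pow, Ideal.smul_top_eq_map, Submodule.restrictScalars_mem,
      ← E.toAlgHom.comp_algebraMap, ← Ideal.map_map]
    refine ⟨fun h => Ideal.mem_map_of_mem _ h, fun h => ?_⟩
    obtain ⟨q, hq, hqp⟩ := (Ideal.mem_map_iff_of_surjective E.toAlgHom.toRingHom E.surjective).1 h
    rwa [← E.injective hqp]
  rw [h1, AdicCompletion.pow_smul_top_eq_ker_eval (MvPolynomial.idealOfVars_fg σ R),
    LinearMap.mem_ker]
  have h2 : AdicCompletion.eval I P n (E p) =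
      Submodule.Quotient.mk (truncTotal n p) := rfl
  rw [h2, Submodule.Quotient.mk_eq_zero, smul_eq_mul, Ideal.mul_top,
    MvPolynomial.mem_pow_idealOfVars_iff']
  exact forall₂_congr fun e he => by rw [coeff_truncTotal _ he]

/-- The coefficients of degree less than `n`, as a linear map. -/
noncomputable def lowCoeff (σ : Type v) (R : Type u) [CommRing R] (n : ℕ) :
    MvPowerSeries σ R →ₗ[R] ({e : σ →₀ ℕ | e.degree < n} → R) :=
  LinearMap.pi fun e => coeff (e : σ →₀ ℕ)

omit [Finite σ] in
lemma lowCoeff_surjective (n : ℕ) : Function.Surjective (lowCoeff σ R n) := by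
  classical
  intro g
  refine ⟨fun e => if h : e.degree < n then g ⟨e, h⟩ else 0, funext fun e => ?_⟩
  simp only [lowCoeff, LinearMap.pi_apply]
  exact dif_pos e.2

lemma ker_lowCoeff (n : ℕ) :
    LinearMap.ker (lowCoeff σ R n) =
      (Ideal.span (Set.range (X : σ → MvPowerSeries σ R)) ^ n).restrictScalars R := by
  ext p
  rw [LinearMap.mem_ker, Submodule.restrictScalars_mem, mem_span_X_pow_iff]
  simp [lowCoeff, funext_iff]

end Ring

section Field

variable {σ : Type v} {k : Type u} [Finite σ] [Field k]

lemma maximalIdeal_powerSeries :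
    maximalIdeal (MvPowerSeries σ k) = Ideal.span (Set.range (X : σ → MvPowerSeries σ k)) := by
  refine le_antisymm (fun p hp => ?_) ?_
  · rw [← pow_one (Ideal.span _), mem_span_X_pow_iff]
    intro e he
    rw [Nat.lt_one_iff, Finsupp.degree_eq_zero_iff] at he
    subst he
    rw [mem_maximalIdeal, mem_nonunits_iff, isUnit_iff_constantCoeff, isUnit_iff_ne_zero,
      not_not] at hp
    rwa [coeff_zero_eq_constantCoeff]
  · rw [Ideal.span_le]
    rintro _ ⟨i, rfl⟩
    rw [SetLike.mem_coe, mem_maximalIdeal, mem_nonunits_iff, isUnit_iff_constantCoeff]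
    simp

/-- The length of `k[[x]]/(x)^n` is the number of monomials of degree less than `n`. -/
lemma length_powerSeries_quot (n : ℕ) :
    Module.length (MvPowerSeries σ k)
        (MvPowerSeries σ k ⧸ maximalIdeal (MvPowerSeries σ k) ^ n) =
      ({e : σ →₀ ℕ | e.degree < n}.ncard : ℕ∞) := by
  haveI : Fintype {e : σ →₀ ℕ | e.degree < n} := (Finsupp.finite_of_degree_lt n).fintype
  set A := MvPowerSeries σ k
  set J := maximalIdeal A ^ n with hJ
  haveI : IsLocalHom (algebraMap k A) :=
    ⟨fun a ha => isUnit_iff_ne_zero.2 fun h => by simp [h] at ha⟩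
  have hsurj : Function.Surjective (algebraMap k (ResidueField A)) := by
    intro r
    obtain ⟨p, rfl⟩ := residue_surjective r
    refine ⟨constantCoeff p, ?_⟩
    rw [IsScalarTower.algebraMap_apply k A (ResidueField A),
      show algebraMap A (ResidueField A) = residue A from rfl, ← sub_eq_zero, ← map_sub,
      residue_eq_zero_iff, mem_maximalIdeal, mem_nonunits_iff, isUnit_iff_constantCoeff]
    rw [map_sub, sub_eq_zero.2]; rotate_left; exact constantCoeff_C _; simp
  have hres : Module.length (ResidueField k) (ResidueField A) = 1 := by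
    rw [← (LinearEquiv.ofBijective (Algebra.linearMap (ResidueField k) (ResidueField A))
      ⟨RingHom.injective _, fun r => ?_⟩).length_eq, Module.length_eq_finrank,
      Module.finrank_self, Nat.cast_one]
    obtain ⟨a, ha⟩ := hsurj r
    exact ⟨residue k a, ha⟩
  have h1 : Module.length k (A ⧸ J) = Module.length A (A ⧸ J) := by
    rw [IsLocalRing.length_restrictScalars k A (A ⧸ J), hres, mul_one]
  rw [← h1]
  have hker : LinearMap.ker (lowCoeff σ k n) = J.restrictScalars k := by
    rw [ker_lowCoeff, hJ, maximalIdeal_powerSeries]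
  rw [← (Submodule.Quotient.restrictScalarsEquiv k J).length_eq,
    ((Submodule.quotEquivOfEq _ _ hker.symm).trans
      ((lowCoeff σ k n).quotKerEquivOfSurjective (lowCoeff_surjective n))).length_eq,
    Module.length_eq_finrank, Module.finrank_pi, Set.ncard_eq_toFinset_card',
    Set.toFinset_card]

end Field

lemma ncard_degree_lt (d : ℕ) {n : ℕ} (hn : 0 < n) :
    d.factorial * {e : Fin d →₀ ℕ | e.degree < n}.ncard = n.ascFactorial d := by
  classical
  obtain ⟨n, rfl⟩ : ∃ n', n = n' + 1 := ⟨n - 1, (Nat.succ_pred_eq_of_pos hn).symm⟩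
  have h : {e : Fin d →₀ ℕ | e.degree < n + 1}.ncard =
      (Finset.finsuppAntidiag (Finset.univ : Finset (Option (Fin d))) n).card := by
    rw [← Set.ncard_coe_finset]
    refine Set.ncard_congr (fun e _ => Finsupp.optionElim (n - e.degree) e) ?_ ?_ ?_
    · intro e he
      simp only [Finset.mem_coe, Finset.mem_finsuppAntidiag, Finset.subset_univ, and_true]
      rw [Fintype.sum_option]
      simp only [Finsupp.optionElim_apply_none, Finsupp.optionElim_apply_some]
      rw [← Finsupp.degree_eq_sum]
      have : e.degree < n + 1 := he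
      omega
    · intro e e' _ _ h
      ext i
      simpa using DFunLike.congr_fun h (some i)
    · intro f hf
      simp only [Finset.mem_coe, Finset.mem_finsuppAntidiag, Finset.subset_univ, and_true] at hf
      rw [Fintype.sum_option] at hf
      have hdeg : f.some.degree = ∑ i, f (some i) := by
        rw [Finsupp.degree_eq_sum]; simp
      refine ⟨f.some, ?_, ?_⟩
      · show f.some.degree < n + 1
        omega
      · ext (_ | i)
        · simp; omega
        · simp
  rw [h, Finset.card_finsuppAntidiag_nat_eq_choose]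
  simp only [Finset.card_univ, Fintype.card_option, Fintype.card_fin]
  rw [Nat.ascFactorial_eq_factorial_mul_choose]
  congr 1
  rw [show d + 1 + n - 1 = n + d by omega, ← Nat.choose_symm_add]

lemma ascFactorial_le_succ (n : ℕ) : ∀ k : ℕ, n.ascFactorial k ≤ (n + 1).ascFactorial k
  | 0 => le_rfl
  | k + 1 => by
    rw [Nat.ascFactorial_succ, Nat.ascFactorial_succ]
    exact Nat.mul_le_mul (by omega) (ascFactorial_le_succ n k)

lemma tendsto_ncard_degree_lt (d : ℕ) :
    Tendsto (fun n : ℕ => (d.factorial : ℝ) * ({e : Fin d →₀ ℕ | e.degree < n}.ncard : ℝ) /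
      (n : ℝ) ^ d) atTop (nhds 1) := by
  refine Tendsto.congr' (f₁ := fun n : ℕ => (n.ascFactorial d : ℝ) / (n : ℝ) ^ d) ?_ ?_
  · filter_upwards [eventually_gt_atTop 0] with n hn
    rw [show (d.factorial : ℝ) * ({e : Fin d →₀ ℕ | e.degree < n}.ncard : ℝ) =
      (n.ascFactorial d : ℝ) by exact_mod_cast ncard_degree_lt d hn]
  have hup : Tendsto (fun n : ℕ => ((1 : ℝ) + (d : ℝ) * ((n : ℝ))⁻¹) ^ d) atTop (nhds 1) := by
    have := (((tendsto_inv_atTop_nhds_zero_nat (𝕜 := ℝ)).const_mul (d : ℝ)).const_add (1 : ℝ)).pow d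
    simpa using this
  refine tendsto_of_tendsto_of_tendsto_of_le_of_le' tendsto_const_nhds hup ?_ ?_
  · filter_upwards [eventually_gt_atTop 0] with n hn
    rw [le_div_iff₀ (by positivity), one_mul]
    exact_mod_cast Nat.pow_succ_le_ascFactorial n d
  · filter_upwards [eventually_gt_atTop 0] with n hn
    have hn' : (0 : ℝ) < n := by exact_mod_cast hn
    rw [div_le_iff₀ (by positivity), ← mul_pow]
    refine (Nat.cast_le.2 (?_ : n.ascFactorial d ≤ (n + d) ^ d)).trans_eq ?_
    · calc n.ascFactorial d ≤ (n + 1).ascFactorial d := ascFactorial_le_succ n d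
        _ ≤ (n + d) ^ d := Nat.ascFactorial_le_pow_add n d
    · push_cast
      congr 1
      field_simp

end Vale.Agent.P202
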