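import Vale.Agent.P202.CIWeight
import Vale.Agent.P202.E2Series
import Vale.Agent.P202.EPowerSeries

/-!
M3, part 2: the evaluation `W[[X, Z]] → A` which is strict for the filtration `G`.
-/

universe u

namespace Vale.Agent.P202

namespace CI

open IsLocalRing MvPowerSeries

/-- Evaluation of power series over any coefficient ring at elements of the maximal ideal. -/
lemma exists_eval {R : Type u} {A : Type u} [CommRing R] [CommRing A] [IsLocalRing A]
    [IsAdicComplete (maximalIdeal A) A] [Algebra R A] {σ : Type} [Finite σ]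
    (z : σ → A) (hz : ∀ i, z i ∈ maximalIdeal A) :
    ∃ ι : MvPowerSeries σ R →+* A,
      (∀ c, ι (C c) = algebraMap R A c) ∧ ∀ i, ι (X i) = z i := by
  set P := MvPolynomial σ R
  let g : P →+* A := (MvPolynomial.aeval z).toRingHom
  have hg : (MvPolynomial.idealOfVars σ R).map g ≤ maximalIdeal A := by
    rw [MvPolynomial.idealOfVars, Ideal.map_span, Ideal.span_le]
    rintro _ ⟨_, ⟨i, rfl⟩, rfl⟩
    simpa [g] using hz i
  let E := toAdicCompletionAlgEquiv σ R
  let ι : MvPowerSeries σ R →+* A :=
    (AdicCompletion.ofAlgEquiv (maximalIdeal A)).symm.toRingHom.comp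
      ((completionMap _ (maximalIdeal A) g hg).comp E.toRingHom)
  have key : ∀ q : P, ι (algebraMap P (MvPowerSeries σ R) q) = g q := by
    intro q
    show (AdicCompletion.ofAlgEquiv (maximalIdeal A)).symm
      (completionMap _ (maximalIdeal A) g hg (E (algebraMap P _ q))) = g q
    rw [E.commutes, completionMap_algebraMap, AlgEquiv.commutes]
    rfl
  refine ⟨ι, fun c => ?_, fun i => ?_⟩
  · have := key (MvPolynomial.C c)
    rw [MvPowerSeries.algebraMap_apply'] at this
    have h2 : g (MvPolynomial.C c) = algebraMap R A c := MvPolynomial.aeval_C _ _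
    rw [h2] at this
    simpa using this
  · have := key (MvPolynomial.X i)
    rw [MvPowerSeries.algebraMap_apply'] at this
    have h2 : g (MvPolynomial.X i) = z i := MvPolynomial.aeval_X _ _
    rw [h2] at this
    simpa using this

/-- The basic data: variables, weights and a strict evaluation. -/
structure Base (p : ℕ) [Fact p.Prime] (k : Type u) [Field k] (A : Type u) [CommRing A]
    [Algebra (WittVector p k) A] {d : ℕ} (x : Fin d → A) (b : ℕ) (G : ℕ → Ideal A) where
  n : ℕ
  wt : Vr d n → ℕ
  wt_pos : ∀ v, 0 < wt v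
  wt_X : ∀ l, wt (some (Sum.inl l)) = b
  wt_H : ∀ v : Hv n, b ≤ wt (hVar v)
  ev : Pw p k d n →+* A
  ev_C : ∀ w, ev (MvPowerSeries.C w) = algebraMap _ A w
  ev_X : ∀ l, ev (MvPowerSeries.X (Sum.inl l)) = x l
  strict : ∀ N (r : A), r ∈ G N ↔ ∃ f, MemW p wt N f ∧ ev f = r

theorem exists_base (p : ℕ) [Fact p.Prime] (k : Type u) [Field k] [CharP k p] [PerfectRing k p]
    (A : Type u) [CommRing A] [IsLocalRing A] [IsNoetherianRing A]
    [IsAdicComplete (maximalIdeal A) A] [Algebra (WittVector p k) A]
    (hres : Function.Surjective ((residue A).comp (algebraMap (WittVector p k) A)))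
    (hp : (p : A) ∈ maximalIdeal A) (hp0 : (p : A) ≠ 0) (d : ℕ) (x : Fin d → A) (b : ℕ)
    (G : ℕ → Ideal A) (hx : ∀ l, x l ∈ maximalIdeal A) (hG : NuFil p k A x b G) :
    Nonempty (Base p k A x b G) := by
  classical
  obtain ⟨N₀, hst⟩ := hG.stable
  obtain ⟨c, hc⟩ := hG.bound
  have hb := hG.b_pos
  have hpow : ∀ N, maximalIdeal A ^ N ≤ G (b * N) := by
    intro N
    induction N with
    | zero => simp [hG.zero]
    | succ N ih =>
      rw [pow_succ, Nat.mul_succ]
      exact (Ideal.mul_mono ih hG.max_le).trans (hG.mul _ _)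
  have hsep : ∃ N, (p : A) ∉ G N := by
    by_contra hcon
    push Not at hcon
    refine hp0 ?_
    rw [← Ideal.mem_bot, ← Ideal.iInf_pow_eq_bot_of_isLocalRing (maximalIdeal A)
      (maximalIdeal.isMaximal A).ne_top, Ideal.mem_iInf]
    intro N
    have := hc (N + c) (hcon _)
    rwa [Nat.add_sub_cancel] at this
  set π := Nat.find hsep - 1 with hπ
  have hbfind : b < Nat.find hsep := by
    by_contra hcon
    exact Nat.find_spec hsep (hG.anti (not_lt.1 hcon) (hG.max_le hp))
  have hbπ : b ≤ π := by omega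
  have hpπ : (p : A) ∈ G π := by
    by_contra hcon
    have := Nat.find_le hcon (h := hsep)
    omega
  -- the generators
  have hfg : ∀ N, (G N).FG := fun N => IsNoetherian.noetherian _
  choose gens hgens using hfg
  let ι := Σ N : ↥(Finset.Icc b (b + N₀)), ↥(gens N.1)
  let e : Fin (Fintype.card ι) ≃ ι := (Fintype.equivFin ι).symm
  have hGm : ∀ N, 1 ≤ N → G N ≤ maximalIdeal A := fun N hN => (hG.anti hN).trans hG.one_le
  let zv : Fin d ⊕ Fin (Fintype.card ι) → A := Sum.elim x fun j => ((e j).2 : A)
  let wv : Fin d ⊕ Fin (Fintype.card ι) → ℕ := Sum.elim (fun _ => b) fun j => ((e j).1 : ℕ)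
  have hzG : ∀ v, zv v ∈ G (wv v) := by
    rintro (l | j)
    · exact hG.max_le (hx l)
    · show ((e j).2 : A) ∈ G (e j).1
      rw [← hgens]
      exact Submodule.subset_span (e j).2.2
  have hwb : ∀ v, b ≤ wv v := by
    rintro (l | j)
    · exact le_rfl
    · exact (Finset.mem_Icc.1 (e j).1.2).1
  have hzm : ∀ v, zv v ∈ maximalIdeal A := fun v => hGm _ (hb.trans_le (hwb v)) (hzG v)
  obtain ⟨ev, hevC, hevX⟩ := exists_eval (R := WittVector p k) zv hzm
  let wt : Vr d (Fintype.card ι) → ℕ := Option.elim' π wv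
  have hwt : 0 < wt none := hb.trans_le hbπ
  have hXm : (Ideal.span (Set.range (X : _ → Pw p k d (Fintype.card ι)))).map ev ≤
      maximalIdeal A := by
    rw [Ideal.map_span, Ideal.span_le]
    rintro _ ⟨_, ⟨v, rfl⟩, rfl⟩
    rw [SetLike.mem_coe, hevX]; exact hzm v
  have hmX : maximalIdeal A ≤
      (Ideal.span (Set.range (X : _ → Pw p k d (Fintype.card ι)))).map ev := by
    refine hG.max_le.trans ?_
    rw [← hgens, Submodule.span_le]
    intro a ha
    have hmem : b ∈ Finset.Icc b (b + N₀) := Finset.mem_Icc.2 ⟨le_rfl, Nat.le_add_right _ _⟩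
    let j := e.symm ⟨⟨b, hmem⟩, ⟨a, ha⟩⟩
    have : ev (X (Sum.inr j)) = a := by
      rw [hevX]; show ((e j).2 : A) = a
      rw [e.apply_symm_apply]
    rw [SetLike.mem_coe, ← this]
    exact Ideal.mem_map_of_mem _ (Ideal.subset_span ⟨_, rfl⟩)
  have hsurj : Function.Surjective ev := by
    have : IsHausdorff ((Ideal.span (Set.range (X : _ → Pw p k d (Fintype.card ι)))).map ev) A :=
      IsHausdorff.of_le_jacobson _ _ (hXm.trans (maximalIdeal_le_jacobson _))
    refine surjective_of_mk_map_comp_surjective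
      (I := Ideal.span (Set.range (X : _ → Pw p k d (Fintype.card ι)))) ev fun a => ?_
    obtain ⟨a, rfl⟩ := Ideal.Quotient.mk_surjective a
    obtain ⟨w, hw⟩ := hres (residue A a)
    refine ⟨C w, ?_⟩
    rw [RingHom.comp_apply, Ideal.Quotient.mk_eq_mk_iff_sub_mem, hevC]
    refine hmX ?_
    rw [← residue_eq_zero_iff, map_sub, sub_eq_zero]
    exact hw
  -- weights are respected
  have hmon : ∀ γ : (Fin d ⊕ Fin (Fintype.card ι)) →₀ ℕ,
      ev (monomial γ 1) ∈ G (sWt wt γ) := by
    intro γ
    induction γ using Finsupp.induction with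
    | zero => simp [hG.zero]
    | single_add v m γ _ _ ih =>
      rw [show (monomial (Finsupp.single v m + γ) (1 : WittVector p k)) =
        monomial (Finsupp.single v m) 1 * monomial γ 1 by rw [monomial_mul_monomial, one_mul],
        map_mul, map_add]
      refine hG.mul _ _ (Ideal.mul_mem_mul ?_ ih)
      rw [← X_pow_eq, map_pow, hevX, sWt_single]
      show zv v ^ m ∈ G (m * wv v)
      clear ih
      rename_i hm0
      clear hm0
      induction m with
      | zero => simp [hG.zero]
      | succ m ih =>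
        rw [pow_succ, Nat.succ_mul]
        exact hG.mul _ _ (Ideal.mul_mem_mul ih (hzG v))
  have hppow : ∀ i, (p : A) ^ i ∈ G (i * π) := by
    intro i
    induction i with
    | zero => simp [hG.zero]
    | succ i ih =>
      rw [pow_succ, Nat.succ_mul]
      exact hG.mul _ _ (Ideal.mul_mem_mul ih hpπ)
  have hle : ∀ N (f : Pw p k d (Fintype.card ι)), MemW p wt N f → ev f ∈ G N := by
    intro N f hf
    let S := (Finsupp.finite_of_degree_lt (σ := Fin d ⊕ Fin (Fintype.card ι)) N).toFinset
    let g : Pw p k d (Fintype.card ι) := ∑ γ ∈ S, monomial γ (coeff γ f)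
    have htail : f - g ∈ Ideal.span (Set.range (X : _ → Pw p k d (Fintype.card ι))) ^ N := by
      rw [mem_span_X_pow_iff]
      intro γ hγ
      have : γ ∈ S := by simpa [S] using hγ
      simp [g, coeff_monomial, this]
    have h1 : ev (f - g) ∈ G N := by
      have := Ideal.mem_map_of_mem ev htail
      rw [Ideal.map_pow] at this
      exact hG.anti (Nat.le_mul_of_pos_left N hb) (hpow N (Ideal.pow_right_mono hXm N this))
    have h2 : ev g ∈ G N := by
      rw [map_sum]
      refine Ideal.sum_mem _ fun γ _ => ?_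
      obtain ⟨i, hi, a, ha⟩ := hf γ
      rw [ha, show monomial γ ((p : WittVector p k) ^ i * a) =
          C a * (C ((p : WittVector p k) ^ i) * monomial γ 1) by
            rw [← monomial_zero_eq_C_apply, ← monomial_zero_eq_C_apply, monomial_mul_monomial,
              monomial_mul_monomial]
            simp [mul_comm],
        map_mul]
      refine Ideal.mul_mem_left _ _ (hG.anti hi ?_)
      rw [map_mul, hevC, map_pow, map_natCast]
      exact hG.mul _ _ (Ideal.mul_mem_mul (hppow i) (hmon γ))
    rw [← sub_add_cancel f g, map_add]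
    exact (G N).add_mem h1 h2
  have hge : ∀ N, G N ≤ (memWI p hwt N).map ev := by
    intro N
    induction N using Nat.strong_induction_on with
    | _ N ih =>
      have hgen : ∀ M, b ≤ M → M ≤ b + N₀ → G M ≤ (memWI p hwt M).map ev := by
        intro M h1 h2
        rw [← hgens, Submodule.span_le]
        intro a ha
        let j := e.symm ⟨⟨M, Finset.mem_Icc.2 ⟨h1, h2⟩⟩, ⟨a, ha⟩⟩
        have hej : e j = ⟨⟨M, Finset.mem_Icc.2 ⟨h1, h2⟩⟩, ⟨a, ha⟩⟩ := e.apply_symm_apply _
        have hj : ev (X (Sum.inr j)) = a := by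
          rw [hevX]; show ((e j).2 : A) = a
          rw [hej]
        rw [SetLike.mem_coe, ← hj]
        refine Ideal.mem_map_of_mem _ ?_
        have := memW_X (k := k) (wt := wt) p hwt (Sum.inr j)
        rwa [show wt (some (Sum.inr j)) = M by show ((e j).1 : ℕ) = M; rw [hej]] at this
      rcases Nat.eq_zero_or_pos N with h0 | h0
      · subst h0
        intro a _
        obtain ⟨f, rfl⟩ := hsurj a
        exact Ideal.mem_map_of_mem _ (memW_zero_weight p f)
      rcases lt_or_ge N b with h | h
      · refine ((hGm N h0).trans hG.max_le).trans ((hgen b le_rfl (Nat.le_add_right _ _)).trans ?_)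
        exact Ideal.map_mono fun f hf => memW_mono p h.le hf
      rcases le_or_gt N (b + N₀) with h' | h'
      · exact hgen N h h'
      obtain ⟨M, rfl⟩ : ∃ M, N = M + b := ⟨N - b, by omega⟩
      rw [hst M (by omega)]
      refine (Ideal.mul_mono ?_ (ih M (by omega))).trans ?_ (b := (memWI p hwt b).map ev *
        (memWI p hwt M).map ev)
      · rw [Ideal.span_le]
        rintro _ ⟨l, rfl⟩
        rw [SetLike.mem_coe, show x l = ev (X (Sum.inl l)) by rw [hevX]; rfl]
        refine Ideal.mem_map_of_mem _ ?_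
        exact memW_X (k := k) (wt := wt) p hwt (Sum.inl l)
      · rw [← Ideal.map_mul, add_comm M b]
        exact Ideal.map_mono (memWI_mul_le p hwt b M)
  refine ⟨⟨Fintype.card ι, wt, ?_, fun _ => rfl, ?_, ev, hevC, fun l => hevX _,
    fun N r => ⟨fun hr => ?_, ?_⟩⟩⟩
  · rintro (_ | v)
    · exact hwt
    · exact hb.trans_le (hwb v)
  · rintro (_ | j)
    · exact hbπ
    · exact hwb (Sum.inr j)
  · obtain ⟨f, hf, rfl⟩ := (Ideal.mem_map_iff_of_surjective ev hsurj).1 (hge N hr)
    exact ⟨f, hf, rfl⟩
  · rintro ⟨f, hf, rfl⟩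
    exact hle N f hf

end CI

end Vale.Agent.P202
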