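import Vale.Agent.P202.CIAlg

/-!
M3, part 5: the forms `F` and a form `s` killing `J` modulo `(F)` which is a nonzero polynomial in
`X` modulo `J`.
-/

universe u

namespace Vale.Agent.P202

namespace CI

open MvPolynomial

attribute [local instance] MvPolynomial.weightedGradedAlgebra

variable {k : Type u} [Field k] {d n : ℕ} (wt : Vr d n → ℕ)

lemma wh_cast {w : Vr d n → ℕ} {f : MvPolynomial (Vr d n) k} {a a' : ℕ}
    (h : IsWeightedHomogeneous w f a) (e : a = a') : IsWeightedHomogeneous w f a' := e ▸ h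

theorem exists_ci (hwt : ∀ v, 0 < wt v) (b : ℕ) (hbX : ∀ l, wt (some (Sum.inl l)) = b)
    (hd : 0 < d) (J : Ideal (MvPolynomial (Vr d n) k))
    (hhom : J.IsHomogeneous (weightedHomogeneousSubmodule k wt)) (hrad : J.IsRadical)
    (hne : J ≠ ⊤)
    (htf : ∀ P ∈ supported k (Base.xSet d n), P ≠ 0 → ∀ H, P * H ∈ J → H ∈ J)
    [hfin : Module.Finite (supported k (Base.xSet d n)) (MvPolynomial (Vr d n) k ⧸ J)] :
    ∃ (N : ℕ) (F : Hv n → MvPolynomial (Vr d n) k) (D : ℕ) (s δ : MvPolynomial (Vr d n) k),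
      0 < N ∧ (∀ v, IsWeightedHomogeneous wt (F v) (N * wt (hVar v))) ∧
      (∀ v, F v - X (hVar v) ^ N ∈
        Ideal.span (Set.range fun l : Fin d => (X (some (Sum.inl l)) : MvPolynomial (Vr d n) k))) ∧
      (∀ v, F v ∈ J) ∧ IsWeightedHomogeneous wt s D ∧ δ ∈ supported k (Base.xSet d n) ∧ δ ≠ 0 ∧
      IsWeightedHomogeneous wt δ D ∧ s - δ ∈ J ∧
      ∀ H ∈ J, s * H ∈ Ideal.span (Set.range F) := by
  classical
  set S := MvPolynomial (Vr d n) k
  set R0 := supported k (Base.xSet d n)
  set π := Ideal.Quotient.mk J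
  have hb : 0 < b := hbX ⟨0, hd⟩ ▸ hwt _
  have hone : (1 : S) ∉ J := fun h => hne ((Ideal.eq_top_iff_one _).2 h)
  have hX1 : ∀ l : Fin d, X (some (Sum.inl l)) ∈ R0 :=
    fun l => Algebra.subset_adjoin ⟨_, ⟨l, rfl⟩, rfl⟩
  -- the minimal primes
  let Q : Finset (Ideal S) := (Ideal.finite_minimalPrimes_of_isNoetherianRing S J).toFinset
  have hQ : ∀ q, q ∈ Q ↔ q ∈ J.minimalPrimes := fun q => Set.Finite.mem_toFinset _
  have hQp : ∀ q ∈ Q, q.IsPrime := fun q hq => ((hQ q).1 hq).1.1
  have hQJ : ∀ q ∈ Q, J ≤ q := fun q hq => ((hQ q).1 hq).1.2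
  have hmemJ : ∀ f : S, (∀ q ∈ Q, f ∈ q) → f ∈ J := by
    intro f hf
    rw [← hrad.radical, ← Ideal.sInf_minimalPrimes, Ideal.mem_sInf]
    exact fun q hq => hf q ((hQ q).2 hq)
  have hQh : ∀ q ∈ Q, ∀ i, ∀ f ∈ q, weightedHomogeneousComponent wt i f ∈ q := by
    intro q hq
    have hcore := ((hQp q hq).homogeneousCore (𝒜 := weightedHomogeneousSubmodule k wt))
    have hJc : J ≤ (q.homogeneousCore (weightedHomogeneousSubmodule k wt)).toIdeal := by
      rw [← hhom.toIdeal_homogeneousCore_eq_self]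
      exact Ideal.homogeneousCore_mono _ (hQJ q hq)
    have hle := Ideal.toIdeal_homogeneousCore_le (weightedHomogeneousSubmodule k wt) q
    have heq := le_antisymm (((hQ q).1 hq).2 ⟨hcore, hJc⟩ hle) hle
    intro i f hf
    exact weightedHomogeneousComponent_mem_of_mem k wt
      (heq.symm ▸ (q.homogeneousCore (weightedHomogeneousSubmodule k wt)).isHomogeneous :
        q.IsHomogeneous _) hf i
  -- elements in every other prime
  have hsep : ∀ q ∈ Q, ∃ (δ : ℕ) (e : S), IsWeightedHomogeneous wt e δ ∧ e ∉ q ∧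
      ∀ q' ∈ Q, q' ≠ q → e ∈ q' := by
    intro q hq
    have hex : ∀ q' ∈ Q.erase q, ∃ (D : ℕ) (f : S),
        IsWeightedHomogeneous wt f D ∧ f ∈ q' ∧ f ∉ q := by
      intro q' hq'
      obtain ⟨hne', hq'Q⟩ := Finset.mem_erase.1 hq'
      obtain ⟨f, hf, hfq⟩ := SetLike.not_le_iff_exists.1 fun hle : q' ≤ q =>
        hne' (le_antisymm hle (((hQ q).1 hq).2 ((hQ q').1 hq'Q).1 hle))
      obtain ⟨D, hD⟩ := X_prime_mem wt (hQh q hq) hfq
      exact ⟨D, _, weightedHomogeneousComponent_isWeightedHomogeneous _ _,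
        hQh q' hq'Q D f hf, hD⟩
    choose! D f hfD hfq' hfq using hex
    refine ⟨∑ q' ∈ Q.erase q, D q', ∏ q' ∈ Q.erase q, f q',
      IsWeightedHomogeneous.prod _ _ _ hfD, ?_, fun q' hq' hne' => ?_⟩
    · intro h
      obtain ⟨q', hq', h'⟩ := ((hQp q hq).prod_mem_iff).1 h
      exact hfq q' hq' h'
    · exact Ideal.prod_mem _ (Finset.mem_erase.2 ⟨hne', hq'⟩)
        (hfq' q' (Finset.mem_erase.2 ⟨hne', hq'⟩))
  choose! eδ ee hee heeq heemem using hsep
  have hXq : ∀ q ∈ Q, ∀ P ∈ R0, P ∈ q → P = 0 := by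
    intro q hq P hP hPq
    by_contra hP0
    have h1 : P * ee q ∈ J := hmemJ _ fun q' hq' => by
      rcases eq_or_ne q' q with rfl | hne'
      · exact q'.mul_mem_right _ hPq
      · exact q'.mul_mem_left _ (heemem q hq q' hq' hne')
    exact heeq q hq (hQJ q hq (htf P hP hP0 _ h1))
  -- integral equations
  have hint0 : ∀ a : S, ∃ P : Polynomial R0, P.Monic ∧ Polynomial.aeval a P ∈ J := by
    intro a
    obtain ⟨P, hP, hPa⟩ := IsIntegral.of_finite R0 (π a)
    refine ⟨P, hP, Ideal.Quotient.eq_zero_iff_mem.1 ?_⟩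
    have := Polynomial.aeval_algHom_apply (Ideal.Quotient.mkₐ R0 J) a P
    rw [Ideal.Quotient.mkₐ_eq_mk] at this
    rw [← this]
    exact hPa
  have hg0 : ∀ v : Hv n, ∃ (m : ℕ) (a : ℕ → S), (∀ j, a j ∈ R0) ∧ a m = 1 ∧
      ∑ j ∈ Finset.range (m + 1), a j * X (hVar v) ^ j ∈ J ∧
      IsWeightedHomogeneous wt (∑ j ∈ Finset.range (m + 1), a j * X (hVar v) ^ j)
        (m * wt (hVar v)) ∧
      (∑ j ∈ Finset.range (m + 1), a j * X (hVar v) ^ j) - X (hVar v) ^ m ∈
        Ideal.span (Set.range fun l : Fin d => (X (some (Sum.inl l)) : S)) := by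
    intro v
    obtain ⟨P, hP, hPJ⟩ := hint0 (X (hVar v))
    set m := P.natDegree
    set w := wt (hVar v)
    let c : ℕ → S := fun j => (P.coeff j : S)
    let a : ℕ → S := fun j =>
      if j * w ≤ m * w then weightedHomogeneousComponent wt (m * w - j * w) (c j) else 0
    have hsum : weightedHomogeneousComponent wt (m * w) (Polynomial.aeval (X (hVar v) : S) P) =
        ∑ j ∈ Finset.range (m + 1), a j * X (hVar v) ^ j := by
      rw [Polynomial.aeval_eq_sum_range, map_sum]
      refine Finset.sum_congr rfl fun j _ => ?_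
      rw [Subalgebra.smul_def, smul_eq_mul,
        wcomp_mul wt (wh_pow wt (isWeightedHomogeneous_X k wt _) j)]
      simp only [a, c, w]
      split_ifs <;> simp
    have ham : a m = 1 := by
      simp only [a, c, le_refl, if_true, Nat.sub_self, m, hP.coeff_natDegree, OneMemClass.coe_one]
      rw [weightedHomogeneousComponent_of_mem (isWeightedHomogeneous_one k wt), if_pos rfl]
    refine ⟨m, a, fun j => ?_, ham, ?_, ?_, ?_⟩
    · simp only [a]
      split_ifs
      · exact comp_supported wt (P.coeff j).2 _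
      · exact R0.zero_mem
    · rw [← hsum]; exact weightedHomogeneousComponent_mem_of_mem k wt hhom hPJ _
    · rw [← hsum]; exact weightedHomogeneousComponent_isWeightedHomogeneous _ _
    · rw [Finset.sum_range_succ, ham, one_mul, add_sub_cancel_right]
      refine Ideal.sum_mem _ fun j hj => Ideal.mul_mem_right _ _ ?_
      have hj' := Finset.mem_range.1 hj
      rw [show (Set.range fun l : Fin d => (X (some (Sum.inl l)) : S)) =
        X '' Base.xSet d n by rw [← Set.range_comp]; rfl, mem_ideal_span_X_image]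
      intro γ hγ
      simp only [a] at hγ
      rw [if_pos (Nat.mul_le_mul_right _ hj'.le)] at hγ
      have hγw : Finsupp.weight wt γ = m * w - j * w := by
        by_contra hcon
        rw [mem_support_iff, coeff_weightedHomogeneousComponent, if_neg hcon] at hγ
        exact hγ rfl
      have hsup := mem_supported_iff.1 (comp_supported wt (P.coeff j).2 (m * w - j * w)) γ hγ
      obtain ⟨u, hu⟩ : ∃ u, γ u ≠ 0 := by
        by_contra hcon
        push Not at hcon
        rw [show γ = 0 from Finsupp.ext hcon, map_zero] at hγw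
        have h1 : (j + 1) * w ≤ m * w := Nat.mul_le_mul_right _ hj'
        have h2 := hwt (hVar v)
        rw [Nat.succ_mul] at h1
        omega
      exact ⟨u, hsup u hu, hu⟩
  choose m g ga gm gJ gh gX using hg0
  -- local generators
  let e : Fin (n + 1) ≃ Hv n := finSuccEquiv n
  have hloc : ∀ q ∈ Q, ∃ (ev : Hv n → ℕ) (α : Hv n → ℕ) (μ cc : Hv n → S),
      (∀ v, 1 ≤ ev v) ∧ (∀ v, X (hVar v) ∈ q → ev v = 1) ∧
      (∀ v, IsWeightedHomogeneous wt (μ v) (α v + ev v * wt (hVar v))) ∧
      (∀ v, IsWeightedHomogeneous wt (cc v) (α v)) ∧ (∀ v, cc v ∉ q) ∧ (∀ v, μ v ∈ q) ∧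
      ∀ f ∈ q, ∃ c, c ∉ q ∧ c * f ∈ Ideal.span (Set.range μ) := by
    intro q hq
    have := hQp q hq
    exact exists_local_gen wt e q (hQh q hq) (hXq q hq)
      fun v => ⟨m v, g v, ga v, gm v, hQJ q hq (gJ v)⟩
  choose! ev α μ cc hev1 hev hμh hch hcq hμq hgen using hloc
  -- the degree
  let M := 1 + (∑ q ∈ Q, ∑ v, (ev q v + 1 + 2 * eδ q + α q v)) + ∑ v, 2 * m v
  let N := 1 + b * M
  have hMq : ∀ q ∈ Q, ∀ v, ev q v + 1 + 2 * eδ q + α q v ≤ M := by
    intro q hq v
    have h1 := Finset.single_le_sum (f := fun v => ev q v + 1 + 2 * eδ q + α q v)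
      (fun _ _ => Nat.zero_le _) (Finset.mem_univ v)
    have h2 := Finset.single_le_sum
      (f := fun q => ∑ v, (ev q v + 1 + 2 * eδ q + α q v)) (fun _ _ => Nat.zero_le _) hq
    omega
  have hMm : ∀ v, 2 * m v ≤ N := by
    intro v
    have h1 := Finset.single_le_sum (f := fun v => 2 * m v) (fun _ _ => Nat.zero_le _)
      (Finset.mem_univ v)
    have h2 : M ≤ b * M := Nat.le_mul_of_pos_left M hb
    omega
  let L : Ideal S → Hv n → ℕ := fun q v =>
    if X (hVar v) ∈ q then M else 1 + 2 * eδ q + α q v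
  let r : Ideal S → Hv n → ℕ := fun q v => N - ev q v - b * L q v
  let t : Ideal S → Hv n → ℕ := fun q v => L q v * wt (hVar v) - (1 + 2 * eδ q + α q v)
  let x₁ : S := X (some (Sum.inl ⟨0, hd⟩))
  let u : Ideal S → Hv n → S := fun q v =>
    x₁ ^ (t q v + 1) * ee q ^ (2 * b) * cc q v ^ (b - 1) * X (hVar v) ^ r q v
  let F : Hv n → S := fun v =>
    X (hVar v) ^ (N - 2 * m v) * (∑ j ∈ Finset.range (m v + 1), g v j * X (hVar v) ^ j) ^ 2 +
      ∑ q ∈ Q, u q v * μ q v
  have hr : ∀ q ∈ Q, ∀ v, ev q v + b * L q v + r q v = N := by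
    intro q hq v
    have h1 := hMq q hq v
    have h2 : ev q v + b * L q v ≤ N := by
      simp only [L]
      split_ifs with hv
      · rw [hev q hq v hv]
      · have h3 : b * (ev q v + (1 + 2 * eδ q + α q v)) ≤ b * M :=
          Nat.mul_le_mul_left _ (by omega)
        rw [Nat.mul_add] at h3
        have h4 : ev q v ≤ b * ev q v := Nat.le_mul_of_pos_left _ hb
        omega
    simp only [r]
    omega
  have hu : ∀ q ∈ Q, ∀ v, IsWeightedHomogeneous wt (u q v * μ q v) (N * wt (hVar v)) := by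
    intro q hq v
    have h := ((((wh_pow wt (isWeightedHomogeneous_X k wt (some (Sum.inl ⟨0, hd⟩))) (t q v + 1)).mul
      (wh_pow wt (hee q hq) (2 * b))).mul (wh_pow wt (hch q hq v) (b - 1))).mul
      (wh_pow wt (isWeightedHomogeneous_X k wt (hVar v)) (r q v))).mul (hμh q hq v)
    refine wh_cast h ?_
    rw [hbX, ← hr q hq v]
    have hw := hwt (hVar v)
    have hL : 1 + 2 * eδ q + α q v ≤ L q v := by
      simp only [L]
      split_ifs
      · have := hMq q hq v; omega
      · exact le_rfl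
    have hLw : 1 + 2 * eδ q + α q v ≤ L q v * wt (hVar v) :=
      hL.trans (Nat.le_mul_of_pos_right _ hw)
    obtain ⟨T, hT⟩ : ∃ T, L q v * wt (hVar v) = T + (1 + 2 * eδ q + α q v) :=
      ⟨_, (Nat.sub_add_cancel hLw).symm⟩
    have ht : t q v = T := by simp only [t]; omega
    obtain ⟨b', rfl⟩ : ∃ b', b = b' + 1 := ⟨b - 1, by omega⟩
    rw [ht, Nat.add_sub_cancel]
    symm
    calc (ev q v + (b' + 1) * L q v + r q v) * wt (hVar v)
        = (b' + 1) * (L q v * wt (hVar v)) + (ev q v + r q v) * wt (hVar v) := by ring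
      _ = _ := by rw [hT]; ring
  have hu_notMem : ∀ q ∈ Q, ∀ v, u q v ∉ q := by
    intro q hq v h
    have hp := hQp q hq
    rcases hp.mem_or_mem h with h | h
    · rcases hp.mem_or_mem h with h | h
      · rcases hp.mem_or_mem h with h | h
        · exact X_ne_zero _ (hXq q hq _ (hX1 _) (hp.mem_of_pow_mem _ h))
        · exact heeq q hq (hp.mem_of_pow_mem _ h)
      · exact hcq q hq v (hp.mem_of_pow_mem _ h)
    · have hv := hp.mem_of_pow_mem _ h
      have : r q v = 0 := by
        simp only [r, L, if_pos hv, hev q hq v hv, N]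
        omega
      rw [this, pow_zero] at h
      exact hp.ne_top ((Ideal.eq_top_iff_one _).2 h)
  have hu_other : ∀ q ∈ Q, ∀ q' ∈ Q, q ≠ q' → ∀ v, u q v ∈ q' ^ 2 := by
    intro q hq q' hq' hne' v
    refine Ideal.mul_mem_right _ _ (Ideal.mul_mem_right _ _ (Ideal.mul_mem_left _ _ ?_))
    exact Ideal.pow_le_pow_right (by omega) (Ideal.pow_mem_pow (heemem q hq q' hq' hne'.symm) _)
  have hg2 : ∀ q ∈ Q, ∀ v, F v - u q v * μ q v ∈ q ^ 2 := by
    intro q hq v
    simp only [F]
    rw [← Finset.add_sum_erase Q _ hq,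
      show ∀ A B C : S, A + (B + C) - B = A + C from fun _ _ _ => by ring]
    refine Ideal.add_mem _ (Ideal.mul_mem_left _ _ (Ideal.pow_mem_pow (hQJ q hq (gJ v)) 2))
      (Ideal.sum_mem _ fun q' hq' => Ideal.mul_mem_right _ _ ?_)
    exact hu_other q' (Finset.mem_of_mem_erase hq') q hq (Finset.ne_of_mem_erase hq') v
  have hFJ : ∀ v, F v ∈ J := by
    refine fun v => hmemJ _ fun q hq => ?_
    have h1 : F v - u q v * μ q v ∈ q := Ideal.pow_le_self two_ne_zero (hg2 q hq v)
    simpa using q.add_mem h1 (q.mul_mem_left (u q v) (hμq q hq v))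
  have hFh : ∀ v, IsWeightedHomogeneous wt (F v) (N * wt (hVar v)) := by
    intro v
    refine IsWeightedHomogeneous.add ?_ (IsWeightedHomogeneous.sum _ _ _ fun q hq => hu q hq v)
    have h := (wh_pow wt (isWeightedHomogeneous_X k wt (hVar v)) (N - 2 * m v)).mul
      (wh_pow wt (gh v) 2)
    refine wh_cast h ?_
    rw [← mul_assoc, ← add_mul, Nat.sub_add_cancel (hMm v)]
  have hFX : ∀ v, F v - X (hVar v) ^ N ∈
      Ideal.span (Set.range fun l : Fin d => (X (some (Sum.inl l)) : S)) := by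
    intro v
    have hx : x₁ ∈ Ideal.span (Set.range fun l : Fin d => (X (some (Sum.inl l)) : S)) :=
      Ideal.subset_span ⟨_, rfl⟩
    simp only [F]
    rw [add_comm, add_sub_assoc]
    refine Ideal.add_mem _ (Ideal.sum_mem _ fun q _ => Ideal.mul_mem_right _ _
      (Ideal.mul_mem_right _ _ (Ideal.mul_mem_right _ _ (Ideal.mul_mem_right _ _ ?_)))) ?_
    · rw [pow_succ]; exact Ideal.mul_mem_left _ _ hx
    · have hsplit : X (hVar v) ^ N = X (hVar v) ^ (N - 2 * m v) * ((X (hVar v) : S) ^ m v) ^ 2 := by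
        rw [← pow_mul, ← pow_add, mul_comm (m v), Nat.sub_add_cancel (hMm v)]
      rw [hsplit, ← mul_sub, sq_sub_sq]
      exact Ideal.mul_mem_left _ _ (Ideal.mul_mem_left _ _ (gX v))
  set K := Ideal.span (Set.range F)
  -- an element outside each prime killing J modulo K
  have hkill : ∀ q ∈ Q, ∃ T, T ∉ q ∧ ∀ H ∈ J, T * H ∈ K := by
    intro q hq
    have hp := hQp q hq
    obtain ⟨gens, hgens⟩ := (IsNoetherian.noetherian q : q.FG)
    have hex : ∀ f ∈ gens, ∃ c, c ∉ q ∧ c * f ∈ Ideal.span (Set.range (μ q)) := fun f hf =>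
      hgen q hq f (hgens ▸ Submodule.subset_span hf)
    choose! c hc hcf using hex
    set C := ∏ f ∈ gens, c f
    have hC : C ∉ q := fun h => by
      obtain ⟨f, hf, h'⟩ := (hp.prod_mem_iff).1 h
      exact hc f hf h'
    have hCq : ∀ f ∈ q, C * f ∈ Ideal.span (Set.range (μ q)) := by
      intro f hf
      rw [← hgens] at hf
      induction hf using Submodule.span_induction with
      | mem f hf =>
        rw [show C = (∏ g ∈ gens.erase f, c g) * c f by rw [Finset.prod_erase_mul _ _ hf],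
          mul_assoc]
        exact Ideal.mul_mem_left _ _ (hcf f hf)
      | zero => simp
      | add f g _ _ hf hg => rw [mul_add]; exact Ideal.add_mem _ hf hg
      | smul a f _ hf =>
        rw [smul_eq_mul, mul_left_comm]; exact Ideal.mul_mem_left _ _ hf
    set U := ∏ v, u q v
    have hU : U ∉ q := fun h => by
      obtain ⟨v, -, h'⟩ := (hp.prod_mem_iff).1 h
      exact hu_notMem q hq v h'
    have hrow : ∀ v, ∃ mm : Hv n → S, (∀ w, mm w ∈ q) ∧
        C * U * μ q v - ∑ w, mm w * μ q w ∈ K := by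
      intro v
      have h1 : C * ((∏ w ∈ Finset.univ.erase v, u q w) * (F v - u q v * μ q v)) ∈
          q • Ideal.span (Set.range (μ q)) := by
        have h2 : (∏ w ∈ Finset.univ.erase v, u q w) * (F v - u q v * μ q v) ∈ q * q := by
          rw [← pow_two]; exact Ideal.mul_mem_left _ _ (hg2 q hq v)
        refine Submodule.mul_induction_on h2 (fun a ha f hf => ?_) fun a f ha hf => ?_
        · rw [mul_left_comm]; exact Submodule.smul_mem_smul ha (hCq f hf)
        · rw [mul_add]; exact Submodule.add_mem _ ha hf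
      obtain ⟨mm, hmm, hsum⟩ := Submodule.mem_ideal_smul_span_iff_exists_sum q (μ q) _ |>.1 h1
      refine ⟨fun w => -mm w, fun w => q.neg_mem (hmm w), ?_⟩
      have hUv : U = (∏ w ∈ Finset.univ.erase v, u q w) * u q v :=
        (Finset.prod_erase_mul _ _ (Finset.mem_univ v)).symm
      rw [Finsupp.sum_fintype _ _ (by simp)] at hsum
      simp only [smul_eq_mul] at hsum
      have hneg : ∑ w, -mm w * μ q w = -∑ w, mm w * μ q w := by
        rw [← Finset.sum_neg_distrib]
        exact Finset.sum_congr rfl fun w _ => by ring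
      rw [hneg, hsum, sub_neg_eq_add, hUv]
      rw [show C * ((∏ w ∈ Finset.univ.erase v, u q w) * u q v) * μ q v +
          C * ((∏ w ∈ Finset.univ.erase v, u q w) * (F v - u q v * μ q v)) =
          C * (∏ w ∈ Finset.univ.erase v, u q w) * F v by ring]
      exact Ideal.mul_mem_left _ _ (Ideal.subset_span ⟨v, rfl⟩)
    choose mm hmm hmmK using hrow
    let Mx : Matrix (Hv n) (Hv n) S := Matrix.diagonal (fun _ => C * U) - Matrix.of mm
    have hdet : ∀ v, Mx.det * μ q v ∈ K := by
      refine det_mul_mem K Mx (μ q) fun v => ?_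
      convert hmmK v using 1
      simp [Mx, sub_mul, Finset.sum_sub_distrib, Matrix.diagonal_apply]
    refine ⟨Mx.det * C, fun h => ?_, fun H hH => ?_⟩
    · rcases hp.mem_or_mem h with h | h
      · rw [← Ideal.Quotient.eq_zero_iff_mem, RingHom.map_det] at h
        have : (Ideal.Quotient.mk q).mapMatrix Mx =
            Matrix.diagonal fun _ : Hv n => Ideal.Quotient.mk q (C * U) := by
          ext v w
          simp only [Mx, RingHom.mapMatrix_apply, Matrix.map_apply, Matrix.sub_apply,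
            Matrix.of_apply, map_sub, Matrix.diagonal_apply,
            Ideal.Quotient.eq_zero_iff_mem.2 (hmm v w), sub_zero]
          split_ifs <;> simp
        rw [this, Matrix.det_diagonal, ← map_prod, Ideal.Quotient.eq_zero_iff_mem] at h
        obtain ⟨-, -, h'⟩ := (hp.prod_mem_iff).1 h
        exact (hp.mem_or_mem h').elim hC hU
      · exact hC h
    · rw [mul_assoc]
      have hH' := hCq H (hQJ q hq hH)
      obtain ⟨a, ha⟩ := Ideal.mem_span_range_iff_exists_fun.1 hH'
      rw [← ha, Finset.mul_sum]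
      refine Ideal.sum_mem _ fun v _ => ?_
      rw [mul_left_comm]
      exact Ideal.mul_mem_left _ _ (hdet v)
  let colon : Ideal S :=
    { carrier := {s | ∀ H ∈ J, s * H ∈ K}
      zero_mem' := fun H _ => by simp
      add_mem' := fun {a a'} ha ha' H hH => by rw [add_mul]; exact K.add_mem (ha H hH) (ha' H hH)
      smul_mem' := fun c a ha H hH => by
        rw [smul_eq_mul, mul_assoc]; exact K.mul_mem_left _ (ha H hH) }
  obtain ⟨a, haI, haQ⟩ : ∃ a, a ∈ colon ⊔ J ∧ ∀ q ∈ Q, a ∉ q := by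
    by_contra hcon
    push Not at hcon
    have hsub : ((colon ⊔ J : Ideal S) : Set S) ⊆ ⋃ q ∈ (Q : Set (Ideal S)), (q : Set S) := by
      intro a ha
      obtain ⟨q, hq, hqa⟩ := hcon a ha
      exact Set.mem_biUnion hq hqa
    obtain ⟨q, hq, hle⟩ := (Ideal.subset_union_prime ⊥ ⊥ (fun q hq _ _ => hQp q hq)).1 hsub
    obtain ⟨T, hT, hTH⟩ := hkill q hq
    exact hT (hle (Ideal.mem_sup_left (fun H hH => hTH H hH)))
  have hnzd : ∀ H, a * H ∈ J → H ∈ J := fun H hH => hmemJ H fun q hq =>
    ((hQp q hq).mem_or_mem (hQJ q hq hH)).resolve_left (haQ q hq)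
  have hexd : ∃ e, ∃ P : Polynomial R0, P.Monic ∧ P.natDegree = e ∧ Polynomial.aeval a P ∈ J := by
    obtain ⟨P, hP, hPa⟩ := hint0 a
    exact ⟨_, P, hP, rfl, hPa⟩
  obtain ⟨P, hP, hPd, hPa⟩ := Nat.find_spec hexd
  have hc0 : (P.coeff 0 : S) ≠ 0 := by
    intro h0
    have hP0 : P.coeff 0 = 0 := Subtype.ext h0
    have hX : Polynomial.X * P.divX = P := by
      conv_rhs => rw [← Polynomial.X_mul_divX_add P, hP0, map_zero, add_zero]
    have hmon : (Polynomial.X * P.divX).Monic := hX.symm ▸ hP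
    have hmon' : P.divX.Monic := Polynomial.monic_X.of_mul_monic_left hmon
    rw [← hX, map_mul, Polynomial.aeval_X] at hPa
    have hmem := hnzd _ hPa
    have hdeg : 0 < P.natDegree := by
      rcases Nat.eq_zero_or_pos P.natDegree with h | h
      · rw [hP.natDegree_eq_zero.1 h] at hP0
        simp at hP0
      · exact h
    exact Nat.find_min hexd (show P.divX.natDegree < Nat.find hexd by
      rw [← hPd, Polynomial.natDegree_divX_eq_natDegree_tsub_one]; omega)
      ⟨P.divX, hmon', rfl, hmem⟩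
  have hc0I : (P.coeff 0 : S) ∈ colon ⊔ J := by
    conv at hPa => rw [← Polynomial.X_mul_divX_add P, map_add, map_mul, Polynomial.aeval_X,
      Polynomial.aeval_C]
    have h1 : a * Polynomial.aeval a P.divX ∈ colon ⊔ J := Ideal.mul_mem_right _ _ haI
    have h2 := (colon ⊔ J).sub_mem (Ideal.mem_sup_right hPa) h1
    rw [add_sub_cancel_left] at h2
    exact h2
  obtain ⟨s₀, hs₀, j₀, hj₀, hsj⟩ := Submodule.mem_sup.1 hc0I
  obtain ⟨D, hD⟩ : ∃ D, weightedHomogeneousComponent wt D (P.coeff 0 : S) ≠ 0 := by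
    by_contra hcon
    push Not at hcon
    refine hc0 ?_
    rw [← sum_weightedHomogeneousComponent wt (P.coeff 0 : S)]
    simp [hcon]
  refine ⟨N, F, D, weightedHomogeneousComponent wt D s₀,
    weightedHomogeneousComponent wt D (P.coeff 0 : S), by omega, hFh, hFX, hFJ,
    weightedHomogeneousComponent_isWeightedHomogeneous _ _, comp_supported wt (P.coeff 0).2 _, hD,
    weightedHomogeneousComponent_isWeightedHomogeneous _ _, ?_, ?_⟩
  · rw [← hsj, map_add, sub_add_cancel_left]
    exact J.neg_mem (weightedHomogeneousComponent_mem_of_mem k wt hhom hj₀ D)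
  · have hKh : K.IsHomogeneous (weightedHomogeneousSubmodule k wt) := by
      refine Ideal.homogeneous_span _ _ ?_
      rintro _ ⟨v, rfl⟩
      exact ⟨_, hFh v⟩
    have hhomH : ∀ (E : ℕ) (H : S), IsWeightedHomogeneous wt H E → H ∈ J →
        weightedHomogeneousComponent wt D s₀ * H ∈ K := by
      intro E H hE hH
      have h := weightedHomogeneousComponent_mem_of_mem k wt hKh (hs₀ H hH) (D + E)
      rwa [wcomp_mul wt hE, if_pos (Nat.le_add_left _ _), Nat.add_sub_cancel] at h
    intro H hH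
    rw [← sum_weightedHomogeneousComponent wt H]
    exact finsum_induction (fun g => weightedHomogeneousComponent wt D s₀ * g ∈ K)
      (by simp) (fun a a' ha ha' => by rw [mul_add]; exact K.add_mem ha ha') fun E =>
      hhomH E _ (weightedHomogeneousComponent_isWeightedHomogeneous _ _)
        (weightedHomogeneousComponent_mem_of_mem k wt hhom hH E)

end CI

end Vale.Agent.P202
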