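import Vale.Agent.P202.CIExist

/-!
M3, part 6: lifting of the forms to series and the theorem `goalCI`.
-/

universe u

namespace Vale.Agent.P202

namespace CI

open IsLocalRing MvPolynomial

attribute [local instance] MvPolynomial.weightedGradedAlgebra

variable {p : ℕ} [Fact p.Prime] {k : Type u} [Field k] [CharP k p] [PerfectRing k p] {d n : ℕ}
  {wt : Vr d n → ℕ}

lemma sub_pow_mem {R : Type*} [CommRing R] (I : Ideal R) (a b : R) (h : a - b ∈ I) (m : ℕ) :
    a ^ m - b ^ m ∈ I :=
  (sub_dvd_pow_sub_pow a b m).elim fun c hc => hc ▸ I.mul_mem_right _ h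

lemma memW_cofinal (hwt : ∀ v, 0 < wt v) (t : ℕ) :
    ∃ M, ∀ f : Pw p k d n, MemW p wt M f →
      f ∈ (maximalIdeal (Pw p k d n)) ^ t := by
  classical
  let S := (Finsupp.finite_of_degree_lt (σ := Fin d ⊕ Fin n) t).toFinset
  refine ⟨t * wt none + (S.sup fun γ => sWt wt γ) + 1, fun f hf => ?_⟩
  have hm : ∀ v, (MvPowerSeries.X v : Pw p k d n) ∈ maximalIdeal (Pw p k d n) := fun v => by
    simp [mem_maximalIdeal, MvPowerSeries.isUnit_iff_constantCoeff]
  have hp : (MvPowerSeries.C (p : WittVector p k) : Pw p k d n) ∈ maximalIdeal (Pw p k d n) := by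
    rw [mem_maximalIdeal, mem_nonunits_iff, MvPowerSeries.isUnit_iff_constantCoeff,
      MvPowerSeries.constantCoeff_C]
    exact (WittVector.irreducible p).not_isUnit
  let g : Pw p k d n := ∑ γ ∈ S, MvPowerSeries.monomial γ (MvPowerSeries.coeff γ f)
  have htail : f - g ∈ Ideal.span (Set.range (MvPowerSeries.X : _ → Pw p k d n)) ^ t := by
    rw [mem_span_X_pow_iff]
    intro γ hγ
    have : γ ∈ S := by simpa [S] using hγ
    simp [g, MvPowerSeries.coeff_monomial, this]
  have hX : Ideal.span (Set.range (MvPowerSeries.X : _ → Pw p k d n)) ≤ maximalIdeal _ := by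
    rw [Ideal.span_le]; rintro _ ⟨v, rfl⟩; exact hm v
  rw [← sub_add_cancel f g]
  refine Ideal.add_mem _ (Ideal.pow_right_mono hX t htail) (Ideal.sum_mem _ fun γ hγ => ?_)
  obtain ⟨i, hi, a, ha⟩ := hf γ
  have hti : t ≤ i := by
    by_contra hcon
    have h1 : i * wt none ≤ t * wt none := Nat.mul_le_mul_right _ (by omega)
    have h2 := Finset.le_sup (f := fun γ => sWt wt γ) hγ
    have h3 : t * wt none + (S.sup fun γ => sWt wt γ) + 1 ≤ i * wt none + sWt wt γ := hi
    omega
  have : MvPowerSeries.monomial γ ((p : WittVector p k) ^ i * a) =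
      (MvPowerSeries.C (p : WittVector p k) : Pw p k d n) ^ i * MvPowerSeries.monomial γ a := by
    rw [← map_pow, ← MvPowerSeries.monomial_zero_eq_C_apply, MvPowerSeries.monomial_mul_monomial,
      zero_add]
  rw [ha, this]
  exact Ideal.mul_mem_right _ _ (Ideal.pow_le_pow_right hti (Ideal.pow_mem_pow hp i))

/-- An element killing the diagonal part of a matrix up to higher weight. -/
lemma det_cong (hwt : 0 < wt none) {l : ℕ} (σ : ℕ) (nn : Fin l → ℕ) (s : Pw p k d n)
    (hs : MemW p wt σ s) (C : Matrix (Fin l) (Fin l) (Pw p k d n))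
    (hC : ∀ i j, MemW p wt (σ + nn i + 1 - nn j) (C i j)) :
    Cong p wt (l * σ) (Matrix.diagonal (fun _ => s) - C).det (s ^ l) := by
  classical
  rw [cong_iff p hwt]
  set M := Matrix.diagonal (fun _ => s) - C
  let e : Fin l → Fin l → ℕ := fun i j => if i = j then σ else σ + nn i + 1 - nn j
  have hM : ∀ i j, M i j ∈ memWI p hwt (e i j) := by
    intro i j
    simp only [M, e, Matrix.sub_apply, Matrix.diagonal_apply]
    split_ifs with h
    · subst h
      refine Ideal.sub_mem _ hs (memW_mono p ?_ (hC i i))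
      omega
    · rw [zero_sub, neg_mem_iff]; exact hC i j
  have hterm : ∀ π : Equiv.Perm (Fin l), π ≠ 1 →
      ∏ i, M (π i) i ∈ memWI p hwt (l * σ + 1) := by
    intro π hπ
    have hprod : ∏ i, M (π i) i ∈ memWI p hwt (∑ i, e (π i) i) := by
      induction (Finset.univ : Finset (Fin l)) using Finset.induction_on with
      | empty => simp [memW_zero_weight]
      | insert a T ha ih =>
        rw [Finset.prod_insert ha, Finset.sum_insert ha]
        exact memW_mul p hwt (hM _ _) ih
    refine memW_mono p ?_ hprod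
    obtain ⟨i₀, hi₀⟩ : ∃ i, π i ≠ i := by
      by_contra hcon
      push Not at hcon
      exact hπ (Equiv.ext hcon)
    have hlt : ∑ i, (σ + nn (π i)) < ∑ i, (e (π i) i + nn i) := by
      refine Finset.sum_lt_sum (fun i _ => ?_) ⟨i₀, Finset.mem_univ _, ?_⟩
      · simp only [e]; split_ifs with h
        · rw [h]
        · omega
      · simp only [e, if_neg hi₀]; omega
    simp only [Finset.sum_add_distrib, Finset.sum_const, Finset.card_univ, Fintype.card_fin,
      smul_eq_mul] at hlt
    rw [Equiv.sum_comp π nn] at hlt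
    omega
  have hid : ∏ i, M i i - s ^ l ∈ memWI p hwt (l * σ + 1) := by
    suffices ∀ T : Finset (Fin l), ∏ i ∈ T, M i i - s ^ T.card ∈ memWI p hwt (T.card * σ + 1) by
      simpa using this Finset.univ
    intro T
    induction T using Finset.induction_on with
    | empty => simp [(memWI p hwt 1).zero_mem]
    | insert a T ha ih =>
      rw [Finset.prod_insert ha, Finset.card_insert_of_notMem ha, pow_succ']
      rw [show M a a * ∏ i ∈ T, M i i - s * s ^ T.card =
        M a a * (∏ i ∈ T, M i i - s ^ T.card) + (M a a - s) * s ^ T.card by ring]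
      refine Ideal.add_mem _ (memW_mono p ?_ (memW_mul p hwt (hM a a) ih)) ?_
      · simp only [e, if_true]; rw [Nat.succ_mul]; omega
      · have h1 : M a a - s ∈ memWI p hwt (σ + 1) := by
          simp only [M, Matrix.sub_apply, Matrix.diagonal_apply_eq, sub_sub_cancel_left,
            neg_mem_iff]
          exact memW_mono p (by omega) (hC a a)
        have h2 : s ^ T.card ∈ memWI p hwt (T.card * σ) := by
          generalize T.card = m
          induction m with
          | zero => simp [memW_zero_weight]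
          | succ m ih => rw [pow_succ, Nat.succ_mul]; exact memW_mul p hwt ih hs
        refine memW_mono p ?_ (memW_mul p hwt h1 h2)
        rw [Nat.succ_mul]; omega
  rw [Matrix.det_apply, ← Finset.add_sum_erase _ _ (Finset.mem_univ (1 : Equiv.Perm (Fin l))),
    Equiv.Perm.sign_one, one_smul, add_sub_right_comm]
  refine Ideal.add_mem _ ?_ (Ideal.sum_mem _ fun π hπ => ?_)
  · simpa using hid
  · rw [Units.smul_def]
    exact zsmul_mem (hterm π (Finset.ne_of_mem_erase hπ)) _

omit [CharP k p] [PerfectRing k p] in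
lemma inX_mem_range {δ : MvPolynomial (Vr d n) k} (h : δ ∈ supported k (Base.xSet d n)) :
    ∃ δ₀ : MvPolynomial (Fin d) k, inX δ₀ = δ := by
  have he : supported k (Base.xSet d n) =
      (rename (fun l : Fin d => (some (Sum.inl l) : Vr d n))).range := by
    refine le_antisymm (Algebra.adjoin_le ?_) ?_
    · rintro _ ⟨_, ⟨l, rfl⟩, rfl⟩
      exact ⟨X l, rename_X _ _⟩
    · rintro _ ⟨f, rfl⟩
      induction f using MvPolynomial.induction_on with
      | C a =>
        show rename (fun l : Fin d => (some (Sum.inl l) : Vr d n)) (C a) ∈ _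
        rw [rename_C]
        exact (supported k _).algebraMap_mem a
      | add f g hf hg => rw [map_add]; exact Subalgebra.add_mem _ hf hg
      | mul_X f l hf =>
        rw [map_mul]
        exact Subalgebra.mul_mem _ hf (Algebra.subset_adjoin ⟨_, ⟨l, rfl⟩, by simp⟩)
  rw [he] at h
  exact h

end CI

open IsLocalRing MvPolynomial CI in
attribute [local instance] MvPolynomial.weightedGradedAlgebra in
theorem goalCI : GoalCI.{u} := by
  intro p _ k _ _ _ _ A _ _ _ _ _ hres hp hp0 d hd x b G hx hG
  classical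
  obtain ⟨B⟩ := exists_base p k A hres hp hp0 d x b G hx hG
  set J := B.J hG
  have hfin := B.quot_finite hG
  obtain ⟨N, F, D, s, δ, hN, hFh, hFX, hFJ, hs, hδR, hδ0, hδh, hsδ, hsJ⟩ :=
    exists_ci B.wt B.wt_pos b B.wt_X hd J (B.J_homogeneous hG) (B.J_radical hG)
      (B.J_ne_top hG) fun P hP hP0 H h => B.J_tfree hG hP hP0 h
  obtain ⟨δ₀, hδ₀⟩ := inX_mem_range hδR
  choose f hf0 hfinit using fun v => (B.exists_ker_iff hG (hFh v)).1 (hFJ v)
  -- homogeneous generators of `J`
  obtain ⟨gens, hgens⟩ := (IsNoetherian.noetherian J : J.FG)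
  let ι := Σ F : gens, ↥(F.1.support.image (Finsupp.weight B.wt))
  let eq : Fin (Fintype.card ι) ≃ ι := (Fintype.equivFin ι).symm
  set l := Fintype.card ι
  let nn : Fin l → ℕ := fun i => (eq i).2.1
  let H : Fin l → MvPolynomial (Vr d B.n) k := fun i =>
    weightedHomogeneousComponent B.wt (nn i) (eq i).1.1
  have hHh : ∀ i, IsWeightedHomogeneous B.wt (H i) (nn i) := fun i => B.comp_isWH _ _
  have hgmem : ∀ F ∈ gens, F ∈ J := fun F hF => by
    rw [← hgens]; exact Submodule.subset_span hF
  have hHJ : ∀ i, H i ∈ J := fun i => weightedHomogeneousComponent_mem_of_mem k B.wt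
    (B.J_homogeneous hG) (hgmem _ (eq i).1.2) _
  have hJspan : J ≤ Ideal.span (Set.range H) := by
    conv_lhs => rw [← hgens]
    rw [Submodule.span_le]
    intro F hF
    rw [SetLike.mem_coe, ← sum_weightedHomogeneousComponent B.wt F]
    refine finsum_induction (fun g => g ∈ Ideal.span (Set.range H)) (Submodule.zero_mem _)
      (fun _ _ => Submodule.add_mem _) fun E => ?_
    by_cases hE : E ∈ F.support.image (Finsupp.weight B.wt)
    · refine Ideal.subset_span ⟨eq.symm ⟨⟨F, hF⟩, ⟨E, hE⟩⟩, ?_⟩
      show weightedHomogeneousComponent B.wt (eq (eq.symm _)).2.1 (eq (eq.symm _)).1.1 = _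
      rw [eq.apply_symm_apply]
    · rw [weightedHomogeneousComponent_eq_zero' E F fun γ hγ he =>
        hE (Finset.mem_image.2 ⟨γ, hγ, he⟩)]
      exact Submodule.zero_mem _
  choose h hh0 hhinit using fun i => (B.exists_ker_iff hG (hHh i)).1 (hHJ i)
  -- division by the lifts, with weights
  let K : ℕ → Ideal (Pw p k d B.n) := fun M =>
    ⨆ i, Ideal.span {h i} * memWI p B.hwt (M - nn i)
  have hKmono : ∀ M M', M ≤ M' → K M' ≤ K M := fun M M' hle =>
    iSup_mono fun i => Ideal.mul_mono le_rfl fun g hg => memW_mono p (by omega) hg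
  have hdiv : ∀ M g, MemW p B.wt M g → B.ev g = 0 → g ∈ K M := by
    have hstep : ∀ M g, MemW p B.wt M g → B.ev g = 0 →
        ∃ q ∈ K M, MemW p B.wt (M + 1) (g - q) ∧ B.ev (g - q) = 0 := by
      intro M g hg h0
      obtain ⟨P, hP, hgP⟩ := exists_init p B.wt_pos hg
      have hPJ : P ∈ J := (B.exists_ker_iff hG hP).2 ⟨g, h0, hP, hgP⟩
      obtain ⟨a, ha⟩ := Ideal.mem_span_range_iff_exists_fun.1 (hJspan hPJ)
      let a' : Fin l → MvPolynomial (Vr d B.n) k := fun i =>
        if nn i ≤ M then weightedHomogeneousComponent B.wt (M - nn i) (a i) else 0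
      have haP : ∑ i, a' i * H i = P := by
        conv_rhs => rw [← hP.weightedHomogeneousComponent_same, ← ha, map_sum]
        refine Finset.sum_congr rfl fun i _ => ?_
        rw [wcomp_mul B.wt (hHh i)]
        simp only [a']
        split_ifs <;> simp
      have ha'h : ∀ i, IsWeightedHomogeneous B.wt (a' i) (M - nn i) := fun i => by
        simp only [a']
        split_ifs
        · exact B.comp_isWH _ _
        · exact isWeightedHomogeneous_zero _ _ _
      have hterm : ∀ i, IsWeightedHomogeneous B.wt (a' i * H i) M := fun i => by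
        by_cases hle : nn i ≤ M
        · exact wh_cast ((ha'h i).mul (hHh i)) (Nat.sub_add_cancel hle)
        · simp only [a', if_neg hle, zero_mul]
          exact isWeightedHomogeneous_zero _ _ _
      refine ⟨∑ i, liftPi p (a' i) * h i, Ideal.sum_mem _ fun i _ => ?_, ?_, ?_⟩
      · rw [mul_comm]
        exact Submodule.mem_iSup_of_mem i
          (Ideal.mul_mem_mul (Ideal.mem_span_singleton_self _) (memW_liftPi p B.hwt (ha'h i)))
      · rw [← mem_memWI p (hwt := B.hwt)] at hgP ⊢
        have h1 := liftPi_sum p B.hwt Finset.univ (fun i => a' i * H i) fun i _ => hterm i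
        rw [haP, cong_iff p B.hwt] at h1
        have h2 : ∀ i, liftPi p (a' i * H i) - liftPi p (a' i) * h i ∈
            memWI p B.hwt (M + 1) := by
          intro i
          by_cases hle : nn i ≤ M
          · have h3 := liftPi_mul p B.hwt (ha'h i) (hHh i)
            rw [Nat.sub_add_cancel hle, cong_iff p B.hwt] at h3
            have h4 : liftPi p (a' i) * (liftPi p (H i) - h i) ∈ memWI p B.hwt (M + 1) := by
              have h6 : liftPi p (H i) - h i ∈ memWI (k := k) p B.hwt (nn i + 1) := by
                rw [← neg_sub]; exact neg_mem (hhinit i).2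
              have h5 := memW_mul p B.hwt (memW_liftPi p B.hwt (ha'h i)) h6
              rw [show M - nn i + (nn i + 1) = M + 1 by omega] at h5
              exact h5
            convert Ideal.add_mem _ h3 h4 using 1
            ring
          · simp only [a', if_neg hle, zero_mul, liftPi_zero, sub_zero]
            exact Submodule.zero_mem _
        convert Ideal.add_mem _ (Ideal.add_mem _ hgP h1)
          (Ideal.sum_mem _ fun i (_ : i ∈ Finset.univ) => h2 i) using 1
        rw [Finset.sum_sub_distrib]
        ring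
      · simp [map_sub, map_sum, h0, hh0]
    intro M g hg h0
    by_cases htop : K M = ⊤
    · rw [htop]; exact Submodule.mem_top
    have happrox : ∀ j, ∃ r, g - r ∈ K M ∧ MemW p B.wt (M + j) r ∧ B.ev r = 0 := by
      intro j
      induction j with
      | zero => exact ⟨g, by simp, by simpa using hg, h0⟩
      | succ j ih =>
        obtain ⟨r, hr, hrw, hr0⟩ := ih
        obtain ⟨q, hq, hqw, hq0⟩ := hstep (M + j) r hrw hr0
        refine ⟨r - q, ?_, hqw, hq0⟩
        rw [show g - (r - q) = (g - r) + q by ring]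
        exact Ideal.add_mem _ hr (hKmono M _ (Nat.le_add_right _ _) hq)
    have : Nontrivial (Pw p k d B.n ⧸ K M) := Ideal.Quotient.nontrivial_iff.2 htop
    have : IsLocalRing (Pw p k d B.n ⧸ K M) :=
      IsLocalRing.of_surjective' (Ideal.Quotient.mk (K M)) Ideal.Quotient.mk_surjective
    rw [← Ideal.Quotient.eq_zero_iff_mem, ← Ideal.mem_bot,
      ← Ideal.iInf_pow_eq_bot_of_isLocalRing ((maximalIdeal (Pw p k d B.n)).map
        (Ideal.Quotient.mk (K M))) ?_, Ideal.mem_iInf]
    · intro t
      obtain ⟨M', hM'⟩ := memW_cofinal (p := p) (k := k) B.wt_pos t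
      obtain ⟨r, hr, hrw, -⟩ := happrox M'
      rw [Ideal.Quotient.mk_eq_mk_iff_sub_mem g r |>.2 hr, ← Ideal.map_pow]
      exact Ideal.mem_map_of_mem _ (hM' r (memW_mono p (Nat.le_add_left _ _) hrw))
    · intro h1
      have h2 := Ideal.comap_map_of_surjective (Ideal.Quotient.mk (K M))
        Ideal.Quotient.mk_surjective (maximalIdeal (Pw p k d B.n))
      rw [h1, Ideal.comap_top, ← RingHom.ker_eq_comap_bot, Ideal.mk_ker,
        sup_eq_left.2 (le_maximalIdeal htop)] at h2
      exact (maximalIdeal.isMaximal _).ne_top h2.symm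
  -- the matrix
  have hKmem : ∀ M g, g ∈ K M → ∃ c : Fin l → Pw p k d B.n,
      (∀ i, MemW p B.wt (M - nn i) (c i)) ∧ ∑ i, c i * h i = g := by
    intro M g hg
    refine Submodule.iSup_induction _ (motive := fun g => ∃ c : Fin l → Pw p k d B.n,
      (∀ i, MemW p B.wt (M - nn i) (c i)) ∧ ∑ i, c i * h i = g) hg (fun i z hz => ?_)
      ⟨0, fun i => (memWI p B.hwt _).zero_mem, by simp⟩ ?_
    · obtain ⟨c, hc, rfl⟩ := Ideal.mem_span_singleton_mul.1 hz
      refine ⟨Pi.single i c, fun j => ?_, ?_⟩
      · by_cases hji : j = i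
        · subst hji; rw [Pi.single_eq_same]; exact hc
        · rw [Pi.single_eq_of_ne hji]; exact (memWI p B.hwt _).zero_mem
      · rw [Finset.sum_eq_single i (fun j _ hji => by rw [Pi.single_eq_of_ne hji, zero_mul])
          (fun hi => absurd (Finset.mem_univ i) hi), Pi.single_eq_same, mul_comm]
    · rintro a a' ⟨c, hc, rfl⟩ ⟨c', hc', rfl⟩
      exact ⟨c + c', fun i => (memWI p B.hwt _).add_mem (hc i) (hc' i), by
        simp [add_mul, Finset.sum_add_distrib]⟩
  set sL := liftPi p s with hsL
  have hsLw : MemW p B.wt D sL := memW_liftPi p B.hwt hs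
  have hrow : ∀ i, ∃ c : Fin l → Pw p k d B.n,
      (∀ j, MemW p B.wt (D + nn i + 1 - nn j) (c j)) ∧
      sL * h i - ∑ j, c j * h j ∈ Ideal.span (Set.range f) := by
    intro i
    obtain ⟨a, ha⟩ := Ideal.mem_span_range_iff_exists_fun.1 (hsJ _ (hHJ i))
    let E := D + nn i
    let w : Hv B.n → ℕ := fun v => N * B.wt (hVar v)
    let a' : Hv B.n → MvPolynomial (Vr d B.n) k := fun v =>
      if w v ≤ E then weightedHomogeneousComponent B.wt (E - w v) (a v) else 0
    have ha'h : ∀ v, IsWeightedHomogeneous B.wt (a' v) (E - w v) := fun v => by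
      simp only [a']
      split_ifs
      · exact B.comp_isWH _ _
      · exact isWeightedHomogeneous_zero _ _ _
    have hterm : ∀ v, IsWeightedHomogeneous B.wt (a' v * F v) E := fun v => by
      by_cases hle : w v ≤ E
      · exact wh_cast ((ha'h v).mul (hFh v)) (Nat.sub_add_cancel hle)
      · simp only [a', if_neg hle, zero_mul]
        exact isWeightedHomogeneous_zero _ _ _
    have hsum : ∑ v, a' v * F v = s * H i := by
      conv_rhs => rw [← (hs.mul (hHh i)).weightedHomogeneousComponent_same, ← ha, map_sum]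
      refine Finset.sum_congr rfl fun v _ => ?_
      rw [wcomp_mul B.wt (hFh v)]
      simp only [a', w, E]
      split_ifs <;> simp
    set z := sL * h i - ∑ v, liftPi p (a' v) * f v
    have hz : MemW p B.wt (E + 1) z := by
      rw [← mem_memWI p (hwt := B.hwt)]
      have h1 := liftPi_sum p B.hwt Finset.univ (fun v => a' v * F v) fun v _ => hterm v
      rw [hsum, cong_iff p B.hwt] at h1
      have h2 := liftPi_mul p B.hwt hs (hHh i)
      rw [cong_iff p B.hwt] at h2
      have h3 : sL * (h i - liftPi p (H i)) ∈ memWI p B.hwt (E + 1) := by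
        have := memW_mul p B.hwt hsLw (hhinit i).2
        rwa [← add_assoc] at this
      have h4 : ∀ v, liftPi p (a' v * F v) - liftPi p (a' v) * f v ∈
          memWI p B.hwt (E + 1) := by
        intro v
        by_cases hle : w v ≤ E
        · have h5 := liftPi_mul p B.hwt (ha'h v) (hFh v)
          rw [Nat.sub_add_cancel hle, cong_iff p B.hwt] at h5
          have h7 : liftPi p (F v) - f v ∈ memWI (k := k) p B.hwt (w v + 1) := by
            rw [← neg_sub]; exact neg_mem (hfinit v).2
          have h6 := memW_mul p B.hwt (memW_liftPi p B.hwt (ha'h v)) h7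
          rw [show E - w v + (w v + 1) = E + 1 by omega] at h6
          convert Ideal.add_mem _ h5 h6 using 1
          ring
        · simp only [a', if_neg hle, zero_mul, liftPi_zero, sub_zero]
          exact Submodule.zero_mem _
      convert Ideal.add_mem _ h3 (Ideal.add_mem _ ((memWI p B.hwt (E + 1)).sub_mem h1 h2)
        (Ideal.sum_mem _ fun v (_ : v ∈ Finset.univ) => h4 v)) using 1
      rw [Finset.sum_sub_distrib]
      ring
    have hz0 : B.ev z = 0 := by simp [z, map_sub, map_sum, hh0, hf0]
    obtain ⟨c, hc, hcz⟩ := hKmem _ _ (hdiv _ z hz hz0)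
    refine ⟨c, hc, ?_⟩
    rw [hcz]
    simp only [z, sub_sub_cancel]
    exact Ideal.sum_mem _ fun v _ => Ideal.mul_mem_left _ _ (Ideal.subset_span ⟨v, rfl⟩)
  choose C hC hCf using hrow
  set Mx : Matrix (Fin l) (Fin l) (Pw p k d B.n) := Matrix.diagonal (fun _ => sL) - Matrix.of C
  set u := Mx.det
  have huh : ∀ i, u * h i ∈ Ideal.span (Set.range f) := by
    refine det_mul_mem _ Mx h fun i => ?_
    convert hCf i using 1
    simp [Mx, sub_mul, Finset.sum_sub_distrib, Matrix.diagonal_apply]
  have hucong := det_cong (p := p) B.hwt D nn sL hsLw (Matrix.of C) hC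
  have hU : IsWeightedHomogeneous B.wt (s ^ l) (l * D) := wh_pow B.wt hs l
  have hu : HasInit p B.wt (l * D) u (s ^ l) := by
    refine ⟨hU, ?_⟩
    have h1 := liftPi_pow p B.hwt hs l
    rw [cong_iff p B.hwt] at h1 hucong
    have := Ideal.sub_mem _ hucong h1
    rwa [sub_sub_sub_cancel_right] at this
  have hδl : IsWeightedHomogeneous B.wt (δ ^ l) (l * D) := wh_pow B.wt hδh l
  have hdiff : δ ^ l - s ^ l ∈ J := by
    refine sub_pow_mem J δ s ?_ l
    rw [← neg_sub]; exact J.neg_mem hsδ
  obtain ⟨w, hw0, hwinit⟩ := (B.exists_ker_iff hG (hδl.sub hU)).1 hdiff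
  refine ⟨{ n := B.n, wt := B.wt, wt_pos := B.wt_pos, wt_X := B.wt_X, wt_H := B.wt_H
            ev := B.ev, ev_C := B.ev_C, ev_X := B.ev_X, strict := B.strict
            deg := fun _ => N, deg_pos := fun _ => hN
            F := F, F_monic := hFX, f := f, f_ker := hf0
            f_init := hfinit
            c := l * D, U₀ := s ^ l, δ₀ := δ₀ ^ l, δ₀_ne := ?_
            u := u, δ := u + w, u_init := hu, δ_init := ?_
            δ_sub_u := by simp [hw0]
            u_ann := ?_, U₀_ann := ?_ }⟩
  · refine pow_ne_zero _ fun h => hδ0 ?_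
    rw [← hδ₀, h]; simp [inX]
  · have he : inX (n := B.n) (δ₀ ^ l) = δ ^ l := by
      rw [← hδ₀]; simp [inX]
    rw [he]
    refine ⟨hδl, ?_⟩
    have h1 := liftPi_add p B.hwt hU (hδl.sub hU)
    rw [add_sub_cancel, cong_iff p B.hwt] at h1
    rw [← mem_memWI p (hwt := B.hwt)]
    convert Ideal.sub_mem _ (Ideal.add_mem _ hu.2 hwinit.2) h1 using 1
    ring
  · intro g hg
    obtain ⟨c, -, rfl⟩ := hKmem _ _ (hdiv 0 g (memW_zero_weight p g) hg)
    rw [Finset.mul_sum]
    refine Ideal.sum_mem _ fun i _ => ?_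
    rw [mul_left_comm]
    exact Ideal.mul_mem_left _ _ (huh i)
  · intro M H' hH' hex
    have hJ : H' ∈ J := (B.exists_ker_iff hG hH').2 hex
    rcases Nat.eq_zero_or_pos l with h0 | h0
    · have : J = ⊥ := by
        refine eq_bot_iff.2 (hJspan.trans ?_)
        rw [Ideal.span_le]
        rintro _ ⟨i, rfl⟩
        exact absurd i.2 (by omega)
      rw [this, Ideal.mem_bot] at hJ
      rw [hJ, mul_zero]; exact Submodule.zero_mem _
    · rw [← Nat.sub_add_cancel h0, pow_succ, mul_assoc]
      exact Ideal.mul_mem_left _ _ (hsJ _ hJ)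

end Vale.Agent.P202
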