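import Vale.Agent.P202.CIEval

/-!
M3, part 3: the ideal `J` of initial forms of the kernel, and the properties of the graded ring
`k[Y, X, Z] / J`.
-/

universe u

namespace Vale.Agent.P202

namespace CI

open IsLocalRing

attribute [local instance] MvPolynomial.weightedGradedAlgebra

open MvPolynomial in
/-- The component of a product with a homogeneous right factor. -/
lemma wcomp_mul {R : Type*} [CommRing R] {σ : Type*} (w : σ → ℕ) {a h : MvPolynomial σ R} {t : ℕ}
    (hh : IsWeightedHomogeneous w h t) (D : ℕ) :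
    weightedHomogeneousComponent w D (a * h) =
      if t ≤ D then weightedHomogeneousComponent w (D - t) a * h else 0 := by
  classical
  induction a using MvPolynomial.induction_on' with
  | monomial γ c =>
    have hm := isWeightedHomogeneous_monomial w γ c rfl
    rw [weightedHomogeneousComponent_of_mem (hm.mul hh)]
    split_ifs with h1 h2 h2
    · rw [weightedHomogeneousComponent_of_mem hm, if_pos (by omega)]
    · omega
    · rw [weightedHomogeneousComponent_of_mem hm, if_neg (by omega), zero_mul]
    · rfl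
  | add a a' iha iha' =>
    rw [add_mul, map_add, iha, iha']
    split_ifs
    · rw [map_add, add_mul]
    · rw [add_zero]

open MvPolynomial in
/-- The highest nonzero component. -/
lemma exists_top {R : Type*} [CommRing R] {σ : Type*} (w : σ → ℕ) {H : MvPolynomial σ R}
    (I : Ideal (MvPolynomial σ R)) (hI : I.IsHomogeneous (weightedHomogeneousSubmodule R w))
    (hH : H ∉ I) : ∃ m, weightedHomogeneousComponent w m H ∉ I ∧
      ∀ m', m < m' → weightedHomogeneousComponent w m' H ∈ I := by
  classical
  let S := (H.support.image (Finsupp.weight w)).filter fun m =>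
    weightedHomogeneousComponent w m H ∉ I
  have hS : S.Nonempty := by
    by_contra hcon
    rw [Finset.not_nonempty_iff_eq_empty, Finset.filter_eq_empty_iff] at hcon
    refine hH ((mem_iff_weightedHomogeneousComponent_mem R w hI H).2 fun m => ?_)
    by_cases hm : m ∈ H.support.image (Finsupp.weight w)
    · exact not_not.1 (hcon hm)
    · rw [weightedHomogeneousComponent_eq_zero' m H fun γ hγ he =>
        hm (Finset.mem_image.2 ⟨γ, hγ, he⟩)]
      exact I.zero_mem
  refine ⟨S.max' hS, (Finset.mem_filter.1 (S.max'_mem hS)).2, fun m' hm' => ?_⟩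
  by_contra hcon
  have hmem : m' ∈ S := by
    refine Finset.mem_filter.2 ⟨?_, hcon⟩
    by_contra hno
    refine hcon ?_
    rw [weightedHomogeneousComponent_eq_zero' m' H fun γ hγ he =>
      hno (Finset.mem_image.2 ⟨γ, hγ, he⟩)]
    exact I.zero_mem
  exact not_lt.2 (S.le_max' m' hmem) hm'

namespace Base

open MvPolynomial

variable {p : ℕ} [Fact p.Prime] {k : Type u} [Field k] [CharP k p] [PerfectRing k p] {A : Type u}
  [CommRing A] [IsLocalRing A] [Algebra (WittVector p k) A] {d : ℕ} {x : Fin d → A} {b : ℕ} {G : ℕ → Ideal A}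
  (B : Base p k A x b G)

omit [CharP k p] [PerfectRing k p] in
lemma ev_mem {N : ℕ} {f : Pw p k d B.n} (hf : MemW p B.wt N f) : B.ev f ∈ G N :=
  (B.strict N _).2 ⟨f, hf, rfl⟩

lemma hwt : 0 < B.wt none := B.wt_pos none

lemma lift_mem {F : MvPolynomial (Vr d B.n) k} {N : ℕ}
    (hF : IsWeightedHomogeneous B.wt F N) : B.ev (liftPi p F) ∈ G N :=
  B.ev_mem (memW_liftPi p B.hwt hF)

lemma cong_mem {N : ℕ} {f g : Pw p k d B.n} (h : Cong p B.wt N f g) :
    B.ev f ∈ G (N + 1) ↔ B.ev g ∈ G (N + 1) := by
  have h1 := B.ev_mem h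
  rw [map_sub] at h1
  exact ⟨fun hf => by simpa using (G (N + 1)).sub_mem hf h1,
    fun hg => by simpa using (G (N + 1)).add_mem h1 hg⟩

lemma comp_isWH (N : ℕ) (F : MvPolynomial (Vr d B.n) k) :
    IsWeightedHomogeneous B.wt (weightedHomogeneousComponent B.wt N F) N :=
  weightedHomogeneousComponent_isWeightedHomogeneous N F

/-- The initial forms of the kernel of the evaluation. -/
noncomputable def J (hG : NuFil p k A x b G) : Ideal (MvPolynomial (Vr d B.n) k) where
  carrier := {F | ∀ N, B.ev (liftPi p (weightedHomogeneousComponent B.wt N F)) ∈ G (N + 1)}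
  zero_mem' N := by simp
  add_mem' {F F'} hF hF' N := by
    rw [map_add, B.cong_mem (liftPi_add p B.hwt (B.comp_isWH N F) (B.comp_isWH N F')), map_add]
    exact (G (N + 1)).add_mem (hF N) (hF' N)
  smul_mem' a F hF := by
    rw [smul_eq_mul]
    induction a using MvPolynomial.induction_on' with
    | monomial γ c =>
      intro N
      rw [mul_comm, wcomp_mul B.wt (isWeightedHomogeneous_monomial B.wt γ c rfl) N]
      split_ifs with h
      · rw [mul_comm, liftPi_monomial_mul, map_mul]
        have h1 := Ideal.mul_mem_mul (B.ev_mem (memW_T p B.hwt γ c))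
          (hF (N - Finsupp.weight B.wt γ))
        have h2 := hG.mul _ _ h1
        rwa [show Finsupp.weight B.wt γ + (N - Finsupp.weight B.wt γ + 1) = N + 1 by omega] at h2
      · simp
    | add a a' iha iha' =>
      intro N
      rw [add_mul, map_add,
        B.cong_mem (liftPi_add p B.hwt (B.comp_isWH N _) (B.comp_isWH N _)), map_add]
      exact (G (N + 1)).add_mem (iha N) (iha' N)

variable (hG : NuFil p k A x b G)

lemma mem_J_iff {F : MvPolynomial (Vr d B.n) k} {N : ℕ}
    (hF : IsWeightedHomogeneous B.wt F N) : F ∈ B.J hG ↔ B.ev (liftPi p F) ∈ G (N + 1) := by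
  classical
  constructor
  · intro h
    have := h N
    rwa [weightedHomogeneousComponent_of_mem hF, if_pos rfl] at this
  · intro h M
    rw [weightedHomogeneousComponent_of_mem hF]
    split_ifs with he
    · subst he; exact h
    · simp

lemma J_homogeneous : (B.J hG).IsHomogeneous (weightedHomogeneousSubmodule k B.wt) := by
  intro i F hF
  show ((weightedDecomposition k B.wt).decompose' F i : MvPolynomial (Vr d B.n) k) ∈ B.J hG
  rw [weightedDecomposition.decompose'_apply, B.mem_J_iff hG (B.comp_isWH i F)]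
  exact hF i

lemma exists_ker_iff {F : MvPolynomial (Vr d B.n) k} {N : ℕ}
    (hF : IsWeightedHomogeneous B.wt F N) :
    F ∈ B.J hG ↔ ∃ h, B.ev h = 0 ∧ HasInit p B.wt N h F := by
  rw [B.mem_J_iff hG hF]
  constructor
  · intro h
    obtain ⟨g, hg, hge⟩ := (B.strict _ _).1 h
    refine ⟨liftPi p F - g, by rw [map_sub, hge, sub_self], hF, ?_⟩
    rw [← mem_memWI p (hwt := B.hwt)] at hg ⊢
    have : -g ∈ memWI (k := k) p B.hwt (N + 1) := neg_mem hg
    rwa [show -g = liftPi p F - g - liftPi p F by ring] at this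
  · rintro ⟨h, h0, -, hh⟩
    have := B.ev_mem hh
    rw [map_sub, h0, zero_sub] at this
    simpa using (G (N + 1)).neg_mem this

lemma J_ne_top : B.J hG ≠ ⊤ := by
  intro h
  have h1 : (1 : MvPolynomial (Vr d B.n) k) ∈ B.J hG := h ▸ Submodule.mem_top
  rw [B.mem_J_iff hG (isWeightedHomogeneous_one k B.wt), liftPi_one, map_one] at h1
  exact (maximalIdeal.isMaximal A).ne_top ((Ideal.eq_top_iff_one _).2 (hG.one_le h1))

lemma J_radical : (B.J hG).IsRadical := by
  rw [Ideal.isRadical_iff_pow_one_lt 2 one_lt_two]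
  intro H hH
  by_contra hcon
  obtain ⟨m, hm, htop⟩ := exists_top B.wt (B.J hG) (B.J_homogeneous hG) hcon
  refine hm ?_
  have hcm := B.comp_isWH m H
  have hsq : weightedHomogeneousComponent B.wt m H * weightedHomogeneousComponent B.wt m H ∈
      B.J hG := by
    classical
    have h0 := weightedHomogeneousComponent_mem_of_mem k B.wt (B.J_homogeneous hG) hH (m + m)
    let S := H.support.image (Finsupp.weight B.wt)
    have hsum : H = ∑ j ∈ S, weightedHomogeneousComponent B.wt j H := by
      conv_lhs => rw [← sum_weightedHomogeneousComponent B.wt H]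
      refine finsum_eq_sum_of_support_subset _ fun j hj => ?_
      by_contra hno
      exact hj (weightedHomogeneousComponent_eq_zero' j H fun γ hγ he =>
        hno (Finset.mem_coe.2 (Finset.mem_image.2 ⟨γ, hγ, he⟩)))
    rw [pow_two] at h0
    nth_rewrite 2 [hsum] at h0
    rw [Finset.mul_sum, map_sum] at h0
    simp only [fun j => wcomp_mul B.wt (a := H) (B.comp_isWH j H) (m + m)] at h0
    by_cases hmS : m ∈ S
    · rw [← Finset.add_sum_erase S _ hmS, if_pos (Nat.le_add_left _ _), Nat.add_sub_cancel] at h0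
      refine (Submodule.add_mem_iff_left _ (Submodule.sum_mem _ fun j hj => ?_)).1 h0
      split_ifs with hle
      · rcases lt_or_gt_of_ne (Finset.ne_of_mem_erase hj) with hlt | hlt
        · exact Ideal.mul_mem_right _ _ (htop _ (by omega))
        · exact Ideal.mul_mem_left _ _ (htop _ hlt)
      · exact Submodule.zero_mem _
    · rw [weightedHomogeneousComponent_eq_zero' m H fun γ hγ he =>
        hmS (Finset.mem_image.2 ⟨γ, hγ, he⟩)]
      simp
  rw [B.mem_J_iff hG hcm]
  rw [B.mem_J_iff hG (hcm.mul hcm), B.cong_mem (liftPi_mul p B.hwt hcm hcm), map_mul,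
    ← two_mul] at hsq
  exact hG.reduced m _ (B.lift_mem hcm) hsq

/-- The polynomials in the `X` alone. -/
abbrev xSet (d n : ℕ) : Set (Vr d n) := Set.range fun l : Fin d => some (Sum.inl l)

lemma J_tfree {P H : MvPolynomial (Vr d B.n) k} (hP : P ∈ supported k (xSet d B.n)) (hP0 : P ≠ 0)
    (h : P * H ∈ B.J hG) : H ∈ B.J hG := by
  classical
  by_contra hcon
  obtain ⟨m, hm, htop⟩ := exists_top B.wt (B.J hG) (B.J_homogeneous hG) hcon
  have hbot : (⊥ : Ideal (MvPolynomial (Vr d B.n) k)).IsHomogeneous
      (weightedHomogeneousSubmodule k B.wt) := Ideal.IsHomogeneous.bot _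
  obtain ⟨D, hD, hDtop⟩ := exists_top B.wt ⊥ hbot (fun h => hP0 (Ideal.mem_bot.1 h))
  let S := H.support.image (Finsupp.weight B.wt)
  have hsum : H = ∑ j ∈ S, weightedHomogeneousComponent B.wt j H := by
    conv_lhs => rw [← sum_weightedHomogeneousComponent B.wt H]
    refine finsum_eq_sum_of_support_subset _ fun j hj => ?_
    by_contra hno
    exact hj (weightedHomogeneousComponent_eq_zero' j H fun γ hγ he =>
      hno (Finset.mem_coe.2 (Finset.mem_image.2 ⟨γ, hγ, he⟩)))
  have h0 := weightedHomogeneousComponent_mem_of_mem k B.wt (B.J_homogeneous hG) h (D + m)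
  nth_rewrite 1 [hsum] at h0
  rw [Finset.mul_sum, map_sum] at h0
  simp only [fun j => wcomp_mul B.wt (a := P) (B.comp_isWH j H) (D + m)] at h0
  have hmS : m ∈ S := by
    by_contra hno
    refine hm ?_
    rw [weightedHomogeneousComponent_eq_zero' m H fun γ hγ he =>
      hno (Finset.mem_image.2 ⟨γ, hγ, he⟩)]
    exact Submodule.zero_mem _
  rw [← Finset.add_sum_erase S _ hmS, if_pos (Nat.le_add_left _ _), Nat.add_sub_cancel] at h0
  have h1 : weightedHomogeneousComponent B.wt D P * weightedHomogeneousComponent B.wt m H ∈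
      B.J hG := by
    refine (Submodule.add_mem_iff_left _ (Submodule.sum_mem _ fun j hj => ?_)).1 h0
    split_ifs with hle
    · rcases lt_or_gt_of_ne (Finset.ne_of_mem_erase hj) with hlt | hlt
      · rw [Ideal.mem_bot.1 (hDtop (D + m - j) (by omega))]; simp
      · exact Ideal.mul_mem_left _ _ (htop _ hlt)
    · exact Submodule.zero_mem _
  refine hm ?_
  set PD := weightedHomogeneousComponent B.wt D P
  have hPD : PD ≠ 0 := fun h => hD (Ideal.mem_bot.2 h)
  have hvars : ∀ γ ∈ PD.support, ∀ v, γ v ≠ 0 → v ∈ xSet d B.n := by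
    intro γ hγ v hv
    rw [mem_support_iff, coeff_weightedHomogeneousComponent] at hγ
    split_ifs at hγ with hw
    · exact mem_supported.1 hP (Finset.mem_coe.2 ((mem_vars_iff_mem_support v).2
        ⟨γ, mem_support_iff.2 hγ, Finsupp.mem_support_iff.2 hv⟩))
    · exact absurd rfl hγ
  have hnone : ∀ γ ∈ PD.support, γ none = 0 := fun γ hγ => by
    by_contra hv
    obtain ⟨l, hl⟩ := hvars γ hγ none hv
    cases hl
  let emb : Fin d ↪ Vr d B.n := ⟨fun l => some (Sum.inl l), fun a b h => by simpa using h⟩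
  have hmap : ∀ γ ∈ PD.support, Finsupp.embDomain emb (γ.comapDomain emb emb.injective.injOn) = γ :=
    fun γ hγ => by
      refine Finsupp.embDomain_comapDomain fun v hv => ?_
      exact hvars γ hγ v (Finsupp.mem_support_iff.1 hv)
  let Q : MvPolynomial (Fin d) (WittVector p k) := ∑ γ ∈ PD.support,
    monomial (γ.comapDomain emb emb.injective.injOn) (WittVector.teichmuller p (coeff γ PD))
  have hdeg : ∀ γ ∈ PD.support, (γ.comapDomain emb emb.injective.injOn).degree * b = D := by
    intro γ hγ
    have := B.comp_isWH D P (mem_support_iff.1 hγ)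
    rw [← hmap γ hγ, Finsupp.weight_apply, Finsupp.sum_embDomain] at this
    simp only [emb, Function.Embedding.coeFn_mk, B.wt_X, smul_eq_mul] at this
    rw [Finsupp.sum] at this
    rw [Finsupp.degree_apply, ← this, Finset.sum_mul]
    refine Finset.sum_congr rfl fun v _ => ?_
    show _ * b = _ * B.wt (some (Sum.inl v))
    rw [B.wt_X]
  obtain ⟨γ₀, hγ₀⟩ := support_nonempty.2 hPD
  set j := (γ₀.comapDomain emb emb.injective.injOn).degree
  have hQ : Q.IsHomogeneous j := by
    refine MvPolynomial.IsHomogeneous.sum _ _ _ fun γ hγ => isHomogeneous_monomial _ ?_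
    exact Nat.eq_of_mul_eq_mul_right hG.b_pos ((hdeg γ hγ).trans (hdeg γ₀ hγ₀).symm)
  have hQ0 : ∃ γ, ¬ (p : WittVector p k) ∣ coeff γ Q := by
    refine ⟨γ₀.comapDomain emb emb.injective.injOn, ?_⟩
    have : coeff (γ₀.comapDomain emb emb.injective.injOn) Q =
        WittVector.teichmuller p (coeff γ₀ PD) := by
      simp only [Q, coeff_sum, coeff_monomial]
      rw [Finset.sum_eq_single γ₀ (fun γ hγ hne => if_neg fun he => hne (by
        rw [← hmap γ hγ, ← hmap γ₀ hγ₀, he])) (fun h => absurd hγ₀ h), if_pos rfl]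
    rw [this, p_dvd_iff, WittVector.teichmuller_coeff_zero]
    exact mem_support_iff.1 hγ₀
  have hev : B.ev (liftPi p PD) = aeval x Q := by
    rw [liftPi, map_sum, map_sum]
    refine Finset.sum_congr rfl fun γ hγ => ?_
    rw [aeval_monomial, hnone γ hγ, pow_zero, mul_one, ← monomial_eq_C_mul_aux B γ.some, map_mul,
      B.ev_C]
    congr 1
    conv_lhs => rw [← hmap γ hγ]
    rw [Finsupp.prod]
    generalize γ.comapDomain emb emb.injective.injOn = δ
    induction δ using Finsupp.induction with
    | zero => simp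
    | single_add v e δ hv he ih =>
      rw [Finsupp.embDomain_add, Finsupp.some_add,
        show MvPowerSeries.monomial (Finsupp.some (Finsupp.embDomain emb (Finsupp.single v e)) +
          Finsupp.some (Finsupp.embDomain emb δ)) (1 : WittVector p k) =
          MvPowerSeries.monomial (Finsupp.some (Finsupp.embDomain emb (Finsupp.single v e))) 1 *
          MvPowerSeries.monomial (Finsupp.some (Finsupp.embDomain emb δ)) 1 by
            rw [MvPowerSeries.monomial_mul_monomial, one_mul], map_mul, ih]
      rw [Finsupp.embDomain_single]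
      show B.ev (MvPowerSeries.monomial (Finsupp.some (Finsupp.single (some (Sum.inl v)) e)) 1) * _
        = _
      rw [Finsupp.some_single_some, ← MvPowerSeries.X_pow_eq, map_pow, B.ev_X]
      simp only [← Finsupp.prod.eq_def]
      rw [Finsupp.prod_add_index' (fun _ => pow_zero _) (fun _ _ _ => pow_add _ _ _),
        Finsupp.prod_single_index (h := fun v e => x v ^ e) (pow_zero _)]
  rw [B.mem_J_iff hG (B.comp_isWH m H)]
  rw [B.mem_J_iff hG ((B.comp_isWH D P).mul (B.comp_isWH m H)),
    B.cong_mem (liftPi_mul p B.hwt (B.comp_isWH D P) (B.comp_isWH m H)), map_mul, hev] at h1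
  refine hG.tfree j Q hQ hQ0 m _ (B.lift_mem (B.comp_isWH m H)) ?_
  rwa [show m + b * j + 1 = D + m + 1 by
    rw [mul_comm b j, show j * b = D from hdeg γ₀ hγ₀]; ring]
where
  monomial_eq_C_mul_aux (B : Base p k A x b G) (γ : (Fin d ⊕ Fin B.n) →₀ ℕ)
      {a : WittVector p k} :
      MvPowerSeries.C a * MvPowerSeries.monomial γ 1 = MvPowerSeries.monomial γ a := by
    rw [← MvPowerSeries.monomial_zero_eq_C_apply, MvPowerSeries.monomial_mul_monomial, zero_add,
      mul_one]

lemma quot_finite : Module.Finite (supported k (xSet d B.n))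
    (MvPolynomial (Vr d B.n) k ⧸ B.J hG) := by
  classical
  obtain ⟨N₀, hst⟩ := hG.stable
  set R0 := supported k (xSet d B.n)
  set π := Ideal.Quotient.mk (B.J hG)
  have hfin : {γ : Vr d B.n →₀ ℕ | Finsupp.weight B.wt γ ≤ N₀ + b}.Finite := by
    refine (Set.Finite.biUnion (Finset.range (N₀ + b + 1)).finite_toSet
      fun N _ => finite_weight_eq B.wt_pos N).subset fun γ hγ => ?_
    exact Set.mem_biUnion (Finset.mem_range.2 (Nat.lt_succ_iff.2 hγ)) rfl
  let T₀ := (fun γ => π (monomial γ 1)) '' {γ : Vr d B.n →₀ ℕ | Finsupp.weight B.wt γ ≤ N₀ + b}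
  set M := Submodule.span R0 T₀
  have hC : ∀ (c : k) (z : MvPolynomial (Vr d B.n) k ⧸ B.J hG), z ∈ M → π (C c) * z ∈ M := by
    intro c z hz
    have hc : C c ∈ R0 := R0.algebraMap_mem c
    obtain ⟨y, rfl⟩ := Ideal.Quotient.mk_surjective z
    rw [← map_mul]
    exact M.smul_mem ⟨C c, hc⟩ hz
  suffices hmon : ∀ γ, π (monomial γ 1) ∈ M by
    refine ⟨⟨(hfin.image fun γ => π (monomial γ 1)).toFinset, ?_⟩⟩
    rw [Set.Finite.coe_toFinset, eq_top_iff]
    rintro z -
    obtain ⟨F, rfl⟩ := Ideal.Quotient.mk_surjective z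
    rw [F.as_sum, map_sum]
    refine Submodule.sum_mem _ fun γ _ => ?_
    rw [← mul_one (coeff γ F), ← C_mul_monomial, map_mul]
    exact hC _ _ (hmon γ)
  suffices ∀ w γ, Finsupp.weight B.wt γ = w → π (monomial γ 1) ∈ M from fun γ => this _ γ rfl
  intro w
  induction w using Nat.strong_induction_on with
  | _ w ih =>
    intro γ hγ
    rcases le_or_gt w (N₀ + b) with h | h
    · exact Submodule.subset_span ⟨γ, hγ.le.trans h, rfl⟩
    obtain ⟨v, rfl⟩ : ∃ v, w = v + b := ⟨w - b, by omega⟩
    have hTm : B.ev (T p γ (1 : k)) ∈ Ideal.span (Set.range x) * G v := by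
      rw [← hst v (by omega), ← hγ]
      exact B.ev_mem (memW_T p B.hwt γ 1)
    obtain ⟨r, hr, hrsum⟩ : ∃ r : Fin d → A, (∀ l, r l ∈ G v) ∧
        B.ev (T p γ (1 : k)) = ∑ l, x l * r l := by
      refine Submodule.mul_induction_on hTm (fun a ha g hg => ?_) ?_
      · obtain ⟨c, hc⟩ := Ideal.mem_span_range_iff_exists_fun.1 ha
        refine ⟨fun l => c l * g, fun l => Ideal.mul_mem_left _ _ hg, ?_⟩
        rw [← hc, Finset.sum_mul]
        exact Finset.sum_congr rfl fun l _ => by ring
      · rintro a a' ⟨r, hr, rfl⟩ ⟨r', hr', rfl⟩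
        exact ⟨r + r', fun l => (G v).add_mem (hr l) (hr' l), by
          simp [mul_add, Finset.sum_add_distrib]⟩
    choose g hg hgr using fun l => (B.strict v (r l)).1 (hr l)
    choose H hH hgH using fun l => exists_init p B.wt_pos (hg l)
    let Xl : Fin d → MvPolynomial (Vr d B.n) k := fun l => X (some (Sum.inl l))
    have hXw : ∀ l, IsWeightedHomogeneous B.wt (Xl l * H l) (v + b) := fun l => by
      have h1 := (isWeightedHomogeneous_X k B.wt (some (Sum.inl l))).mul (hH l)
      rwa [B.wt_X, add_comm] at h1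
    have hS : IsWeightedHomogeneous B.wt (∑ l, Xl l * H l) (v + b) :=
      IsWeightedHomogeneous.sum _ _ _ fun l _ => hXw l
    have hm : IsWeightedHomogeneous B.wt (monomial γ (1 : k)) (v + b) :=
      isWeightedHomogeneous_monomial _ _ _ hγ
    have hJ : monomial γ 1 - ∑ l, Xl l * H l ∈ B.J hG := by
      rw [B.mem_J_iff hG (hm.sub hS), B.cong_mem (liftPi_sub p B.hwt hm hS), map_sub,
        liftPi_monomial]
      have h1 := B.ev_mem (liftPi_sum p B.hwt Finset.univ (fun l => Xl l * H l) fun l _ => hXw l)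
      rw [map_sub, map_sum] at h1
      have h2 : ∀ l, B.ev (liftPi p (Xl l * H l)) - x l * r l ∈ G (v + b + 1) := by
        intro l
        have hX : Xl l = monomial (Finsupp.single (some (Sum.inl l)) 1) 1 := rfl
        rw [hX, liftPi_monomial_mul, map_mul, show B.ev (T p (Finsupp.single (some (Sum.inl l)) 1)
            (1 : k)) = x l by simp [T, ← MvPowerSeries.X_def, B.ev_X], ← mul_sub,
          ← hgr l, ← map_sub, show v + b + 1 = b + (v + 1) by ring]
        refine hG.mul _ _ (Ideal.mul_mem_mul ?_ ?_)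
        · rw [← B.ev_X l]
          have := memW_X (k := k) (wt := B.wt) p B.hwt (Sum.inl l)
          rw [B.wt_X] at this
          exact B.ev_mem this
        · rw [← neg_sub, map_neg]
          exact (G (v + 1)).neg_mem (B.ev_mem (hgH l))
      have h3 : (∑ l, B.ev (liftPi p (Xl l * H l))) - B.ev (T p γ (1 : k)) ∈ G (v + b + 1) := by
        rw [hrsum, ← Finset.sum_sub_distrib]
        exact Ideal.sum_mem _ fun l _ => h2 l
      convert (G (v + b + 1)).neg_mem ((G (v + b + 1)).add_mem h1 h3) using 1
      ring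
    rw [Ideal.Quotient.eq.2 hJ, map_sum]
    refine Submodule.sum_mem _ fun l _ => ?_
    have hXR : Xl l ∈ R0 := Algebra.subset_adjoin ⟨_, ⟨l, rfl⟩, rfl⟩
    have hHM : π (H l) ∈ M := by
      rw [(H l).as_sum, map_sum]
      refine Submodule.sum_mem _ fun δ hδ => ?_
      rw [← mul_one (coeff δ (H l)), ← C_mul_monomial, map_mul]
      exact hC _ _ (ih v (by have := hG.b_pos; omega) δ (hH l (mem_support_iff.1 hδ)))
    exact M.smul_mem ⟨Xl l, hXR⟩ hHM

end Base

end CI

end Vale.Agent.P202
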