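import Vale.Agent.P202.Untwist

/-! The main inequality: the Euler characteristic of the twisted complex is nearly nonnegative. -/

universe u

namespace Vale.Agent.P202

open TensorProduct

section

variable {R : Type*} [CommRing R] {A : Type*} [AddCommGroup A] [Module R A]

/-- Cohomology length of the graded piece at level `j`. -/
noncomputable def hg (δ : A →ₗ[R] A) (P Gt : ℤ → Submodule R A) (j i : ℤ) : ℕ∞ :=
  hlen R δ (fun i => Gt j ⊓ P i) (fun i => Gt (j + 1) ⊓ P i) i

/-- Euler characteristic of the graded piece at level `j`. -/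
noncomputable def chiG (d : ℕ) (δ : A →ₗ[R] A) (P Gt : ℤ → Submodule R A) (j : ℤ) : ℤ :=
  ∑ i ∈ Finset.Icc (-(d : ℤ)) d, sgn i * ((hg δ P Gt j i).toNat : ℤ)

/-- Bound for the homology of the twisted complex in degree `r ≠ 0`. -/
noncomputable def errBound (d Bt : ℕ) (β : ℕ → ℕ) (δ : A →ₗ[R] A) (P Gt : ℤ → Submodule R A)
    (r : ℤ) : ℕ :=
  ∑ k ∈ Finset.range Bt, ∑ p ∈ Finset.range (d + 1),
    β p * if 0 < r then (hg δ P Gt ((k : ℤ) - p) (r + p)).toNat
      else (hg δ P Gt (-(Bt : ℤ) + k - p) (r - 1 + p)).toNat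

end

variable {R S : Type u} [CommRing R] [CommRing S] {B : Type u} [AddCommGroup B] [Module R B]
  [Module S B] [SMulCommClass R S B] [Module.Flat R B] {A : Type u} [AddCommGroup A] [Module R A]
  {d : ℕ} {y : Fin d → S} {I : Ideal R} {β : ℕ → ℕ} {δ : A →ₗ[R] A} {P Gt : ℤ → Submodule R A}
  {B₀ nF : ℕ}

lemma DT_congr (H : FiltSys I d δ P Gt) {τ τ' : ℕ → ℤ} (h : ∀ l, l ≤ d → τ l = τ' l) :
    DT B y P Gt τ = DT B y P Gt τ' :=
  funext fun r => le_antisymm (DT_mono y H.anti (fun l hl => (h l hl).ge) r)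
    (DT_mono y H.anti (fun l hl => (h l hl).le) r)

lemma DT_eq_bot (H : FiltSys I d δ P Gt) (τ : ℕ → ℤ) {N : ℕ} (hN : 3 * d + 3 ≤ N) {r : ℤ}
    (hr : r < -(N : ℤ) + 1 ∨ (N : ℤ) < r) : DT B y P Gt τ r = ⊥ := by
  rw [eq_bot_iff]
  intro f hf
  rw [mem_DT] at hf
  rw [Submodule.mem_bot]
  funext s
  have hc : s.card ≤ d := (Finset.card_le_univ s).trans (by simp)
  have := hf.1 s
  rw [H.bound (r + s.card) (by omega), inf_bot_eq, gbar_bot, Submodule.mem_bot] at this
  exact this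

lemma hlen_step' (H : FiltSys I d δ P Gt) (HB : HPHyp B y I β)
    (hfin : ∀ j i, hg δ P Gt j i ≠ ⊤) {τ τ' : ℕ → ℤ} {p : ℕ} {j : ℤ}
    (hτ : TwistStep d τ τ' p j) (r : ℤ) :
    hlen S (dT B y δ) (DT B y P Gt τ') (DT B y P Gt τ) r = β p * hg δ P Gt j (r + p) :=
  hlen_step H HB hτ r (hfin _ _)

lemma hlen_step_ne_top (H : FiltSys I d δ P Gt) (HB : HPHyp B y I β)
    (hfin : ∀ j i, hg δ P Gt j i ≠ ⊤) {τ τ' : ℕ → ℤ} {p : ℕ} {j : ℤ}
    (hτ : TwistStep d τ τ' p j) (r : ℤ) :
    hlen S (dT B y δ) (DT B y P Gt τ') (DT B y P Gt τ) r ≠ ⊤ := by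
  rw [hlen_step' H HB hfin hτ]
  exact WithTop.mul_ne_top (ENat.coe_ne_top _) (hfin _ _)

lemma eu_step (H : FiltSys I d δ P Gt) (HB : HPHyp B y I β)
    (hfin : ∀ j i, hg δ P Gt j i ≠ ⊤) {τ τ' : ℕ → ℤ} {p : ℕ} {j : ℤ}
    (hτ : TwistStep d τ τ' p j) {N : ℕ} (hN : 3 * d + 3 ≤ N) :
    eu S (dT B y δ) (DT B y P Gt τ') (DT B y P Gt τ) N =
      (-1) ^ p * (β p : ℤ) * chiG d δ P Gt j := by
  have hp := hτ.le
  rw [eu, chiG, Finset.mul_sum]
  have hsub : (Finset.Icc (-(d : ℤ)) d).image (fun i : ℤ => i - p) ⊆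
      Finset.Icc (-(N : ℤ)) N := by
    intro r hr
    simp only [Finset.mem_image, Finset.mem_Icc] at hr
    obtain ⟨i, hi, rfl⟩ := hr
    rw [Finset.mem_Icc]; omega
  rw [← Finset.sum_subset hsub ?_, Finset.sum_image ?_]
  · refine Finset.sum_congr rfl fun i _ => ?_
    rw [hlen_step' H HB hfin hτ, show i - (p : ℤ) + p = i by ring, sgn_sub, sgn_natCast,
      ENat.toNat_mul, ENat.toNat_coe]
    push_cast
    ring
  · intro a _ b _ h; simpa using h
  · intro r _ hr
    rw [hlen_step' H HB hfin hτ]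
    have h0 : hg δ P Gt j (r + p) = 0 := by
      refine hlen_eq_bot_zero ?_
      rw [H.bound (r + p) ?_, inf_bot_eq]
      by_contra hc
      exact hr (Finset.mem_image.2 ⟨r + p, Finset.mem_Icc.2 (by omega), by ring⟩)
    simp [h0]

/-- The intermediate twists between `c + 1 - l` and `c - l`. -/
def tauShift (c : ℤ) (k l : ℕ) : ℤ := if l < k then c - l else c + 1 - l

lemma tauShift_step (c : ℤ) {k : ℕ} (hk : k ≤ d) :
    TwistStep d (tauShift c k) (tauShift c (k + 1)) k (c - k) where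
  le := hk
  at_p := by simp [tauShift]; ring
  at_p' := by simp [tauShift]
  other l hl := by simp only [tauShift]; split_ifs <;> omega
  below l hl := by simp only [tauShift]; split_ifs <;> omega
  above _ := by simp only [tauShift]; split_ifs <;> omega

/-- The intermediate twists between the constants `c + 1` and `c`. -/
def tauConst (d : ℕ) (c : ℤ) (k l : ℕ) : ℤ := if d < l + k then c else c + 1

lemma tauConst_step (c : ℤ) {k : ℕ} (hk : k ≤ d) :
    TwistStep d (tauConst d c k) (tauConst d c (k + 1)) (d - k) c where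
  le := Nat.sub_le _ _
  at_p := by simp only [tauConst]; split_ifs <;> omega
  at_p' := by simp only [tauConst]; split_ifs <;> omega
  other l hl := by simp only [tauConst]; split_ifs <;> omega
  below l hl := by simp only [tauConst]; split_ifs <;> omega
  above _ := by simp only [tauConst]; split_ifs <;> omega

/-- The intermediate twists between `-min l (m - 1)` and `-min l m`. -/
def tauWalk (d m : ℕ) (k l : ℕ) : ℤ :=
  if d < l + k then -((min l (m + 1) : ℕ) : ℤ) else -((min l m : ℕ) : ℤ)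

lemma tauWalk_step (m : ℕ) {k : ℕ} (hk : m + 1 + k ≤ d) :
    TwistStep d (tauWalk d m k) (tauWalk d m (k + 1)) (d - k) (-((m + 1 : ℕ) : ℤ)) where
  le := Nat.sub_le _ _
  at_p := by simp only [tauWalk]; split_ifs <;> omega
  at_p' := by simp only [tauWalk]; split_ifs <;> omega
  other l hl := by simp only [tauWalk]; split_ifs <;> omega
  below l hl := by simp only [tauWalk]; split_ifs <;> omega
  above _ := by simp only [tauWalk]; split_ifs <;> omega

lemma shift_le (H : FiltSys I d δ P Gt) (HB : HPHyp B y I β) (hfin : ∀ j i, hg δ P Gt j i ≠ ⊤)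
    (c : ℤ) (r : ℤ) :
    hlen S (dT B y δ) (DT B y P Gt fun l => c - l) (DT B y P Gt fun l => c + 1 - l) r ≤
      ∑ p ∈ Finset.range (d + 1), (β p : ℕ∞) * hg δ P Gt (c - p) (r + p) := by
  have h1 : (DT B y P Gt fun l => c - l) = DT B y P Gt (tauShift c (d + 1)) :=
    DT_congr H fun l hl => by simp only [tauShift]; split_ifs <;> omega
  have h2 : (DT B y P Gt fun l => c + 1 - l) = DT B y P Gt (tauShift c 0) :=
    DT_congr H fun l hl => by simp only [tauShift]; split_ifs <;> omega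
  rw [h1, h2]
  refine (hlen_chain_le (dT_dT y δ H.sq0) (fun k => DT B y P Gt (tauShift c k)) (d + 1)
    (fun k _ => DT_stable H y _) (fun k hk r => DT_mono y H.anti (fun l _ => by
      simp only [tauShift]; split_ifs <;> omega) r) r).trans (le_of_eq ?_)
  refine Finset.sum_congr rfl fun p hp => ?_
  rw [Finset.mem_range] at hp
  exact hlen_step' H HB hfin (tauShift_step c (by omega)) r

lemma window_le (H : FiltSys I d δ P Gt) (HB : HPHyp B y I β) (hfin : ∀ j i, hg δ P Gt j i ≠ ⊤)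
    (c : ℤ) (Bt : ℕ) (r : ℤ) :
    hlen S (dT B y δ) (DT B y P Gt fun l => c - l) (DT B y P Gt fun l => c + Bt - l) r ≤
      ∑ k ∈ Finset.range Bt, ∑ p ∈ Finset.range (d + 1),
        (β p : ℕ∞) * hg δ P Gt (c + k - p) (r + p) := by
  let X : ℕ → ℤ → Submodule S (Finset (Fin d) → B ⊗[R] A) :=
    fun k => DT B y P Gt fun l => c + Bt - k - l
  have hle := hlen_chain_le (dT_dT y δ H.sq0) X Bt (fun k _ => DT_stable H y _)
    (fun k hk r => DT_mono y H.anti (fun l _ => by omega) r) r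
  simp only [X, Nat.cast_zero, sub_zero] at hle
  rw [show (c + (Bt : ℤ) - Bt) = c by ring] at hle
  refine hle.trans ?_
  rw [← Finset.sum_range_reflect (fun k => ∑ p ∈ Finset.range (d + 1),
    (β p : ℕ∞) * hg δ P Gt (c + k - p) (r + p)) Bt]
  refine Finset.sum_le_sum fun k hk => ?_
  rw [Finset.mem_range] at hk
  have := shift_le (B := B) (y := y) H HB hfin (c + ((Bt - 1 - k : ℕ) : ℤ)) r
  have e1 : (DT B y P Gt fun l => c + Bt - ((k + 1 : ℕ) : ℤ) - l) =
      DT B y P Gt fun l => c + ((Bt - 1 - k : ℕ) : ℤ) - l := DT_congr H fun l _ => by omega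
  have e2 : (DT B y P Gt fun l => c + Bt - (k : ℤ) - l) =
      DT B y P Gt fun l => c + ((Bt - 1 - k : ℕ) : ℤ) + 1 - l := DT_congr H fun l _ => by omega
  show _ ≤ _
  rw [e1, e2]
  exact this

lemma hlen_window_ne_top (H : FiltSys I d δ P Gt) (HB : HPHyp B y I β)
    (hfin : ∀ j i, hg δ P Gt j i ≠ ⊤) (c : ℤ) (Bt : ℕ) (r : ℤ) :
    hlen S (dT B y δ) (DT B y P Gt fun l => c - l) (DT B y P Gt fun l => c + Bt - l) r ≠ ⊤ :=
  ne_top_of_le_ne_top (by
    simp only [ENat.sum_ne_top]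
    exact fun k _ p _ => WithTop.mul_ne_top (ENat.coe_ne_top _) (hfin _ _))
    (window_le H HB hfin c Bt r)

lemma imgA_eq_zero (H : FiltSys I d δ P Gt) (G : GhostData B y δ P Gt B₀ nF) {τ : ℕ → ℤ}
    (hτ : ∀ k, k < d → τ (k + 1) ≤ τ k) (r : ℤ) :
    imgA S (dT B y δ) (DT B y P Gt τ) (DT B y P Gt fun l => τ l + (nF * B₀ : ℕ))
      (fun _ => ⊥) r = 0 := by
  rw [imgA, sq_eq_zero_iff]
  intro f hf
  refine Submodule.mem_sup_left (G.cycle_mem_map H hτ hf.1 ?_)
  exact (Submodule.mem_bot S).1 hf.2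

lemma bot_DT_stable (D : (Finset (Fin d) → B ⊗[R] A) →ₗ[S] (Finset (Fin d) → B ⊗[R] A)) :
    IsStable D (fun _ => (⊥ : Submodule S (Finset (Fin d) → B ⊗[R] A))) :=
  fun r => by simp

lemma hlen_cyc_le_right (H : FiltSys I d δ P Gt) (G : GhostData B y δ P Gt B₀ nF) {τ : ℕ → ℤ}
    (hτ : ∀ k, k < d → τ (k + 1) ≤ τ k) (r : ℤ) :
    hlen S (dT B y δ) (DT B y P Gt τ) (fun _ => ⊥) r ≤
      hlen S (dT B y δ) (DT B y P Gt τ) (DT B y P Gt fun l => τ l + (nF * B₀ : ℕ)) r := by
  have hd := dT_dT (B := B) y δ H.sq0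
  have hle : ∀ r, DT B y P Gt (fun l => τ l + (nF * B₀ : ℕ)) r ≤ DT B y P Gt τ r :=
    DT_mono y H.anti fun l _ => by omega
  rw [hlen_eq_mid hd (bot_DT_stable _) (fun _ => bot_le) hle (DT_stable H y τ),
    hlen_eq_right hd (DT_stable H y _) (bot_DT_stable _) (DT_stable H y τ) (fun _ => bot_le) hle,
    imgA_eq_zero H G hτ, zero_add]
  exact le_self_add

lemma hlen_cyc_le_left (H : FiltSys I d δ P Gt) (G : GhostData B y δ P Gt B₀ nF) {τ : ℕ → ℤ}
    (hτ : ∀ k, k < d → τ (k + 1) ≤ τ k) (r : ℤ) :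
    hlen S (dT B y δ) (DT B y P Gt fun l => τ l + (nF * B₀ : ℕ)) (fun _ => ⊥) r ≤
      hlen S (dT B y δ) (DT B y P Gt τ) (DT B y P Gt fun l => τ l + (nF * B₀ : ℕ)) (r - 1) := by
  have hd := dT_dT (B := B) y δ H.sq0
  have hle : ∀ r, DT B y P Gt (fun l => τ l + (nF * B₀ : ℕ)) r ≤ DT B y P Gt τ r :=
    DT_mono y H.anti fun l _ => by omega
  rw [hlen_eq_left hd (DT_stable H y _) (bot_DT_stable _) (fun _ => bot_le) hle,
    hlen_eq_right hd (DT_stable H y _) (bot_DT_stable _) (DT_stable H y τ) (fun _ => bot_le) hle,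
    imgA_eq_zero H G hτ, zero_add, show r - 1 + 1 = r by ring]
  exact le_add_self

lemma DT_zero_eq_UT (H : FiltSys I d δ P Gt) :
    DT B y P Gt (fun _ => 0) = UT S B d (fun i => Gt 0 ⊓ P i) := by
  funext r
  ext f
  rw [mem_DT, mem_UT]
  refine ⟨fun h => h.1, fun h => ⟨h, fun s => ?_⟩⟩
  exact kd_mem_of_comp y _ f s fun l _ => gbar_mono inf_le_left (h _)

/-- The main inequality. -/
theorem core_inequality (H : FiltSys I d δ P Gt) (HB : HPHyp B y I β)
    (G : GhostData B y δ P Gt B₀ nF) (hfin : ∀ j i, hg δ P Gt j i ≠ ⊤)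
    (hK : ∀ n p, khlen y (B ⊗[R] HMod δ (fun i => Gt 0 ⊓ P i) (fun _ => ⊥) n) p ≠ ⊤) :
    0 ≤ ∑ n ∈ Finset.Icc (-(d : ℤ)) d,
          sgn n * kchi y (B ⊗[R] HMod δ (fun i => Gt 0 ⊓ P i) (fun _ => ⊥) n) +
        ∑ m ∈ Finset.range d, (∑ p ∈ Finset.Icc (m + 1) d, (-1 : ℤ) ^ p * (β p : ℤ)) *
          chiG d δ P Gt (-((m + 1 : ℕ) : ℤ)) +
        ∑ r ∈ Finset.Icc (-((3 * d + 3 : ℕ) : ℤ)) (3 * d + 3 : ℕ),
          if r = 0 then 0 else (errBound d (nF * B₀) β δ P Gt r : ℤ) := by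
  set N : ℕ := 3 * d + 3 with hNdef
  have hN : 3 * d + 3 ≤ N := le_rfl
  have hd := dT_dT (B := B) y δ H.sq0
  have hbd : ∀ τ : ℕ → ℤ, ∀ r : ℤ, r < -(N : ℤ) + 1 ∨ (N : ℤ) < r → DT B y P Gt τ r = ⊥ :=
    fun τ r hr => DT_eq_bot H τ hN hr
  -- finiteness of the untwisted complex
  have hU0 : ∀ r, hlen S (dT B y δ) (DT B y P Gt fun _ => 0) (fun _ => ⊥) r ≠ ⊤ := by
    intro r
    refine ne_top_of_le_ne_top ?_ (hlen_cyc_le_right H G (τ := fun _ => 0) (fun k _ => le_rfl) r)
    let X : ℕ → ℤ → Submodule S (Finset (Fin d) → B ⊗[R] A) :=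
      fun k => DT B y P Gt fun _ => ((nF * B₀ : ℕ) : ℤ) - k
    have hX : ∀ k r, hlen S (dT B y δ) (X (k + 1)) (X k) r ≠ ⊤ := by
      intro k r
      simp only [X]
      have e1 : (DT B y P Gt fun _ => ((nF * B₀ : ℕ) : ℤ) - ((k + 1 : ℕ) : ℤ)) =
          DT B y P Gt (tauConst d (((nF * B₀ : ℕ) : ℤ) - k - 1) (d + 1)) :=
        DT_congr H fun l hl => by simp only [tauConst]; split_ifs <;> omega
      have e2 : (DT B y P Gt fun _ => ((nF * B₀ : ℕ) : ℤ) - (k : ℤ)) =
          DT B y P Gt (tauConst d (((nF * B₀ : ℕ) : ℤ) - k - 1) 0) :=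
        DT_congr H fun l hl => by simp only [tauConst]; split_ifs <;> omega
      rw [e1, e2]
      exact hlen_chain_ne_top hd (fun i => DT B y P Gt (tauConst d _ i)) (d + 1)
        (fun i _ => DT_stable H y _) (fun i _ r => DT_mono y H.anti (fun l _ => by
          simp only [tauConst]; split_ifs <;> omega) r)
        (fun i hi r => hlen_step_ne_top H HB hfin (tauConst_step _ (by omega)) r) r
    have := hlen_chain_ne_top hd X (nF * B₀) (fun k _ => DT_stable H y _)
      (fun k _ r => DT_mono y H.anti (fun l _ => by omega) r) (fun k _ => hX k) r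
    simp only [X] at this
    simpa using this
  -- the walk
  let σ : ℕ → ℕ → ℤ := fun m l => -((min l m : ℕ) : ℤ)
  let W : ℕ → ℤ → Submodule S (Finset (Fin d) → B ⊗[R] A) := fun m => DT B y P Gt (σ m)
  have hWle : ∀ m r, W m r ≤ W (m + 1) r := fun m r =>
    DT_mono y H.anti (fun l _ => by simp only [σ]; omega) r
  have hstage : ∀ m, m < d → (∀ r, hlen S (dT B y δ) (W (m + 1)) (W m) r ≠ ⊤) ∧
      eu S (dT B y δ) (W (m + 1)) (W m) N =
        (∑ p ∈ Finset.Icc (m + 1) d, (-1 : ℤ) ^ p * (β p : ℤ)) *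
          chiG d δ P Gt (-((m + 1 : ℕ) : ℤ)) := by
    intro m hm
    have e1 : W (m + 1) = DT B y P Gt (tauWalk d m (d - m)) :=
      DT_congr H fun l hl => by simp only [σ, tauWalk]; split_ifs <;> omega
    have e2 : W m = DT B y P Gt (tauWalk d m 0) :=
      DT_congr H fun l hl => by simp only [σ, tauWalk]; split_ifs <;> omega
    have hmono : ∀ k r, DT B y P Gt (tauWalk d m k) r ≤ DT B y P Gt (tauWalk d m (k + 1)) r :=
      fun k r => DT_mono y H.anti (fun l _ => by simp only [tauWalk]; split_ifs <;> omega) r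
    have hf : ∀ k < d - m, ∀ r, hlen S (dT B y δ) (DT B y P Gt (tauWalk d m (k + 1)))
        (DT B y P Gt (tauWalk d m k)) r ≠ ⊤ :=
      fun k hk r => hlen_step_ne_top H HB hfin (tauWalk_step m (by omega)) r
    refine ⟨fun r => ?_, ?_⟩
    · rw [e1, e2]
      exact hlen_chain_ne_top hd (fun k => DT B y P Gt (tauWalk d m k)) (d - m)
        (fun k _ => DT_stable H y _) (fun k _ => hmono k) hf r
    · rw [e1, e2, eu_chain hd (fun k => DT B y P Gt (tauWalk d m k)) (d - m)
        (fun k _ => DT_stable H y _) (fun k _ => hmono k) N (fun k _ => hbd _) hf, Finset.sum_mul]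
      refine Finset.sum_bij (fun k _ => d - k) ?_ ?_ ?_ ?_
      · intro k hk; rw [Finset.mem_range] at hk; rw [Finset.mem_Icc]; omega
      · intro a ha b hb h; rw [Finset.mem_range] at ha hb; omega
      · intro p hp; rw [Finset.mem_Icc] at hp
        exact ⟨d - p, Finset.mem_range.2 (by omega), by omega⟩
      · intro k hk
        rw [Finset.mem_range] at hk
        exact eu_step H HB hfin (tauWalk_step m (by omega)) hN
  have e0 : W 0 = DT B y P Gt fun _ => 0 :=
    DT_congr H fun l hl => by simp [σ]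
  have ed : W d = DT B y P Gt fun l => (0 : ℤ) - l :=
    DT_congr H fun l hl => by simp only [σ]; omega
  have hW0d : ∀ r, W 0 r ≤ W d r := fun r => DT_mono y H.anti (fun l _ => by simp only [σ]; omega) r
  have htot := eu_add hd (DT_stable H y (σ 0)) (bot_DT_stable _) (DT_stable H y (σ d))
    (fun _ => bot_le) hW0d N (hbd _) (fun r => by
      have := hU0 r; rw [← e0] at this; exact this)
    (hlen_chain_ne_top hd W d (fun m _ => DT_stable H y _) (fun m _ => hWle m)
      (fun m hm => (hstage m hm).1))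
  change eu S (dT B y δ) (W d) (fun _ => ⊥) N = eu S (dT B y δ) (W 0) (fun _ => ⊥) N +
    eu S (dT B y δ) (W d) (W 0) N at htot
  rw [eu_chain hd W d (fun m _ => DT_stable H y _) (fun m _ => hWle m) N (fun m _ => hbd _)
    (fun m hm => (hstage m hm).1),
    Finset.sum_congr rfl fun m hm => (hstage m (Finset.mem_range.1 hm)).2,
    e0, DT_zero_eq_UT H, eu_UT y H.sq0 ?_ ?_ hK N hN, ed] at htot
  · rw [← htot, eu, ← Finset.sum_add_distrib]
    refine Finset.sum_nonneg fun r _ => ?_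
    by_cases hr : r = 0
    · simp [hr, sgn]
    rw [if_neg hr]
    have hle : ((hlen S (dT B y δ) (DT B y P Gt fun l => (0 : ℤ) - l) (fun _ => ⊥) r).toNat : ℤ)
        ≤ (errBound d (nF * B₀) β δ P Gt r : ℤ) := by
      have hfin' : ∀ (c : ℤ) (r : ℤ), (∑ k ∈ Finset.range (nF * B₀),
          ∑ p ∈ Finset.range (d + 1), (β p : ℕ∞) * hg δ P Gt (c + k - p) (r + p)).toNat =
          ∑ k ∈ Finset.range (nF * B₀), ∑ p ∈ Finset.range (d + 1),
            β p * (hg δ P Gt (c + k - p) (r + p)).toNat := by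
        intro c r
        rw [ENat.toNat_sum fun k _ => ?_]
        · refine Finset.sum_congr rfl fun k _ => ?_
          rw [ENat.toNat_sum]
          · simp [ENat.toNat_mul]
          · exact fun p _ => WithTop.mul_ne_top (ENat.coe_ne_top _) (hfin _ _)
        · rw [ENat.sum_ne_top]
          exact fun p _ => WithTop.mul_ne_top (ENat.coe_ne_top _) (hfin _ _)
      have htop : ∀ c r, (∑ k ∈ Finset.range (nF * B₀),
          ∑ p ∈ Finset.range (d + 1), (β p : ℕ∞) * hg δ P Gt (c + k - p) (r + p)) ≠ ⊤ := by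
        intro c r
        simp only [ENat.sum_ne_top]
        exact fun k _ p _ => WithTop.mul_ne_top (ENat.coe_ne_top _) (hfin _ _)
      rw [Nat.cast_le, errBound]
      by_cases hpos : 0 < r
      · simp only [if_pos hpos]
        have h := (hlen_cyc_le_right H G (τ := fun l => (0 : ℤ) - l) (fun k _ => by omega) r).trans
          (le_of_eq_of_le (by
            congr 2; funext l; ring) (window_le H HB hfin 0 (nF * B₀) r))
        have h' := ENat.toNat_le_toNat h (htop _ _)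
        rw [hfin'] at h'
        simpa using h'
      · simp only [if_neg hpos]
        have h := hlen_cyc_le_left H G (τ := fun l => -((nF * B₀ : ℕ) : ℤ) - l)
          (fun k _ => by omega) r
        have e : (fun l : ℕ => -((nF * B₀ : ℕ) : ℤ) - l + (nF * B₀ : ℕ)) = fun l : ℕ => (0 : ℤ) - l := by
          funext l; ring
        have e' : (fun l : ℕ => -((nF * B₀ : ℕ) : ℤ) + (nF * B₀ : ℕ) - l) = fun l : ℕ => (0 : ℤ) - l := by
          funext l; ring
        have h2 := window_le (B := B) (y := y) H HB hfin (-((nF * B₀ : ℕ) : ℤ)) (nF * B₀) (r - 1)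
        rw [e'] at h2
        rw [e] at h
        have h' := ENat.toNat_le_toNat (h.trans h2) (htop _ _)
        rw [hfin'] at h'
        exact h'
    rcases Int.units_eq_one_or (Int.negOnePow r) with h | h <;> simp only [sgn, h] <;>
      push_cast <;> omega
  · intro i
    exact (Submodule.map_inf_le _).trans (inf_le_inf (H.level 0) (H.degree i))
  · intro i hi
    rw [H.bound i hi, inf_bot_eq]

end Vale.Agent.P202
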