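import Vale.Agent.P202.DExt
import Vale.Agent.P202.Reduce

/-! Multiplicity does not go up on localising a complete local ring at a prime of coheight one. -/

universe u v

namespace Vale.Agent.P202

open IsLocalRing Filter

section Regular

variable {T : Type u} [CommRing T] [IsLocalRing T] [IsNoetherianRing T]

lemma length_contract_le {A : Type v} [CommRing A] [IsLocalRing A] [Algebra T A] {x : T}
    (hx : x ∈ maximalIdeal T) (hxu : IsUnit (algebraMap T A x))
    (hsurj : ∀ J J' : Ideal A, J.comap (algebraMap T A) ≤ J'.comap (algebraMap T A) → J ≤ J')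
    (k : ℕ) : ∀ I : Ideal A, Module.length A (A ⧸ I) = k →
      (k : ℕ∞) ≤ sq T ⊤ (I.comap (algebraMap T A) ⊔ Ideal.span {x}) := by
  induction k with
  | zero => intro I _; simp
  | succ k ih =>
    intro I hI
    have hne : I ≠ ⊤ := by
      rintro rfl
      rw [length_quot_eq_sq, sq_eq_zero_iff.2 le_rfl] at hI
      exact absurd hI.symm (by norm_cast)
    obtain ⟨a, haI, -, hlen⟩ := exists_simple_step hne (by rw [hI]; exact ENat.natCast_ne_top _)
    rw [hI, Nat.cast_succ] at hlen
    have hJ := ih _ ((ENat.addLECancellable_of_ne_top ENat.one_ne_top).inj_left.1 hlen)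
    set cI := I.comap (algebraMap T A)
    set cJ := (I ⊔ Ideal.span {a}).comap (algebraMap T A)
    have hIJ : cI ≤ cJ := Ideal.comap_mono le_sup_left
    rw [sq_add (M := cJ ⊔ Ideal.span {x}) (sup_le_sup_right hIJ _) le_top, Nat.cast_succ]
    refine add_le_add hJ (one_le_sq fun h => haI ?_)
    have h1 : cJ ≤ cI ⊔ maximalIdeal T • cJ := by
      intro z hz
      obtain ⟨i, hi, w, hw, rfl⟩ := Submodule.mem_sup.1 (h (Submodule.mem_sup_left hz))
      obtain ⟨c, rfl⟩ := Ideal.mem_span_singleton'.1 hw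
      refine Submodule.add_mem_sup hi ?_
      have hcx : c * x ∈ cJ := by simpa using cJ.sub_mem hz (hIJ hi)
      have hc : c ∈ cJ := by
        rw [Ideal.mem_comap] at hcx ⊢
        rw [map_mul] at hcx
        exact (Ideal.mul_unit_mem_iff_mem _ hxu).1 hcx
      rw [mul_comm]
      exact Submodule.smul_mem_smul hx hc
    have h2 : cJ ≤ cI := Submodule.le_of_le_smul_of_le_jacobson_bot
      (IsNoetherian.noetherian _) (maximalIdeal_le_jacobson _) h1
    exact hsurj _ _ h2 (Submodule.mem_sup_right (Ideal.mem_span_singleton_self a))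

variable {O : Type u} [CommRing O] [IsDomain O] [IsLocalRing O] (ψ : T →+* O)

lemma sup_pow_le_of_add (Q X : Ideal T) (n : ℕ) :
    ∀ a b, a + b = n + 1 → (Q ⊔ X) ^ n ≤ Q ^ a ⊔ X ^ b := by
  induction n with
  | zero =>
    intro a b h
    rcases Nat.eq_zero_or_pos a with rfl | ha
    · simp
    · obtain rfl : b = 0 := by omega
      simp
  | succ n ih =>
    intro a b h
    rw [pow_succ, Submodule.mul_sup]
    refine sup_le ?_ ?_
    · rcases a with _ | a
      · simp
      · refine (Ideal.mul_mono_left (ih a b (by omega))).trans ?_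
        rw [Submodule.sup_mul, pow_succ Q a]
        exact sup_le_sup_left Ideal.mul_le_left _ |>.trans le_rfl
    · rcases b with _ | b
      · simp
      · refine (Ideal.mul_mono_left (ih a b (by omega))).trans ?_
        rw [Submodule.sup_mul, pow_succ X b]
        exact sup_le_sup_right Ideal.mul_le_left _ |>.trans le_rfl

theorem sum_hs_le_of_surjective_dvr (hψ : Function.Surjective ψ) (π : O) (hπ0 : π ≠ 0)
    (hπ : maximalIdeal O = Ideal.span {π}) (n : ℕ) :
    ∑ i ∈ Finset.range n, hs (Localization.AtPrime (RingHom.ker ψ)) (i + 1) ≤ hs T n := by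
  let Q := RingHom.ker ψ
  let A := Localization.AtPrime Q
  have : IsNoetherianRing A := IsLocalization.isNoetherianRing Q.primeCompl _ inferInstance
  obtain ⟨x, hx⟩ := hψ π
  have hπm : π ∈ maximalIdeal O := by rw [hπ]; exact Ideal.mem_span_singleton_self π
  have hxm : x ∈ maximalIdeal T := fun hu =>
    (mem_maximalIdeal _).1 hπm (hx ▸ hu.map ψ)
  have : IsLocalHom ψ := hψ.isLocalHom
  have hm : maximalIdeal T ≤ Q ⊔ Ideal.span {x} := by
    intro t ht
    have : ψ t ∈ Ideal.span {π} := hπ ▸ map_nonunit ψ t ht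
    obtain ⟨c, hc⟩ := Ideal.mem_span_singleton'.1 this
    obtain ⟨c, rfl⟩ := hψ c
    rw [← sub_add_cancel t (c * x)]
    refine Submodule.add_mem_sup ?_ (Ideal.mul_mem_left _ _ (Ideal.mem_span_singleton_self x))
    show ψ (t - c * x) = 0
    rw [map_sub, map_mul, hx, hc, sub_self]
  have hxu : IsUnit (algebraMap T A x) :=
    IsLocalization.map_units A (⟨x, fun h => hπ0 (hx ▸ h)⟩ : Q.primeCompl)
  have hsurj : ∀ J J' : Ideal A, J.comap (algebraMap T A) ≤ J'.comap (algebraMap T A) → J ≤ J' :=
    fun J J' h => by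
      rw [← IsLocalization.map_comap Q.primeCompl A J, ← IsLocalization.map_comap Q.primeCompl A J']
      exact Ideal.map_mono h
  let F : ℕ → Ideal T := fun i => (maximalIdeal A ^ i).comap (algebraMap T A)
  have hQF : ∀ i, Q ^ i ≤ F i := fun i => by
    rw [← Ideal.map_le_iff_le_comap, Ideal.map_pow, Localization.AtPrime.map_eq_maximalIdeal]
  let N : ℕ → Submodule T T := fun j => Ideal.span {x ^ j} ⊔ maximalIdeal T ^ n
  have hN : Antitone N := antitone_nat_of_succ_le fun j => sup_le_sup_right
    (Ideal.span_singleton_le_span_singleton.2 (pow_dvd_pow x j.le_succ)) _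
  have h0 : N 0 = ⊤ := by simp [N, Ideal.span_singleton_one]
  have hn : N n = maximalIdeal T ^ n :=
    sup_eq_right.2 ((Ideal.span_singleton_le_iff_mem _).2 (Ideal.pow_mem_pow hxm n))
  have hstep : ∀ j ∈ Finset.range n, (hs A (n - j) : ℕ∞) ≤ sq T (N j) (N (j + 1)) := by
    intro j hj
    rw [Finset.mem_range] at hj
    refine le_trans ?_ (sq_mono_left
      (N := (⊤ : Submodule T T).map (LinearMap.toSpanSingleton T T (x ^ j))) ?_)
    · rw [sq_map]
      refine (length_contract_le hxm hxu hsurj _ _ (coe_hs (n - j)).symm).trans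
        (sq_mono_right fun z hz => ?_)
      replace hz : z * x ^ j ∈ N (j + 1) := hz
      have hle : N (j + 1) ≤ F (n - j) ⊔ Ideal.span {x ^ (j + 1)} := by
        refine sup_le le_sup_right ((Ideal.pow_right_mono hm n).trans ?_)
        refine (sup_pow_le_of_add Q _ n (n - j) (j + 1) (by omega)).trans ?_
        rw [Ideal.span_singleton_pow]
        exact sup_le_sup_right (hQF _) _
      obtain ⟨i, hi, w, hw, hiw⟩ := Submodule.mem_sup.1 (hle hz)
      obtain ⟨c, rfl⟩ := Ideal.mem_span_singleton'.1 hw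
      rw [← sub_add_cancel z (c * x)]
      refine Submodule.add_mem_sup ?_ (Ideal.mul_mem_left _ _ (Ideal.mem_span_singleton_self x))
      have : (z - c * x) * x ^ j ∈ F (n - j) := by
        have : (z - c * x) * x ^ j = i := by rw [pow_succ] at hiw; linear_combination -hiw
        rw [this]; exact hi
      rw [Ideal.mem_comap, map_mul, map_pow] at this
      rw [Ideal.mem_comap]
      exact (Ideal.mul_unit_mem_iff_mem _ (hxu.pow j)).1 this
    · rw [Submodule.map_top, LinearMap.range_toSpanSingleton]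
      exact le_sup_left
  have hsum := sq_chain N hN n
  rw [h0, hn, ← length_quot_eq_sq] at hsum
  rw [← Nat.cast_le (α := ℕ∞), coe_hs, hsum, ← sum_reflect_hs, Nat.cast_sum]
  exact Finset.sum_le_sum hstep

end Regular

lemma le_of_hsUpper_hsLower {A : Type u} [CommRing A] [IsLocalRing A] {d : ℕ} {e e' : ℝ}
    (hu : HSUpper A d e) (hl : HSLower A d e') : e' ≤ e := by
  by_contra h
  obtain ⟨c, h1, h2⟩ := exists_between (not_le.1 h)
  obtain ⟨c', h3, h4⟩ := exists_between h2
  obtain ⟨n, hn, hn', hn0⟩ := ((hu c h1).and ((hl c' h4).and (eventually_gt_atTop 0))).exists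
  have hp : (0 : ℝ) < (n : ℝ) ^ d := pow_pos (Nat.cast_pos.2 hn0) _
  nlinarith

/-- The multiplicity bound from a surjection, after adjoining generators, onto a regular curve. -/
theorem le_of_generators {S O : Type u} [CommRing S] [IsLocalRing S] [IsNoetherianRing S]
    [CommRing O] [IsDomain O] [IsLocalRing O] (ψ₀ : S →+* O) [IsLocalHom ψ₀] (π : O) (hπ0 : π ≠ 0)
    (hπ : maximalIdeal O = Ideal.span {π}) (s : Finset O)
    (hgen : ∀ v ∈ s, (∃ a b : S, ψ₀ b ≠ 0 ∧ ψ₀ b * v = ψ₀ a) ∧
      ∃ g : Polynomial S, g.Monic ∧ g.eval₂ ψ₀ v = 0)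
    (hclo : ∀ z : O, ∃ u ∈ Subring.closure (Set.range ψ₀ ∪ (s : Set O)),
      ∃ w ∈ Subring.closure (Set.range ψ₀ ∪ (s : Set O)), IsUnit w ∧ z * w = u)
    {d : ℕ} {e e' : ℝ} (hu : HSUpper S (d + 1) e)
    (hl : HSLower (Localization.AtPrime (RingHom.ker ψ₀)) d e') : e' ≤ e := by
  classical
  have hind : ∀ s' : Finset O, s' ⊆ s → ∃ (T : Type u) (_ : CommRing T) (_ : IsLocalRing T)
      (_ : IsNoetherianRing T) (ψ : T →+* O) (_ : IsLocalHom ψ),
      ψ₀.range ≤ ψ.range ∧ (∀ v ∈ s', v ∈ ψ.range) ∧
      ∃ k : ℕ, (∀ d e, HSUpper S d e → HSUpper T (d + k) e) ∧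
        (∀ d e, HSLower (Localization.AtPrime (RingHom.ker ψ₀)) d e →
          HSLower (Localization.AtPrime (RingHom.ker ψ)) (d + k) e) := by
    intro s'
    induction s' using Finset.induction_on with
    | empty =>
      exact fun _ => ⟨S, inferInstance, inferInstance, inferInstance, ψ₀, inferInstance, le_rfl,
        by simp, 0, fun d e h => h, fun d e h => h⟩
    | insert v s' _ ih =>
      intro hsub
      obtain ⟨T, _, _, _, ψ, _, hr, hs, k, hk1, hk2⟩ :=
        ih ((Finset.subset_insert v s').trans hsub)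
      obtain ⟨⟨p, q, hq, hpq⟩, g, hg, hgv⟩ := hgen v (hsub (Finset.mem_insert_self v s'))
      obtain ⟨a, ha⟩ := hr ⟨p, rfl⟩
      obtain ⟨b, hb⟩ := hr ⟨q, rfl⟩
      have hlift : g.map ψ₀ ∈ Polynomial.lifts ψ := by
        rw [Polynomial.lifts_iff_coeff_lifts]
        intro i
        rw [Polynomial.coeff_map]
        exact hr ⟨_, rfl⟩
      obtain ⟨f, hf, -, hfm⟩ := Polynomial.lifts_and_degree_eq_and_monic hlift (hg.map _)
      have hfv : f.eval₂ ψ v = 0 := by
        rw [← Polynomial.eval_map, hf, Polynomial.eval_map, hgv]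
      obtain ⟨T', i1, i2, i3, ψ', i4, hr', hv', hu', hl'⟩ :=
        exists_adjoin_step ψ v a b (hb ▸ hq) (by rw [hb, ha, hpq]) f hfm hfv
      refine ⟨T', i1, i2, i3, ψ', i4, hr.trans hr', ?_, k + 1,
        fun d e h => hu' _ _ (hk1 d e h), fun d e h => hl' _ _ (hk2 d e h)⟩
      intro w hw
      rcases Finset.mem_insert.1 hw with rfl | hw
      · exact hv'
      · exact hr' (hs w hw)
  obtain ⟨T, _, _, _, ψ, _, hr, hgens, k, hk1, hk2⟩ := hind s subset_rfl
  have hle : Subring.closure (Set.range ψ₀ ∪ (s : Set O)) ≤ ψ.range :=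
    Subring.closure_le.2 (Set.union_subset (fun x hx => hr hx) hgens)
  have hsurj : Function.Surjective ψ := by
    intro z
    obtain ⟨u, hu', w, hw, hwu, hzw⟩ := hclo z
    obtain ⟨a, ha⟩ := hle hu'
    obtain ⟨b, hb⟩ := hle hw
    have hub : IsUnit b := IsLocalHom.map_nonunit (f := ψ) b (hb ▸ hwu)
    refine ⟨a * ↑hub.unit⁻¹, ?_⟩
    rw [map_mul, ha, ← hzw, ← hb, mul_assoc, ← map_mul, IsUnit.mul_val_inv, map_one, mul_one]
  have hfin := hsLower_of_sum (hk2 d e' hl) (sum_hs_le_of_surjective_dvr ψ hsurj π hπ0 hπ)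
  have hu2 := hk1 _ e hu
  rw [show d + k + 1 = d + 1 + k by ring] at hfin
  exact le_of_hsUpper_hsLower hu2 hfin

section Normalisation

variable {D : Type u} [CommRing D] [IsDomain D] [IsLocalRing D] [IsNoetherianRing D]
  (hD : ∀ p : Ideal D, p.IsPrime → p ≠ ⊥ → p = maximalIdeal D)

include hD

lemma exists_pow_maximalIdeal_le {J : Ideal D} (hJ : J ≠ ⊥) : ∃ N, maximalIdeal D ^ N ≤ J := by
  refine Ideal.exists_pow_le_of_le_radical_of_fg ?_ (Ideal.fg_of_isNoetherianRing _)
  rw [Ideal.radical_eq_sInf]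
  refine le_sInf fun p hp => ?_
  rw [hD p hp.2 fun h => hJ (le_bot_iff.1 (h ▸ hp.1))]

lemma length_quot_ne_top {J : Ideal D} (hJ : J ≠ ⊥) : sq D ⊤ J ≠ ⊤ := by
  obtain ⟨N, hN⟩ := exists_pow_maximalIdeal_le hD hJ
  refine ne_top_of_le_ne_top ?_ (sq_mono_right hN)
  rw [← length_quot_eq_sq]
  exact length_quot_maximalIdeal_pow_ne_top N

variable {K : Type u} [Field K] [Algebra D K] [IsFractionRing D K]

lemma sq_fg_le {x : D} (hx : x ≠ 0) {M : Submodule D K} (hM : M.FG) :
    sq D M (M.map (LinearMap.lsmul D K x)) ≤ sq D ⊤ (Ideal.span {x}) := by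
  classical
  let lin : D →ₗ[D] K := Algebra.linearMap D K
  have hlin : Function.Injective lin := IsFractionRing.injective D K
  obtain ⟨g, rfl⟩ := hM
  obtain ⟨c, hc⟩ := IsLocalization.exist_integer_multiples_of_finset (nonZeroDivisors D) g
  have hc0 : algebraMap D K c ≠ 0 := fun h =>
    nonZeroDivisors.ne_zero c.2 (hlin (h.trans (map_zero _).symm))
  have hinj : Function.Injective (LinearMap.lsmul D K (c : D)) := fun a b h => by
    simpa [Algebra.smul_def, hc0] using h
  set M := Submodule.span D (g : Set K)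
  let cM := M.map (LinearMap.lsmul D K (c : D))
  have hrange : cM ≤ LinearMap.range lin := by
    show Submodule.map _ (Submodule.span D (g : Set K)) ≤ _
    rw [Submodule.map_span, Submodule.span_le]
    rintro _ ⟨m, hm, rfl⟩
    exact hc m hm
  let J : Submodule D D := cM.comap lin
  have hJ : J.map lin = cM := by rw [Submodule.map_comap_eq, inf_eq_right.2 hrange]
  let xD : D →ₗ[D] D := LinearMap.lsmul D D x
  have hxD : Function.Injective xD := fun a b h => mul_left_cancel₀ hx h
  have e1 : sq D M (M.map (LinearMap.lsmul D K x)) = sq D J (J.map xD) := by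
    have h1 : sq D cM ((M.map (LinearMap.lsmul D K x)).map (LinearMap.lsmul D K (c : D))) =
        sq D M (M.map (LinearMap.lsmul D K x)) := by
      rw [sq_map, Submodule.comap_map_eq_of_injective hinj]
    have h2 : (M.map (LinearMap.lsmul D K x)).map (LinearMap.lsmul D K (c : D)) =
        (J.map xD).map lin := by
      rw [← Submodule.map_comp, ← Submodule.map_comp,
        show LinearMap.lsmul D K (c : D) ∘ₗ LinearMap.lsmul D K x =
          LinearMap.lsmul D K x ∘ₗ LinearMap.lsmul D K (c : D) by ext a; exact smul_comm _ _ _,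
        show lin ∘ₗ xD = LinearMap.lsmul D K x ∘ₗ lin by ext; simp [lin, xD, Algebra.smul_def],
        Submodule.map_comp, Submodule.map_comp, hJ]
    rw [← h1, h2, ← hJ, sq_map, Submodule.comap_map_eq_of_injective hlin]
  rw [e1]
  rcases eq_or_ne J ⊥ with hJ0 | hJ0
  · rw [hJ0, sq_eq_zero_iff.2 bot_le]; exact zero_le
  have hxJ : J.map xD ≤ J := by
    rintro _ ⟨j, hj, rfl⟩
    exact J.smul_mem x hj
  have hspan : (⊤ : Submodule D D).map xD = Ideal.span {x} := by
    ext z
    simp [xD, Ideal.mem_span_singleton', mul_comm, eq_comm]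
  have hA := sq_add (S := D) hxJ (le_top : J ≤ ⊤)
  have hB := sq_add (S := D) (Submodule.map_mono (le_top : J ≤ ⊤) : J.map xD ≤ _)
    (le_top : (⊤ : Submodule D D).map xD ≤ ⊤)
  rw [sq_map xD ⊤, Submodule.comap_map_eq_of_injective hxD, hspan, hA, add_comm] at hB
  exact ((ENat.addLECancellable_of_ne_top (length_quot_ne_top hD hJ0)).add_le_add_iff_right).1 hB.le

lemma exists_fg_sup_eq {x : D} (hx : x ≠ 0) (V : Submodule D K) :
    ∃ M : Submodule D K, M.FG ∧ M ≤ V ∧ V ≤ M ⊔ V.map (LinearMap.lsmul D K x) := by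
  classical
  set L := V.map (LinearMap.lsmul D K x)
  have hb : ∀ M : Submodule D K, M.FG → M ≤ V → sq D M L ≤ sq D ⊤ (Ideal.span {x}) :=
    fun M hM hle => (sq_mono_right (Submodule.map_mono hle)).trans (sq_fg_le hD hx hM)
  have hl : sq D ⊤ (Ideal.span {x}) ≠ ⊤ :=
    length_quot_ne_top hD (by simpa using hx)
  let μ : Submodule D K → ℕ := fun M => (sq D ⊤ (Ideal.span {x})).toNat - (sq D M L).toNat
  obtain ⟨M, ⟨hM, hMV⟩, hmin⟩ := (InvImage.wf μ Nat.lt_wfRel.wf).has_min
    {M : Submodule D K | M.FG ∧ M ≤ V} ⟨⊥, Submodule.fg_bot, bot_le⟩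
  refine ⟨M, hM, hMV, fun v hv => ?_⟩
  by_contra hne
  let M' := M ⊔ Submodule.span D {v}
  have hM'V : M' ≤ V := sup_le hMV ((Submodule.span_singleton_le_iff_mem _ _).2 hv)
  have hM' : M'.FG := hM.sup (Submodule.fg_span_singleton v)
  refine hmin M' ⟨hM', hM'V⟩ ?_
  have hfin := ne_top_of_le_ne_top hl (hb M' hM' hM'V)
  have h1 : sq D M' L = sq D (M' ⊔ L) (M ⊔ L) + sq D M L := by
    rw [← sq_sup_left M' L, sq_add (M := M ⊔ L) le_sup_right (sup_le_sup_right le_sup_left L),
      sq_sup_left M L]
  have h2 : 1 ≤ sq D (M' ⊔ L) (M ⊔ L) := one_le_sq fun h => hne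
    (h (Submodule.mem_sup_left (Submodule.mem_sup_right (Submodule.mem_span_singleton_self v))))
  have hle := ENat.toNat_le_toNat (hb M' hM' hM'V) hl
  show μ M' < μ M
  simp only [μ]
  rw [h1] at hfin hle ⊢
  obtain ⟨f1, f2⟩ := enat_add_ne_top.1 hfin
  have h3 := ENat.toNat_le_toNat h2 f1
  rw [ENat.toNat_add f1 f2] at hle ⊢
  simp only [ENat.toNat_one] at h3
  omega

end Normalisation

lemma hsLower_congr {A : Type u} [CommRing A] {P P' : Ideal A} [P.IsPrime] [P'.IsPrime]
    (h : P = P') {d : ℕ} {e : ℝ} (hl : HSLower (Localization.AtPrime P) d e) :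
    HSLower (Localization.AtPrime P') d e := by
  subst h; exact hl

/-- The bound from a finite birational Dedekind extension and one of its local rings. -/
theorem le_of_dedekind {S V O : Type u} [CommRing S] [IsLocalRing S] [IsNoetherianRing S]
    [CommRing V] [Algebra S V] [Module.Finite S V] (n : Ideal V) [n.IsPrime]
    [CommRing O] [IsDomain O] [IsDiscreteValuationRing O] [Algebra V O]
    [IsLocalization.AtPrime O n] (hinj : Function.Injective (algebraMap V O))
    (hcomap : n.comap (algebraMap S V) = maximalIdeal S)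
    (hbir : ∀ v : V, ∃ a b : S, algebraMap S V b ≠ 0 ∧ algebraMap S V b * v = algebraMap S V a)
    (P : Ideal S) [P.IsPrime] (hker : RingHom.ker (algebraMap S V) = P)
    {d : ℕ} {e e' : ℝ} (hu : HSUpper S (d + 1) e)
    (hl : HSLower (Localization.AtPrime P) d e') : e' ≤ e := by
  classical
  let φ : V →+* O := algebraMap V O
  let ψ₀ : S →+* O := φ.comp (algebraMap S V)
  have hψ₀ : IsLocalHom ψ₀ := ⟨fun t ht => by
    by_contra h
    have hmem : t ∈ n.comap (algebraMap S V) := by rw [hcomap]; exact h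
    exact (IsLocalization.AtPrime.to_map_mem_maximal_iff O n _).2 hmem ht⟩
  have hker0 : RingHom.ker ψ₀ = P := by
    rw [← hker]
    ext t
    exact map_eq_zero_iff φ hinj
  obtain ⟨π, hπ⟩ := IsDiscreteValuationRing.exists_irreducible O
  obtain ⟨s, hs⟩ := (inferInstance : Module.Finite S V).fg_top
  refine le_of_generators ψ₀ π hπ.ne_zero hπ.maximalIdeal_eq (s.image φ) ?_ ?_ hu
    (hsLower_congr hker0.symm hl)
  · intro z hz
    obtain ⟨v, -, rfl⟩ := Finset.mem_image.1 hz
    obtain ⟨a, b, hb, hab⟩ := hbir v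
    refine ⟨⟨a, b, fun h => hb (hinj (h.trans (map_zero φ).symm)), ?_⟩, ?_⟩
    · show φ (algebraMap S V b) * φ v = φ (algebraMap S V a)
      rw [← map_mul, hab]
    · obtain ⟨g, hg, hgv⟩ : IsIntegral S v := (Algebra.IsIntegral.of_finite S V).isIntegral v
      refine ⟨g, hg, ?_⟩
      show g.eval₂ (φ.comp (algebraMap S V)) (φ v) = 0
      rw [← Polynomial.hom_eval₂, hgv, map_zero]
  · set R₀ := Subring.closure (Set.range ψ₀ ∪ ((s.image φ : Finset O) : Set O))
    have hV : ∀ v : V, φ v ∈ R₀ := by
      intro v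
      have hv : v ∈ Submodule.span S (s : Set V) := by rw [hs]; trivial
      induction hv using Submodule.span_induction with
      | mem w hw =>
        exact Subring.subset_closure (Or.inr (Finset.mem_coe.2 (Finset.mem_image_of_mem φ hw)))
      | zero => rw [map_zero]; exact zero_mem _
      | add w z _ _ hw hz => rw [map_add]; exact add_mem hw hz
      | smul c w _ hw =>
        rw [Algebra.smul_def, map_mul]
        exact mul_mem (Subring.subset_closure (Or.inl ⟨c, rfl⟩)) hw
    intro z
    obtain ⟨v, w, rfl⟩ := IsLocalization.exists_mk'_eq n.primeCompl z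
    exact ⟨φ v, hV v, φ w, hV w, IsLocalization.map_units O w, IsLocalization.mk'_spec O v w⟩

section Curve

variable {S : Type u} [CommRing S] [IsLocalRing S] [IsNoetherianRing S]
  [IsAdicComplete (maximalIdeal S) S] (P : Ideal S) [P.IsPrime] (hne : P ≠ maximalIdeal S)
  (hcur : ∀ p : Ideal S, p.IsPrime → P < p → p = maximalIdeal S)

include hne hcur

theorem finite_normalisation :
    Module.Finite S ↥(integralClosure (S ⧸ P) (FractionRing (S ⧸ P))) := by
  classical
  set D := S ⧸ P
  set K := FractionRing D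
  set V := integralClosure D K
  have : IsLocalRing D := IsLocalRing.of_surjective' (Ideal.Quotient.mk P) Ideal.Quotient.mk_surjective
  have hD : ∀ p : Ideal D, p.IsPrime → p ≠ ⊥ → p = maximalIdeal D := by
    intro p hp hp0
    have hlt : P < p.comap (Ideal.Quotient.mk P) := by
      refine lt_of_le_of_ne ?_ fun h => hp0 ?_
      · intro z hz
        rw [Ideal.mem_comap, Ideal.Quotient.eq_zero_iff_mem.2 hz]
        exact zero_mem _
      · rw [← Ideal.map_comap_of_surjective (Ideal.Quotient.mk P) Ideal.Quotient.mk_surjective p,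
          ← h, Ideal.map_quotient_self]
    have hmax : (p.comap (Ideal.Quotient.mk P)).IsMaximal := by
      rw [hcur _ inferInstance hlt]; infer_instance
    refine IsLocalRing.eq_maximalIdeal ?_
    rw [← Ideal.map_comap_of_surjective (Ideal.Quotient.mk P) Ideal.Quotient.mk_surjective p]
    exact Ideal.IsMaximal.map_of_surjective_of_ker_le Ideal.Quotient.mk_surjective (by
      rw [Ideal.mk_ker]; exact hlt.le)
  obtain ⟨x, hxm, hxP⟩ := SetLike.exists_of_lt
    (lt_of_le_of_ne (le_maximalIdeal (Ideal.IsPrime.ne_top inferInstance)) hne)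
  set x' : D := Ideal.Quotient.mk P x with hx'
  have hx0 : x' ≠ 0 := fun h => hxP (Ideal.Quotient.eq_zero_iff_mem.1 h)
  have hxu : ¬IsUnit x' := fun h => (mem_maximalIdeal _).1 hxm
    ((Ideal.Quotient.mk_surjective.isLocalHom (f := Ideal.Quotient.mk P)).map_nonunit x h)
  obtain ⟨M, ⟨g, hg⟩, hMV, hVM⟩ := exists_fg_sup_eq hD hx0 (Subalgebra.toSubmodule V)
  have hgV : ∀ i : (↥g), (i : K) ∈ V := fun i => hMV (hg ▸ Submodule.subset_span i.2)
  let F : ((↥g) → S) →ₗ[S] ↥V := Fintype.linearCombination S fun i : ↥g => (⟨(i : K), hgV i⟩ : ↥V)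
  have := isPrecomplete_pi (maximalIdeal S) (↥g)
  obtain ⟨N, hN⟩ := exists_pow_maximalIdeal_le hD (J := Ideal.span {x'}) (by simpa using hx0)
  have hmap : ∀ k, ∀ r ∈ maximalIdeal S ^ (N * k), Ideal.Quotient.mk P r ∈ Ideal.span {x' ^ k} := by
    intro k r hr
    rw [← Ideal.span_singleton_pow]
    refine Ideal.pow_right_mono hN k ?_
    rw [← pow_mul]
    have h1 := Ideal.mem_map_of_mem (Ideal.Quotient.mk P) hr
    rw [Ideal.map_pow] at h1
    refine Ideal.pow_right_mono ?_ _ h1
    have : IsLocalHom (Ideal.Quotient.mk P) := Ideal.Quotient.mk_surjective.isLocalHom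
    exact map_maximalIdeal_le (Ideal.Quotient.mk P)
  have : IsHausdorff (maximalIdeal S) ↥V := by
    refine ⟨fun a ha => ?_⟩
    have hdiv : ∀ k, ∃ v : ↥V, a = x' ^ k • v := by
      intro k
      refine Submodule.smul_induction_on (p := fun z => ∃ v : ↥V, z = x' ^ k • v)
        (SModEq.zero.1 (ha (N * k))) (fun r hr v _ => ?_) ?_
      · obtain ⟨c, hc⟩ := Ideal.mem_span_singleton'.1 (hmap k r hr)
        refine ⟨c • v, ?_⟩
        rw [smul_smul, mul_comm, hc]
        exact (IsScalarTower.algebraMap_smul D r v).symm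
      · rintro y z ⟨v, rfl⟩ ⟨w, rfl⟩
        exact ⟨v + w, (smul_add _ _ _).symm⟩
    by_contra ha0
    obtain ⟨p, s, hs, hps⟩ : ∃ p s : D, s ≠ 0 ∧ algebraMap D K p = s • (a : K) := by
      obtain ⟨p, s, hs, h⟩ := IsFractionRing.div_surjective D (a : K)
      have hs0 : s ≠ 0 := nonZeroDivisors.ne_zero hs
      refine ⟨p, s, hs0, ?_⟩
      rw [Algebra.smul_def, ← h, mul_div_cancel₀]
      exact fun h0 => hs0 (IsFractionRing.injective D K (h0.trans (map_zero _).symm))
    have hp0 : p ≠ 0 := by
      rintro rfl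
      rw [map_zero] at hps
      exact ha0 (Subtype.ext ((smul_eq_zero.1 hps.symm).resolve_left hs))
    obtain ⟨N', hN'⟩ := exists_pow_maximalIdeal_le hD (J := Ideal.span {p}) (by simpa using hp0)
    obtain ⟨d, hd⟩ := Ideal.mem_span_singleton'.1
      (hN' (Ideal.pow_mem_pow ((mem_maximalIdeal _).2 hxu) N'))
    obtain ⟨v, hv⟩ := hdiv (N' + 1)
    have hone : (x' • ((d * s) • v) : ↥V) = 1 := by
      apply Subtype.ext
      have hv' : (a : K) = algebraMap D K x' ^ (N' + 1) * (v : K) := by
        rw [hv]; simp [Algebra.smul_def]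
      have hd' : algebraMap D K d * algebraMap D K p = algebraMap D K x' ^ N' := by
        rw [← map_mul, hd, map_pow]
      have hxK : algebraMap D K x' ^ N' ≠ 0 :=
        pow_ne_zero _ fun h0 => hx0 (IsFractionRing.injective D K (h0.trans (map_zero _).symm))
      rw [hps, Algebra.smul_def, hv', pow_succ] at hd'
      simp only [Algebra.smul_def, map_mul]
      push_cast
      refine mul_left_cancel₀ hxK ?_
      simp only [Subalgebra.coe_algebraMap, mul_one]
      linear_combination hd'
    have hunit : IsUnit (algebraMap D ↥V x') :=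
      IsUnit.of_mul_eq_one _ (by rw [← Algebra.smul_def]; exact hone)
    have hint : (algebraMap D ↥V).IsIntegral := fun z => Algebra.IsIntegral.isIntegral (R := D) z
    exact hxu ((hint.isLocalHom (FaithfulSMul.algebraMap_injective D ↥V)).map_nonunit x' hunit)
  have hF : Function.Surjective F := by
    refine surjective_of_mkQ_comp_surjective (I := maximalIdeal S) fun y => ?_
    obtain ⟨v, rfl⟩ := Submodule.mkQ_surjective _ y
    obtain ⟨m, hm, _, ⟨w, hw, rfl⟩, hv⟩ := Submodule.mem_sup.1 (hVM (v.2 : (v : K) ∈ Subalgebra.toSubmodule V))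
    rw [← hg, ← Subtype.range_coe (s := (g : Set K))] at hm
    obtain ⟨c, hc⟩ := (Submodule.mem_span_range_iff_exists_fun D).1 hm
    choose c' hc' using fun i => Ideal.Quotient.mk_surjective (c i)
    refine ⟨c', ?_⟩
    rw [LinearMap.comp_apply, Submodule.mkQ_apply, Submodule.mkQ_apply, eq_comm,
      Submodule.Quotient.eq]
    have : v - F c' = x • (⟨w, hw⟩ : ↥V) := by
      apply Subtype.ext
      simp only [AddSubgroupClass.coe_sub, F, Fintype.linearCombination_apply,
        AddSubmonoidClass.coe_finset_sum, SetLike.val_smul]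
      rw [← hv, ← hc]
      simp only [← hc', hx', LinearMap.lsmul_apply]
      rw [show x' • w = x • w from IsScalarTower.algebraMap_smul D x w]
      have : ∀ (r : S) (k : K), Ideal.Quotient.mk P r • k = r • k :=
        fun r k => IsScalarTower.algebraMap_smul D r k
      simp only [this]
      show _ + x • w - ∑ i : ↥g, c' i • (i : K) = x • w
      exact add_sub_cancel_left _ _
    rw [this]
    exact Submodule.smul_mem_smul hxm trivial
  exact Module.Finite.of_surjective F hF

/-- Multiplicity does not go up on localising a complete local ring at a prime of coheight one. -/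
theorem le_of_curve {d : ℕ} {e e' : ℝ} (hu : HSUpper S (d + 1) e)
    (hl : HSLower (Localization.AtPrime P) d e') : e' ≤ e := by
  classical
  let D := S ⧸ P
  let K := FractionRing D
  let V := integralClosure D K
  have hfinS : Module.Finite S ↥V := finite_normalisation P hne hcur
  have : Module.Finite D ↥V := Module.Finite.of_restrictScalars_finite S D ↥V
  have : IsLocalRing D := IsLocalRing.of_surjective' (Ideal.Quotient.mk P) Ideal.Quotient.mk_surjective
  have : IsNoetherianRing ↥V := IsNoetherianRing.of_finite D ↥V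
  have : IsFractionRing ↥V K := IsIntegralClosure.isFractionRing_of_finite_extension D K K ↥V
  have : Ring.DimensionLEOne D := ⟨fun {p} hp0 hp => by
    have hlt : P < p.comap (Ideal.Quotient.mk P) := by
      refine lt_of_le_of_ne ?_ fun h => hp0 ?_
      · intro z hz
        rw [Ideal.mem_comap, Ideal.Quotient.eq_zero_iff_mem.2 hz]
        exact zero_mem _
      · rw [← Ideal.map_comap_of_surjective (Ideal.Quotient.mk P) Ideal.Quotient.mk_surjective p,
          ← h, Ideal.map_quotient_self]
    have hmax : (p.comap (Ideal.Quotient.mk P)).IsMaximal := by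
      rw [hcur _ inferInstance hlt]; infer_instance
    rw [← Ideal.map_comap_of_surjective (Ideal.Quotient.mk P) Ideal.Quotient.mk_surjective p]
    exact Ideal.IsMaximal.map_of_surjective_of_ker_le Ideal.Quotient.mk_surjective (by
      rw [Ideal.mk_ker]; exact hlt.le)⟩
  have : IsIntegrallyClosed ↥V := by
    refine (isIntegrallyClosed_iff K).2 fun {z} hz => ?_
    exact ⟨⟨z, isIntegral_trans (A := ↥V) z hz⟩, rfl⟩
  have : IsDedekindRing ↥V := {}
  have : IsDedekindDomain ↥V := {}
  obtain ⟨n, hn⟩ := Ideal.exists_maximal ↥V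
  have hcomap : n.comap (algebraMap S ↥V) = maximalIdeal S := by
    have : Algebra.IsIntegral S ↥V := Algebra.IsIntegral.of_finite S ↥V
    exact IsLocalRing.eq_maximalIdeal (Ideal.isMaximal_comap_of_isIntegral_of_isMaximal n)
  have hn0 : n ≠ ⊥ := by
    rintro rfl
    obtain ⟨x, hxm, hxP⟩ := SetLike.exists_of_lt
      (lt_of_le_of_ne (le_maximalIdeal (Ideal.IsPrime.ne_top inferInstance)) hne)
    rw [← hcomap, Ideal.mem_comap, Ideal.mem_bot] at hxm
    apply hxP
    rw [IsScalarTower.algebraMap_apply S D ↥V] at hxm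
    exact Ideal.Quotient.eq_zero_iff_mem.1
      (FaithfulSMul.algebraMap_injective D ↥V (hxm.trans (map_zero _).symm))
  let O := Localization.AtPrime n
  have : IsDiscreteValuationRing O :=
    IsLocalization.AtPrime.isDiscreteValuationRing_of_dedekind_domain ↥V hn0 O
  have hOinj : Function.Injective (algebraMap ↥V O) :=
    IsLocalization.injective O n.primeCompl_le_nonZeroDivisors
  have : IsDomain O := IsLocalization.isDomain_localization n.primeCompl_le_nonZeroDivisors
  refine le_of_dedekind (O := O) n hOinj hcomap ?_ P ?_ hu hl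
  · intro v
    obtain ⟨p, q, hq, hpq⟩ := IsFractionRing.div_surjective D (v : K)
    have hq0 : q ≠ 0 := nonZeroDivisors.ne_zero hq
    obtain ⟨p', rfl⟩ := Ideal.Quotient.mk_surjective p
    obtain ⟨q', rfl⟩ := Ideal.Quotient.mk_surjective q
    refine ⟨p', q', fun h => hq0 ?_, ?_⟩
    · rw [IsScalarTower.algebraMap_apply S D ↥V] at h
      exact FaithfulSMul.algebraMap_injective D ↥V (h.trans (map_zero _).symm)
    · apply Subtype.ext
      show algebraMap D K (Ideal.Quotient.mk P q') * (v : K) = algebraMap D K (Ideal.Quotient.mk P p')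
      rw [← hpq, mul_div_cancel₀]
      exact fun h0 => hq0 (IsFractionRing.injective D K (h0.trans (map_zero _).symm))
  · ext t
    rw [RingHom.mem_ker, IsScalarTower.algebraMap_apply S D ↥V,
      map_eq_zero_iff (algebraMap D ↥V) (FaithfulSMul.algebraMap_injective D ↥V)]
    exact Ideal.Quotient.eq_zero_iff_mem

end Curve

end Vale.Agent.P202
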