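import Vale.Agent.P202.GrowthRed

/-!
P202, module C1: existence and positivity of the multiplicity.
-/

universe u

namespace Vale.Agent.P202

open IsLocalRing Filter Topology

variable {A : Type u} [CommRing A] [IsLocalRing A] [IsNoetherianRing A]

lemma pow_le_span_pow {J : Ideal A} {D n₀ : ℕ}
    (h : ∀ n, n₀ ≤ n → maximalIdeal A ^ (n + D) ≤ J * maximalIdeal A ^ n) (j : ℕ) :
    maximalIdeal A ^ (n₀ + j * D) ≤ J ^ j := by
  induction j with
  | zero => simp
  | succ j ih =>
    rw [Nat.succ_mul, ← Nat.add_assoc, pow_succ']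
    exact (h _ (Nat.le_add_right _ _)).trans (Ideal.mul_mono_right ih)

lemma tendsto_div_of_affine (D n₀ : ℕ) (hD : 0 < D) :
    Tendsto (fun N : ℕ => (((N - n₀) / D : ℕ) : ℝ) / N) atTop (𝓝 (1 / D)) ∧
      Tendsto (fun N : ℕ => ((N / D + 1 : ℕ) : ℝ) / N) atTop (𝓝 (1 / D)) := by
  have hD' : (0 : ℝ) < D := by exact_mod_cast hD
  have h0 : ∀ c : ℝ, Tendsto (fun N : ℕ => 1 / (D : ℝ) + c / N) atTop (𝓝 (1 / D)) := fun c => by
    simpa using tendsto_const_nhds.add (tendsto_const_div_atTop_nhds_zero_nat c)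
  constructor
  · refine tendsto_of_tendsto_of_tendsto_of_le_of_le' (h0 (-((n₀ : ℝ) / D + 1))) (h0 0)
      ?_ ?_
    · filter_upwards [eventually_gt_atTop n₀] with N hN
      have hN' : (0 : ℝ) < N := by exact_mod_cast (by omega : 0 < N)
      rw [le_div_iff₀ hN']
      have h1 : N - n₀ < ((N - n₀) / D + 1) * D := Nat.lt_mul_of_div_lt (Nat.lt_succ_self _) hD
      have h2 : (N : ℝ) ≤ ((((N - n₀) / D : ℕ) : ℝ) + 1) * D + n₀ := by
        have : N ≤ ((N - n₀) / D + 1) * D + n₀ := by omega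
        exact_mod_cast this
      field_simp
      nlinarith
    · filter_upwards [eventually_gt_atTop n₀] with N hN
      have hN' : (0 : ℝ) < N := by exact_mod_cast (by omega : 0 < N)
      rw [div_le_iff₀ hN', zero_div, add_zero, div_mul_eq_mul_div, one_mul, le_div_iff₀ hD']
      have : (N - n₀) / D * D ≤ N := (Nat.div_mul_le_self _ _).trans (Nat.sub_le _ _)
      exact_mod_cast this
  · refine tendsto_of_tendsto_of_tendsto_of_le_of_le' (h0 0) (h0 1) ?_ ?_
    · filter_upwards [eventually_gt_atTop 0] with N hN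
      have hN' : (0 : ℝ) < N := by exact_mod_cast hN
      rw [le_div_iff₀ hN', zero_div, add_zero, div_mul_eq_mul_div, one_mul, div_le_iff₀ hD']
      have : N ≤ (N / D + 1) * D := (Nat.lt_mul_of_div_lt (Nat.lt_succ_self _) hD).le
      exact_mod_cast this
    · filter_upwards [eventually_gt_atTop 0] with N hN
      have hN' : (0 : ℝ) < N := by exact_mod_cast hN
      rw [div_le_iff₀ hN']
      have h1 : ((N / D * D : ℕ) : ℝ) ≤ N := by exact_mod_cast Nat.div_mul_le_self N D
      push_cast at h1 ⊢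
      field_simp
      nlinarith

/-- The multiplicity exists and is positive, given the Koszul limit formula. -/
theorem goalMultExists (hK : GoalKoszulMult.{u}) : GoalMultExists.{u} := by
  intro A _ _ _
  have hred := exists_reduction_chain A
  set d := ndim A with hd
  obtain ⟨⟨Q₀, hQ₀⟩, D, hD, -, x, hx, n₀, hn⟩ := hred
  set J : Ideal A := Ideal.span (Set.range x)
  have hup := pow_le_span_pow (J := J) hn
  have hJD : J ≤ maximalIdeal A ^ D := Ideal.span_le.2 (by rintro _ ⟨l, rfl⟩; exact hx l)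
  have hfin : IsFiniteLength A (A ⧸ (J • (⊤ : Submodule A A))) := by
    rw [← Module.length_ne_top_iff, ← sq_top_eq_length]
    refine ne_top_of_le_ne_top (length_quot_pow_lt_top (A := A) A (n₀ + D)) (sq_mono_right ?_)
    rw [smul_eq_mul, smul_eq_mul, Ideal.mul_top, Ideal.mul_top]
    simpa using hup 1
  have hlim := hK A A d x (fun l => (Ideal.pow_le_self hD.ne' : maximalIdeal A ^ D ≤ maximalIdeal A) (hx l)) hfin
  set χ : ℝ := (kchi x A : ℝ)
  set L : ℕ → ℝ := fun n => ((Module.length A (A ⧸ maximalIdeal A ^ n)).toNat : ℝ) with hL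
  set q : ℕ → ℝ := fun n => (d.factorial : ℝ) *
    ((Module.length A (A ⧸ (J ^ n • (⊤ : Submodule A A)))).toNat : ℝ) with hq
  have hqlim : Tendsto (fun n : ℕ => q n / (n : ℝ) ^ d) atTop (𝓝 χ) := by
    rw [hq]; exact hlim
  have hle1 : ∀ N j, maximalIdeal A ^ N ≤ J ^ j → q j ≤ d.factorial * L N := by
    intro N j h
    refine mul_le_mul_of_nonneg_left (Nat.cast_le.2 (ENat.toNat_le_toNat ?_
      (length_quot_maximalIdeal_pow_ne_top N))) (Nat.cast_nonneg _)
    rw [← sq_top_eq_length, ← sq_top_eq_length]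
    exact sq_mono_right (by rwa [smul_eq_mul, Ideal.mul_top])
  have hle2 : ∀ N j, N ≤ j * D → d.factorial * L N ≤ q j := by
    intro N j h
    have hsub : J ^ j ≤ maximalIdeal A ^ N :=
      (Ideal.pow_right_mono hJD j).trans (by
        rw [← pow_mul]; exact Ideal.pow_le_pow_right (by rwa [Nat.mul_comm]))
    refine mul_le_mul_of_nonneg_left (Nat.cast_le.2 (ENat.toNat_le_toNat ?_ ?_)) (Nat.cast_nonneg _)
    · rw [← sq_top_eq_length, ← sq_top_eq_length]
      exact sq_mono_right (by rwa [smul_eq_mul, Ideal.mul_top])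
    · refine ne_top_of_le_ne_top (length_quot_maximalIdeal_pow_ne_top (A := A) (n₀ + j * D)) ?_
      rw [← sq_top_eq_length, ← sq_top_eq_length]
      exact sq_mono_right (by rw [smul_eq_mul, Ideal.mul_top]; exact hup j)
  obtain ⟨hj, hi⟩ := tendsto_div_of_affine D n₀ hD
  set e : ℝ := χ * (1 / D) ^ d with he
  have hje : Tendsto (fun N : ℕ => ((N - n₀) / D : ℕ)) atTop atTop := by
    refine tendsto_atTop.2 fun b => ?_
    filter_upwards [eventually_ge_atTop (b * D + n₀)] with N hN
    rw [Nat.le_div_iff_mul_le hD]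
    omega
  have hie : Tendsto (fun N : ℕ => N / D + 1) atTop atTop := by
    refine tendsto_atTop.2 fun b => ?_
    filter_upwards [eventually_ge_atTop (b * D)] with N hN
    have : b ≤ N / D := (Nat.le_div_iff_mul_le hD).2 hN
    omega
  have hmult : HasMult A e := by
    show Tendsto (fun N : ℕ => (d.factorial : ℝ) * L N / (N : ℝ) ^ d) atTop (𝓝 e)
    refine tendsto_of_tendsto_of_tendsto_of_le_of_le' ((hqlim.comp hje).mul (hj.pow d))
      ((hqlim.comp hie).mul (hi.pow d)) ?_ ?_
    · filter_upwards [hje.eventually (eventually_gt_atTop 0), eventually_gt_atTop 0] with N hN hN0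
      have hjpos : (0 : ℝ) < (((N - n₀) / D : ℕ) : ℝ) := by exact_mod_cast hN
      simp only [Function.comp_apply, div_pow]
      rw [div_mul_div_comm, mul_comm (q _), mul_div_mul_left _ _ (pow_ne_zero d hjpos.ne')]
      gcongr
      refine hle1 N _ (le_trans (Ideal.pow_le_pow_right ?_) (hup _))
      have h1 := Nat.div_mul_le_self (N - n₀) D
      have h2 : 0 < (N - n₀) / D * D := Nat.mul_pos hN hD
      omega
    · filter_upwards [eventually_gt_atTop 0] with N hN
      have hipos : (0 : ℝ) < ((N / D + 1 : ℕ) : ℝ) := by positivity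
      simp only [Function.comp_apply, div_pow]
      rw [div_mul_div_comm, mul_comm (q _), mul_div_mul_left _ _ (pow_ne_zero d hipos.ne')]
      gcongr
      exact hle2 N _ (Nat.lt_mul_of_div_lt (Nat.lt_succ_self _) hD).le
  refine ⟨e, ?_, hmult⟩
  obtain ⟨K, hKpos, hKb⟩ := hQ₀.growth
  have hKR : (0 : ℝ) < K := by exact_mod_cast hKpos
  have hsub : Tendsto (fun m : ℕ => K * (m + 1)) atTop atTop :=
    tendsto_atTop_mono (fun m => (Nat.le_succ m).trans (Nat.le_mul_of_pos_left _ hKpos)) tendsto_id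
  have hlow : Tendsto (fun m : ℕ => ((1 : ℝ) - d / (m + 1 : ℕ)) ^ d / (K : ℝ) ^ d) atTop
      (𝓝 (1 / (K : ℝ) ^ d)) := by
    have h := ((tendsto_const_div_atTop_nhds_zero_nat (d : ℝ)).comp
      (tendsto_add_atTop_nat 1)).const_sub 1
    simpa using (h.pow d).div_const ((K : ℝ) ^ d)
  have hge : 1 / (K : ℝ) ^ d ≤ e := by
    refine le_of_tendsto_of_tendsto hlow (hmult.comp hsub) ?_
    filter_upwards [eventually_ge_atTop d] with m hm
    simp only [Function.comp_apply]
    have h1 : ((m.choose d : ℕ) : ℝ) ≤ L (K * (m + 1)) := by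
      refine Nat.cast_le.2 ?_
      have := (hKb m).trans (cumLen_le Q₀ hQ₀.adm _)
      have h' := ENat.toNat_le_toNat this (length_quot_maximalIdeal_pow_ne_top _)
      simpa using h'
    have h2 : ((1 : ℝ) - d / (m + 1 : ℕ)) ^ d * ((m + 1 : ℕ) : ℝ) ^ d ≤
        (d.factorial : ℝ) * (m.choose d : ℕ) := by
      rw [← mul_pow, sub_mul, one_mul, div_mul_cancel₀ _ (by positivity)]
      have h3 : (((m + 1 - d) ^ d : ℕ) : ℝ) ≤ (m.descFactorial d : ℕ) :=
        Nat.cast_le.2 (Nat.pow_sub_le_descFactorial m d)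
      rw [Nat.descFactorial_eq_factorial_mul_choose, Nat.cast_mul, Nat.cast_pow,
        Nat.cast_sub (by omega)] at h3
      exact h3
    have hpos : (0 : ℝ) < ((m + 1 : ℕ) : ℝ) ^ d := by positivity
    calc ((1 : ℝ) - d / (m + 1 : ℕ)) ^ d / (K : ℝ) ^ d
        = ((1 : ℝ) - d / (m + 1 : ℕ)) ^ d * ((m + 1 : ℕ) : ℝ) ^ d /
            ((K : ℝ) ^ d * ((m + 1 : ℕ) : ℝ) ^ d) := by
          rw [mul_div_mul_right _ _ hpos.ne']
      _ ≤ (d.factorial : ℝ) * L (K * (m + 1)) / ((K : ℝ) ^ d * ((m + 1 : ℕ) : ℝ) ^ d) := by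
          exact div_le_div_of_nonneg_right (h2.trans (mul_le_mul_of_nonneg_left h1 (Nat.cast_nonneg _)))
            (by positivity)
      _ = _ := by
          rw [Nat.cast_mul, mul_pow]
  exact lt_of_lt_of_le (by positivity) hge

end Vale.Agent.P202
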