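import Vale.Agent.P202.InterfacesC

/-! Interfaces of the extensions: larger dimension upstairs and arbitrary residue fields. -/

universe u

namespace Vale.Agent.P202

open IsLocalRing

/-- D1: reduction to equal dimensions, in equal characteristic `p`. -/
def GoalEqualDim : Prop :=
  ∀ (p : ℕ) [Fact p.Prime] (R S : Type u) [CommRing R] [IsLocalRing R] [IsNoetherianRing R]
    [CharP R p] [CommRing S] [IsLocalRing S] [IsNoetherianRing S] [Algebra R S]
    [IsLocalHom (algebraMap R S)] [Module.Flat R S],
    ∃ (S' : Type u) (_ : CommRing S') (_ : IsLocalRing S') (_ : IsNoetherianRing S')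
      (_ : Algebra R S') (_ : IsLocalHom (algebraMap R S')) (_ : Module.Flat R S'),
      ndim R = ndim S' ∧
      (∀ e e' : ℝ, HasMult S e → HasMult S' e' → e' ≤ e)

/-- D1, the heart: multiplicity does not go up on localising a complete local ring of
characteristic `p` at a prime with complementary height and coheight. -/
def GoalLocaliseMult : Prop :=
  ∀ (p : ℕ) [Fact p.Prime] (S : Type u) [CommRing S] [IsLocalRing S] [IsNoetherianRing S]
    [CharP S p] [IsAdicComplete (maximalIdeal S) S] (P : Ideal S) [P.IsPrime],
    ndim (Localization.AtPrime P) + ndim (S ⧸ P) = ndim S →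
    ∀ e e' : ℝ, HasMult S e → HasMult (Localization.AtPrime P) e' → e' ≤ e

end Vale.Agent.P202
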