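import Vale.Agent.P202.DCurve
import Vale.Agent.P202.Growth
import Vale.Agent.P202.InterfacesD

/-! Module D1: reduction of an arbitrary flat local map to one between rings of equal dimension. -/

universe u

namespace Vale.Agent.P202

open IsLocalRing

lemma ndim_eq_height (A : Type u) [CommRing A] [IsLocalRing A] :
    ndim A = (maximalIdeal A).height.toNat := by
  rw [ndim, ← maximalIdeal_height_eq_ringKrullDim, WithBot.unbotD_coe]

lemma coe_ndim (A : Type u) [CommRing A] [IsLocalRing A] [IsNoetherianRing A] :
    (ndim A : ℕ∞) = (maximalIdeal A).height := by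
  rw [ndim_eq_height, ENat.coe_toNat (Ideal.height_ne_top (maximalIdeal.isMaximal A).ne_top)]

/-- A prime of coheight one over the maximal ideal, one step below in height. -/
theorem exists_curve_prime {R T : Type u} [CommRing R] [IsLocalRing R] [IsNoetherianRing R]
    [CommRing T] [IsLocalRing T] [IsNoetherianRing T] [Algebra R T]
    [IsLocalHom (algebraMap R T)] [Module.Flat R T] {d : ℕ} (hT : ndim T = d + 1)
    (hR : ndim R ≤ d) :
    ∃ P : Ideal T, ∃ _ : P.IsPrime, (maximalIdeal R).map (algebraMap R T) ≤ P ∧
      P ≠ maximalIdeal T ∧ (∀ p : Ideal T, p.IsPrime → P < p → p = maximalIdeal T) ∧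
      P.height = d := by
  set J := (maximalIdeal R).map (algebraMap R T)
  have : (maximalIdeal T).LiesOver (maximalIdeal R) :=
    ⟨(maximalIdeal_comap (algebraMap R T)).symm⟩
  have hht := Ideal.height_eq_height_add_of_liesOver_of_hasGoingDown (maximalIdeal R) (maximalIdeal T)
  have hJ : J ≤ maximalIdeal T := map_maximalIdeal_le (algebraMap R T)
  let mbar := (maximalIdeal T).map (Ideal.Quotient.mk J)
  have hmprime : mbar.IsPrime :=
    Ideal.map_isPrime_of_surjective Ideal.Quotient.mk_surjective (by rw [Ideal.mk_ker]; exact hJ)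
  obtain ⟨l, hl, hlen⟩ := mbar.exists_ltSeries_length_eq_height
  have hnat : d + 1 = ndim R + l.length := by
    rw [← coe_ndim, ← coe_ndim, ← hlen, hT] at hht
    exact_mod_cast hht
  have hpos : l.length ≠ 0 := by omega
  let Pb : PrimeSpectrum (T ⧸ J) := l.eraseLast.last
  let P : Ideal T := Pb.asIdeal.comap (Ideal.Quotient.mk J)
  have hPJ : J ≤ P := fun z hz => by
    rw [Ideal.mem_comap, Ideal.Quotient.eq_zero_iff_mem.2 hz]
    exact zero_mem _
  have hlt : Pb < l.last := l.eraseLast_last_rel_last hpos
  have hne : P ≠ maximalIdeal T := by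
    intro h
    apply hlt.ne
    apply PrimeSpectrum.ext
    rw [hl, ← Ideal.map_comap_of_surjective (Ideal.Quotient.mk J) Ideal.Quotient.mk_surjective
      Pb.asIdeal]
    exact congrArg (Ideal.map (Ideal.Quotient.mk J)) h
  have hPm : P < maximalIdeal T :=
    lt_of_le_of_ne (le_maximalIdeal (Ideal.IsPrime.ne_top inferInstance)) hne
  have : P.LiesOver (maximalIdeal R) := ⟨by
    refine ((maximalIdeal.isMaximal R).eq_of_le (Ideal.IsPrime.ne_top inferInstance) ?_)
    exact Ideal.map_le_iff_le_comap.1 hPJ⟩
  have hP := Ideal.height_eq_height_add_of_liesOver_of_hasGoingDown (maximalIdeal R) P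
  have hlow : ((d : ℕ) : ℕ∞) ≤ P.height := by
    rw [hP, ← coe_ndim, show d = ndim R + (l.length - 1) by omega, Nat.cast_add]
    refine add_le_add le_rfl ?_
    rw [Ideal.map_comap_of_surjective (Ideal.Quotient.mk J) Ideal.Quotient.mk_surjective,
      Pb.height_eq_orderHeight]
    have := Order.length_le_height (p := l.eraseLast) (x := Pb) le_rfl
    simpa [RelSeries.eraseLast_length] using this
  have hltd : ∀ p : Ideal T, p.IsPrime → p < maximalIdeal T → p.height ≤ d := by
    intro p hp hpm
    have h1 := Ideal.height_strict_mono_of_isPrime hpm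
    rw [← coe_ndim, hT, Nat.cast_add, Nat.cast_one] at h1
    exact ENat.lt_add_one_iff (ENat.natCast_ne_top d) |>.1 h1
  have hPh : P.height = d := le_antisymm (hltd P inferInstance hPm) hlow
  refine ⟨P, inferInstance, hPJ, hne, fun p hp hPp => ?_, hPh⟩
  by_contra hpm
  have h1 := Ideal.height_strict_mono_of_isPrime (I := P) (J := p) hPp
  rw [hPh] at h1
  exact absurd (hltd p hp (lt_of_le_of_ne (le_maximalIdeal hp.ne_top) hpm)) (not_le.2 h1)

theorem exists_equalDim_aux (hM : GoalMultExists.{u}) {R : Type u} [CommRing R] [IsLocalRing R]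
    [IsNoetherianRing R] (k : ℕ) :
    ∀ (S : Type u) [CommRing S] [IsLocalRing S] [IsNoetherianRing S] [Algebra R S]
      [IsLocalHom (algebraMap R S)] [Module.Flat R S], ndim S ≤ ndim R + k →
    ∃ (S' : Type u) (_ : CommRing S') (_ : IsLocalRing S') (_ : IsNoetherianRing S')
      (_ : Algebra R S') (_ : IsLocalHom (algebraMap R S')) (_ : Module.Flat R S'),
      ndim R = ndim S' ∧ (∀ e e' : ℝ, HasMult S e → HasMult S' e' → e' ≤ e) := by
  induction k with
  | zero =>
    intro S _ _ _ _ _ _ hle
    refine ⟨S, inferInstance, inferInstance, inferInstance, inferInstance, inferInstance,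
      inferInstance, ?_, fun e e' h h' => (tendsto_nhds_unique h' h).le⟩
    have : (maximalIdeal S).LiesOver (maximalIdeal R) :=
      ⟨(maximalIdeal_comap (algebraMap R S)).symm⟩
    have hht := Ideal.height_eq_height_add_of_liesOver_of_hasGoingDown (maximalIdeal R) (maximalIdeal S)
    rw [← coe_ndim, ← coe_ndim] at hht
    have : (ndim R : ℕ∞) ≤ ndim S := hht ▸ le_self_add
    have := Nat.cast_le.1 this
    omega
  | succ k ih =>
    intro S _ _ _ _ _ _ hle
    by_cases hlt : ndim S ≤ ndim R + k
    · exact ih S hlt
    let T := AdicCompletion (maximalIdeal S) S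
    have hmap : (maximalIdeal S).map (algebraMap S T) = maximalIdeal T :=
      AdicCompletion.maximalIdeal_eq_map.symm
    have hloc : IsLocalHom (algebraMap R T) := by
      rw [IsScalarTower.algebraMap_eq R S T]; infer_instance
    have : Module.Flat R T := Module.Flat.trans R S T
    have hdT : ndim T = ndim R + k + 1 := by
      rw [ndim_eq_of_map_maximalIdeal hmap]; omega
    obtain ⟨P, hP, hPJ, hne, hcur, hPh⟩ := exists_curve_prime (R := R) hdT (by omega)
    let U := Localization.AtPrime P
    have hU : ndim U = ndim R + k := by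
      rw [ndim, IsLocalization.AtPrime.ringKrullDim_eq_height P U, WithBot.unbotD_coe, hPh, ENat.toNat_natCast]
    have : IsNoetherianRing U := IsLocalization.isNoetherianRing P.primeCompl _ inferInstance
    have : IsLocalHom (algebraMap R U) := by
      refine ((local_hom_TFAE (algebraMap R U)).out 0 2).mpr ?_
      rw [IsScalarTower.algebraMap_eq R T U, ← Ideal.map_map,
        ← Localization.AtPrime.map_eq_maximalIdeal]
      exact Ideal.map_mono hPJ
    obtain ⟨S', i1, i2, i3, i4, i5, i6, hd, he⟩ := ih U hU.le
    refine ⟨S', i1, i2, i3, i4, i5, i6, hd, fun e e' hS hS' => ?_⟩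
    obtain ⟨eU, -, heU⟩ := hM U
    refine (he eU e' heU hS').trans (le_of_curve P hne hcur (d := ndim R + k) ?_ ?_)
    · have := hsUpper_of_hasMult (hasMult_of_map_maximalIdeal hmap hS)
      rwa [hdT] at this
    · have := hsLower_of_hasMult heU
      rwa [hU] at this

/-- Any flat local map can be replaced by one into a ring of the same dimension as the source,
whose multiplicity is not larger. No hypothesis on the characteristic is needed. -/
theorem exists_equalDim (R S : Type u) [CommRing R] [IsLocalRing R] [IsNoetherianRing R]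
    [CommRing S] [IsLocalRing S] [IsNoetherianRing S] [Algebra R S]
    [IsLocalHom (algebraMap R S)] [Module.Flat R S] :
    ∃ (S' : Type u) (_ : CommRing S') (_ : IsLocalRing S') (_ : IsNoetherianRing S')
      (_ : Algebra R S') (_ : IsLocalHom (algebraMap R S')) (_ : Module.Flat R S'),
      ndim R = ndim S' ∧ (∀ e e' : ℝ, HasMult S e → HasMult S' e' → e' ≤ e) :=
  exists_equalDim_aux (goalMultExists goalKoszulMult) (ndim S) S (Nat.le_add_left _ _)

/-- D1. -/
theorem goalEqualDim : GoalEqualDim.{u} :=
  fun _ _ R S _ _ _ _ _ _ _ _ _ _ => exists_equalDim R S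

end Vale.Agent.P202
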