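import Vale.Agent.P202.DLength

/-! Adjoining a birational integral element: the Hilbert-Samuel function upstairs is at most, and
the one of the localisation at least, the partial sums of the old ones. -/

universe u v w

namespace Vale.Agent.P202

open IsLocalRing Polynomial

lemma length_quot_comap_of_surjective {P : Type u} {A : Type v} [CommRing P] [CommRing A]
    (f : P →+* A) (hf : Function.Surjective f) (I : Ideal A) :
    Module.length P (P ⧸ I.comap f) = Module.length A (A ⧸ I) := by
  let _ := f.toAlgebra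
  let g : P →ₗ[P] A ⧸ I := Algebra.linearMap P (A ⧸ I)
  have hg : Function.Surjective g := fun y => by
    obtain ⟨y, rfl⟩ := Ideal.Quotient.mk_surjective y
    obtain ⟨x, rfl⟩ := hf y
    exact ⟨x, rfl⟩
  have hk : LinearMap.ker g = I.comap f := by
    ext x
    show Ideal.Quotient.mk I (f x) = 0 ↔ f x ∈ I
    exact Ideal.Quotient.eq_zero_iff_mem
  rw [← hk, (g.quotKerEquivOfSurjective hg).length_eq,
    Module.length_eq_of_surjective (R := A) (S := P) hf]

theorem length_ext_le {T : Type u} {U : Type v} [CommRing T] [IsLocalRing T] [CommRing U]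
    (φ : T →+* U) (M G : Ideal U) [M.IsMaximal] (hM : M ≤ (maximalIdeal T).map φ ⊔ G) (k : ℕ) :
    ∀ I : Ideal T, Module.length T (T ⧸ I) = k → sq U ⊤ (I.map φ ⊔ G) ≤ k := by
  induction k with
  | zero =>
    intro I hI
    rw [Nat.cast_zero, length_quot_eq_sq, sq_eq_zero_iff, top_le_iff] at hI
    simp [hI, Ideal.map_top, sq_eq_zero_iff]
  | succ k ih =>
    intro I hI
    have hne : I ≠ ⊤ := by
      rintro rfl
      rw [length_quot_eq_sq, sq_eq_zero_iff.2 le_rfl] at hI
      exact absurd hI.symm (by norm_cast)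
    obtain ⟨a, -, ha, hlen⟩ := exists_simple_step hne (by rw [hI]; exact ENat.natCast_ne_top _)
    rw [hI, Nat.cast_succ] at hlen
    have hJ := ih _ ((ENat.addLECancellable_of_ne_top ENat.one_ne_top).inj_left.1 hlen)
    rw [Ideal.map_sup, Ideal.map_span, Set.image_singleton] at hJ
    rw [sq_add (M := I.map φ ⊔ Ideal.span {φ a} ⊔ G)
      (sup_le_sup_right le_sup_left _) le_top, Nat.cast_succ]
    refine add_le_add hJ ?_
    rw [show I.map φ ⊔ Ideal.span {φ a} ⊔ G = Ideal.span {φ a} ⊔ (I.map φ ⊔ G) by ac_rfl,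
      sq_sup_left]
    refine sq_span_singleton_le_one M (φ a) _ fun r hr => ?_
    have hle : M ≤ Submodule.comap (LinearMap.toSpanSingleton U U (φ a)) (I.map φ ⊔ G) := by
      refine hM.trans (sup_le (Ideal.map_le_iff_le_comap.2 fun t ht => ?_) fun g hg => ?_)
      · show φ t • φ a ∈ I.map φ ⊔ G
        rw [smul_eq_mul, ← map_mul]
        exact Submodule.mem_sup_left (Ideal.mem_map_of_mem φ (ha t ht))
      · exact Submodule.mem_sup_right (Ideal.mul_mem_right _ G hg)
    exact hle hr

lemma sum_reflect_hs {β : Type*} [AddCommMonoid β] (f : ℕ → β) (n : ℕ) :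
    ∑ j ∈ Finset.range n, f (n - j) = ∑ i ∈ Finset.range n, f (i + 1) := by
  rw [← Finset.sum_range_reflect (fun i => f (i + 1)) n]
  refine Finset.sum_congr rfl fun j hj => ?_
  rw [Finset.mem_range] at hj
  congr 1
  omega

theorem hs_le_sum_of_ext {T : Type u} {U : Type v} [CommRing T] [IsLocalRing T]
    [IsNoetherianRing T] [CommRing U] [IsLocalRing U] [IsNoetherianRing U] (φ : T →+* U)
    (g : U) (hg : g ∈ maximalIdeal U) (hφ : (maximalIdeal T).map φ ≤ maximalIdeal U)
    (hM : maximalIdeal U ≤ (maximalIdeal T).map φ ⊔ Ideal.span {g}) (n : ℕ) :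
    hs U n ≤ ∑ i ∈ Finset.range n, hs T (i + 1) := by
  let N : ℕ → Submodule U U := fun j => Ideal.span {g ^ j} ⊔ maximalIdeal U ^ n
  have hN : Antitone N := antitone_nat_of_succ_le fun j => sup_le_sup_right
    (Ideal.span_singleton_le_span_singleton.2 (pow_dvd_pow g j.le_succ)) _
  have h0 : N 0 = ⊤ := by simp [N, Ideal.span_singleton_one]
  have hn : N n = maximalIdeal U ^ n :=
    sup_eq_right.2 ((Ideal.span_singleton_le_iff_mem _).2 (Ideal.pow_mem_pow hg n))
  have hstep : ∀ j ∈ Finset.range n, sq U (N j) (N (j + 1)) ≤ (hs T (n - j) : ℕ∞) := by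
    intro j hj
    rw [Finset.mem_range] at hj
    have e : N j ⊔ N (j + 1) = Ideal.span {g ^ j} ⊔ N (j + 1) := by
      refine le_antisymm (sup_le (sup_le le_sup_left ?_) le_sup_right) (sup_le_sup_right le_sup_left _)
      exact (le_sup_right : _ ≤ N (j + 1)).trans le_sup_right
    rw [sq_congr_sup e, show (Ideal.span {g ^ j} : Submodule U U) =
      (⊤ : Submodule U U).map (LinearMap.toSpanSingleton U U (g ^ j)) by
        rw [Submodule.map_top, LinearMap.range_toSpanSingleton], sq_map]
    refine (sq_mono_right (L' := (maximalIdeal T ^ (n - j)).map φ ⊔ Ideal.span {g}) ?_).trans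
      (length_ext_le φ (maximalIdeal U) _ hM _ _ (coe_hs (n - j)).symm)
    refine sup_le (fun x hx => ?_) ((Ideal.span_singleton_le_iff_mem _).2 ?_)
    · show x • g ^ j ∈ N (j + 1)
      rw [Ideal.map_pow] at hx
      have := Ideal.mul_mem_mul (Ideal.pow_right_mono hφ _ hx) (Ideal.pow_mem_pow hg j)
      rw [← pow_add, Nat.sub_add_cancel hj.le] at this
      exact Submodule.mem_sup_right this
    · show g • g ^ j ∈ N (j + 1)
      rw [smul_eq_mul, ← pow_succ']
      exact Submodule.mem_sup_left (Ideal.mem_span_singleton_self _)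
  have hsum := sq_chain N hN n
  rw [h0, hn, ← length_quot_eq_sq] at hsum
  have : (hs U n : ℕ∞) ≤ ∑ j ∈ Finset.range n, (hs T (n - j) : ℕ∞) := by
    rw [coe_hs, hsum]
    exact Finset.sum_le_sum hstep
  rw [← Nat.cast_sum, Nat.cast_le, sum_reflect_hs] at this
  exact this

section Poly

variable {A : Type u} [CommRing A] [IsLocalRing A]

/-- The maximal ideal `(m, X)` of `A[X]`. -/
noncomputable def mX (A : Type u) [CommRing A] [IsLocalRing A] : Ideal A[X] :=
  (maximalIdeal A).comap constantCoeff

instance : (mX A).IsMaximal :=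
  Ideal.comap_isMaximal_of_surjective _ fun a => ⟨C a, by simp⟩

lemma coeff_mem_of_mem_mX_pow (n : ℕ) {f : A[X]} (hf : f ∈ mX A ^ n) (i : ℕ) :
    f.coeff i ∈ maximalIdeal A ^ (n - i) := by
  induction n generalizing f i with
  | zero => simp
  | succ n ih =>
    rw [pow_succ] at hf
    refine Submodule.mul_induction_on hf (fun a ha b hb => ?_) (fun a b ha hb => ?_)
    · rw [coeff_mul]
      refine Submodule.sum_mem _ fun p hp => ?_
      rw [Finset.HasAntidiagonal.mem_antidiagonal] at hp
      by_cases h : p.2 = 0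
      · rw [h]
        have hb0 : b.coeff 0 ∈ maximalIdeal A := by simpa [mX] using hb
        have := Ideal.mul_mem_mul (ih ha p.1) hb0
        rw [← pow_succ] at this
        exact Ideal.pow_le_pow_right (by omega) this
      · exact Ideal.mul_mem_right _ _ (Ideal.pow_le_pow_right (by omega) (ih ha p.1))
    · rw [coeff_add]; exact add_mem ha hb

lemma isUnit_mk_of_notMem {P : Type v} [CommRing P] (J : Ideal P) [J.IsMaximal] {e : P}
    (he : e ∉ J) (n : ℕ) : IsUnit (Ideal.Quotient.mk (J ^ n) e) := by
  obtain ⟨c, j, hj, hcj⟩ := Ideal.IsMaximal.exists_inv ‹J.IsMaximal› he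
  have : IsNilpotent (Ideal.Quotient.mk (J ^ n) j) :=
    ⟨n, by rw [← map_pow, Ideal.Quotient.eq_zero_iff_mem]; exact Ideal.pow_mem_pow hj n⟩
  have h1 := this.isUnit_one_sub
  rw [← map_one (Ideal.Quotient.mk (J ^ n)), ← map_sub, show (1 : P) - j = c * e by
    linear_combination -hcj, map_mul] at h1
  exact isUnit_of_mul_isUnit_right h1

theorem sum_hs_le_length_poly [IsNoetherianRing A] (n : ℕ) :
    ((∑ i ∈ Finset.range n, hs A (i + 1) : ℕ) : ℕ∞) ≤ Module.length A[X] (A[X] ⧸ mX A ^ n) := by
  let N : ℕ → Submodule A[X] A[X] := fun j => Ideal.span {(X : A[X]) ^ j} ⊔ mX A ^ n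
  have hN : Antitone N := antitone_nat_of_succ_le fun j => sup_le_sup_right
    (Ideal.span_singleton_le_span_singleton.2 (pow_dvd_pow X j.le_succ)) _
  have h0 : N 0 = ⊤ := by simp [N, Ideal.span_singleton_one]
  have hn : N n = mX A ^ n :=
    sup_eq_right.2 ((Ideal.span_singleton_le_iff_mem _).2
      (Ideal.pow_mem_pow (by simp [mX]) n))
  have hstep : ∀ j ∈ Finset.range n, (hs A (n - j) : ℕ∞) ≤ sq A[X] (N j) (N (j + 1)) := by
    intro j hj
    refine le_trans ?_ (sq_mono_left
      (N := (⊤ : Submodule A[X] A[X]).map (LinearMap.toSpanSingleton A[X] A[X] (X ^ j))) ?_)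
    · rw [sq_map, coe_hs, ← length_quot_comap_of_surjective (constantCoeff : A[X] →+* A)
        (fun a => ⟨C a, by simp⟩), length_quot_eq_sq]
      refine sq_mono_right fun f hf => ?_
      replace hf : f * X ^ j ∈ N (j + 1) := hf
      obtain ⟨s, hs, r, hr, hsr⟩ := Submodule.mem_sup.1 hf
      obtain ⟨c, rfl⟩ := Ideal.mem_span_singleton'.1 hs
      have h1 := congrArg (fun p : A[X] => p.coeff j) hsr
      simp only [coeff_add, coeff_mul_X_pow', le_refl, if_true, Nat.sub_self,
        show ¬ j + 1 ≤ j by omega, if_false, zero_add] at h1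
      show constantCoeff f ∈ maximalIdeal A ^ (n - j)
      rw [constantCoeff_apply, ← h1]
      exact coeff_mem_of_mem_mX_pow n hr j
    · rw [Submodule.map_top, LinearMap.range_toSpanSingleton]
      exact le_sup_left
  have hsum := sq_chain N hN n
  rw [h0, hn, ← length_quot_eq_sq] at hsum
  rw [hsum, ← sum_reflect_hs, Nat.cast_sum]
  exact Finset.sum_le_sum hstep

theorem sum_hs_le_of_surjective [IsNoetherianRing A] {C : Type v} [CommRing C] [IsLocalRing C]
    [IsNoetherianRing C] (n : ℕ) (χ : C →+* A[X] ⧸ mX A ^ n) (hχ : Function.Surjective χ) :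
    ∑ i ∈ Finset.range n, hs A (i + 1) ≤ hs C n := by
  rcases Nat.eq_zero_or_pos n with rfl | hn
  · simp
  have hle : maximalIdeal C ^ n ≤ (⊥ : Ideal (A[X] ⧸ mX A ^ n)).comap χ := by
    have hm : maximalIdeal C ≤ ((mX A).map (Ideal.Quotient.mk (mX A ^ n))).comap χ := by
      intro x hx
      obtain ⟨e, he⟩ := Ideal.Quotient.mk_surjective (χ x)
      by_contra hne
      have he' : e ∉ mX A := fun h => hne (by
        rw [Ideal.mem_comap, ← he]; exact Ideal.mem_map_of_mem _ h)
      obtain ⟨y, hy⟩ := hχ ↑(isUnit_mk_of_notMem (mX A) he' n).unit⁻¹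
      have h1 : χ (1 - x * y) = 0 := by
        rw [map_sub, map_one, map_mul, hy, ← he, IsUnit.mul_val_inv, sub_self]
      have h2 : IsUnit (1 - x * y) :=
        isUnit_one_sub_self_of_mem_nonunits _ (Ideal.mul_mem_right _ _ hx)
      have h3 := h2.map χ
      rw [h1, isUnit_zero_iff] at h3
      have h4 : (1 : A[X]) ∈ mX A ^ n := by
        rw [← Ideal.Quotient.eq_zero_iff_mem, map_one]; exact h3.symm
      exact (inferInstance : (mX A).IsMaximal).ne_top
        ((Ideal.eq_top_iff_one _).2 (Ideal.pow_le_self hn.ne' h4))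
    refine (Ideal.pow_right_mono hm n).trans ((Ideal.le_comap_pow χ n).trans (Ideal.comap_mono ?_))
    rw [← Ideal.map_pow, Ideal.map_quotient_self]
  have e1 := length_quot_comap_of_surjective χ hχ ⊥
  have e2 := length_quot_comap_of_surjective (Ideal.Quotient.mk (mX A ^ n))
    Ideal.Quotient.mk_surjective ⊥
  rw [← RingHom.ker_eq_comap_bot, Ideal.mk_ker] at e2
  rw [← Nat.cast_le (α := ℕ∞), coe_hs, length_quot_eq_sq]
  refine le_trans ?_ (sq_mono_right hle)
  rw [← length_quot_eq_sq, e1, ← e2]
  exact sum_hs_le_length_poly n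

end Poly

instance kerIsPrime {R : Type u} {O : Type v} [CommRing R] [CommRing O] [IsDomain O] (ψ : R →+* O) :
    (RingHom.ker ψ).IsPrime := RingHom.ker_isPrime ψ

/-- One step: adjoin a birational integral element of the target domain. -/
theorem exists_adjoin_step {T O : Type u} [CommRing T] [IsLocalRing T] [IsNoetherianRing T]
    [CommRing O] [IsDomain O] [IsLocalRing O] (ψ : T →+* O) [IsLocalHom ψ] (v : O) (a b : T)
    (hb : ψ b ≠ 0) (hab : ψ b * v = ψ a) (f : T[X]) (hf : f.Monic) (hfv : f.eval₂ ψ v = 0) :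
    ∃ (T' : Type u) (_ : CommRing T') (_ : IsLocalRing T') (_ : IsNoetherianRing T')
      (ψ' : T' →+* O) (_ : IsLocalHom ψ'), ψ.range ≤ ψ'.range ∧ v ∈ ψ'.range ∧
      (∀ d e, HSUpper T d e → HSUpper T' (d + 1) e) ∧
      (∀ d e, HSLower (Localization.AtPrime (RingHom.ker ψ)) d e →
        HSLower (Localization.AtPrime (RingHom.ker ψ')) (d + 1) e) := by
  classical
  let ev : T[X] →+* O := eval₂RingHom ψ v
  let q : Ideal T[X] := (maximalIdeal O).comap ev
  have hq_mem : ∀ t : T[X], t ∉ q ↔ IsUnit (ev t) := fun t => by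
    simp [q, Ideal.mem_comap, notMem_maximalIdeal]
  let T' := Localization.AtPrime q
  let ψ' : T' →+* O := IsLocalization.lift (M := q.primeCompl) (g := ev)
    (fun s => (hq_mem _).1 s.2)
  have hψ' : ∀ t, ψ' (algebraMap T[X] T' t) = ev t := fun t => IsLocalization.lift_eq _ t
  have hloc : IsLocalHom ψ' := by
    refine ⟨fun x hx => ?_⟩
    obtain ⟨t, s, rfl⟩ := IsLocalization.exists_mk'_eq q.primeCompl x
    rw [IsLocalization.AtPrime.isUnit_mk'_iff T' q]
    refine (hq_mem _).2 ?_
    have := congrArg ψ' (IsLocalization.mk'_spec T' t s)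
    rw [map_mul, hψ', hψ'] at this
    rw [← this]
    exact hx.mul ((hq_mem _).1 s.2)
  have hev : ∀ t : T, ev (C t) = ψ t := fun t => by simp [ev]
  refine ⟨T', inferInstance, inferInstance, IsLocalization.isNoetherianRing q.primeCompl _ inferInstance,
    ψ', hloc, ?_, ?_, fun d e he => hsUpper_of_sum he fun n => ?_,
    fun d e he => hsLower_of_sum he fun n => ?_⟩
  · rintro _ ⟨t, rfl⟩
    exact ⟨algebraMap T[X] T' (C t), by rw [hψ', hev]⟩
  · exact ⟨algebraMap T[X] T' X, by rw [hψ']; simp [ev]⟩
  · -- the maximal ideal upstairs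
    have : IsNoetherianRing T' := IsLocalization.isNoetherianRing q.primeCompl _ inferInstance
    let red : T[X] →+* (ResidueField T)[X] := mapRingHom (residue T)
    have hred : Function.Surjective red := map_surjective _ residue_surjective
    have hker : RingHom.ker red = (maximalIdeal T).map C := by
      rw [show red = mapRingHom (residue T) from rfl, Polynomial.ker_mapRingHom]
      congr 1
      exact ker_residue
    have hmT : (maximalIdeal T).map C ≤ q := Ideal.map_le_iff_le_comap.2 fun t ht => by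
      show ev (C t) ∈ maximalIdeal O
      rw [hev]
      exact map_nonunit ψ t ht
    obtain ⟨g₀, hg₀⟩ := Submodule.IsPrincipal.principal (q.map red)
    have hg₀' : g₀ ∈ q.map red := by rw [hg₀]; exact Submodule.mem_span_singleton_self g₀
    obtain ⟨g, hgq, rfl⟩ := (Ideal.mem_map_iff_of_surjective red hred).1 hg₀'
    have hq : q ≤ (maximalIdeal T).map C ⊔ Ideal.span {g} := by
      intro x hx
      have h1 : red x ∈ q.map red := Ideal.mem_map_of_mem red hx
      rw [hg₀, Submodule.mem_span_singleton] at h1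
      obtain ⟨c, hc⟩ := h1
      obtain ⟨c, rfl⟩ := hred c
      rw [smul_eq_mul, ← map_mul, eq_comm, ← sub_eq_zero, ← map_sub, ← RingHom.mem_ker, hker] at hc
      rw [← sub_add_cancel x (c * g)]
      exact Submodule.add_mem_sup hc (Ideal.mul_mem_left _ c (Ideal.mem_span_singleton_self g))
    have hmax : maximalIdeal T' = q.map (algebraMap T[X] T') :=
      Localization.AtPrime.map_eq_maximalIdeal.symm
    refine hs_le_sum_of_ext ((algebraMap T[X] T').comp C) (algebraMap T[X] T' g) ?_ ?_ ?_ n
    · rw [hmax]; exact Ideal.mem_map_of_mem _ hgq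
    · rw [hmax, ← Ideal.map_map]; exact Ideal.map_mono hmT
    · rw [hmax, ← Ideal.map_map, ← Set.image_singleton, ← Ideal.map_span, ← Ideal.map_sup]
      exact Ideal.map_mono hq
  · -- the localisation upstairs
    have : IsNoetherianRing T' := IsLocalization.isNoetherianRing q.primeCompl _ inferInstance
    let Q := RingHom.ker ψ
    let A := Localization.AtPrime Q
    have : IsNoetherianRing A := IsLocalization.isNoetherianRing Q.primeCompl _ inferInstance
    let Cl := Localization.AtPrime (RingHom.ker ψ')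
    have : IsNoetherianRing Cl :=
      IsLocalization.isNoetherianRing (RingHom.ker ψ').primeCompl _ inferInstance
    let ι : O →+* FractionRing O := algebraMap O (FractionRing O)
    have hι : Function.Injective ι := IsFractionRing.injective O (FractionRing O)
    have hQu : ∀ s : Q.primeCompl, IsUnit ((ι.comp ψ) s) := fun s =>
      isUnit_iff_ne_zero.2 fun h0 => s.2 (hι (h0.trans (map_zero ι).symm))
    let r : A →+* FractionRing O := IsLocalization.lift (M := Q.primeCompl) hQu
    have hr : ∀ t, r (algebraMap T A t) = ι (ψ t) := fun t => IsLocalization.lift_eq _ t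
    let w : A := IsLocalization.mk' A a (⟨b, hb⟩ : Q.primeCompl)
    have hrw : r w = ι v := by
      have h := congrArg r (IsLocalization.mk'_spec A a (⟨b, hb⟩ : Q.primeCompl))
      rw [map_mul, hr, hr] at h
      refine mul_right_cancel₀ (b := ι (ψ b)) (fun h0 => hb (hι (h0.trans (map_zero ι).symm))) ?_
      show r w * ι (ψ b) = ι v * ι (ψ b)
      rw [h, ← map_mul, mul_comm, hab]
    have hrm : ∀ x ∈ maximalIdeal A, r x = 0 := by
      intro x hx
      rw [← Localization.AtPrime.map_eq_maximalIdeal] at hx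
      exact (Ideal.map_le_iff_le_comap.2 (fun t (ht : t ∈ Q) => by
        show r (algebraMap T A t) = 0
        rw [hr, show ψ t = 0 from ht, map_zero]) : Q.map (algebraMap T A) ≤ RingHom.ker r) hx
    let χP : T[X] →+* A[X] := eval₂RingHom ((C : A →+* A[X]).comp (algebraMap T A)) (X + C w)
    have hχP : ∀ t, ev t ≠ 0 → χP t ∉ mX A := by
      intro t ht hmem
      apply ht
      apply hι
      have h1 : (r.comp (constantCoeff.comp χP)) = ι.comp ev := by
        apply Polynomial.ringHom_ext
        · intro x; simp [χP, ev, hr]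
        · simp [χP, ev, hrw]
      have h2 := RingHom.congr_fun h1 t
      simp only [RingHom.comp_apply] at h2
      rw [← h2, map_zero]
      exact hrm _ hmem
    let mkB := Ideal.Quotient.mk (mX A ^ n)
    let χ0 : T[X] →+* A[X] ⧸ mX A ^ n := mkB.comp χP
    have hunit : ∀ t, ev t ≠ 0 → IsUnit (χ0 t) := fun t ht =>
      isUnit_mk_of_notMem (mX A) (hχP t ht) n
    let χ1 : T' →+* A[X] ⧸ mX A ^ n := IsLocalization.lift (M := q.primeCompl) (g := χ0)
      (fun s => hunit _ ((hq_mem _).1 s.2).ne_zero)
    have hχ1 : ∀ t, χ1 (algebraMap T[X] T' t) = χ0 t := fun t => IsLocalization.lift_eq _ t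
    have hunit1 : ∀ x, ψ' x ≠ 0 → IsUnit (χ1 x) := by
      intro x hx
      obtain ⟨t, s, rfl⟩ := IsLocalization.exists_mk'_eq q.primeCompl x
      have h := IsLocalization.mk'_spec T' t s
      have h1 := congrArg ψ' h
      have h2 := congrArg χ1 h
      rw [map_mul, hψ', hψ'] at h1
      rw [map_mul, hχ1, hχ1] at h2
      have : ev t ≠ 0 := by
        rw [← h1]
        exact mul_ne_zero hx ((hq_mem _).1 s.2).ne_zero
      exact isUnit_of_mul_isUnit_left (h2 ▸ hunit t this)
    let χ : Cl →+* A[X] ⧸ mX A ^ n := IsLocalization.lift (M := (RingHom.ker ψ').primeCompl)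
      (g := χ1) (fun s => hunit1 _ s.2)
    have hχ : ∀ x, χ (algebraMap T' Cl x) = χ1 x := fun x => IsLocalization.lift_eq _ x
    refine sum_hs_le_of_surjective n χ fun y => ?_
    have hC : ∀ t : T, χ (algebraMap T' Cl (algebraMap T[X] T' (C t))) =
        mkB (C (algebraMap T A t)) := fun t => by
      rw [hχ, hχ1]; simp [χ0, χP]
    have hA : ∀ z : A, mkB (C z) ∈ (RingHom.range (R := Cl) χ) := by
      intro z
      obtain ⟨t, s, rfl⟩ := IsLocalization.exists_mk'_eq Q.primeCompl z
      have hsne : algebraMap T[X] T' (C (s : T)) ∈ (RingHom.ker ψ').primeCompl := fun h => s.2 (by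
        have h' : ψ' (algebraMap T[X] T' (C (s : T))) = 0 := h
        rwa [hψ', hev] at h')
      let i : Cl := IsLocalization.mk' Cl (algebraMap T[X] T' (C t)) ⟨_, hsne⟩
      refine ⟨i, ?_⟩
      have h := congrArg χ (IsLocalization.mk'_spec Cl (algebraMap T[X] T' (C t))
        (⟨_, hsne⟩ : (RingHom.ker ψ').primeCompl))
      rw [map_mul, hC, hC] at h
      have h' := congrArg (mkB.comp C) (IsLocalization.mk'_spec A t s)
      simp only [RingHom.comp_apply, map_mul] at h'
      refine (IsUnit.mul_left_inj ?_).1 (h.trans h'.symm)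
      refine (((IsLocalization.map_units A s).map C).map mkB)
    obtain ⟨y, rfl⟩ := Ideal.Quotient.mk_surjective y
    suffices y ∈ (RingHom.range (R := Cl) χ).comap mkB from this
    have hX : (X : A[X]) ∈ (RingHom.range (R := Cl) χ).comap mkB := by
      show mkB X ∈ (RingHom.range (R := Cl) χ)
      have h : χ (algebraMap T' Cl (algebraMap T[X] T' X)) = mkB X + mkB (C w) := by
        rw [hχ, hχ1]; simp [χ0, χP]
      rw [eq_sub_of_add_eq h.symm]
      exact sub_mem ⟨_, rfl⟩ (hA w)
    induction y using Polynomial.induction_on' with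
    | add p r hp hr => exact add_mem hp hr
    | monomial k z =>
      rw [← C_mul_X_pow_eq_monomial]
      exact mul_mem (hA z) (pow_mem hX k)

end Vale.Agent.P202
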