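import Vale.Agent.P202.KoszulMult

/-! Length tools for the reduction to equal dimensions: comparison along a chain, one step
filtrations of finite length quotients, and asymptotics of partial sums. -/

universe u v

namespace Vale.Agent.P202

open Filter IsLocalRing

section Length

variable {A : Type u} [CommRing A]

lemma sq_chain {M : Type v} [AddCommGroup M] [Module A M] (N : ℕ → Submodule A M)
    (hN : Antitone N) (n : ℕ) :
    sq A (N 0) (N n) = ∑ j ∈ Finset.range n, sq A (N j) (N (j + 1)) := by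
  induction n with
  | zero => simp [sq_eq_zero_iff]
  | succ n ih =>
    rw [Finset.sum_range_succ, ← ih, sq_add (hN n.le_succ) (hN (Nat.zero_le n))]

lemma sq_span_singleton_le_one (P : Ideal A) [P.IsMaximal] {M : Type v} [AddCommGroup M]
    [Module A M] (a : M) (L : Submodule A M) (h : ∀ r ∈ P, r • a ∈ L) :
    sq A (Submodule.span A {a}) L ≤ 1 := by
  rw [← LinearMap.range_toSpanSingleton, ← Submodule.map_top, sq_map]
  refine (sq_mono_right (L' := P) fun r hr => h r hr).trans_eq ?_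
  have : IsSimpleModule A (A ⧸ P) :=
    isSimpleModule_iff_quot_maximal.mpr ⟨P, inferInstance, ⟨LinearEquiv.refl _ _⟩⟩
  rw [← length_quot_eq_sq, Module.length_eq_one A (A ⧸ P)]

lemma one_le_sq {M : Type v} [AddCommGroup M] [Module A M] {N L : Submodule A M} (h : ¬N ≤ L) :
    1 ≤ sq A N L :=
  ENat.one_le_iff_ne_zero.2 fun h0 => h (sq_eq_zero_iff.1 h0)

variable [IsLocalRing A]

lemma exists_simple_step {I : Ideal A} (hI : I ≠ ⊤) (hfin : Module.length A (A ⧸ I) ≠ ⊤) :
    ∃ a : A, a ∉ I ∧ (∀ r ∈ maximalIdeal A, r * a ∈ I) ∧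
      Module.length A (A ⧸ (I ⊔ Ideal.span {a})) + 1 = Module.length A (A ⧸ I) := by
  classical
  simp only [length_quot_eq_sq] at hfin ⊢
  have key : ∀ b : A, sq A ⊤ (I ⊔ Ideal.span {b}) + sq A (I ⊔ Ideal.span {b}) I = sq A ⊤ I :=
    fun b => (sq_add le_sup_left le_top).symm
  have hne : {b : A | b ∉ I}.Nonempty := ⟨1, fun h => hI ((Ideal.eq_top_iff_one I).2 h)⟩
  obtain ⟨a, ha, hmin⟩ := (InvImage.wf (fun b : A => (sq A (I ⊔ Ideal.span {b}) I).toNat)
    Nat.lt_wfRel.wf).has_min _ hne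
  have hm : ∀ r ∈ maximalIdeal A, r * a ∈ I := by
    intro r hr
    by_contra hra
    refine hmin (r * a) hra ?_
    show (sq A (I ⊔ Ideal.span {r * a}) I).toNat < (sq A (I ⊔ Ideal.span {a}) I).toNat
    have hle : I ⊔ Ideal.span {r * a} ≤ I ⊔ Ideal.span {a} :=
      sup_le_sup_left ((Ideal.span_singleton_le_iff_mem _).2
        (Ideal.mul_mem_left _ r (Ideal.mem_span_singleton_self a))) _
    have h1 : 1 ≤ sq A (I ⊔ Ideal.span {a}) (I ⊔ Ideal.span {r * a}) := by
      refine one_le_sq fun hle' => ha ?_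
      obtain ⟨i, hi, w, hw, hiw⟩ := Submodule.mem_sup.1
        (hle' (Submodule.mem_sup_right (Ideal.mem_span_singleton_self a)))
      obtain ⟨c, rfl⟩ := Ideal.mem_span_singleton'.1 hw
      have hu : IsUnit (1 - c * r) := by
        have : c * r ∈ maximalIdeal A := Ideal.mul_mem_left _ c hr
        exact isUnit_one_sub_self_of_mem_nonunits _ this
      have : (1 - c * r) * a ∈ I := by
        have : (1 - c * r) * a = i := by linear_combination -hiw
        rw [this]; exact hi
      exact (Ideal.unit_mul_mem_iff_mem I hu).1 this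
    have hf : sq A (I ⊔ Ideal.span {a}) I ≠ ⊤ :=
      ne_top_of_le_ne_top hfin (sq_mono_left le_top)
    rw [sq_add (le_sup_left) hle] at hf ⊢
    obtain ⟨f1, f2⟩ := enat_add_ne_top.1 hf
    rw [ENat.toNat_add f1 f2]
    have : 1 ≤ (sq A (I ⊔ Ideal.span {a}) (I ⊔ Ideal.span {r * a})).toNat := by
      simpa using ENat.toNat_le_toNat h1 f1
    omega
  refine ⟨a, ha, hm, ?_⟩
  rw [← key a]
  congr 1
  refine le_antisymm (one_le_sq fun h => ha (h (Submodule.mem_sup_right
    (Ideal.mem_span_singleton_self a)))) ?_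
  rw [sup_comm, sq_sup_left]
  exact sq_span_singleton_le_one (maximalIdeal A) a I hm

/-- The Hilbert-Samuel function. -/
noncomputable def hs (A : Type u) [CommRing A] [IsLocalRing A] (n : ℕ) : ℕ :=
  (Module.length A (A ⧸ maximalIdeal A ^ n)).toNat

variable [IsNoetherianRing A]

lemma length_quot_maximalIdeal_pow_ne_top (n : ℕ) :
    Module.length A (A ⧸ maximalIdeal A ^ n) ≠ ⊤ := by
  have : IsSimpleModule A (A ⧸ maximalIdeal A) :=
    isSimpleModule_iff_quot_maximal.mpr ⟨_, inferInstance, ⟨LinearEquiv.refl _ _⟩⟩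
  have h1 : IsFiniteLength A (A ⧸ (maximalIdeal A • (⊤ : Submodule A A))) := by
    rw [← Module.length_ne_top_iff, smul_eq_mul, Ideal.mul_top, Module.length_eq_one A _]
    exact ENat.one_ne_top
  have := length_quot_pow_ne_top (maximalIdeal A) h1 n
  rwa [smul_eq_mul, Ideal.mul_top] at this

lemma coe_hs (n : ℕ) : (hs A n : ℕ∞) = Module.length A (A ⧸ maximalIdeal A ^ n) :=
  ENat.coe_toNat (length_quot_maximalIdeal_pow_ne_top n)

end Length

section Asymptotics

/-- `HSUpper A d e`: the normalised Hilbert-Samuel function in degree `d` is asymptotically at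
most `e`. -/
def HSUpper (A : Type u) [CommRing A] [IsLocalRing A] (d : ℕ) (e : ℝ) : Prop :=
  ∀ c, e < c → ∀ᶠ n : ℕ in atTop, (d.factorial : ℝ) * (hs A n : ℝ) ≤ c * (n : ℝ) ^ d

/-- `HSLower A d e`: the normalised Hilbert-Samuel function in degree `d` is asymptotically at
least `e`. -/
def HSLower (A : Type u) [CommRing A] [IsLocalRing A] (d : ℕ) (e : ℝ) : Prop :=
  ∀ c, c < e → ∀ᶠ n : ℕ in atTop, c * (n : ℝ) ^ d ≤ (d.factorial : ℝ) * (hs A n : ℝ)

variable {A : Type u} [CommRing A] [IsLocalRing A]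

lemma hsUpper_of_hasMult {e : ℝ} (h : HasMult A e) : HSUpper A (ndim A) e := fun c hc => by
  filter_upwards [Filter.Tendsto.eventually_le_const hc h, eventually_gt_atTop 0] with n hn hn0
  rwa [div_le_iff₀ (by positivity)] at hn

lemma hsLower_of_hasMult {e : ℝ} (h : HasMult A e) : HSLower A (ndim A) e := fun c hc => by
  filter_upwards [Filter.Tendsto.eventually_const_le hc h, eventually_gt_atTop 0] with n hn hn0
  rwa [le_div_iff₀ (by positivity)] at hn

lemma pow_succ_sub_pow_succ (a d : ℕ) :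
    a ^ (d + 1) + (d + 1) * a ^ d ≤ (a + 1) ^ (d + 1) ∧
      (a + 1) ^ (d + 1) ≤ a ^ (d + 1) + (d + 1) * (a + 1) ^ d := by
  induction d with
  | zero => simp
  | succ d ih =>
    obtain ⟨h1, h2⟩ := ih
    have h3 := Nat.mul_le_mul_left (a + 1) h1
    have h4 := Nat.mul_le_mul_left (a + 1) h2
    have h5 : a ^ d ≤ (a + 1) ^ d := Nat.pow_le_pow_left (by omega) d
    have h6 : a ^ (d + 1) ≤ (a + 1) ^ (d + 1) := Nat.pow_le_pow_left (by omega) (d + 1)
    simp only [pow_succ] at *
    constructor <;> nlinarith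

lemma tendsto_sum_pow (d : ℕ) :
    Tendsto (fun n : ℕ => ((d : ℝ) + 1) * (∑ i ∈ Finset.range n, ((i : ℝ) + 1) ^ d) /
      (n : ℝ) ^ (d + 1)) atTop (nhds 1) := by
  have hsum : ∀ n : ℕ, n ^ (d + 1) ≤ (d + 1) * ∑ i ∈ Finset.range n, (i + 1) ^ d ∧
      (d + 1) * ∑ i ∈ Finset.range n, (i + 1) ^ d ≤ (n + 1) ^ (d + 1) := by
    intro n
    induction n with
    | zero => simp
    | succ n ih =>
      rw [Finset.sum_range_succ, mul_add]
      have a1 := (pow_succ_sub_pow_succ n d).2
      have a2 := (pow_succ_sub_pow_succ (n + 1) d).1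
      exact ⟨by linarith [ih.1], by linarith [ih.2]⟩
  have hlim : Tendsto (fun n : ℕ => (((n : ℝ) + 1) / n) ^ (d + 1)) atTop (nhds 1) := by
    have h := ((tendsto_const_nhds (x := (1 : ℝ))).add
      (tendsto_one_div_atTop_nhds_zero_nat (𝕜 := ℝ))).pow (d + 1)
    simp only [add_zero, one_pow] at h
    refine h.congr' ?_
    filter_upwards [eventually_gt_atTop 0] with n hn
    have : (n : ℝ) ≠ 0 := Nat.cast_ne_zero.2 hn.ne'
    congr 1
    field_simp
  refine tendsto_of_tendsto_of_tendsto_of_le_of_le' tendsto_const_nhds hlim ?_ ?_ <;>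
    filter_upwards [eventually_gt_atTop 0] with n hn
  · rw [le_div_iff₀ (by positivity), one_mul]
    exact_mod_cast (hsum n).1
  · rw [div_pow]
    gcongr
    exact_mod_cast (hsum n).2

lemma exists_sum_le_of_eventually_le {f g : ℕ → ℝ} (h : ∀ᶠ n in atTop, f n ≤ g n) :
    ∃ K : ℝ, ∀ n, ∑ i ∈ Finset.range n, f i ≤ (∑ i ∈ Finset.range n, g i) + K := by
  obtain ⟨N, hN⟩ := eventually_atTop.1 h
  refine ⟨∑ i ∈ Finset.range N, |f i - g i|, fun n => ?_⟩
  rw [← sub_le_iff_le_add', ← Finset.sum_sub_distrib]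
  calc ∑ i ∈ Finset.range n, (f i - g i)
      ≤ ∑ i ∈ (Finset.range n).filter (· < N), (f i - g i) := by
        rw [← Finset.sum_filter_add_sum_filter_not (Finset.range n) (· < N)]
        refine add_le_of_nonpos_right (Finset.sum_nonpos fun i hi => ?_)
        have := hN i (by simpa using (Finset.mem_filter.1 hi).2)
        linarith
    _ ≤ ∑ i ∈ (Finset.range n).filter (· < N), |f i - g i| :=
        Finset.sum_le_sum fun i _ => le_abs_self _
    _ ≤ _ := Finset.sum_le_sum_of_subset_of_nonneg (fun i hi => by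
        simp only [Finset.mem_filter] at hi
        exact Finset.mem_range.2 hi.2) fun i _ _ => abs_nonneg _

variable {B : Type v} [CommRing B] [IsLocalRing B]

lemma hsUpper_of_sum {d : ℕ} {e : ℝ} (he : HSUpper A d e)
    (h : ∀ n, hs B n ≤ ∑ i ∈ Finset.range n, hs A (i + 1)) : HSUpper B (d + 1) e := by
  intro c hc
  obtain ⟨c₁, h1, h2⟩ := exists_between hc
  obtain ⟨K, hK⟩ := exists_sum_le_of_eventually_le ((tendsto_add_atTop_nat 1).eventually (he c₁ h1))
  have hlim := ((tendsto_sum_pow d).const_mul c₁).add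
    (tendsto_const_div_pow (((d : ℝ) + 1) * K) (d + 1) (by omega))
  rw [mul_one, add_zero] at hlim
  filter_upwards [Filter.Tendsto.eventually_le_const h2 hlim, eventually_gt_atTop 0] with n hn hn0
  rw [← mul_div_assoc, ← add_div, div_le_iff₀ (by positivity)] at hn
  refine le_trans ?_ hn
  have hB : (hs B n : ℝ) ≤ ∑ i ∈ Finset.range n, (hs A (i + 1) : ℝ) := by exact_mod_cast h n
  have hKn := hK n
  simp only [← Finset.mul_sum] at hKn
  push_cast [Nat.factorial_succ] at hKn ⊢
  have hd : (0 : ℝ) < d + 1 := by positivity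
  have hf : (0 : ℝ) ≤ d.factorial := by positivity
  calc ((d : ℝ) + 1) * d.factorial * hs B n
      ≤ ((d : ℝ) + 1) * (d.factorial * ∑ i ∈ Finset.range n, (hs A (i + 1) : ℝ)) := by
        rw [mul_assoc]; gcongr
    _ ≤ ((d : ℝ) + 1) * (c₁ * ∑ i ∈ Finset.range n, ((i : ℝ) + 1) ^ d + K) := by gcongr
    _ = _ := by ring

lemma hsLower_of_sum {d : ℕ} {e : ℝ} (he : HSLower A d e)
    (h : ∀ n, ∑ i ∈ Finset.range n, hs A (i + 1) ≤ hs B n) : HSLower B (d + 1) e := by
  intro c hc
  obtain ⟨c₁, h1, h2⟩ := exists_between hc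
  obtain ⟨K, hK⟩ := exists_sum_le_of_eventually_le ((tendsto_add_atTop_nat 1).eventually (he c₁ h2))
  have hlim := ((tendsto_sum_pow d).const_mul c₁).sub
    (tendsto_const_div_pow (((d : ℝ) + 1) * K) (d + 1) (by omega))
  rw [mul_one, sub_zero] at hlim
  filter_upwards [Filter.Tendsto.eventually_const_le h1 hlim, eventually_gt_atTop 0] with n hn hn0
  rw [← mul_div_assoc, ← sub_div, le_div_iff₀ (by positivity)] at hn
  refine le_trans hn ?_
  have hB : ∑ i ∈ Finset.range n, (hs A (i + 1) : ℝ) ≤ (hs B n : ℝ) := by exact_mod_cast h n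
  have hKn := hK n
  simp only [← Finset.mul_sum] at hKn
  push_cast [Nat.factorial_succ] at hKn ⊢
  have hd : (0 : ℝ) < d + 1 := by positivity
  have hf : (0 : ℝ) ≤ d.factorial := by positivity
  calc _ = ((d : ℝ) + 1) * (c₁ * ∑ i ∈ Finset.range n, ((i : ℝ) + 1) ^ d - K) := by ring
    _ ≤ ((d : ℝ) + 1) * (d.factorial * ∑ i ∈ Finset.range n, (hs A (i + 1) : ℝ)) := by
        gcongr; linarith
    _ ≤ ((d : ℝ) + 1) * d.factorial * hs B n := by
        rw [mul_assoc]; gcongr

end Asymptotics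

end Vale.Agent.P202
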