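import Vale.Agent.P202.Basic

/-!
E2: coefficient fields of complete local rings with residue field of characteristic zero.
-/

universe u

namespace Vale.Agent.P202

open IsLocalRing Polynomial

variable {S : Type u} [CommRing S]

/-- Every nonzero element has an inverse in the subring. -/
def GoodSubring (P : Subring S) : Prop := ∀ z ∈ P, z = 0 ∨ ∃ w ∈ P, z * w = 1

/-- The fractions of a subring whose nonzero elements are units. -/
lemma exists_goodSubring_ge [Nontrivial S] (Q : Subring S) (hQ : ∀ z ∈ Q, z = 0 ∨ IsUnit z) :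
    ∃ P : Subring S, Q ≤ P ∧ GoodSubring P := by
  let P : Subring S :=
    { carrier := {z | ∃ a ∈ Q, ∃ b ∈ Q, IsUnit b ∧ z * b = a}
      zero_mem' := ⟨0, zero_mem _, 1, one_mem _, isUnit_one, by simp⟩
      one_mem' := ⟨1, one_mem _, 1, one_mem _, isUnit_one, by simp⟩
      add_mem' := by
        rintro z z' ⟨a, ha, b, hb, hbu, h⟩ ⟨a', ha', b', hb', hbu', h'⟩
        refine ⟨a * b' + a' * b, add_mem (mul_mem ha hb') (mul_mem ha' hb), b * b',
          mul_mem hb hb', hbu.mul hbu', ?_⟩
        rw [← h, ← h']; ring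
      mul_mem' := by
        rintro z z' ⟨a, ha, b, hb, hbu, h⟩ ⟨a', ha', b', hb', hbu', h'⟩
        refine ⟨a * a', mul_mem ha ha', b * b', mul_mem hb hb', hbu.mul hbu', ?_⟩
        rw [← h, ← h']; ring
      neg_mem' := by
        rintro z ⟨a, ha, b, hb, hbu, h⟩
        exact ⟨-a, neg_mem ha, b, hb, hbu, by rw [← h]; ring⟩ }
  refine ⟨P, fun z hz => ⟨z, hz, 1, one_mem _, isUnit_one, by simp⟩, ?_⟩
  rintro z ⟨a, ha, b, hb, hbu, h⟩
  rcases hQ a ha with rfl | hau
  · exact Or.inl (hbu.mul_left_eq_zero.1 h)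
  · refine Or.inr ⟨b * (↑hau.unit⁻¹ : S), ⟨b, hb, a, ha, hau, ?_⟩, ?_⟩
    · rw [mul_assoc, hau.val_inv_mul, mul_one]
    · rw [← mul_assoc, h, hau.mul_val_inv]

variable [IsLocalRing S] [HenselianRing S (maximalIdeal S)]

/-- A good subring with non-surjective residue map can be enlarged. -/
lemma exists_goodSubring_gt [CharZero (ResidueField S)] {P : Subring S} (hP : GoodSubring P)
    (ρ : ResidueField S) (hρ : ∀ c ∈ P, residue S c ≠ ρ) :
    ∃ P' : Subring S, GoodSubring P' ∧ P < P' := by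
  classical
  have hF : IsField P := by
    refine ⟨⟨0, 1, zero_ne_one⟩, mul_comm, fun {z} hz => ?_⟩
    rcases hP z.1 z.2 with h | ⟨w, hw, h⟩
    · exact absurd (Subtype.ext h) hz
    · exact ⟨⟨w, hw⟩, Subtype.ext h⟩
  let : Field P := hF.toField
  let : Algebra P (ResidueField S) := ((residue S).comp P.subtype).toAlgebra
  have : CharZero P := (algebraMap P (ResidueField S)).charZero_iff (RingHom.injective _) |>.2
    inferInstance
  -- a lift of `ρ` killed by every polynomial killing `ρ`
  obtain ⟨s, hs, hsq⟩ : ∃ s : S, residue S s = ρ ∧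
      ∀ q : Polynomial P, aeval ρ q = 0 → q.eval₂ P.subtype s = 0 := by
    by_cases hint : IsIntegral P ρ
    · set g := minpoly P ρ with hg
      obtain ⟨s₀, hs₀⟩ := residue_surjective ρ
      set f : Polynomial S := g.map P.subtype with hf
      have hmon : f.Monic := (minpoly.monic hint).map _
      have heval : ∀ (q : Polynomial P), residue S ((q.map P.subtype).eval s₀) = aeval ρ q := by
        intro q
        rw [eval_map, hom_eval₂, hs₀]
        rfl
      have h1 : f.eval s₀ ∈ maximalIdeal S := by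
        rw [← residue_eq_zero_iff, hf, heval, hg, minpoly.aeval]
      have hsep : g.Separable := (minpoly.irreducible hint).separable
      have h2 : IsUnit (Ideal.Quotient.mk (maximalIdeal S) (f.derivative.eval s₀)) := by
        refine IsUnit.map _ ?_
        rw [← notMem_maximalIdeal, ← residue_eq_zero_iff, hf, derivative_map, heval]
        exact hsep.aeval_derivative_ne_zero (minpoly.aeval P ρ)
      obtain ⟨s, hroot, hs⟩ := HenselianRing.is_henselian f hmon s₀ h1 h2
      refine ⟨s, ?_, fun q hq => ?_⟩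
      · rw [← hs₀, ← sub_eq_zero, ← map_sub, residue_eq_zero_iff]
        exact hs
      · obtain ⟨c, rfl⟩ := minpoly.dvd P ρ hq
        rw [eval₂_mul, ← eval_map, ← hg, ← hf, hroot.eq_zero, zero_mul]
    · obtain ⟨s, hs⟩ := residue_surjective ρ
      refine ⟨s, hs, fun q hq => ?_⟩
      have : q = 0 := by
        by_contra hne
        exact hint (IsAlgebraic.isIntegral ⟨q, hne, hq⟩)
      simp [this]
  obtain ⟨P', hle, hgood⟩ := exists_goodSubring_ge (eval₂RingHom P.subtype s).range (by
    rintro _ ⟨q, rfl⟩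
    by_cases hq : aeval ρ q = 0
    · exact Or.inl (hsq q hq)
    · refine Or.inr (notMem_maximalIdeal.1 fun hmem => hq ?_)
      rw [← residue_eq_zero_iff, coe_eval₂RingHom, hom_eval₂, hs] at hmem
      exact hmem)
  refine ⟨P', hgood, lt_of_le_of_ne (fun c hc => hle ⟨C ⟨c, hc⟩, by simp⟩) fun h => ?_⟩
  exact hρ s (h ▸ hle ⟨X, by simp⟩) hs

/-- A subring whose nonzero elements are units extends to a coefficient field. -/
theorem exists_coefficientField [CharZero (ResidueField S)] (Q : Subring S)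
    (hQ : ∀ z ∈ Q, z = 0 ∨ IsUnit z) :
    ∃ K : Subring S, Q ≤ K ∧ IsField K ∧ ∀ t : S, ∃ c ∈ K, t - c ∈ maximalIdeal S := by
  obtain ⟨P₀, hQP, hP₀⟩ := exists_goodSubring_ge Q hQ
  obtain ⟨K, hPK, hK⟩ := zorn_le_nonempty₀ {P : Subring S | GoodSubring P} (fun c hc hchain P hP => by
    refine ⟨sSup c, fun z hz => ?_, fun P' hP' => le_sSup hP'⟩
    obtain ⟨P', hP', hzP⟩ := (Subring.mem_sSup_of_directedOn ⟨P, hP⟩ hchain.directedOn).1 hz
    rcases hc hP' z hzP with h | ⟨w, hw, h⟩
    · exact Or.inl h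
    · exact Or.inr ⟨w, le_sSup (α := Subring S) hP' hw, h⟩) P₀ hP₀
  refine ⟨K, hQP.trans hPK, ⟨⟨0, 1, zero_ne_one⟩, mul_comm, fun {z} hz => ?_⟩, fun t => ?_⟩
  · rcases hK.prop z.1 z.2 with h | ⟨w, hw, h⟩
    · exact absurd (Subtype.ext h) hz
    · exact ⟨⟨w, hw⟩, Subtype.ext h⟩
  · by_contra hcon
    push Not at hcon
    obtain ⟨P', hP', hlt⟩ := exists_goodSubring_gt hK.prop (residue S t) fun c hc h => hcon c hc (by
      rw [← residue_eq_zero_iff, map_sub, h, sub_self])
    exact absurd (hK.le_of_ge hP' hlt.le) (not_le_of_gt hlt)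

/-- In residue characteristic zero nonzero integers are units. -/
lemma bot_zero_or_isUnit {R : Type u} [CommRing R] [IsLocalRing R] [CharZero (ResidueField R)] :
    ∀ z ∈ (⊥ : Subring R), z = 0 ∨ IsUnit z := by
  intro z hz
  obtain ⟨n, rfl⟩ := Subring.mem_bot.1 hz
  rcases eq_or_ne n 0 with rfl | hn
  · exact Or.inl Int.cast_zero
  · refine Or.inr (notMem_maximalIdeal.1 ?_)
    rw [← residue_eq_zero_iff, map_intCast]
    exact_mod_cast hn

end Vale.Agent.P202
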