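import Vale.Agent.P202.Model

/-!
E2: the representation of a finite algebra over a domain on the fraction field.
-/

universe u

namespace Vale.Agent.P202

open TensorProduct

variable {A R₁ : Type u} [CommRing A] [CommRing R₁] [Algebra A R₁]

/-- The value of an affine form at `b`. -/
def affVal {n : ℕ} (b : Fin n → R₁) (c : Option (Fin n) → A) : R₁ :=
  algebraMap A R₁ (c none) + ∑ i, algebraMap A R₁ (c (some i)) * b i

/-- The matrix of an affine form, as `Param.affMat`. -/
def affMatOf {n e : ℕ} (a : A) (lam : Fin n → Matrix (Fin e) (Fin e) A) (c : Option (Fin n) → A) :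
    Matrix (Fin e) (Fin e) A :=
  (a * c none) • (1 : Matrix (Fin e) (Fin e) A) + ∑ i, c (some i) • lam i

lemma affVal_eq_sum {n : ℕ} (b : Fin n → R₁) (c : Option (Fin n) → A) :
    affVal b c = ∑ o, c o • (Option.elim o 1 b : R₁) := by
  simp [affVal, Fintype.sum_option, Algebra.smul_def]

lemma affVal_single {n : ℕ} (b : Fin n → R₁) (o : Option (Fin n)) :
    affVal b (Pi.single o (1 : A)) = (Option.elim o 1 b : R₁) := by
  classical
  rw [affVal_eq_sum, Finset.sum_eq_single o]
  · simp
  · intro o' _ h; simp [h]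
  · simp

/-- `R₁ ⊗ Frac A` gives a representation by scaled integral matrices with a cyclic vector, and
`R₁` is up to torsion generated by as many elements as the size of the matrices. -/
theorem exists_rep [IsDomain A] {n : ℕ} (b : Fin n → R₁)
    (hspan : Submodule.span A (Set.range fun o : Option (Fin n) => (Option.elim o 1 b : R₁)) = ⊤) :
    ∃ (e : ℕ) (a : A) (lam : Fin n → Matrix (Fin e) (Fin e) A) (v : Fin e → A)
      (cc : Fin e → Option (Fin n) → A),
      a ≠ 0 ∧ (∀ i j, lam i * lam j = lam j * lam i) ∧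
      (∀ i j c, b i * b j = affVal b c → lam i * lam j = a • affMatOf a lam c) ∧
      (∀ c, affVal b c = 0 → affMatOf a lam c = 0) ∧
      (∀ j, (affMatOf a lam (cc j)).mulVec v = Pi.single j a) ∧
      ∃ (G : (Fin e → A) →ₗ[A] R₁) (z : A), z ≠ 0 ∧ ∀ q : R₁, z • q ∈ LinearMap.range G := by
  classical
  let F := FractionRing A
  let L := F ⊗[A] R₁
  let ι : R₁ →ₐ[A] L := Algebra.TensorProduct.includeRight
  let g : Option (Fin n) → R₁ := fun o => Option.elim o 1 b
  let w : Option (Fin n) → L := fun o => ι (g o)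
  have hexp : ∀ q : R₁, ∃ c : Option (Fin n) → A, q = ∑ o, c o • g o := by
    intro q
    obtain ⟨c, hc⟩ := (Submodule.mem_span_range_iff_exists_fun A).1
      (hspan ▸ Submodule.mem_top : q ∈ Submodule.span A (Set.range g))
    exact ⟨c, hc.symm⟩
  -- a basis containing `1`, if possible
  obtain ⟨T₀, hT₀, hT₀'⟩ : ∃ T₀ : Set (Option (Fin n)), LinearIndepOn F w T₀ ∧
      (w none = 0 ∨ none ∈ T₀) := by
    by_cases h : w none = 0
    · exact ⟨∅, linearIndepOn_empty F w, Or.inl h⟩
    · exact ⟨{none}, LinearIndepOn.singleton h, Or.inr rfl⟩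
  obtain ⟨bset, -, hsub, hsp, hli⟩ := exists_linearIndepOn_extension hT₀ (Set.subset_univ T₀)
  let e := Fintype.card bset
  let f : Fin e ≃ bset := (Fintype.equivFin bset).symm
  have hli' : LinearIndependent F (fun j : Fin e => w (f j)) := hli.comp f f.injective
  have hsp' : ⊤ ≤ Submodule.span F (Set.range fun j : Fin e => w (f j)) := by
    have hr : (Set.range fun j : Fin e => w (f j)) = w '' bset := by
      ext x
      constructor
      · rintro ⟨j, rfl⟩; exact ⟨_, (f j).2, rfl⟩
      · rintro ⟨o, ho, rfl⟩; exact ⟨f.symm ⟨o, ho⟩, by simp⟩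
    rw [hr]
    intro x _
    induction x using TensorProduct.induction_on with
    | zero => exact zero_mem _
    | add y y' hy hy' => exact add_mem (hy Submodule.mem_top) (hy' Submodule.mem_top)
    | tmul c q =>
      have h1 : c ⊗ₜ[A] q = c • ι q := by
        show c ⊗ₜ[A] q = c • ((1 : F) ⊗ₜ[A] q)
        rw [smul_tmul', smul_eq_mul, mul_one]
      rw [h1]
      refine Submodule.smul_mem _ _ ?_
      obtain ⟨k, rfl⟩ := hexp q
      rw [map_sum]
      refine Submodule.sum_mem _ fun o _ => ?_
      rw [map_smul, ← algebraMap_smul F (k o) (ι (g o))]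
      exact Submodule.smul_mem _ _ (hsp (Set.mem_image_of_mem w (Set.mem_univ o)))
  let β : Module.Basis (Fin e) F L := Module.Basis.mk hli' hsp'
  have hβ : ∀ j, β j = w (f j) := fun j => Module.Basis.mk_apply hli' hsp' j
  -- the coordinates of `1` are integral
  obtain ⟨v, hv⟩ : ∃ v : Fin e → A, ∀ j, algebraMap A F (v j) = β.repr 1 j := by
    have h1 : w none = 1 := map_one ι
    rcases hT₀' with h | h
    · rw [h1] at h
      exact ⟨0, fun j => by rw [h, map_zero]; simp⟩
    · obtain ⟨j0, hj0⟩ := f.surjective ⟨none, hsub h⟩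
      refine ⟨Pi.single j0 1, fun j => ?_⟩
      have : β j0 = 1 := by rw [hβ, hj0]; exact h1
      rw [← this, β.repr_self]
      rcases eq_or_ne j j0 with rfl | hj
      · simp
      · simp [hj]
  -- clearing denominators
  let M : L →ₐ[F] Matrix (Fin e) (Fin e) F := Algebra.leftMulMatrix β
  obtain ⟨⟨a, ha⟩, hint⟩ := IsLocalization.exist_integer_multiples_of_finite
    (nonZeroDivisors A) fun p : Fin n × Fin e × Fin e => M (ι (b p.1)) p.2.1 p.2.2
  choose l hl using hint
  let lam : Fin n → Matrix (Fin e) (Fin e) A := fun i => Matrix.of fun r s => l (i, r, s)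
  have ha0 : a ≠ 0 := nonZeroDivisors.ne_zero ha
  let φ := (algebraMap A F).mapMatrix (m := Fin e)
  have hφ : Function.Injective φ :=
    Matrix.map_injective (IsFractionRing.injective A F)
  have hsm : ∀ (c : A) (N : Matrix (Fin e) (Fin e) A), φ (c • N) = algebraMap A F c • φ N := by
    intro c N; ext r s; simp [φ]
  have hlam : ∀ i, φ (lam i) = algebraMap A F a • M (ι (b i)) := by
    intro i; ext r s
    show algebraMap A F (l (i, r, s)) = algebraMap A F a • M (ι (b i)) r s
    rw [hl (i, r, s)]
    exact (algebraMap_smul F a _).symm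
  have hιalg : ∀ c : A, M (ι (algebraMap A R₁ c)) = algebraMap A F c • 1 := by
    intro c
    rw [AlgHom.commutes, IsScalarTower.algebraMap_apply A F L, AlgHom.commutes,
      Algebra.algebraMap_eq_smul_one]
  have haff : ∀ c, φ (affMatOf a lam c) = algebraMap A F a • M (ι (affVal b c)) := by
    intro c
    rw [affMatOf, affVal, map_add, map_sum, hsm, map_one, map_add ι, map_add M, smul_add,
      hιalg, smul_smul, map_mul, map_sum, map_sum M, Finset.smul_sum]
    congr 1
    refine Finset.sum_congr rfl fun i _ => ?_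
    rw [hsm, hlam, map_mul ι, map_mul M, hιalg, smul_mul_assoc, one_mul, smul_comm]
  let cc : Fin e → Option (Fin n) → A := fun j => Pi.single (f j : Option (Fin n)) 1
  refine ⟨e, a, lam, v, cc, ha0, fun i j => hφ ?_, fun i j c h => hφ ?_, fun c h => hφ ?_,
    fun j => ?_, ?_⟩
  · simp only [map_mul, hlam, smul_mul_smul_comm]
    rw [← map_mul M, ← map_mul M, mul_comm (ι (b i))]
  · simp only [map_mul, hlam, hsm, haff, smul_mul_smul_comm]
    rw [← map_mul M, ← map_mul ι, h, smul_smul]
  · rw [haff, h, map_zero, map_zero, smul_zero, map_zero]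
  · funext r
    refine IsFractionRing.injective A F ?_
    rw [RingHom.map_mulVec]
    show (φ (affMatOf a lam (cc j))).mulVec (fun s => algebraMap A F (v s)) r = _
    rw [haff, funext hv, Matrix.smul_mulVec, Algebra.leftMulMatrix_mulVec_repr, mul_one,
      affVal_single, ← show w (f j) = ι (Option.elim (f j : Option (Fin n)) 1 b) from rfl, ← hβ,
      β.repr_self]
    rcases eq_or_ne r j with rfl | hr
    · simp
    · simp [hr]
  · -- `R₁` up to torsion
    let G : (Fin e → A) →ₗ[A] R₁ := Fintype.linearCombination A fun j => g (f j)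
    have hker : ∀ q : R₁, ι q = 0 → ∃ z : A, z ≠ 0 ∧ z • q = 0 := by
      intro q hq
      obtain ⟨⟨z, hz⟩, hzq⟩ :=
        (IsLocalizedModule.eq_zero_iff (nonZeroDivisors A) (TensorProduct.mk A F R₁ 1)).1 hq
      exact ⟨z, nonZeroDivisors.ne_zero hz, hzq⟩
    have hgo : ∀ o, ∃ z : A, z ≠ 0 ∧ z • g o ∈ LinearMap.range G := by
      intro o
      obtain ⟨⟨a', ha'⟩, hint'⟩ := IsLocalization.exist_integer_multiples_of_finite
        (nonZeroDivisors A) fun j : Fin e => β.repr (w o) j
      choose k hk using hint'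
      have hzero : ι (a' • g o - G k) = 0 := by
        rw [map_sub, map_smul, sub_eq_zero, Fintype.linearCombination_apply, map_sum,
          show ι (g o) = ∑ j, β.repr (w o) j • β j from (β.sum_repr _).symm, Finset.smul_sum]
        refine Finset.sum_congr rfl fun j _ => ?_
        rw [map_smul, hβ, ← algebraMap_smul F a' (β.repr (w o) j • w (f j)),
          ← algebraMap_smul F (k j) (ι (g (f j))), smul_smul]
        congr 1
        rw [hk j, Algebra.smul_def]
      obtain ⟨z', hz', hz'q⟩ := hker _ hzero
      refine ⟨z' * a', mul_ne_zero hz' (nonZeroDivisors.ne_zero ha'), z' • k, ?_⟩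
      rw [smul_sub, sub_eq_zero] at hz'q
      rw [map_smul, ← hz'q, mul_smul]
    choose z hz hzg using hgo
    refine ⟨G, ∏ o, z o, Finset.prod_ne_zero_iff.2 fun o _ => hz o, fun q => ?_⟩
    obtain ⟨k, rfl⟩ := hexp q
    rw [Finset.smul_sum]
    refine Submodule.sum_mem _ fun o _ => ?_
    obtain ⟨z', hz'⟩ := Finset.dvd_prod_of_mem z (Finset.mem_univ o)
    rw [hz', smul_smul, show z o * z' * k o = z' * k o * z o by ring, mul_smul]
    exact Submodule.smul_mem _ _ (hzg o)

end Vale.Agent.P202
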