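import Vale.Agent.P202.EPowerSeries

/-!
E2: growth of a finite module over power series which is generated by `e` elements up to torsion.
-/

universe u

namespace Vale.Agent.P202

open IsLocalRing MvPowerSeries Filter

variable {K : Type u} [Field K] {d : ℕ}

lemma ndim_powerSeries_le : ndim (MvPowerSeries (Fin d) K) ≤ d := by
  have hne : Ideal.span (Set.range (X : Fin d → MvPowerSeries (Fin d) K)) ≠ ⊤ :=
    maximalIdeal_powerSeries (σ := Fin d) (k := K) ▸ (maximalIdeal.isMaximal _).ne_top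
  have h := Ideal.height_le_spanRank_toENat _ hne
  rw [← maximalIdeal_powerSeries, height_maximalIdeal_eq_ndim, maximalIdeal_powerSeries] at h
  have h2 : (Ideal.span (Set.range (X : Fin d → MvPowerSeries (Fin d) K))).spanRank.toENat ≤
      (d : ℕ∞) := by
    classical
    refine (Cardinal.toENat.monotone' (Submodule.spanRank_span_le_card _)).trans ?_
    refine le_trans (le_of_eq (Set.toENat_cardinalMk _)) ?_
    rw [← Set.image_univ]
    exact (Set.encard_image_le _ _).trans (by simp)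
  exact_mod_cast h.trans h2

variable {M : Type u} [AddCommGroup M] [Module (MvPowerSeries (Fin d) K) M]
  [Module.Finite (MvPowerSeries (Fin d) K) M]

/-- A module generated by `e` elements up to torsion has length modulo `(x)^N` at most
`e` monomial counts plus a lower order term. -/
lemma exists_growth_of_rank {e : ℕ}
    (G : (Fin e → MvPowerSeries (Fin d) K) →ₗ[MvPowerSeries (Fin d) K] M)
    (z : MvPowerSeries (Fin d) K) (hz : z ≠ 0) (hzG : ∀ q, z • q ∈ LinearMap.range G) :
    ∃ C : ℕ, (d = 0 → C = 0) ∧ ∀ N, Module.length (MvPowerSeries (Fin d) K)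
      (M ⧸ (Ideal.span (Set.range (X : Fin d → MvPowerSeries (Fin d) K)) ^ N •
        (⊤ : Submodule (MvPowerSeries (Fin d) K) M))) ≤
      ((e * {f : Fin d →₀ ℕ | f.degree < N}.ncard + C * (N + 1) ^ (d - 1) : ℕ) : ℕ∞) := by
  classical
  let Q := M ⧸ LinearMap.range G
  have hzQ : ∀ q : Q, z • q = 0 := by
    intro q
    obtain ⟨q, rfl⟩ := Submodule.Quotient.mk_surjective _ q
    rw [← Submodule.Quotient.mk_smul, Submodule.Quotient.mk_eq_zero]
    exact hzG q
  obtain ⟨C, hC0, hC⟩ : ∃ C : ℕ, (d = 0 → C = 0) ∧ ∀ N, Module.length (MvPowerSeries (Fin d) K)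
      (Q ⧸ (maximalIdeal (MvPowerSeries (Fin d) K) ^ N • (⊤ : Submodule (MvPowerSeries (Fin d) K) Q))) ≤ ((C * (N + 1) ^ (d - 1) : ℕ) : ℕ∞) := by
    rcases Nat.eq_zero_or_pos d with hd0 | hd
    · have : IsEmpty (Fin d) := hd0 ▸ Fin.isEmpty'
      refine ⟨0, fun _ => rfl, fun N => ?_⟩
      have hu : IsUnit z := by
        by_contra hnu
        have : z ∈ maximalIdeal (MvPowerSeries (Fin d) K) := hnu
        rw [maximalIdeal_powerSeries, Set.range_eq_empty, Ideal.span_empty, Ideal.mem_bot] at this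
        exact hz this
      have : Subsingleton Q := ⟨fun a b => by rw [hu.smul_eq_zero.1 (hzQ a), hu.smul_eq_zero.1 (hzQ b)]⟩
      simp
    · have hdim : ringKrullDim ((MvPowerSeries (Fin d) K) ⧸ Ideal.span {z}) < ringKrullDim (MvPowerSeries (Fin d) K) := by
        have h := ringKrullDim_quotient_succ_le_of_nonZeroDivisor (mem_nonZeroDivisors_of_ne_zero hz)
        rw [ringKrullDim_eq_ndim (A := (MvPowerSeries (Fin d) K))] at h ⊢
        generalize ringKrullDim ((MvPowerSeries (Fin d) K) ⧸ Ideal.span {z}) = w at h ⊢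
        induction w using WithBot.recBotCoe with
        | bot => exact WithBot.bot_lt_coe _
        | coe w =>
          have h' : w + 1 ≤ (ndim (MvPowerSeries (Fin d) K) : ℕ∞) := by exact_mod_cast h
          exact_mod_cast (ENat.add_one_le_iff
            (ne_top_of_le_ne_top (ENat.natCast_ne_top _) (le_self_add.trans h'))).1 h'
      obtain ⟨C, hC⟩ := exists_length_quot_pow_le_of_killed Q z hzQ hdim
      exact ⟨C, fun h => absurd h hd.ne', fun N => (hC N).trans (Nat.cast_le.2
        (Nat.mul_le_mul_left C (Nat.pow_le_pow_right N.succ_pos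
          (Nat.sub_le_sub_right ndim_powerSeries_le 1))))⟩
  refine ⟨C, hC0, fun N => ?_⟩
  rw [← maximalIdeal_powerSeries]
  set J := maximalIdeal (MvPowerSeries (Fin d) K) ^ N
  set W : Submodule (MvPowerSeries (Fin d) K) M := J • ⊤
  let ψ : (Fin e → (MvPowerSeries (Fin d) K) ⧸ J) →ₗ[(MvPowerSeries (Fin d) K)] M ⧸ W := ∑ j, (Submodule.liftQ J
    (LinearMap.toSpanSingleton (MvPowerSeries (Fin d) K) (M ⧸ W) (Submodule.Quotient.mk (G (Pi.single j 1))))
    (fun a ha => by
      rw [LinearMap.mem_ker, LinearMap.toSpanSingleton_apply, ← Submodule.Quotient.mk_smul,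
        Submodule.Quotient.mk_eq_zero]
      exact Submodule.smul_mem_smul ha Submodule.mem_top)).comp (LinearMap.proj j)
  have hG : ∀ w, Submodule.Quotient.mk (p := W) (G w) ∈ LinearMap.range ψ := by
    intro w
    refine ⟨fun j => Ideal.Quotient.mk J (w j), ?_⟩
    have hw : G w = ∑ j, w j • G (Pi.single j 1) := by
      conv_lhs => rw [← Finset.univ_sum_single w]
      rw [map_sum]
      exact Finset.sum_congr rfl fun j _ => by rw [← map_smul, ← Pi.single_smul', smul_eq_mul, mul_one]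
    rw [LinearMap.sum_apply, hw, ← Submodule.mkQ_apply, map_sum]
    rfl
  have h1 : Module.length (MvPowerSeries (Fin d) K) (LinearMap.range ψ) ≤
      ((e * {f : Fin d →₀ ℕ | f.degree < N}.ncard : ℕ) : ℕ∞) := by
    refine (Module.length_le_of_surjective ψ.rangeRestrict ψ.surjective_rangeRestrict).trans ?_
    rw [Module.length_pi_of_fintype, Finset.sum_const, Finset.card_univ, Fintype.card_fin,
      length_powerSeries_quot, nsmul_eq_mul, Nat.cast_mul]
  have h2 : Module.length (MvPowerSeries (Fin d) K) ((M ⧸ W) ⧸ LinearMap.range ψ) ≤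
      Module.length (MvPowerSeries (Fin d) K) (Q ⧸ (J • (⊤ : Submodule (MvPowerSeries (Fin d) K) Q))) := by
    let h : Q →ₗ[(MvPowerSeries (Fin d) K)] (M ⧸ W) ⧸ LinearMap.range ψ := (LinearMap.range G).liftQ
      ((LinearMap.range ψ).mkQ.comp W.mkQ) (by
        rintro _ ⟨w, rfl⟩
        rw [LinearMap.mem_ker, LinearMap.comp_apply, Submodule.mkQ_apply, Submodule.mkQ_apply,
          Submodule.Quotient.mk_eq_zero]
        exact hG w)
    let h' : (Q ⧸ (J • (⊤ : Submodule (MvPowerSeries (Fin d) K) Q))) →ₗ[(MvPowerSeries (Fin d) K)] (M ⧸ W) ⧸ LinearMap.range ψ :=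
      Submodule.liftQ _ h (Submodule.smul_le.2 fun a ha q _ => by
        obtain ⟨q, rfl⟩ := Submodule.Quotient.mk_surjective _ q
        have h0 : W.mkQ (a • q) = 0 := (Submodule.Quotient.mk_eq_zero W).2
          (Submodule.smul_mem_smul ha Submodule.mem_top)
        rw [← Submodule.Quotient.mk_smul, LinearMap.mem_ker, Submodule.liftQ_apply,
          LinearMap.comp_apply, h0, map_zero])
    refine Module.length_le_of_surjective h' fun y => ?_
    obtain ⟨y, rfl⟩ := Submodule.Quotient.mk_surjective _ y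
    obtain ⟨y, rfl⟩ := Submodule.Quotient.mk_surjective _ y
    exact ⟨Submodule.Quotient.mk (Submodule.Quotient.mk y), rfl⟩
  rw [Module.length_eq_add_of_exact (LinearMap.range ψ).subtype (LinearMap.range ψ).mkQ
    (Submodule.injective_subtype _) (Submodule.mkQ_surjective _)
    (LinearMap.exact_subtype_mkQ _), Nat.cast_add]
  exact add_le_add h1 (h2.trans (hC N))

/-- The multiplicity read off from such a bound. -/
lemma le_of_growth_bound {ℓ : ℕ → ℕ} {L : ℝ} (e C d : ℕ) (hC0 : d = 0 → C = 0)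
    (hlim : Tendsto (fun N : ℕ => (d.factorial : ℝ) * (ℓ N : ℝ) / (N : ℝ) ^ d) atTop (nhds L))
    (hle : ∀ N, ℓ N ≤ e * {f : Fin d →₀ ℕ | f.degree < N}.ncard + C * (N + 1) ^ (d - 1)) :
    L ≤ (e : ℝ) := by
  have hlow : Tendsto (fun N : ℕ => (d.factorial : ℝ) * ((C * (N + 1) ^ (d - 1) : ℕ) : ℝ) /
      (N : ℝ) ^ d) atTop (nhds 0) := by
    rcases Nat.eq_zero_or_pos d with rfl | hd
    · simp [hC0 rfl]
    obtain ⟨d, rfl⟩ : ∃ d', d = d' + 1 := ⟨d - 1, (Nat.succ_pred_eq_of_pos hd).symm⟩
    have hup : Tendsto (fun N : ℕ => ((d + 1).factorial : ℝ) * (C : ℝ) * 2 ^ d * (N : ℝ)⁻¹)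
        atTop (nhds 0) := by
      simpa using (tendsto_inv_atTop_nhds_zero_nat (𝕜 := ℝ)).const_mul
        (((d + 1).factorial : ℝ) * (C : ℝ) * 2 ^ d)
    refine squeeze_zero' (Eventually.of_forall fun N => by positivity) ?_ hup
    filter_upwards [eventually_gt_atTop 0] with N hN
    have hN' : (0 : ℝ) < N := by exact_mod_cast hN
    have h2 : ((N : ℝ) + 1) ^ d ≤ 2 ^ d * (N : ℝ) ^ d := by
      rw [← mul_pow]
      refine pow_le_pow_left₀ (by positivity) ?_ d
      have : (1 : ℝ) ≤ N := by exact_mod_cast hN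
      linarith
    rw [Nat.add_sub_cancel, div_le_iff₀ (by positivity)]
    push_cast
    calc ((d + 1).factorial : ℝ) * ((C : ℝ) * ((N : ℝ) + 1) ^ d)
        ≤ ((d + 1).factorial : ℝ) * ((C : ℝ) * (2 ^ d * (N : ℝ) ^ d)) := by gcongr
      _ = _ := by field_simp; ring
  have hsum := ((tendsto_ncard_degree_lt d).const_mul (e : ℝ)).add hlow
  rw [mul_one, add_zero] at hsum
  refine le_of_tendsto_of_tendsto' hlim hsum fun N => ?_
  rw [show (e : ℝ) * ((d.factorial : ℝ) * ({f : Fin d →₀ ℕ | f.degree < N}.ncard : ℝ) /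
      (N : ℝ) ^ d) + (d.factorial : ℝ) * ((C * (N + 1) ^ (d - 1) : ℕ) : ℝ) / (N : ℝ) ^ d =
      (d.factorial : ℝ) * ((e * {f : Fin d →₀ ℕ | f.degree < N}.ncard +
        C * (N + 1) ^ (d - 1) : ℕ) : ℝ) / (N : ℝ) ^ d by push_cast; ring]
  gcongr
  exact hle N

end Vale.Agent.P202
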