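import Vale.Agent.P202.E2Frac

/-!
E2: the presentations of the two rings of a model.
-/

universe u

namespace Vale.Agent.P202

namespace Param

open MvPolynomial

variable {σ : Shape} {B : Type u} [CommRing B] (θ : Param σ B)

lemma aff_eq_sum {n : ℕ} (c : Option (Fin n) → B) :
    aff c = ∑ o, c o • (Option.elim o 1 X : MvPolynomial (Fin n) B) :=
  affVal_eq_sum _ c

lemma aeval_aff {n : ℕ} {T : Type*} [CommRing T] [Algebra B T] (b : Fin n → T)
    (c : Option (Fin n) → B) :
    aeval b (aff c) = algebraMap B T (c none) + ∑ i, algebraMap B T (c (some i)) * b i := by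
  simp [aff]

lemma aff_add {n : ℕ} (c c' : Option (Fin n) → B) : aff (c + c') = aff c + aff c' := by
  simp only [aff_eq_sum, Pi.add_apply, add_smul, Finset.sum_add_distrib]

lemma aff_smul {n : ℕ} (t : B) (c : Option (Fin n) → B) : aff (t • c) = t • aff c := by
  simp only [aff_eq_sum, Finset.smul_sum, Pi.smul_apply, smul_eq_mul, mul_smul]

lemma aff_sum {n : ℕ} {κ : Type*} [Fintype κ] (c : κ → Option (Fin n) → B) :
    aff (∑ k, c k) = ∑ k, aff (c k) := by
  simp only [aff_eq_sum, Finset.sum_apply, Finset.sum_smul]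
  exact Finset.sum_comm

lemma aff_single_some {n : ℕ} (i : Fin n) (t : B) :
    aff (Pi.single (some i) t) = t • X i := by
  classical
  rw [aff_eq_sum, Finset.sum_eq_single (some i)]
  · simp
  · intro o _ h; simp [h]
  · simp

/-- Modulo the ideal, every polynomial is affine. -/
lemma exists_sub_aff_mem (p : MvPolynomial (Fin σ.n) B) :
    ∃ c, p - aff c ∈ θ.idealR := by
  classical
  induction p using MvPolynomial.induction_on with
  | C a =>
    refine ⟨Pi.single none a, ?_⟩
    convert zero_mem θ.idealR using 1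
    simp [aff]
  | add p q hp hq =>
    obtain ⟨c, hc⟩ := hp
    obtain ⟨c', hc'⟩ := hq
    exact ⟨c + c', by rw [aff_add, add_sub_add_comm]; exact add_mem hc hc'⟩
  | mul_X p i hp =>
    obtain ⟨c, hc⟩ := hp
    refine ⟨Pi.single (some i) (c none) + ∑ j, c (some j) • θ.mu j i, ?_⟩
    rw [aff_add, aff_sum, aff_single_some]
    have h1 : p * X i - (c none • X i + ∑ j, aff (c (some j) • θ.mu j i)) =
        (p - aff c) * X i + ∑ j, C (c (some j)) * (X j * X i - aff (θ.mu j i)) := by
      simp only [aff_smul, smul_eq_C_mul, mul_sub, Finset.sum_sub_distrib]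
      conv_rhs => rw [aff]
      simp only [sub_mul, add_mul, Finset.sum_mul, mul_assoc]
      abel
    rw [h1]
    exact add_mem (Ideal.mul_mem_right _ _ hc) (Submodule.sum_mem _ fun j _ =>
      Ideal.mul_mem_left _ _ (Ideal.subset_span (Or.inl ⟨(j, i), rfl⟩)))

/-- Affine forms with coefficients in the span of the relations are in the ideal. -/
lemma aff_mem_idealR {c : Option (Fin σ.n) → B} (hc : c ∈ Submodule.span B (Set.range θ.rel)) :
    aff c ∈ θ.idealR := by
  induction hc using Submodule.span_induction with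
  | mem c hc => obtain ⟨s, rfl⟩ := hc; exact Ideal.subset_span (Or.inr ⟨s, rfl⟩)
  | zero => convert zero_mem θ.idealR using 1; simp [aff]
  | add c c' _ _ h h' => rw [aff_add]; exact add_mem h h'
  | smul t c _ h => rw [aff_smul, smul_eq_C_mul]; exact Ideal.mul_mem_left _ _ h

section KerR

variable {T : Type u} [CommRing T] [Algebra B T] {b : Fin σ.n → T}

/-- The kernel of evaluation at `b`. -/
lemma mem_idealR_of_aeval_eq_zero
    (hmu : ∀ i j, b i * b j = affVal b (θ.mu i j))
    (hrel : ∀ c, affVal b c = 0 ↔ c ∈ Submodule.span B (Set.range θ.rel))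
    {p : MvPolynomial (Fin σ.n) B} (hp : aeval b p = 0) : p ∈ θ.idealR := by
  obtain ⟨c, hc⟩ := θ.exists_sub_aff_mem p
  have hle : θ.idealR ≤ RingHom.ker (aeval b : MvPolynomial (Fin σ.n) B →ₐ[B] T) := by
    rw [idealR, Ideal.span_le]
    rintro _ (⟨ij, rfl⟩ | ⟨s, rfl⟩)
    · rw [SetLike.mem_coe, RingHom.mem_ker, map_sub, map_mul, aeval_X, aeval_X, aeval_aff,
        sub_eq_zero]
      exact hmu ij.1 ij.2
    · rw [SetLike.mem_coe, RingHom.mem_ker, aeval_aff]
      exact (hrel _).2 (Submodule.subset_span ⟨s, rfl⟩)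
  have h0 : affVal b c = 0 := by
    have := hle hc
    rw [RingHom.mem_ker, map_sub, hp, zero_sub, neg_eq_zero, aeval_aff] at this
    exact this
  have := add_mem hc (θ.aff_mem_idealR ((hrel c).1 h0))
  rwa [sub_add_cancel] at this

end KerR

/-- `q none + ∑ q l W l`. -/
noncomputable def linW (q : Option (Fin σ.r) → MvPolynomial (Fin σ.n) B) :
    MvPolynomial (Fin σ.n ⊕ Fin σ.r) B :=
  ∑ o, rename Sum.inl (q o) * (Option.elim o 1 fun l => X (Sum.inr l))

lemma linW_add (q q' : Option (Fin σ.r) → MvPolynomial (Fin σ.n) B) :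
    linW (q + q') = linW q + linW q' := by
  simp [linW, add_mul, Finset.sum_add_distrib]

lemma linW_smul (t : MvPolynomial (Fin σ.n) B) (q : Option (Fin σ.r) → MvPolynomial (Fin σ.n) B) :
    linW (t • q) = rename Sum.inl t * linW q := by
  rw [linW, linW, Finset.mul_sum]
  exact Finset.sum_congr rfl fun o _ => by rw [Pi.smul_apply, smul_eq_mul, map_mul, mul_assoc]

lemma linW_sum {κ : Type*} [Fintype κ]
    (q : κ → Option (Fin σ.r) → MvPolynomial (Fin σ.n) B) :
    linW (∑ k, q k) = ∑ k, linW (q k) := by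
  simp only [linW, Finset.sum_apply, map_sum, Finset.sum_mul]
  exact Finset.sum_comm

lemma linW_single (o : Option (Fin σ.r)) (t : MvPolynomial (Fin σ.n) B) :
    linW (Pi.single o t) = rename Sum.inl t * (Option.elim o 1 fun l => X (Sum.inr l)) := by
  classical
  rw [linW, Finset.sum_eq_single o]
  · simp
  · intro o' _ h; simp [h]
  · simp

lemma rename_mem_idealS {p : MvPolynomial (Fin σ.n) B} (hp : p ∈ θ.idealR) :
    rename Sum.inl p ∈ θ.idealS := by
  have : θ.idealR ≤ θ.idealS.comap (rename Sum.inl : MvPolynomial (Fin σ.n) B →ₐ[B]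
      MvPolynomial (Fin σ.n ⊕ Fin σ.r) B) := by
    rw [idealR, Ideal.span_le]
    exact fun q hq => Ideal.subset_span (Or.inl ⟨q, hq, rfl⟩)
  exact this hp

/-- Modulo the ideal, every polynomial is linear in `W`. -/
lemma exists_sub_linW_mem (p : MvPolynomial (Fin σ.n ⊕ Fin σ.r) B) :
    ∃ q, p - linW q ∈ θ.idealS := by
  classical
  induction p using MvPolynomial.induction_on with
  | C a =>
    refine ⟨Pi.single none (C a), ?_⟩
    convert zero_mem θ.idealS using 1
    simp [linW_single]
  | add p q hp hq =>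
    obtain ⟨c, hc⟩ := hp
    obtain ⟨c', hc'⟩ := hq
    exact ⟨c + c', by rw [linW_add, add_sub_add_comm]; exact add_mem hc hc'⟩
  | mul_X p i hp =>
    obtain ⟨q, hq⟩ := hp
    rcases i with i | l
    · refine ⟨(X i : MvPolynomial (Fin σ.n) B) • q, ?_⟩
      rw [linW_smul, rename_X, mul_comm (X (Sum.inl i)), ← sub_mul]
      exact Ideal.mul_mem_right _ _ hq
    · refine ⟨Pi.single (some l) (q none) + ∑ j, q (some j) • (fun o => aff (θ.nu j l o)), ?_⟩
      rw [linW_add, linW_sum, linW_single]
      have h1 : p * X (Sum.inr l) - (rename Sum.inl (q none) * X (Sum.inr l) +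
          ∑ j, linW (q (some j) • fun o => aff (θ.nu j l o))) =
          (p - linW q) * X (Sum.inr l) + ∑ j, rename Sum.inl (q (some j)) *
            (X (Sum.inr j) * X (Sum.inr l) - linW fun o => aff (θ.nu j l o)) := by
        simp only [linW_smul, mul_sub, Finset.sum_sub_distrib]
        conv_rhs => rw [show linW q = ∑ o, rename Sum.inl (q o) *
          (Option.elim o 1 fun l => X (Sum.inr l) : MvPolynomial (Fin σ.n ⊕ Fin σ.r) B) from rfl]
        simp only [Fintype.sum_option, Option.elim_none, Option.elim_some, mul_one, sub_mul,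
          add_mul, Finset.sum_mul, mul_assoc]
        abel
      refine h1 ▸ add_mem (Ideal.mul_mem_right _ _ hq) (Submodule.sum_mem _ fun j _ =>
        Ideal.mul_mem_left _ _ (Ideal.subset_span (Or.inr ⟨(j, l), ?_⟩)))
      simp only [linW, Fintype.sum_option, Option.elim_none, Option.elim_some, mul_one]

section KerS

variable {T U : Type u} [CommRing T] [Algebra B T] [CommRing U] [Algebra B U] [Algebra T U]
  [IsScalarTower B T U] {b : Fin σ.n → T} {s : Fin σ.r → U}

lemma aeval_linW (q : Option (Fin σ.r) → MvPolynomial (Fin σ.n) B) :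
    aeval (Sum.elim (fun i => algebraMap T U (b i)) s) (linW q) =
      ∑ o, aeval b (q o) • (Option.elim o 1 s : U) := by
  rw [linW, map_sum]
  refine Finset.sum_congr rfl fun o _ => ?_
  rw [map_mul, aeval_rename, Algebra.smul_def]
  congr 1
  · show aeval (algebraMap T U ∘ b) (q o) = _
    exact aeval_algebraMap_apply U b (q o)
  · cases o <;> simp

/-- The kernel of evaluation at `b`, `s`. -/
lemma mem_idealS_of_aeval_eq_zero
    (hR : ∀ p, aeval b p = 0 ↔ p ∈ θ.idealR)
    (hnu : ∀ i j, s i * s j = ∑ o, affVal b (θ.nu i j o) • (Option.elim o 1 s : U))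
    (hfree : ∀ z : Option (Fin σ.r) → T, ∑ o, z o • (Option.elim o 1 s : U) = 0 → z = 0)
    {p : MvPolynomial (Fin σ.n ⊕ Fin σ.r) B}
    (hp : aeval (Sum.elim (fun i => algebraMap T U (b i)) s) p = 0) : p ∈ θ.idealS := by
  set ψ := aeval (R := B) (Sum.elim (fun i => algebraMap T U (b i)) s)
  have hle : θ.idealS ≤ RingHom.ker ψ := by
    rw [idealS, Ideal.span_le]
    rintro _ (⟨q, hq, rfl⟩ | ⟨ij, rfl⟩)
    · rw [SetLike.mem_coe, RingHom.mem_ker, aeval_rename]
      show aeval (algebraMap T U ∘ b) q = 0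
      rw [aeval_algebraMap_apply, (hR q).2 (Ideal.subset_span hq), map_zero]
    · have h1 : (rename Sum.inl (aff (θ.nu ij.1 ij.2 none)) + ∑ l,
          rename Sum.inl (aff (θ.nu ij.1 ij.2 (some l))) * X (Sum.inr l) :
            MvPolynomial (Fin σ.n ⊕ Fin σ.r) B) = linW fun o => aff (θ.nu ij.1 ij.2 o) := by
        simp [linW, Fintype.sum_option]
      simp only [SetLike.mem_coe, RingHom.mem_ker]
      rw [map_sub, map_mul, h1, aeval_linW, sub_eq_zero, aeval_X, aeval_X]
      simp only [aeval_aff]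
      exact hnu ij.1 ij.2
  obtain ⟨q, hq⟩ := θ.exists_sub_linW_mem p
  have h0 := hle hq
  rw [RingHom.mem_ker, map_sub, hp, zero_sub, neg_eq_zero, aeval_linW] at h0
  have hqz := hfree _ h0
  have hlin : linW q ∈ θ.idealS :=
    Submodule.sum_mem _ fun o _ =>
      Ideal.mul_mem_right _ _ (θ.rename_mem_idealS ((hR _).1 (congrFun hqz o)))
  have := add_mem hq hlin
  rwa [sub_add_cancel] at this

end KerS

end Param

end Vale.Agent.P202
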