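import Vale.Agent.P202.InterfacesE

/-!
Finite models of a flat local map, for the reduction of characteristic zero to characteristic `p`.

Over a base `B` with elements `x : Fin d → B` a model consists of
* `R₀ = B[T] / (T i * T j - mu i j, rel)`, where `mu i j` and `rel` are affine in `T`,
* `S₀ = R₀[W] / (W i * W j - nu i j)`, free over `R₀` on `1, W`, which is guaranteed by the
  commutation and multiplication rules of the matrices of multiplication by the `W i`,
* a representation `T i ↦ lam i / a` on `Frac(B) ^ e` for which the orbit of `v` contains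
  `a • B ^ e`, a lower bound for the rank of `R₀`,
* the relation making `x` a reduction of the maximal ideal `(x, T)` of `R₀`, and one making
  `(x, T, W)` nilpotent modulo `x` in `S₀`,
* for every leading exponent in `lead` a relation in `S₀` rewriting that monomial in the
  generators `(x, T, W)` of the maximal ideal by larger monomials of the same degree and by
  monomials of higher degree.
-/

universe u v

namespace Vale.Agent.P202

open MvPolynomial

/-- Index of the generators `x`, `T`, `W` of the maximal ideal upstairs. -/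
abbrev GenIdx (d n r : ℕ) : Type := (Fin d ⊕ Fin n) ⊕ Fin r

/-- The total degree of an exponent. -/
noncomputable def expDeg {ι : Type*} (E : ι →₀ ℕ) : ℕ := E.sum fun _ m => m

/-- A fixed linear order on exponents, compatible with addition: lexicographic comparison. -/
def expLT {d n r : ℕ} (E E' : GenIdx d n r →₀ ℕ) : Prop :=
  toLex (E.equivMapDomain ((Equiv.sumCongr finSumFinEquiv (Equiv.refl (Fin r))).trans
      finSumFinEquiv)) <
    toLex (E'.equivMapDomain ((Equiv.sumCongr finSumFinEquiv (Equiv.refl (Fin r))).trans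
      finSumFinEquiv))

/-- The discrete data of a model. -/
structure Shape where
  /-- The dimension. -/
  d : ℕ
  /-- The number of generators `T`. -/
  n : ℕ
  /-- The number of extra relations of `R₀`. -/
  u : ℕ
  /-- The rank of `S₀` over `R₀`, minus one. -/
  r : ℕ
  /-- The rank of `R₀` over the base. -/
  e : ℕ
  /-- The reduction number. -/
  n₀ : ℕ
  /-- A power of the maximal ideal upstairs contained in `(x)`. -/
  n₁ : ℕ
  /-- The leading exponents. -/
  lead : Finset (GenIdx d n r →₀ ℕ)

/-- The coefficients of a model over `B`. -/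
structure Param (σ : Shape) (B : Type u) where
  /-- The multiplication table of `T`. -/
  mu : Fin σ.n → Fin σ.n → Option (Fin σ.n) → B
  /-- The extra relations of `R₀`. -/
  rel : Fin σ.u → Option (Fin σ.n) → B
  /-- The multiplication table of `W`. -/
  nu : Fin σ.r → Fin σ.r → Option (Fin σ.r) → Option (Fin σ.n) → B
  /-- The common denominator. -/
  a : B
  /-- The scaled matrices of the `T`. -/
  lam : Fin σ.n → Matrix (Fin σ.e) (Fin σ.e) B
  /-- The orbit vector. -/
  v : Fin σ.e → B
  /-- Preimages of the scaled standard vectors. -/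
  cc : Fin σ.e → Option (Fin σ.n) → B

namespace Param

variable {σ : Shape} {B : Type u} {B' : Type v} [CommRing B] [CommRing B']

/-- Apply a map to all coefficients. -/
def map (θ : Param σ B) (f : B → B') : Param σ B' where
  mu i j k := f (θ.mu i j k)
  rel s k := f (θ.rel s k)
  nu i j l k := f (θ.nu i j l k)
  a := f θ.a
  lam i := (θ.lam i).map f
  v i := f (θ.v i)
  cc j k := f (θ.cc j k)

/-- An affine form in the `T`. -/
noncomputable def aff {n : ℕ} (c : Option (Fin n) → B) : MvPolynomial (Fin n) B :=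
  C (c none) + ∑ i, C (c (some i)) * X i

/-- The matrix value of an affine form: `a * c none + ∑ c i * lam i`. -/
noncomputable def affMat (θ : Param σ B) (c : Option (Fin σ.n) → B) :
    Matrix (Fin σ.e) (Fin σ.e) B :=
  (θ.a * c none) • (1 : Matrix (Fin σ.e) (Fin σ.e) B) + ∑ i, c (some i) • θ.lam i

/-- The defining relations of `R₀`. -/
noncomputable def relsR (θ : Param σ B) : Set (MvPolynomial (Fin σ.n) B) :=
  Set.range (fun ij : Fin σ.n × Fin σ.n => X ij.1 * X ij.2 - aff (θ.mu ij.1 ij.2)) ∪
    Set.range (fun s => aff (θ.rel s))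

/-- The defining ideal of `R₀`. -/
noncomputable def idealR (θ : Param σ B) : Ideal (MvPolynomial (Fin σ.n) B) := Ideal.span θ.relsR

/-- The defining relations of `S₀`. -/
noncomputable def relsS (θ : Param σ B) : Set (MvPolynomial (Fin σ.n ⊕ Fin σ.r) B) :=
  (rename Sum.inl '' θ.relsR) ∪
    Set.range (fun ij : Fin σ.r × Fin σ.r => X (Sum.inr ij.1) * X (Sum.inr ij.2) -
      (rename Sum.inl (aff (θ.nu ij.1 ij.2 none)) +
        ∑ l, rename Sum.inl (aff (θ.nu ij.1 ij.2 (some l))) * X (Sum.inr l)))

/-- The defining ideal of `S₀`. -/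
noncomputable def idealS (θ : Param σ B) : Ideal (MvPolynomial (Fin σ.n ⊕ Fin σ.r) B) :=
  Ideal.span θ.relsS

/-- The matrix of multiplication by `W i` on the basis `1, W`. -/
noncomputable def mulMat (θ : Param σ B) (i : Fin σ.r) :
    Matrix (Option (Fin σ.r)) (Option (Fin σ.r)) (MvPolynomial (Fin σ.n) B) :=
  Matrix.of fun row col =>
    match col with
    | none => if row = some i then 1 else 0
    | some j => aff (θ.nu i j row)

/-- The generators of the maximal ideal upstairs. -/
noncomputable def gen (σ : Shape) (x : Fin σ.d → B) :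
    GenIdx σ.d σ.n σ.r → MvPolynomial (Fin σ.n ⊕ Fin σ.r) B :=
  Sum.elim (Sum.elim (fun i => C (x i)) fun i => X (Sum.inl i)) fun l => X (Sum.inr l)

/-- The monomials in the generators. -/
noncomputable def genMon (σ : Shape) (x : Fin σ.d → B) (E : GenIdx σ.d σ.n σ.r →₀ ℕ) :
    MvPolynomial (Fin σ.n ⊕ Fin σ.r) B :=
  E.prod fun i m => gen σ x i ^ m

/-- The maximal ideal `(x, T)` downstairs, as an ideal of the polynomial ring. -/
noncomputable def maxR (σ : Shape) (x : Fin σ.d → B) : Ideal (MvPolynomial (Fin σ.n) B) :=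
  Ideal.span (Set.range (fun i => C (x i)) ∪ Set.range X)

/-- The monomials allowed when rewriting the exponent `E`. -/
noncomputable def laterMons (σ : Shape) (x : Fin σ.d → B) (E : GenIdx σ.d σ.n σ.r →₀ ℕ) :
    Set (MvPolynomial (Fin σ.n ⊕ Fin σ.r) B) :=
  genMon σ x '' {F | (expDeg F = expDeg E ∧ expLT E F) ∨ expDeg F = expDeg E + 1}

/-- The axioms of a model. -/
structure IsModel (θ : Param σ B) (x : Fin σ.d → B) : Prop where
  lam_comm : ∀ i j, θ.lam i * θ.lam j = θ.lam j * θ.lam i
  lam_mul : ∀ i j, θ.lam i * θ.lam j = θ.a • θ.affMat (θ.mu i j)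
  lam_rel : ∀ s, θ.affMat (θ.rel s) = 0
  orbit : ∀ j, (θ.affMat (θ.cc j)).mulVec θ.v = Pi.single j θ.a
  nu_comm : ∀ i j a b, (θ.mulMat i * θ.mulMat j - θ.mulMat j * θ.mulMat i) a b ∈ θ.idealR
  nu_mul : ∀ i j a b, (θ.mulMat i * θ.mulMat j - aff (θ.nu i j none) • 1 -
    ∑ l, aff (θ.nu i j (some l)) • θ.mulMat l) a b ∈ θ.idealR
  reduction : maxR σ x ^ (σ.n₀ + 1) ≤
    θ.idealR ⊔ Ideal.span (Set.range fun i => C (x i)) * maxR σ x ^ σ.n₀
  nilp : Ideal.span (Set.range (gen σ x)) ^ σ.n₁ ≤
    θ.idealS ⊔ Ideal.span (Set.range fun i => C (x i))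
  leading : ∀ E ∈ σ.lead, genMon σ x E ∈ θ.idealS ⊔ Ideal.span (laterMons σ x E)

end Param

namespace Shape

/-- An exponent that no leading exponent divides. -/
def IsStd (σ : Shape) (E : GenIdx σ.d σ.n σ.r →₀ ℕ) : Prop := ∀ L ∈ σ.lead, ¬ L ≤ E

/-- The number of standard exponents of degree less than `N`. -/
noncomputable def stdSum (σ : Shape) (N : ℕ) : ℕ :=
  {E : GenIdx σ.d σ.n σ.r →₀ ℕ | expDeg E < N ∧ σ.IsStd E}.ncard

end Shape

/-- E2: a flat local map of complete equicharacteristic zero rings has a model. -/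
def GoalModel : Prop :=
  ∀ (R S : Type u) [CommRing R] [IsLocalRing R] [IsNoetherianRing R] [CommRing S] [IsLocalRing S]
    [IsNoetherianRing S] [Algebra R S] [IsLocalHom (algebraMap R S)] [Module.Flat R S]
    [CharZero (IsLocalRing.ResidueField R)],
    ndim R = ndim S → ∀ eR eS : ℝ, HasMult R eR → HasMult S eS →
    ∃ (K : Type u) (_ : Field K) (_ : CharZero K) (σ : Shape)
      (θ : Param σ (MvPowerSeries (Fin σ.d) K)),
      θ.IsModel (fun i => MvPowerSeries.X i) ∧ θ.a ≠ 0 ∧ eR ≤ (σ.e : ℝ) ∧
      (∀ N, σ.stdSum N ≤ (Module.length S (S ⧸ IsLocalRing.maximalIdeal S ^ N)).toNat) ∧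
      σ.d = ndim S

/-- E3: a model in characteristic zero gives one over a finite field. -/
def GoalSpecialise : Prop :=
  ∀ (K : Type u) [Field K] [CharZero K] (σ : Shape) (θ : Param σ (MvPowerSeries (Fin σ.d) K)),
    θ.IsModel (fun i => MvPowerSeries.X i) → θ.a ≠ 0 →
    ∃ (p : ℕ) (_ : Fact p.Prime) (F : Type) (_ : Field F) (_ : Finite F) (_ : CharP F p)
      (θ' : Param σ (MvPowerSeries (Fin σ.d) F)),
      θ'.IsModel (fun i => MvPowerSeries.X i) ∧ θ'.a ≠ 0

/-- E4: a model over a finite field realises a flat local map in characteristic `p`. -/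
def GoalRealise : Prop :=
  ∀ (p : ℕ) [Fact p.Prime] (F : Type) [Field F] [Finite F] [CharP F p] (σ : Shape)
    (θ : Param σ (MvPowerSeries (Fin σ.d) F)),
    θ.IsModel (fun i => MvPowerSeries.X i) → θ.a ≠ 0 → 0 < σ.e →
    ∃ (R S : Type) (_ : CommRing R) (_ : IsLocalRing R) (_ : IsNoetherianRing R) (_ : CharP R p)
      (_ : CharP (IsLocalRing.ResidueField R) p) (_ : CommRing S) (_ : IsLocalRing S)
      (_ : IsNoetherianRing S) (_ : Algebra R S) (_ : IsLocalHom (algebraMap R S))
      (_ : Module.Flat R S),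
      Finite (IsLocalRing.ResidueField R) ∧ ndim R = σ.d ∧ ndim S = σ.d ∧
      (∀ e : ℝ, HasMult R e → (σ.e : ℝ) ≤ e) ∧
      ∀ N, (Module.length S (S ⧸ IsLocalRing.maximalIdeal S ^ N)).toNat ≤ σ.stdSum N

end Vale.Agent.P202
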