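import Vale.Agent.P202.E2Series
import Vale.Agent.P202.Model

/-!
E2: leading exponents, and standard monomials are linearly independent modulo powers of the
maximal ideal.
-/

universe u

namespace Vale.Agent.P202

open IsLocalRing

section

variable {ι : Type*} {S : Type u} [CommRing S] (g : ι → S)

/-- The monomial with exponent `E` in the values `g`. -/
noncomputable def monVal (E : ι →₀ ℕ) : S := E.prod fun i m => g i ^ m

lemma monVal_add (E D : ι →₀ ℕ) : monVal g (E + D) = monVal g E * monVal g D :=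
  Finsupp.prod_add_index' (fun _ => pow_zero _) fun _ => pow_add _

lemma monVal_single (i : ι) : monVal g (Finsupp.single i 1) = g i := by
  rw [monVal, Finsupp.prod_single_index (by simp), pow_one]

omit g in
lemma expDeg_add (E D : ι →₀ ℕ) : expDeg (E + D) = expDeg E + expDeg D :=
  Finsupp.sum_add_index' (fun _ => rfl) fun _ _ _ => rfl

omit g in
lemma expDeg_eq_degree (E : ι →₀ ℕ) : expDeg E = E.degree := rfl

lemma monVal_mem_pow {I : Ideal S} (hg : ∀ i, g i ∈ I) (E : ι →₀ ℕ) :
    monVal g E ∈ I ^ expDeg E := by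
  induction E using Finsupp.induction with
  | zero => simp [monVal, expDeg]
  | single_add i m E _ _ ih =>
    rw [monVal_add, expDeg_add, pow_add]
    refine Ideal.mul_mem_mul ?_ ih
    rw [monVal, Finsupp.prod_single_index (by simp), expDeg, Finsupp.sum_single_index rfl]
    exact Ideal.pow_mem_pow (hg i) m

lemma span_range_pow_le_monVal (k : ℕ) :
    Ideal.span (Set.range g) ^ k ≤ Ideal.span (monVal g '' {F | expDeg F = k}) := by
  induction k with
  | zero =>
    refine le_trans le_top ?_
    rw [top_le_iff, Ideal.eq_top_iff_one]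
    exact Ideal.subset_span ⟨0, rfl, Finsupp.prod_zero_index⟩
  | succ k ih =>
    rw [pow_succ]
    refine (Ideal.mul_mono_left ih).trans ?_
    rw [Ideal.span_mul_span', Ideal.span_le]
    rintro _ ⟨_, ⟨F, hF, rfl⟩, _, ⟨i, rfl⟩, rfl⟩
    refine Ideal.subset_span ⟨F + Finsupp.single i 1, ?_, ?_⟩
    · show expDeg (F + Finsupp.single i 1) = k + 1
      rw [expDeg_add, show expDeg F = k from hF]
      simp [expDeg]
    · rw [monVal_add, monVal_single]

end

section Lead

variable {d n r : ℕ}

/-- The linear order behind `expLT`. -/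
def expKey (E : GenIdx d n r →₀ ℕ) : Lex (Fin (d + n + r) →₀ ℕ) :=
  toLex (E.equivMapDomain ((Equiv.sumCongr finSumFinEquiv (Equiv.refl (Fin r))).trans
    finSumFinEquiv))

lemma expKey_injective : Function.Injective (expKey : (GenIdx d n r →₀ ℕ) → _) := by
  intro E E' h
  have := toLex.injective h
  ext i
  have h' := DFunLike.congr_fun this
    (((Equiv.sumCongr finSumFinEquiv (Equiv.refl (Fin r))).trans finSumFinEquiv) i)
  simpa using h'

lemma expKey_add (E D : GenIdx d n r →₀ ℕ) : expKey (E + D) = expKey E + expKey D := by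
  rw [expKey, expKey, expKey, ← toLex_add]
  congr 1
  ext i
  simp

variable {S : Type u} [CommRing S] (g : GenIdx d n r → S)

/-- The exponents whose monomial can be rewritten by later ones. -/
def rewritable : Set (GenIdx d n r →₀ ℕ) :=
  {E | monVal g E ∈ Ideal.span (monVal g ''
    {F | (expDeg F = expDeg E ∧ expLT E F) ∨ expDeg F = expDeg E + 1})}

lemma rewritable_mono {E E' : GenIdx d n r →₀ ℕ} (h : E ∈ rewritable g) (hle : E ≤ E') :
    E' ∈ rewritable g := by
  obtain ⟨D, rfl⟩ := exists_add_of_le hle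
  simp only [rewritable, Set.mem_ofPred_eq] at h ⊢
  rw [monVal_add, mul_comm]
  have h1 := Ideal.mul_mem_mul (Ideal.mem_span_singleton_self (monVal g D)) h
  rw [Ideal.span_mul_span'] at h1
  refine Ideal.span_mono ?_ h1
  rintro _ ⟨_, rfl, _, ⟨F, hF, rfl⟩, rfl⟩
  refine ⟨F + D, ?_, by rw [monVal_add, mul_comm]⟩
  rcases hF with ⟨h1, h2⟩ | h1
  · refine Or.inl ⟨by rw [expDeg_add, expDeg_add, h1], ?_⟩
    show expKey (E + D) < expKey (F + D)
    rw [expKey_add, expKey_add]
    exact add_lt_add_left h2 _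
  · exact Or.inr (by rw [expDeg_add, expDeg_add, h1]; ring)

variable [IsLocalRing S] [IsNoetherianRing S] {K : Type u} [Field K] [Algebra K S]

/-- The leading exponents bound the lengths of `S / n ^ N` from below. -/
theorem exists_leadVal (hres : ∀ t : S, ∃ c : K, t - algebraMap K S c ∈ maximalIdeal S)
    (hg : Ideal.span (Set.range g) = maximalIdeal S) :
    ∃ lead : Finset (GenIdx d n r →₀ ℕ), (∀ E ∈ lead, E ∈ rewritable g) ∧
      ∀ N, {E | expDeg E < N ∧ ∀ L ∈ lead, ¬ L ≤ E}.ncard ≤
        (Module.length S (S ⧸ maximalIdeal S ^ N)).toNat := by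
  classical
  set mins := {E | Minimal (· ∈ rewritable g) E} with hmins
  have hfin : mins.Finite :=
    (setOfPred_minimal_antichain _).finite_of_partiallyWellOrderedOn
      (Set.isPWO_of_wellQuasiOrderedLE mins)
  refine ⟨hfin.toFinset, fun E hE => ((hfin.mem_toFinset).1 hE).prop, fun N => ?_⟩
  set n' := maximalIdeal S with hn'
  have hgi : ∀ i, g i ∈ n' := fun i => hg ▸ Ideal.subset_span ⟨i, rfl⟩
  set T : Set (GenIdx d n r →₀ ℕ) := {E | expDeg E < N ∧ ∀ L ∈ hfin.toFinset, ¬ L ≤ E}
  have hT : ∀ E ∈ T, E ∉ rewritable g := by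
    intro E hE h
    obtain ⟨L, hLE, hL⟩ := exists_minimal_le_of_wellFoundedLT (· ∈ rewritable g) E h
    exact hE.2 L (hfin.mem_toFinset.2 hL) hLE
  have hTfin : T.Finite := (Finsupp.finite_of_degree_lt N).subset fun E hE => hE.1
  let _ : Fintype T := hTfin.fintype
  -- linear independence modulo `n ^ N`
  have hli : LinearIndependent K
      (fun E : T => Ideal.Quotient.mk (n' ^ N) (monVal g E)) := by
    rw [Fintype.linearIndependent_iff]
    intro c hc
    by_contra hne
    push Not at hne
    obtain ⟨Ea, hEa, hEamin⟩ := Finset.exists_min_image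
      (Finset.univ.filter fun E : T => c E ≠ 0) (fun E => expDeg (E : GenIdx d n r →₀ ℕ))
      (by obtain ⟨E, hE⟩ := hne; exact ⟨E, by simpa using hE⟩)
    set i := expDeg (Ea : GenIdx d n r →₀ ℕ) with hi
    obtain ⟨E₀, hE₀, hE₀min⟩ := Finset.exists_min_image
      (Finset.univ.filter fun E : T => c E ≠ 0 ∧ expDeg (E : GenIdx d n r →₀ ℕ) = i)
      (fun E => expKey (E : GenIdx d n r →₀ ℕ)) ⟨Ea, by simpa [hi] using hEa⟩
    simp only [Finset.mem_filter, Finset.mem_univ, true_and] at hEamin hE₀ hE₀min
    set later : Set (GenIdx d n r →₀ ℕ) := {F | (expDeg F = i ∧ expLT (E₀ : _ →₀ ℕ) F) ∨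
      expDeg F = i + 1} with hlater
    refine hT E₀ E₀.2 ?_
    show monVal g (E₀ : _ →₀ ℕ) ∈ Ideal.span (monVal g '' _)
    rw [hE₀.2, ← hlater]
    have hhigh : n' ^ (i + 1) ≤ Ideal.span (monVal g '' later) := by
      rw [← hg]
      exact (span_range_pow_le_monVal g (i + 1)).trans
        (Ideal.span_mono (Set.image_mono fun F hF => Or.inr hF))
    have hsum : ∑ E : T, algebraMap K S (c E) * monVal g E ∈ n' ^ N := by
      rw [← Ideal.Quotient.eq_zero_iff_mem, map_sum, ← hc]
      refine Finset.sum_congr rfl fun E _ => ?_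
      rw [map_mul, Algebra.smul_def]; rfl
    have hi' : i + 1 ≤ N := hE₀.2 ▸ E₀.2.1
    have hrest : ∀ E ∈ (Finset.univ.erase E₀ : Finset T),
        algebraMap K S (c E) * monVal g E ∈ Ideal.span (monVal g '' later) := by
      intro E hE
      have hne' : E ≠ E₀ := (Finset.mem_erase.1 hE).1
      by_cases hcE : c E = 0
      · simp [hcE]
      refine Ideal.mul_mem_left _ _ ?_
      rcases (hEamin E hcE).eq_or_lt with heq | hlt
      · refine Ideal.subset_span ⟨E, Or.inl ⟨heq.symm, ?_⟩, rfl⟩
        refine lt_of_le_of_ne (hE₀min E ⟨hcE, heq.symm⟩) fun h => hne' ?_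
        exact Subtype.ext (expKey_injective h).symm
      · exact hhigh (Ideal.pow_le_pow_right hlt (monVal_mem_pow g hgi _))
    have htot : algebraMap K S (c E₀) * monVal g E₀ ∈ Ideal.span (monVal g '' later) := by
      have h1 : ∑ E : T, algebraMap K S (c E) * monVal g E ∈ Ideal.span (monVal g '' later) :=
        hhigh (Ideal.pow_le_pow_right hi' hsum)
      rw [← Finset.add_sum_erase _ _ (Finset.mem_univ E₀)] at h1
      exact (Submodule.add_mem_iff_left _ (Submodule.sum_mem _ hrest)).1 h1
    exact (Ideal.unit_mul_mem_iff_mem _ ((isUnit_iff_ne_zero.2 hE₀.1).map _)).1 htot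
  have : IsLocalHom (algebraMap K S) :=
    ⟨fun c hc => isUnit_iff_ne_zero.2 fun h => by simp [h] at hc⟩
  have hlen : Module.length K (S ⧸ n' ^ N) = Module.length S (S ⧸ n' ^ N) :=
    length_eq_of_residue hres _
  have hfl : Module.length K (S ⧸ n' ^ N) ≠ ⊤ := by
    rw [hlen]; exact length_quot_maximalIdeal_pow_ne_top N
  have : IsFiniteLength K (S ⧸ n' ^ N) := Module.length_ne_top_iff.1 hfl
  have : Module.Finite K (S ⧸ n' ^ N) :=
    have := (isFiniteLength_iff_isNoetherian_isArtinian.1 this).1
    inferInstance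
  have h := hli.fintype_card_le_finrank
  rw [← hlen, Module.length_eq_finrank, ENat.toNat_natCast,
    ← Nat.card_coe_set_eq, Nat.card_eq_fintype_card]
  exact h

end Lead

end Vale.Agent.P202
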