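import Vale.Agent.P202.E2Series

/-!
E2: the subring generated by the image of `R` over the power series, and freeness of `S` over it.
-/

universe u

namespace Vale.Agent.P202

open IsLocalRing MvPowerSeries

set_option maxSynthPendingDepth 4

variable {R S K : Type u} [CommRing R] [CommRing S] [Field K] [Algebra R S] {d : ℕ}
  [Algebra K S] [Algebra (MvPowerSeries (Fin d) K) S]

/-- The `K[[x]]`-subalgebra of `S` generated by the image of `R`. -/
noncomputable def midRing (R S K : Type u) [CommRing R] [CommRing S] [Field K] [Algebra R S]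
    (d : ℕ) [Algebra (MvPowerSeries (Fin d) K) S] : Subalgebra (MvPowerSeries (Fin d) K) S :=
  Algebra.adjoin _ (Set.range (algebraMap R S))

/-- The map `R → midRing`. -/
noncomputable def toMid (R S K : Type u) [CommRing R] [CommRing S] [Field K] [Algebra R S]
    (d : ℕ) [Algebra (MvPowerSeries (Fin d) K) S] : R →+* midRing R S K d :=
  (algebraMap R S).codRestrict (midRing R S K d) fun r => Algebra.subset_adjoin ⟨r, rfl⟩

omit [Algebra K S] in
lemma coe_toMid (r : R) : (toMid R S K d r : S) = algebraMap R S r := rfl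

omit [Algebra K S] in
lemma mid_mem_span (q : midRing R S K d) :
    q ∈ Submodule.span (MvPowerSeries (Fin d) K) (Set.range (toMid R S K d)) := by
  obtain ⟨z, hz⟩ := q
  suffices ∀ z' ∈ Submodule.span (MvPowerSeries (Fin d) K) (Set.range (algebraMap R S)),
      ∃ h : z' ∈ midRing R S K d, (⟨z', h⟩ : midRing R S K d) ∈
        Submodule.span (MvPowerSeries (Fin d) K) (Set.range (toMid R S K d)) by
    have hz' : z ∈ Subalgebra.toSubmodule (midRing R S K d) := hz
    rw [midRing, Algebra.adjoin_eq_span,
      show Set.range (algebraMap R S) =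
        (MonoidHom.mrange (algebraMap R S : R →* S) : Set S) from rfl,
      Submonoid.closure_eq] at hz'
    exact (this z hz').choose_spec
  intro z' hz'
  induction hz' using Submodule.span_induction with
  | mem y hy =>
    obtain ⟨r, rfl⟩ := hy
    exact ⟨Algebra.subset_adjoin ⟨r, rfl⟩, Submodule.subset_span ⟨r, rfl⟩⟩
  | zero => exact ⟨zero_mem _, Submodule.zero_mem _⟩
  | add y y' _ _ hy hy' =>
    exact ⟨add_mem hy.1 hy'.1, Submodule.add_mem _ hy.2 hy'.2⟩
  | smul c y _ hy =>
    exact ⟨Subalgebra.smul_mem _ hy.1 c, Submodule.smul_mem _ c hy.2⟩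

variable [IsScalarTower K (MvPowerSeries (Fin d) K) S]

omit [Algebra R S] in
lemma algebraMap_C (c : K) :
    algebraMap (MvPowerSeries (Fin d) K) S (C c) = algebraMap K S c := by
  rw [IsScalarTower.algebraMap_apply K (MvPowerSeries (Fin d) K) S]
  rfl

lemma sub_C_mem_maximal (a : MvPowerSeries (Fin d) K) :
    a - C (constantCoeff a) ∈ Ideal.span (Set.range (X : Fin d → MvPowerSeries (Fin d) K)) := by
  rw [← maximalIdeal_powerSeries, mem_maximalIdeal, mem_nonunits_iff, isUnit_iff_constantCoeff]
  simp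

variable {k : Type u} [Field k] [Algebra k R]

section Local

variable [IsLocalRing R] [IsLocalRing S] [IsLocalHom (algebraMap R S)]
  (hk : ∀ r : R, ∃ c : k, r - algebraMap k R c ∈ maximalIdeal R)
  (hkK : ∀ c : k, ∃ c' : K, algebraMap R S (algebraMap k R c) = algebraMap K S c')
  (x : Fin d → R) (hxm : ∀ i, x i ∈ maximalIdeal R)
  (hX : ∀ i, algebraMap (MvPowerSeries (Fin d) K) S (X i) = algebraMap R S (x i))

include hX in
omit [IsLocalRing R] [IsLocalRing S] [IsLocalHom (algebraMap R S)]
  [IsScalarTower K (MvPowerSeries (Fin d) K) S] [Algebra K S] in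
lemma algebraMap_mid_X (i : Fin d) :
    algebraMap (MvPowerSeries (Fin d) K) (midRing R S K d) (X i) = toMid R S K d (x i) :=
  Subtype.ext (hX i)

include hX in
omit [IsLocalRing R] [IsLocalRing S] [IsLocalHom (algebraMap R S)]
  [IsScalarTower K (MvPowerSeries (Fin d) K) S] [Algebra K S] in
lemma map_mid_span_X :
    (Ideal.span (Set.range (X : Fin d → MvPowerSeries (Fin d) K))).map
      (algebraMap _ (midRing R S K d)) =
      (Ideal.span (Set.range x)).map (toMid R S K d) := by
  rw [Ideal.map_span, Ideal.map_span, ← Set.range_comp, ← Set.range_comp]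
  exact congrArg Ideal.span (congrArg Set.range (funext (algebraMap_mid_X x hX)))

include hk hkK hxm hX in
omit [IsLocalRing S] [IsLocalHom (algebraMap R S)] in
lemma mid_residue (q : midRing R S K d) :
    ∃ c : K, q - algebraMap (MvPowerSeries (Fin d) K) _ (C c) ∈
      (maximalIdeal R).map (toMid R S K d) := by
  refine Submodule.span_induction (p := fun q _ => ∃ c : K,
    q - algebraMap (MvPowerSeries (Fin d) K) _ (C c) ∈ (maximalIdeal R).map (toMid R S K d))
    ?_ ⟨0, by simp⟩ ?_ ?_ (mid_mem_span q)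
  · rintro _ ⟨r, rfl⟩
    obtain ⟨c, hc⟩ := hk r
    obtain ⟨c', hc'⟩ := hkK c
    refine ⟨c', ?_⟩
    have h1 : algebraMap (MvPowerSeries (Fin d) K) (midRing R S K d) (C c') =
        toMid R S K d (algebraMap k R c) :=
      Subtype.ext ((algebraMap_C c').trans hc'.symm)
    rw [h1, ← map_sub]
    exact Ideal.mem_map_of_mem _ hc
  · rintro y y' _ _ ⟨c, hc⟩ ⟨c', hc'⟩
    refine ⟨c + c', ?_⟩
    rw [map_add, map_add, add_sub_add_comm]
    exact add_mem hc hc'
  · rintro a y _ ⟨c, hc⟩
    refine ⟨constantCoeff a * c, ?_⟩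
    have h1 : algebraMap _ (midRing R S K d) (a - C (constantCoeff a)) ∈
        (maximalIdeal R).map (toMid R S K d) := by
      refine Ideal.map_mono ?_ (map_mid_span_X x hX ▸ Ideal.mem_map_of_mem _ (sub_C_mem_maximal a))
      rw [Ideal.span_le]
      rintro _ ⟨i, rfl⟩
      exact hxm i
    let α := algebraMap (MvPowerSeries (Fin d) K) (midRing R S K d)
    have : a • y - α (C (constantCoeff a * c)) =
        α a * (y - α (C c)) + α (a - C (constantCoeff a)) * α (C c) := by
      rw [Algebra.smul_def, map_mul C, map_mul, map_sub]; ring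
    rw [this]
    exact add_mem (Ideal.mul_mem_left _ _ hc) (Ideal.mul_mem_right _ _ h1)

include hk hkK hxm hX in
lemma mid_mem_maximal_iff (q : midRing R S K d) :
    q ∈ (maximalIdeal R).map (toMid R S K d) ↔ (q : S) ∈ maximalIdeal S := by
  have hle : ∀ q ∈ (maximalIdeal R).map (toMid R S K d), (q : S) ∈ maximalIdeal S := by
    have : (maximalIdeal R).map (toMid R S K d) ≤
        (maximalIdeal S).comap (midRing R S K d).val := by
      rw [Ideal.map_le_iff_le_comap]
      intro r hr
      exact map_nonunit (algebraMap R S) r hr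
    exact fun q hq => this hq
  refine ⟨hle q, fun hq => ?_⟩
  obtain ⟨c, hc⟩ := mid_residue hk hkK x hxm hX q
  suffices c = 0 by simpa [this] using hc
  by_contra hne
  have h2 := sub_mem hq (hle _ hc)
  rw [Subalgebra.coe_sub, sub_sub_cancel, Subalgebra.coe_algebraMap, algebraMap_C] at h2
  exact h2 ((isUnit_iff_ne_zero.2 hne).map _)

end Local

section Lengths

variable [IsLocalRing R] [IsNoetherianRing R]
  (hk : ∀ r : R, ∃ c : k, r - algebraMap k R c ∈ maximalIdeal R)
  (hkK : ∀ c : k, ∃ c' : K, algebraMap R S (algebraMap k R c) = algebraMap K S c')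
  (x : Fin d → R)
  (hX : ∀ i, algebraMap (MvPowerSeries (Fin d) K) S (X i) = algebraMap R S (x i))

include hk hkK hX in
omit [IsNoetherianRing R] in
lemma length_mid_quot_le (N : ℕ)
    (hfin : Module.length R (R ⧸ Ideal.span (Set.range x) ^ N) ≠ ⊤) :
    Module.length (MvPowerSeries (Fin d) K)
        (midRing R S K d ⧸ (Ideal.span (Set.range x) ^ N).map (toMid R S K d)) ≤
      Module.length R (R ⧸ Ideal.span (Set.range x) ^ N) := by
  classical
  set A := MvPowerSeries (Fin d) K
  set J := Ideal.span (Set.range x) ^ N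
  set φ := toMid R S K d with hφdef
  set J₁ := J.map φ
  have : IsLocalHom (algebraMap k R) :=
    ⟨fun c hc => isUnit_iff_ne_zero.2 fun h => by simp [h] at hc⟩
  have hlk : Module.length k (R ⧸ J) = Module.length R (R ⧸ J) := length_eq_of_residue hk _
  have : Module.Finite k (R ⧸ J) := by
    have h1 : IsFiniteLength k (R ⧸ J) := Module.length_ne_top_iff.1 (hlk ▸ hfin)
    have := (isFiniteLength_iff_isNoetherian_isArtinian.1 h1).1
    infer_instance
  let B := Module.finBasis k (R ⧸ J)
  choose rep hrep using fun j => Ideal.Quotient.mk_surjective (B j)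
  rw [← hlk, Module.length_eq_finrank]
  let Φ : (Fin (Module.finrank k (R ⧸ J)) → K) →ₗ[K] (midRing R S K d ⧸ J₁) :=
    Fintype.linearCombination K fun j => Ideal.Quotient.mk J₁ (φ (rep j))
  set U : Submodule K (midRing R S K d ⧸ J₁) := LinearMap.range Φ with hU
  have hCsmul : ∀ (c : K) (z : midRing R S K d),
      Ideal.Quotient.mk J₁ (algebraMap A _ (C c) * z) = c • Ideal.Quotient.mk J₁ z := by
    intro c z
    rw [show (C c : A) = algebraMap K A c from rfl, ← IsScalarTower.algebraMap_apply,
      ← Algebra.smul_def]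
    exact (Submodule.Quotient.mk_smul _ c z)
  have hr : ∀ r, Ideal.Quotient.mk J₁ (φ r) ∈ U := by
    intro r
    have hsub : r - ∑ j, algebraMap k R (B.repr (Ideal.Quotient.mk J r) j) * rep j ∈ J := by
      rw [← Ideal.Quotient.eq_zero_iff_mem, map_sub, map_sum, sub_eq_zero]
      conv_lhs => rw [← B.sum_repr (Ideal.Quotient.mk J r)]
      refine Finset.sum_congr rfl fun j _ => ?_
      rw [map_mul, hrep, Algebra.smul_def]; rfl
    have h1 := Ideal.mem_map_of_mem φ hsub
    rw [map_sub, map_sum] at h1
    rw [Ideal.Quotient.eq.2 h1, map_sum]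
    refine Submodule.sum_mem _ fun j _ => ?_
    obtain ⟨c', hc'⟩ := hkK (B.repr (Ideal.Quotient.mk J r) j)
    have h2 : φ (algebraMap k R (B.repr (Ideal.Quotient.mk J r) j)) = algebraMap A _ (C c') :=
      Subtype.ext (hc'.trans (algebraMap_C c').symm)
    rw [map_mul, h2, hCsmul]
    refine Submodule.smul_mem _ c' ⟨Pi.single j 1, ?_⟩
    simp [Φ, Fintype.linearCombination_apply_single]
  -- the coefficients preserving `U`
  have hmul : ∀ (a : A) (r : R), Ideal.Quotient.mk J₁ (algebraMap A _ a * φ r) ∈ U := by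
    intro a r
    have hrest : algebraMap A (midRing R S K d) (a - (truncTotal N a : MvPolynomial (Fin d) K)) *
        φ r ∈ J₁ := by
      refine Ideal.mul_mem_right _ _ ?_
      have h1 : a - ((truncTotal N a : MvPolynomial (Fin d) K) : A) ∈
          Ideal.span (Set.range (X : Fin d → A)) ^ N := by
        rw [mem_span_X_pow_iff]
        intro e he
        rw [map_sub, MvPolynomial.coeff_coe, coeff_truncTotal _ he, sub_self]
      have h2 := Ideal.mem_map_of_mem (algebraMap A (midRing R S K d)) h1
      rw [Ideal.map_pow, map_mid_span_X x hX, ← Ideal.map_pow] at h2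
      exact h2
    rw [map_sub, sub_mul] at hrest
    rw [Ideal.Quotient.eq.2 hrest]
    clear hrest
    generalize truncTotal N a = p
    induction p using MvPolynomial.induction_on generalizing r with
    | C c =>
      rw [MvPolynomial.coe_C, hCsmul]
      exact Submodule.smul_mem _ _ (hr r)
    | add p p' hp hp' =>
      rw [MvPolynomial.coe_add, map_add, add_mul, map_add]
      exact add_mem (hp r) (hp' r)
    | mul_X p i hp =>
      rw [MvPolynomial.coe_mul, MvPolynomial.coe_X, map_mul (algebraMap A _), algebraMap_mid_X x hX,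
        mul_assoc,
        ← map_mul φ]
      exact hp _
  have hsurj : Function.Surjective Φ := by
    rw [← LinearMap.range_eq_top, ← hU, eq_top_iff]
    intro y _
    obtain ⟨q, rfl⟩ := Ideal.Quotient.mk_surjective y
    obtain ⟨l, a, hq⟩ : ∃ (l : Finset R) (a : R → A), q = ∑ r ∈ l, a r • φ r := by
      obtain ⟨c, hc⟩ := Finsupp.mem_span_range_iff_exists_finsupp.1 (mid_mem_span q)
      exact ⟨c.support, c, hc.symm⟩
    rw [hq, map_sum]
    refine Submodule.sum_mem _ fun r _ => ?_
    rw [Algebra.smul_def]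
    exact hmul _ _
  have : IsLocalHom (algebraMap K A) :=
    ⟨fun c hc => isUnit_iff_ne_zero.2 fun h => by simp [h] at hc⟩
  have hres : ∀ a : A, ∃ c : K, a - algebraMap K A c ∈ maximalIdeal A := fun a =>
    ⟨constantCoeff a, maximalIdeal_powerSeries (σ := Fin d) (k := K) ▸ sub_C_mem_maximal a⟩
  rw [← length_eq_of_residue hres]
  refine (Module.length_le_of_surjective Φ hsurj).trans (le_of_eq ?_)
  rw [Module.length_eq_finrank, Module.finrank_pi, Fintype.card_fin]

end Lengths

section Free

variable [IsLocalRing R] [IsNoetherianRing R] [IsLocalRing S] [IsNoetherianRing S]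
  [IsLocalHom (algebraMap R S)] [Module.Flat R S] [Module.Finite (MvPowerSeries (Fin d) K) S]
  (hres : ∀ t : S, ∃ c : K, t - algebraMap K S c ∈ maximalIdeal S)
  (hk : ∀ r : R, ∃ c : k, r - algebraMap k R c ∈ maximalIdeal R)
  (hkK : ∀ c : k, ∃ c' : K, algebraMap R S (algebraMap k R c) = algebraMap K S c')
  (x : Fin d → R) (hxm : ∀ i, x i ∈ maximalIdeal R)
  (hX : ∀ i, algebraMap (MvPowerSeries (Fin d) K) S (X i) = algebraMap R S (x i))
  {n₀ : ℕ} (hred : maximalIdeal R ^ (n₀ + 1) ≤ Ideal.span (Set.range x) * maximalIdeal R ^ n₀)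
  {r : ℕ} (s : Fin r → S)
  (hgen : ∀ t : S, ∃ z : Option (Fin r) → midRing R S K d,
    t - ∑ o, z o • (Option.elim o 1 s : S) ∈ (maximalIdeal R).map (algebraMap R S))
  (hr : ((r + 1 : ℕ) : ℕ∞) ≤
    Module.length S (S ⧸ (maximalIdeal R).map (algebraMap R S)))

include hX hred hgen in
omit [IsScalarTower K (MvPowerSeries (Fin d) K) S] [Algebra K S] [IsNoetherianRing R]
  [IsLocalRing S] [IsNoetherianRing S] [IsLocalHom (algebraMap R S)] [Module.Flat R S] in
lemma span_mid_eq_top (t : S) :
    ∃ z : Option (Fin r) → midRing R S K d, t = ∑ o, z o • (Option.elim o 1 s : S) := by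
  classical
  set A := MvPowerSeries (Fin d) K
  let Φ : (Option (Fin r) → midRing R S K d) →ₗ[A] S :=
    (Fintype.linearCombination (midRing R S K d)
      fun o => (Option.elim o 1 s : S)).restrictScalars A
  set P := LinearMap.range Φ
  have hmulP : ∀ (ρ : R) (p : S), p ∈ P → algebraMap R S ρ * p ∈ P := by
    rintro ρ _ ⟨z, rfl⟩
    refine ⟨toMid R S K d ρ • z, ?_⟩
    simp only [Φ, LinearMap.coe_restrictScalars, map_smul]
    rfl
  set M := (maximalIdeal R).map (algebraMap R S) with hM
  have hpow : ∀ j, ∀ t : S, ∃ p ∈ P, t - p ∈ M ^ j := by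
    intro j
    induction j with
    | zero => exact fun t => ⟨0, zero_mem _, by simp⟩
    | succ j ih =>
      suffices ∀ u ∈ M ^ j, ∃ p ∈ P, u - p ∈ M ^ (j + 1) by
        intro t
        obtain ⟨p, hp, htp⟩ := ih t
        obtain ⟨p', hp', hu⟩ := this _ htp
        exact ⟨p + p', add_mem hp hp', by rwa [← sub_sub]⟩
      intro u hu
      rw [hM, ← Ideal.map_pow] at hu
      refine Submodule.span_induction (p := fun u _ => ∀ c : S, ∃ p ∈ P, c * u - p ∈ M ^ (j + 1))
        ?_ ?_ ?_ ?_ hu 1 |>.imp fun p hp => ⟨hp.1, by simpa using hp.2⟩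
      · rintro _ ⟨ρ, hρ, rfl⟩ c
        obtain ⟨z, hz⟩ := hgen c
        refine ⟨algebraMap R S ρ * Φ z, hmulP _ _ ⟨z, rfl⟩, ?_⟩
        rw [mul_comm c, ← mul_sub, pow_succ]
        refine Ideal.mul_mem_mul ?_ hz
        rw [hM, ← Ideal.map_pow]
        exact Ideal.mem_map_of_mem _ hρ
      · exact fun c => ⟨0, zero_mem _, by simp⟩
      · intro u u' _ _ hu hu' c
        obtain ⟨p, hp, h⟩ := hu c
        obtain ⟨p', hp', h'⟩ := hu' c
        exact ⟨p + p', add_mem hp hp', by rw [mul_add, add_sub_add_comm]; exact add_mem h h'⟩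
      · intro c' u _ hu c
        rw [smul_eq_mul, ← mul_assoc]
        exact hu _
  have hnak : (⊤ : Submodule A S) ≤ P ⊔
      Ideal.span (Set.range (X : Fin d → A)) • (⊤ : Submodule A S) := by
    intro t _
    obtain ⟨p, hp, htp⟩ := hpow (n₀ + 1) t
    refine Submodule.mem_sup.2 ⟨p, hp, t - p, ?_, add_sub_cancel p t⟩
    rw [Ideal.smul_top_eq_map, Submodule.restrictScalars_mem, Ideal.map_span, ← Set.range_comp,
      show (algebraMap A S ∘ (X : Fin d → A)) = algebraMap R S ∘ x from funext hX, Set.range_comp,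
      ← Ideal.map_span]
    rw [hM, ← Ideal.map_pow] at htp
    exact Ideal.map_mono (hred.trans Ideal.mul_le_left) htp
  have hle := Submodule.le_of_le_smul_of_le_jacobson_bot Module.Finite.fg_top
    (maximalIdeal_powerSeries (σ := Fin d) (k := K) ▸ maximalIdeal_le_jacobson _) hnak
  obtain ⟨z, hz⟩ := hle (Submodule.mem_top : t ∈ ⊤)
  exact ⟨z, hz.symm⟩

include hres hk hkK hxm hX hred hgen hr in
/-- `S` is free over the middle ring, and the middle ring is as large as `R` modulo powers. -/
theorem free_and_length :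
    (∀ z : Option (Fin r) → midRing R S K d,
      ∑ o, z o • (Option.elim o 1 s : S) = 0 → z = 0) ∧
    ∀ N, Module.length R (R ⧸ Ideal.span (Set.range x) ^ N) ≤
      Module.length (MvPowerSeries (Fin d) K)
        (midRing R S K d ⧸ (Ideal.span (Set.range x) ^ N).map (toMid R S K d)) := by
  classical
  set A := MvPowerSeries (Fin d) K
  have : IsLocalHom (algebraMap A S) := by
    refine ((local_hom_TFAE (algebraMap A S)).out 0 2).mpr ?_
    rw [maximalIdeal_powerSeries, Ideal.map_span, Ideal.span_le]
    rintro _ ⟨_, ⟨i, rfl⟩, rfl⟩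
    rw [hX]
    exact map_nonunit (algebraMap R S) _ (hxm i)
  have key : ∀ N, Module.length R (R ⧸ Ideal.span (Set.range x) ^ N) ≤
      Module.length A (midRing R S K d ⧸ (Ideal.span (Set.range x) ^ N).map (toMid R S K d)) ∧
      ∀ z : Option (Fin r) → midRing R S K d, ∑ o, z o • (Option.elim o 1 s : S) = 0 →
        ∀ o, z o ∈ (Ideal.span (Set.range x) ^ N).map (toMid R S K d) := by
    intro N
    set J := Ideal.span (Set.range x) ^ N
    set J₁ := J.map (toMid R S K d) with hJ₁
    set JS := J.map (algebraMap R S) with hJS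
    have hcomap : J₁ ≤ JS.comap (midRing R S K d).val := by
      rw [hJ₁, Ideal.map_le_iff_le_comap]
      exact fun ρ hρ => Ideal.mem_map_of_mem (algebraMap R S) hρ
    let ψ : (midRing R S K d ⧸ J₁) →ₐ[A] S ⧸ JS :=
      Ideal.quotientMapₐ JS (midRing R S K d).val hcomap
    let μ : (Option (Fin r) → midRing R S K d ⧸ J₁) →ₗ[A] S ⧸ JS :=
      ∑ o, (LinearMap.mulRight A (Ideal.Quotient.mk JS (Option.elim o 1 s : S))).comp
        (ψ.toLinearMap.comp (LinearMap.proj o))
    have hμ : ∀ z : Option (Fin r) → midRing R S K d,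
        μ (fun o => Ideal.Quotient.mk J₁ (z o)) =
          Ideal.Quotient.mk JS (∑ o, z o • (Option.elim o 1 s : S)) := by
      intro z
      rw [map_sum, LinearMap.sum_apply]
      rfl
    have hsurj : Function.Surjective μ := by
      intro y
      obtain ⟨t, rfl⟩ := Ideal.Quotient.mk_surjective y
      obtain ⟨z, rfl⟩ := span_mid_eq_top x hX hred s hgen t
      exact ⟨_, hμ z⟩
    have hfinR : Module.length R (R ⧸ J) ≠ ⊤ := by
      have hmle : maximalIdeal R ^ ((n₀ + 1) * N) ≤ J := by
        rw [pow_mul]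
        exact Ideal.pow_right_mono (hred.trans Ideal.mul_le_left) N
      exact ne_top_of_le_ne_top (length_quot_maximalIdeal_pow_ne_top _)
        (Module.length_le_of_surjective (Submodule.factor hmle) (Submodule.factor_surjective hmle))
    set a := Module.length A (midRing R S K d ⧸ J₁)
    have hsrc : Module.length A (Option (Fin r) → midRing R S K d ⧸ J₁) = ((r + 1 : ℕ) : ℕ∞) * a := by
      rw [Module.length_pi_of_fintype, Finset.sum_const, Finset.card_univ, Fintype.card_option,
        Fintype.card_fin, nsmul_eq_mul]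
    have htgt : Module.length A (S ⧸ JS) = Module.length R (R ⧸ J) *
        Module.length S (S ⧸ (maximalIdeal R).map (algebraMap R S)) := by
      rw [length_eq_of_residue (B := S) (fun t => ?_), (Algebra.TensorProduct.quotIdealMapEquivTensorQuot S
        J).toLinearEquiv.length_eq, IsLocalRing.length_baseChange R S]
      obtain ⟨c, hc⟩ := hres t
      exact ⟨C c, by rwa [algebraMap_C]⟩
    have ha : a ≤ Module.length R (R ⧸ J) := length_mid_quot_le hk hkK x hX N hfinR
    have hsurjle := Module.length_le_of_surjective μ hsurj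
    rw [hsrc, htgt] at hsurjle
    refine ⟨?_, fun z hz o => ?_⟩
    · by_contra hlt
      rw [not_le] at hlt
      have h1 : ((r + 1 : ℕ) : ℕ∞) * Module.length R (R ⧸ J) ≤ ((r + 1 : ℕ) : ℕ∞) * a :=
        le_trans (by rw [mul_comm]; exact mul_le_mul_right hr _) hsurjle
      exact hlt.not_ge ((ENat.mul_le_mul_left_iff (by simp) (by simp)).1 h1)
    · have hle : Module.length A (Option (Fin r) → midRing R S K d ⧸ J₁) ≤
          Module.length A (S ⧸ JS) := by
        rw [hsrc, htgt, mul_comm (Module.length R (R ⧸ J))]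
        exact mul_le_mul' hr ha
      have hadd := Module.length_eq_add_of_exact (LinearMap.ker μ).subtype μ
        (Submodule.injective_subtype _) hsurj (LinearMap.exact_subtype_ker_map μ)
      have hne : Module.length A (S ⧸ JS) ≠ ⊤ := by
        refine ne_top_of_le_ne_top ?_ (Module.length_le_of_surjective μ hsurj)
        rw [hsrc]
        exact WithTop.mul_ne_top (ENat.natCast_ne_top _) (ne_top_of_le_ne_top hfinR ha)
      rw [hadd] at hle
      have h0 : Module.length A (LinearMap.ker μ) = 0 :=
        le_antisymm ((ENat.add_le_add_iff_right hne).1 (by rwa [zero_add])) zero_le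
      have hker : LinearMap.ker μ = ⊥ :=
        Submodule.subsingleton_iff_eq_bot.1 (Module.length_eq_zero_iff.1 h0)
      have := LinearMap.ker_eq_bot.1 hker (a₁ := fun o => Ideal.Quotient.mk J₁ (z o)) (a₂ := 0)
        (by rw [hμ, hz, map_zero, map_zero])
      exact Ideal.Quotient.eq_zero_iff_mem.1 (congrFun this o)
  refine ⟨fun z hz => funext fun o => Subtype.ext ?_, fun N => (key N).1⟩
  have hmem : (z o : S) ∈ ⨅ N : ℕ, maximalIdeal S ^ N := by
    rw [Submodule.mem_iInf]
    intro N
    have h1 : (Ideal.span (Set.range x) ^ N).map (toMid R S K d) ≤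
        (maximalIdeal S ^ N).comap (midRing R S K d).val := by
      rw [Ideal.map_le_iff_le_comap]
      intro ρ hρ
      have h2 := Ideal.mem_map_of_mem (algebraMap R S) hρ
      rw [Ideal.map_pow] at h2
      refine Ideal.pow_right_mono ?_ N h2
      rw [Ideal.map_span, Ideal.span_le]
      rintro _ ⟨_, ⟨i, rfl⟩, rfl⟩
      exact map_nonunit (algebraMap R S) _ (hxm i)
    exact h1 ((key N).2 z hz o)
  rwa [Ideal.iInf_pow_eq_bot_of_isLocalRing _ (maximalIdeal.isMaximal S).ne_top,
    Ideal.mem_bot] at hmem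

end Free

end Vale.Agent.P202
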