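import Vale.Agent.P202.GrowthChain
import Vale.Agent.P202.InterfacesC

/-!
P202, module C1: reductions of a power of the maximal ideal by `dim A` elements.
-/

universe u

namespace Vale.Agent.P202

open IsLocalRing Polynomial

variable {A : Type u} [CommRing A] [IsLocalRing A]

/-- The degree `n` part of `m · Rees + (x t ^ D : (D, x) ∈ s)`. -/
noncomputable def redPiece (s : Finset (ℕ × A)) (n : ℕ) : Ideal A :=
  maximalIdeal A ^ (n + 1) ⊔
    s.sup (fun p => if p.1 ≤ n then Ideal.span {p.2} * maximalIdeal A ^ (n - p.1) else ⊥)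

lemma redPiece_mul_le (s : Finset (ℕ × A)) (j n : ℕ) :
    maximalIdeal A ^ j * redPiece s n ≤ redPiece s (n + j) := by
  classical
  rw [redPiece, Ideal.mul_sup]
  refine sup_le (le_sup_of_le_left ?_) (le_sup_of_le_right ?_)
  · rw [← pow_add]
    exact Ideal.pow_le_pow_right (by omega)
  · induction s using Finset.induction_on with
    | empty => simp
    | @insert p s hp ih =>
      rw [Finset.sup_insert, Finset.sup_insert, Ideal.mul_sup]
      refine sup_le_sup ?_ ih
      by_cases h : p.1 ≤ n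
      · rw [if_pos h, if_pos (h.trans (Nat.le_add_right n j)), mul_left_comm, ← pow_add]
        exact Ideal.mul_mono_right (le_of_eq (congrArg _ (by omega)))
      · simp [h]

/-- The ideal `m · Rees + (x t ^ D : (D, x) ∈ s)`. -/
noncomputable def redIdeal (s : Finset (ℕ × A)) : Ideal (rees A) where
  carrier := {f | ∀ n, (f : A[X]).coeff n ∈ redPiece s n}
  add_mem' hf hg n := by
    simpa using Ideal.add_mem _ (hf n) (hg n)
  zero_mem' n := by simp
  smul_mem' c f hf n := by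
    have : ((c • f : rees A) : A[X]) = (c : A[X]) * (f : A[X]) := rfl
    rw [this, coeff_mul]
    refine Ideal.sum_mem _ ?_
    rintro ⟨j, k⟩ hjk
    simp only [Finset.HasAntidiagonal.mem_antidiagonal] at hjk
    have := redPiece_mul_le s j k (Ideal.mul_mem_mul (c.2 j) (hf k))
    rwa [show k + j = n by omega] at this

lemma rmon_mem_redIdeal {s : Finset (ℕ × A)} {i : ℕ} {a : A} {h : a ∈ maximalIdeal A ^ i} :
    rmon i a h ∈ redIdeal s ↔ a ∈ redPiece s i := by
  constructor
  · intro hm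
    simpa [rmon] using hm i
  · intro ha n
    rcases eq_or_ne i n with rfl | hne
    · simpa [rmon] using ha
    · simp [rmon, coeff_monomial, hne]

lemma redPiece_le_pow {s : Finset (ℕ × A)} (hs : ∀ p ∈ s, p.2 ∈ maximalIdeal A ^ p.1) (n : ℕ) :
    redPiece s n ≤ maximalIdeal A ^ n := by
  refine sup_le (Ideal.pow_le_pow_right (Nat.le_succ n)) (Finset.sup_le fun p hp => ?_)
  split_ifs with h
  · calc Ideal.span {p.2} * maximalIdeal A ^ (n - p.1)
        ≤ maximalIdeal A ^ p.1 * maximalIdeal A ^ (n - p.1) :=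
          Ideal.mul_mono_left ((Ideal.span_singleton_le_iff_mem _).2 (hs p hp))
      _ ≤ maximalIdeal A ^ n := by rw [← pow_add, Nat.add_sub_cancel' h]
  · exact bot_le

lemma redIdeal_le_iff {s : Finset (ℕ × A)} (hs : ∀ p ∈ s, p.2 ∈ maximalIdeal A ^ p.1)
    {P : Ideal (rees A)} :
    redIdeal s ≤ P ↔
      (∀ i, maximalIdeal A ^ (i + 1) ≤ piece P i) ∧ ∀ p ∈ s, p.2 ∈ piece P p.1 := by
  classical
  constructor
  · intro h
    have key : ∀ i a, a ∈ redPiece s i → a ∈ piece P i := fun i a ha =>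
      mem_piece.2 ⟨redPiece_le_pow hs i ha, h (rmon_mem_redIdeal.2 ha)⟩
    refine ⟨fun i a ha => key i a (Ideal.mem_sup_left ha), fun p hp => key _ _ ?_⟩
    refine Ideal.mem_sup_right (Finset.le_sup (f := fun q : ℕ × A =>
      if q.1 ≤ p.1 then Ideal.span {q.2} * maximalIdeal A ^ (p.1 - q.1) else ⊥) hp ?_)
    simp
  · rintro ⟨h1, h2⟩ f hf
    have hle : ∀ n, redPiece s n ≤ piece P n := by
      intro n
      refine sup_le (h1 n) (Finset.sup_le fun p hp => ?_)
      split_ifs with hle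
      · rw [Ideal.mul_le]
        intro r hr b hb
        obtain ⟨c, rfl⟩ := Ideal.mem_span_singleton'.1 hr
        rw [mul_assoc]
        refine Ideal.mul_mem_left _ c ?_
        have := mul_mem_piece (h2 p hp) hb
        rwa [Nat.add_sub_cancel' hle] at this
      · exact bot_le
    have hsum : f = ∑ n ∈ (f : A[X]).support, rmon n ((f : A[X]).coeff n) (f.2 n) := by
      apply Subtype.ext
      rw [AddSubmonoidClass.coe_finsetSum]
      exact (f : A[X]).as_sum_support
    rw [hsum]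
    exact Ideal.sum_mem _ fun n _ => (mem_piece.1 (hle n (hf n))).2

/-- A prime is terminal when it contains the whole irrelevant ideal. -/
def Terminal (P : Ideal (rees A)) : Prop := maximalIdeal A ≤ piece P 1

lemma exists_top : ∃ P : Ideal (rees A), Adm P ∧ Terminal P ∧
    ∀ Q : Ideal (rees A), Q.IsPrime → ∀ i, piece Q i ≤ piece P i := by
  set φ : rees A →+* A := Polynomial.constantCoeff.comp (rees A).val.toRingHom
  set P : Ideal (rees A) := (maximalIdeal A).comap φ
  have hmem : ∀ i a (h : a ∈ maximalIdeal A ^ i), 0 < i ∨ a ∈ maximalIdeal A → a ∈ piece P i := by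
    intro i a h hcase
    refine mem_piece.2 ⟨h, ?_⟩
    show (monomial i a).coeff 0 ∈ maximalIdeal A
    rcases hcase with hi | ha
    · simp [coeff_monomial, hi.ne']
    · rw [coeff_monomial]
      split_ifs <;> simp [ha]
  refine ⟨P, ⟨Ideal.IsPrime.comap _, fun i a ha => ?_⟩, fun a ha => ?_, fun Q hQ i a ha => ?_⟩
  · rcases Nat.eq_zero_or_pos i with rfl | hi
    · exact hmem 0 a (by simp) (Or.inr (by simpa using ha))
    · exact hmem i a (Ideal.pow_le_pow_right (Nat.le_succ i) ha) (Or.inl hi)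
  · exact hmem 1 a (by simpa using ha) (Or.inl one_pos)
  · rcases Nat.eq_zero_or_pos i with rfl | hi
    · exact hmem 0 a (by simp) (Or.inr (piece_zero_le hQ ha))
    · exact hmem i a (piece_le_pow _ _ ha) (Or.inl hi)

lemma not_mem_piece_mul {P : Ideal (rees A)} (hP : P.IsPrime) {i j : ℕ} {a b : A}
    (ha : a ∈ maximalIdeal A ^ i) (hb : b ∈ maximalIdeal A ^ j) (h1 : a ∉ piece P i)
    (h2 : b ∉ piece P j) : a * b ∉ piece P (i + j) :=
  fun h => (piece_prime hP ha hb h).elim h1 h2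

lemma pow_mem_piece {P : Ideal (rees A)} {i : ℕ} {a : A} (ha : a ∈ piece P i) {k : ℕ}
    (hk : 0 < k) : a ^ k ∈ piece P (i * k) := by
  obtain ⟨k, rfl⟩ := Nat.exists_eq_succ_of_ne_zero hk.ne'
  rw [pow_succ', Nat.mul_succ, Nat.add_comm]
  refine mul_mem_piece ha ?_
  rw [pow_mul]
  exact Ideal.pow_mem_pow (piece_le_pow _ _ ha) k

lemma mem_piece_of_pow_mem {P : Ideal (rees A)} (hP : P.IsPrime) {i : ℕ} {a : A}
    (ha : a ∈ maximalIdeal A ^ i) {k : ℕ} (h : a ^ k ∈ piece P (i * k)) : a ∈ piece P i := by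
  induction k with
  | zero =>
    obtain ⟨h', hP'⟩ := mem_piece.1 h
    exfalso
    refine hP.ne_top ((Ideal.eq_top_iff_one _).2 ?_)
    have e : rmon (i * 0) (a ^ 0) h' = 1 := Subtype.ext (by simp [rmon])
    rwa [e] at hP'
  | succ k ih =>
    rw [pow_succ', Nat.mul_succ, Nat.add_comm] at h
    exact (piece_prime hP ha (by rw [pow_mul]; exact Ideal.pow_mem_pow ha k) h).elim id ih

/-- Homogeneous prime avoidance. -/
lemma exists_avoid (𝒬 : Finset (Ideal (rees A))) (h : ∀ Q ∈ 𝒬, Q.IsPrime ∧ ¬ Terminal Q) :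
    ∃ E, 0 < E ∧ ∃ x ∈ maximalIdeal A ^ E, ∀ Q ∈ 𝒬, x ∉ piece Q E := by
  classical
  induction 𝒬 using Finset.strongInduction with
  | H 𝒬 ih =>
    rcases 𝒬.eq_empty_or_nonempty with rfl | hne
    · exact ⟨1, one_pos, 0, zero_mem _, by simp⟩
    obtain ⟨Q, hQmin⟩ := 𝒬.exists_minimalFor (fun Q => piece Q) hne
    have hQ := hQmin.1
    obtain ⟨E, hE, x, hx, hxQ⟩ := ih (𝒬.erase Q) (Finset.erase_ssubset hQ)
      (fun Q' hQ' => h Q' (Finset.mem_of_mem_erase hQ'))
    by_cases hxin : x ∈ piece Q E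
    swap
    · refine ⟨E, hE, x, hx, fun Q' hQ' => ?_⟩
      rcases eq_or_ne Q' Q with rfl | hne'
      · exact hxin
      · exact hxQ Q' (Finset.mem_erase.2 ⟨hne', hQ'⟩)
    obtain ⟨hQp, hQt⟩ := h Q hQ
    obtain ⟨a, ha, haQ⟩ := SetLike.not_le_iff_exists.1 hQt
    have hother : ∀ Q' ∈ 𝒬.erase Q, ∃ i, ∃ y ∈ piece Q' i, y ∉ piece Q i := by
      intro Q' hQ'
      by_contra hcon
      push Not at hcon
      have hle : piece Q' ≤ piece Q := fun i y hy => hcon i y hy
      have := hQmin.2 (Finset.mem_of_mem_erase hQ') hle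
      exact hxQ Q' hQ' (this E hxin)
    have hprod : ∀ S ⊆ 𝒬.erase Q, ∃ e, 0 < e ∧ ∃ y ∈ maximalIdeal A ^ e, y ∉ piece Q e ∧
        ∀ Q' ∈ S, y ∈ piece Q' e := by
      intro S
      induction S using Finset.induction_on with
      | empty => exact fun _ => ⟨1, one_pos, a, by simpa using ha, haQ, by simp⟩
      | @insert Q' S hQ'S ihS =>
        intro hsub
        rw [Finset.insert_subset_iff] at hsub
        obtain ⟨e, he, y, hy, hyQ, hyS⟩ := ihS hsub.2
        obtain ⟨i, z, hz, hzQ⟩ := hother Q' hsub.1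
        have hzm := piece_le_pow _ _ hz
        refine ⟨e + i, by omega, y * z, by rw [pow_add]; exact Ideal.mul_mem_mul hy hzm,
          not_mem_piece_mul hQp hy hzm hyQ hzQ, fun Q'' hQ'' => ?_⟩
        rcases Finset.mem_insert.1 hQ'' with rfl | hQ''
        · rw [mul_comm, Nat.add_comm]
          exact mul_mem_piece hz hy
        · exact mul_mem_piece (hyS Q'' hQ'') hzm
    obtain ⟨e, he, y, hy, hyQ, hyS⟩ := hprod _ subset_rfl
    have hxk : x ^ e ∈ maximalIdeal A ^ (E * e) := by rw [pow_mul]; exact Ideal.pow_mem_pow hx e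
    have hyk : y ^ E ∈ maximalIdeal A ^ (E * e) := by
      rw [Nat.mul_comm, pow_mul]; exact Ideal.pow_mem_pow hy E
    refine ⟨E * e, Nat.mul_pos hE he, x ^ e + y ^ E, Ideal.add_mem _ hxk hyk, fun Q' hQ' hmem => ?_⟩
    have hy_pow : ∀ R : Ideal (rees A), y ∈ piece R e → y ^ E ∈ piece R (E * e) := fun R hR => by
      rw [Nat.mul_comm]; exact pow_mem_piece hR hE
    rcases eq_or_ne Q' Q with rfl | hne'
    · refine hyQ (mem_piece_of_pow_mem hQp hy (k := E) ?_)
      rw [Nat.mul_comm]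
      exact (Submodule.add_mem_iff_right _ (pow_mem_piece hxin he)).1 hmem
    · have hQ'' := Finset.mem_erase.2 ⟨hne', hQ'⟩
      refine hxQ Q' hQ'' (mem_piece_of_pow_mem (h Q' hQ').1 hx (k := e) ?_)
      exact (Submodule.add_mem_iff_left _ (hy_pow Q' (hyS Q' hQ''))).1 hmem

/-- Avoidance in degree one over an infinite residue field. -/
lemma exists_avoid_one [Infinite (ResidueField A)] (𝒬 : Finset (Ideal (rees A)))
    (h : ∀ Q ∈ 𝒬, Q.IsPrime ∧ ¬ Terminal Q) :
    ∃ x ∈ maximalIdeal A, ∀ Q ∈ 𝒬, x ∉ piece Q 1 := by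
  classical
  induction 𝒬 using Finset.induction_on with
  | empty => exact ⟨0, zero_mem _, by simp⟩
  | @insert Q 𝒬 hQ ih =>
    obtain ⟨x, hx, hxQ⟩ := ih (fun Q' hQ' => h Q' (Finset.mem_insert_of_mem hQ'))
    by_cases hxin : x ∈ piece Q 1
    swap
    · exact ⟨x, hx, fun Q' hQ' => (Finset.mem_insert.1 hQ').elim (fun e => e ▸ hxin) (hxQ Q')⟩
    obtain ⟨-, hQt⟩ := h Q (Finset.mem_insert_self _ _)
    obtain ⟨y, hy, hyQ⟩ := SetLike.not_le_iff_exists.1 hQt
    have hbad : ∀ Q' ∈ 𝒬, {r : ResidueField A |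
        ∃ c : A, residue A c = r ∧ x + c * y ∈ piece Q' 1}.Subsingleton := by
      rintro Q' hQ' r ⟨c, rfl, hc⟩ r' ⟨c', rfl, hc'⟩
      by_contra hne
      have hu : IsUnit (c - c') := by
        by_contra hnu
        exact hne (sub_eq_zero.1 (by
          rw [← map_sub]; exact (residue_eq_zero_iff _).2 hnu))
      have hd : (c - c') * y ∈ piece Q' 1 := by
        have := Ideal.sub_mem _ hc hc'
        convert this using 1
        ring
      have hyQ' : y ∈ piece Q' 1 := (Ideal.unit_mul_mem_iff_mem _ hu).1 hd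
      refine hxQ Q' hQ' ?_
      have := Ideal.sub_mem _ hc (Ideal.mul_mem_left _ c hyQ')
      simpa using this
    have hfin : (insert (0 : ResidueField A) (⋃ Q' ∈ 𝒬, {r : ResidueField A |
        ∃ c : A, residue A c = r ∧ x + c * y ∈ piece Q' 1})).Finite :=
      (𝒬.finite_toSet.biUnion fun Q' hQ' => (hbad Q' hQ').finite).insert 0
    obtain ⟨r, hr⟩ := hfin.exists_notMem
    obtain ⟨c, rfl⟩ := residue_surjective r
    simp only [Set.mem_insert_iff, Set.mem_iUnion, not_or, not_exists] at hr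
    refine ⟨x + c * y, Ideal.add_mem _ hx (Ideal.mul_mem_left _ c hy), fun Q' hQ' hmem => ?_⟩
    rcases Finset.mem_insert.1 hQ' with rfl | hQ'
    · have hu : IsUnit c := by
        by_contra hnu
        exact hr.1 ((residue_eq_zero_iff _).2 hnu)
      exact hyQ ((Ideal.unit_mul_mem_iff_mem _ hu).1 ((Submodule.add_mem_iff_right _ hxin).1 hmem))
    · exact hr.2 Q' hQ' ⟨c, rfl, hmem⟩

variable [IsNoetherianRing A]

/-- Finitely many elements, at most `dim A`, in degrees `D`, whose only prime is irrelevant. -/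
lemma exists_terminal (A : Type u) [CommRing A] [IsLocalRing A] [IsNoetherianRing A] :
    ∃ s : Finset (ℕ × A), s.card ≤ ndim A ∧
      (∀ p ∈ s, 0 < p.1 ∧ p.2 ∈ maximalIdeal A ^ p.1) ∧
      (Infinite (ResidueField A) → ∀ p ∈ s, p.1 = 1) ∧
      (∀ P : Ideal (rees A), P.IsPrime → redIdeal s ≤ P → Terminal P) ∧
      ∃ Q : Ideal (rees A), Chain s.card Q := by
  classical
  set Ok : Finset (ℕ × A) → Prop := fun s => (∀ p ∈ s, 0 < p.1 ∧ p.2 ∈ maximalIdeal A ^ p.1) ∧
    (Infinite (ResidueField A) → ∀ p ∈ s, p.1 = 1) ∧ (∃ Q : Ideal (rees A), Chain s.card Q) ∧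
    ∀ P : Ideal (rees A), P.IsPrime → redIdeal s ≤ P → ¬ Terminal P →
      ∀ j, Chain j P → ∃ Q : Ideal (rees A), Chain (s.card + j) Q with hOk
  suffices H : ∀ l, (∃ s, Ok s ∧ ∀ P : Ideal (rees A), P.IsPrime → redIdeal s ≤ P → Terminal P) ∨
      ∃ s, Ok s ∧ s.card = l by
    rcases H (ndim A + 1) with ⟨s, hs, ht⟩ | ⟨s, hs, hcard⟩
    · obtain ⟨Q, hQ⟩ := hs.2.2.1
      exact ⟨s, hQ.le_ndim, hs.1, hs.2.1, ht, Q, hQ⟩
    · obtain ⟨Q, hQ⟩ := hs.2.2.1
      have := hQ.le_ndim
      omega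
  intro l
  induction l with
  | zero =>
    right
    obtain ⟨P, hP, -, -⟩ := exists_top (A := A)
    refine ⟨∅, ⟨by simp, by simp, ⟨P, hP⟩, fun Q _ _ _ j hj => ⟨Q, by simpa using hj⟩⟩, rfl⟩
  | succ l ih =>
    rcases ih with h | ⟨s, hs, hcard⟩
    · exact Or.inl h
    by_cases ht : ∀ P : Ideal (rees A), P.IsPrime → redIdeal s ≤ P → Terminal P
    · exact Or.inl ⟨s, hs, ht⟩
    push Not at ht
    obtain ⟨P₀, hP₀, hP₀le, hP₀t⟩ := ht
    have hs' : ∀ p ∈ s, p.2 ∈ maximalIdeal A ^ p.1 := fun p hp => (hs.1 p hp).2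
    set 𝒬 : Finset (Ideal (rees A)) :=
      ((redIdeal s).finite_minimalPrimes_of_isNoetherianRing).toFinset.filter
        (fun Q => ¬ Terminal Q)
    have h𝒬 : ∀ Q ∈ 𝒬, Q.IsPrime ∧ ¬ Terminal Q := fun Q hQ => by
      simp only [𝒬, Finset.mem_filter, Set.Finite.mem_toFinset] at hQ
      exact ⟨hQ.1.1.1, hQ.2⟩
    obtain ⟨E, hE, hEone, x, hx, hxQ⟩ : ∃ E, 0 < E ∧ (Infinite (ResidueField A) → E = 1) ∧
        ∃ x ∈ maximalIdeal A ^ E, ∀ Q ∈ 𝒬, x ∉ piece Q E := by
      by_cases hinf : Infinite (ResidueField A)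
      · obtain ⟨x, hx, hxQ⟩ := exists_avoid_one 𝒬 h𝒬
        exact ⟨1, one_pos, fun _ => rfl, x, by simpa using hx, hxQ⟩
      · obtain ⟨E, hE, x, hx, hxQ⟩ := exists_avoid 𝒬 h𝒬
        exact ⟨E, hE, fun h => absurd h hinf, x, hx, hxQ⟩
    have below : ∀ P : Ideal (rees A), P.IsPrime → redIdeal s ≤ P → ¬ Terminal P →
        ∃ Q, Q ≤ P ∧ Q ∈ 𝒬 ∧ redIdeal s ≤ Q := by
      intro P hP hle hPt
      obtain ⟨Q, hQ, hQP⟩ := Ideal.exists_minimalPrimes_le hle
      refine ⟨Q, hQP, ?_, hQ.1.2⟩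
      simp only [𝒬, Finset.mem_filter, Set.Finite.mem_toFinset]
      exact ⟨hQ, fun h => hPt (le_trans h (piece_mono hQP 1))⟩
    have hxnew : (E, x) ∉ s := by
      intro hmem
      obtain ⟨Q, -, hQ, hQle⟩ := below P₀ hP₀ hP₀le hP₀t
      exact hxQ Q hQ (((redIdeal_le_iff hs').1 hQle).2 _ hmem)
    have hcard' : (insert (E, x) s).card = s.card + 1 := Finset.card_insert_of_notMem hxnew
    have hs'' : ∀ p ∈ insert (E, x) s, 0 < p.1 ∧ p.2 ∈ maximalIdeal A ^ p.1 := by
      intro p hp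
      rcases Finset.mem_insert.1 hp with rfl | hp
      · exact ⟨hE, hx⟩
      · exact hs.1 p hp
    right
    refine ⟨insert (E, x) s, ⟨hs'', ?_, ?_, ?_⟩, by omega⟩
    · intro hinf p hp
      rcases Finset.mem_insert.1 hp with rfl | hp
      · exact hEone hinf
      · exact hs.2.1 hinf p hp
    · obtain ⟨Ptop, hTop, hTopT, hTople⟩ := exists_top (A := A)
      obtain ⟨a, ha, haP⟩ := SetLike.not_le_iff_exists.1 hP₀t
      have hchain : Chain 1 P₀ :=
        ⟨⟨hP₀, ((redIdeal_le_iff hs').1 hP₀le).1⟩, Ptop, hTop, hTople P₀ hP₀, 1, one_pos, a,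
          hTopT ha, haP⟩
      rw [hcard']
      exact hs.2.2.2 P₀ hP₀ hP₀le hP₀t 1 hchain
    · intro P hP hle hPt j hj
      rw [redIdeal_le_iff (fun p hp => (hs'' p hp).2)] at hle
      have hles : redIdeal s ≤ P :=
        (redIdeal_le_iff hs').2 ⟨hle.1, fun p hp => hle.2 p (Finset.mem_insert_of_mem hp)⟩
      obtain ⟨Q, hQP, hQ, hQle⟩ := below P hP hles hPt
      have hchain : Chain (j + 1) Q :=
        ⟨⟨(h𝒬 Q hQ).1, ((redIdeal_le_iff hs').1 hQle).1⟩, P, hj, piece_mono hQP, E, hE, x,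
          hle.2 _ (Finset.mem_insert_self _ _), hxQ Q hQ⟩
      obtain ⟨Q', hQ'⟩ := hs.2.2.2 Q (h𝒬 Q hQ).1 hQle (h𝒬 Q hQ).2 _ hchain
      refine ⟨Q', ?_⟩
      rw [hcard', show s.card + 1 + j = s.card + (j + 1) by omega]
      exact hQ'

/-- The reduction, together with a chain of maximal length. -/
theorem exists_reduction_chain (A : Type u) [CommRing A] [IsLocalRing A] [IsNoetherianRing A] :
    (∃ Q : Ideal (rees A), Chain (ndim A) Q) ∧
    ∃ D : ℕ, 0 < D ∧ (Infinite (ResidueField A) → D = 1) ∧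
      ∃ x : Fin (ndim A) → A, (∀ l, x l ∈ maximalIdeal A ^ D) ∧
        ∃ n₀ : ℕ, ∀ n, n₀ ≤ n →
          maximalIdeal A ^ (n + D) ≤ Ideal.span (Set.range x) * maximalIdeal A ^ n := by
  classical
  obtain ⟨s, hcard, hs, hinf, ht, Q₀, hQ₀⟩ := exists_terminal A
  set D := ∏ p ∈ s, p.1 with hD
  have hDpos : 0 < D := Finset.prod_pos fun p hp => (hs p hp).1
  have hdvd : ∀ p ∈ s, p.1 ∣ D := fun p hp => Finset.dvd_prod_of_mem _ hp
  have hpow : ∀ p ∈ s, p.2 ^ (D / p.1) ∈ maximalIdeal A ^ D := fun p hp => by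
    have := Ideal.pow_mem_pow (hs p hp).2 (D / p.1)
    rwa [← pow_mul, Nat.mul_div_cancel' (hdvd p hp)] at this
  set s' : Finset (ℕ × A) := s.image (fun p => (D, p.2 ^ (D / p.1))) with hs'
  have hs'm : ∀ p ∈ s', p.2 ∈ maximalIdeal A ^ p.1 := by
    intro p hp
    obtain ⟨q, hq, rfl⟩ := Finset.mem_image.1 hp
    exact hpow q hq
  have ht' : ∀ P : Ideal (rees A), P.IsPrime → redIdeal s' ≤ P → Terminal P := by
    intro P hP hle
    rw [redIdeal_le_iff hs'm] at hle
    refine ht P hP ((redIdeal_le_iff fun p hp => (hs p hp).2).2 ⟨hle.1, fun p hp => ?_⟩)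
    refine mem_piece_of_pow_mem hP (hs p hp).2 (k := D / p.1) ?_
    rw [Nat.mul_div_cancel' (hdvd p hp)]
    exact hle.2 _ (Finset.mem_image_of_mem _ hp)
  set Rp : Ideal (rees A) :=
    Ideal.span {f | ∃ (a : A) (h : a ∈ maximalIdeal A ^ 1), f = rmon 1 a h}
  have hrad : Rp ≤ (redIdeal s').radical := by
    rw [Ideal.span_le]
    rintro _ ⟨a, h, rfl⟩
    rw [SetLike.mem_coe, Ideal.radical_eq_sInf, Ideal.mem_sInf]
    rintro P ⟨hle, hP⟩
    exact (mem_piece.1 (ht' P hP hle (by simpa using h))).2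
  obtain ⟨N, hN⟩ := Ideal.exists_pow_le_of_le_radical_of_fg hrad (IsNoetherian.noetherian _)
  have hmonpow : ∀ (n : ℕ) (a : A) (h : a ∈ maximalIdeal A ^ n), rmon n a h ∈ Rp ^ n := by
    intro n
    induction n with
    | zero => intro a h; simp
    | succ n ihn =>
      intro a h
      suffices hs : a ∈ piece (Rp ^ (n + 1)) (n + 1) from (mem_piece.1 hs).2
      have h' : a ∈ maximalIdeal A ^ n * maximalIdeal A := by rwa [← pow_succ]
      refine Submodule.mul_induction_on h' (fun b hb c hc => ?_) (fun b c hb hc => add_mem hb hc)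
      have hc' : c ∈ maximalIdeal A ^ 1 := by simpa using hc
      refine mem_piece.2 ⟨by rw [pow_succ]; exact Ideal.mul_mem_mul hb hc, ?_⟩
      rw [← rmon_mul hb hc', pow_succ Rp n]
      exact Ideal.mul_mem_mul (ihn b hb) (Ideal.subset_span ⟨c, hc', rfl⟩)
  have hN' : maximalIdeal A ^ N ≤ redPiece s' N := fun a ha =>
    rmon_mem_redIdeal.1 (hN (hmonpow N a ha))
  set J : Ideal A := Ideal.span ((fun p : ℕ × A => p.2 ^ (D / p.1)) '' (s : Set (ℕ × A)))
  have hJ : J ≤ maximalIdeal A ^ D := by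
    rw [Ideal.span_le]
    rintro _ ⟨p, hp, rfl⟩
    exact hpow p hp
  have hbase : maximalIdeal A ^ (N + D) ≤ maximalIdeal A ^ (N + D + 1) ⊔
      J * maximalIdeal A ^ N := by
    have h1 : redPiece s' N ≤ maximalIdeal A ^ (N + 1) ⊔ J * maximalIdeal A ^ (N - D) := by
      refine sup_le le_sup_left (Finset.sup_le fun p hp => ?_)
      obtain ⟨q, hq, rfl⟩ := Finset.mem_image.1 hp
      split_ifs with h
      · refine le_sup_of_le_right (Ideal.mul_mono_left ?_)
        exact (Ideal.span_singleton_le_iff_mem _).2 (Ideal.subset_span ⟨q, hq, rfl⟩)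
      · exact bot_le
    calc maximalIdeal A ^ (N + D) = maximalIdeal A ^ D * maximalIdeal A ^ N := by
          rw [← pow_add, Nat.add_comm]
      _ ≤ maximalIdeal A ^ D * (maximalIdeal A ^ (N + 1) ⊔ J * maximalIdeal A ^ (N - D)) :=
          Ideal.mul_mono_right (hN'.trans h1)
      _ ≤ _ := by
          rw [Ideal.mul_sup, mul_left_comm, ← pow_add, ← pow_add]
          exact sup_le_sup (Ideal.pow_le_pow_right (by omega))
            (Ideal.mul_mono_right (Ideal.pow_le_pow_right (by omega)))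
  set pad : List A := s.toList.map (fun p => p.2 ^ (D / p.1))
  have hdim : ndim A ≤ s.card := by
    set S : Finset A := s.image (fun p => p.2 ^ (D / p.1))
    have hle : maximalIdeal A ^ (N + D) ≤ J * maximalIdeal A ^ N := by
      refine Submodule.le_of_le_smul_of_le_jacobson_bot (I := maximalIdeal A)
        (IsNoetherian.noetherian _) (IsLocalRing.maximalIdeal_le_jacobson _) ?_
      rw [smul_eq_mul, ← pow_succ', sup_comm]
      exact hbase
    have hJS : J = Ideal.span (S : Set A) := by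
      simp [J, S, Finset.coe_image]
    have hmin : maximalIdeal A ∈ (Ideal.span (S : Set A)).minimalPrimes := by
      rw [← hJS]
      refine ⟨⟨inferInstance, hJ.trans (Ideal.pow_le_self hDpos.ne')⟩, fun p hp _ => ?_⟩
      exact hp.1.le_of_pow_le ((hle.trans Ideal.mul_le_left).trans hp.2)
    have h1 := Ideal.height_le_card_of_mem_minimalPrimes_span_finset hmin
    rw [height_maximalIdeal_eq_ndim] at h1
    exact le_trans (Nat.cast_le.1 h1) Finset.card_image_le
  refine ⟨⟨Q₀, (le_antisymm hcard hdim) ▸ hQ₀⟩,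
    D, hDpos, fun h => Finset.prod_eq_one fun p hp => hinf h p hp,
    fun l => pad.getD l 0, fun l => ?_, N, fun n hn => ?_⟩
  · show pad.getD (l : ℕ) 0 ∈ maximalIdeal A ^ D
    rcases lt_or_ge (l : ℕ) pad.length with h | h
    · rw [List.getD_eq_getElem _ _ h]
      obtain ⟨p, hp, he⟩ := List.mem_map.1 (List.getElem_mem h)
      rw [← he]
      exact hpow p (Finset.mem_toList.1 hp)
    · rw [List.getD_eq_default _ _ h]
      exact zero_mem _
  · have hrange : J ≤ Ideal.span (Set.range fun l : Fin (ndim A) => pad.getD l 0) := by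
      rw [Ideal.span_le]
      rintro _ ⟨p, hp, rfl⟩
      have hmem : p.2 ^ (D / p.1) ∈ pad :=
        List.mem_map.2 ⟨p, Finset.mem_toList.2 hp, rfl⟩
      obtain ⟨i, hi, he⟩ := List.getElem_of_mem hmem
      have hi' : i < ndim A := by
        have : pad.length = s.card := by simp [pad]
        omega
      refine Ideal.subset_span ⟨⟨i, hi'⟩, ?_⟩
      show pad.getD i 0 = _
      rw [List.getD_eq_getElem _ _ hi, he]
    refine le_trans ?_ (Ideal.mul_mono_left hrange)
    obtain ⟨k, rfl⟩ := Nat.exists_eq_add_of_le hn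
    refine Submodule.le_of_le_smul_of_le_jacobson_bot (I := maximalIdeal A)
      (IsNoetherian.noetherian _) (IsLocalRing.maximalIdeal_le_jacobson _) ?_
    rw [smul_eq_mul, ← pow_succ', sup_comm]
    calc maximalIdeal A ^ (N + k + D) = maximalIdeal A ^ k * maximalIdeal A ^ (N + D) := by
          rw [← pow_add]; congr 1; omega
      _ ≤ maximalIdeal A ^ k * (maximalIdeal A ^ (N + D + 1) ⊔ J * maximalIdeal A ^ N) :=
          Ideal.mul_mono_right hbase
      _ ≤ _ := by
          rw [Ideal.mul_sup, mul_left_comm, ← pow_add, ← pow_add]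
          exact sup_le_sup (Ideal.pow_le_pow_right (by omega))
            (Ideal.mul_mono_right (Ideal.pow_le_pow_right (by omega)))

theorem exists_reduction (A : Type u) [CommRing A] [IsLocalRing A] [IsNoetherianRing A] :
    ∃ D : ℕ, 0 < D ∧ (Infinite (ResidueField A) → D = 1) ∧
      ∃ x : Fin (ndim A) → A, (∀ l, x l ∈ maximalIdeal A ^ D) ∧
        ∃ n₀ : ℕ, ∀ n, n₀ ≤ n →
          maximalIdeal A ^ (n + D) ≤ Ideal.span (Set.range x) * maximalIdeal A ^ n :=
  (exists_reduction_chain A).2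

theorem goalReduction : GoalReduction.{u} := fun A _ _ _ => exists_reduction A

end Vale.Agent.P202
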