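import Vale.Agent.P202.E2CoeffField
import Vale.Agent.P202.E2Struct
import Vale.Agent.P202.E2Growth
import Vale.Agent.P202.E2Kernel
import Vale.Agent.P202.E2Lead
import Vale.Agent.P202.GrowthRed

/-!
E2: assembly of the model.
-/

universe u

namespace Vale.Agent.P202

open IsLocalRing MvPowerSeries

set_option maxSynthPendingDepth 4

/-- The conclusion of `GoalModel`. -/
def HasModel (S : Type u) [CommRing S] [IsLocalRing S] (eR : ℝ) : Prop :=
  ∃ (K : Type u) (_ : Field K) (_ : CharZero K) (σ : Shape)
      (θ : Param σ (MvPowerSeries (Fin σ.d) K)),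
      θ.IsModel (fun i => MvPowerSeries.X i) ∧ θ.a ≠ 0 ∧ eR ≤ (σ.e : ℝ) ∧
      (∀ N, σ.stdSum N ≤ (Module.length S (S ⧸ maximalIdeal S ^ N)).toNat) ∧
      σ.d = ndim S

/-- With equal dimensions, a power of the maximal ideal upstairs lies in `mS`. -/
lemma exists_pow_le_map_maximal {R S : Type u} [CommRing R] [IsLocalRing R] [IsNoetherianRing R]
    [CommRing S] [IsLocalRing S] [IsNoetherianRing S] [Algebra R S]
    [IsLocalHom (algebraMap R S)] [Module.Flat R S] (hdim : ndim R = ndim S) :
    ∃ L, maximalIdeal S ^ L ≤ (maximalIdeal R).map (algebraMap R S) := by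
  set M := (maximalIdeal R).map (algebraMap R S)
  have hM : M ≤ maximalIdeal S := map_maximalIdeal_le (algebraMap R S)
  have : (maximalIdeal S).LiesOver (maximalIdeal R) :=
    ⟨(maximalIdeal_comap (algebraMap R S)).symm⟩
  have : Nontrivial (S ⧸ M) :=
    Ideal.Quotient.nontrivial_iff.mpr (ne_top_of_le_ne_top (maximalIdeal.isMaximal S).ne_top hM)
  have h := Ideal.height_eq_height_add_of_liesOver_of_hasGoingDown (maximalIdeal R) (maximalIdeal S)
  rw [height_maximalIdeal_eq_ndim, height_maximalIdeal_eq_ndim, hdim] at h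
  have h0 : ((maximalIdeal S).map (Ideal.Quotient.mk M)).height = 0 :=
    (ENat.add_right_injective_of_ne_top (ENat.natCast_ne_top (ndim S))
      (h.symm.trans (add_zero _).symm))
  have hp : ((maximalIdeal S).map (Ideal.Quotient.mk M)).IsPrime :=
    Ideal.map_isPrime_of_surjective Ideal.Quotient.mk_surjective (by rwa [Ideal.mk_ker])
  have hrad : maximalIdeal S ≤ M.radical := by
    rw [Ideal.radical_eq_sInf]
    refine le_sInf ?_
    rintro p ⟨hMp, hpp⟩
    have hle : p.map (Ideal.Quotient.mk M) ≤ (maximalIdeal S).map (Ideal.Quotient.mk M) :=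
      Ideal.map_mono (le_maximalIdeal hpp.ne_top)
    have hpp' : (p.map (Ideal.Quotient.mk M)).IsPrime :=
      Ideal.map_isPrime_of_surjective Ideal.Quotient.mk_surjective (by rwa [Ideal.mk_ker])
    have hmin : (maximalIdeal S).map (Ideal.Quotient.mk M) ∈ minimalPrimes (S ⧸ M) :=
      Ideal.height_eq_zero_iff.1 h0
    have h1 := Ideal.comap_mono (f := Ideal.Quotient.mk M) (hmin.2 ⟨hpp', bot_le⟩ hle)
    rw [Ideal.comap_map_of_surjective _ Ideal.Quotient.mk_surjective,
      Ideal.comap_map_of_surjective _ Ideal.Quotient.mk_surjective, ← RingHom.ker_eq_comap_bot,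
      Ideal.mk_ker, sup_eq_left.2 hM, sup_eq_left.2 hMp] at h1
    exact h1
  exact Ideal.exists_pow_le_of_le_radical_of_fg hrad (maximalIdeal S).fg_of_isNoetherianRing

/-- Elements of the maximal ideal giving, with `1`, a basis of `S / mS` over `K`. -/
lemma exists_lifts {S K : Type u} [CommRing S] [IsLocalRing S] [IsNoetherianRing S] [Field K]
    [Algebra K S] (hres : ∀ t : S, ∃ c : K, t - algebraMap K S c ∈ maximalIdeal S)
    (M : Ideal S) (hM : M ≤ maximalIdeal S) {L : ℕ} (hL : maximalIdeal S ^ L ≤ M) :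
    ∃ (r : ℕ) (s : Fin r → S), (∀ l, s l ∈ maximalIdeal S) ∧
      (∀ t, ∃ (c : K) (w : Fin r → K),
        t - (algebraMap K S c + ∑ l, algebraMap K S (w l) * s l) ∈ M) ∧
      ((r + 1 : ℕ) : ℕ∞) ≤ Module.length S (S ⧸ M) := by
  classical
  have : IsLocalHom (algebraMap K S) :=
    ⟨fun c hc => isUnit_iff_ne_zero.2 fun h => by simp [h] at hc⟩
  have hlen : Module.length K (S ⧸ M) = Module.length S (S ⧸ M) := length_eq_of_residue hres _
  have hne : Module.length S (S ⧸ M) ≠ ⊤ :=
    ne_top_of_le_ne_top (length_quot_maximalIdeal_pow_ne_top L)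
      (Module.length_le_of_surjective (Submodule.factor hL) (Submodule.factor_surjective hL))
  have : Module.Finite K (S ⧸ M) := by
    have h1 : IsFiniteLength K (S ⧸ M) := Module.length_ne_top_iff.1 (hlen ▸ hne)
    have := (isFiniteLength_iff_isNoetherian_isArtinian.1 h1).1
    infer_instance
  let nbar : Submodule K (S ⧸ M) :=
    ((maximalIdeal S).map (Ideal.Quotient.mk M)).restrictScalars K
  let B := Module.finBasis K nbar
  have hlift : ∀ l, ∃ t ∈ maximalIdeal S, Ideal.Quotient.mk M t = (B l : S ⧸ M) := fun l =>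
    (Ideal.mem_map_iff_of_surjective _ Ideal.Quotient.mk_surjective).1 (B l).2
  choose s hs hsB using hlift
  refine ⟨_, s, hs, fun t => ?_, ?_⟩
  · obtain ⟨c, hc⟩ := hres t
    have hu : Ideal.Quotient.mk M (t - algebraMap K S c) ∈ nbar := Ideal.mem_map_of_mem _ hc
    refine ⟨c, fun l => B.repr ⟨_, hu⟩ l, ?_⟩
    rw [← Ideal.Quotient.eq_zero_iff_mem, ← sub_sub, map_sub, sub_eq_zero]
    refine (congrArg Subtype.val (B.sum_repr ⟨_, hu⟩)).symm.trans ?_
    rw [Submodule.coe_sum, map_sum]
    refine Finset.sum_congr rfl fun l _ => ?_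
    rw [Submodule.coe_smul, map_mul, hsB, Algebra.smul_def]
    rfl
  · rw [← hlen, Module.length_eq_finrank]
    refine Nat.cast_le.2 (Submodule.finrank_lt (s := nbar) fun h => ?_)
    have h1 : (1 : S ⧸ M) ∈ nbar := h ▸ Submodule.mem_top
    obtain ⟨t, ht, ht1⟩ := (Ideal.mem_map_iff_of_surjective _ Ideal.Quotient.mk_surjective).1 h1
    rw [← map_one (Ideal.Quotient.mk M), Ideal.Quotient.eq] at ht1
    exact (maximalIdeal.isMaximal S).ne_top
      ((Ideal.eq_top_iff_one _).2 (by simpa using sub_mem ht (hM ht1)))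

lemma monVal_map {ι : Type*} {P S : Type u} [CommRing P] [CommRing S] (f : P →+* S) (g : ι → P)
    (E : ι →₀ ℕ) : f (monVal g E) = monVal (fun i => f (g i)) E := by
  simp [monVal, Finsupp.prod, map_prod, map_pow]

/-- E2 for complete rings with a compatible pair of coefficient fields. -/
theorem model_of_fields {R S k K : Type u} [CommRing R] [IsLocalRing R] [IsNoetherianRing R]
    [CommRing S] [IsLocalRing S] [IsNoetherianRing S] [IsAdicComplete (maximalIdeal S) S]
    [Algebra R S] [IsLocalHom (algebraMap R S)] [Module.Flat R S]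
    [Field k] [Algebra k R] [Field K] [CharZero K] [Algebra K S] [CharZero (ResidueField R)]
    (hdim : ndim R = ndim S)
    (hk : ∀ r : R, ∃ c : k, r - algebraMap k R c ∈ maximalIdeal R)
    (hres : ∀ t : S, ∃ c : K, t - algebraMap K S c ∈ maximalIdeal S)
    (hkK : ∀ c : k, ∃ c' : K, algebraMap R S (algebraMap k R c) = algebraMap K S c')
    {eR : ℝ} (heR : HasMult R eR) : HasModel S eR := by
  classical
  -- the reduction
  obtain ⟨D, -, hD1, x, hxD, n₀, hred'⟩ := goalReduction R
  have hD : D = 1 := hD1 (Infinite.of_injective (Nat.cast : ℕ → ResidueField R) Nat.cast_injective)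
  subst hD
  have hxm : ∀ i, x i ∈ maximalIdeal R := fun i => by simpa using hxD i
  have hred : maximalIdeal R ^ (n₀ + 1) ≤ Ideal.span (Set.range x) * maximalIdeal R ^ n₀ :=
    hred' n₀ le_rfl
  -- nilpotence upstairs
  obtain ⟨L, hL⟩ := exists_pow_le_map_maximal (R := R) (S := S) hdim
  have hL1 : maximalIdeal S ^ (L * (n₀ + 1)) ≤
      Ideal.span (Set.range fun i => algebraMap R S (x i)) := by
    rw [pow_mul]
    refine (Ideal.pow_right_mono hL _).trans ?_
    rw [← Ideal.map_pow]
    refine (Ideal.map_mono (hred.trans Ideal.mul_le_left)).trans ?_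
    rw [Ideal.map_span, ← Set.range_comp]
    exact le_rfl
  have hxS : ∀ i, algebraMap R S (x i) ∈ maximalIdeal S := fun i =>
    map_nonunit (algebraMap R S) _ (hxm i)
  -- evaluation
  obtain ⟨ι, hιC, hιX⟩ := exists_evalSeries (K := K) (fun i => algebraMap R S (x i)) hxS
  let _ : Algebra (MvPowerSeries (Fin (ndim R)) K) S := ι.toAlgebra
  have hfin : Module.Finite (MvPowerSeries (Fin (ndim R)) K) S :=
    finite_evalSeries hres _ ι hιC hιX hxS hL1
  have : IsScalarTower K (MvPowerSeries (Fin (ndim R)) K) S :=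
    IsScalarTower.of_algebraMap_eq fun c => (hιC c).symm
  have hX : ∀ i, algebraMap (MvPowerSeries (Fin (ndim R)) K) S (X i) = algebraMap R S (x i) := hιX
  set A := MvPowerSeries (Fin (ndim R)) K
  set R₁ := midRing R S K (ndim R)
  set φ := toMid R S K (ndim R)
  set m₁ := (maximalIdeal R).map φ
  have hm₁ : ∀ q : R₁, q ∈ m₁ ↔ (q : S) ∈ maximalIdeal S :=
    mid_mem_maximal_iff hk hkK x hxm hX
  have : Module.Finite A R₁ :=
    Module.Finite.of_injective R₁.val.toLinearMap Subtype.val_injective
  -- generators of the middle ring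
  obtain ⟨n, g, hg⟩ := Module.Finite.exists_fin (R := A) (M := R₁)
  choose c0 hc0 using fun i => mid_residue hk hkK x hxm hX (g i)
  set b : Fin n → R₁ := fun i => g i - algebraMap A R₁ (C (c0 i)) with hb
  have hbm : ∀ i, b i ∈ m₁ := hc0
  have hspan : Submodule.span A
      (Set.range fun o : Option (Fin n) => (Option.elim o 1 b : R₁)) = ⊤ := by
    rw [eq_top_iff, ← hg, Submodule.span_le]
    rintro _ ⟨i, rfl⟩
    have : g i = b i + (C (c0 i) : A) • (1 : R₁) := by
      rw [hb, Algebra.smul_def, mul_one, sub_add_cancel]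
    rw [this]
    exact Submodule.add_mem _ (Submodule.subset_span ⟨some i, rfl⟩)
      (Submodule.smul_mem _ _ (Submodule.subset_span ⟨none, rfl⟩))
  have hexp : ∀ q : R₁, ∃ c : Option (Fin n) → A, affVal b c = q := by
    intro q
    obtain ⟨c, hc⟩ := (Submodule.mem_span_range_iff_exists_fun A).1
      (hspan ▸ Submodule.mem_top :
        q ∈ Submodule.span A (Set.range fun o : Option (Fin n) => (Option.elim o 1 b : R₁)))
    exact ⟨c, (affVal_eq_sum b c).trans hc⟩
  -- the representation
  have : IsDomain A := NoZeroDivisors.to_isDomain A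
  obtain ⟨e, a, lam, v, cc, ha, hcomm, hmul, hlrel, horb, G, z, hz, hzG⟩ := exists_rep b hspan
  -- lifts of a basis upstairs
  have hC : ∀ c, algebraMap A S (C c) = algebraMap K S c := fun c => algebraMap_C c
  have hMn : (maximalIdeal R).map (algebraMap R S) ≤ maximalIdeal S :=
    map_maximalIdeal_le (algebraMap R S)
  obtain ⟨r, s, hsn, hsdec, hr⟩ := exists_lifts hres _ hMn hL
  have hgen : ∀ t : S, ∃ z : Option (Fin r) → R₁,
      t - ∑ o, z o • (Option.elim o 1 s : S) ∈ (maximalIdeal R).map (algebraMap R S) := by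
    intro t
    obtain ⟨c, w, h⟩ := hsdec t
    refine ⟨fun o => algebraMap A R₁ (C (Option.elim o c w)), ?_⟩
    simpa [Fintype.sum_option, Algebra.smul_def, hC] using h
  obtain ⟨hfree, hlenR⟩ := free_and_length hres hk hkK x hxm hX hred s hgen hr
  have hspS : ∀ t : S, ∃ z : Option (Fin r) → R₁, t = ∑ o, z o • (Option.elim o 1 s : S) :=
    span_mid_eq_top x hX hred s hgen
  let β : Module.Basis (Option (Fin r)) R₁ S :=
    Module.Basis.mk (v := fun o : Option (Fin r) => (Option.elim o 1 s : S))
      (Fintype.linearIndependent_iff.2 fun z hz o => congrFun (hfree z hz) o) (by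
        intro t _
        obtain ⟨z, rfl⟩ := hspS t
        exact Submodule.sum_mem _ fun o _ => Submodule.smul_mem _ _ (Submodule.subset_span ⟨o, rfl⟩))
  have hβ : ∀ o, β o = Option.elim o 1 s := fun o => Module.Basis.mk_apply _ _ o
  -- structure constants
  choose mu hmu using fun i j => hexp (b i * b j)
  choose nu hnu using fun i j o => hexp (β.repr (s i * s j) o)
  let affL : (Option (Fin n) → A) →ₗ[A] R₁ :=
    Fintype.linearCombination A fun o : Option (Fin n) => (Option.elim o 1 b : R₁)
  have haffL : ∀ c, affL c = affVal b c := fun c => (affVal_eq_sum b c).symm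
  obtain ⟨u, rel, hrel⟩ :=
    Submodule.fg_iff_exists_fin_generating_family.1 (IsNoetherian.noetherian (LinearMap.ker affL))
  -- generators and leading exponents
  let gv : GenIdx (ndim R) n r → S :=
    Sum.elim (Sum.elim (fun i => algebraMap R S (x i)) fun i => (b i : S)) s
  have hxb : ∀ q : R₁, q ∈ m₁ → q ∈ Ideal.span (Set.range (fun i => φ (x i)) ∪ Set.range b) := by
    intro q hq
    obtain ⟨c, rfl⟩ := hexp q
    have hsum : ∑ i, algebraMap A R₁ (c (some i)) * b i ∈
        Ideal.span (Set.range (fun i => φ (x i)) ∪ Set.range b) :=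
      Submodule.sum_mem _ fun i _ => Ideal.mul_mem_left _ _ (Ideal.subset_span (Or.inr ⟨i, rfl⟩))
    have hc : c none ∈ Ideal.span (Set.range (X : Fin (ndim R) → A)) := by
      rw [← maximalIdeal_powerSeries, mem_maximalIdeal, mem_nonunits_iff]
      intro hu
      have h1 : algebraMap A R₁ (c none) ∈ m₁ := by
        have h2 : ∑ i, algebraMap A R₁ (c (some i)) * b i ∈ m₁ :=
          Submodule.sum_mem _ fun i _ => Ideal.mul_mem_left _ _ (hbm i)
        simpa [affVal] using sub_mem hq h2
      exact (hm₁ _).1 h1 (hu.map (algebraMap A S))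
    refine add_mem (Ideal.span_mono Set.subset_union_left ?_) hsum
    have := Ideal.mem_map_of_mem (algebraMap A R₁) hc
    rwa [map_mid_span_X x hX, Ideal.map_span, ← Set.range_comp] at this
  have hgv : Ideal.span (Set.range gv) = maximalIdeal S := by
    refine le_antisymm (Ideal.span_le.2 ?_) fun t ht => ?_
    · rintro _ ⟨(i | i) | l, rfl⟩
      · exact hxS i
      · exact (hm₁ _).1 (hbm i)
      · exact hsn l
    · obtain ⟨w, rfl⟩ := hspS t
      rw [Fintype.sum_option] at ht ⊢
      have h2 : ∀ l, w (some l) • s l ∈ Ideal.span (Set.range gv) := fun l => by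
        rw [Algebra.smul_def]
        exact Ideal.mul_mem_left _ _ (Ideal.subset_span ⟨Sum.inr l, rfl⟩)
      refine add_mem ?_ (Submodule.sum_mem _ fun l _ => h2 l)
      have h3 : (w none : S) ∈ maximalIdeal S := by
        have h4 : ∑ l, w (some l) • s l ∈ maximalIdeal S :=
          Submodule.sum_mem _ fun l _ => Submodule.smul_of_tower_mem _ (w (some l)) (hsn l)
        simpa [Algebra.smul_def] using sub_mem ht h4
      have h5 := Ideal.mem_map_of_mem R₁.val (hxb _ ((hm₁ _).2 h3))
      rw [Ideal.map_span] at h5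
      simp only [Option.elim_none, Algebra.smul_def, mul_one]
      refine Ideal.span_mono ?_ h5
      rintro _ ⟨q, (⟨i, rfl⟩ | ⟨i, rfl⟩), rfl⟩
      · exact ⟨Sum.inl (Sum.inl i), rfl⟩
      · exact ⟨Sum.inl (Sum.inr i), rfl⟩
  obtain ⟨lead, hlead, hstd⟩ := exists_leadVal gv hres hgv
  -- the model
  let σ : Shape := ⟨ndim R, n, u, r, e, n₀, L * (n₀ + 1), lead⟩
  let θ : Param σ A := ⟨mu, rel, fun i j o => nu i j o, a, lam, v, cc⟩
  have hψR : ∀ c : Option (Fin n) → A, MvPolynomial.aeval b (Param.aff c) = affVal b c :=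
    fun c => Param.aeval_aff b c
  have hrel' : ∀ c : Option (Fin n) → A, affVal b c = 0 ↔ c ∈ Submodule.span A (Set.range θ.rel) := by
    intro c
    rw [show Submodule.span A (Set.range θ.rel) = LinearMap.ker affL from hrel, LinearMap.mem_ker,
      haffL]
  have hker : ∀ p : MvPolynomial (Fin n) A, MvPolynomial.aeval b p = 0 ↔ p ∈ θ.idealR := by
    intro p
    refine ⟨θ.mem_idealR_of_aeval_eq_zero (fun i j => (hmu i j).symm) hrel', fun hp => ?_⟩
    suffices θ.idealR ≤ RingHom.ker
        (MvPolynomial.aeval b : MvPolynomial (Fin n) A →ₐ[A] R₁) from this hp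
    rw [Param.idealR, Ideal.span_le]
    rintro _ (⟨ij, rfl⟩ | ⟨t, rfl⟩)
    · rw [SetLike.mem_coe, RingHom.mem_ker, map_sub, map_mul, MvPolynomial.aeval_X,
        MvPolynomial.aeval_X, hψR, sub_eq_zero]
      exact (hmu ij.1 ij.2).symm
    · rw [SetLike.mem_coe, RingHom.mem_ker, hψR]
      exact (hrel' _).2 (Submodule.subset_span ⟨t, rfl⟩)
  have hnu' : ∀ i j, s i * s j = ∑ o, affVal b (θ.nu i j o) • (Option.elim o 1 s : S) := by
    intro i j
    conv_lhs => rw [← β.sum_repr (s i * s j)]
    exact Finset.sum_congr rfl fun o _ => by rw [hβ]; exact congrArg (· • _) (hnu i j o).symm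
  -- matrices of multiplication
  let ψm := (MvPolynomial.aeval b : MvPolynomial (Fin n) A →ₐ[A] R₁).toRingHom.mapMatrix
    (m := Option (Fin r))
  let Lm := Algebra.leftMulMatrix β
  have hmat : ∀ i, ψm (θ.mulMat i) = Lm (s i) := by
    intro i
    refine Matrix.ext fun row col => ?_
    rw [Algebra.leftMulMatrix_eq_repr_mul, hβ]
    rcases col with _ | j
    · show MvPolynomial.aeval b (if row = some i then (1 : MvPolynomial (Fin n) A) else 0) = _
      rw [Option.elim_none, mul_one, ← show β (some i) = s i from hβ (some i), β.repr_self,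
        Finsupp.single_apply]
      split_ifs with h1 h2 h2
      · simp
      · exact absurd h1.symm h2
      · exact absurd h2.symm h1
      · simp
    · show MvPolynomial.aeval b (Param.aff (θ.nu i j row)) = _
      rw [hψR]
      exact hnu i j row
  have hentry : ∀ (M : Matrix (Option (Fin r)) (Option (Fin r)) (MvPolynomial (Fin n) A)),
      ψm M = 0 → ∀ p q, M p q ∈ θ.idealR := fun M hM p q =>
    (hker _).1 (congrFun (congrFun hM p) q)
  have hsmulm : ∀ (p : MvPolynomial (Fin n) A)
      (M : Matrix (Option (Fin r)) (Option (Fin r)) (MvPolynomial (Fin n) A)),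
      ψm (p • M) = MvPolynomial.aeval b p • ψm M := by
    intro p M; refine Matrix.ext fun i j => ?_; simp [ψm]
  -- evaluation upstairs
  let ψS : MvPolynomial (Fin n ⊕ Fin r) A →ₐ[A] S :=
    MvPolynomial.aeval (Sum.elim (fun i => algebraMap R₁ S (b i)) s)
  have hkerS : ∀ p, ψS p = 0 → p ∈ θ.idealS := fun p hp =>
    θ.mem_idealS_of_aeval_eq_zero hker hnu' hfree hp
  have hψgen : ∀ i, ψS (Param.gen σ (fun i => X i) i) = gv i := by
    rintro ((i | i) | l)
    · exact (MvPolynomial.aeval_C _ _).trans (hX i)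
    · exact MvPolynomial.aeval_X _ _
    · exact MvPolynomial.aeval_X _ _
  have hψmon : ∀ E, ψS (Param.genMon σ (fun i => X i) E) = monVal gv E := by
    intro E
    show ψS.toRingHom (monVal (Param.gen σ fun i => X i) E) = _
    rw [monVal_map]
    exact congrArg (monVal · E) (funext hψgen)
  have hpull : ∀ (I : Ideal (MvPolynomial (Fin n ⊕ Fin r) A)) p,
      ψS p ∈ I.map ψS → p ∈ θ.idealS ⊔ I := by
    intro I p hp
    have hsurjS : Function.Surjective ψS := by
      intro t
      obtain ⟨w, rfl⟩ := hspS t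
      choose cw hcw using fun o => hexp (w o)
      refine ⟨Param.linW (σ := σ) fun o => Param.aff (cw o), ?_⟩
      refine (Param.aeval_linW _).trans (Finset.sum_congr rfl fun o _ => ?_)
      rw [hψR, hcw]
    obtain ⟨q, hq, hqp⟩ := (Ideal.mem_map_iff_of_surjective ψS hsurjS).1 hp
    rw [← sub_add_cancel p q]
    exact Submodule.add_mem_sup (hkerS _ (by rw [map_sub, hqp, sub_self])) hq
  have hm₁map : (Param.maxR σ (fun i => X i)).map
      (MvPolynomial.aeval b : MvPolynomial (Fin n) A →ₐ[A] R₁) = m₁ := by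
    refine le_antisymm (Ideal.map_le_iff_le_comap.2 (Ideal.span_le.2 ?_)) fun q hq => ?_
    · rintro _ (⟨i, rfl⟩ | ⟨i, rfl⟩) <;> rw [SetLike.mem_coe, Ideal.mem_comap]
      · rw [MvPolynomial.aeval_C, algebraMap_mid_X x hX]
        exact Ideal.mem_map_of_mem _ (hxm i)
      · rw [MvPolynomial.aeval_X]
        exact hbm i
    · refine (Ideal.span_le.2 ?_) (hxb q hq)
      rintro _ (⟨i, rfl⟩ | ⟨i, rfl⟩)
      · show φ (x i) ∈ _
        rw [← algebraMap_mid_X x hX i, ← MvPolynomial.aeval_C (R := A) b]
        exact Ideal.mem_map_of_mem _ (Ideal.subset_span (Or.inl ⟨i, rfl⟩))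
      · rw [SetLike.mem_coe, ← MvPolynomial.aeval_X (R := A) b i]
        exact Ideal.mem_map_of_mem _ (Ideal.subset_span (Or.inr ⟨i, rfl⟩))
  refine ⟨K, inferInstance, inferInstance, σ, θ, ⟨hcomm, fun i j => hmul i j _ (hmu i j).symm,
    fun t => hlrel _ ((hrel' _).2 (Submodule.subset_span ⟨t, rfl⟩)), horb, ?_, ?_, ?_, ?_, ?_⟩,
    ha, ?_, hstd, hdim⟩
  · intro i j
    refine hentry _ ?_
    rw [map_sub, map_mul, map_mul, hmat, hmat, ← map_mul, ← map_mul, mul_comm (s i), sub_self]
  · intro i j
    refine hentry _ ?_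
    rw [map_sub, map_sub, map_mul, map_sum, hmat, hmat, hsmulm, map_one, hψR, ← map_mul Lm, hnu',
      map_sum, Fintype.sum_option]
    simp only [hsmulm, hmat, hψR, Option.elim_none, Option.elim_some, map_smul, map_one]
    rw [add_sub_cancel_left, sub_self]
  · -- reduction
    intro p hp
    set ψ := (MvPolynomial.aeval b : MvPolynomial (Fin n) A →ₐ[A] R₁)
    have hsurjR : Function.Surjective ψ := fun q => by
      obtain ⟨c, rfl⟩ := hexp q
      exact ⟨_, hψR c⟩
    have h1 : ψ p ∈ (Ideal.span (Set.range fun i => MvPolynomial.C (X i : A)) *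
        Param.maxR σ (fun i => X i) ^ n₀).map ψ := by
      rw [Ideal.map_mul, Ideal.map_pow, hm₁map, Ideal.map_span, ← Set.range_comp,
        show (⇑ψ ∘ fun i => MvPolynomial.C (X i : A)) = fun i => φ (x i) from
          funext fun i => (MvPolynomial.aeval_C _ _).trans (algebraMap_mid_X x hX i)]
      have h2 := Ideal.mem_map_of_mem ψ hp
      rw [Ideal.map_pow, hm₁map, ← Ideal.map_pow] at h2
      have h3 := Ideal.map_mono hred h2
      rwa [Ideal.map_mul, Ideal.map_pow, Ideal.map_span, ← Set.range_comp] at h3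
    obtain ⟨q, hq, hqp⟩ := (Ideal.mem_map_iff_of_surjective ψ hsurjR).1 h1
    rw [← sub_add_cancel p q]
    exact Submodule.add_mem_sup ((hker _).1 (by rw [map_sub, hqp, sub_self])) hq
  · -- nilp
    intro p hp
    refine hpull _ p ?_
    rw [Ideal.map_span, ← Set.range_comp,
      show (⇑ψS ∘ fun i => MvPolynomial.C (X i : A)) = fun i => algebraMap R S (x i) from
        funext fun i => (MvPolynomial.aeval_C _ _).trans (hX i)]
    refine hL1 ?_
    have h2 := Ideal.mem_map_of_mem ψS hp
    rwa [Ideal.map_pow, Ideal.map_span, ← Set.range_comp,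
      show (⇑ψS ∘ Param.gen σ fun i => X i) = gv from funext hψgen, hgv] at h2
  · -- leading
    intro E hE
    refine hpull _ _ ?_
    rw [hψmon, Ideal.map_span, Param.laterMons, ← Set.image_comp,
      show (⇑ψS ∘ Param.genMon σ fun i => X i) = monVal gv from funext hψmon]
    exact hlead E hE
  · -- multiplicity
    obtain ⟨C, hC0, hC⟩ := exists_growth_of_rank G z hz hzG
    refine le_of_growth_bound e C (ndim R) hC0 heR fun N => ?_
    have h1 : Module.length R (R ⧸ maximalIdeal R ^ N) ≤
        Module.length R (R ⧸ Ideal.span (Set.range x) ^ N) :=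
      have hle : Ideal.span (Set.range x) ^ N ≤ maximalIdeal R ^ N := by
        refine Ideal.pow_right_mono ?_ N
        rw [Ideal.span_le]
        rintro _ ⟨i, rfl⟩
        exact hxm i
      Module.length_le_of_surjective (Submodule.factor hle) (Submodule.factor_surjective hle)
    have h2 : Module.length A (R₁ ⧸ (Ideal.span (Set.range x) ^ N).map φ) =
        Module.length A (R₁ ⧸ (Ideal.span (Set.range (X : Fin (ndim R) → A)) ^ N •
          (⊤ : Submodule A R₁))) := by
      rw [← (Submodule.Quotient.restrictScalarsEquiv A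
        ((Ideal.span (Set.range x) ^ N).map φ)).length_eq]
      refine (Submodule.quotEquivOfEq _ _ ?_).length_eq
      rw [Ideal.smul_top_eq_map, Ideal.map_pow, Ideal.map_pow, map_mid_span_X x hX]
    have := ENat.toNat_le_toNat (h1.trans ((hlenR N).trans (h2.le.trans (hC N))))
      (ENat.natCast_ne_top _)
    rwa [ENat.toNat_natCast] at this

/-- E2: a flat local map of complete equicharacteristic zero rings has a model. -/
theorem model_of_complete {R S : Type u} [CommRing R] [IsLocalRing R] [IsNoetherianRing R]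
    [IsAdicComplete (maximalIdeal R) R] [CommRing S] [IsLocalRing S] [IsNoetherianRing S]
    [IsAdicComplete (maximalIdeal S) S] [Algebra R S] [IsLocalHom (algebraMap R S)]
    [Module.Flat R S] [CharZero (ResidueField R)] (hdim : ndim R = ndim S) {eR : ℝ}
    (heR : HasMult R eR) : HasModel S eR := by
  have : CharZero (ResidueField S) :=
    charZero_of_injective_ringHom (RingHom.injective (algebraMap (ResidueField R) (ResidueField S)))
  obtain ⟨k, -, hk, hkres⟩ := exists_coefficientField (⊥ : Subring R) bot_zero_or_isUnit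
  let _ : Field k := hk.toField
  have hQ : ∀ z ∈ k.map (algebraMap R S), z = 0 ∨ IsUnit z := by
    rintro _ ⟨c, hc, rfl⟩
    rcases eq_or_ne (⟨c, hc⟩ : k) 0 with h | h
    · refine Or.inl ?_
      rw [show c = 0 from congrArg Subtype.val h, map_zero]
    · exact Or.inr (((isUnit_iff_ne_zero.2 h).map k.subtype).map (algebraMap R S))
  obtain ⟨K, hkK, hK, hKres⟩ := exists_coefficientField (k.map (algebraMap R S)) hQ
  let _ : Field K := hK.toField
  have : CharZero K :=
    ((residue S).comp K.subtype).charZero_iff (RingHom.injective _) |>.2 inferInstance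
  exact model_of_fields (k := k) (K := K) hdim
    (fun r => by obtain ⟨c, hc, h⟩ := hkres r; exact ⟨⟨c, hc⟩, h⟩)
    (fun t => by obtain ⟨c, hc, h⟩ := hKres t; exact ⟨⟨c, hc⟩, h⟩)
    (fun c => ⟨⟨_, hkK ⟨c, c.2, rfl⟩⟩, rfl⟩) heR

/-- E2: `GoalModel`. -/
theorem goalModel : GoalModel.{u} := by
  intro R S _ _ _ _ _ _ _ _ _ _ hdim eR eS heR _
  let R' := AdicCompletion (maximalIdeal R) R
  let S' := AdicCompletion (maximalIdeal S) S
  have hR' : (maximalIdeal R).map (algebraMap R R') = maximalIdeal R' :=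
    AdicCompletion.maximalIdeal_eq_map.symm
  have hS' : (maximalIdeal S).map (algebraMap S S') = maximalIdeal S' :=
    AdicCompletion.maximalIdeal_eq_map.symm
  let g := algebraMap R S
  have hg : (maximalIdeal R).map g ≤ maximalIdeal S := map_maximalIdeal_le g
  let φ : R' →+* S' := completionMap (maximalIdeal R) (maximalIdeal S) g hg
  let _ : Algebra R' S' := φ.toAlgebra
  have hφ : φ.comp (algebraMap R R') = (algebraMap S S').comp g :=
    completionMap_comp_algebraMap _ _ g hg
  have hloc : IsLocalHom φ := by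
    refine ((local_hom_TFAE φ).out 0 2).mpr ?_
    rw [← hR', ← hS', Ideal.map_map, hφ, ← Ideal.map_map]
    exact Ideal.map_mono hg
  have : IsLocalHom (algebraMap R' S') := hloc
  have : Module.Flat R S' := Module.Flat.trans R S S'
  have : IsScalarTower R R' S' := IsScalarTower.of_algebraMap_eq' (by
    rw [RingHom.algebraMap_toAlgebra, hφ, IsScalarTower.algebraMap_eq R S S'])
  have hdense : ∀ (N : ℕ) (t : R'), ∃ a : R, t - algebraMap R R' a ∈ maximalIdeal R' ^ N := by
    intro N t
    obtain ⟨a, ha⟩ := Submodule.Quotient.mk_surjective _ (AdicCompletion.eval _ R N t)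
    refine ⟨a, ?_⟩
    rw [← hR', ← Ideal.map_pow, ← Submodule.restrictScalars_mem R,
      ← Ideal.smul_top_eq_map, AdicCompletion.pow_smul_top_eq_ker_eval
        (maximalIdeal R).fg_of_isNoetherianRing, LinearMap.mem_ker, map_sub, ← ha, sub_eq_zero]
    rfl
  have : Module.Flat R' S' := flat_of_flat_of_dense (maximalIdeal R) hR' hdense
  have : IsAdicComplete (maximalIdeal R') R' :=
    hR' ▸ AdicCompletion.isAdicComplete_self (maximalIdeal R) (maximalIdeal R).fg_of_isNoetherianRing
  have : IsAdicComplete (maximalIdeal S') S' :=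
    hS' ▸ AdicCompletion.isAdicComplete_self (maximalIdeal S) (maximalIdeal S).fg_of_isNoetherianRing
  have : CharZero (ResidueField R') :=
    charZero_of_injective_ringHom (AdicCompletion.residueField_map_bijective R).1
  obtain ⟨K, iK, iK0, σ, θ, h1, h2, h3, h4, h5⟩ := model_of_complete (R := R') (S := S') (by
    rw [ndim_eq_of_map_maximalIdeal hR', ndim_eq_of_map_maximalIdeal hS', hdim])
    (hasMult_of_map_maximalIdeal hR' heR)
  refine ⟨K, iK, iK0, σ, θ, h1, h2, h3, fun N => ?_, ?_⟩
  · have := h4 N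
    rwa [length_quot_pow_eq hS'] at this
  · rw [h5, ndim_eq_of_map_maximalIdeal hS']

end Vale.Agent.P202
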