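import Vale.Agent.P202.Model

/-!
Models are functorial in the base ring and descend to finitely generated subrings.
-/

universe u v

namespace Vale.Agent.P202

open MvPolynomial

namespace Param

variable {σ : Shape} {B : Type u} {B' : Type v} [CommRing B] [CommRing B']

lemma map_aff (φ : B →+* B') {n : ℕ} (c : Option (Fin n) → B) :
    MvPolynomial.map φ (aff c) = aff (fun k => φ (c k)) := by
  simp [aff, map_sum]

lemma map_affMat (φ : B →+* B') (θ : Param σ B) (c : Option (Fin σ.n) → B) :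
    (θ.affMat c).map φ = (θ.map φ).affMat (fun k => φ (c k)) := by
  ext i j
  simp [affMat, map, Matrix.sum_apply, Matrix.one_apply, map_sum, apply_ite φ]

lemma map_mulMat (φ : B →+* B') (θ : Param σ B) (i : Fin σ.r) :
    (θ.map φ).mulMat i = (θ.mulMat i).map (MvPolynomial.map φ) := by
  refine Matrix.ext fun a b => ?_
  rcases b with _ | j
  · simp [mulMat, apply_ite (MvPolynomial.map φ)]
  · simp only [mulMat, map, Matrix.map_apply, Matrix.of_apply, map_aff]

lemma image_relsR (φ : B →+* B') (θ : Param σ B) :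
    MvPolynomial.map φ '' θ.relsR = (θ.map φ).relsR := by
  simp only [relsR, Set.image_union, ← Set.range_comp]
  congr 1 <;> congr 1 <;> funext p <;> simp [map, map_aff]

lemma map_idealR (φ : B →+* B') (θ : Param σ B) :
    θ.idealR.map (MvPolynomial.map φ) = (θ.map φ).idealR := by
  rw [idealR, idealR, Ideal.map_span, image_relsR]

lemma image_relsS (φ : B →+* B') (θ : Param σ B) :
    MvPolynomial.map φ '' θ.relsS = (θ.map φ).relsS := by
  simp only [relsS, Set.image_union, ← Set.range_comp, ← image_relsR φ θ, Set.image_image,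
    MvPolynomial.map_rename]
  congr 1
  congr 1
  funext p
  simp [map, map_aff, MvPolynomial.map_rename, map_sum]

lemma map_idealS (φ : B →+* B') (θ : Param σ B) :
    θ.idealS.map (MvPolynomial.map φ) = (θ.map φ).idealS := by
  rw [idealS, idealS, Ideal.map_span, image_relsS]

lemma map_gen (φ : B →+* B') (x : Fin σ.d → B) (i : GenIdx σ.d σ.n σ.r) :
    MvPolynomial.map φ (gen σ x i) = gen σ (fun j => φ (x j)) i := by
  rcases i with (i | i) | i <;> simp [gen]

lemma map_genMon (φ : B →+* B') (x : Fin σ.d → B) (E : GenIdx σ.d σ.n σ.r →₀ ℕ) :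
    MvPolynomial.map φ (genMon σ x E) = genMon σ (fun j => φ (x j)) E := by
  simp [genMon, Finsupp.prod, map_gen]

lemma map_maxR (φ : B →+* B') (x : Fin σ.d → B) :
    (maxR σ x).map (MvPolynomial.map φ) = maxR σ (fun j => φ (x j)) := by
  rw [maxR, maxR, Ideal.map_span, Set.image_union, ← Set.range_comp, ← Set.range_comp]
  congr 1
  congr 1 <;> congr 1 <;> funext i <;> simp

lemma map_spanC (φ : B →+* B') {d : ℕ} {ι : Type*} (x : Fin d → B) :
    (Ideal.span (Set.range fun i => (C (x i) : MvPolynomial ι B))).map (MvPolynomial.map φ) =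
      Ideal.span (Set.range fun i => (C (φ (x i)) : MvPolynomial ι B')) := by
  rw [Ideal.map_span, ← Set.range_comp]
  congr 2
  funext i
  simp

lemma map_spanGen (φ : B →+* B') (x : Fin σ.d → B) :
    (Ideal.span (Set.range (gen σ x))).map (MvPolynomial.map φ) =
      Ideal.span (Set.range (gen σ fun j => φ (x j))) := by
  rw [Ideal.map_span, ← Set.range_comp]
  congr 2
  funext i
  simp [map_gen]

lemma image_laterMons (φ : B →+* B') (x : Fin σ.d → B) (E : GenIdx σ.d σ.n σ.r →₀ ℕ) :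
    MvPolynomial.map φ '' laterMons σ x E = laterMons σ (fun j => φ (x j)) E := by
  simp only [laterMons, Set.image_image, map_genMon]

/-- The image of a model is a model. -/
theorem IsModel.map {θ : Param σ B} {x : Fin σ.d → B} (h : θ.IsModel x) (φ : B →+* B') :
    (θ.map φ).IsModel fun i => φ (x i) where
  lam_comm i j := by
    change (θ.lam i).map φ * (θ.lam j).map φ = (θ.lam j).map φ * (θ.lam i).map φ
    rw [← Matrix.map_mul, ← Matrix.map_mul, h.lam_comm]
  lam_mul i j := by
    change (θ.lam i).map φ * (θ.lam j).map φ = φ θ.a • (θ.map φ).affMat (fun k => φ (θ.mu i j k))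
    rw [← Matrix.map_mul, h.lam_mul, ← map_affMat]
    ext a b
    simp
  lam_rel s := by
    change (θ.map φ).affMat (fun k => φ (θ.rel s k)) = 0
    rw [← map_affMat, h.lam_rel]
    simp
  orbit j := by
    change ((θ.map φ).affMat fun k => φ (θ.cc j k)).mulVec (fun i => φ (θ.v i)) = Pi.single j (φ θ.a)
    rw [← map_affMat]
    funext i
    have := congrArg φ (congrFun (h.orbit j) i)
    rw [RingHom.map_mulVec] at this
    simpa [Pi.single_apply, apply_ite φ, Function.comp_def] using this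
  nu_comm i j a b := by
    have := Ideal.mem_map_of_mem (MvPolynomial.map φ) (h.nu_comm i j a b)
    rw [map_idealR] at this
    simpa only [map_mulMat, ← Matrix.map_mul, Matrix.sub_apply, Matrix.map_apply, map_sub] using this
  nu_mul i j a b := by
    have := Ideal.mem_map_of_mem (MvPolynomial.map φ) (h.nu_mul i j a b)
    rw [map_idealR] at this
    simp only [map_mulMat, ← Matrix.map_mul, Matrix.sub_apply, Matrix.map_apply, Matrix.sum_apply,
      Matrix.smul_apply, Matrix.one_apply, smul_eq_mul, map_sub, map_sum, map_mul, map_aff,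
      apply_ite (MvPolynomial.map φ), map_one, map_zero] at this ⊢
    exact this
  reduction := by
    have := Ideal.map_mono (f := MvPolynomial.map φ) h.reduction
    simpa only [Ideal.map_pow, Ideal.map_sup, Ideal.map_mul, map_maxR, map_idealR, map_spanC]
      using this
  nilp := by
    have := Ideal.map_mono (f := MvPolynomial.map φ) h.nilp
    simpa only [Ideal.map_pow, Ideal.map_sup, map_idealS, map_spanC, map_spanGen] using this
  leading E hE := by
    have := Ideal.mem_map_of_mem (MvPolynomial.map φ) (h.leading E hE)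
    rwa [Ideal.map_sup, map_idealS, Ideal.map_span, image_laterMons, map_genMon] at this

omit [CommRing B] [CommRing B'] in
lemma map_map {B'' : Type*} (θ : Param σ B) (f : B → B') (g : B' → B'') :
    (θ.map f).map g = θ.map (g ∘ f) := rfl

end Param

section Descent

variable {A : Type u} [CommRing A]

/-- A property holding for all subalgebras containing `B₀` and some finite set. -/
def Ev (B₀ : Subalgebra ℤ A) (Q : ∀ B : Subalgebra ℤ A, B₀ ≤ B → Prop) : Prop :=
  ∃ t : Finset A, ∀ B (h : B₀ ≤ B), (↑t : Set A) ⊆ ↑B → Q B h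

variable {B₀ : Subalgebra ℤ A}

lemma Ev.and {P Q : ∀ B : Subalgebra ℤ A, B₀ ≤ B → Prop} (hP : Ev B₀ P) (hQ : Ev B₀ Q) :
    Ev B₀ fun B h => P B h ∧ Q B h := by
  classical
  obtain ⟨s, hs⟩ := hP
  obtain ⟨t, ht⟩ := hQ
  refine ⟨s ∪ t, fun B h hst => ?_⟩
  rw [Finset.coe_union, Set.union_subset_iff] at hst
  exact ⟨hs B h hst.1, ht B h hst.2⟩

lemma Ev.mono {P Q : ∀ B : Subalgebra ℤ A, B₀ ≤ B → Prop} (hP : Ev B₀ P)
    (h : ∀ B hB, P B hB → Q B hB) : Ev B₀ Q := by
  obtain ⟨s, hs⟩ := hP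
  exact ⟨s, fun B hB hsB => h B hB (hs B hB hsB)⟩

lemma Ev.forall_finite {κ : Type*} [Finite κ] {P : κ → ∀ B : Subalgebra ℤ A, B₀ ≤ B → Prop}
    (h : ∀ i, Ev B₀ (P i)) : Ev B₀ fun B hB => ∀ i, P i B hB := by
  classical
  have := Fintype.ofFinite κ
  choose t ht using h
  refine ⟨Finset.univ.biUnion t, fun B hB hsB i => ht i B hB fun a ha => hsB ?_⟩
  rw [Finset.coe_biUnion]
  exact Set.mem_biUnion (Finset.mem_univ i) ha

variable {ι : Type*}

/-- Change of coefficients along an inclusion of subalgebras. -/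
noncomputable def inclP {B B' : Subalgebra ℤ A} (h : B ≤ B') :
    MvPolynomial ι B →+* MvPolynomial ι B' :=
  MvPolynomial.map (Subalgebra.inclusion h).toRingHom

/-- Change of coefficients to the ambient ring. -/
noncomputable def valP (B : Subalgebra ℤ A) : MvPolynomial ι B →+* MvPolynomial ι A :=
  MvPolynomial.map B.val.toRingHom

lemma valP_inclP {B B' : Subalgebra ℤ A} (h : B ≤ B') (f : MvPolynomial ι B) :
    valP B' (inclP h f) = valP B f := by
  rw [valP, inclP, valP, MvPolynomial.map_map]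
  rfl

lemma valP_injective (B : Subalgebra ℤ A) : Function.Injective (valP B (ι := ι)) :=
  MvPolynomial.map_injective _ Subtype.val_injective

/-- An ideal membership descends to a finitely generated subalgebra. -/
lemma ev_mem {J : Ideal (MvPolynomial ι B₀)} {f₀ : MvPolynomial ι B₀}
    (h : valP B₀ f₀ ∈ J.map (valP B₀)) :
    Ev B₀ fun _ hB => inclP hB f₀ ∈ J.map (inclP hB) := by
  classical
  suffices key : ∀ g ∈ J.map (valP B₀), Ev B₀ fun B hB =>
      ∃ g' ∈ J.map (inclP hB), valP B g' = g by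
    refine (key _ h).mono fun B hB ⟨g', hg', he⟩ => ?_
    rw [← valP_inclP hB] at he
    rwa [← valP_injective B he]
  intro g hg
  rw [Ideal.map] at hg
  induction hg using Submodule.span_induction with
  | mem g hg =>
    obtain ⟨j, hj, rfl⟩ := hg
    exact ⟨∅, fun B hB _ => ⟨_, Ideal.mem_map_of_mem _ hj, valP_inclP hB j⟩⟩
  | zero => exact ⟨∅, fun B hB _ => ⟨0, zero_mem _, map_zero _⟩⟩
  | add a b _ _ iha ihb =>
    exact (iha.and ihb).mono fun B hB ⟨⟨a', ha, ea⟩, ⟨b', hb, eb⟩⟩ =>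
      ⟨a' + b', add_mem ha hb, by rw [map_add, ea, eb]⟩
  | smul c a _ iha =>
    obtain ⟨t, ht⟩ := iha
    refine ⟨t ∪ c.support.image (fun s => c.coeff s), fun B hB hsB => ?_⟩
    rw [Finset.coe_union, Set.union_subset_iff] at hsB
    obtain ⟨a', ha, ea⟩ := ht B hB hsB.1
    have hc : ∀ s, c.coeff s ∈ B := by
      intro s
      by_cases hs : s ∈ c.support
      · exact hsB.2 (Finset.mem_coe.2 (Finset.mem_image_of_mem _ hs))
      · rw [MvPolynomial.notMem_support_iff.1 hs]
        exact zero_mem B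
    refine ⟨(∑ s ∈ c.support, MvPolynomial.monomial s (⟨c.coeff s, hc s⟩ : B)) * a',
      Ideal.mul_mem_left _ _ ha, ?_⟩
    rw [map_mul, ea, smul_eq_mul]
    congr 1
    conv_rhs => rw [MvPolynomial.as_sum c]
    simp [valP, map_sum]

lemma ev_le {I J : Ideal (MvPolynomial ι B₀)} (hI : I.FG)
    (h : I.map (valP B₀) ≤ J.map (valP B₀)) :
    Ev B₀ fun _ hB => I.map (inclP hB) ≤ J.map (inclP hB) := by
  obtain ⟨s, rfl⟩ := hI
  refine (Ev.forall_finite (fun i : s => ev_mem (f₀ := (i : MvPolynomial ι B₀))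
    (h (Ideal.mem_map_of_mem _ (Ideal.subset_span i.2))))).mono fun B hB hall => ?_
  rw [Ideal.map_span, Ideal.span_le]
  rintro _ ⟨a, ha, rfl⟩
  exact hall ⟨a, ha⟩

end Descent

namespace Param

variable {σ : Shape} {A : Type u} [CommRing A]

/-- All coefficients of a model, with the elements `x`. -/
def coeffs (θ : Param σ A) (x : Fin σ.d → A) : Set A :=
  Set.range x ∪ {θ.a} ∪ Set.range θ.v ∪
    Set.range (fun p : Fin σ.n × Fin σ.n × Option (Fin σ.n) => θ.mu p.1 p.2.1 p.2.2) ∪
    Set.range (fun p : Fin σ.u × Option (Fin σ.n) => θ.rel p.1 p.2) ∪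
    Set.range (fun p : Fin σ.r × Fin σ.r × Option (Fin σ.r) × Option (Fin σ.n) =>
      θ.nu p.1 p.2.1 p.2.2.1 p.2.2.2) ∪
    Set.range (fun p : Fin σ.n × Fin σ.e × Fin σ.e => θ.lam p.1 p.2.1 p.2.2) ∪
    Set.range (fun p : Fin σ.e × Option (Fin σ.n) => θ.cc p.1 p.2)

omit [CommRing A] in
lemma coeffs_finite (θ : Param σ A) (x : Fin σ.d → A) : (θ.coeffs x).Finite := by
  unfold coeffs
  simp [Set.finite_union, Set.finite_range]

variable {B₀ : Subalgebra ℤ A} (θ₀ : Param σ B₀) (x₀ : Fin σ.d → B₀)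

/-- Push the coefficients to a larger subalgebra. -/
noncomputable abbrev incl {B : Subalgebra ℤ A} (h : B₀ ≤ B) : B₀ →+* B :=
  (Subalgebra.inclusion h).toRingHom

lemma ev_nu_comm (h : (θ₀.map B₀.val.toRingHom).IsModel fun i => B₀.val.toRingHom (x₀ i)) :
    Ev B₀ fun _ hB => ∀ p : Fin σ.r × Fin σ.r × Option (Fin σ.r) × Option (Fin σ.r),
      ((θ₀.map (incl hB)).mulMat p.1 * (θ₀.map (incl hB)).mulMat p.2.1 -
        (θ₀.map (incl hB)).mulMat p.2.1 * (θ₀.map (incl hB)).mulMat p.1) p.2.2.1 p.2.2.2 ∈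
        (θ₀.map (incl hB)).idealR := by
  refine Ev.forall_finite fun ⟨i, j, a, b⟩ => ?_
  refine (ev_mem (J := θ₀.idealR) (f₀ := (θ₀.mulMat i * θ₀.mulMat j -
    θ₀.mulMat j * θ₀.mulMat i) a b) ?_).mono fun B hB hm => ?_
  · rw [valP, map_idealR]
    simpa only [map_mulMat, ← Matrix.map_mul, Matrix.sub_apply, Matrix.map_apply, map_sub] using
      h.nu_comm i j a b
  · rw [inclP, map_idealR] at hm
    simpa only [map_mulMat, ← Matrix.map_mul, Matrix.sub_apply, Matrix.map_apply, map_sub] using hm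

lemma ev_nu_mul (h : (θ₀.map B₀.val.toRingHom).IsModel fun i => B₀.val.toRingHom (x₀ i)) :
    Ev B₀ fun _ hB => ∀ p : Fin σ.r × Fin σ.r × Option (Fin σ.r) × Option (Fin σ.r),
      ((θ₀.map (incl hB)).mulMat p.1 * (θ₀.map (incl hB)).mulMat p.2.1 -
        aff ((θ₀.map (incl hB)).nu p.1 p.2.1 none) • 1 -
        ∑ l, aff ((θ₀.map (incl hB)).nu p.1 p.2.1 (some l)) • (θ₀.map (incl hB)).mulMat l)
          p.2.2.1 p.2.2.2 ∈ (θ₀.map (incl hB)).idealR := by
  refine Ev.forall_finite fun ⟨i, j, a, b⟩ => ?_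
  refine (ev_mem (J := θ₀.idealR) (f₀ := (θ₀.mulMat i * θ₀.mulMat j -
      aff (θ₀.nu i j none) • 1 - ∑ l, aff (θ₀.nu i j (some l)) • θ₀.mulMat l) a b) ?_).mono
    fun B hB hm => ?_
  · rw [valP, map_idealR]
    have := h.nu_mul i j a b
    simp only [map_mulMat, ← Matrix.map_mul, Matrix.sub_apply, Matrix.map_apply,
      Matrix.sum_apply, Matrix.smul_apply, Matrix.one_apply, smul_eq_mul, map_sub, map_sum,
      map_mul, map_aff, apply_ite (MvPolynomial.map B₀.val.toRingHom), map_one, map_zero] at this ⊢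
    exact this
  · rw [inclP, map_idealR] at hm
    simp only [map_mulMat, ← Matrix.map_mul, Matrix.sub_apply, Matrix.map_apply,
      Matrix.sum_apply, Matrix.smul_apply, Matrix.one_apply, smul_eq_mul, map_sub, map_sum,
      map_mul, map_aff, apply_ite (MvPolynomial.map (incl hB)), map_one, map_zero] at hm ⊢
    exact hm

lemma ev_reduction (h : (θ₀.map B₀.val.toRingHom).IsModel fun i => B₀.val.toRingHom (x₀ i)) :
    Ev B₀ fun _ hB => maxR σ (fun i => incl hB (x₀ i)) ^ (σ.n₀ + 1) ≤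
      (θ₀.map (incl hB)).idealR ⊔ Ideal.span (Set.range fun i => C (incl hB (x₀ i))) *
        maxR σ (fun i => incl hB (x₀ i)) ^ σ.n₀ := by
  have hfg : (maxR σ x₀).FG :=
    Submodule.fg_span ((Set.finite_range _).union (Set.finite_range _))
  refine (ev_le (I := maxR σ x₀ ^ (σ.n₀ + 1))
    (J := θ₀.idealR ⊔ Ideal.span (Set.range fun i => C (x₀ i)) * maxR σ x₀ ^ σ.n₀) hfg.pow
    ?_).mono fun B hB hm => ?_
  · simpa only [valP, Ideal.map_pow, Ideal.map_sup, Ideal.map_mul, map_maxR, map_idealR,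
      map_spanC] using h.reduction
  · simpa only [inclP, Ideal.map_pow, Ideal.map_sup, Ideal.map_mul, map_maxR, map_idealR,
      map_spanC] using hm

lemma ev_nilp (h : (θ₀.map B₀.val.toRingHom).IsModel fun i => B₀.val.toRingHom (x₀ i)) :
    Ev B₀ fun _ hB => Ideal.span (Set.range (gen σ fun i => incl hB (x₀ i))) ^ σ.n₁ ≤
      (θ₀.map (incl hB)).idealS ⊔ Ideal.span (Set.range fun i => C (incl hB (x₀ i))) := by
  have hfg : (Ideal.span (Set.range (gen σ x₀))).FG := Submodule.fg_span (Set.finite_range _)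
  refine (ev_le (I := Ideal.span (Set.range (gen σ x₀)) ^ σ.n₁)
    (J := θ₀.idealS ⊔ Ideal.span (Set.range fun i => C (x₀ i))) hfg.pow ?_).mono fun B hB hm => ?_
  · simpa only [valP, Ideal.map_pow, Ideal.map_sup, map_idealS, map_spanC, map_spanGen] using
      h.nilp
  · simpa only [inclP, Ideal.map_pow, Ideal.map_sup, map_idealS, map_spanC, map_spanGen] using hm

lemma ev_leading (h : (θ₀.map B₀.val.toRingHom).IsModel fun i => B₀.val.toRingHom (x₀ i)) :
    Ev B₀ fun _ hB => ∀ E : σ.lead, genMon σ (fun i => incl hB (x₀ i)) (E : _ →₀ ℕ) ∈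
      (θ₀.map (incl hB)).idealS ⊔
        Ideal.span (laterMons σ (fun i => incl hB (x₀ i)) (E : _ →₀ ℕ)) := by
  refine Ev.forall_finite fun E => ?_
  refine (ev_mem (J := θ₀.idealS ⊔ Ideal.span (laterMons σ x₀ (E : _ →₀ ℕ)))
    (f₀ := genMon σ x₀ (E : _ →₀ ℕ)) ?_).mono fun B hB hm => ?_
  · rw [valP, Ideal.map_sup, map_idealS, Ideal.map_span, image_laterMons, map_genMon]
    exact h.leading _ E.2
  · rwa [inclP, Ideal.map_sup, map_idealS, Ideal.map_span, image_laterMons, map_genMon] at hm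

variable {θ₀ x₀}

/-- The equations between matrices descend along injective maps. -/
lemma matrix_of_injective {B : Subalgebra ℤ A} {θ' : Param σ B} {x : Fin σ.d → A}
    (h : (θ'.map B.val.toRingHom).IsModel x) :
    (∀ i j, θ'.lam i * θ'.lam j = θ'.lam j * θ'.lam i) ∧
    (∀ i j, θ'.lam i * θ'.lam j = θ'.a • θ'.affMat (θ'.mu i j)) ∧
    (∀ s, θ'.affMat (θ'.rel s) = 0) ∧
    (∀ j, (θ'.affMat (θ'.cc j)).mulVec θ'.v = Pi.single j θ'.a) := by
  have hinj : Function.Injective (B.val.toRingHom : B →+* A) := Subtype.val_injective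
  have hmi : Function.Injective
      fun M : Matrix (Fin σ.e) (Fin σ.e) B => M.map B.val.toRingHom :=
    Matrix.map_injective hinj
  refine ⟨fun i j => hmi ?_, fun i j => hmi ?_, fun s => hmi ?_, fun j => ?_⟩
  · simp only [Matrix.map_mul]
    exact h.lam_comm i j
  · simp only [Matrix.map_mul]
    rw [Matrix.map_smul' _ _ _ (fun a b => map_mul _ a b), map_affMat]
    exact h.lam_mul i j
  · simp only [map_affMat, Matrix.map_zero _ (map_zero _)]
    exact h.lam_rel s
  · funext i
    refine hinj ?_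
    rw [RingHom.map_mulVec, map_affMat]
    refine (congrFun (h.orbit j) i).trans ?_
    simp only [Pi.single_apply, apply_ite B.val.toRingHom, map_zero]
    rfl

/-- A model descends to a finitely generated subring. -/
theorem IsModel.exists_fg {θ : Param σ A} {x : Fin σ.d → A} (h : θ.IsModel x) :
    ∃ (B : Subalgebra ℤ A) (θ' : Param σ B) (x' : Fin σ.d → B), B.FG ∧ θ'.IsModel x' ∧
      (fun i => (x' i : A)) = x ∧ θ'.map ((↑) : B → A) = θ := by
  classical
  set c := (θ.coeffs_finite x).toFinset with hcdef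
  set B₀ := Algebra.adjoin ℤ (↑c : Set A) with hB₀
  have hmem : θ.coeffs x ⊆ ↑B₀ := by
    intro a ha
    refine Algebra.subset_adjoin ?_
    rw [hcdef, Set.Finite.coe_toFinset]
    exact ha
  let θ₀ : Param σ B₀ :=
    { mu := fun i j k => ⟨θ.mu i j k, hmem (by simp [coeffs])⟩
      rel := fun s k => ⟨θ.rel s k, hmem (by simp [coeffs])⟩
      nu := fun i j l k => ⟨θ.nu i j l k, hmem (Or.inl (Or.inl (Or.inr ⟨(i, j, l, k), rfl⟩)))⟩
      a := ⟨θ.a, hmem (by simp [coeffs])⟩
      lam := fun i => Matrix.of fun a b => ⟨θ.lam i a b, hmem (Or.inl (Or.inr ⟨(i, a, b), rfl⟩))⟩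
      v := fun i => ⟨θ.v i, hmem (by simp [coeffs])⟩
      cc := fun j k => ⟨θ.cc j k, hmem (by simp [coeffs])⟩ }
  let x₀ : Fin σ.d → B₀ := fun i => ⟨x i, hmem (by simp [coeffs])⟩
  have h₀ : (θ₀.map B₀.val.toRingHom).IsModel fun i => B₀.val.toRingHom (x₀ i) := h
  obtain ⟨t, ht⟩ := ((((ev_nu_comm θ₀ x₀ h₀).and (ev_nu_mul θ₀ x₀ h₀)).and
    (ev_reduction θ₀ x₀ h₀)).and (ev_nilp θ₀ x₀ h₀)).and (ev_leading θ₀ x₀ h₀)
  set B := Algebra.adjoin ℤ ((↑c : Set A) ∪ ↑t) with hBdef
  have hle : B₀ ≤ B := Algebra.adjoin_mono Set.subset_union_left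
  obtain ⟨⟨⟨⟨f1, f2⟩, f3⟩, f4⟩, f5⟩ :=
    ht B hle fun a ha => Algebra.subset_adjoin (Or.inr ha)
  refine ⟨B, θ₀.map (incl hle), fun i => incl hle (x₀ i), ⟨c ∪ t, by rw [Finset.coe_union]⟩, ?_,
    rfl, rfl⟩
  obtain ⟨m1, m2, m3, m4⟩ := matrix_of_injective (θ' := θ₀.map (incl hle)) (x := x) h
  exact ⟨m1, m2, m3, m4, fun i j a b => f1 (i, j, a, b), fun i j a b => f2 (i, j, a, b), f3, f4,
    fun E hE => f5 ⟨E, hE⟩⟩

end Param

end Vale.Agent.P202
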