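import Vale.Agent.P202.E3Map

/-!
E3: a model in characteristic zero specialises to one over a finite field.
-/

universe u

namespace Vale.Agent.P202

private lemma isJacobsonRing_int : IsJacobsonRing ℤ := by
  rw [isJacobsonRing_iff_prime_eq]
  intro P hP
  rcases eq_or_ne P ⊥ with rfl | hne
  · refine le_antisymm (fun x hx => ?_) Ideal.le_jacobson
    have h := Ideal.mem_jacobson_bot.1 hx x
    rw [Int.isUnit_iff] at h
    rw [Ideal.mem_bot]
    rcases h with h | h <;> nlinarith [mul_self_nonneg x]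
  · have := IsPrime.to_maximal_ideal (S := P) hne
    exact Ideal.jacobson_eq_self_of_isMaximal

private lemma map_aeval_int {R : Type*} {S : Type*} [CommRing R] [CommRing S] [Algebra ℤ R]
    {ι : Type*} (ψ : R →+* S) (v : ι → R) (f : MvPolynomial ι ℤ) :
    ψ (MvPolynomial.aeval v f) =
      MvPolynomial.eval₂Hom (Int.castRingHom S) (fun i => ψ (v i)) f := by
  induction f using MvPolynomial.induction_on with
  | C a => simp
  | add a b iha ihb => simp only [map_add, iha, ihb]
  | mul_X a i iha =>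
    simp only [map_mul, iha, MvPolynomial.aeval_X, MvPolynomial.eval₂Hom_X']

private lemma sysEval_eq {k : Type u} [Field k] {d m : ℕ} (y : Fin m → MvPowerSeries (Fin d) k)
    (f : MvPolynomial (Fin d ⊕ Fin m) ℤ) : sysEval y f = MvPolynomial.eval₂Hom
      (Int.castRingHom _) (Sum.elim (fun i => MvPowerSeries.X i) y) f :=
  map_aeval_int (RingHom.id _) _ f

/-- A finitely generated nonzero ring maps onto a finite field of some prime characteristic. -/
lemma exists_finiteField_hom (C : Type u) [CommRing C] [Nontrivial C] [Algebra.FiniteType ℤ C] :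
    ∃ (p : ℕ) (_ : Fact p.Prime) (F : Type) (_ : Field F) (_ : Finite F) (_ : CharP F p),
      Nonempty (C →+* F) := by
  obtain ⟨M, hM⟩ := Ideal.exists_maximal C
  let : Field (C ⧸ M) := Ideal.Quotient.field M
  have := isJacobsonRing_int
  have : Algebra.FiniteType ℤ (C ⧸ M) :=
    Algebra.FiniteType.of_surjective (Ideal.Quotient.mkₐ ℤ M) (Ideal.Quotient.mkₐ_surjective ℤ M)
  have hfin : Module.Finite ℤ (C ⧸ M) := finite_of_finite_type_of_isJacobsonRing ℤ (C ⧸ M)
  obtain ⟨p, hp⟩ := CharP.exists (C ⧸ M)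
  have hp0 : p ≠ 0 := by
    rintro rfl
    have := CharP.charP_to_charZero (C ⧸ M)
    have : Algebra.IsIntegral ℤ (C ⧸ M) := Algebra.IsIntegral.of_finite ℤ _
    exact Int.not_isField (isField_of_isIntegral_of_isField
      (fun a b hab => by simpa using hab) (Field.toIsField (C ⧸ M)))
  have hpp : p.Prime := (CharP.char_is_prime_or_zero (C ⧸ M) p).resolve_right hp0
  have : Fact p.Prime := ⟨hpp⟩
  have hft : Finite (C ⧸ M) := by
    refine Module.finite_of_fg_torsion _ fun {x} => ?_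
    refine ⟨⟨(p : ℤ), mem_nonZeroDivisors_iff_ne_zero.2 (by exact_mod_cast hp0)⟩, ?_⟩
    change ((p : ℤ)) • x = 0
    rw [zsmul_eq_mul]
    simp
  let e : Shrink.{0} (C ⧸ M) ≃+* (C ⧸ M) := Shrink.ringEquiv _
  have : CharP (Shrink.{0} (C ⧸ M)) p := e.toRingHom.charP e.injective p
  exact ⟨p, inferInstance, Shrink.{0} (C ⧸ M), inferInstance,
    Finite.of_equiv _ e.symm.toEquiv, inferInstance,
    ⟨e.symm.toRingHom.comp (Ideal.Quotient.mk M)⟩⟩

/-- E3. -/
theorem goalSpecialise (hA : GoalApprox.{u}) : GoalSpecialise.{u} := by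
  intro K _ _ σ θ hθ ha
  classical
  let : Algebra ℤ (MvPowerSeries (Fin σ.d) K) := Ring.toIntAlgebra _
  obtain ⟨B, θ', x', ⟨s, hs⟩, hθ', hx', hmap⟩ := hθ.exists_fg
  obtain ⟨e₀, he₀⟩ : ∃ e, MvPowerSeries.coeff e θ.a ≠ 0 := by
    by_contra h
    push Not at h
    exact ha (MvPowerSeries.ext fun e => by simpa using h e)
  set s' := insert θ.a s with hs'
  have haB : θ.a ∈ B := by rw [← hmap]; exact θ'.a.2
  have hs'B : ∀ i : s', (i : MvPowerSeries (Fin σ.d) K) ∈ B := by
    rintro ⟨i, hi⟩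
    rcases Finset.mem_insert.1 hi with rfl | hi
    · exact haB
    · exact hs ▸ Algebra.subset_adjoin hi
  let num := s'.equivFin
  let y₀ : Fin s'.card → MvPowerSeries (Fin σ.d) K := fun i => (num.symm i : _)
  let q : MvPolynomial (Fin σ.d ⊕ Fin s'.card) ℤ →ₐ[ℤ] B :=
    MvPolynomial.aeval (Sum.elim x' fun i => ⟨y₀ i, hs'B _⟩)
  have hq : ∀ f, ((q f : B) : MvPowerSeries (Fin σ.d) K) = sysEval y₀ f := by
    intro f
    change B.val.toRingHom (q f) = _
    rw [map_aeval_int B.val.toRingHom, sysEval_eq, ← hx']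
    congr 2
    funext i
    rcases i with i | i <;> rfl
  have hsurj : Function.Surjective q := by
    have hle : B ≤ (B.val.comp q).range := by
      conv_lhs => rw [← hs]
      refine Algebra.adjoin_le fun z hz => ?_
      refine ⟨MvPolynomial.X (.inr (num ⟨z, Finset.mem_insert_of_mem hz⟩)), ?_⟩
      simp [q, y₀]
    intro b
    obtain ⟨f, hf⟩ := hle b.2
    exact ⟨f, Subtype.ext hf⟩
  obtain ⟨F, hF⟩ : (RingHom.ker q.toRingHom).FG := IsNoetherian.noetherian _
  obtain ⟨C, ⟨g, hg⟩, y, hyC, hyF, hyeq⟩ := hA K σ.d s'.card F y₀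
    (fun f hf => by
      rw [← hq]
      have : f ∈ RingHom.ker q.toRingHom := hF ▸ Ideal.subset_span hf
      rw [RingHom.mem_ker] at this
      exact congrArg Subtype.val this)
    (expDeg e₀ + 1)
  set γ := MvPowerSeries.coeff e₀ θ.a with hγ
  set C' := Algebra.adjoin ℤ ((↑g : Set K) ∪ {γ⁻¹}) with hC'
  have hCC' : C ≤ C' := hg ▸ Algebra.adjoin_mono Set.subset_union_left
  have hγ' : γ⁻¹ ∈ C' := Algebra.subset_adjoin (Or.inr rfl)
  have : Algebra.FiniteType ℤ C' :=
    (Subalgebra.fg_iff_finiteType C').1 ⟨g ∪ {γ⁻¹}, by rw [Finset.coe_union, Finset.coe_singleton]⟩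
  let yC : Fin s'.card → MvPowerSeries (Fin σ.d) C' := fun i e =>
    ⟨MvPowerSeries.coeff e (y i), hCC' (hyC i e)⟩
  let ι := MvPowerSeries.map (σ := Fin σ.d) C'.val.toRingHom
  have hιinj : Function.Injective ι := fun a b hab => MvPowerSeries.ext fun e =>
    Subtype.val_injective (by simpa [ι] using congrArg (MvPowerSeries.coeff e) hab)
  let G : MvPolynomial (Fin σ.d ⊕ Fin s'.card) ℤ →ₐ[ℤ] MvPowerSeries (Fin σ.d) C' :=
    MvPolynomial.aeval (Sum.elim (fun i => MvPowerSeries.X i) yC)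
  have hG : ∀ f, ι (G f) = sysEval y f := by
    intro f
    rw [sysEval_eq, map_aeval_int ι]
    congr 2
    funext i
    rcases i with i | i
    · simp [ι]
    · exact MvPowerSeries.ext fun e => by simp [ι, yC]; rfl
  have hker : RingHom.ker q.toRingHom ≤ RingHom.ker G.toRingHom := by
    rw [← hF, Ideal.span_le]
    intro f hf
    exact hιinj ((hG f).trans ((hyF f hf).trans (map_zero ι).symm))
  let φ₁ : B →+* MvPowerSeries (Fin σ.d) C' :=
    q.toRingHom.liftOfSurjective hsurj ⟨G.toRingHom, hker⟩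
  have hφ₁ : ∀ f, φ₁ (q f) = G f := fun f =>
    RingHom.liftOfRightInverse_comp_apply _ _ _ ⟨G.toRingHom, hker⟩ f
  have hφx : ∀ i, φ₁ (x' i) = MvPowerSeries.X i := by
    intro i
    have := hφ₁ (MvPolynomial.X (.inl i))
    simpa [q, G] using this
  have hφa : φ₁ θ'.a = yC (num ⟨θ.a, Finset.mem_insert_self _ _⟩) := by
    have := hφ₁ (MvPolynomial.X (.inr (num ⟨θ.a, Finset.mem_insert_self _ _⟩)))
    simp only [q, G, MvPolynomial.aeval_X, Sum.elim_inr] at this
    rw [← this]
    congr 1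
    refine Subtype.ext ?_
    simp [y₀, ← hmap, Param.map]
  obtain ⟨p, hp, F', hF', hfin, hchar, ⟨ρ⟩⟩ := exists_finiteField_hom.{u} C'
  let φ : B →+* MvPowerSeries (Fin σ.d) F' := (MvPowerSeries.map ρ).comp φ₁
  refine ⟨p, hp, F', hF', hfin, hchar, θ'.map φ, ?_, ?_⟩
  · have h := hθ'.map φ
    simpa [φ, hφx] using h
  · intro h0
    have hcoef := congrArg (MvPowerSeries.coeff e₀) h0
    simp only [Param.map, φ, RingHom.comp_apply, hφa, MvPowerSeries.coeff_map, map_zero] at hcoef
    have hval : ((MvPowerSeries.coeff e₀ (yC (num ⟨θ.a, Finset.mem_insert_self _ _⟩)) : C') : K) =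
        γ := by
      refine (hyeq _ e₀ (Nat.lt_succ_self _)).trans ?_
      simp [y₀, γ]
    have hunit : MvPowerSeries.coeff e₀ (yC (num ⟨θ.a, Finset.mem_insert_self _ _⟩)) *
        (⟨γ⁻¹, hγ'⟩ : C') = 1 := by
      refine Subtype.ext ?_
      change ((MvPowerSeries.coeff e₀ (yC (num ⟨θ.a, Finset.mem_insert_self _ _⟩)) : C') : K) *
        γ⁻¹ = 1
      rw [hval]
      exact mul_inv_cancel₀ he₀
    have := congrArg ρ hunit
    rw [map_mul, hcoef, zero_mul, map_one] at this
    exact zero_ne_one this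

end Vale.Agent.P202
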