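import Vale.Agent.P202.Transfer
import Vale.Agent.P202.InterfacesC

/-!
Auxiliary facts on lengths and dimensions, and the functional `psi M = kchi y (S ⊗ M)`.
-/

universe u

namespace Vale.Agent.P202

open TensorProduct IsLocalRing Filter

lemma ringKrullDim_eq_coe_ndim (A : Type*) [CommRing A] [IsLocalRing A] [IsNoetherianRing A] :
    ringKrullDim A = (ndim A : WithBot ℕ∞) := by
  have hne : ringKrullDim A ≠ ⊥ := ringKrullDim_ne_bot
  obtain ⟨n, hn⟩ := WithBot.ne_bot_iff_exists.1 hne
  have hfin : ringKrullDim A < ⊤ := ringKrullDim_lt_top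
  have hn' : n ≠ ⊤ := by
    intro h; rw [← hn, h] at hfin; exact lt_irrefl _ hfin
  obtain ⟨m, rfl⟩ := ENat.ne_top_iff_exists.1 hn'
  rw [ndim, ← hn]
  simp

lemma ndim_le_of_ringKrullDim_le {A : Type*} [CommRing A] [IsLocalRing A] [IsNoetherianRing A]
    {n : ℕ} (h : ringKrullDim A ≤ (n : WithBot ℕ∞)) : ndim A ≤ n := by
  rw [ringKrullDim_eq_coe_ndim A] at h
  exact_mod_cast h

lemma ndim_congr {A A' : Type*} [CommRing A] [CommRing A'] (e : A ≃+* A') : ndim A = ndim A' := by
  rw [ndim, ndim, ringKrullDim_eq_of_ringEquiv e]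

/-- Killing a nonzero element of the maximal ideal of a local domain drops the dimension. -/
lemma ndim_quotient_lt {R : Type*} [CommRing R] [IsLocalRing R] [IsNoetherianRing R]
    (P : Ideal R) [P.IsPrime] {z : R} (hz : z ∉ P) (hzm : z ∈ maximalIdeal R) :
    ndim (R ⧸ (P ⊔ Ideal.span {z})) < ndim (R ⧸ P) := by
  have hPm : P ≤ maximalIdeal R := le_maximalIdeal (Ideal.IsPrime.ne_top ‹_›)
  haveI : Nontrivial (R ⧸ P) := Ideal.Quotient.nontrivial_iff.2 (Ideal.IsPrime.ne_top ‹_›)
  haveI : IsLocalRing (R ⧸ P) := .of_surjective' _ Ideal.Quotient.mk_surjective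
  have hJ : P ⊔ Ideal.span {z} ≠ ⊤ := fun h => (maximalIdeal.isMaximal R).ne_top (eq_top_iff.2
    (h ▸ sup_le hPm ((Ideal.span_singleton_le_iff_mem _).2 hzm)))
  haveI : Nontrivial (R ⧸ (P ⊔ Ideal.span {z})) := Ideal.Quotient.nontrivial_iff.2 hJ
  haveI : IsLocalRing (R ⧸ (P ⊔ Ideal.span {z})) :=
    .of_surjective' _ Ideal.Quotient.mk_surjective
  have hz0 : Ideal.Quotient.mk P z ∈ nonZeroDivisors (R ⧸ P) :=
    mem_nonZeroDivisors_of_ne_zero (fun h => hz (Ideal.Quotient.eq_zero_iff_mem.1 h))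
  have h := ringKrullDim_quotient_succ_le_of_nonZeroDivisor hz0
  have e : ((R ⧸ P) ⧸ Ideal.span {Ideal.Quotient.mk P z}) ≃+* (R ⧸ (P ⊔ Ideal.span {z})) :=
    (Ideal.quotEquivOfEq (by rw [Ideal.map_span, Set.image_singleton])).trans
      (DoubleQuot.quotQuotEquivQuotSup P (Ideal.span {z}))
  rw [ringKrullDim_eq_of_ringEquiv e, ringKrullDim_eq_coe_ndim, ringKrullDim_eq_coe_ndim] at h
  have : ndim (R ⧸ (P ⊔ Ideal.span {z})) + 1 ≤ ndim (R ⧸ P) := by exact_mod_cast h
  omega

lemma ndim_quotient_le {R : Type*} [CommRing R] [IsLocalRing R] [IsNoetherianRing R]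
    (J : Ideal R) (hJ : J ≠ ⊤) : ndim (R ⧸ J) ≤ ndim R := by
  haveI : Nontrivial (R ⧸ J) := Ideal.Quotient.nontrivial_iff.2 hJ
  haveI : IsLocalRing (R ⧸ J) := .of_surjective' _ Ideal.Quotient.mk_surjective
  have h := ringKrullDim_quotient_le J
  rw [ringKrullDim_eq_coe_ndim, ringKrullDim_eq_coe_ndim] at h
  exact_mod_cast h

/-- If a power of the maximal ideal lies in `J` plus an ideal generated by `k` elements, then
`dim R/J ≤ k`. -/
lemma ndim_quotient_le_card {R : Type*} [CommRing R] [IsLocalRing R] [IsNoetherianRing R]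
    (J : Ideal R) (hJ : J ≠ ⊤) (s : Finset R) (hs : ∀ a ∈ s, a ∈ maximalIdeal R) (c : ℕ)
    (hc : maximalIdeal R ^ c ≤ J ⊔ Ideal.span (s : Set R)) : ndim (R ⧸ J) ≤ s.card := by
  classical
  haveI : Nontrivial (R ⧸ J) := Ideal.Quotient.nontrivial_iff.2 hJ
  haveI : IsLocalRing (R ⧸ J) := .of_surjective' _ Ideal.Quotient.mk_surjective
  haveI : IsLocalHom (Ideal.Quotient.mk J) :=
    IsLocalHom.of_surjective _ Ideal.Quotient.mk_surjective
  let t := s.image (Ideal.Quotient.mk J)
  have ht : (t : Set (R ⧸ J)) ⊆ Ring.jacobson (R ⧸ J) := by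
    intro a ha
    simp only [t, Finset.coe_image, Set.mem_image] at ha
    obtain ⟨b, hb, rfl⟩ := ha
    rw [Ring.jacobson_eq_sInf_isMaximal]
    simp only [SetLike.mem_coe, Submodule.mem_sInf]
    intro M hM
    rw [IsLocalRing.eq_maximalIdeal hM]
    exact map_nonunit (Ideal.Quotient.mk J) b (hs b hb)
  have h := ringKrullDim_le_ringKrullDim_quotient_add_card t ht
  have h0 : ringKrullDim ((R ⧸ J) ⧸ Ideal.span (t : Set (R ⧸ J))) ≤ 0 := by
    by_cases htop : Ideal.span (t : Set (R ⧸ J)) = ⊤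
    · haveI : Subsingleton ((R ⧸ J) ⧸ Ideal.span (t : Set (R ⧸ J))) :=
        Ideal.Quotient.subsingleton_iff.2 htop
      rw [ringKrullDim_eq_bot_of_subsingleton]; exact bot_le
    haveI : Nontrivial ((R ⧸ J) ⧸ Ideal.span (t : Set (R ⧸ J))) :=
      Ideal.Quotient.nontrivial_iff.2 htop
    suffices Ring.KrullDimLE 0 ((R ⧸ J) ⧸ Ideal.span (t : Set (R ⧸ J))) from
      Ring.krullDimLE_iff.1 this
    rw [Ring.krullDimLE_zero_iff]
    intro P hP
    let π : R →+* (R ⧸ J) ⧸ Ideal.span (t : Set (R ⧸ J)) :=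
      (Ideal.Quotient.mk _).comp (Ideal.Quotient.mk J)
    have hπ : Function.Surjective π :=
      Ideal.Quotient.mk_surjective.comp Ideal.Quotient.mk_surjective
    haveI : (P.comap π).IsPrime := Ideal.comap_isPrime π P
    have hJs : J ⊔ Ideal.span (s : Set R) ≤ P.comap π := by
      refine sup_le (fun a ha => ?_) (Ideal.span_le.2 fun a ha => ?_)
      · rw [Ideal.mem_comap, RingHom.comp_apply, Ideal.Quotient.eq_zero_iff_mem.2 ha, map_zero]
        exact P.zero_mem
      · rw [SetLike.mem_coe, Ideal.mem_comap, RingHom.comp_apply,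
          Ideal.Quotient.eq_zero_iff_mem.2 (Ideal.subset_span (Finset.mem_image_of_mem _ ha))]
        exact P.zero_mem
    have hm : maximalIdeal R ≤ P.comap π :=
      Ideal.IsPrime.le_of_pow_le (hc.trans hJs)
    refine ⟨⟨hP.ne_top, fun M hM => ?_⟩⟩
    by_contra hne
    have h1 : M.comap π = P.comap π :=
      le_antisymm ((le_maximalIdeal (Ideal.comap_ne_top π hne)).trans hm)
        (Ideal.comap_mono hM.le)
    exact hM.ne (Ideal.comap_injective_of_surjective π hπ h1).symm
  rw [ringKrullDim_eq_coe_ndim] at h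
  have h2 : ringKrullDim ((R ⧸ J) ⧸ Ideal.span (t : Set (R ⧸ J))) + (t.card : WithBot ℕ∞) ≤
      ((t.card : ℕ) : WithBot ℕ∞) := by
    calc _ ≤ (0 : WithBot ℕ∞) + (t.card : WithBot ℕ∞) := add_le_add_left h0 _
      _ = _ := zero_add _
  have h3 : ndim (R ⧸ J) ≤ t.card := by exact_mod_cast h.trans h2
  exact h3.trans Finset.card_image_le

section Length

variable {A : Type*} [CommRing A]

lemma length_quot_smul_le {M : Type*} [AddCommGroup M] [Module A M] {n : ℕ}
    {f : (Fin n → A) →ₗ[A] M} (hf : Function.Surjective f) (J : Ideal A) :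
    Module.length A (M ⧸ J • (⊤ : Submodule A M)) ≤ n * Module.length A (A ⧸ J) := by
  classical
  let N : Submodule A M := J • ⊤
  let g : Fin n → (A ⧸ J) →ₗ[A] M ⧸ N := fun i =>
    Submodule.liftQ J (LinearMap.toSpanSingleton A _ (N.mkQ (f (Pi.single i 1)))) fun a ha => by
      rw [LinearMap.mem_ker, LinearMap.toSpanSingleton_apply, ← map_smul, Submodule.mkQ_apply,
        Submodule.Quotient.mk_eq_zero]
      exact Submodule.smul_mem_smul ha trivial
  let G : (Fin n → A ⧸ J) →ₗ[A] M ⧸ N := ∑ i, g i ∘ₗ LinearMap.proj i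
  have hG : Function.Surjective G := by
    intro v
    obtain ⟨v, rfl⟩ := Submodule.mkQ_surjective _ v
    obtain ⟨a, rfl⟩ := hf v
    refine ⟨fun i => Ideal.Quotient.mk J (a i), ?_⟩
    simp only [G, LinearMap.sum_apply, LinearMap.comp_apply, LinearMap.proj_apply, g]
    conv_rhs => rw [pi_eq_sum_univ' a, map_sum, map_sum]
    refine Finset.sum_congr rfl fun i _ => ?_
    rw [map_smul, map_smul]
    rfl
  refine (Module.length_le_of_surjective G hG).trans (le_of_eq ?_)
  rw [Module.length_pi_of_fintype]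
  simp

end Length

section Tensor

variable (R S : Type u) [CommRing R] [IsLocalRing R] [CommRing S] [Algebra R S] [Module.Flat R S]

lemma length_tensor (W : Type u) [AddCommGroup W] [Module R W] (hW : Module.length R W ≠ ⊤) :
    Module.length S (S ⊗[R] W) =
      Module.length R W * Module.length S (S ⊗[R] ResidueField R) := by
  rw [Module.length_ne_top_iff] at hW
  induction hW with
  | of_subsingleton => rw [Module.length_eq_zero, Module.length_eq_zero, zero_mul]
  | of_simple_quotient hN ih =>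
    rename_i V _ _ N _
    have hs : IsSimpleModule R (V ⧸ N) := inferInstance
    obtain ⟨m, hm, ⟨e⟩⟩ := isSimpleModule_iff_quot_maximal.1 hs
    obtain rfl := eq_maximalIdeal hm
    have e' : (S ⊗[R] (V ⧸ N)) ≃ₗ[S] S ⊗[R] ResidueField R :=
      AlgebraTensorModule.congr (LinearEquiv.refl S S) e
    rw [Module.length_eq_add_of_exact (R := R) N.subtype N.mkQ N.injective_subtype N.mkQ_surjective
        (LinearMap.exact_subtype_mkQ N),
      Module.length_eq_add_of_exact (R := S) (lT S S N.subtype) (lT S S N.mkQ)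
        (lT_injective N.injective_subtype) (lT_surjective N.mkQ_surjective)
        (lT_exact (LinearMap.exact_subtype_mkQ N)),
      ih, e'.length_eq, Module.length_eq_one (R := R) (M := V ⧸ N), add_mul, one_mul]

lemma length_quot_map (I : Ideal R) (hI : Module.length R (R ⧸ I) ≠ ⊤) :
    Module.length S (S ⧸ I.map (algebraMap R S)) =
      Module.length R (R ⧸ I) * Module.length S (S ⊗[R] ResidueField R) := by
  rw [← length_tensor R S (R ⧸ I) hI]
  exact (Algebra.TensorProduct.quotIdealMapEquivTensorQuot S I).toLinearEquiv.length_eq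

end Tensor

/-- `(x)^(q (n + d)) ≤ (x^q)^n`. -/
lemma span_range_pow_le {R : Type*} [CommRing R] {d q : ℕ} (hq : 0 < q) (x : Fin d → R) (n : ℕ) :
    Ideal.span (Set.range x) ^ (q * (n + d)) ≤ Ideal.span (Set.range fun i => x i ^ q) ^ n := by
  classical
  rw [Ideal.span, Submodule.span_pow, Submodule.span_le]
  intro z hz
  rw [Set.mem_pow] at hz
  obtain ⟨f, rfl⟩ := hz
  rw [List.prod_ofFn]
  choose g hg using fun i => (f i).2
  simp only [← hg]
  suffices ∀ (m : ℕ) (T : Finset (Fin (q * (n + d)))), q * (m + d) ≤ T.card →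
      ∏ i ∈ T, x (g i) ∈ Ideal.span (Set.range fun i => x i ^ q) ^ m from
    this n Finset.univ (by simp)
  intro m
  induction m with
  | zero => intro T _; simp
  | succ m ih =>
    intro T hT
    obtain ⟨i, -, hi⟩ : ∃ i ∈ (Finset.univ : Finset (Fin d)),
        q - 1 < {j ∈ T | g j = i}.card := by
      refine Finset.exists_lt_card_fiber_of_mul_lt_card_of_maps_to (fun _ _ => Finset.mem_univ _) ?_
      rw [Finset.card_univ, Fintype.card_fin]
      rcases q with - | q
      · omega
      · simp only [Nat.add_sub_cancel] at *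
        nlinarith
    obtain ⟨U, hU, hUc⟩ := Finset.exists_subset_card_eq (show q ≤ {j ∈ T | g j = i}.card by omega)
    have hUT : U ⊆ T := fun j hj => (Finset.mem_filter.1 (hU hj)).1
    rw [← Finset.prod_sdiff hUT, pow_succ]
    refine Ideal.mul_mem_mul (ih _ ?_) ?_
    · rw [Finset.card_sdiff_of_subset hUT, hUc]
      have : q * (m + 1 + d) = q * (m + d) + q := by ring
      omega
    · rw [Finset.prod_congr rfl (fun j hj => by rw [(Finset.mem_filter.1 (hU hj)).2] :
        ∀ j ∈ U, x (g j) = x i), Finset.prod_const, hUc]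
      exact Ideal.subset_span ⟨i, rfl⟩

end Vale.Agent.P202
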