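import Vale.Agent.P202.EPowerSeries
import Vale.Agent.P202.PsiBasic

/-!
P202, E4: finite algebras over `F[[x]]` with residue field `F`: locality, the comparison of lengths,
a lower bound for the growth from a pair of maps to and from a free module, and dimension.
-/

noncomputable section

namespace Vale.Agent.P202.Realise

open IsLocalRing MvPowerSeries Filter

section lengths

variable {F B : Type} [Field F] [CommRing B] [IsLocalRing B] [Algebra F B]

lemma length_eq_of_residue_surjective
    (hsurj : Function.Surjective (algebraMap F (ResidueField B)))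
    (M : Type) [AddCommGroup M] [Module B M] [Module F M] [IsScalarTower F B M] :
    Module.length F M = Module.length B M := by
  have : IsLocalHom (algebraMap F B) :=
    ⟨fun a ha => isUnit_iff_ne_zero.2 fun h => by simp [h] at ha⟩
  have hres : Module.length (ResidueField F) (ResidueField B) = 1 := by
    rw [← (LinearEquiv.ofBijective (Algebra.linearMap (ResidueField F) (ResidueField B))
      ⟨RingHom.injective _, fun r => ?_⟩).length_eq, Module.length_eq_finrank,
      Module.finrank_self, Nat.cast_one]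
    obtain ⟨a, ha⟩ := hsurj r
    exact ⟨residue F a, ha⟩
  rw [IsLocalRing.length_restrictScalars F B M, hres, mul_one]

end lengths

variable {F : Type} [Field F] {d : ℕ}
  {B : Type} [CommRing B] [Algebra (MvPowerSeries (Fin d) F) B]

/-- The ideal of `x` upstairs. -/
abbrev xIdeal (F : Type) [Field F] (d : ℕ) (B : Type) [CommRing B]
    [Algebra (MvPowerSeries (Fin d) F) B] : Ideal B :=
  (maximalIdeal (MvPowerSeries (Fin d) F)).map (algebraMap (MvPowerSeries (Fin d) F) B)

/-- The ideal generated by `x` and the given generators. -/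
abbrev genIdeal (F : Type) [Field F] (d : ℕ) {B : Type} [CommRing B]
    [Algebra (MvPowerSeries (Fin d) F) B] {ι : Type} (g : ι → B) : Ideal B :=
  xIdeal F d B ⊔ Ideal.span (Set.range g)

lemma exists_const {ι : Type} (g : ι → B)
    (hadj : Algebra.adjoin (MvPowerSeries (Fin d) F) (Set.range g) = ⊤) (b : B) :
    ∃ c : F, b - algebraMap (MvPowerSeries (Fin d) F) B (C c) ∈ genIdeal F d g := by
  have hb : b ∈ Algebra.adjoin (MvPowerSeries (Fin d) F) (Set.range g) := hadj ▸ Algebra.mem_top
  induction hb using Algebra.adjoin_induction with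
  | mem x hx =>
    exact ⟨0, by simpa using Submodule.mem_sup_right (Ideal.subset_span hx)⟩
  | algebraMap r =>
    refine ⟨constantCoeff r, Submodule.mem_sup_left ?_⟩
    rw [← map_sub]
    refine Ideal.mem_map_of_mem _ ?_
    rw [mem_maximalIdeal, mem_nonunits_iff, MvPowerSeries.isUnit_iff_constantCoeff]
    simp
  | add x y _ _ hx hy =>
    obtain ⟨c, hc⟩ := hx
    obtain ⟨c', hc'⟩ := hy
    refine ⟨c + c', ?_⟩
    rw [map_add, map_add, add_sub_add_comm]
    exact add_mem hc hc'
  | mul x y _ _ hx hy =>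
    obtain ⟨c, hc⟩ := hx
    obtain ⟨c', hc'⟩ := hy
    refine ⟨c * c', ?_⟩
    rw [map_mul, map_mul, mul_sub_mul]
    exact add_mem (Ideal.mul_mem_left _ _ hc') (Ideal.mul_mem_right _ _ hc)
where
  mul_sub_mul {x y u v : B} : x * y - u * v = x * (y - v) + (x - u) * v := by ring

lemma xIdeal_le_maximal [Module.Finite (MvPowerSeries (Fin d) F) B] (M : Ideal B) [M.IsMaximal] :
    xIdeal F d B ≤ M := by
  rw [Ideal.map_le_iff_le_comap]
  exact (eq_maximalIdeal (Ideal.isMaximal_comap_of_isIntegral_of_isMaximal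
    (R := MvPowerSeries (Fin d) F) M)).ge

/-- A finite algebra whose generators are nilpotent modulo `x` is local. -/
theorem local_of_nilpotent [Module.Finite (MvPowerSeries (Fin d) F) B] [Nontrivial B] {ι : Type}
    (g : ι → B) (hadj : Algebra.adjoin (MvPowerSeries (Fin d) F) (Set.range g) = ⊤) {k : ℕ}
    (hk : genIdeal F d g ^ k ≤ xIdeal F d B) :
    ∃ _ : IsLocalRing B, maximalIdeal B = genIdeal F d g ∧
      ∀ r : ResidueField B, ∃ c : F,
        residue B (algebraMap (MvPowerSeries (Fin d) F) B (C c)) = r := by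
  have hle : ∀ M : Ideal B, M.IsMaximal → genIdeal F d g ≤ M := fun M hM =>
    hM.isPrime.le_of_pow_le (hk.trans (xIdeal_le_maximal M))
  obtain ⟨M₀, hM₀⟩ := Ideal.exists_maximal B
  have huniq : ∀ M : Ideal B, M.IsMaximal → M = genIdeal F d g := by
    intro M hM
    refine le_antisymm (fun b hb => ?_) (hle M hM)
    obtain ⟨c, hc⟩ := exists_const g hadj b
    by_cases h0 : c = 0
    · simpa [h0] using hc
    · refine absurd ((Ideal.eq_top_of_isUnit_mem M ?_ ((isUnit_iff_ne_zero.2 h0).map
        ((algebraMap (MvPowerSeries (Fin d) F) B).comp C)))) hM.ne_top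
      simpa using sub_mem hb (hle M hM hc)
  have : IsLocalRing B := IsLocalRing.of_unique_max_ideal
    ⟨genIdeal F d g, huniq M₀ hM₀ ▸ hM₀, huniq⟩
  refine ⟨inferInstance, huniq _ (maximalIdeal.isMaximal B), fun r => ?_⟩
  obtain ⟨b, rfl⟩ := residue_surjective r
  obtain ⟨c, hc⟩ := exists_const g hadj b
  refine ⟨c, ?_⟩
  rw [eq_comm, ← sub_eq_zero, ← map_sub, residue_eq_zero_iff, huniq _ (maximalIdeal.isMaximal B)]
  exact hc

variable [Algebra F B] [IsScalarTower F (MvPowerSeries (Fin d) F) B]

/-- Maps to and from a free module with composite `a` bound the growth from below. -/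
theorem exists_lower {e : ℕ} {a : MvPowerSeries (Fin d) F} (ha : a ≠ 0)
    (s : (Fin e → MvPowerSeries (Fin d) F) →ₗ[MvPowerSeries (Fin d) F] B)
    (π : B →ₗ[MvPowerSeries (Fin d) F] (Fin e → MvPowerSeries (Fin d) F))
    (hπs : ∀ u, π (s u) = a • u) :
    ∃ o : ℕ, ∀ N : ℕ, ((e * {E : Fin d →₀ ℕ | E.degree < N - o}.ncard : ℕ) : ℕ∞) ≤
      Module.length F (B ⧸ (xIdeal F d B ^ N).restrictScalars F) := by
  classical
  have hord : a.order ≠ ⊤ := fun h => ha (MvPowerSeries.order_eq_top_iff.mp h)
  refine ⟨a.order.toNat, fun N => ?_⟩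
  set o := a.order.toNat
  set T := {E : Fin d →₀ ℕ | E.degree < N - o}
  have : Fintype T := (Finsupp.finite_of_degree_lt (N - o)).fintype
  obtain ⟨σ, hσ⟩ := ((lowCoeff (Fin d) F (N - o)).exists_rightInverse_of_surjective
    (LinearMap.range_eq_top.2 (lowCoeff_surjective (σ := Fin d) (R := F) (N - o))))
  set φ : (Fin e → T → F) →ₗ[F] B ⧸ (xIdeal F d B ^ N).restrictScalars F :=
    (Submodule.mkQ _).comp ((s.restrictScalars F).comp (LinearMap.pi fun j =>
      σ.comp (LinearMap.proj j)))
  have hφ : Function.Injective φ := by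
    rw [injective_iff_map_eq_zero]
    intro v hv
    set u : Fin e → MvPowerSeries (Fin d) F := fun j => σ (v j)
    have hu : s u ∈ xIdeal F d B ^ N := by
      rw [← Submodule.restrictScalars_mem (S := F)]
      exact (Submodule.Quotient.mk_eq_zero _).1 hv
    have hN : ∀ b ∈ xIdeal F d B ^ N, ∀ j, π b j ∈ maximalIdeal (MvPowerSeries (Fin d) F) ^ N := by
      intro b hb j
      have hb' : b ∈ (maximalIdeal (MvPowerSeries (Fin d) F) ^ N) • (⊤ : Submodule (MvPowerSeries (Fin d) F) B) := by
        rw [Ideal.smul_top_eq_map, Ideal.map_pow, Submodule.restrictScalars_mem]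
        exact hb
      refine Submodule.smul_induction_on hb' (fun r hr x _ => ?_) (fun x y hx hy => ?_)
      · rw [map_smul, Pi.smul_apply, smul_eq_mul]
        exact Ideal.mul_mem_right _ _ hr
      · rw [map_add, Pi.add_apply]
        exact add_mem hx hy
    funext j E
    have h1 := hN _ hu j
    rw [hπs, Pi.smul_apply, smul_eq_mul, maximalIdeal_powerSeries, mem_span_X_pow_iff] at h1
    have h2 : (N : ℕ∞) ≤ (a * u j).order := MvPowerSeries.le_order fun e' he' =>
      h1 e' (by exact_mod_cast he')
    rw [MvPowerSeries.order_mul, ← ENat.natCast_toNat hord] at h2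
    have h3 : ((N - o : ℕ) : ℕ∞) ≤ (u j).order := by
      generalize (u j).order = z at h2
      cases z with
      | top => exact le_top
      | coe z => norm_cast at h2 ⊢; omega
    have h4 : coeff (E : Fin d →₀ ℕ) (u j) = 0 := MvPowerSeries.coeff_of_lt_order
      (lt_of_lt_of_le (by exact_mod_cast E.2) h3)
    have h5 : lowCoeff (Fin d) F (N - o) (σ (v j)) E = v j E := by
      rw [← LinearMap.comp_apply, hσ, LinearMap.id_apply]
    rw [← h5]
    exact h4
  refine le_trans (le_of_eq ?_) (Module.length_le_of_injective φ hφ)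
  rw [Module.length_eq_finrank, Module.finrank_pi_fintype]
  simp only [Module.finrank_pi, Finset.sum_const, Finset.card_univ, Fintype.card_fin, smul_eq_mul]
  rw [← Nat.card_eq_fintype_card, Nat.card_coe_set_eq]

end Vale.Agent.P202.Realise

namespace Vale.Agent.P202.Realise

open IsLocalRing Filter

variable {B : Type} [CommRing B] [IsLocalRing B] [IsNoetherianRing B] {d : ℕ}

lemma tendsto_ncard_shift (d c : ℕ) :
    Tendsto (fun n : ℕ => (d.factorial : ℝ) *
      ({E : Fin d →₀ ℕ | E.degree < n - c}.ncard : ℝ) / (n : ℝ) ^ d) atTop (nhds 1) := by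
  rw [← tendsto_add_atTop_iff_nat c]
  simp only [Nat.add_sub_cancel]
  have h := (tendsto_ncard_degree_lt d).mul
    ((tendsto_natCast_div_add_atTop (c : ℝ)).pow d)
  rw [one_pow, one_mul] at h
  refine h.congr' ?_
  filter_upwards [eventually_gt_atTop 0] with n hn
  have hn' : (n : ℝ) ≠ 0 := by exact_mod_cast hn.ne'
  push_cast
  rw [div_pow]
  field_simp

/-- Growth like `n ^ d` forces the dimension to be at least `d`. -/
theorem le_ndim_of_growth {k c : ℕ}
    (h : ∀ N : ℕ, ({E : Fin d →₀ ℕ | E.degree < N - c}.ncard : ℕ∞) ≤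
      Module.length B (B ⧸ maximalIdeal B ^ (k * N))) : d ≤ ndim B := by
  obtain ⟨C, hC⟩ := exists_length_quot_pow_le (A := B)
  by_contra! hlt
  have hbound : ∀ N : ℕ, 1 ≤ N → (d.factorial : ℝ) *
      ({E : Fin d →₀ ℕ | E.degree < N - c}.ncard : ℝ) / (N : ℝ) ^ d ≤
      (d.factorial * C * (k + 1) ^ ndim B : ℕ) / (N : ℝ) := by
    intro N hN
    have h1 : {E : Fin d →₀ ℕ | E.degree < N - c}.ncard ≤ C * ((k + 1) * N) ^ ndim B := by
      have h2 := Nat.cast_le.1 ((h N).trans (hC (k * N)))
      refine h2.trans (Nat.mul_le_mul_left C (Nat.pow_le_pow_left ?_ _))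
      rw [add_mul, one_mul]; omega
    have hN' : (1 : ℝ) ≤ N := by exact_mod_cast hN
    rw [div_le_div_iff₀ (by positivity) (by positivity)]
    calc (d.factorial : ℝ) * ({E : Fin d →₀ ℕ | E.degree < N - c}.ncard : ℝ) * N
        ≤ (d.factorial : ℝ) * ((C * ((k + 1) * N) ^ ndim B : ℕ) : ℝ) * N := by gcongr
      _ = (d.factorial * C * (k + 1) ^ ndim B : ℕ) * (N : ℝ) ^ (ndim B + 1) := by
          push_cast; rw [mul_pow]; ring
      _ ≤ (d.factorial * C * (k + 1) ^ ndim B : ℕ) * (N : ℝ) ^ d :=
          mul_le_mul_of_nonneg_left (pow_le_pow_right₀ hN' (by omega)) (Nat.cast_nonneg _)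
  have h0 := le_of_tendsto_of_tendsto (tendsto_ncard_shift d c)
    (tendsto_const_div_atTop_nhds_zero_nat _) (eventually_atTop.2 ⟨1, hbound⟩)
  norm_num at h0

/-- A ring whose maximal ideal is nilpotent modulo `d` elements has dimension at most `d`. -/
theorem ndim_le_of_pow_le (y : Fin d → B) (hy : ∀ i, y i ∈ maximalIdeal B) {k : ℕ}
    (hk : maximalIdeal B ^ k ≤ Ideal.span (Set.range y)) : ndim B ≤ d := by
  classical
  have h := ndim_quotient_le_card (⊥ : Ideal B) bot_ne_top (Finset.univ.image y)
    (by simpa using hy) k (by simpa [Set.image_univ] using hk)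
  rw [ndim_congr (RingEquiv.quotientBot B)] at h
  exact h.trans (Finset.card_image_le.trans_eq (by simp))

end Vale.Agent.P202.Realise
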