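import Vale.Agent.P202.Model
import Vale.Agent.P202.E4Local

/-!
P202, E4: the standard monomials span a local ring modulo a power of the maximal ideal.
-/

noncomputable section

namespace Vale.Agent.P202.Realise

open IsLocalRing

variable {d n r : ℕ}

lemma expDeg_eq (E : GenIdx d n r →₀ ℕ) : expDeg E = E.degree := by
  rw [expDeg, Finsupp.degree_apply]
  rfl

lemma finite_expDeg_lt (N : ℕ) : {E : GenIdx d n r →₀ ℕ | expDeg E < N}.Finite := by
  simp only [expDeg_eq]
  exact Finsupp.finite_of_degree_lt N

lemma expDeg_add (E E' : GenIdx d n r →₀ ℕ) : expDeg (E + E') = expDeg E + expDeg E' := by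
  simp [expDeg_eq]

lemma expLT_add_right {E E' : GenIdx d n r →₀ ℕ} (h : expLT E E') (D : GenIdx d n r →₀ ℕ) :
    expLT (E + D) (E' + D) := by
  unfold expLT at h ⊢
  simp only [Finsupp.equivMapDomain_eq_mapDomain, Finsupp.mapDomain_add, toLex_add] at h ⊢
  exact add_lt_add_left h _

/-- A monomial in the given elements. -/
def gmon {B : Type} [CommRing B] (g : GenIdx d n r → B) (E : GenIdx d n r →₀ ℕ) : B :=
  E.prod fun i m => g i ^ m

lemma gmon_add {B : Type} [CommRing B] (g : GenIdx d n r → B) (E E' : GenIdx d n r →₀ ℕ) :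
    gmon g (E + E') = gmon g E * gmon g E' :=
  Finsupp.prod_add_index' (fun _ => pow_zero _) fun _ _ _ => pow_add _ _ _

lemma gmon_single {B : Type} [CommRing B] (g : GenIdx d n r → B) (i : GenIdx d n r) :
    gmon g (Finsupp.single i 1) = g i := by
  classical
  rw [gmon, Finsupp.prod_single_index (h := fun i m => g i ^ m) (pow_zero _)]
  exact pow_one _

lemma gmon_mem_pow {B : Type} [CommRing B] {g : GenIdx d n r → B} {J : Ideal B}
    (hg : ∀ i, g i ∈ J) (E : GenIdx d n r →₀ ℕ) : gmon g E ∈ J ^ expDeg E := by
  induction E using Finsupp.induction with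
  | zero => simp [expDeg]
  | single_add i m E _ _ ih =>
    rw [gmon_add, expDeg_add, pow_add]
    refine Ideal.mul_mem_mul ?_ ih
    simp only [gmon, expDeg, pow_zero, Finsupp.prod_single_index, Finsupp.sum_single_index]
    exact Ideal.pow_mem_pow (hg i) m

/-- The standard monomials span modulo the power of the maximal ideal. -/
theorem length_quot_le_stdSum {F B : Type} [Field F] [CommRing B] [IsLocalRing B] [Algebra F B]
    (σ : Shape) (hsurj : Function.Surjective (algebraMap F (ResidueField B)))
    (g : GenIdx σ.d σ.n σ.r → B) (hg : maximalIdeal B = Ideal.span (Set.range g))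
    (hlead : ∀ L ∈ σ.lead, gmon g L ∈ Ideal.span (gmon g ''
      {E | (expDeg E = expDeg L ∧ expLT L E) ∨ expDeg E = expDeg L + 1})) (N : ℕ) :
    Module.length B (B ⧸ maximalIdeal B ^ N) ≤ (σ.stdSum N : ℕ∞) := by
  classical
  set T : Set (GenIdx σ.d σ.n σ.r →₀ ℕ) := {E | expDeg E < N ∧ σ.IsStd E}
  have hTfin : T.Finite := (finite_expDeg_lt N).subset fun E hE => hE.1
  set P : Submodule F B := (maximalIdeal B ^ N).restrictScalars F
  set W : Submodule F B := Submodule.span F (gmon g '' T) ⊔ P
  have hgmem : ∀ i, g i ∈ maximalIdeal B := fun i => by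
    rw [hg]; exact Ideal.subset_span ⟨i, rfl⟩
  have key : ∀ (j m : ℕ) (E : GenIdx σ.d σ.n σ.r →₀ ℕ), N - expDeg E ≤ j →
      {E' | expDeg E' = expDeg E ∧ expLT E E'}.ncard ≤ m → ∀ c : B, c * gmon g E ∈ W := by
    intro j
    induction j with
    | zero =>
      intro m E hj _ c
      refine Submodule.mem_sup_right ?_
      exact Ideal.mul_mem_left _ _ (Ideal.pow_le_pow_right (by omega) (gmon_mem_pow hgmem E))
    | succ j ihj =>
      intro m
      induction m using Nat.strong_induction_on with
      | _ m ihm =>
        intro E hj hm c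
        by_cases hN : N ≤ expDeg E
        · exact ihj m E (by omega) hm c
        have higher : ∀ E' : GenIdx σ.d σ.n σ.r →₀ ℕ, expDeg E < expDeg E' →
            ∀ b : B, b * gmon g E' ∈ W := fun E' h b =>
          ihj _ E' (by omega) le_rfl b
        obtain ⟨c₀, hc₀⟩ := hsurj (residue B c)
        have hr : c - algebraMap F B c₀ ∈ Ideal.span (Set.range g) := by
          rw [← hg, ← residue_eq_zero_iff, map_sub, ← hc₀, sub_eq_zero]
          rw [IsScalarTower.algebraMap_apply F B (ResidueField B)]
          rfl
        have h1 : ∀ y ∈ Ideal.span (Set.range g), ∀ b : B, b * y * gmon g E ∈ W := by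
          intro y hy
          induction hy using Submodule.span_induction with
          | mem y hy =>
            obtain ⟨i, rfl⟩ := hy
            intro b
            rw [mul_assoc, show g i * gmon g E = gmon g (Finsupp.single i 1 + E) by
              rw [gmon_add, gmon_single]]
            exact higher _ (by simp [expDeg_eq]) b
          | zero => intro b; simp
          | add y z _ _ hy hz => intro b; rw [mul_add, add_mul]; exact add_mem (hy b) (hz b)
          | smul a y _ hy => intro b; rw [smul_eq_mul, ← mul_assoc b]; exact hy _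
        have h2 := h1 _ hr 1
        rw [one_mul, sub_mul, ← Algebra.smul_def] at h2
        suffices hE : gmon g E ∈ W by
          have h3 := add_mem h2 (Submodule.smul_mem W c₀ hE)
          rwa [sub_add_cancel] at h3
        by_cases hstd : σ.IsStd E
        · exact Submodule.mem_sup_left (Submodule.subset_span ⟨E, ⟨by omega, hstd⟩, rfl⟩)
        simp only [Shape.IsStd, not_forall, not_not] at hstd
        obtain ⟨L, hL, hLE⟩ := hstd
        obtain ⟨D, rfl⟩ : ∃ D, E = L + D := ⟨E - L, (add_tsub_cancel_of_le hLE).symm⟩
        have h4 : ∀ y ∈ Ideal.span (gmon g '' {E' | (expDeg E' = expDeg L ∧ expLT L E') ∨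
            expDeg E' = expDeg L + 1}), ∀ b : B, b * (y * gmon g D) ∈ W := by
          intro y hy
          induction hy using Submodule.span_induction with
          | mem y hy =>
            obtain ⟨E', hE', rfl⟩ := hy
            intro b
            rw [← gmon_add]
            rcases hE' with ⟨hd, hlt⟩ | hd
            · have hd' : expDeg (E' + D) = expDeg (L + D) := by rw [expDeg_add, expDeg_add, hd]
              have hlt' := expLT_add_right hlt D
              refine ihm _ ?_ (E' + D) (by omega) le_rfl b
              refine lt_of_lt_of_le (Set.ncard_lt_ncard ?_ ?_) hm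
              · refine ⟨fun X hX => ⟨hX.1.trans hd', lt_trans hlt' hX.2⟩, fun h => ?_⟩
                exact lt_irrefl _ (h ⟨hd', hlt'⟩).2
              · exact (finite_expDeg_lt (expDeg (L + D) + 1)).subset fun X hX =>
                  Nat.lt_succ_of_le hX.1.le
            · exact higher _ (by rw [expDeg_add, expDeg_add, hd]; omega) b
          | zero => intro b; simp
          | add y z _ _ hy hz => intro b; rw [add_mul, mul_add]; exact add_mem (hy b) (hz b)
          | smul a y _ hy => intro b; rw [smul_eq_mul, mul_assoc a, ← mul_assoc b]; exact hy _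
        have h5 := h4 _ (hlead L hL) 1
        rwa [one_mul, ← gmon_add] at h5
  have hW : ∀ b : B, b ∈ W := fun b => by
    simpa [gmon] using key _ _ 0 le_rfl le_rfl b
  rw [← length_eq_of_residue_surjective (F := F) hsurj]
  have : Fintype T := hTfin.fintype
  set π : B →ₗ[F] B ⧸ maximalIdeal B ^ N :=
    ((maximalIdeal B ^ N).mkQ).restrictScalars F
  set φ : (T → F) →ₗ[F] B ⧸ maximalIdeal B ^ N :=
    Fintype.linearCombination F fun E : T => π (gmon g E)
  have hφ : Function.Surjective φ := by
    intro q
    obtain ⟨b, rfl⟩ := Submodule.Quotient.mk_surjective _ q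
    obtain ⟨y, hy, z, hz, rfl⟩ := Submodule.mem_sup.1 (hW b)
    show π (y + z) ∈ LinearMap.range φ
    rw [map_add, show π z = 0 from (Submodule.Quotient.mk_eq_zero _).2 hz, add_zero]
    refine (Submodule.span_le (p := (LinearMap.range φ).comap π)).2 ?_ hy
    rintro _ ⟨E, hE, rfl⟩
    exact ⟨Pi.single ⟨E, hE⟩ 1, by simp [φ, Fintype.linearCombination_apply_single]⟩
  refine (Module.length_le_of_surjective φ hφ).trans (le_of_eq ?_)
  rw [Module.length_eq_finrank, Module.finrank_pi, ← Nat.card_eq_fintype_card,
    Nat.card_coe_set_eq]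
  rfl

end Vale.Agent.P202.Realise
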