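import Vale.Agent.P202.E4Rings
import Vale.Agent.P202.E4Std

/-!
P202, E4: a model over a finite field realises a flat local map in characteristic `p`.
-/

noncomputable section

namespace Vale.Agent.P202.Realise

open IsLocalRing MvPowerSeries Filter

variable {F : Type} [Field F] {d : ℕ} {B : Type} [CommRing B]
  [Algebra (MvPowerSeries (Fin d) F) B]

lemma xIdeal_eq : xIdeal F d B = Ideal.span (Set.range fun i =>
    algebraMap (MvPowerSeries (Fin d) F) B (MvPowerSeries.X i)) := by
  rw [xIdeal, maximalIdeal_powerSeries, Ideal.map_span, ← Set.range_comp]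
  rfl

lemma pow_le_xIdeal_pow {J : Ideal B} {n₀ : ℕ}
    (h : J ^ (n₀ + 1) ≤ xIdeal F d B * J ^ n₀) :
    ∀ N, J ^ (N + n₀) ≤ xIdeal F d B ^ N * J ^ n₀
  | 0 => by simp
  | N + 1 => by
    calc J ^ (N + 1 + n₀) = J ^ (N + n₀) * J := by rw [← pow_succ, Nat.add_right_comm]
      _ ≤ xIdeal F d B ^ N * J ^ n₀ * J := Ideal.mul_mono_left (pow_le_xIdeal_pow h N)
      _ = xIdeal F d B ^ N * J ^ (n₀ + 1) := by rw [pow_succ, mul_assoc]
      _ ≤ xIdeal F d B ^ N * (xIdeal F d B * J ^ n₀) := Ideal.mul_mono_right h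
      _ = xIdeal F d B ^ (N + 1) * J ^ n₀ := by rw [pow_succ, mul_assoc]

variable [IsLocalRing B] [Algebra F B] [IsScalarTower F (MvPowerSeries (Fin d) F) B]

omit [IsLocalRing B] in
lemma algebraMap_eq_const (c : F) :
    algebraMap F B c = algebraMap (MvPowerSeries (Fin d) F) B (C c) := by
  rw [IsScalarTower.algebraMap_apply F (MvPowerSeries (Fin d) F) B]
  simp [MvPowerSeries.algebraMap_apply]

lemma residue_surjective_of_const (h : ∀ r : ResidueField B, ∃ c : F,
    residue B (algebraMap (MvPowerSeries (Fin d) F) B (C c)) = r) :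
    Function.Surjective (algebraMap F (ResidueField B)) := fun r => by
  obtain ⟨c, hc⟩ := h r
  refine ⟨c, ?_⟩
  rw [IsScalarTower.algebraMap_apply F B (ResidueField B), algebraMap_eq_const (d := d), ← hc]
  rfl

omit [IsScalarTower F (MvPowerSeries (Fin d) F) B] in
lemma length_quot_xIdeal_le (hsurj : Function.Surjective (algebraMap F (ResidueField B)))
    {M N : ℕ} (h : maximalIdeal B ^ M ≤ xIdeal F d B ^ N) :
    Module.length F (B ⧸ (xIdeal F d B ^ N).restrictScalars F) ≤
      Module.length B (B ⧸ maximalIdeal B ^ M) := by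
  rw [← length_eq_of_residue_surjective hsurj,
    ← (Submodule.Quotient.restrictScalarsEquiv F (maximalIdeal B ^ M)).length_eq]
  exact Module.length_le_of_surjective (Submodule.factor h) (Submodule.factor_surjective h)

end Vale.Agent.P202.Realise

namespace Vale.Agent.P202

open IsLocalRing MvPowerSeries Filter Realise

/-- E4: a model over a finite field realises a flat local map in characteristic `p`. -/
theorem goalRealise : GoalRealise := by
  intro p _ F _ _ _ σ θ hθ ha he
  set x : Fin σ.d → MvPowerSeries (Fin σ.d) F := fun i => MvPowerSeries.X i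
  set R := RRing θ
  set S := SRing θ
  obtain ⟨hnontriv, s, π, hπs⟩ := exists_maps hθ ha he
  obtain ⟨hflat, coord, hcoord⟩ := exists_coord hθ
  have : Module.Finite (MvPowerSeries (Fin σ.d) F) R := finite_RRing θ
  have : Module.Finite R S := finite_up θ
  have : Module.Finite (MvPowerSeries (Fin σ.d) F) S := Module.Finite.trans R S
  have hSnontriv : Nontrivial S := by
    refine ⟨0, 1, fun h => one_ne_zero (α := R) ?_⟩
    rw [← hcoord 1, map_one, ← h, map_zero]
  -- the lower ring
  set qR := Ideal.Quotient.mk θ.idealR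
  set tR : Fin σ.n → R := fun i => qR (MvPolynomial.X i)
  have hmaxR : (Param.maxR σ x).map qR = genIdeal F σ.d tR := by
    rw [Param.maxR, Ideal.map_span, Set.image_union, Ideal.span_union, ← Set.range_comp,
      ← Set.range_comp, genIdeal, xIdeal_eq]
    rfl
  have hxR : (Ideal.span (Set.range fun i => MvPolynomial.C (x i))).map qR = xIdeal F σ.d R := by
    rw [Ideal.map_span, ← Set.range_comp, xIdeal_eq]
    rfl
  have hred : genIdeal F σ.d tR ^ (σ.n₀ + 1) ≤ xIdeal F σ.d R * genIdeal F σ.d tR ^ σ.n₀ := by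
    have h := Ideal.map_mono (f := qR) hθ.reduction
    rwa [Ideal.map_sup, Ideal.map_mul, Ideal.map_pow, Ideal.map_pow, hmaxR, hxR,
      Ideal.map_quotient_self, bot_sup_eq] at h
  obtain ⟨_, hmR, hresR⟩ := local_of_nilpotent tR (adjoin_range_mk θ.idealR)
    (hred.trans Ideal.mul_le_left)
  have hsurjR := residue_surjective_of_const hresR
  have hpowR : ∀ N, maximalIdeal R ^ (N + σ.n₀) ≤ xIdeal F σ.d R ^ N := fun N => by
    rw [hmR]
    exact (pow_le_xIdeal_pow hred N).trans Ideal.mul_le_left
  -- the upper ring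
  set qS := Ideal.Quotient.mk θ.idealS
  set gS : GenIdx σ.d σ.n σ.r → S := fun i => qS (Param.gen σ x i)
  set tS : Fin σ.n ⊕ Fin σ.r → S := fun i => qS (MvPolynomial.X i)
  have hxS : (Ideal.span (Set.range fun i => MvPolynomial.C (x i))).map qS = xIdeal F σ.d S := by
    rw [Ideal.map_span, ← Set.range_comp, xIdeal_eq]
    rfl
  have hgen : genIdeal F σ.d tS = Ideal.span (Set.range gS) := by
    rw [genIdeal, xIdeal_eq, ← Ideal.span_union]
    congr 1
    ext y
    constructor
    · rintro (⟨i, rfl⟩ | ⟨i | i, rfl⟩)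
      · exact ⟨Sum.inl (Sum.inl i), rfl⟩
      · exact ⟨Sum.inl (Sum.inr i), rfl⟩
      · exact ⟨Sum.inr i, rfl⟩
    · rintro ⟨(i | i) | i, rfl⟩
      · exact Or.inl ⟨i, rfl⟩
      · exact Or.inr ⟨Sum.inl i, rfl⟩
      · exact Or.inr ⟨Sum.inr i, rfl⟩
  have hnil : genIdeal F σ.d tS ^ σ.n₁ ≤ xIdeal F σ.d S := by
    have h := Ideal.map_mono (f := qS) hθ.nilp
    rwa [Ideal.map_sup, Ideal.map_pow, Ideal.map_span, ← Set.range_comp, hxS,
      Ideal.map_quotient_self, bot_sup_eq, show qS ∘ Param.gen σ x = gS from rfl, ← hgen] at h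
  obtain ⟨_, hmS, hresS⟩ := local_of_nilpotent tS (adjoin_range_mk θ.idealS) hnil
  have hsurjS := residue_surjective_of_const hresS
  have hlocal : IsLocalHom (algebraMap R S) := by
    refine ⟨fun y hy => ?_⟩
    by_contra hnu
    have hmem : y ∈ genIdeal F σ.d tR := hmR ▸ hnu
    have hle : (genIdeal F σ.d tR).map (algebraMap R S) ≤ maximalIdeal S := by
      rw [Ideal.map_sup, Ideal.map_span, xIdeal_eq, Ideal.map_span, hmS]
      refine sup_le (Ideal.span_le.2 ?_) (Ideal.span_le.2 ?_)
      · rintro _ ⟨_, ⟨i, rfl⟩, rfl⟩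
        refine Submodule.mem_sup_left ?_
        rw [xIdeal_eq]
        exact Ideal.subset_span ⟨i, IsScalarTower.algebraMap_apply _ R S _⟩
      · rintro _ ⟨_, ⟨i, rfl⟩, rfl⟩
        refine Submodule.mem_sup_right (Ideal.subset_span ⟨Sum.inl i, ?_⟩)
        rw [up_mk, MvPolynomial.rename_X]
    exact hle (Ideal.mem_map_of_mem _ hmem) hy
  -- growth and dimension
  obtain ⟨o, ho⟩ := exists_lower (F := F) ha s π hπs
  obtain ⟨o', ho'⟩ := exists_lower (F := F) ha
    ((IsScalarTower.toAlgHom (MvPowerSeries (Fin σ.d) F) R S).toLinearMap.comp s)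
    (π.comp coord) fun u => (congrArg π (hcoord (s u))).trans (hπs u)
  have hlowR : ∀ M, ((σ.e * {E : Fin σ.d →₀ ℕ | E.degree < M - (σ.n₀ + o)}.ncard : ℕ) : ℕ∞) ≤
      Module.length R (R ⧸ maximalIdeal R ^ M) := by
    intro M
    rcases le_or_gt σ.n₀ M with h | h
    · have h1 := (ho (M - σ.n₀)).trans (length_quot_xIdeal_le hsurjR
        (show maximalIdeal R ^ M ≤ xIdeal F σ.d R ^ (M - σ.n₀) by
          have h2 := hpowR (M - σ.n₀)
          rwa [Nat.sub_add_cancel h] at h2))
      rwa [Nat.sub_sub] at h1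
    · rw [show M - (σ.n₀ + o) = 0 by omega]
      simp
  have hdR : ndim R = σ.d := by
    refine le_antisymm (ndim_le_of_pow_le (fun i => algebraMap _ R (x i)) (fun i => ?_)
      (k := σ.n₀ + 1) ?_) (le_ndim_of_growth (k := 1) (c := σ.n₀ + o) fun N => ?_)
    · rw [hmR]
      exact Submodule.mem_sup_left (Ideal.mem_map_of_mem _ (by
        rw [maximalIdeal_powerSeries]; exact Ideal.subset_span ⟨i, rfl⟩))
    · rw [hmR, ← xIdeal_eq]
      exact hred.trans Ideal.mul_le_left
    · rw [one_mul]
      exact le_trans (Nat.cast_le.2 (Nat.le_mul_of_pos_left _ he)) (hlowR N)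
  have hdS : ndim S = σ.d := by
    refine le_antisymm (ndim_le_of_pow_le (fun i => algebraMap _ S (x i)) (fun i => ?_)
      (k := σ.n₁) ?_) (le_ndim_of_growth (k := σ.n₁) (c := o') fun N => ?_)
    · rw [hmS]
      exact Submodule.mem_sup_left (Ideal.mem_map_of_mem _ (by
        rw [maximalIdeal_powerSeries]; exact Ideal.subset_span ⟨i, rfl⟩))
    · rw [hmS, ← xIdeal_eq]
      exact hnil
    · refine le_trans (Nat.cast_le.2 (Nat.le_mul_of_pos_left _ he))
        ((ho' N).trans (length_quot_xIdeal_le hsurjS ?_))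
      rw [hmS, pow_mul]
      exact Ideal.pow_right_mono hnil N
  have : CharP R p := charP_of_injective_algebraMap (algebraMap F R).injective p
  have : CharP (ResidueField R) p :=
    charP_of_injective_algebraMap (algebraMap F (ResidueField R)).injective p
  refine ⟨R, S, inferInstance, inferInstance, inferInstance, inferInstance, inferInstance,
    inferInstance, inferInstance, inferInstance, inferInstance, hlocal, hflat,
    Finite.of_surjective _ hsurjR, hdR, hdS, fun e hmult => ?_, fun N => ?_⟩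
  · have hlim : Tendsto (fun M : ℕ => (σ.e : ℝ) * ((σ.d.factorial : ℝ) *
        ({E : Fin σ.d →₀ ℕ | E.degree < M - (σ.n₀ + o)}.ncard : ℝ) / (M : ℝ) ^ σ.d)) atTop
        (nhds ((σ.e : ℝ) * 1)) := (tendsto_ncard_shift σ.d _).const_mul _
    rw [mul_one] at hlim
    rw [HasMult, hdR] at hmult
    refine le_of_tendsto_of_tendsto' hlim hmult fun M => ?_
    rw [← mul_div_assoc]
    refine div_le_div_of_nonneg_right ?_ (by positivity)
    have h := ENat.toNat_le_toNat (hlowR M) (length_quot_maximalIdeal_pow_ne_top M)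
    rw [ENat.toNat_natCast] at h
    rw [mul_left_comm]
    refine mul_le_mul_of_nonneg_left ?_ (Nat.cast_nonneg _)
    exact_mod_cast h
  · refine ENat.toNat_le_of_le_natCast (length_quot_le_stdSum σ hsurjS gS (hmS.trans hgen) ?_ N)
    intro L hL
    have h := Ideal.mem_map_of_mem qS (hθ.leading L hL)
    rw [Ideal.map_sup, Ideal.map_quotient_self, bot_sup_eq, Param.laterMons, Ideal.map_span,
      Set.image_image] at h
    have hg : ∀ E, qS (Param.genMon σ x E) = gmon gS E := fun E => by
      rw [Param.genMon, map_finsuppProd]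
      simp only [map_pow]
      rfl
    simp only [hg] at h
    exact h

end Vale.Agent.P202
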