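import Vale.Agent.P202.Model

/-!
The lower ring `A[T]/idealR` of a model over a domain `A`: it is spanned by `1, T`, contains `A`,
and maps to `A ^ e` with image containing `a A ^ e`.
-/

universe u

namespace Vale.Agent.P202

open MvPolynomial
open scoped IsMulCommutative

namespace Param

variable {σ : Shape} {A : Type u} [CommRing A]

/-- The lower ring of a model. -/
abbrev RingR (θ : Param σ A) : Type u := MvPolynomial (Fin σ.n) A ⧸ θ.idealR

/-- The projection onto the lower ring. -/
noncomputable abbrev mkR (θ : Param σ A) : MvPolynomial (Fin σ.n) A →ₐ[A] θ.RingR :=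
  Ideal.Quotient.mkₐ A θ.idealR

/-- The class of the affine form with coefficients `c`, linearly in `c`. -/
noncomputable def affLin (θ : Param σ A) : (Option (Fin σ.n) → A) →ₗ[A] θ.RingR where
  toFun c := θ.mkR (aff c)
  map_add' c c' := by
    rw [← map_add]
    congr 1
    simp only [aff, Pi.add_apply, map_add, add_mul, Finset.sum_add_distrib]
    ring
  map_smul' r c := by
    rw [RingHom.id_apply, ← map_smul]
    congr 1
    simp only [aff, Pi.smul_apply, smul_eq_mul, map_mul, smul_add, Finset.smul_sum]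
    simp only [MvPolynomial.smul_eq_C_mul, mul_assoc]

lemma mkR_mu (θ : Param σ A) (i j : Fin σ.n) :
    θ.mkR (X i * X j) = θ.mkR (aff (θ.mu i j)) :=
  Ideal.Quotient.eq.2 (Ideal.subset_span (Or.inl ⟨(i, j), rfl⟩))

/-- The lower ring is spanned by `1` and the `T`. -/
lemma affLin_surjective (θ : Param σ A) : Function.Surjective θ.affLin := by
  classical
  intro t
  obtain ⟨P, rfl⟩ := Ideal.Quotient.mk_surjective t
  induction P using MvPolynomial.induction_on with
  | C r =>
    refine ⟨Pi.single none r, ?_⟩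
    show θ.mkR _ = θ.mkR _
    simp [aff]
  | add P Q hP hQ =>
    obtain ⟨c, hc⟩ := hP
    obtain ⟨c', hc'⟩ := hQ
    exact ⟨c + c', by rw [map_add, hc, hc', map_add]⟩
  | mul_X P j hP =>
    obtain ⟨c, hc⟩ := hP
    refine ⟨c none • Pi.single (some j) 1 + ∑ i, c (some i) • θ.mu i j, ?_⟩
    rw [map_mul, ← hc, map_add, map_sum, map_smul]
    show _ = θ.mkR (aff c) * θ.mkR (X j)
    rw [← map_mul, aff, add_mul, Finset.sum_mul, map_add, map_sum]
    congr 1
    · show c none • θ.mkR (aff (Pi.single (some j) 1)) = _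
      rw [← map_smul]
      congr 1
      simp [aff, Pi.single_apply, MvPolynomial.smul_eq_C_mul]
    · refine Finset.sum_congr rfl fun i _ => ?_
      rw [map_smul]
      show c (some i) • θ.mkR (aff (θ.mu i j)) = θ.mkR (C (c (some i)) * X i * X j)
      rw [← mkR_mu, ← map_smul, MvPolynomial.smul_eq_C_mul, mul_assoc]

variable [IsDomain A] (θ : Param σ A)

/-- The scaled matrices over the fraction field. -/
noncomputable def lamK (i : Fin σ.n) : Matrix (Fin σ.e) (Fin σ.e) (FractionRing A) :=
  (algebraMap A (FractionRing A) θ.a)⁻¹ •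
    (θ.lam i).map (algebraMap A (FractionRing A))

lemma map_affMat (c : Option (Fin σ.n) → A) :
    (θ.affMat c).map (algebraMap A (FractionRing A)) =
      (algebraMap A (FractionRing A) θ.a * algebraMap A (FractionRing A) (c none)) • 1 +
        ∑ i, algebraMap A (FractionRing A) (c (some i)) •
          (θ.lam i).map (algebraMap A (FractionRing A)) := by
  ext k l
  simp [affMat, Matrix.sum_apply, Matrix.one_apply, map_sum, apply_ite (algebraMap A (FractionRing A))]
  simp only [Algebra.smul_def]

variable (hm : ∀ i j, θ.lam i * θ.lam j = θ.lam j * θ.lam i)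

include hm in
lemma lamK_comm (i j : Fin σ.n) : θ.lamK i * θ.lamK j = θ.lamK j * θ.lamK i := by
  simp only [lamK, Matrix.smul_mul, Matrix.mul_smul, ← Matrix.map_mul, hm i j]

/-- The commutative subalgebra generated by the scaled matrices. -/
abbrev RepAlg : Subalgebra (FractionRing A) (Matrix (Fin σ.e) (Fin σ.e) (FractionRing A)) :=
  Algebra.adjoin (FractionRing A) (Set.range θ.lamK)

include hm in
lemma exists_rep :
    ∃ φ : MvPolynomial (Fin σ.n) A →ₐ[A] Matrix (Fin σ.e) (Fin σ.e) (FractionRing A),
      ∀ i, φ (X i) = θ.lamK i := by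
  haveI : IsMulCommutative θ.RepAlg := by
    refine Algebra.isMulCommutative_adjoin (R := FractionRing A) ?_
    rintro _ ⟨i, rfl⟩ _ ⟨j, rfl⟩
    exact lamK_comm θ hm i j
  exact ⟨((θ.RepAlg.val).restrictScalars A).comp
    (aeval fun i => (⟨θ.lamK i, Algebra.subset_adjoin (Set.mem_range_self i)⟩ : θ.RepAlg)),
    fun i => by simp⟩

lemma rep_aff (ha : θ.a ≠ 0)
    (φ : MvPolynomial (Fin σ.n) A →ₐ[A] Matrix (Fin σ.e) (Fin σ.e) (FractionRing A))
    (hφ : ∀ i, φ (X i) = θ.lamK i) (c : Option (Fin σ.n) → A) :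
    φ (aff c) = (algebraMap A (FractionRing A) θ.a)⁻¹ •
      (θ.affMat c).map (algebraMap A (FractionRing A)) := by
  have ha' : algebraMap A (FractionRing A) θ.a ≠ 0 := fun h =>
    ha (IsFractionRing.injective A (FractionRing A) (h.trans (map_zero _).symm))
  rw [map_affMat, smul_add, smul_smul, inv_mul_cancel_left₀ ha', Finset.smul_sum, aff, map_add,
    map_sum]
  congr 1
  · rw [MvPolynomial.C_eq_algebraMap, AlgHom.commutes, Algebra.algebraMap_eq_smul_one,
      ← IsScalarTower.algebraMap_smul (FractionRing A) (c none) (1 : Matrix _ _ (FractionRing A))]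
  · refine Finset.sum_congr rfl fun i _ => ?_
    rw [map_mul, MvPolynomial.C_eq_algebraMap, AlgHom.commutes, hφ, ← Algebra.smul_def, lamK,
      ← IsScalarTower.algebraMap_smul (FractionRing A) (c (some i)) _, smul_smul, smul_smul,
      mul_comm]

variable {x : Fin σ.d → A} (h : θ.IsModel x) (ha : θ.a ≠ 0)

include h ha in
/-- The representation of the lower ring. -/
lemma exists_repR :
    ∃ φ : θ.RingR →ₐ[A] Matrix (Fin σ.e) (Fin σ.e) (FractionRing A),
      ∀ c, φ (θ.affLin c) = (algebraMap A (FractionRing A) θ.a)⁻¹ •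
        (θ.affMat c).map (algebraMap A (FractionRing A)) := by
  obtain ⟨φ, hφ⟩ := θ.exists_rep h.lam_comm
  have hker : θ.idealR ≤ RingHom.ker φ := by
    rw [idealR, Ideal.span_le]
    rintro _ (⟨⟨i, j⟩, rfl⟩ | ⟨s, rfl⟩)
    · rw [SetLike.mem_coe, RingHom.mem_ker, map_sub, sub_eq_zero, map_mul, hφ, hφ,
        θ.rep_aff ha φ hφ]
      simp only [lamK, Matrix.smul_mul, Matrix.mul_smul, smul_smul, ← Matrix.map_mul, h.lam_mul]
      ext k l
      simp only [Matrix.smul_apply, Matrix.map_apply, smul_eq_mul, map_mul]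
      have ha' : algebraMap A (FractionRing A) θ.a ≠ 0 := fun h =>
        ha (IsFractionRing.injective A (FractionRing A) (h.trans (map_zero _).symm))
      field_simp
    · rw [SetLike.mem_coe, RingHom.mem_ker, θ.rep_aff ha φ hφ, h.lam_rel s]
      simp
  refine ⟨Ideal.Quotient.liftₐ θ.idealR φ (fun t ht => hker ht), fun c => ?_⟩
  show φ (aff c) = _
  exact θ.rep_aff ha φ hφ c

include h ha in
/-- The base embeds in the lower ring. -/
lemma algebraMap_ringR_injective (he : 0 < σ.e) :
    Function.Injective (algebraMap A θ.RingR) := by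
  obtain ⟨φ, -⟩ := θ.exists_repR h ha
  intro r s hrs
  have h1 := congrArg φ hrs
  rw [AlgHom.commutes, AlgHom.commutes] at h1
  have h2 := congrFun (congrFun h1 ⟨0, he⟩) ⟨0, he⟩
  rw [Matrix.algebraMap_matrix_apply, Matrix.algebraMap_matrix_apply, if_pos rfl, if_pos rfl] at h2
  exact IsFractionRing.injective A (FractionRing A) h2

include h ha in
/-- A linear map to `A ^ e` hitting all multiples of `a`. -/
lemma exists_orbitMap :
    ∃ π : θ.RingR →ₗ[A] (Fin σ.e → A), ∀ w : Fin σ.e → A, θ.a • w ∈ LinearMap.range π := by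
  obtain ⟨φ, hφ⟩ := θ.exists_repR h ha
  set K := FractionRing A
  have ha' : algebraMap A K θ.a ≠ 0 := fun h =>
    ha (IsFractionRing.injective A K (h.trans (map_zero _).symm))
  let F : θ.RingR → (Fin σ.e → A) := fun t =>
    (θ.affMat (Classical.choose (θ.affLin_surjective t))).mulVec θ.v
  have hFc : ∀ c, F (θ.affLin c) = (θ.affMat c).mulVec θ.v := by
    intro c
    have hc := Classical.choose_spec (θ.affLin_surjective (θ.affLin c))
    have h1 := congrArg φ hc
    rw [hφ, hφ] at h1
    have h2 : θ.affMat (Classical.choose (θ.affLin_surjective (θ.affLin c))) = θ.affMat c := by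
      refine Matrix.map_injective (IsFractionRing.injective A K) ?_
      exact smul_right_injective _ (inv_ne_zero ha') h1
    show (θ.affMat _).mulVec θ.v = _
    rw [h2]
  have hadd : ∀ c c', θ.affMat (c + c') = θ.affMat c + θ.affMat c' := fun c c' => by
    simp only [affMat, Pi.add_apply, mul_add, add_smul, Finset.sum_add_distrib]; abel
  have hsmul : ∀ (r : A) c, θ.affMat (r • c) = r • θ.affMat c := fun r c => by
    simp only [affMat, Pi.smul_apply, smul_eq_mul, smul_add, smul_smul, Finset.smul_sum]
    rw [mul_left_comm]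
  let π : θ.RingR →ₗ[A] (Fin σ.e → A) :=
    { toFun := F
      map_add' := fun s t => by
        obtain ⟨c, rfl⟩ := θ.affLin_surjective s
        obtain ⟨c', rfl⟩ := θ.affLin_surjective t
        rw [← map_add, hFc, hFc, hFc, hadd, Matrix.add_mulVec]
      map_smul' := fun r t => by
        obtain ⟨c, rfl⟩ := θ.affLin_surjective t
        rw [← map_smul, hFc, hFc, hsmul, Matrix.smul_mulVec, RingHom.id_apply] }
  refine ⟨π, fun w => ?_⟩
  have hj : ∀ j, Pi.single j θ.a ∈ LinearMap.range π := fun j =>
    ⟨θ.affLin (θ.cc j), by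
      show F _ = _
      rw [hFc, h.orbit j]⟩
  have hw : θ.a • w = ∑ j, w j • (Pi.single j θ.a : Fin σ.e → A) := by
    ext k
    simp [Pi.single_apply, mul_comm]
  rw [hw]
  exact Submodule.sum_mem _ fun j _ => Submodule.smul_mem _ _ (hj j)

end Param

end Vale.Agent.P202
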