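import Vale.Agent.P202.Model
import Vale.Agent.P202.E4Local

/-!
P202, E4: the rings of a model over `F[[x]]`: finiteness, freeness of the upper ring over the lower
one, and the maps to and from a free module over `F[[x]]`.
-/

noncomputable section

namespace Vale.Agent.P202.Realise

open MvPolynomial

lemma exists_algHom_of_commute {A Q ι : Type} [CommRing A] [Ring Q] [Algebra A Q] (t : ι → Q)
    (h : ∀ i j, t i * t j = t j * t i) :
    ∃ φ : MvPolynomial ι A →ₐ[A] Q, ∀ i, φ (X i) = t i := by
  have : IsMulCommutative (Algebra.adjoin A (Set.range t)) :=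
    Algebra.isMulCommutative_adjoin A (by rintro _ ⟨i, rfl⟩ _ ⟨j, rfl⟩; exact h i j)
  open scoped IsMulCommutative in
  exact ⟨(Algebra.adjoin A (Set.range t)).val.comp
    (aeval fun i => (⟨t i, Algebra.subset_adjoin ⟨i, rfl⟩⟩ : Algebra.adjoin A (Set.range t))),
    fun i => by simp⟩

lemma adjoin_range_mk {A ι : Type} [CommRing A] (I : Ideal (MvPolynomial ι A)) :
    Algebra.adjoin A (Set.range fun i => Ideal.Quotient.mk I (X i)) = ⊤ := by
  rw [show (fun i => Ideal.Quotient.mk I (X i)) = Ideal.Quotient.mkₐ A I ∘ X from rfl,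
    Set.range_comp, ← AlgHom.map_adjoin, MvPolynomial.adjoin_range_X, Algebra.map_top,
    AlgHom.range_eq_top]
  exact Ideal.Quotient.mkₐ_surjective A I

section

variable {σ : Shape} {F : Type} [Field F] (θ : Param σ (MvPowerSeries (Fin σ.d) F))

/-- The lower ring. -/
abbrev RRing : Type := MvPolynomial (Fin σ.n) (MvPowerSeries (Fin σ.d) F) ⧸ θ.idealR

/-- The upper ring. -/
abbrev SRing : Type := MvPolynomial (Fin σ.n ⊕ Fin σ.r) (MvPowerSeries (Fin σ.d) F) ⧸ θ.idealS

/-- The `T` downstairs. -/
def tGen (i : Fin σ.n) : RRing θ := Ideal.Quotient.mk θ.idealR (X i)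

/-- The map between the two rings. -/
def upMap : RRing θ →+* SRing θ :=
  Ideal.quotientMap θ.idealS (rename (R := MvPowerSeries (Fin σ.d) F) Sum.inl).toRingHom <| by
    rw [Param.idealR, Ideal.span_le]
    intro f hf
    exact Ideal.subset_span (Or.inl ⟨f, hf, rfl⟩)

instance instAlgebraUp : Algebra (RRing θ) (SRing θ) := (upMap θ).toAlgebra

lemma up_mk (f : MvPolynomial (Fin σ.n) (MvPowerSeries (Fin σ.d) F)) :
    algebraMap (RRing θ) (SRing θ) (Ideal.Quotient.mk θ.idealR f) =
      Ideal.Quotient.mk θ.idealS (rename Sum.inl f) := rfl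

instance instTowerUp : IsScalarTower (MvPowerSeries (Fin σ.d) F) (RRing θ) (SRing θ) :=
  IsScalarTower.of_algebraMap_eq (R := MvPowerSeries (Fin σ.d) F) (S := RRing θ) (A := SRing θ)
    fun c => by
    show Ideal.Quotient.mk θ.idealS (C c) = algebraMap _ _ (Ideal.Quotient.mk θ.idealR (C c))
    rw [up_mk, rename_C]

lemma mk_C_mul (a : MvPowerSeries (Fin σ.d) F)
    (f : MvPolynomial (Fin σ.n) (MvPowerSeries (Fin σ.d) F)) :
    Ideal.Quotient.mk θ.idealR (C a * f) = a • Ideal.Quotient.mk θ.idealR f := by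
  rw [← MvPolynomial.smul_eq_C_mul]
  rfl

lemma mk_aff (c : Option (Fin σ.n) → MvPowerSeries (Fin σ.d) F) :
    Ideal.Quotient.mk θ.idealR (Param.aff c) =
      c none • (1 : RRing θ) + ∑ i, c (some i) • tGen θ i := by
  rw [Param.aff, map_add, map_sum, ← mul_one (C (c none)), mk_C_mul, map_one]
  simp only [mk_C_mul, tGen]

lemma mk_span (x : RRing θ) : x ∈ Submodule.span (MvPowerSeries (Fin σ.d) F)
    (Set.range fun o : Option (Fin σ.n) => o.elim 1 (tGen θ)) := by
  obtain ⟨f, rfl⟩ := Ideal.Quotient.mk_surjective x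
  set M := Submodule.span (MvPowerSeries (Fin σ.d) F)
    (Set.range fun o : Option (Fin σ.n) => o.elim 1 (tGen θ))
  have haff : ∀ c, Ideal.Quotient.mk θ.idealR (Param.aff c) ∈ M := fun c => by
    rw [mk_aff]
    exact add_mem (M.smul_mem _ (Submodule.subset_span ⟨none, rfl⟩))
      (sum_mem fun i _ => M.smul_mem _ (Submodule.subset_span ⟨some i, rfl⟩))
  induction f using MvPolynomial.induction_on with
  | C a =>
    show algebraMap (MvPowerSeries (Fin σ.d) F) (RRing θ) a ∈ M
    rw [Algebra.algebraMap_eq_smul_one]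
    exact M.smul_mem _ (Submodule.subset_span ⟨none, rfl⟩)
  | add f g hf hg => rw [map_add]; exact add_mem hf hg
  | mul_X f j hf =>
    rw [map_mul]
    refine Submodule.span_induction (p := fun y _ => y * tGen θ j ∈ M) ?_ (by simp) ?_ ?_ hf
    · rintro _ ⟨(_ | i), rfl⟩
      · simpa using Submodule.subset_span (s := Set.range fun o : Option (Fin σ.n) =>
          o.elim 1 (tGen θ)) ⟨some j, rfl⟩
      · show tGen θ i * tGen θ j ∈ M
        have h : tGen θ i * tGen θ j = Ideal.Quotient.mk θ.idealR (Param.aff (θ.mu i j)) := by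
          rw [tGen, tGen, ← map_mul, Ideal.Quotient.eq]
          exact Ideal.subset_span (Or.inl ⟨(i, j), rfl⟩)
        rw [h]
        exact haff _
    · intro y z _ _ hy hz; rw [add_mul]; exact add_mem hy hz
    · intro a y _ hy; rw [smul_mul_assoc]; exact M.smul_mem a hy

lemma finite_RRing : Module.Finite (MvPowerSeries (Fin σ.d) F) (RRing θ) :=
  ⟨by
    rw [← eq_top_iff.2 (show ⊤ ≤ Submodule.span _ _ from fun x _ => mk_span θ x)]
    exact Submodule.fg_span (Set.finite_range _)⟩

/-- The `1` and the `W` upstairs. -/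
def wGen (o : Option (Fin σ.r)) : SRing θ :=
  o.elim 1 fun l => Ideal.Quotient.mk θ.idealS (X (Sum.inr l))

lemma up_span (x : SRing θ) : x ∈ Submodule.span (RRing θ) (Set.range (wGen θ)) := by
  obtain ⟨f, rfl⟩ := Ideal.Quotient.mk_surjective x
  set M := Submodule.span (RRing θ) (Set.range (wGen θ))
  have hone : (1 : SRing θ) ∈ M := Submodule.subset_span ⟨none, rfl⟩
  induction f using MvPolynomial.induction_on with
  | C a =>
    show algebraMap (MvPowerSeries (Fin σ.d) F) (SRing θ) a ∈ M
    rw [Algebra.algebraMap_eq_smul_one, ← IsScalarTower.algebraMap_smul (RRing θ)]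
    exact M.smul_mem _ hone
  | add f g hf hg => rw [map_add]; exact add_mem hf hg
  | mul_X f j hf =>
    rw [map_mul]
    rcases j with i | l
    · have h := M.smul_mem (tGen θ i) hf
      rw [Algebra.smul_def, tGen, up_mk, rename_X] at h
      convert h using 1
      exact mul_comm _ _
    refine Submodule.span_induction
      (p := fun y _ => y * Ideal.Quotient.mk θ.idealS (X (Sum.inr l)) ∈ M) ?_ (by simp) ?_ ?_ hf
    · rintro _ ⟨(_ | i), rfl⟩
      · exact Submodule.subset_span ⟨some l, by simp [wGen]⟩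
      · show Ideal.Quotient.mk θ.idealS (X (Sum.inr i)) * _ ∈ M
        rw [← map_mul, Ideal.Quotient.eq.2 (show _ ∈ θ.idealS from
          Ideal.subset_span (Or.inr ⟨(i, l), rfl⟩)), map_add, map_sum]
        refine add_mem ?_ (sum_mem fun k _ => ?_)
        · rw [← up_mk, Algebra.algebraMap_eq_smul_one]
          exact M.smul_mem _ hone
        · rw [map_mul, ← up_mk, ← Algebra.smul_def]
          exact M.smul_mem _ (Submodule.subset_span ⟨some k, rfl⟩)
    · intro y z _ _ hy hz; rw [add_mul]; exact add_mem hy hz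
    · intro a y _ hy; rw [smul_mul_assoc]; exact M.smul_mem a hy

lemma finite_up : Module.Finite (RRing θ) (SRing θ) :=
  ⟨by
    rw [← eq_top_iff.2 (show ⊤ ≤ Submodule.span _ _ from fun x _ => up_span θ x)]
    exact Submodule.fg_span (Set.finite_range _)⟩

variable {θ} (hθ : θ.IsModel fun i => MvPowerSeries.X i)

include hθ in
/-- The maps to and from a free module over the base, with composite `a`. -/
theorem exists_maps (ha : θ.a ≠ 0) (he : 0 < σ.e) :
    Nontrivial (RRing θ) ∧
      ∃ (s : (Fin σ.e → MvPowerSeries (Fin σ.d) F) →ₗ[MvPowerSeries (Fin σ.d) F] RRing θ)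
        (π : RRing θ →ₗ[MvPowerSeries (Fin σ.d) F] (Fin σ.e → MvPowerSeries (Fin σ.d) F)),
        ∀ u, π (s u) = θ.a • u := by
  classical
  let K := FractionRing (MvPowerSeries (Fin σ.d) F)
  let α := algebraMap (MvPowerSeries (Fin σ.d) F) K
  have hαi : Function.Injective α := IsFractionRing.injective _ _
  have hαa : α θ.a ≠ 0 := fun h => ha (hαi (by rw [h, map_zero]))
  let m := α.mapMatrix (m := Fin σ.e)
  have hsmul : ∀ (c : MvPowerSeries (Fin σ.d) F) M, m (c • M) = α c • m M := fun c M => by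
    ext; simp [m]
  let L : Fin σ.n → Matrix (Fin σ.e) (Fin σ.e) K := fun i => (α θ.a)⁻¹ • m (θ.lam i)
  have hL : ∀ i j, L i * L j = L j * L i := fun i j => by
    simp only [L, smul_mul_smul_comm, ← map_mul, hθ.lam_comm]
  obtain ⟨φ, hφ⟩ := exists_algHom_of_commute (A := MvPowerSeries (Fin σ.d) F) L hL
  have haff : ∀ c, φ (Param.aff c) = (α θ.a)⁻¹ • m (θ.affMat c) := by
    intro c
    simp only [Param.aff, map_add, map_sum, map_mul, hφ, ← MvPolynomial.algebraMap_eq,
      AlgHom.commutes]
    rw [Param.affMat, map_add, map_sum, hsmul, map_one, smul_add, Finset.smul_sum, smul_smul,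
      map_mul, inv_mul_cancel_left₀ hαa]
    congr 1
    · rw [Algebra.algebraMap_eq_smul_one, ← IsScalarTower.algebraMap_smul K]
    · refine Finset.sum_congr rfl fun i _ => ?_
      rw [← Algebra.smul_def, ← IsScalarTower.algebraMap_smul K, hsmul]
      simp only [L]
      rw [smul_comm]
  have hker : ∀ f ∈ θ.idealR, φ f = 0 := by
    intro f hf
    have h : θ.idealR ≤ RingHom.ker φ := by
      rw [Param.idealR, Ideal.span_le]
      rintro _ (⟨⟨i, j⟩, rfl⟩ | ⟨s, rfl⟩)
      · rw [SetLike.mem_coe, RingHom.mem_ker, map_sub, map_mul, hφ, hφ, haff, sub_eq_zero]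
        simp only [L, smul_mul_smul_comm, ← map_mul, hθ.lam_mul, hsmul, smul_smul]
        congr 1
        rw [mul_assoc, inv_mul_cancel₀ hαa, mul_one]
      · rw [SetLike.mem_coe, RingHom.mem_ker, haff, hθ.lam_rel, map_zero, smul_zero]
    exact h hf
  let ρ : RRing θ →ₐ[MvPowerSeries (Fin σ.d) F] Matrix (Fin σ.e) (Fin σ.e) K :=
    Ideal.Quotient.liftₐ θ.idealR φ hker
  have hρ : ∀ f, ρ (Ideal.Quotient.mk θ.idealR f) = φ f := fun f => rfl
  have : Nonempty (Fin σ.e) := ⟨⟨0, he⟩⟩
  refine ⟨ρ.toRingHom.domain_nontrivial, ?_⟩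
  let j : (Fin σ.e → MvPowerSeries (Fin σ.d) F) →ₗ[MvPowerSeries (Fin σ.d) F] (Fin σ.e → K) :=
    (Algebra.linearMap (MvPowerSeries (Fin σ.d) F) K).compLeft (Fin σ.e)
  have hj : Function.Injective j := fun u v h => funext fun i => hαi (congrFun h i)
  have hmv : ∀ M u, Matrix.mulVec (m M) (j u) = j (Matrix.mulVec M u) := fun M u => by
    funext i
    exact (RingHom.map_mulVec α M u i).symm
  let π₀ : RRing θ →ₗ[MvPowerSeries (Fin σ.d) F] (Fin σ.e → K) :=
    { toFun := fun x => Matrix.mulVec (ρ x) (j (θ.a • θ.v))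
      map_add' := fun x y => by rw [map_add, Matrix.add_mulVec]
      map_smul' := fun c x => by rw [map_smul, Matrix.smul_mulVec, RingHom.id_apply] }
  have hgen : ∀ c, π₀ (Ideal.Quotient.mk θ.idealR (Param.aff c)) =
      j (Matrix.mulVec (θ.affMat c) θ.v) := by
    intro c
    show Matrix.mulVec (ρ _) _ = _
    rw [hρ, haff, map_smul, Matrix.smul_mulVec, Matrix.mulVec_smul, hmv,
      ← IsScalarTower.algebraMap_smul K θ.a, smul_smul, inv_mul_cancel₀ hαa, one_smul]
  have hmem : ∀ x, π₀ x ∈ LinearMap.range j := by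
    intro x
    refine (Submodule.span_le (p := (LinearMap.range j).comap π₀)).2 ?_ (mk_span θ x)
    rintro _ ⟨(_ | i), rfl⟩
    · refine ⟨θ.a • θ.v, ?_⟩
      show j (θ.a • θ.v) = Matrix.mulVec (ρ 1) _
      rw [map_one, Matrix.one_mulVec]
    · refine ⟨Matrix.mulVec (θ.lam i) θ.v, ?_⟩
      show _ = Matrix.mulVec (ρ (tGen θ i)) _
      rw [tGen, hρ, hφ, map_smul, Matrix.smul_mulVec, Matrix.mulVec_smul, hmv,
        ← IsScalarTower.algebraMap_smul K θ.a, smul_smul, inv_mul_cancel₀ hαa, one_smul]
  refine ⟨Fintype.linearCombination (MvPowerSeries (Fin σ.d) F) fun k =>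
      Ideal.Quotient.mk θ.idealR (Param.aff (θ.cc k)),
    ((LinearEquiv.ofInjective j hj).symm : _ →ₗ[MvPowerSeries (Fin σ.d) F] _).comp
      (π₀.codRestrict (LinearMap.range j) hmem), fun u => ?_⟩
  refine hj ?_
  rw [LinearMap.comp_apply, LinearEquiv.coe_coe]
  have h1 : ∀ y, j ((LinearEquiv.ofInjective j hj).symm y) = (y : Fin σ.e → K) := fun y => by
    rw [← LinearEquiv.ofInjective_apply (f := j) (h := hj), LinearEquiv.apply_symm_apply]
  rw [h1, LinearMap.codRestrict_apply, Fintype.linearCombination_apply, map_sum]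
  simp only [map_smul, hgen, hθ.orbit]
  simp only [← map_smul, ← map_sum]
  congr 1
  funext k
  simp [Finset.sum_apply, Pi.single_apply, mul_comm]

include hθ in
/-- The upper ring is free over the lower one, and the constant coordinate splits the inclusion. -/
theorem exists_coord :
    Module.Flat (RRing θ) (SRing θ) ∧
      ∃ coord : SRing θ →ₗ[MvPowerSeries (Fin σ.d) F] RRing θ,
        ∀ c, coord (algebraMap (RRing θ) (SRing θ) c) = c := by
  classical
  let q := Ideal.Quotient.mk θ.idealR
  let m := q.mapMatrix (m := Option (Fin σ.r))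
  let M : Fin σ.r → Matrix (Option (Fin σ.r)) (Option (Fin σ.r)) (RRing θ) :=
    fun i => m (θ.mulMat i)
  have hzero : ∀ Y : Matrix (Option (Fin σ.r)) (Option (Fin σ.r))
      (MvPolynomial (Fin σ.n) (MvPowerSeries (Fin σ.d) F)),
      (∀ a b, Y a b ∈ θ.idealR) → m Y = 0 := fun Y h => by
    ext a b
    exact Ideal.Quotient.eq_zero_iff_mem.2 (h a b)
  have hcomm : ∀ i j, M i * M j = M j * M i := fun i j => by
    rw [← sub_eq_zero]
    simp only [M, ← map_mul, ← map_sub]
    exact hzero _ (hθ.nu_comm i j)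
  have hsmul : ∀ c Y, m (c • Y) = q c • m Y := fun c Y => by ext; simp [m]
  have hmul : ∀ i j, M i * M j = algebraMap (RRing θ) _ (q (Param.aff (θ.nu i j none))) +
      ∑ l, algebraMap (RRing θ) _ (q (Param.aff (θ.nu i j (some l)))) * M l := by
    intro i j
    rw [← sub_eq_zero]
    have h := hzero _ (hθ.nu_mul i j)
    rw [map_sub, map_sub, map_mul, map_sum, hsmul, map_one] at h
    rw [← h]
    simp only [hsmul, Algebra.algebraMap_eq_smul_one, smul_mul_assoc, one_mul, M]
    abel
  let t : Fin σ.n ⊕ Fin σ.r → Matrix (Option (Fin σ.r)) (Option (Fin σ.r)) (RRing θ) :=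
    Sum.elim (fun i => algebraMap (RRing θ) _ (tGen θ i)) M
  have ht : ∀ i j, t i * t j = t j * t i := by
    rintro (i | i) (j | j)
    · exact Algebra.commutes _ _
    · exact Algebra.commutes _ _
    · exact (Algebra.commutes _ _).symm
    · exact hcomm i j
  obtain ⟨φ, hφ⟩ := exists_algHom_of_commute (A := MvPowerSeries (Fin σ.d) F) t ht
  have hren : ∀ f, φ (rename Sum.inl f) = algebraMap (RRing θ) _ (q f) := by
    intro f
    have h : φ.comp (rename Sum.inl) =
        (IsScalarTower.toAlgHom (MvPowerSeries (Fin σ.d) F) (RRing θ)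
          (Matrix (Option (Fin σ.r)) (Option (Fin σ.r)) (RRing θ))).comp
            (Ideal.Quotient.mkₐ _ θ.idealR) :=
      MvPolynomial.algHom_ext fun i => by simp [hφ, t, tGen]
    exact DFunLike.congr_fun h f
  have hker : ∀ f ∈ θ.idealS, φ f = 0 := by
    intro f hf
    have h : θ.idealS ≤ RingHom.ker φ := by
      rw [Param.idealS, Ideal.span_le]
      rintro _ (⟨g, hg, rfl⟩ | ⟨⟨i, j⟩, rfl⟩)
      · rw [SetLike.mem_coe, RingHom.mem_ker, hren,
          show q g = 0 from Ideal.Quotient.eq_zero_iff_mem.2 (Ideal.subset_span hg), map_zero]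
      · rw [SetLike.mem_coe, RingHom.mem_ker]
        simp only [map_sub, map_mul, map_add, map_sum, hren, hφ, t, Sum.elim_inr]
        rw [hmul, sub_self]
    exact h hf
  let Φ : SRing θ →ₐ[MvPowerSeries (Fin σ.d) F]
      Matrix (Option (Fin σ.r)) (Option (Fin σ.r)) (RRing θ) :=
    Ideal.Quotient.liftₐ θ.idealS φ hker
  have hΦ : ∀ c, Φ (algebraMap (RRing θ) (SRing θ) c) = algebraMap (RRing θ) _ c := by
    intro c
    obtain ⟨f, rfl⟩ := Ideal.Quotient.mk_surjective c
    exact hren f
  have hw : ∀ o row, Φ (wGen θ o) row none = if row = o then 1 else 0 := by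
    rintro (_ | l) row
    · simp [wGen, Matrix.one_apply]
    · show φ (X (Sum.inr l)) row none = _
      rw [hφ]
      simp only [t, Sum.elim_inr, M, m, RingHom.mapMatrix_apply, Matrix.map_apply]
      simp [Param.mulMat, apply_ite q]
  refine ⟨?_, (Matrix.entryLinearMap _ _ none none).comp Φ.toLinearMap, fun c => ?_⟩
  · let lc := Fintype.linearCombination (RRing θ) (wGen θ)
    have hinj : Function.Injective lc := by
      rw [injective_iff_map_eq_zero]
      intro c hc
      funext o
      rcases o with _ | l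
      · have h := congrArg (fun y => Φ y none none) hc
        simpa [lc, Fintype.linearCombination_apply, Algebra.smul_def, hΦ, Matrix.sum_apply, hw,
          Matrix.algebraMap_eq_diagonal, Matrix.diagonal_mul] using h
      · have h := congrArg (fun y => Φ y (some l) none) hc
        simpa [lc, Fintype.linearCombination_apply, Algebra.smul_def, hΦ, Matrix.sum_apply, hw,
          Matrix.algebraMap_eq_diagonal, Matrix.diagonal_mul] using h
    have hsurj : Function.Surjective lc := by
      rw [← LinearMap.range_eq_top, Fintype.range_linearCombination]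
      exact eq_top_iff.2 fun x _ => up_span θ x
    exact Module.Flat.of_linearEquiv (LinearEquiv.ofBijective lc ⟨hinj, hsurj⟩).symm
  · simp [hΦ, Matrix.algebraMap_eq_diagonal]

end

end Vale.Agent.P202.Realise
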