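import Mathlib

/-!
A system of polynomials cutting out, generically, the relations of a tuple over a subring:
`h` relations with nonzero `h × h` Jacobian minor generate all relations after localisation.
-/

namespace Vale.Agent.P202

open MvPolynomial

variable {B : Type*} [CommRing B]

/-- Pseudo division: a power of the leading coefficient times `P` is a multiple of `p` plus a
remainder of smaller degree. -/
theorem exists_pseudo_div (p : Polynomial B) (hp : p ≠ 0) (P : Polynomial B) :
    ∃ (N : ℕ) (q r : Polynomial B), Polynomial.C (p.leadingCoeff ^ N) * P = q * p + r ∧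
      r.degree < p.degree := by
  induction hn : P.natDegree using Nat.strong_induction_on generalizing P with
  | _ n ih =>
    subst hn
    by_cases hlt : P.degree < p.degree
    · exact ⟨0, 0, P, by simp, hlt⟩
    push Not at hlt
    have hP : P ≠ 0 := by
      rintro rfl
      exact hp (Polynomial.degree_eq_bot.1 (le_bot_iff.1 (by simpa using hlt)))
    have hle : p.natDegree ≤ P.natDegree := Polynomial.natDegree_le_natDegree hlt
    set P' := Polynomial.C p.leadingCoeff * P -
      Polynomial.C P.leadingCoeff * Polynomial.X ^ (P.natDegree - p.natDegree) * p with hP'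
    have hdeg : P'.natDegree ≤ P.natDegree := by
      refine (Polynomial.natDegree_sub_le _ _).trans (max_le (Polynomial.natDegree_C_mul_le _ _) ?_)
      refine Polynomial.natDegree_mul_le.trans ?_
      have := (Polynomial.natDegree_C_mul_le P.leadingCoeff
        (Polynomial.X ^ (P.natDegree - p.natDegree) : Polynomial B)).trans
          (Polynomial.natDegree_X_pow_le _)
      omega
    have htop : P'.coeff P.natDegree = 0 := by
      rw [hP', Polynomial.coeff_sub, Polynomial.coeff_C_mul, mul_assoc, Polynomial.coeff_C_mul,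
        Polynomial.coeff_X_pow_mul', if_pos (Nat.sub_le _ _)]
      rw [Nat.sub_sub_self hle, Polynomial.coeff_natDegree, Polynomial.coeff_natDegree]
      ring
    by_cases hP0 : P' = 0
    · refine ⟨1, Polynomial.C P.leadingCoeff * Polynomial.X ^ (P.natDegree - p.natDegree), 0,
        ?_, ?_⟩
      · rw [pow_one, add_zero]
        exact sub_eq_zero.1 hP0
      · simpa [bot_lt_iff_ne_bot, Polynomial.degree_eq_bot] using hp
    have hlt' : P'.natDegree < P.natDegree := by
      refine lt_of_le_of_ne hdeg fun he => hP0 ?_
      rw [← Polynomial.leadingCoeff_eq_zero, Polynomial.leadingCoeff, he, htop]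
    obtain ⟨N, q, r, hqr, hr⟩ := ih _ hlt' P' rfl
    refine ⟨N + 1, q + Polynomial.C (p.leadingCoeff ^ N) * Polynomial.C P.leadingCoeff *
      Polynomial.X ^ (P.natDegree - p.natDegree), r, ?_, hr⟩
    rw [hP', mul_sub] at hqr
    rw [pow_succ, map_mul]
    linear_combination hqr

/-- Evaluation through `finSuccEquiv`. -/
theorem eval₂_finSucc {K : Type*} [CommRing K] (ι : B →+* K) {m : ℕ} (y : Fin (m + 1) → K)
    (F : MvPolynomial (Fin (m + 1)) B) :
    eval₂ ι y F
      = (finSuccEquiv B m F).eval₂ (eval₂Hom ι fun i => y i.succ) (y 0) := by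
  have key : eval₂Hom ι y = (Polynomial.eval₂RingHom (eval₂Hom ι fun i => y i.succ) (y 0)).comp
      (finSuccEquiv B m).toRingHom := by
    refine ringHom_ext (fun b => ?_) fun i => ?_
    · simp [finSuccEquiv_apply]
    · refine Fin.cases ?_ (fun j => ?_) i <;> simp [finSuccEquiv_apply]
  exact congrArg (fun φ : _ →+* K => φ F) key

theorem finSuccEquiv_rename_succ {m : ℕ} (F : MvPolynomial (Fin m) B) :
    finSuccEquiv B m (rename Fin.succ F) = Polynomial.C F := by
  induction F using MvPolynomial.induction_on with
  | C a => simp [finSuccEquiv_apply]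
  | add p q hp hq => simp [hp, hq]
  | mul_X p i hp => simp [hp, finSuccEquiv_X_succ]

theorem finSuccEquiv_pderiv_zero {m : ℕ} (F : MvPolynomial (Fin (m + 1)) B) :
    finSuccEquiv B m (pderiv 0 F) = Polynomial.derivative (finSuccEquiv B m F) := by
  induction F using MvPolynomial.induction_on with
  | C a => simp [finSuccEquiv_apply]
  | add p q hp hq => simp [hp, hq]
  | mul_X p i hp =>
    refine Fin.cases ?_ (fun j => ?_) i
    · rw [pderiv_mul, pderiv_X_self]
      simp [hp, finSuccEquiv_X_zero]
    · rw [pderiv_mul, pderiv_X_of_ne (Fin.succ_ne_zero j)]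
      simp [hp, finSuccEquiv_X_succ]

/-- If all coefficients of `P` lie, after multiplication by one element that does not vanish,
in an ideal, then so does `P`. -/
theorem exists_mul_mem_of_forall_coeff {K : Type*} [CommRing K] [IsDomain K] (e : B →+* K)
    (I : Ideal B) (P : Polynomial B) (h : ∀ j, ∃ g, e g ≠ 0 ∧ g * P.coeff j ∈ I) :
    ∃ g, e g ≠ 0 ∧ Polynomial.C g * P ∈ I.map Polynomial.C := by
  choose g hg hgI using h
  refine ⟨∏ j ∈ P.support, g j, ?_, ?_⟩
  · rw [map_prod]
    exact Finset.prod_ne_zero_iff.2 fun j _ => hg j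
  · rw [Ideal.mem_map_C_iff]
    intro j
    rw [Polynomial.coeff_C_mul]
    by_cases hj : j ∈ P.support
    · obtain ⟨b, hb⟩ := Finset.dvd_prod_of_mem g hj
      rw [hb, mul_comm (g j) b, mul_assoc]
      exact I.mul_mem_left _ (hgI j)
    · rw [Polynomial.notMem_support_iff.1 hj, mul_zero]
      exact I.zero_mem

/-- `h` relations of `y` over `B` with an `h × h` Jacobian minor not vanishing at `y`, generating
all relations of `y` up to a factor not vanishing at `y`. -/
theorem exists_smooth_system {K : Type*} [CommRing K] [IsDomain K] [CharZero K] (ι : B →+* K)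
    (hι : Function.Injective ι) (m : ℕ) (y : Fin m → K) :
    ∃ (h : ℕ) (v : Fin h → Fin m) (f : Fin h → MvPolynomial (Fin m) B),
      Function.Injective v ∧ (∀ i, eval₂ ι y (f i) = 0) ∧
      (Matrix.of fun i j => eval₂ ι y (pderiv (v j) (f i))).det ≠ 0 ∧
      ∀ F, eval₂ ι y F = 0 → ∃ g, eval₂ ι y g ≠ 0 ∧ g * F ∈ Ideal.span (Set.range f) := by
  induction m with
  | zero =>
    refine ⟨0, Fin.elim0, Fin.elim0, fun i => i.elim0, fun i => i.elim0, by simp,
      fun F hF => ⟨1, by simp, ?_⟩⟩
    obtain ⟨b, rfl⟩ := C_surjective (Fin 0) F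
    rw [eval₂_C, ← map_zero ι] at hF
    simp [hι hF]
  | succ m IH =>
    obtain ⟨h, v, f, hv, hf, hdet, hrel⟩ := IH fun i => y i.succ
    set e : MvPolynomial (Fin m) B →+* K := eval₂Hom ι fun i => y i.succ with he
    set φ := finSuccEquiv B m with hφ
    have hev : ∀ F, eval₂ ι y F = (φ F).eval₂ e (y 0) := eval₂_finSucc ι y
    have hren : ∀ F, eval₂ ι y (rename Fin.succ F) = e F := fun F => by
      rw [eval₂_rename]; rfl
    set I := Ideal.span (Set.range f) with hI
    have hker : ∀ c, e c = 0 → ∃ g, e g ≠ 0 ∧ g * c ∈ I := hrel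
    set f' : Fin h → MvPolynomial (Fin (m + 1)) B := fun i => rename Fin.succ (f i) with hf'
    have hspan : ∀ G, φ G ∈ I.map Polynomial.C → G ∈ Ideal.span (Set.range f') := by
      intro G hG
      rw [← Ideal.apply_mem_of_equiv_iff (f := φ.toRingEquiv), Ideal.map_span]
      rw [hI, Ideal.map_span] at hG
      refine Ideal.span_mono ?_ hG
      rintro _ ⟨_, ⟨i, rfl⟩, rfl⟩
      exact ⟨f' i, ⟨i, rfl⟩, finSuccEquiv_rename_succ _⟩
    have hJ : ∀ i j, eval₂ ι y (pderiv (v j).succ (f' i))
        = eval₂ ι (fun i => y i.succ) (pderiv (v j) (f i)) := fun i j => by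
      rw [hf', pderiv_rename (Fin.succ_injective m), hren]
      rfl
    by_cases hA : ∀ p : Polynomial (MvPolynomial (Fin m) B), p.eval₂ e (y 0) = 0 → p.map e = 0
    · refine ⟨h, fun j => (v j).succ, f', (Fin.succ_injective m).comp hv, fun i => ?_, ?_,
        fun F hF => ?_⟩
      · rw [hf', hren]
        exact hf i
      · simpa only [hJ] using hdet
      · have h0 := hA _ ((hev F).symm.trans hF)
        obtain ⟨g, hg, hgF⟩ := exists_mul_mem_of_forall_coeff e I (φ F) fun j => hker _ (by
          rw [← Polynomial.coeff_map, h0, Polynomial.coeff_zero])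
        refine ⟨rename Fin.succ g, by rwa [hren], hspan _ ?_⟩
        rwa [map_mul, hφ, finSuccEquiv_rename_succ]
    · push Not at hA
      obtain ⟨p, ⟨hp0, hpmap⟩, hmin⟩ : ∃ p : Polynomial (MvPolynomial (Fin m) B),
          (p.eval₂ e (y 0) = 0 ∧ p.map e ≠ 0) ∧
          ∀ q : Polynomial (MvPolynomial (Fin m) B),
            q.eval₂ e (y 0) = 0 ∧ q.map e ≠ 0 → p.natDegree ≤ q.natDegree := by
        classical
        have hex : ∃ n, ∃ p : Polynomial (MvPolynomial (Fin m) B),
            (p.eval₂ e (y 0) = 0 ∧ p.map e ≠ 0) ∧ p.natDegree = n := by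
          obtain ⟨p, h1, h2⟩ := hA
          exact ⟨_, p, ⟨h1, h2⟩, rfl⟩
        obtain ⟨p, hp, hpn⟩ := Nat.find_spec hex
        exact ⟨p, hp, fun q hq => hpn ▸ Nat.find_min' hex ⟨q, hq, rfl⟩⟩
      have hpne : p ≠ 0 := by
        rintro rfl
        simp at hpmap
      have hlead : e p.leadingCoeff ≠ 0 := by
        intro h0
        rcases Polynomial.eraseLead_natDegree_lt_or_eraseLead_eq_zero p with hlt | hz
        · have heq : p.eraseLead.map e = p.map e := by
            have := congrArg (Polynomial.map e) (Polynomial.eraseLead_add_C_mul_X_pow p)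
            rw [Polynomial.map_add, Polynomial.map_mul, Polynomial.map_C, h0, map_zero,
              zero_mul, add_zero] at this
            exact this
          refine absurd (hmin _ ⟨?_, by rwa [heq]⟩) (not_le.2 hlt)
          rw [← Polynomial.eval_map, heq, Polynomial.eval_map, hp0]
        · apply hpmap
          have := congrArg (Polynomial.map e) (Polynomial.eraseLead_add_C_mul_X_pow p)
          rw [Polynomial.map_add, Polynomial.map_mul, Polynomial.map_C, h0, map_zero,
            zero_mul, add_zero, hz, Polynomial.map_zero] at this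
          exact this.symm
      have hdeg : 0 < p.natDegree := by
        rw [Nat.pos_iff_ne_zero]
        intro h0
        obtain ⟨c, rfl⟩ : ∃ c, p = Polynomial.C c :=
          ⟨_, Polynomial.eq_C_of_natDegree_eq_zero h0⟩
        rw [Polynomial.eval₂_C] at hp0
        simp [hp0] at hpmap
      have hder : (Polynomial.derivative p).eval₂ e (y 0) ≠ 0 := by
        intro h0
        refine absurd (hmin _ ⟨h0, fun hz => ?_⟩)
          (not_le.2 (Polynomial.natDegree_derivative_lt hdeg.ne'))
        have hc := congrArg (fun q => Polynomial.coeff q (p.natDegree - 1)) hz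
        simp only [Polynomial.coeff_map, Polynomial.coeff_derivative, Polynomial.coeff_zero,
          Nat.sub_add_cancel hdeg, map_mul, map_natCast, map_add, map_one] at hc
        rw [mul_eq_zero] at hc
        rcases hc with hc | hc
        · exact hlead hc
        · rw [← Nat.cast_add_one, Nat.cast_eq_zero] at hc
          omega
      have hv' : Function.Injective (Fin.cons 0 fun j => (v j).succ : Fin (h + 1) → Fin (m + 1)) :=
        Fin.cons_injective_iff.2 ⟨fun ⟨j, hj⟩ => Fin.succ_ne_zero _ hj,
          (Fin.succ_injective m).comp hv⟩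
      refine ⟨h + 1, Fin.cons 0 fun j => (v j).succ, Fin.cons (φ.symm p) f', hv', ?_, ?_,
        fun F hF => ?_⟩
      · refine Fin.cases ?_ fun i => ?_
        · rw [Fin.cons_zero, hev, AlgEquiv.apply_symm_apply, hp0]
        · rw [Fin.cons_succ, hf', hren]
          exact hf i
      · rw [Matrix.det_succ_column_zero, Fin.sum_univ_succ, Finset.sum_eq_zero, add_zero]
        · refine mul_ne_zero (mul_ne_zero (pow_ne_zero _ (neg_ne_zero.2 one_ne_zero)) ?_) ?_
          · simpa [hev, hφ, finSuccEquiv_pderiv_zero] using hder
          · refine ne_of_eq_of_ne (congrArg Matrix.det ?_) hdet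
            ext i j
            simp [hJ]
        · intro i _
          have : pderiv 0 (f' i) = 0 := by
            apply φ.injective
            rw [hφ, finSuccEquiv_pderiv_zero, hf', finSuccEquiv_rename_succ,
              Polynomial.derivative_C, map_zero]
          simp [this]
      · obtain ⟨N, q, r, hqr, hr⟩ := exists_pseudo_div p hpne (φ F)
        have hr0 : r.map e = 0 := by
          by_contra hne
          have hev0 : r.eval₂ e (y 0) = 0 := by
            have := congrArg (fun P => P.eval₂ e (y 0)) hqr
            simp only [Polynomial.eval₂_mul, Polynomial.eval₂_add, hp0, mul_zero, zero_add,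
              ← hev, hF] at this
            exact this.symm
          exact absurd (hmin r ⟨hev0, hne⟩) (not_le.2 (Polynomial.natDegree_lt_natDegree
            (fun h0 => hne (by simp [h0])) hr))
        obtain ⟨g, hg, hgr⟩ := exists_mul_mem_of_forall_coeff e I r fun j => hker _ (by
          rw [← Polynomial.coeff_map, hr0, Polynomial.coeff_zero])
        refine ⟨rename Fin.succ (g * p.leadingCoeff ^ N), by
          rw [hren, map_mul, map_pow]; exact mul_ne_zero hg (pow_ne_zero _ hlead), ?_⟩
        rw [Fin.range_cons, Ideal.span_insert, Submodule.mem_sup]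
        refine ⟨φ.symm (Polynomial.C g * q) * φ.symm p, Ideal.mem_span_singleton'.2 ⟨_, rfl⟩,
          φ.symm (Polynomial.C g * r), hspan _ (by rwa [AlgEquiv.apply_symm_apply]), ?_⟩
        apply φ.injective
        simp only [map_add, map_mul, AlgEquiv.apply_symm_apply, hφ, finSuccEquiv_rename_succ]
        linear_combination (-(Polynomial.C g)) * hqr

end Vale.Agent.P202
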