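import Mathlib

/-!
Power series: order ideals, integer polynomials as series, the splitting off of the first
variable, and integral linear changes of coordinates making a series regular.
-/

namespace Vale.Agent.P202

open MvPowerSeries

variable {σ R S : Type*} [CommRing R] [CommRing S]

/-- The series all of whose coefficients of degree below `c` vanish. -/
def ordGE (σ R : Type*) [CommRing R] (c : ℕ) : Ideal (MvPowerSeries σ R) where
  carrier := {φ | (c : ℕ∞) ≤ φ.order}
  add_mem' {a b} ha hb := (le_min ha hb).trans min_order_le_add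
  zero_mem' := by simp
  smul_mem' a b hb := hb.trans ((le_add_self : b.order ≤ a.order + b.order).trans le_order_mul)

theorem mem_ordGE_iff {c : ℕ} {φ : MvPowerSeries σ R} :
    φ ∈ ordGE σ R c ↔ ∀ e, Finsupp.degree e < c → coeff e φ = 0 :=
  ⟨fun h _ he => coeff_of_lt_order (lt_of_lt_of_le (Nat.cast_lt.2 he) h), nat_le_order⟩

theorem span_X_pow_le_ordGE (c : ℕ) :
    Ideal.span (Set.range (X : σ → MvPowerSeries σ R)) ^ c ≤ ordGE σ R c := by
  induction c with
  | zero => exact fun φ _ => by simp [mem_ordGE_iff]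
  | succ c ih =>
    rw [pow_succ, Ideal.mul_le]
    intro a ha b hb
    have hb' : 1 ≤ b.order := by
      rw [one_le_order_iff_constCoeff_eq_zero]
      have hle : Ideal.span (Set.range (X : σ → MvPowerSeries σ R))
          ≤ RingHom.ker constantCoeff := by
        refine Ideal.span_le.2 ?_
        rintro _ ⟨i, rfl⟩
        simp
      exact hle hb
    show ((c + 1 : ℕ) : ℕ∞) ≤ (a * b).order
    rw [Nat.cast_add, Nat.cast_one]
    exact (add_le_add (ih ha) hb').trans le_order_mul

theorem map_mem_ordGE (g : R →+* S) {c : ℕ} {φ : MvPowerSeries σ R} (h : φ ∈ ordGE σ R c) :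
    map g φ ∈ ordGE σ S c :=
  le_trans h (le_order_map g)

/-- A series with coefficients in the range of a ring map is the image of a series. -/
theorem exists_map_eq (g : R →+* S) {φ : MvPowerSeries σ S} (h : ∀ e, coeff e φ ∈ g.range) :
    ∃ ψ : MvPowerSeries σ R, map g ψ = φ := by
  choose f hf using h
  exact ⟨f, MvPowerSeries.ext fun e => hf e⟩

/-- Integer polynomials as power series. -/
noncomputable def polyToSeries (R : Type*) [CommRing R] (d : ℕ) :
    MvPolynomial (Fin d) ℤ →+* MvPowerSeries (Fin d) R :=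
  (MvPolynomial.aeval fun i => (X i : MvPowerSeries (Fin d) R)).toRingHom

theorem polyToSeries_X {d : ℕ} (i : Fin d) :
    polyToSeries R d (MvPolynomial.X i) = X i :=
  MvPolynomial.aeval_X _ i

theorem polyToSeries_eq (d : ℕ) : polyToSeries R d
    = (MvPolynomial.coeToMvPowerSeries.ringHom).comp (MvPolynomial.map (Int.castRingHom R)) := by
  refine MvPolynomial.ringHom_ext' (Subsingleton.elim _ _) fun i => ?_
  rw [polyToSeries_X, RingHom.comp_apply, MvPolynomial.map_X,
    MvPolynomial.coeToMvPowerSeries.ringHom_apply, MvPolynomial.coe_X]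

theorem polyToSeries_injective [CharZero R] (d : ℕ) :
    Function.Injective (polyToSeries R d) := by
  rw [polyToSeries_eq]
  intro a b h
  exact MvPolynomial.map_injective (Int.castRingHom R) (RingHom.injective_int _)
    (MvPolynomial.coe_injective (Fin d) R h)

theorem map_comp_polyToSeries (g : R →+* S) (d : ℕ) :
    (map g).comp (polyToSeries R d) = polyToSeries S d := by
  refine MvPolynomial.ringHom_ext' (Subsingleton.elim _ _) fun i => ?_
  rw [RingHom.comp_apply, polyToSeries_X, map_X, polyToSeries_X]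

theorem finSuccEquiv_map (g : R →+* S) {d : ℕ} (φ : MvPowerSeries (Fin (d + 1)) R) :
    finSuccEquiv S d (map g φ) = PowerSeries.map (map g) (finSuccEquiv R d φ) := by
  ext n x
  rw [PowerSeries.coeff_map, coeff_map, coeff_coeff_finSuccEquiv, coeff_map,
    coeff_coeff_finSuccEquiv]

theorem mem_ordGE_of_finSucc {d c : ℕ} {φ : MvPowerSeries (Fin (d + 1)) R}
    (h : ∀ n, PowerSeries.coeff n (finSuccEquiv R d φ) ∈ ordGE (Fin d) R c) :
    φ ∈ ordGE (Fin (d + 1)) R c := by
  rw [mem_ordGE_iff]
  intro e he
  have h1 := mem_ordGE_iff.1 (h (e 0)) (Finsupp.tail e) (lt_of_le_of_lt ?_ he)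
  · rwa [coeff_coeff_finSuccEquiv, Finsupp.cons_tail] at h1
  · simp [Finsupp.degree_eq_sum, Fin.sum_univ_succ, Finsupp.tail_apply]

/-- The polynomials of the linear change of coordinates `x_{j+1} ↦ x_{j+1} + c_j x_0`. -/
noncomputable def shiftPoly {d : ℕ} (c : Fin d → ℤ) : Fin (d + 1) → MvPolynomial (Fin (d + 1)) ℤ :=
  Fin.cons (MvPolynomial.X 0) fun j =>
    MvPolynomial.X j.succ + MvPolynomial.C (c j) * MvPolynomial.X 0

/-- The change of coordinates on polynomials. -/
noncomputable def shiftB {d : ℕ} (c : Fin d → ℤ) :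
    MvPolynomial (Fin (d + 1)) ℤ →+* MvPolynomial (Fin (d + 1)) ℤ :=
  (MvPolynomial.aeval (shiftPoly c)).toRingHom

/-- The change of coordinates as series. -/
noncomputable def shiftSeries (R : Type*) [CommRing R] {d : ℕ} (c : Fin d → ℤ) :
    Fin (d + 1) → MvPowerSeries (Fin (d + 1)) R :=
  fun i => polyToSeries R (d + 1) (shiftPoly c i)

theorem constantCoeff_shiftSeries {d : ℕ} (c : Fin d → ℤ) (i : Fin (d + 1)) :
    constantCoeff (shiftSeries R c i) = 0 := by
  refine Fin.cases ?_ (fun j => ?_) i <;> simp [shiftSeries, shiftPoly, polyToSeries_X]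

theorem hasSubst_shiftSeries {d : ℕ} (c : Fin d → ℤ) : HasSubst (shiftSeries R c) :=
  hasSubst_of_constantCoeff_zero (constantCoeff_shiftSeries c)

/-- The change of coordinates on series. -/
noncomputable def shiftHom (R : Type*) [CommRing R] {d : ℕ} (c : Fin d → ℤ) :
    MvPowerSeries (Fin (d + 1)) R →+* MvPowerSeries (Fin (d + 1)) R :=
  (substAlgHom (hasSubst_shiftSeries c)).toRingHom

theorem shiftHom_apply {d : ℕ} (c : Fin d → ℤ) (φ : MvPowerSeries (Fin (d + 1)) R) :
    shiftHom R c φ = subst (shiftSeries R c) φ :=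
  substAlgHom_apply _ φ

theorem shiftHom_polyToSeries {d : ℕ} (c : Fin d → ℤ) (p : MvPolynomial (Fin (d + 1)) ℤ) :
    shiftHom R c (polyToSeries R (d + 1) p) = polyToSeries R (d + 1) (shiftB c p) := by
  have key : (shiftHom R c).comp (polyToSeries R (d + 1))
      = (polyToSeries R (d + 1)).comp (shiftB c) := by
    refine MvPolynomial.ringHom_ext' (Subsingleton.elim _ _) fun i => ?_
    rw [RingHom.comp_apply, polyToSeries_X, shiftHom_apply, subst_X (hasSubst_shiftSeries c),
      RingHom.comp_apply]
    exact congrArg (polyToSeries R (d + 1)) (MvPolynomial.aeval_X (shiftPoly c) i).symm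
  exact DFunLike.congr_fun key p

theorem shiftHom_shiftHom_neg {d : ℕ} (c : Fin d → ℤ) (φ : MvPowerSeries (Fin (d + 1)) R) :
    shiftHom R (-c) (shiftHom R c φ) = φ := by
  rw [shiftHom_apply c, shiftHom_apply,
    subst_comp_subst_apply (hasSubst_shiftSeries c) (hasSubst_shiftSeries (-c))]
  have hX : (fun i => subst (shiftSeries R (-c)) (shiftSeries R c i))
      = (X : Fin (d + 1) → MvPowerSeries (Fin (d + 1)) R) := by
    funext i
    rw [← shiftHom_apply, show shiftSeries R c i = polyToSeries R (d + 1) (shiftPoly c i) from rfl,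
      shiftHom_polyToSeries]
    refine Eq.trans (congrArg _ ?_) (polyToSeries_X i)
    refine Fin.cases ?_ (fun j => ?_) i <;> simp [shiftB, shiftPoly]
  rw [hX, subst_self]
  rfl

theorem map_shiftHom (g : R →+* S) {d : ℕ} (c : Fin d → ℤ)
    (φ : MvPowerSeries (Fin (d + 1)) R) :
    map g (shiftHom R c φ) = shiftHom S c (map g φ) := by
  rw [shiftHom_apply, shiftHom_apply, map_subst (hasSubst_shiftSeries c)]
  congr 1
  funext i
  exact DFunLike.congr_fun (map_comp_polyToSeries g (d + 1)) (shiftPoly c i)

theorem shiftHom_mem_ordGE {d : ℕ} (c : Fin d → ℤ) {n : ℕ}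
    {φ : MvPowerSeries (Fin (d + 1)) R} (h : φ ∈ ordGE _ R n) :
    shiftHom R c φ ∈ ordGE _ R n := by
  rw [shiftHom_apply]
  show ((n : ℕ) : ℕ∞) ≤ _
  refine le_trans ?_ (le_order_subst (hasSubst_shiftSeries c) φ)
  refine le_trans (le_trans h (one_mul φ.order).symm.le) (mul_le_mul' ?_ le_rfl)
  exact le_iInf fun i => one_le_order_iff_constCoeff_eq_zero.2 (constantCoeff_shiftSeries c i)

/-- Some integral change of coordinates makes a nonzero series regular in the first variable. -/
theorem exists_shift_regular {k : Type*} [Field k] [CharZero k] {d : ℕ}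
    {φ : MvPowerSeries (Fin (d + 1)) k} (hφ : φ ≠ 0) :
    ∃ c : Fin d → ℤ,
      PowerSeries.map constantCoeff (finSuccEquiv k d (shiftHom k c φ)) ≠ 0 := by
  classical
  obtain ⟨e₀, he₀, hn⟩ := exists_coeff_ne_zero_and_order (ne_zero_iff_order_finite.1 hφ)
  set n := Finsupp.degree e₀ with hn'
  set s := Finset.finsuppAntidiag (Finset.univ : Finset (Fin (d + 1))) n with hs
  have hmem : ∀ e : Fin (d + 1) →₀ ℕ, e ∈ s ↔ Finsupp.degree e = n := fun e => by
    rw [hs, Finset.mem_finsuppAntidiag]
    simp [Finsupp.degree_eq_sum]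
  set H : MvPolynomial (Fin d) k :=
    ∑ e ∈ s, MvPolynomial.monomial (Finsupp.tail e) (coeff e φ) with hH
  have hH0 : H ≠ 0 := by
    intro h
    have h1 := congrArg (MvPolynomial.coeff (Finsupp.tail e₀)) h
    rw [hH, MvPolynomial.coeff_sum, Finset.sum_eq_single e₀, MvPolynomial.coeff_monomial,
      if_pos rfl, MvPolynomial.coeff_zero] at h1
    · exact he₀ h1
    · intro e he hne
      rw [MvPolynomial.coeff_monomial, if_neg]
      intro ht
      apply hne
      have h2 := ((hmem e).1 he).trans hn'
      rw [Finsupp.degree_eq_sum, Finsupp.degree_eq_sum, Fin.sum_univ_succ, Fin.sum_univ_succ]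
        at h2
      have hj : ∀ j : Fin d, e j.succ = e₀ j.succ := fun j => by
        simpa [Finsupp.tail_apply] using DFunLike.congr_fun ht j
      simp only [hj, add_left_inj] at h2
      ext i
      exact Fin.cases h2 hj i
    · exact fun h' => absurd ((hmem e₀).2 hn'.symm) h'
  obtain ⟨c, hc⟩ : ∃ c : Fin d → ℤ, MvPolynomial.eval (fun j => (c j : k)) H ≠ 0 := by
    by_contra hall
    push Not at hall
    refine hH0 (MvPolynomial.funext_set (fun _ => Set.range (Int.cast : ℤ → k))
      (fun _ => Set.infinite_range_of_injective Int.cast_injective) fun x hx => ?_)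
    choose c hc using fun j => hx j (Set.mem_univ j)
    simpa [← funext hc] using hall c
  refine ⟨c, fun h0 => hc ?_⟩
  have hcoeff := congrArg (PowerSeries.coeff n) h0
  rw [PowerSeries.coeff_map, map_zero, ← coeff_zero_eq_constantCoeff_apply,
    coeff_coeff_finSuccEquiv, shiftHom_apply,
    coeff_subst (hasSubst_shiftSeries c)] at hcoeff
  set chat : Fin (d + 1) → k := Fin.cons 1 fun j => (c j : k) with hchat
  have hρ : ∀ i, PowerSeries.map constantCoeff (finSuccEquiv k d (shiftSeries k c i))
      = PowerSeries.C (chat i) * PowerSeries.X := by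
    intro i
    refine Fin.cases ?_ (fun j => ?_) i
    · simp [shiftSeries, shiftPoly, hchat, polyToSeries_X]
    · simp [shiftSeries, shiftPoly, hchat, polyToSeries_X]
  have hterm : ∀ e : Fin (d + 1) →₀ ℕ,
      coeff ((0 : Fin d →₀ ℕ).cons n) (e.prod fun i l => shiftSeries k c i ^ l)
        = if Finsupp.degree e = n then ∏ i, chat i ^ e i else 0 := by
    intro e
    rw [← coeff_coeff_finSuccEquiv, coeff_zero_eq_constantCoeff_apply, ← PowerSeries.coeff_map,
      Finsupp.prod_fintype _ _ (fun i => by simp), map_prod, map_prod]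
    simp only [map_pow, hρ, mul_pow, Finset.prod_mul_distrib, Finset.prod_pow_eq_pow_sum]
    rw [← Finset.prod_congr rfl fun i _ => map_pow PowerSeries.C (chat i) (e i), ← map_prod,
      PowerSeries.coeff_C_mul, PowerSeries.coeff_X_pow, ← Finsupp.degree_eq_sum, mul_ite,
      mul_one, mul_zero]
    exact if_congr eq_comm rfl rfl
  rw [finsum_eq_sum_of_support_subset _ (s := s)] at hcoeff
  · rw [← hcoeff, hH, map_sum]
    refine Finset.sum_congr rfl fun e he => ?_
    rw [hterm e, if_pos ((hmem e).1 he), MvPolynomial.eval_monomial,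
      Finsupp.prod_fintype _ _ (fun i => by simp), smul_eq_mul, Fin.prod_univ_succ]
    simp [hchat, Finsupp.tail_apply]
  · intro e he
    rw [Finset.mem_coe, hmem]
    by_contra hne
    exact he (by dsimp only; rw [hterm e, if_neg hne, smul_zero])

end Vale.Agent.P202
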