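import Vale.Agent.P202.ENewton
import Vale.Agent.P202.ESeries

/-!
The inductive step of approximation: by Weierstrass preparation a solution with a regular
Jacobian minor becomes, modulo the square of the minor, a polynomial in the first variable whose
coefficients solve a polynomial system in one variable less.
-/

universe u

namespace Vale.Agent.P202

open MvPolynomial

/-- Approximation of formal solutions in `d` variables. -/
def ApproxAt (k : Type u) [Field k] (d : ℕ) : Prop :=
  ∀ (U : Type) [Fintype U] (F : Finset (MvPolynomial U (MvPolynomial (Fin d) ℤ)))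
    (y₀ : U → MvPowerSeries (Fin d) k),
    (∀ f ∈ F, eval₂ (polyToSeries k d) y₀ f = 0) → ∀ c : ℕ,
    ∃ C : Subalgebra ℤ k, C.FG ∧ ∃ y : U → MvPowerSeries (Fin d) C,
      (∀ f ∈ F, eval₂ (polyToSeries C d) y f = 0) ∧
      ∀ i, MvPowerSeries.map C.val.toRingHom (y i) - y₀ i ∈ ordGE (Fin d) k c

theorem ordGE_antitone {σ R : Type*} [CommRing R] {a b : ℕ} (h : a ≤ b) :
    ordGE σ R b ≤ ordGE σ R a :=
  fun φ hφ => show (a : ℕ∞) ≤ φ.order from le_trans (Nat.cast_le.2 h) hφ

theorem map_eval₂_polyToSeries {R S : Type*} [CommRing R] [CommRing S] (g : R →+* S) {d : ℕ}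
    {U : Type*} (y : U → MvPowerSeries (Fin d) R) (p : MvPolynomial U (MvPolynomial (Fin d) ℤ)) :
    MvPowerSeries.map g (eval₂ (polyToSeries R d) y p)
      = eval₂ (polyToSeries S d) (fun i => MvPowerSeries.map g (y i)) p := by
  rw [eval₂_comp_left, map_comp_polyToSeries]
  rfl

theorem polyToSeries_finSucc {R : Type*} [CommRing R] (d : ℕ)
    (b : MvPolynomial (Fin (d + 1)) ℤ) :
    MvPowerSeries.finSuccEquiv R d (polyToSeries R (d + 1) b)
      = ((finSuccEquiv ℤ d b).map (polyToSeries R d) : PowerSeries (MvPowerSeries (Fin d) R)) := by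
  have key : (MvPowerSeries.finSuccEquiv R d).toRingHom.comp (polyToSeries R (d + 1))
      = (Polynomial.coeToPowerSeries.ringHom.comp (Polynomial.mapRingHom (polyToSeries R d))).comp
        (finSuccEquiv ℤ d).toRingHom := by
    refine ringHom_ext' (Subsingleton.elim _ _) fun i => ?_
    refine Fin.cases ?_ (fun j => ?_) i <;>
      simp [polyToSeries_X, finSuccEquiv_X_zero, finSuccEquiv_X_succ]
  exact DFunLike.congr_fun key b

/-- In finitely many variables over a field the variables generate the maximal ideal. -/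
theorem maximalIdeal_eq_span_X (k : Type u) [Field k] (d : ℕ) :
    IsLocalRing.maximalIdeal (MvPowerSeries (Fin d) k)
      = Ideal.span (Set.range MvPowerSeries.X) := by
  have hmem : ∀ x : MvPowerSeries (Fin d) k,
      x ∈ IsLocalRing.maximalIdeal (MvPowerSeries (Fin d) k)
        ↔ MvPowerSeries.constantCoeff x = 0 := fun x => by
    rw [IsLocalRing.mem_maximalIdeal, mem_nonunits_iff, MvPowerSeries.isUnit_iff_constantCoeff,
      isUnit_iff_ne_zero, not_not]
  refine le_antisymm (fun x hx => ?_) (Ideal.span_le.2 ?_)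
  · rw [hmem] at hx
    clear hmem
    induction d with
    | zero =>
      have : x = 0 := by
        ext e
        rw [Subsingleton.elim e 0, MvPowerSeries.coeff_zero_eq_constantCoeff_apply, hx, map_zero]
      simp [this]
    | succ d ih =>
      set Φ := MvPowerSeries.finSuccEquiv k d with hΦ
      have h0 : MvPowerSeries.constantCoeff (PowerSeries.constantCoeff (Φ x)) = 0 := by
        rw [← PowerSeries.coeff_zero_eq_constantCoeff_apply,
          ← MvPowerSeries.coeff_zero_eq_constantCoeff_apply, hΦ,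
          MvPowerSeries.coeff_coeff_finSuccEquiv, Finsupp.cons_zero_zero,
          MvPowerSeries.coeff_zero_eq_constantCoeff_apply, hx]
      have hle : (Ideal.span (Set.range MvPowerSeries.X)).map
          (Φ.symm.toRingHom.comp PowerSeries.C) ≤ Ideal.span (Set.range MvPowerSeries.X) := by
        rw [Ideal.map_span]
        refine Ideal.span_mono ?_
        rintro _ ⟨_, ⟨j, rfl⟩, rfl⟩
        exact ⟨j.succ, Φ.injective (by simp [hΦ])⟩
      have hsplit := PowerSeries.eq_X_mul_shift_add_const (Φ x)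
      have hx' : x = MvPowerSeries.X 0 *
            Φ.symm (PowerSeries.mk fun p => PowerSeries.coeff (p + 1) (Φ x))
          + Φ.symm (PowerSeries.C (PowerSeries.constantCoeff (Φ x))) := by
        apply Φ.injective
        rw [map_add, map_mul, AlgEquiv.apply_symm_apply, AlgEquiv.apply_symm_apply]
        conv_lhs => rw [hsplit]
        rw [hΦ, MvPowerSeries.finSuccEquiv_X_zero]
      rw [hx']
      exact add_mem (Ideal.mul_mem_right _ _ (Ideal.subset_span ⟨0, rfl⟩))
        (hle (Ideal.mem_map_of_mem _ (ih _ h0)))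
  · rintro _ ⟨i, rfl⟩
    rw [SetLike.mem_coe, hmem, MvPowerSeries.constantCoeff_X]

/-- A series multiple of a distinguished polynomial is a polynomial multiple. -/
theorem modByMonic_eq_zero_of_coe_eq_mul {A : Type*} [CommRing A] [IsLocalRing A]
    [IsHausdorff (IsLocalRing.maximalIdeal A) A] {M P : Polynomial A}
    (hM : M.IsDistinguishedAt (IsLocalRing.maximalIdeal A)) {s : PowerSeries A}
    (h : (P : PowerSeries A) = (M : PowerSeries A) * s) :
    P %ₘ M = 0 ∧ ((P /ₘ M : Polynomial A) : PowerSeries A) = s := by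
  have hF : (M : PowerSeries A).IsWeierstrassFactorization M 1 := ⟨hM, isUnit_one, by rw [mul_one]⟩
  have hord : ((M : PowerSeries A).map (IsLocalRing.residue A)).order.toNat = M.natDegree :=
    hF.natDegree_eq_toNat_order_map.symm
  have hne := hF.map_ne_zero
  have H1 : (P : PowerSeries A).IsWeierstrassDivision M (P /ₘ M : Polynomial A) (P %ₘ M) := by
    refine ⟨?_, ?_⟩
    · exact (Polynomial.degree_modByMonic_lt P hM.monic).trans_le
        ((Polynomial.degree_eq_natDegree hM.monic.ne_zero).le.trans (le_of_eq (by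
          exact_mod_cast hord.symm)))
    · rw [← Polynomial.coe_mul, ← Polynomial.coe_add, add_comm, Polynomial.modByMonic_add_div]
  have H2 : (P : PowerSeries A).IsWeierstrassDivision M s 0 := by
    refine ⟨?_, by rw [h, Polynomial.coe_zero, add_zero]⟩
    rw [Polynomial.degree_zero]
    exact WithBot.bot_lt_coe _
  obtain ⟨h1, h2⟩ := H1.elim hne H2
  exact ⟨h2, h1⟩

/-- The determinant of the polynomial Jacobian minor. -/
noncomputable def jacDet {B U : Type*} [CommRing B] {h : ℕ} (f : Fin h → MvPolynomial U B)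
    (v : Fin h → U) : MvPolynomial U B :=
  (Matrix.of fun i j => pderiv (v j) (f i)).det

theorem eval₂_jacDet {B R U : Type*} [CommRing B] [CommRing R] {h : ℕ} (φ : B →+* R) (z : U → R)
    (f : Fin h → MvPolynomial U B) (v : Fin h → U) :
    eval₂ φ z (jacDet f v)
      = (Matrix.of fun i j => eval₂ φ z (pderiv (v j) (f i))).det := by
  rw [jacDet, ← coe_eval₂Hom, RingHom.map_det]
  rfl

section Universal

variable (d r N : ℕ) (U : Type)

/-- The monic polynomial with unknown coefficients. -/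
noncomputable def uniMonic :
    Polynomial (MvPolynomial (Fin r ⊕ U × Fin N) (MvPolynomial (Fin d) ℤ)) :=
  Polynomial.X ^ r + ∑ l : Fin r, Polynomial.C (X (Sum.inl l)) * Polynomial.X ^ (l : ℕ)

/-- The polynomials of degree below `N` with unknown coefficients. -/
noncomputable def uniPoly (j : U) :
    Polynomial (MvPolynomial (Fin r ⊕ U × Fin N) (MvPolynomial (Fin d) ℤ)) :=
  ∑ l : Fin N, Polynomial.C (X (Sum.inr (j, l))) * Polynomial.X ^ (l : ℕ)

/-- Substitution of the polynomials with unknown coefficients. -/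
noncomputable def uniEval :
    MvPolynomial U (MvPolynomial (Fin (d + 1)) ℤ) →+*
      Polynomial (MvPolynomial (Fin r ⊕ U × Fin N) (MvPolynomial (Fin d) ℤ)) :=
  eval₂Hom ((Polynomial.mapRingHom C).comp (finSuccEquiv ℤ d).toRingHom) (uniPoly d r N U)

theorem monic_uniMonic : (uniMonic d r N U).Monic :=
  Polynomial.monic_X_pow_add (Polynomial.degree_sum_fin_lt _)

variable {d r N U}

/-- The series of the polynomials with given coefficients. -/
noncomputable def barSeries {R : Type*} [CommRing R]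
    (w : Fin r ⊕ U × Fin N → MvPowerSeries (Fin d) R) (j : U) :
    MvPowerSeries (Fin (d + 1)) R :=
  (MvPowerSeries.finSuccEquiv R d).symm
    ((uniPoly d r N U j).map (eval₂Hom (polyToSeries R d) w) :
      PowerSeries (MvPowerSeries (Fin d) R))

theorem finSucc_eval₂_barSeries {R : Type*} [CommRing R]
    (w : Fin r ⊕ U × Fin N → MvPowerSeries (Fin d) R)
    (p : MvPolynomial U (MvPolynomial (Fin (d + 1)) ℤ)) :
    MvPowerSeries.finSuccEquiv R d (eval₂ (polyToSeries R (d + 1)) (barSeries w) p)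
      = ((uniEval d r N U p).map (eval₂Hom (polyToSeries R d) w) :
          PowerSeries (MvPowerSeries (Fin d) R)) := by
  have key : (MvPowerSeries.finSuccEquiv R d).toRingHom.comp
        (eval₂Hom (polyToSeries R (d + 1)) (barSeries w))
      = (Polynomial.coeToPowerSeries.ringHom.comp
          (Polynomial.mapRingHom (eval₂Hom (polyToSeries R d) w))).comp (uniEval d r N U) := by
    refine ringHom_ext (fun b => ?_) fun j => ?_
    · simp only [RingHom.comp_apply, uniEval, eval₂Hom_C, Polynomial.coe_mapRingHom,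
        Polynomial.map_map]
      refine (polyToSeries_finSucc d b).trans ?_
      rw [show (eval₂Hom (polyToSeries R d) w).comp C = polyToSeries R d from
        RingHom.ext fun x => eval₂Hom_C _ _ x]
      rfl
    · simp [uniEval, barSeries]
  exact DFunLike.congr_fun key p

end Universal

/-- The inductive step, for a system whose Jacobian minor is regular in the first variable. -/
theorem approx_of_regular {k : Type u} [Field k] {d : ℕ} (hIH : ApproxAt k d) {U : Type}
    [Fintype U] {h : ℕ} (f : Fin h → MvPolynomial U (MvPolynomial (Fin (d + 1)) ℤ))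
    (v : Fin h → U) (hv : Function.Injective v) (y₀ : U → MvPowerSeries (Fin (d + 1)) k)
    (hf : ∀ i, eval₂ (polyToSeries k (d + 1)) y₀ (f i) = 0)
    (hreg : PowerSeries.map MvPowerSeries.constantCoeff (MvPowerSeries.finSuccEquiv k d
      (eval₂ (polyToSeries k (d + 1)) y₀ (jacDet f v))) ≠ 0)
    (c : ℕ) :
    ∃ C : Subalgebra ℤ k, C.FG ∧ ∃ y : U → MvPowerSeries (Fin (d + 1)) C,
      (∀ i, eval₂ (polyToSeries C (d + 1)) y (f i) = 0) ∧
      ∀ i, MvPowerSeries.map C.val.toRingHom (y i) - y₀ i ∈ ordGE (Fin (d + 1)) k c := by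
  classical
  have : IsAdicComplete (IsLocalRing.maximalIdeal (MvPowerSeries (Fin d) k))
      (MvPowerSeries (Fin d) k) := by
    rw [maximalIdeal_eq_span_X]
    infer_instance
  set A := MvPowerSeries (Fin d) k
  set Φ := MvPowerSeries.finSuccEquiv k d with hΦ
  set c' := max c 1 with hc'
  set D := jacDet f v with hD
  -- preparation of the minor
  have hres : (Φ (eval₂ (polyToSeries k (d + 1)) y₀ D)).map (IsLocalRing.residue A) ≠ 0 := by
    intro h0
    refine hreg (PowerSeries.ext fun n => ?_)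
    have h1 := congrArg (PowerSeries.coeff n) h0
    rw [PowerSeries.coeff_map, map_zero, IsLocalRing.residue_eq_zero_iff,
      IsLocalRing.mem_maximalIdeal, mem_nonunits_iff, MvPowerSeries.isUnit_iff_constantCoeff,
      isUnit_iff_ne_zero, not_not] at h1
    rw [PowerSeries.coeff_map, h1, map_zero]
  obtain ⟨a₀, u₀, ha₀, hu₀, hau⟩ := PowerSeries.exists_isWeierstrassFactorization hres
  set r := a₀.natDegree with hr
  set N := 2 * r + c' with hN
  set M₀ : Polynomial A := a₀ ^ 2 * Polynomial.X ^ c' with hM₀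
  have hMdist : M₀.IsDistinguishedAt (IsLocalRing.maximalIdeal A) := by
    refine (?_ : (a₀ ^ 2).IsDistinguishedAt _).mul ⟨⟨fun {i} hi => ?_⟩, Polynomial.monic_X_pow _⟩
    · rw [sq]
      exact ha₀.mul ha₀
    · rw [Polynomial.natDegree_X_pow] at hi
      simp [Polynomial.coeff_X_pow, hi.ne]
  have hMdeg : M₀.natDegree = N := by
    rw [hM₀, Polynomial.Monic.natDegree_mul (ha₀.monic.pow 2) (Polynomial.monic_X_pow _),
      ha₀.monic.natDegree_pow, Polynomial.natDegree_X_pow]
  have hMF : (M₀ : PowerSeries A).IsWeierstrassFactorization M₀ 1 :=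
    ⟨hMdist, isUnit_one, by rw [mul_one]⟩
  have hdiv : ∀ j, ∃ (q : PowerSeries A) (ρ : Polynomial A), ρ.natDegree < N ∧
      Φ (y₀ j) = (M₀ : PowerSeries A) * q + (ρ : PowerSeries A) := by
    intro j
    obtain ⟨q, ρ, hρ, heq⟩ := (Φ (y₀ j)).exists_isWeierstrassDivision hMF.map_ne_zero
    refine ⟨q, ρ, ?_, heq⟩
    by_cases hρ0 : ρ = 0
    · rw [hρ0, Polynomial.natDegree_zero]
      omega
    · have hord := hMF.natDegree_eq_toNat_order_map
      rw [hMdeg] at hord
      rw [Polynomial.natDegree_lt_iff_degree_lt hρ0, hord]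
      exact hρ
  choose q ρ hρdeg hρ using hdiv
  set w₀ : Fin r ⊕ U × Fin N → A :=
    Sum.elim (fun l => a₀.coeff l) fun jl => (ρ jl.1).coeff jl.2 with hw₀
  set η₀ := eval₂Hom (polyToSeries k d) w₀ with hη₀
  have hamap : (uniMonic d r N U).map η₀ = a₀ := by
    rw [uniMonic, Polynomial.map_add, Polynomial.map_pow, Polynomial.map_X, Polynomial.map_sum]
    simp only [Polynomial.map_mul, Polynomial.map_C, Polynomial.map_pow, Polynomial.map_X, hη₀,
      eval₂Hom_X', hw₀, Sum.elim_inl]
    rw [Fin.sum_univ_eq_sum_range fun l => Polynomial.C (a₀.coeff l) * Polynomial.X ^ l]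
    exact ha₀.monic.as_sum.symm
  have hYmap : ∀ j, (uniPoly d r N U j).map η₀ = ρ j := by
    intro j
    rw [uniPoly, Polynomial.map_sum]
    simp only [Polynomial.map_mul, Polynomial.map_C, Polynomial.map_pow, Polynomial.map_X, hη₀,
      eval₂Hom_X', hw₀, Sum.elim_inr]
    rw [Fin.sum_univ_eq_sum_range fun l => Polynomial.C ((ρ j).coeff l) * Polynomial.X ^ l]
    exact ((ρ j).as_sum_range_C_mul_X_pow' (hρdeg j)).symm
  have hcong : ∀ p, ∃ s, ((uniEval d r N U p).map η₀ : PowerSeries A)
      = Φ (eval₂ (polyToSeries k (d + 1)) y₀ p) + (M₀ : PowerSeries A) * s := by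
    intro p
    have h1 := eval₂_sub_mem ((Ideal.span {(M₀ : PowerSeries A)}).comap Φ.toRingHom)
      (polyToSeries k (d + 1)) (z := barSeries w₀) (z' := y₀) (fun j => ?_) p
    · rw [Ideal.mem_comap, Ideal.mem_span_singleton'] at h1
      obtain ⟨s, hs⟩ := h1
      refine ⟨s, ?_⟩
      rw [← finSucc_eval₂_barSeries, mul_comm, hs]
      exact (map_sub Φ _ _ ▸ (add_sub_cancel _ _)).symm
    · rw [Ideal.mem_comap, Ideal.mem_span_singleton']
      refine ⟨-q j, ?_⟩
      show _ = Φ _
      rw [map_sub, barSeries, hΦ, AlgEquiv.apply_symm_apply, hYmap, ← hΦ, hρ j]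
      ring
  set uM := uniMonic d r N U ^ 2 * Polynomial.X ^ c' with huM
  have hMon : uM.Monic := ((monic_uniMonic d r N U).pow 2).mul (Polynomial.monic_X_pow _)
  have hMmap : uM.map η₀ = M₀ := by
    rw [huM, Polynomial.map_mul, Polynomial.map_pow, Polynomial.map_pow, Polynomial.map_X, hamap]
  have hfcond : ∀ i, (uniEval d r N U (f i) %ₘ uM).map η₀ = 0 := by
    intro i
    obtain ⟨s, hs⟩ := hcong (f i)
    rw [hf i, map_zero, zero_add] at hs
    rw [Polynomial.map_modByMonic _ hMon, hMmap]
    exact (modByMonic_eq_zero_of_coe_eq_mul hMdist hs).1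
  obtain ⟨hDcond, hq₀⟩ : (uniEval d r N U D %ₘ uniMonic d r N U).map η₀ = 0 ∧
      MvPowerSeries.constantCoeff (η₀ ((uniEval d r N U D /ₘ uniMonic d r N U).coeff 0)) ≠ 0 := by
    obtain ⟨s, hs⟩ := hcong D
    have hs' : ((uniEval d r N U D).map η₀ : PowerSeries A)
        = (a₀ : PowerSeries A) * (u₀ + (a₀ : PowerSeries A) * PowerSeries.X ^ c' * s) := by
      rw [hs, hau, hM₀, Polynomial.coe_mul, Polynomial.coe_pow, Polynomial.coe_pow,
        Polynomial.coe_X]
      ring
    obtain ⟨h1, h2⟩ := modByMonic_eq_zero_of_coe_eq_mul ha₀ hs'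
    refine ⟨by rwa [Polynomial.map_modByMonic _ (monic_uniMonic d r N U), hamap], ?_⟩
    rw [← Polynomial.coeff_map, Polynomial.map_divByMonic _ (monic_uniMonic d r N U), hamap,
      ← Polynomial.coeff_coe, h2, PowerSeries.coeff_zero_eq_constantCoeff_apply]
    have h3 : PowerSeries.constantCoeff (u₀ + (a₀ : PowerSeries A) * PowerSeries.X ^ c' * s)
        = PowerSeries.constantCoeff u₀ := by
      simp [zero_pow (show c' ≠ 0 by omega)]
    rw [h3]
    exact isUnit_iff_ne_zero.1 (MvPowerSeries.isUnit_iff_constantCoeff.1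
      (PowerSeries.isUnit_iff_constantCoeff.1 hu₀))
  -- the system in one variable less
  set G : Finset (MvPolynomial (Fin r ⊕ U × Fin N) (MvPolynomial (Fin d) ℤ)) :=
    (uniEval d r N U D %ₘ uniMonic d r N U).support.image
        (uniEval d r N U D %ₘ uniMonic d r N U).coeff
      ∪ Finset.univ.biUnion fun i =>
        (uniEval d r N U (f i) %ₘ uM).support.image (uniEval d r N U (f i) %ₘ uM).coeff with hG
  have hG₀ : ∀ g ∈ G, eval₂ (polyToSeries k d) w₀ g = 0 := by
    intro g hg
    change η₀ g = 0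
    rw [hG, Finset.mem_union, Finset.mem_biUnion] at hg
    rcases hg with hg | ⟨i, -, hg⟩ <;> obtain ⟨n, -, rfl⟩ := Finset.mem_image.1 hg
    · rw [← Polynomial.coeff_map, hDcond, Polynomial.coeff_zero]
    · rw [← Polynomial.coeff_map, hfcond i, Polynomial.coeff_zero]
  obtain ⟨C₁, hC₁, w₁, hw₁, hclose⟩ := hIH _ G w₀ hG₀ c'
  set η₁ := eval₂Hom (polyToSeries C₁ d) w₁ with hη₁
  have hkill : ∀ (P : Polynomial (MvPolynomial (Fin r ⊕ U × Fin N) (MvPolynomial (Fin d) ℤ))),
      P.support.image P.coeff ⊆ G → P.map η₁ = 0 := by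
    intro P hP
    ext n : 1
    rw [Polynomial.coeff_map, Polynomial.coeff_zero]
    by_cases hn : n ∈ P.support
    · exact hw₁ _ (hP (Finset.mem_image_of_mem _ hn))
    · rw [Polynomial.notMem_support_iff.1 hn, map_zero]
  have hnear : ∀ p, MvPowerSeries.map C₁.val.toRingHom (η₁ p) - η₀ p ∈ ordGE (Fin d) k c' := by
    intro p
    rw [hη₁, hη₀, coe_eval₂Hom, coe_eval₂Hom, map_eval₂_polyToSeries]
    exact eval₂_sub_mem _ _ hclose p
  set e₁ : C₁ := MvPowerSeries.constantCoeff
    (η₁ ((uniEval d r N U D /ₘ uniMonic d r N U).coeff 0)) with he₁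
  have he₁0 : (e₁ : k) ≠ 0 := by
    have h1 := mem_ordGE_iff.1 (hnear ((uniEval d r N U D /ₘ uniMonic d r N U).coeff 0)) 0
      (by rw [map_zero]; omega)
    rw [MvPowerSeries.coeff_zero_eq_constantCoeff_apply, map_sub, sub_eq_zero,
      MvPowerSeries.constantCoeff_map] at h1
    intro h0
    exact hq₀ (h1.symm.trans h0)
  set C₂ : Subalgebra ℤ k := C₁ ⊔ Algebra.adjoin ℤ {(e₁ : k)⁻¹} with hC₂
  refine ⟨C₂, hC₁.sup (Subalgebra.fg_def.2 ⟨_, Set.finite_singleton _, rfl⟩), ?_⟩
  set incl : C₁ →+* C₂ := (Subalgebra.inclusion (le_sup_left : C₁ ≤ C₂)).toRingHom with hincl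
  have hvalincl : C₂.val.toRingHom.comp incl = C₁.val.toRingHom := rfl
  set w₂ := fun i => MvPowerSeries.map incl (w₁ i) with hw₂
  set η₂ := eval₂Hom (polyToSeries C₂ d) w₂ with hη₂
  have hη₂₁ : η₂ = (MvPowerSeries.map incl).comp η₁ := RingHom.ext fun p => by
    rw [RingHom.comp_apply, hη₁, hη₂, coe_eval₂Hom, coe_eval₂Hom, map_eval₂_polyToSeries]
  have hkill₂ : ∀ (P : Polynomial (MvPolynomial (Fin r ⊕ U × Fin N) (MvPolynomial (Fin d) ℤ))),
      P.support.image P.coeff ⊆ G → P.map η₂ = 0 := fun P hP => by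
    rw [hη₂₁, ← Polynomial.map_map, hkill P hP, Polynomial.map_zero]
  set a₂ : PowerSeries (MvPowerSeries (Fin d) C₂) :=
    Polynomial.coeToPowerSeries.ringHom ((uniMonic d r N U).map η₂) with ha₂
  rw [Polynomial.coeToPowerSeries.ringHom_apply] at ha₂
  set Q : PowerSeries (MvPowerSeries (Fin d) C₂) :=
    Polynomial.coeToPowerSeries.ringHom ((uniEval d r N U D /ₘ uniMonic d r N U).map η₂) with hQ
  rw [Polynomial.coeToPowerSeries.ringHom_apply] at hQ
  have hQunit : IsUnit Q := by
    rw [PowerSeries.isUnit_iff_constantCoeff, MvPowerSeries.isUnit_iff_constantCoeff,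
      ← PowerSeries.coeff_zero_eq_constantCoeff_apply, hQ, Polynomial.coeff_coe,
      Polynomial.coeff_map, hη₂₁, RingHom.comp_apply, MvPowerSeries.constantCoeff_map, ← he₁]
    exact IsUnit.of_mul_eq_one
      ⟨(e₁ : k)⁻¹, (le_sup_right : _ ≤ C₂) (Algebra.self_mem_adjoin_singleton ℤ _)⟩
      (Subtype.ext (mul_inv_cancel₀ he₁0))
  obtain ⟨Qi, hQi⟩ := hQunit.exists_right_inv
  set Q' : Fin h → PowerSeries (MvPowerSeries (Fin d) C₂) :=
    fun i => Polynomial.coeToPowerSeries.ringHom ((uniEval d r N U (f i) /ₘ uM).map η₂) with hQ'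
  simp only [Polynomial.coeToPowerSeries.ringHom_apply] at hQ'
  set Ψ := MvPowerSeries.finSuccEquiv C₂ d with hΨ
  set z := barSeries w₂ with hz
  have hDz : Ψ (eval₂ (polyToSeries C₂ (d + 1)) z D) = a₂ * Q := by
    rw [hΨ, hz, finSucc_eval₂_barSeries, ← hη₂, ha₂, hQ, ← Polynomial.coe_mul]
    congr 1
    have h1 := congrArg (Polynomial.map η₂)
      (Polynomial.modByMonic_add_div (uniEval d r N U D) (uniMonic d r N U))
    rw [Polynomial.map_add, Polynomial.map_mul,
      hkill₂ _ (fun g hg => Finset.mem_union_left _ hg), zero_add] at h1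
    exact h1.symm
  have hfz : ∀ i, Ψ (eval₂ (polyToSeries C₂ (d + 1)) z (f i))
      = a₂ ^ 2 * PowerSeries.X ^ c' * Q' i := by
    intro i
    rw [hΨ, hz, finSucc_eval₂_barSeries, ← hη₂, ha₂, hQ', ← Polynomial.coe_pow,
      ← Polynomial.coe_X, ← Polynomial.coe_pow, ← Polynomial.coe_mul, ← Polynomial.coe_mul]
    congr 1
    have h1 := congrArg (Polynomial.map η₂)
      (Polynomial.modByMonic_add_div (uniEval d r N U (f i)) uM)
    rw [Polynomial.map_add, Polynomial.map_mul,
      hkill₂ _ (fun g hg => Finset.mem_union_right _ (Finset.mem_biUnion.2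
        ⟨i, Finset.mem_univ _, hg⟩)), zero_add] at h1
    rw [← h1, huM, Polynomial.map_mul, Polynomial.map_pow, Polynomial.map_pow, Polynomial.map_X]
  set I : Ideal (MvPowerSeries (Fin (d + 1)) C₂) := Ideal.span (Set.range MvPowerSeries.X) with hI
  obtain ⟨z', hz', hzclose⟩ := exists_root_of_approx I (polyToSeries C₂ (d + 1)) f v hv z c'
    (le_max_right _ _) (fun i => MvPowerSeries.X 0 ^ c' * Ψ.symm (Q' i * Qi ^ 2))
    (fun i => Ideal.mul_mem_right _ _ (Ideal.pow_mem_pow (Ideal.subset_span (Set.mem_range_self (0 : Fin (d + 1)))) c'))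
    (fun i => by
      apply Ψ.injective
      rw [← eval₂_jacDet, ← hD, hfz i, map_mul, map_pow, hDz, map_mul, map_pow,
        AlgEquiv.apply_symm_apply, hΨ, MvPowerSeries.finSuccEquiv_X_zero]
      linear_combination
        (-(a₂ ^ 2 * PowerSeries.X ^ c' * Q' i * (Q * Qi + 1))) * hQi)
  refine ⟨z', hz', fun j => ordGE_antitone (le_max_left c 1) ?_⟩
  have h1 : MvPowerSeries.map C₂.val.toRingHom (z' j) - MvPowerSeries.map C₂.val.toRingHom (z j)
      ∈ ordGE (Fin (d + 1)) k c' := by
    rw [← map_sub]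
    exact map_mem_ordGE _ (span_X_pow_le_ordGE c' (hzclose j))
  have h2 : MvPowerSeries.map C₂.val.toRingHom (z j) - barSeries w₀ j
      ∈ ordGE (Fin (d + 1)) k c' := by
    refine mem_ordGE_of_finSucc fun n => ?_
    rw [map_sub, map_sub, finSuccEquiv_map, hz, barSeries, barSeries, AlgEquiv.apply_symm_apply,
      AlgEquiv.apply_symm_apply, PowerSeries.coeff_map, Polynomial.coeff_coe,
      Polynomial.coeff_coe, Polynomial.coeff_map, Polynomial.coeff_map, ← hη₂, ← hη₀, hη₂₁,
      RingHom.comp_apply, ← RingHom.comp_apply, ← MvPowerSeries.map_comp, hvalincl]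
    exact hnear _
  have h3 : barSeries w₀ j - y₀ j ∈ ordGE (Fin (d + 1)) k c' := by
    refine span_X_pow_le_ordGE c' ?_
    have h4 : barSeries w₀ j - y₀ j = MvPowerSeries.X 0 ^ c' *
        Φ.symm (-((a₀ : PowerSeries A) ^ 2 * q j)) := by
      apply Φ.injective
      rw [map_sub, map_mul, map_pow, AlgEquiv.apply_symm_apply, barSeries, hΦ,
        AlgEquiv.apply_symm_apply, hYmap, MvPowerSeries.finSuccEquiv_X_zero, ← hΦ, hρ j, hM₀,
        Polynomial.coe_mul, Polynomial.coe_pow, Polynomial.coe_pow, Polynomial.coe_X]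
      ring
    rw [h4]
    exact Ideal.mul_mem_right _ _ (Ideal.pow_mem_pow (Ideal.subset_span (Set.mem_range_self (0 : Fin (d + 1)))) c')
  convert add_mem (add_mem h1 h2) h3 using 1
  abel

end Vale.Agent.P202
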