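import Vale.Agent.P202.InterfacesE
import Vale.Agent.P202.ESmooth
import Vale.Agent.P202.EStep

/-!
Approximation of formal solutions of polynomial systems over `ℤ` by solutions with coefficients
in a finitely generated ring.
-/

universe u

namespace Vale.Agent.P202

open MvPolynomial

theorem mvPowerSeries_map_injective {σ R S : Type*} [CommRing R] [CommRing S] {g : R →+* S}
    (hg : Function.Injective g) :
    Function.Injective (MvPowerSeries.map (σ := σ) g) :=
  fun a b h => MvPowerSeries.ext fun e => hg (by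
    simpa using congrArg (MvPowerSeries.coeff e) h)

theorem approxAt_zero (k : Type u) [Field k] : ApproxAt k 0 := by
  intro U _ F y₀ hF c
  set C₀ := Algebra.adjoin ℤ (Set.range fun i => MvPowerSeries.constantCoeff (y₀ i)) with hC₀
  refine ⟨C₀, Subalgebra.fg_def.2 ⟨_, Set.finite_range _, rfl⟩,
    fun i => MvPowerSeries.C ⟨_, Algebra.subset_adjoin ⟨i, rfl⟩⟩, ?_⟩
  have hy : ∀ i, MvPowerSeries.map C₀.val.toRingHom
      (MvPowerSeries.C (⟨_, Algebra.subset_adjoin ⟨i, rfl⟩⟩ : C₀)) = y₀ i := fun i => by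
    ext e
    rw [Subsingleton.elim e 0]
    simp
  refine ⟨fun f hf => mvPowerSeries_map_injective (g := C₀.val.toRingHom)
    Subtype.val_injective ?_, fun i => ?_⟩
  · rw [map_eval₂_polyToSeries, map_zero]
    simpa only [hy] using hF f hf
  · rw [hy, sub_self]
    exact zero_mem _

theorem shiftHom_eval₂ {R : Type*} [CommRing R] {d : ℕ} (s : Fin d → ℤ) {U : Type*}
    (y : U → MvPowerSeries (Fin (d + 1)) R)
    (p : MvPolynomial U (MvPolynomial (Fin (d + 1)) ℤ)) :
    shiftHom R s (eval₂ (polyToSeries R (d + 1)) y p)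
      = eval₂ (polyToSeries R (d + 1)) (fun i => shiftHom R s (y i))
          (MvPolynomial.map (shiftB s) p) := by
  rw [eval₂_comp_left, eval₂_map]
  congr 1
  exact RingHom.ext fun b => shiftHom_polyToSeries s b

/-- The smooth system of a finite set of relations over a finite index type. -/
theorem exists_system {B K : Type*} [CommRing B] [CommRing K] [IsDomain K] [CharZero K]
    (ι : B →+* K) (hι : Function.Injective ι) {U : Type} [Fintype U] (y₀ : U → K) :
    ∃ (h : ℕ) (v : Fin h → U) (f : Fin h → MvPolynomial U B),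
      Function.Injective v ∧ (∀ i, eval₂ ι y₀ (f i) = 0) ∧ eval₂ ι y₀ (jacDet f v) ≠ 0 ∧
      ∀ p, eval₂ ι y₀ p = 0 → ∃ g, eval₂ ι y₀ g ≠ 0 ∧ g * p ∈ Ideal.span (Set.range f) := by
  have e := Fintype.equivFin U
  obtain ⟨h, v', f', hv', hf', hdet', hrel'⟩ :=
    exists_smooth_system ι hι _ (fun i => y₀ (e.symm i))
  have hren : ∀ p, eval₂ ι y₀ (rename e.symm p) = eval₂ ι (fun i => y₀ (e.symm i)) p :=
    fun p => eval₂_rename ι e.symm y₀ p
  refine ⟨h, fun j => e.symm (v' j), fun i => rename e.symm (f' i),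
    e.symm.injective.comp hv', fun i => (hren _).trans (hf' i), ?_, fun p hp => ?_⟩
  · rw [eval₂_jacDet]
    simpa only [pderiv_rename e.symm.injective, hren] using hdet'
  · obtain ⟨g, hg, hgp⟩ := hrel' (rename e p) (by
      rw [eval₂_rename, ← hp]
      congr 1
      funext i
      exact congrArg y₀ (e.symm_apply_apply i))
    refine ⟨rename e.symm g, by rwa [hren], ?_⟩
    have h1 := Ideal.mem_map_of_mem (rename e.symm).toRingHom hgp
    rw [Ideal.map_span, ← Set.range_comp] at h1
    have hpp : (rename e.symm).toRingHom (rename e p) = p := by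
      change rename e.symm (rename e p) = p
      rw [rename_rename, Equiv.symm_comp_self, rename_id]
      rfl
    rw [map_mul, hpp] at h1
    exact h1

theorem approxAt_succ {k : Type u} [Field k] [CharZero k] {d : ℕ} (hIH : ApproxAt k d) :
    ApproxAt k (d + 1) := by
  classical
  intro U _ F y₀ hF c
  have : CharZero (MvPowerSeries (Fin (d + 1)) k) :=
    charZero_of_injective_ringHom
      (MvPowerSeries.C (σ := Fin (d + 1)) (R := k)).injective
  have : IsDomain (MvPowerSeries (Fin (d + 1)) k) := NoZeroDivisors.to_isDomain _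
  set ι := polyToSeries k (d + 1) with hι
  obtain ⟨h, v, f, hv, hf, hδ, hrel'⟩ :=
    exists_system ι (polyToSeries_injective (R := k) (d + 1)) y₀
  have hrel : ∀ p : F, ∃ g, eval₂ ι y₀ g ≠ 0 ∧
      g * p.1 ∈ Ideal.span (Set.range f) := fun p => hrel' p.1 (hF p.1 p.2)
  choose g hg hgp using hrel
  have hG : eval₂ ι y₀ (∏ p : F, g p) ≠ 0 := by
    rw [← coe_eval₂Hom, map_prod]
    exact Finset.prod_ne_zero_iff.2 fun p _ => hg p
  obtain ⟨e₀, he₀⟩ : ∃ e₀, MvPowerSeries.coeff e₀ (eval₂ ι y₀ (∏ p : F, g p)) ≠ 0 :=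
    (MvPowerSeries.ne_zero_iff_exists_coeff_ne_zero _).1 hG
  set c₁ := max c (Finsupp.degree e₀ + 1) with hc₁
  obtain ⟨s, hs⟩ := exists_shift_regular hδ
  obtain ⟨C, hC, y', hy', hclose⟩ := approx_of_regular hIH
    (fun i => MvPolynomial.map (shiftB s) (f i)) v hv (fun i => shiftHom k s (y₀ i))
    (fun i => by
      rw [← shiftHom_eval₂]
      convert map_zero (shiftHom k s) using 2
      exact hf i)
    (by
      have hj : jacDet (fun i => MvPolynomial.map (shiftB s) (f i)) v
          = MvPolynomial.map (shiftB s) (jacDet f v) := by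
        rw [jacDet, jacDet, RingHom.map_det]
        congr 1
        ext i j
        simp [pderiv_map]
      rwa [hj, ← shiftHom_eval₂])
    c₁
  set y := fun i => shiftHom C (-s) (y' i) with hy
  have hclose' : ∀ i, MvPowerSeries.map C.val.toRingHom (y i) - y₀ i
      ∈ ordGE (Fin (d + 1)) k c₁ := by
    intro i
    have h1 := shiftHom_mem_ordGE (-s) (hclose i)
    rwa [map_sub, shiftHom_shiftHom_neg, ← map_shiftHom] at h1
  have hfy : ∀ i, eval₂ (polyToSeries C (d + 1)) y (f i) = 0 := by
    intro i
    have h1 := congrArg (shiftHom C (-s)) (hy' i)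
    rw [map_zero, shiftHom_eval₂, MvPolynomial.map_map, eval₂_map] at h1
    rw [← h1, hy]
    congr 1
    refine RingHom.ext fun b => ?_
    rw [RingHom.comp_apply, RingHom.comp_apply, ← shiftHom_polyToSeries, ← shiftHom_polyToSeries,
      shiftHom_shiftHom_neg]
  refine ⟨C, hC, y, fun p hp => ?_,
    fun i => ordGE_antitone (le_max_left c (Finsupp.degree e₀ + 1)) (hclose' i)⟩
  have hgy : eval₂ (polyToSeries C (d + 1)) y (g ⟨p, hp⟩) ≠ 0 := by
    intro h0
    have hG0 : eval₂ (polyToSeries C (d + 1)) y (∏ p : F, g p) = 0 := by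
      rw [← coe_eval₂Hom, map_prod]
      exact Finset.prod_eq_zero (Finset.mem_univ _) h0
    have h1 := eval₂_sub_mem (ordGE (Fin (d + 1)) k c₁) ι hclose' (∏ p : F, g p)
    rw [hι, ← map_eval₂_polyToSeries, hG0, map_zero, zero_sub, neg_mem_iff] at h1
    exact he₀ (mem_ordGE_iff.1 h1 e₀ (lt_of_lt_of_le (Nat.lt_succ_self _) (le_max_right _ _)))
  have hle : Ideal.span (Set.range f) ≤ RingHom.ker (eval₂Hom (polyToSeries C (d + 1)) y) := by
    refine Ideal.span_le.2 ?_
    rintro _ ⟨i, rfl⟩
    exact hfy i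
  have h2 := hle (hgp ⟨p, hp⟩)
  rw [RingHom.mem_ker, map_mul, coe_eval₂Hom] at h2
  exact (mul_eq_zero.1 h2).resolve_left hgy

theorem approxAt (k : Type u) [Field k] [CharZero k] : ∀ d, ApproxAt k d
  | 0 => approxAt_zero k
  | d + 1 => approxAt_succ (approxAt k d)

/-- E1: a formal solution in characteristic zero is congruent, to any order, to a solution with
coefficients in a finitely generated subring. -/
theorem goalApprox : GoalApprox.{u} := by
  classical
  intro k _ _ d m F y₀ hF c
  set conv : MvPolynomial (Fin d ⊕ Fin m) ℤ →+* MvPolynomial (Fin m) (MvPolynomial (Fin d) ℤ) :=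
    (aeval (Sum.elim (fun i => C (X i)) X)).toRingHom with hconv
  have key : ∀ (y : Fin m → MvPowerSeries (Fin d) k) p,
      sysEval y p = eval₂ (polyToSeries k d) y (conv p) := by
    intro y p
    have h : (aeval (Sum.elim (fun i => MvPowerSeries.X i) y)).toRingHom
        = (eval₂Hom (polyToSeries k d) y).comp conv := by
      refine ringHom_ext' (Subsingleton.elim _ _) fun i => ?_
      rcases i with i | i <;> simp [hconv, polyToSeries_X]
    exact DFunLike.congr_fun h p
  obtain ⟨C₀, hC, y, hy, hclose⟩ := approxAt k d (Fin m) (F.image conv) y₀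
    (fun f hf => by
      obtain ⟨p, hp, rfl⟩ := Finset.mem_image.1 hf
      rw [← key]
      exact hF p hp) c
  refine ⟨C₀, hC, fun i => MvPowerSeries.map C₀.val.toRingHom (y i), fun i e => ?_,
    fun p hp => ?_, fun i e he => ?_⟩
  · rw [MvPowerSeries.coeff_map]
    exact SetLike.coe_mem _
  · rw [key, ← map_eval₂_polyToSeries, hy _ (Finset.mem_image_of_mem _ hp), map_zero]
  · rw [← sub_eq_zero, ← map_sub]
    exact mem_ordGE_iff.1 (hclose i) e he

end Vale.Agent.P202
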