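import Mathlib

/-!
Newton's lemma in the form of Tougeron: an approximate solution, to the order of the square of a
Jacobian minor, of a polynomial system over a complete ring is near an exact one.
-/

namespace Vale.Agent.P202

open MvPolynomial

variable {R : Type*} [CommRing R] {B : Type*} [CommRing B] {U : Type*}

/-- Congruent arguments have congruent values. -/
theorem eval₂_sub_mem (I : Ideal R) (φ : B →+* R) {z z' : U → R} (h : ∀ u, z u - z' u ∈ I)
    (p : MvPolynomial U B) : eval₂ φ z p - eval₂ φ z' p ∈ I := by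
  induction p using MvPolynomial.induction_on with
  | C a => simp
  | add p q hp hq =>
    rw [eval₂_add, eval₂_add]
    convert I.add_mem hp hq using 1
    ring
  | mul_X p u hp =>
    rw [eval₂_mul, eval₂_mul, eval₂_X, eval₂_X]
    convert I.add_mem (I.mul_mem_right (z u) hp) (I.mul_mem_left (eval₂ φ z' p) (h u)) using 1
    ring

/-- The expansion to first order. -/
theorem eval₂_add_sub_mem [Fintype U] (I : Ideal R) (φ : B →+* R) (z : U → R) {t : U → R}
    (ht : ∀ u, t u ∈ I) (p : MvPolynomial U B) :
    eval₂ φ (z + t) p - eval₂ φ z p - ∑ u, eval₂ φ z (pderiv u p) * t u ∈ I * I := by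
  classical
  induction p using MvPolynomial.induction_on with
  | C a => simp
  | add p q hp hq =>
    simp only [map_add, eval₂_add, add_mul, Finset.sum_add_distrib]
    convert (I * I).add_mem hp hq using 1
    ring
  | mul_X p u hp =>
    have h1 : eval₂ φ (z + t) p - eval₂ φ z p ∈ I :=
      eval₂_sub_mem I φ (fun w => by simpa using ht w) p
    have hsum : ∑ w, eval₂ φ z (pderiv w (p * X u)) * t w
        = (∑ w, eval₂ φ z (pderiv w p) * t w) * z u + eval₂ φ z p * t u := by
      simp only [pderiv_mul, pderiv_X, Pi.single_apply, eval₂_add, eval₂_mul, eval₂_X, add_mul,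
        Finset.sum_add_distrib, Finset.sum_mul]
      congr 1
      · exact Finset.sum_congr rfl fun w _ => by ring
      · rw [Finset.sum_eq_single u (fun w _ hw => by simp [Ne.symm hw]) (by simp)]
        simp
    rw [hsum, eval₂_mul, eval₂_mul, eval₂_X, eval₂_X, Pi.add_apply]
    convert (I * I).add_mem ((I * I).mul_mem_right (z u) hp) (Ideal.mul_mem_mul h1 (ht u)) using 1
    ring

/-- A polynomial without terms of degree below two is contracting. -/
theorem eval_sub_mem_of_mem_sq {h : ℕ} (I : Ideal R) {N : ℕ} {w w' : Fin h → R}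
    (hw : ∀ i, w i ∈ I) (hw' : ∀ i, w' i ∈ I) (hd : ∀ i, w i - w' i ∈ I ^ N)
    {p : MvPolynomial (Fin h) R}
    (hp : p ∈ Ideal.span (Set.range X) * Ideal.span (Set.range X)) :
    eval w p - eval w' p ∈ I ^ (N + 1) := by
  have hmem : ∀ v : Fin h → R, (∀ i, v i ∈ I) →
      ∀ q ∈ Ideal.span (Set.range (X : Fin h → MvPolynomial (Fin h) R)), eval v q ∈ I := by
    intro v hv q hq
    refine Submodule.span_induction ?_ (by simp) (fun a b _ _ ha hb => ?_) (fun a b _ hb => ?_) hq
    · rintro _ ⟨i, rfl⟩
      simpa using hv i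
    · rw [map_add]
      exact I.add_mem ha hb
    · rw [smul_eq_mul, map_mul]
      exact I.mul_mem_left _ hb
  have hsub : ∀ q : MvPolynomial (Fin h) R, eval w q - eval w' q ∈ I ^ N :=
    eval₂_sub_mem (I ^ N) (RingHom.id R) hd
  refine Submodule.mul_induction_on hp (fun a ha b hb => ?_) fun a b ha hb => ?_
  · have key : eval w (a * b) - eval w' (a * b)
        = eval w a * (eval w b - eval w' b) + eval w' b * (eval w a - eval w' a) := by
      rw [map_mul, map_mul]
      ring
    rw [key, pow_succ']
    exact add_mem (Ideal.mul_mem_mul (hmem w hw a ha) (hsub b))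
      (Ideal.mul_mem_mul (hmem w' hw' b hb) (hsub a))
  · rw [map_add, map_add]
    convert (I ^ (N + 1)).add_mem ha hb using 1
    ring

/-- Newton's lemma in the form of Tougeron. -/
theorem exists_root_of_approx [Fintype U] (I : Ideal R) [IsAdicComplete I R] {h : ℕ}
    (φ : B →+* R) (f : Fin h → MvPolynomial U B) (v : Fin h → U) (hv : Function.Injective v)
    (z : U → R) (c : ℕ) (hc : 1 ≤ c) (e : Fin h → R) (he : ∀ i, e i ∈ I ^ c)
    (heq : ∀ i, eval₂ φ z (f i)
      = (Matrix.of fun i j => eval₂ φ z (pderiv (v j) (f i))).det ^ 2 * e i) :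
    ∃ z' : U → R, (∀ i, eval₂ φ z' (f i) = 0) ∧ ∀ u, z' u - z u ∈ I ^ c := by
  classical
  set J := Matrix.of fun i j => eval₂ φ z (pderiv (v j) (f i)) with hJ
  set δ := J.det with hδ
  set W := Ideal.span (Set.range (X : Fin h → MvPolynomial (Fin h) R)) with hW
  set L : U → MvPolynomial (Fin h) R :=
    Function.extend v (fun j => ∑ l, C (J.adjugate j l) * X l) 0 with hL
  have hLW : ∀ u, L u ∈ W := by
    intro u
    by_cases hu : ∃ j, v j = u
    · obtain ⟨j, rfl⟩ := hu
      rw [hL, hv.extend_apply]
      exact sum_mem fun l _ => W.mul_mem_left _ (Ideal.subset_span ⟨l, rfl⟩)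
    · rw [hL, Function.extend_apply' _ _ _ hu]
      exact W.zero_mem
  set zC : U → MvPolynomial (Fin h) R := fun u => C (z u) with hzC
  set t : U → MvPolynomial (Fin h) R := fun u => C δ * L u with ht
  have hzero : ∀ p : MvPolynomial U B, eval₂ (C.comp φ) zC p = C (eval₂ φ z p) := fun p => by
    rw [eval₂_comp_left (C (σ := Fin h)) φ z p]
    rfl
  have hexp : ∀ i, ∃ Ψ ∈ W * W, eval₂ (C.comp φ) (zC + t) (f i)
      = C (δ ^ 2) * (C (e i) + X i + Ψ) := by
    intro i
    have h1 := eval₂_add_sub_mem (Ideal.span {C δ} * W) (C.comp φ) zC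
      (t := t) (fun u => Ideal.mul_mem_mul (Ideal.mem_span_singleton_self _) (hLW u)) (f i)
    rw [mul_mul_mul_comm, Ideal.span_singleton_mul_span_singleton, ← map_mul,
      Ideal.mem_span_singleton_mul] at h1
    obtain ⟨Ψ, hΨ, h2⟩ := h1
    have hlin : ∑ u, eval₂ (C.comp φ) zC (pderiv u (f i)) * t u = C (δ ^ 2) * X i := by
      rw [← Fintype.sum_of_injective v hv
        (fun j => eval₂ (C.comp φ) zC (pderiv (v j) (f i)) * t (v j)) _ (fun u hu => ?_)
        fun j => rfl]
      · have hadj : ∀ l, ∑ j, J i j * J.adjugate j l = if i = l then δ else 0 := fun l => by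
          have := congrFun (congrFun J.mul_adjugate i) l
          simpa [Matrix.mul_apply, Matrix.one_apply, hδ] using this
        calc ∑ j, eval₂ (C.comp φ) zC (pderiv (v j) (f i)) * t (v j)
            = C δ * ∑ l, C (∑ j, J i j * J.adjugate j l) * X l := by
              simp only [hzero, ht, hL, hv.extend_apply, map_sum, map_mul, Finset.mul_sum,
                Finset.sum_mul]
              rw [Finset.sum_comm]
              exact Finset.sum_congr rfl fun l _ => Finset.sum_congr rfl fun j _ => by
                rw [hJ, Matrix.of_apply]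
                ring
          _ = C δ * (C δ * X i) := by
              rw [Finset.sum_eq_single i (fun l _ hl => by simp [hadj, hl.symm]) (by simp)]
              simp [hadj]
          _ = C (δ ^ 2) * X i := by rw [sq, map_mul, mul_assoc]
      · rw [ht, hL]
        dsimp only
        rw [Function.extend_apply' _ _ u fun ⟨j, hj⟩ => hu ⟨j, hj⟩, Pi.zero_apply, mul_zero,
          mul_zero]
    refine ⟨Ψ, hΨ, ?_⟩
    rw [hzero (f i), heq i, hlin, ← sq, map_mul] at h2
    linear_combination (-1 : MvPolynomial (Fin h) R) * h2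
  choose Ψ hΨ hexp using hexp
  set T : (Fin h → R) → Fin h → R := fun w i => -e i - eval w (Ψ i) with hT
  have hIc : I ^ c ≤ I := Ideal.pow_le_self (by omega)
  have hTmem : ∀ w, (∀ i, w i ∈ I ^ c) → ∀ i, T w i ∈ I ^ c := by
    intro w hw i
    refine (I ^ c).sub_mem ((I ^ c).neg_mem (he i)) ?_
    have h0 : eval 0 (Ψ i) = 0 := by
      have hle : W * W ≤ RingHom.ker (eval (0 : Fin h → R)) := by
        refine Ideal.mul_le_left.trans (Ideal.span_le.2 ?_)
        rintro _ ⟨j, rfl⟩
        simp
      exact hle (hΨ i)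
    have := eval₂_sub_mem (I ^ c) (RingHom.id R) (z := w) (z' := 0) (by simpa using hw) (Ψ i)
    have heval : eval w (Ψ i) - eval 0 (Ψ i) ∈ I ^ c := this
    rwa [h0, sub_zero] at heval
  have hcontr : ∀ {w w' : Fin h → R} {N : ℕ}, (∀ i, w i ∈ I ^ c) → (∀ i, w' i ∈ I ^ c) →
      (∀ i, w i - w' i ∈ I ^ N) → ∀ i, T w i - T w' i ∈ I ^ (N + 1) := by
    intro w w' N hw hw' hd i
    have := eval_sub_mem_of_mem_sq I (fun j => hIc (hw j)) (fun j => hIc (hw' j)) hd (hΨ i)
    convert (I ^ (N + 1)).neg_mem this using 1
    simp only [hT]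
    ring
  set w : ℕ → Fin h → R := fun n => T^[n] 0 with hw
  have hwmem : ∀ n i, w n i ∈ I ^ c := by
    intro n
    induction n with
    | zero => simp [hw]
    | succ n ih => simpa [hw, Function.iterate_succ_apply'] using hTmem _ ih
  have hstep : ∀ n i, w (n + 1) i - w n i ∈ I ^ (n + 1) := by
    intro n
    induction n with
    | zero =>
      intro i
      simpa [hw] using hIc (hwmem 1 i)
    | succ n ih =>
      intro i
      have := hcontr (hwmem (n + 1)) (hwmem n) ih i
      simpa [hw, Function.iterate_succ_apply'] using this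
  have hcauchy : ∀ {a b : ℕ}, a ≤ b → ∀ i, w b i - w a i ∈ I ^ a := by
    intro a b hab i
    induction b, hab using Nat.le_induction with
    | base => simp
    | succ b hab ih =>
      convert (I ^ a).add_mem (Ideal.pow_le_pow_right (by omega) (hstep b i)) ih using 1
      ring
  have hlim : ∀ i, ∃ l, ∀ n, w n i - l ∈ I ^ n := by
    intro i
    obtain ⟨l, hl⟩ := IsPrecomplete.prec (I := I) inferInstance (f := fun n => w n i)
      fun {a b} hab => by
        rw [SModEq.sub_mem, smul_eq_mul, Ideal.mul_top]
        simpa using (I ^ a).neg_mem (hcauchy hab i)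
    refine ⟨l, fun n => ?_⟩
    have := hl n
    rwa [SModEq.sub_mem, smul_eq_mul, Ideal.mul_top] at this
  choose l hl using hlim
  have hlmem : ∀ i, l i ∈ I ^ c := fun i => by
    convert (I ^ c).sub_mem (hwmem c i) (hl i c) using 1
    ring
  have hfix : T l = l := by
    funext i
    rw [← sub_eq_zero]
    refine IsHausdorff.haus (I := I) inferInstance _ fun n => ?_
    rw [SModEq.sub_mem, smul_eq_mul, Ideal.mul_top, sub_zero]
    have h1 := hcontr hlmem (hwmem n) (fun j => by simpa using (I ^ n).neg_mem (hl j n)) i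
    have h2 := hl i (n + 1)
    have h3 : T (w n) = w (n + 1) := by rw [hw]; exact (Function.iterate_succ_apply' T n 0).symm
    rw [h3] at h1
    convert Ideal.pow_le_pow_right (Nat.le_succ n) ((I ^ (n + 1)).add_mem h1 h2) using 1
    ring
  refine ⟨fun u => z u + δ * eval l (L u), fun i => ?_, fun u => ?_⟩
  · have := congrArg (eval l) (hexp i)
    rw [eval₂_comp_left (eval l) (C.comp φ) (zC + t) (f i)] at this
    have hz : (eval l ∘ (zC + t)) = fun u => z u + δ * eval l (L u) := by
      funext u
      simp [hzC, ht]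
    have hφ : (eval l).comp (C.comp φ) = φ := RingHom.ext fun b => by simp
    rw [hz, hφ] at this
    rw [this, map_mul, map_add, map_add, eval_C, eval_C, eval_X]
    have hi := congrFun hfix i
    simp only [hT] at hi
    rw [← hi]
    ring
  · rw [add_sub_cancel_left]
    refine Ideal.mul_mem_left _ _ ?_
    have := eval₂_sub_mem (I ^ c) (RingHom.id R) (z := l) (z' := 0) (by simpa using hlmem) (L u)
    have hev : eval l (L u) - eval 0 (L u) ∈ I ^ c := this
    have h0 : eval 0 (L u) = 0 := by
      have hle : W ≤ RingHom.ker (eval (0 : Fin h → R)) := by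
        refine Ideal.span_le.2 ?_
        rintro _ ⟨j, rfl⟩
        simp
      exact hle (hLW u)
    rwa [h0, sub_zero] at hev

end Vale.Agent.P202
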