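import Vale.Agent.P202.Final
import Vale.Agent.P202.Model

/-! Characteristic zero, by reduction to finite fields, from the modules of `BLUEPRINT_E.md`. -/

universe u

namespace Vale.Agent.P202

open IsLocalRing Filter

/-- `e(R) ≤ e(S)` for flat local maps out of rings with residue field of characteristic zero. -/
theorem mult_le_of_charZero (hC : GoalPhiClass.{0}) (hW : GoalPhiWindow.{0})
    (hM : GoalModel.{u}) (hSp : GoalSpecialise.{u}) (hRe : GoalRealise)
    (R S : Type u) [CommRing R] [IsLocalRing R] [IsNoetherianRing R] [CharZero (ResidueField R)]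
    [CommRing S] [IsLocalRing S] [IsNoetherianRing S] [Algebra R S]
    [IsLocalHom (algebraMap R S)] [Module.Flat R S] {eR eS : ℝ} (heR : HasMult R eR)
    (heS : HasMult S eS) : eR ≤ eS := by
  obtain ⟨S', _, _, _, _, _, _, hdim, hle⟩ := exists_equalDim R S
  obtain ⟨e₁, -, he₁⟩ := (koszulGoals.{u}).mult S'
  refine le_trans ?_ (hle eS e₁ heS he₁)
  obtain ⟨K, _, _, σ, θ, hθ, ha, heσ, hstd, hσd⟩ := hM R S' hdim eR e₁ heR he₁
  have hpos : 0 < eR := by
    obtain ⟨e', he'0, he'⟩ := (koszulGoals.{u}).mult R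
    rwa [tendsto_nhds_unique heR he']
  have he0 : 0 < σ.e := by exact_mod_cast lt_of_lt_of_le hpos heσ
  obtain ⟨p, _, F, _, _, _, θ', hθ', ha'⟩ := hSp K σ θ hθ ha
  obtain ⟨R₀, S₀, _, _, _, _, _, _, _, _, _, _, _, hfin, hdR, hdS, hlow, hup⟩ :=
    hRe p F σ θ' hθ' ha' he0
  obtain ⟨a, -, ha0⟩ := (koszulGoals.{0}).mult R₀
  obtain ⟨b, -, hb0⟩ := (koszulGoals.{0}).mult S₀
  have hF : (frobenius (ResidueField R₀) p).Finite := by
    refine @Module.Finite.of_finite (ResidueField R₀) (ResidueField R₀) _ _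
      (frobenius (ResidueField R₀) p).toAlgebra.toModule ?_
    exact hfin
  have hab : a ≤ b := mult_le_of_flat hC hW p R₀ S₀ hF ha0 hb0
  have hb : b ≤ e₁ := by
    have h1 := hb0
    have h2 := he₁
    rw [HasMult, hdS] at h1
    rw [HasMult, ← hσd] at h2
    refine le_of_tendsto_of_tendsto' h1 h2 fun N => ?_
    refine div_le_div_of_nonneg_right (mul_le_mul_of_nonneg_left ?_ (Nat.cast_nonneg _))
      (by positivity)
    exact_mod_cast (hup N).trans (hstd N)
  exact heσ.trans ((hlow a ha0).trans (hab.trans hb))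

end Vale.Agent.P202
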