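import Vale.Agent.P202.GAssembly
import Vale.Agent.P202.FinalZero

/-! The inequality `e(R) ≤ e(S)` for rings containing a field, from the remaining modules. -/

universe u

namespace Vale.Agent.P202

open IsLocalRing

/-- `e(R) ≤ e(S)` for every flat local map out of a ring that contains a field. -/
theorem mult_le_of_field (hC : GoalPhiClass.{u}) (hW : GoalPhiWindow.{u})
    (hC0 : GoalPhiClass.{0}) (hW0 : GoalPhiWindow.{0})
    (hL : GoalFrobLift.{u}) (hG3 : GoalReduceGen.{u}) (hM : GoalModel.{u})
    (hSp : GoalSpecialise.{u}) (hRe : GoalRealise)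
    (K R S : Type u) [Field K] [CommRing R] [IsLocalRing R] [IsNoetherianRing R] [Algebra K R]
    [CommRing S] [IsLocalRing S] [IsNoetherianRing S] [Algebra R S]
    [IsLocalHom (algebraMap R S)] [Module.Flat R S] {eR eS : ℝ} (heR : HasMult R eR)
    (heS : HasMult S eS) : eR ≤ eS := by
  obtain ⟨p, hp⟩ := CharP.exists K
  rcases CharP.char_is_prime_or_zero K p with hprime | rfl
  · haveI : Fact p.Prime := ⟨hprime⟩
    haveI : CharP R p := charP_of_injective_algebraMap (algebraMap K R).injective p
    exact mult_le_of_charP hC hW hL hG3 p R S heR heS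
  · haveI : CharZero K := CharP.charP_to_charZero K
    haveI : CharZero (ResidueField R) :=
      charZero_of_injective_algebraMap (algebraMap K (ResidueField R)).injective
    exact mult_le_of_charZero hC0 hW0 hM hSp hRe R S heR heS

end Vale.Agent.P202
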