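import Vale.Agent.P202.Ghost

/-! Euler characteristics of subquotient complexes. -/

universe u

namespace Vale.Agent.P202

open Submodule

/-- The sign `(-1) ^ r`. -/
def sgn (r : ℤ) : ℤ := ((Int.negOnePow r : ℤˣ) : ℤ)

lemma sgn_succ (r : ℤ) : sgn (r + 1) = -sgn r := by
  simp [sgn, Int.negOnePow_succ]

lemma sgn_sub (r s : ℤ) : sgn (r - s) = sgn r * sgn s := by
  simp [sgn, Int.negOnePow_sub]

lemma sgn_natCast (p : ℕ) : sgn (p : ℤ) = (-1) ^ p := by
  simp [sgn, Int.negOnePow_def]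

lemma sum_Icc_telescope (f : ℤ → ℤ) (lo : ℤ) (k : ℕ) :
    ∑ r ∈ Finset.Icc lo (lo + k), (f r - f (r + 1)) = f lo - f (lo + k + 1) := by
  induction k with
  | zero => simp
  | succ k ih =>
    rw [show lo + ((k + 1 : ℕ) : ℤ) = lo + k + 1 by push_cast; ring,
      ← Finset.insert_Icc_right_eq_Icc_add_one (by omega), Finset.sum_insert (by simp), ih]
    ring

/-- The Euler characteristic of `P/Q` over the degrees in `[-N, N]`. -/
noncomputable def eu (S : Type*) [CommRing S] {A : Type*} [AddCommGroup A] [Module S A]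
    (d : A →ₗ[S] A) (P Q : ℤ → Submodule S A) (N : ℕ) : ℤ :=
  ∑ r ∈ Finset.Icc (-(N : ℤ)) N, sgn r * ((hlen S d P Q r).toNat : ℤ)

variable {S : Type*} [CommRing S] {A : Type*} [AddCommGroup A] [Module S A] {d : A →ₗ[S] A}
  {O P Q : ℤ → Submodule S A}

lemma hlen_self (hP : IsStable d P) (r : ℤ) : hlen S d P P r = 0 := by
  rw [hlen, sq_eq_zero_iff]
  exact inf_le_left.trans le_sup_right

lemma eu_self (hP : IsStable d P) (N : ℕ) : eu S d P P N = 0 := by
  simp [eu, hlen_self hP]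

lemma hlen_eq_bot_zero {r : ℤ} (hP : P r = ⊥) : hlen S d P Q r = 0 := by
  rw [hlen, sq_eq_zero_iff, hP]
  simp

section

variable (hd : d ∘ₗ d = 0) (hP : IsStable d P) (hQ : IsStable d Q) (hO : IsStable d O)
  (hQP : ∀ r, Q r ≤ P r) (hPO : ∀ r, P r ≤ O r)

include hd hP hQ hO hQP hPO

lemma hlen_left_le (r : ℤ) :
    hlen S d P Q r ≤ hlen S d O Q r + hlen S d O P (r - 1) := by
  rw [hlen_eq_left hd hP hQ hQP hPO, hlen_eq_mid hd hQ hQP hPO hO,
    hlen_eq_right hd hP hQ hO hQP hPO, show r - 1 + 1 = r by ring]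
  exact add_le_add le_self_add le_add_self

lemma hlen_right_le (r : ℤ) :
    hlen S d O P r ≤ hlen S d O Q r + hlen S d P Q (r + 1) := by
  rw [hlen_eq_left hd hP hQ hQP hPO, hlen_eq_mid hd hQ hQP hPO hO,
    hlen_eq_right hd hP hQ hO hQP hPO]
  exact add_le_add le_add_self le_add_self

lemma eu_add (N : ℕ) (hbd : ∀ r : ℤ, r < -(N : ℤ) + 1 ∨ (N : ℤ) < r → P r = ⊥)
    (h1 : ∀ r, hlen S d P Q r ≠ ⊤) (h2 : ∀ r, hlen S d O P r ≠ ⊤) :
    eu S d O Q N = eu S d P Q N + eu S d O P N := by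
  let k : ℤ → ℕ∞ := fun r => conn S d O P Q r
  have hk : ∀ r : ℤ, r < -(N : ℤ) + 1 ∨ (N : ℤ) < r → k r = 0 := by
    intro r hr
    simp only [k, conn, sq_eq_zero_iff, hbd r hr, inf_bot_eq, bot_sup_eq]
    exact le_sup_right
  have hl := hlen_eq_left hd hP hQ hQP hPO
  have hm := hlen_eq_mid hd hQ hQP hPO hO
  have hr := hlen_eq_right hd hP hQ hO hQP hPO
  have e1 : ∀ r, ((hlen S d O Q r).toNat : ℤ) + ((k r).toNat + (k (r + 1)).toNat) =
      (hlen S d P Q r).toNat + (hlen S d O P r).toNat := by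
    intro r
    have a1 := h1 r; have a2 := h2 r
    rw [hl] at a1; rw [hr] at a2
    simp only [ne_eq, ENat.add_eq_top, not_or] at a1 a2
    rw [hl, hm, hr, ENat.toNat_add a1.1 a1.2, ENat.toNat_add a2.1 a2.2,
      ENat.toNat_add a1.1 a2.1]
    push_cast
    ring
  have e2 : ∑ r ∈ Finset.Icc (-(N : ℤ)) N,
      sgn r * (((k r).toNat : ℤ) + (k (r + 1)).toNat) = 0 := by
    have := sum_Icc_telescope (fun r => sgn r * ((k r).toNat : ℤ)) (-(N : ℤ)) (2 * N)
    rw [show -(N : ℤ) + ((2 * N : ℕ) : ℤ) = N by push_cast; ring] at this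
    simp only [sgn_succ, neg_mul, sub_neg_eq_add] at this
    simp only [mul_add]
    rw [this, hk _ (Or.inl (by omega)), hk _ (Or.inr (by omega))]
    simp
  simp only [eu, ← Finset.sum_add_distrib, ← mul_add, ← e1]
  simp only [mul_add] at e2 ⊢
  simp only [Finset.sum_add_distrib] at e2 ⊢
  linarith [e2]

end

/-- Homology of the top of a finite chain of subcomplexes modulo its bottom. -/
lemma hlen_chain_le (hd : d ∘ₗ d = 0) (X : ℕ → ℤ → Submodule S A) (K : ℕ)
    (hX : ∀ k ≤ K, IsStable d (X k)) (hle : ∀ k < K, ∀ r, X k r ≤ X (k + 1) r) (r : ℤ) :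
    hlen S d (X K) (X 0) r ≤ ∑ k ∈ Finset.range K, hlen S d (X (k + 1)) (X k) r := by
  induction K with
  | zero => simp [hlen_self (hX 0 le_rfl)]
  | succ K ih =>
    have h0 : ∀ k ≤ K, ∀ r, X 0 r ≤ X k r := by
      intro k hk
      induction k with
      | zero => exact fun r => le_rfl
      | succ k ihk => exact fun r => (ihk (by omega) r).trans (hle k (by omega) r)
    rw [Finset.sum_range_succ]
    refine (hlen_mid_le hd (hX K (by omega)) (hX 0 (by omega)) (hX _ le_rfl) (h0 K le_rfl)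
      (hle K (by omega)) r).trans (add_le_add ?_ le_rfl)
    exact ih (fun k hk => hX k (by omega)) (fun k hk => hle k (by omega))

lemma hlen_chain_ne_top (hd : d ∘ₗ d = 0) (X : ℕ → ℤ → Submodule S A) (K : ℕ)
    (hX : ∀ k ≤ K, IsStable d (X k)) (hle : ∀ k < K, ∀ r, X k r ≤ X (k + 1) r)
    (hfin : ∀ k < K, ∀ r, hlen S d (X (k + 1)) (X k) r ≠ ⊤) (r : ℤ) :
    hlen S d (X K) (X 0) r ≠ ⊤ :=
  ne_top_of_le_ne_top (by
    rw [ENat.sum_ne_top]
    exact fun k hk => hfin k (Finset.mem_range.1 hk) r) (hlen_chain_le hd X K hX hle r)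

lemma eu_chain (hd : d ∘ₗ d = 0) (X : ℕ → ℤ → Submodule S A) (K : ℕ)
    (hX : ∀ k ≤ K, IsStable d (X k)) (hle : ∀ k < K, ∀ r, X k r ≤ X (k + 1) r) (N : ℕ)
    (hbd : ∀ k ≤ K, ∀ r : ℤ, r < -(N : ℤ) + 1 ∨ (N : ℤ) < r → X k r = ⊥)
    (hfin : ∀ k < K, ∀ r, hlen S d (X (k + 1)) (X k) r ≠ ⊤) :
    eu S d (X K) (X 0) N = ∑ k ∈ Finset.range K, eu S d (X (k + 1)) (X k) N := by
  induction K with
  | zero => simp [eu_self (hX 0 le_rfl)]
  | succ K ih =>
    have h0 : ∀ k ≤ K, ∀ r, X 0 r ≤ X k r := by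
      intro k hk
      induction k with
      | zero => exact fun r => le_rfl
      | succ k ihk => exact fun r => (ihk (by omega) r).trans (hle k (by omega) r)
    rw [Finset.sum_range_succ, eu_add hd (hX K (by omega)) (hX 0 (by omega)) (hX _ le_rfl)
      (h0 K le_rfl) (hle K (by omega)) N (hbd K (by omega))
      (fun r => hlen_chain_ne_top hd X K (fun k hk => hX k (by omega)) (fun k hk => hle k (by omega))
        (fun k hk => hfin k (by omega)) r)
      (hfin K (by omega)), ih (fun k hk => hX k (by omega)) (fun k hk => hle k (by omega))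
      (fun k hk => hbd k (by omega)) (fun k hk => hfin k (by omega))]

end Vale.Agent.P202
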