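import Vale.Agent.P202.Kos
import Vale.Agent.P202.InterfacesC

/-! Module C2: finiteness of Koszul homology, its Euler characteristic as the multiplicity, and
additivity. -/

universe u

namespace Vale.Agent.P202

open Filter

lemma enat_add_ne_top {a b : ℕ∞} : a + b ≠ ⊤ ↔ a ≠ ⊤ ∧ b ≠ ⊤ := by
  simp [ENat.add_eq_top]

lemma enat_mul_ne_top {a b : ℕ∞} (ha : a ≠ ⊤) (hb : b ≠ ⊤) : a * b ≠ ⊤ :=
  WithTop.mul_ne_top ha hb

section Ring

variable {A : Type*} [CommRing A] {M : Type*} [AddCommGroup M] [Module A M]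

lemma length_quot_eq_sq (N : Submodule A M) : Module.length A (M ⧸ N) = sq A ⊤ N := by
  let g : ↥(⊤ : Submodule A M) →ₗ[A] M ⧸ N := N.mkQ ∘ₗ (⊤ : Submodule A M).subtype
  have hs : Function.Surjective g := fun x => by
    obtain ⟨x, rfl⟩ := N.mkQ_surjective x
    exact ⟨⟨x, trivial⟩, rfl⟩
  have hk : LinearMap.ker g = N.comap (⊤ : Submodule A M).subtype := by
    rw [LinearMap.ker_comp, Submodule.ker_mkQ]
  rw [sq, ← hk]
  exact (g.quotKerEquivOfSurjective hs).symm.length_eq

lemma sq_sup_le (N N' L : Submodule A M) : sq A (N ⊔ N') L ≤ sq A N L + sq A N' L := by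
  have h : sq A (N ⊔ N') L = sq A N (N' ⊔ L) + sq A N' L := by
    rw [← sq_sup_left (N ⊔ N') L, sup_assoc,
      sq_add (N := N ⊔ (N' ⊔ L)) (M := N' ⊔ L) (L := L) le_sup_right le_sup_right,
      sq_sup_left, sq_sup_left]
  rw [h]
  exact add_le_add (sq_mono_right le_sup_right) le_rfl

variable [IsNoetherianRing A]

lemma length_quot_pow_ne_top (I : Ideal A)
    (h : IsFiniteLength A (M ⧸ (I • (⊤ : Submodule A M)))) (n : ℕ) :
    Module.length A (M ⧸ (I ^ n • (⊤ : Submodule A M))) ≠ ⊤ := by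
  rw [← Module.length_ne_top_iff, length_quot_eq_sq] at h
  rw [length_quot_eq_sq]
  induction n with
  | zero =>
    rw [pow_zero, Ideal.one_eq_top, Submodule.top_smul, sq_eq_zero_iff.2 le_rfl]
    exact ENat.zero_ne_top
  | succ n ih =>
    rw [sq_add (M := I ^ n • (⊤ : Submodule A M))
      (Submodule.smul_mono_left (Ideal.pow_le_pow_right n.le_succ)) le_top]
    refine enat_add_ne_top.2 ⟨ih, ?_⟩
    suffices ∀ (J : Ideal A) (hJ : J.FG), J ≤ I ^ n →
        sq A (J • (⊤ : Submodule A M)) (I ^ (n + 1) • (⊤ : Submodule A M)) ≠ ⊤ from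
      this _ (Ideal.fg_of_isNoetherianRing _) le_rfl
    intro J hJ
    induction J, hJ using Submodule.fg_induction with
    | singleton x =>
      intro hx
      have hx' : x ∈ I ^ n := hx (Submodule.mem_span_singleton_self x)
      refine ne_top_of_le_ne_top h ?_
      refine (sq_mono_left (N' := (⊤ : Submodule A M).map (LinearMap.lsmul A M x)) ?_).trans ?_
      · rw [Submodule.smul_le]
        intro r hr m _
        obtain ⟨c, rfl⟩ := Submodule.mem_span_singleton.1 hr
        exact ⟨c • m, trivial, by simp [smul_smul, mul_comm c x]⟩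
      · rw [sq_map]
        refine sq_mono_right ?_
        rw [← Submodule.map_le_iff_le_comap, Submodule.map_smul'', pow_succ', ← smul_eq_mul,
          Submodule.smul_assoc]
        refine Submodule.smul_mono le_rfl ?_
        rintro _ ⟨m, _, rfl⟩
        exact Submodule.smul_mem_smul hx' trivial
    | sup J₁ J₂ _ _ h₁ h₂ =>
      intro hle
      rw [Submodule.sup_smul]
      exact ne_top_of_le_ne_top
        (enat_add_ne_top.2 ⟨h₁ (le_sup_left.trans hle), h₂ (le_sup_right.trans hle)⟩)
        (sq_sup_le _ _ _)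

lemma mem_smul_top_pi {ι : Type*} [Fintype ι] [DecidableEq ι] (J : Ideal A) (f : ι → M) :
    f ∈ J • (⊤ : Submodule A (ι → M)) ↔ ∀ i, f i ∈ J • (⊤ : Submodule A M) := by
  constructor
  · intro hf i
    have h1 := Submodule.mem_map_of_mem (f := (LinearMap.proj i : (ι → M) →ₗ[A] M)) hf
    rw [Submodule.map_smul''] at h1
    exact Submodule.smul_mono le_rfl le_top h1
  · intro hf
    rw [← Finset.univ_sum_single f]
    refine Submodule.sum_mem _ fun i _ => ?_
    have h1 := Submodule.mem_map_of_mem (f := LinearMap.single A (fun _ : ι => M) i) (hf i)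
    rw [Submodule.map_smul''] at h1
    exact Submodule.smul_mono le_rfl le_top h1

end Ring

section Filtration

variable {A : Type u} [CommRing A] {M : Type u} [AddCommGroup M]
  [Module A M] {d : ℕ} (y : Fin d → A)

/-- The subcomplex of chains of cardinality `p` with values in `(y) ^ (n - p) M`. -/
def kfil (M : Type u) [AddCommGroup M] [Module A M] (n p : ℕ) :
    Submodule A (Finset (Fin d) → M) :=
  kchain A d M p ⊓ Ideal.span (Set.range y) ^ (n - p) • ⊤

/-- The length of `M / (y) ^ n M`. -/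
noncomputable def qlen (M : Type u) [AddCommGroup M] [Module A M] (n : ℕ) : ℕ∞ :=
  Module.length A (M ⧸ (Ideal.span (Set.range y) ^ n • (⊤ : Submodule A M)))

lemma kd_kchain_zero {f : Finset (Fin d) → M} (hf : f ∈ kchain A d M 0) : kd y M f = 0 := by
  funext s
  rw [kd_apply]
  refine Finset.sum_eq_zero fun l _ => ?_
  rw [hf _ (by simp), smul_zero, smul_zero]

lemma kchain_eq_bot {p : ℕ} (hp : d < p) : kchain A d M p = ⊥ := by
  rw [Submodule.eq_bot_iff]
  intro f hf
  funext s
  refine hf s ?_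
  have := s.card_le_univ
  rw [Fintype.card_fin] at this
  omega

lemma map_kd_kchain_le (p : ℕ) :
    (kchain A d M (p + 1)).map (kd y M) ≤ kchain A d M p ⊓ LinearMap.ker (kd y M) := by
  rintro _ ⟨f, hf, rfl⟩
  exact ⟨kd_mem_kchain y hf, LinearMap.mem_ker.2 (LinearMap.congr_fun (kd_kd y) f)⟩

variable [IsNoetherianRing A]

lemma map_kd_kfil_le (n p : ℕ) : (kfil y M n (p + 1)).map (kd y M) ≤ kfil y M n p := by
  refine le_inf ?_ ?_
  · exact (Submodule.map_mono inf_le_left).trans ((map_kd_kchain_le y p).trans inf_le_left)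
  · refine (Submodule.map_mono inf_le_right).trans ?_
    rw [Submodule.map_smul'']
    have h : (⊤ : Submodule A (Finset (Fin d) → M)).map (kd y M) ≤
        Ideal.span (Set.range y) • ⊤ := by
      rintro _ ⟨f, _, rfl⟩
      rw [mem_smul_top_pi]
      intro s
      rw [kd_apply]
      exact Submodule.sum_mem _ fun l _ => Submodule.smul_of_tower_mem _ _
        (Submodule.smul_mem_smul (Ideal.subset_span ⟨l, rfl⟩) trivial)
    refine (Submodule.smul_mono le_rfl h).trans ?_
    rw [← Submodule.smul_assoc, smul_eq_mul, ← pow_succ]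
    exact Submodule.smul_mono_left (Ideal.pow_le_pow_right (by omega))

lemma sq_kchain_kfil (n p : ℕ) :
    sq A (kchain A d M p) (kfil y M n p) = d.choose p * qlen y M (n - p) := by
  classical
  rw [show sq A (kchain A d M p) (kfil y M n p) = sq A (kchain A d M p)
      (Ideal.span (Set.range y) ^ (n - p) • ⊤) from
    sq_congr_inf (by rw [kfil, ← inf_assoc, inf_idem])]
  let ι := {s : Finset (Fin d) // s.card = p}
  let N : Submodule A M := Ideal.span (Set.range y) ^ (n - p) • ⊤
  let g : ↥(kchain A d M p) →ₗ[A] (ι → M ⧸ N) :=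
    LinearMap.pi fun i : ι => N.mkQ ∘ₗ LinearMap.proj (i : Finset (Fin d)) ∘ₗ
      (kchain A d M p).subtype
  have hs : Function.Surjective g := by
    intro v
    choose w hw using fun i => N.mkQ_surjective (v i)
    refine ⟨⟨fun s => if h : s.card = p then w ⟨s, h⟩ else 0, fun s hs => dif_neg hs⟩, ?_⟩
    funext i
    simp [g, i.2, ← hw]
  have hk : LinearMap.ker g = (Ideal.span (Set.range y) ^ (n - p) •
      (⊤ : Submodule A (Finset (Fin d) → M))).comap (kchain A d M p).subtype := by
    ext ⟨f, hf⟩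
    rw [LinearMap.mem_ker, Submodule.mem_comap, Submodule.subtype_apply, mem_smul_top_pi]
    constructor
    · intro h s
      by_cases hsc : s.card = p
      · have := congrFun h ⟨s, hsc⟩
        simpa [g, N, Submodule.Quotient.mk_eq_zero] using this
      · show f s ∈ _
        rw [hf s hsc]; exact Submodule.zero_mem _
    · intro h
      funext i
      simpa [g, N, Submodule.Quotient.mk_eq_zero] using h i
  rw [sq, ← hk, (g.quotKerEquivOfSurjective hs).length_eq, Module.length_pi_of_fintype,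
    Finset.sum_const, Finset.card_univ, Fintype.card_finset_len, Fintype.card_fin, nsmul_eq_mul,
    qlen]

variable [Module.Finite A M]

/-- Cycles deep in the filtration are boundaries of chains deep in the filtration. -/
lemma exists_deep_cycle (p : ℕ) : ∃ c, ∀ n, c ≤ n →
    kchain A d M p ⊓ LinearMap.ker (kd y M) ⊓ kfil y M n p ≤
      (kfil y M n (p + 1)).map (kd y M) := by
  set I := Ideal.span (Set.range y) with hI
  let Z : Submodule A (Finset (Fin d) → M) := kchain A d M p ⊓ LinearMap.ker (kd y M)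
  obtain ⟨k, hk⟩ := I.exists_pow_inf_eq_pow_smul Z
  refine ⟨p + k + 1, fun n hn => ?_⟩
  have h1 : kchain A d M p ⊓ LinearMap.ker (kd y M) ⊓ kfil y M n p ≤
      I ^ (n - p) • ⊤ ⊓ Z := le_inf (inf_le_right.trans inf_le_right) inf_le_left
  refine h1.trans ?_
  rw [hk _ (by omega), show n - p - k = (n - p - k - 1) + 1 by omega, pow_succ, ← smul_eq_mul,
    Submodule.smul_assoc]
  have h2 : I • (I ^ k • ⊤ ⊓ Z) ≤
      (kchain A d M (p + 1) ⊓ I ^ k • ⊤).map (kd y M) := by
    rw [Submodule.smul_le]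
    intro r hr u hu
    rw [hI] at hr
    induction hr using Submodule.span_induction with
    | mem r hr =>
      obtain ⟨l, rfl⟩ := hr
      have hker : kd y M u = 0 := hu.2.2
      have hy := kd_kap y l u
      rw [hker, map_zero, add_zero] at hy
      rw [← hy]
      refine Submodule.mem_map_of_mem ⟨fun s hs => ?_, ?_⟩
      · rw [kap_apply]
        split_ifs with hl
        · rw [hu.2.1 _ (by rw [Finset.card_erase_of_mem hl]; have := Finset.card_pos.2 ⟨l, hl⟩; omega),
            smul_zero]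
        · rfl
      · have h3 := Submodule.mem_map_of_mem (f := kap A l) hu.1
        rw [Submodule.map_smul''] at h3
        exact Submodule.smul_mono le_rfl le_top h3
    | zero => rw [zero_smul]; exact zero_mem _
    | add r r' _ _ h h' => rw [add_smul]; exact add_mem h h'
    | smul c r _ h => rw [smul_assoc]; exact Submodule.smul_mem _ c h
  refine (Submodule.smul_mono le_rfl h2).trans ?_
  rw [← Submodule.map_smul'']
  refine Submodule.map_mono (le_inf ?_ ?_)
  · exact Submodule.smul_le_right.trans inf_le_left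
  · refine (Submodule.smul_mono le_rfl inf_le_right).trans (le_of_eq ?_)
    rw [← Submodule.smul_assoc, smul_eq_mul, ← pow_add]
    congr 2
    omega

lemma exists_deep_cycle_all : ∃ c, ∀ n, c ≤ n → ∀ p,
    kchain A d M p ⊓ LinearMap.ker (kd y M) ⊓ kfil y M n p ≤
      (kfil y M n (p + 1)).map (kd y M) := by
  choose c hc using fun p => exists_deep_cycle (M := M) y p
  refine ⟨∑ p ∈ Finset.range (d + 1), c p, fun n hn p => ?_⟩
  by_cases hp : p ≤ d
  · exact hc p n ((Finset.single_le_sum (fun i _ => Nat.zero_le (c i))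
      (Finset.mem_range.2 (by omega))).trans hn)
  · rw [kchain_eq_bot (by omega)]
    simp

section Deep

variable {y} {n : ℕ} (hn : ∀ p, kchain A d M p ⊓ LinearMap.ker (kd y M) ⊓ kfil y M n p ≤
      (kfil y M n (p + 1)).map (kd y M))

/-- The length of the boundaries modulo the filtration. -/
noncomputable def kblen (y : Fin d → A) (M : Type u) [AddCommGroup M] [Module A M] (n p : ℕ) :
    ℕ∞ :=
  sq A ((kchain A d M (p + 1)).map (kd y M)) (kfil y M n p)

include hn

lemma sq_kchain_kfil_eq (p : ℕ) :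
    sq A (kchain A d M p) (kfil y M n p) =
      sq A (kchain A d M p) (kchain A d M p ⊓ LinearMap.ker (kd y M) ⊔ kfil y M n p) +
        (khlen y M p + kblen y M n p) := by
  set Z := kchain A d M p ⊓ LinearMap.ker (kd y M)
  set G := kfil y M n p
  set B := (kchain A d M (p + 1)).map (kd y M)
  have hBZ : B ≤ Z := map_kd_kchain_le y p
  rw [sq_add (M := Z ⊔ G) le_sup_right (sup_le inf_le_left inf_le_left),
    sq_add (N := Z ⊔ G) (M := B ⊔ G) (L := G) le_sup_right (sup_le_sup_right hBZ _)]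
  congr 2
  · rw [show Z ⊔ G = Z ⊔ (B ⊔ G) by rw [← sup_assoc, sup_of_le_left hBZ], sq_sup_left, khlen]
    refine sq_congr_inf (le_antisymm ?_ ?_)
    · refine le_inf inf_le_left ?_
      rintro z ⟨hz, hz'⟩
      obtain ⟨b, hb, g, hg, rfl⟩ := Submodule.mem_sup.1 hz'
      have hgZ : g ∈ Z := by
        have := Z.sub_mem hz (hBZ hb)
        simpa using this
      exact B.add_mem hb (Submodule.map_mono inf_le_left (hn p ⟨hgZ, hg⟩))
    · exact inf_le_inf_left _ le_sup_left
  · rw [sq_sup_left]; rfl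

lemma sq_kchain_kfil_zero :
    sq A (kchain A d M 0) (kfil y M n 0) = khlen y M 0 + kblen y M n 0 := by
  rw [sq_kchain_kfil_eq hn 0, sq_eq_zero_iff.2 ?_, zero_add]
  exact fun f hf => Submodule.mem_sup_left ⟨hf, kd_kchain_zero y hf⟩

lemma sq_kchain_kfil_succ (p : ℕ) :
    sq A (kchain A d M (p + 1)) (kfil y M n (p + 1)) =
      kblen y M n p + (khlen y M (p + 1) + kblen y M n (p + 1)) := by
  rw [sq_kchain_kfil_eq hn (p + 1)]
  congr 1
  rw [kblen, sq_map]
  refine sq_congr_inf (le_antisymm ?_ ?_)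
  · refine inf_le_inf_left _ (sup_le ?_ ?_)
    · rintro f ⟨_, hf⟩
      rw [SetLike.mem_coe, LinearMap.mem_ker] at hf
      rw [Submodule.mem_comap, hf]
      exact zero_mem _
    · exact Submodule.map_le_iff_le_comap.1 (map_kd_kfil_le y n p)
  · rintro x ⟨hx, hx'⟩
    refine ⟨hx, ?_⟩
    obtain ⟨w, hw, hwx⟩ := hn p ⟨map_kd_kchain_le y p (Submodule.mem_map_of_mem hx), hx'⟩
    rw [← sub_add_cancel x w]
    refine Submodule.add_mem_sup ⟨Submodule.sub_mem _ hx hw.1, ?_⟩ hw
    rw [SetLike.mem_coe, LinearMap.mem_ker, map_sub, hwx, sub_self]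

variable (hfin : IsFiniteLength A (M ⧸ (Ideal.span (Set.range y) • (⊤ : Submodule A M))))
include hfin

lemma khlen_kblen_ne_top (p : ℕ) : khlen y M p ≠ ⊤ ∧ kblen y M n p ≠ ⊤ := by
  have h : sq A (kchain A d M p) (kfil y M n p) ≠ ⊤ := by
    rw [sq_kchain_kfil]
    exact enat_mul_ne_top (ENat.natCast_ne_top _) (length_quot_pow_ne_top _ hfin _)
  rw [sq_kchain_kfil_eq hn p, enat_add_ne_top, enat_add_ne_top] at h
  exact h.2

lemma alt_sum_eq_kchi :
    ∑ p ∈ Finset.range (d + 1),
      (-1 : ℤ) ^ p * ((d.choose p : ℤ) * ((qlen y M (n - p)).toNat : ℤ)) = kchi y M := by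
  have key : ∀ j, ∑ p ∈ Finset.range (j + 1),
      (-1 : ℤ) ^ p * ((d.choose p : ℤ) * ((qlen y M (n - p)).toNat : ℤ)) =
      ∑ p ∈ Finset.range (j + 1), (-1 : ℤ) ^ p * ((khlen y M p).toNat : ℤ) +
        (-1 : ℤ) ^ j * ((kblen y M n j).toNat : ℤ) := by
    intro j
    induction j with
    | zero =>
      have h := congrArg ENat.toNat (sq_kchain_kfil_zero hn)
      obtain ⟨a, b⟩ := khlen_kblen_ne_top hn hfin 0
      rw [sq_kchain_kfil, ENat.toNat_add a b, ENat.toNat_mul, ENat.toNat_natCast] at h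
      simp only [zero_add, Finset.sum_range_one, pow_zero, one_mul]
      exact_mod_cast h
    | succ j ih =>
      have h := congrArg ENat.toNat (sq_kchain_kfil_succ hn j)
      obtain ⟨-, c⟩ := khlen_kblen_ne_top hn hfin j
      obtain ⟨a, b⟩ := khlen_kblen_ne_top hn hfin (j + 1)
      rw [sq_kchain_kfil, ENat.toNat_add c (enat_add_ne_top.2 ⟨a, b⟩), ENat.toNat_add a b,
        ENat.toNat_mul, ENat.toNat_natCast] at h
      replace h : ((d.choose (j + 1) : ℤ) * ((qlen y M (n - (j + 1))).toNat : ℤ)) =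
          (kblen y M n j).toNat + ((khlen y M (j + 1)).toNat + (kblen y M n (j + 1)).toNat) := by
        exact_mod_cast h
      rw [Finset.sum_range_succ, ih, Finset.sum_range_succ (fun p => (-1 : ℤ) ^ p * ((khlen y M p).toNat : ℤ)) (j + 1),
        h, pow_succ]
      ring
  rw [key d, kblen, kchain_eq_bot (by omega), Submodule.map_bot, sq_eq_zero_iff.2 bot_le]
  simp [kchi]

end Deep

end Filtration

theorem goalKoszulFinite : GoalKoszulFinite.{u} := by
  intro A _ _ _ M _ _ _ d y hfin p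
  obtain ⟨c, hc⟩ := exists_deep_cycle_all (M := M) y
  exact (khlen_kblen_ne_top (hc c le_rfl) hfin p).1

section Limit

lemma fwdDiff_iter_eq_zero {G : Type*} [AddCommGroup G] {g : ℕ → G} {N : ℕ} {c : G}
    (h : ∀ x, N ≤ x → g x = c) (j : ℕ) : ∀ x, N ≤ x → (fwdDiff 1)^[j + 1] g x = 0 := by
  induction j with
  | zero =>
    intro x hx
    simp [fwdDiff, h x hx, h (x + 1) (by omega)]
  | succ j ih =>
    intro x hx
    rw [Function.iterate_succ_apply', fwdDiff, ih x hx, ih (x + 1) (by omega), sub_zero]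

lemma tendsto_choose_div_pow {k d : ℕ} (hk : k ≤ d) :
    Tendsto (fun m : ℕ => (d.factorial : ℝ) * (m.choose k : ℝ) / (m : ℝ) ^ d) atTop
      (nhds (if k = d then 1 else 0)) := by
  have h1 : Asymptotics.IsEquivalent atTop
      (fun m : ℕ => (d.factorial : ℝ) * (m.choose k : ℝ) / (m : ℝ) ^ d)
      (fun m : ℕ => (d.factorial : ℝ) * ((m : ℝ) ^ k / k.factorial) / (m : ℝ) ^ d) :=
    (Asymptotics.IsEquivalent.refl.mul (isEquivalent_choose k)).div Asymptotics.IsEquivalent.refl
  refine h1.symm.tendsto_nhds ?_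
  rcases eq_or_lt_of_le hk with rfl | hlt
  · rw [if_pos rfl]
    refine tendsto_const_nhds.congr' ?_
    filter_upwards [eventually_gt_atTop 0] with m hm
    have : (0 : ℝ) < (m : ℝ) ^ k := pow_pos (Nat.cast_pos.2 hm) _
    field_simp
  · rw [if_neg hlt.ne]
    have h2 := ((tendsto_pow_div_pow_atTop_zero (𝕜 := ℝ) hlt).comp
      tendsto_natCast_atTop_atTop).const_mul ((d.factorial : ℝ) / k.factorial)
    rw [mul_zero] at h2
    refine h2.congr fun m => ?_
    simp only [Function.comp_apply]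
    ring

lemma tendsto_of_fwdDiff_const {f : ℕ → ℝ} {c : ℝ} {N d : ℕ}
    (h : ∀ x, N ≤ x → (fwdDiff 1)^[d] f x = c) :
    Tendsto (fun n : ℕ => (d.factorial : ℝ) * f n / (n : ℝ) ^ d) atTop (nhds c) := by
  rw [← tendsto_add_atTop_iff_nat N]
  have hr : Tendsto (fun m : ℕ => ((m : ℝ) / ((m : ℝ) + N)) ^ d) atTop (nhds 1) := by
    simpa using (tendsto_natCast_div_add_atTop (N : ℝ)).pow d
  have hs : Tendsto (fun m : ℕ => ∑ k ∈ Finset.range (d + 1),
      (d.factorial : ℝ) * (m.choose k : ℝ) / (m : ℝ) ^ d * (fwdDiff 1)^[k] f N) atTop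
      (nhds (∑ k ∈ Finset.range (d + 1), (if k = d then 1 else 0) * (fwdDiff 1)^[k] f N)) :=
    tendsto_finset_sum _ fun k hk =>
      (tendsto_choose_div_pow (Finset.mem_range_succ_iff.1 hk)).mul_const _
  have hlim : ∑ k ∈ Finset.range (d + 1), (if k = d then (1 : ℝ) else 0) * (fwdDiff 1)^[k] f N = c := by
    rw [Finset.sum_eq_single d (fun k _ hk => by simp [hk]) (by simp)]
    simp [h N le_rfl]
  rw [hlim] at hs
  have := hs.mul hr
  rw [mul_one] at this
  refine this.congr' ?_
  filter_upwards [eventually_gt_atTop d] with m hm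
  have e := shift_eq_sum_fwdDiff_iter 1 f m N
  simp only [smul_eq_mul, mul_one] at e
  rw [show m + N = N + m by ring, e]
  have e2 : ∑ k ∈ Finset.range (m + 1), m.choose k • (fwdDiff 1)^[k] f N =
      ∑ k ∈ Finset.range (d + 1), m.choose k • (fwdDiff 1)^[k] f N := by
    refine (Finset.sum_subset (by simp; omega) fun k _ hk => ?_).symm
    simp only [Finset.mem_range, not_lt] at hk
    obtain ⟨j, rfl⟩ : ∃ j, k = (j + 1) + d := ⟨k - d - 1, by omega⟩
    rw [Function.iterate_add_apply, fwdDiff_iter_eq_zero h j N le_rfl, smul_zero]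
  simp only [nsmul_eq_mul] at e2 ⊢
  rw [e2, Finset.mul_sum, Finset.sum_div, Finset.sum_mul]
  refine Finset.sum_congr rfl fun k _ => ?_
  have hm0 : (m : ℝ) ≠ 0 := Nat.cast_ne_zero.2 (by omega)
  push_cast
  rw [div_pow]
  field_simp
  ring

end Limit

lemma fwdDiff_qlen_eq {A : Type u} [CommRing A] [IsNoetherianRing A] {M : Type u} [AddCommGroup M]
    [Module A M] [Module.Finite A M] {d : ℕ} {y : Fin d → A} {c x : ℕ}
    (hc : ∀ n, c ≤ n → ∀ p, kchain A d M p ⊓ LinearMap.ker (kd y M) ⊓ kfil y M n p ≤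
      (kfil y M n (p + 1)).map (kd y M))
    (hfin : IsFiniteLength A (M ⧸ (Ideal.span (Set.range y) • (⊤ : Submodule A M))))
    (hx : c ≤ x) :
    (fwdDiff 1)^[d] (fun n => ((qlen y M n).toNat : ℝ)) x = (kchi y M : ℝ) := by
  have h := alt_sum_eq_kchi (hc (x + d) (by omega)) hfin
  rw [fwdDiff_iter_eq_sum_shift, ← h, ← Finset.sum_range_reflect, Int.cast_sum]
  refine Finset.sum_congr rfl fun p hp => ?_
  have hp' : p ≤ d := Finset.mem_range_succ_iff.1 hp
  rw [show d + 1 - 1 - p = d - p by omega, Nat.choose_symm hp', show d - (d - p) = p by omega,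
    zsmul_eq_mul, show x + (d - p) • 1 = x + d - p by simp; omega]
  push_cast
  ring

theorem goalKoszulMult : GoalKoszulMult.{u} := by
  intro A _ _ _ M _ _ _ d y _ hfin
  obtain ⟨c, hc⟩ := exists_deep_cycle_all (M := M) y
  exact tendsto_of_fwdDiff_const (f := fun n => ((qlen y M n).toNat : ℝ)) (N := c)
    fun x hx => fwdDiff_qlen_eq hc hfin hx

theorem goalKoszulAdd : GoalKoszulAdd.{u} := by
  intro A _ _ _ M₁ M₂ M₃ _ _ _ _ _ _ _ _ _ f g d y h₂ hf hfg hg
  set I := Ideal.span (Set.range y) with hI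
  obtain ⟨k, hk⟩ := I.exists_pow_inf_eq_pow_smul (LinearMap.range f)
  have hmap1 : (⊤ : Submodule A M₁).map f = LinearMap.range f := Submodule.map_top f
  have hmap3 : ∀ n, (I ^ n • ⊤ : Submodule A M₂).map g = I ^ n • ⊤ := fun n => by
    rw [Submodule.map_smul'', Submodule.map_top, LinearMap.range_eq_top.2 hg]
  -- the comparison of filtrations on `M₁`
  have hlow : ∀ n, I ^ n • (⊤ : Submodule A M₁) ≤ (I ^ n • ⊤ : Submodule A M₂).comap f := by
    intro n
    rw [← Submodule.map_le_iff_le_comap, Submodule.map_smul'']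
    exact Submodule.smul_mono le_rfl le_top
  have hhigh : ∀ n, k ≤ n →
      (I ^ n • ⊤ : Submodule A M₂).comap f ≤ I ^ (n - k) • (⊤ : Submodule A M₁) := by
    intro n hn
    rw [← Submodule.map_le_map_iff_of_injective hf, Submodule.map_comap_eq, inf_comm, hk n hn,
      Submodule.map_smul'', hmap1]
    exact Submodule.smul_mono le_rfl inf_le_right
  have hsplit : ∀ n, qlen y M₂ n =
      sq A ⊤ ((I ^ n • ⊤ : Submodule A M₂).comap f) + qlen y M₃ n := by
    intro n
    rw [qlen, qlen, length_quot_eq_sq, length_quot_eq_sq, ← hI,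
      sq_add (M := LinearMap.range f ⊔ (I ^ n • ⊤ : Submodule A M₂)) le_sup_right le_top, add_comm]
    congr 1
    · rw [sq_sup_left, ← hmap1, sq_map]
    · rw [show (⊤ : Submodule A M₃) = (⊤ : Submodule A M₂).map g from
        (by rw [Submodule.map_top, LinearMap.range_eq_top.2 hg]), sq_map, Submodule.map_top,
        LinearMap.range_eq_top.2 hg, ← hmap3, Submodule.comap_map_eq, ← hfg.linearMap_ker_eq.symm,
        sup_comm]
  -- finiteness for the three modules
  have hfin2 : ∀ n, qlen y M₂ n ≠ ⊤ := length_quot_pow_ne_top _ h₂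
  have h₃ : IsFiniteLength A (M₃ ⧸ (I • (⊤ : Submodule A M₃))) := by
    rw [← Module.length_ne_top_iff]
    have := hsplit 1 ▸ hfin2 1
    rw [enat_add_ne_top, qlen, ← hI, pow_one] at this
    exact this.2
  have h₁ : IsFiniteLength A (M₁ ⧸ (I • (⊤ : Submodule A M₁))) := by
    rw [← Module.length_ne_top_iff, length_quot_eq_sq]
    have := hsplit (k + 1) ▸ hfin2 (k + 1)
    rw [enat_add_ne_top] at this
    refine ne_top_of_le_ne_top this.1 (sq_mono_right ?_)
    simpa using hhigh (k + 1) (by omega)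
  have hfin1 : ∀ n, qlen y M₁ n ≠ ⊤ := length_quot_pow_ne_top _ h₁
  have hfin3 : ∀ n, qlen y M₃ n ≠ ⊤ := length_quot_pow_ne_top _ h₃
  have hup : ∀ n, (qlen y M₂ n).toNat ≤ (qlen y M₁ n).toNat + (qlen y M₃ n).toNat := by
    intro n
    rw [← ENat.toNat_add (hfin1 n) (hfin3 n)]
    refine ENat.toNat_le_toNat ?_ (enat_add_ne_top.2 ⟨hfin1 n, hfin3 n⟩)
    rw [hsplit]
    refine add_le_add ?_ le_rfl
    rw [qlen, length_quot_eq_sq]
    exact sq_mono_right (hlow n)
  have hdown : ∀ n, (qlen y M₁ n).toNat + (qlen y M₃ (n + k)).toNat ≤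
      (qlen y M₂ (n + k)).toNat := by
    intro n
    rw [← ENat.toNat_add (hfin1 _) (hfin3 _)]
    refine ENat.toNat_le_toNat ?_ (hfin2 _)
    rw [hsplit]
    refine add_le_add ?_ le_rfl
    rw [qlen, length_quot_eq_sq]
    refine sq_mono_right ?_
    simpa using hhigh (n + k) (by omega)
  -- limits
  let F := fun (L : ℕ → ℕ) (n : ℕ) => (d.factorial : ℝ) * (L n : ℝ) / (n : ℝ) ^ d
  have t : ∀ (M : Type u) [AddCommGroup M] [Module A M] [Module.Finite A M],
      IsFiniteLength A (M ⧸ (I • (⊤ : Submodule A M))) →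
      Tendsto (F fun n => (qlen y M n).toNat) atTop (nhds (kchi y M : ℝ)) := by
    intro M _ _ _ hM
    obtain ⟨c, hc⟩ := exists_deep_cycle_all (M := M) y
    refine tendsto_of_fwdDiff_const (f := fun n => ((qlen y M n).toNat : ℝ)) (N := c)
      fun x hx => ?_
    exact fwdDiff_qlen_eq hc hM hx
  have hr : Tendsto (fun n : ℕ => ((n : ℝ) / ((n : ℝ) + k)) ^ d) atTop (nhds 1) := by
    simpa using (tendsto_natCast_div_add_atTop (k : ℝ)).pow d
  have t1 := t M₁ h₁
  have t2 := t M₂ h₂
  have t3 := t M₃ h₃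
  have hle : (kchi y M₂ : ℝ) ≤ kchi y M₁ + kchi y M₃ := by
    refine le_of_tendsto_of_tendsto' t2 (t1.add t3) fun n => ?_
    simp only [F]
    rw [← add_div, ← mul_add]
    gcongr
    exact_mod_cast hup n
  have hge : (kchi y M₁ : ℝ) + kchi y M₃ ≤ kchi y M₂ := by
    have a3 := (tendsto_add_atTop_iff_nat k).2 t3
    have a2 := (tendsto_add_atTop_iff_nat k).2 t2
    have a1 := t1.mul hr
    rw [mul_one] at a1
    refine le_of_tendsto_of_tendsto (a1.add a3) a2 ?_
    filter_upwards [eventually_gt_atTop 0] with n hn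
    have hn0 : (0 : ℝ) < n := Nat.cast_pos.2 hn
    simp only [F, div_pow]
    push_cast
    rw [show (d.factorial : ℝ) * ((qlen y M₁ n).toNat : ℝ) / (n : ℝ) ^ d *
        ((n : ℝ) ^ d / ((n : ℝ) + k) ^ d) =
        (d.factorial : ℝ) * ((qlen y M₁ n).toNat : ℝ) / ((n : ℝ) + k) ^ d by field_simp]
    rw [← add_div, ← mul_add]
    gcongr
    exact_mod_cast hdown n
  exact_mod_cast le_antisymm hle hge

end Vale.Agent.P202
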