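import Vale.Agent.P202.Assembly
import Vale.Agent.P202.DEqualDim
import Vale.Agent.P202.KoszulMult
import Vale.Agent.P202.Growth

/-! The inequality `e(R) ≤ e(S)`, modulo the window estimates, for any dimension of `S`. -/

universe u

namespace Vale.Agent.P202

open IsLocalRing

theorem koszulGoals : KoszulGoals.{u} :=
  ⟨goalMultExists goalKoszulMult, goalKoszulFinite, goalKoszulMult, goalKoszulAdd⟩

/-- `e(R) ≤ e(S)` for every flat local homomorphism out of a ring of characteristic `p` with
F-finite residue field. -/
theorem mult_le_of_flat (hC : GoalPhiClass.{u}) (hW : GoalPhiWindow.{u}) (p : ℕ) [Fact p.Prime]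
    (R S : Type u) [CommRing R] [IsLocalRing R] [IsNoetherianRing R] [CharP R p]
    [CharP (ResidueField R) p] [CommRing S] [IsLocalRing S] [IsNoetherianRing S] [Algebra R S]
    [IsLocalHom (algebraMap R S)] [Module.Flat R S]
    (hF : (frobenius (ResidueField R) p).Finite) {eR eS : ℝ} (heR : HasMult R eR)
    (heS : HasMult S eS) : eR ≤ eS := by
  obtain ⟨S', _, _, _, _, _, _, hdim, hle⟩ := goalEqualDim p R S
  obtain ⟨e', -, he'⟩ := (koszulGoals.{u}).mult S'
  exact (mult_le_of_ndim_eq koszulGoals goalReduction hC hW p hF hdim heR he').trans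
    (hle eS e' heS he')

end Vale.Agent.P202
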