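import Vale.Agent.P202.Hom

/-!
Module B: the complex built from a graded family, the Cech cover of a product of `d - 1` projective
lines and the Koszul complex of `X l - e_l(u, v)`.
-/

universe u

namespace Vale.Agent.P202

/-- Index of a monomial: a Koszul set, a chart in each factor (`0` : only `u` inverted,
`1` : only `v` inverted, `2` : both inverted), the degree shift and the exponents of the `u`'s. -/
abbrev PIdx (d : ℕ) : Type :=
  (Finset (Fin d) × (Fin (d - 1) → Fin 3)) × ℤ × (Fin (d - 1) → ℤ)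

namespace PIdx

variable {d : ℕ}

/-- The number of factors in which both variables are inverted. -/
def nBoth (i : PIdx d) : ℕ := (Finset.univ.filter fun l => i.1.2 l = 2).card

/-- The cohomological degree. -/
def deg (i : PIdx d) : ℤ := (i.nBoth : ℤ) + i.1.1.card - d

/-- The exponent of `v` in factor `l`, for the twist `a`. -/
def rest (a : Fin (d - 1) → ℤ) (i : PIdx d) (l : Fin (d - 1)) : ℤ :=
  (i.1.1.card : ℤ) - i.2.1 - a l - i.2.2 l

/-- The monomial is regular on its chart. -/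
def Allowed (a : Fin (d - 1) → ℤ) (i : PIdx d) : Prop :=
  ∀ l, (i.1.2 l = 0 → 0 ≤ i.rest a l) ∧ (i.1.2 l = 1 → 0 ≤ i.2.2 l)

end PIdx

variable {R : Type*} [CommRing R] {M : Type*} [AddCommGroup M] [Module R M] {d : ℕ}

/-- The degree `r` part. -/
def phiDeg (R : Type*) [CommRing R] (M : Type*) [AddCommGroup M] [Module R M] (d : ℕ) (r : ℤ) :
    Submodule R (PIdx d →₀ M) where
  carrier := {f | ∀ i : PIdx d, i.deg ≠ r → f i = 0}
  add_mem' hf hg i h := by simp [hf i h, hg i h]
  zero_mem' := fun _ _ => rfl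
  smul_mem' c f hf i h := by simp [hf i h]

/-- The filtration by the number of factors in which both variables are inverted. -/
def phiFil (R : Type*) [CommRing R] (M : Type*) [AddCommGroup M] [Module R M] (d : ℕ) (m : ℕ) :
    Submodule R (PIdx d →₀ M) where
  carrier := {f | ∀ i : PIdx d, i.nBoth < m → f i = 0}
  add_mem' hf hg i h := by simp [hf i h, hg i h]
  zero_mem' := fun _ _ => rfl
  smul_mem' c f hf i h := by simp [hf i h]

/-- The subcomplex attached to the family `W`, the twist `a` and the level `c`. -/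
def phiSub (D : ℕ) (a : Fin (d - 1) → ℤ) (W : ℤ → Submodule R M) (c : ℤ) :
    Submodule R (PIdx d →₀ M) where
  carrier := {f | ∀ i : PIdx d, f i ∈ W (c + D * i.2.1) ∧ (¬ i.Allowed a → f i = 0)}
  add_mem' hf hg i :=
    ⟨Submodule.add_mem _ (hf i).1 (hg i).1, fun h => by simp [(hf i).2 h, (hg i).2 h]⟩
  zero_mem' := fun i => ⟨Submodule.zero_mem _, fun _ => rfl⟩
  smul_mem' c f hf i := ⟨Submodule.smul_mem _ c (hf i).1, fun h => by simp [(hf i).2 h]⟩

/-- Sign of the Cech differential in the factor `l`. -/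
def cechSign (C : Fin (d - 1) → Fin 3) (l : Fin (d - 1)) : ℤ :=
  (if C l = 0 then 1 else -1) *
    (-1) ^ (Finset.univ.filter fun j => j < l ∧ C j = 2).card

/-- The differential on one monomial. -/
noncomputable def phiDOne (X : Fin d → M →ₗ[R] M) (i : PIdx d) : M →ₗ[R] (PIdx d →₀ M) :=
  ∑ l ∈ Finset.univ.filter (fun l => i.1.2 l ≠ 2),
      cechSign i.1.2 l • Finsupp.lsingle ((i.1.1, Function.update i.1.2 l 2), i.2.1, i.2.2)
  + ((-1 : ℤ) ^ i.nBoth) • ∑ l ∈ i.1.1ᶜ, ksign l i.1.1 •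
      ((Finsupp.lsingle ((insert l i.1.1, i.1.2), i.2.1 + 1, i.2.2)).comp (X l) -
        ∑ ε ∈ Finset.univ.powersetCard (l : ℕ),
          Finsupp.lsingle ((insert l i.1.1, i.1.2), i.2.1,
            fun j => i.2.2 j + if j ∈ ε then 1 else 0))

/-- The differential. -/
noncomputable def phiD (X : Fin d → M →ₗ[R] M) : (PIdx d →₀ M) →ₗ[R] (PIdx d →₀ M) :=
  Finsupp.lsum R (phiDOne X)

/-- The extended Rees family of the maximal ideal. -/
def reesFam (R : Type*) [CommRing R] [IsLocalRing R] (n : ℤ) : Submodule R R :=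
  IsLocalRing.maximalIdeal R ^ n.toNat

/-- Multiplication by the elements `x`. -/
noncomputable def mulFam {R : Type*} [CommRing R] (x : Fin d → R) (l : Fin d) : R →ₗ[R] R :=
  LinearMap.mulLeft R (x l)

/-- The homology module of the subquotient complex `P/Q`. -/
abbrev HMod {S : Type*} [CommRing S] {A : Type*} [AddCommGroup A] [Module S A]
    (δ : A →ₗ[S] A) (P Q : ℤ → Submodule S A) (r : ℤ) : Type _ :=
  ↥(P r ⊓ (Q (r + 1)).comap δ) ⧸
    ((P (r - 1)).map δ ⊔ Q r).comap (P r ⊓ (Q (r + 1)).comap δ).subtype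

/-- An additive function on finite modules that kills modules annihilated by a power of `z`. -/
def IsAddKilling (R : Type u) [CommRing R] (z : R)
    (η : ∀ (N : Type u) [AddCommGroup N] [Module R N], ℤ) : Prop :=
  (∀ (N₁ N₂ N₃ : Type u) [AddCommGroup N₁] [Module R N₁] [AddCommGroup N₂] [Module R N₂]
      [AddCommGroup N₃] [Module R N₃] [Module.Finite R N₁] [Module.Finite R N₂]
      [Module.Finite R N₃] (f : N₁ →ₗ[R] N₂) (g : N₂ →ₗ[R] N₃),
      Function.Injective f → Function.Exact f g → Function.Surjective g →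
      η N₂ = η N₁ + η N₃) ∧
  (∀ (N : Type u) [AddCommGroup N] [Module R N] [Module.Finite R N] (k : ℕ),
      (∀ v : N, z ^ k • v = 0) → η N = 0)

/-- `x` is a system of `dim R` elements of `m ^ D` which is a reduction of `m ^ D`. -/
structure RedData (R : Type u) [CommRing R] [IsLocalRing R] (d D : ℕ) (x : Fin d → R) : Prop where
  dpos : 0 < d
  dim_eq : ndim R = d
  Dpos : 0 < D
  mem : ∀ l, x l ∈ IsLocalRing.maximalIdeal R ^ D
  red : ∃ n₀ : ℕ, ∀ n, n₀ ≤ n → IsLocalRing.maximalIdeal R ^ (n + D) ≤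
    Ideal.span (Set.range x) * IsLocalRing.maximalIdeal R ^ n

/-- The filtered system at scale `q`: its level `j`. -/
noncomputable def phiG (R : Type*) [CommRing R] [IsLocalRing R] {d : ℕ} (D q : ℕ)
    (a : Fin (d - 1) → ℤ) (j : ℤ) : Submodule R (PIdx d →₀ R) :=
  phiSub D a (reesFam R) ((q : ℤ) * j)

/-- Level `j` in degree `r`. -/
noncomputable def phiGr (R : Type*) [CommRing R] [IsLocalRing R] {d : ℕ} (D q : ℕ)
    (a : Fin (d - 1) → ℤ) (j : ℤ) (r : ℤ) : Submodule R (PIdx d →₀ R) :=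
  phiG R D q a j ⊓ phiDeg R R d r

/-- B, structure: the differential squares to zero and respects everything. -/
def GoalPhiBasic : Prop :=
  ∀ (R : Type u) [CommRing R] [IsLocalRing R] [IsNoetherianRing R] (d D : ℕ) (x : Fin d → R),
    RedData R d D x → ∀ (a : Fin (d - 1) → ℤ),
      phiD (mulFam x) ∘ₗ phiD (mulFam x) = 0 ∧
      (∀ c, (phiSub D a (reesFam R) c).map (phiD (mulFam x)) ≤ phiSub D a (reesFam R) c) ∧
      (∀ r, (phiDeg R R d r).map (phiD (mulFam x)) ≤ phiDeg R R d (r + 1)) ∧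
      (∀ m, (phiFil R R d m).map (phiD (mulFam x)) ≤ phiFil R R d m) ∧
      (∀ r : ℤ, r < -(d : ℤ) ∨ (d : ℤ) ≤ r → phiDeg R R d r = ⊥)

/-- B, local nilpotence of the inclusions between levels. -/
def GoalPhiGhost : Prop :=
  ∀ (R : Type u) [CommRing R] [IsLocalRing R] [IsNoetherianRing R] (d D : ℕ) (x : Fin d → R),
    RedData R d D x → ∀ (N : ℕ), 0 < N → ∀ (a : Fin (d - 1) → ℤ),
      ∃ (φ : Fin d → (PIdx d →₀ R) →ₗ[R] (PIdx d →₀ R))
        (h : (PIdx d →₀ R) →ₗ[R] (PIdx d →₀ R)),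
        (∀ l m, (phiFil R R d m).map (φ l) ≤ phiFil R R d m) ∧
        (∀ m, (phiFil R R d m).map h ≤ phiFil R R d m) ∧
        (∀ l r, (phiDeg R R d r).map (φ l) ≤ phiDeg R R d r) ∧
        (∀ r, (phiDeg R R d r).map h ≤ phiDeg R R d (r - 1)) ∧
        (∀ l c, (phiSub D a (reesFam R) c).map (φ l) ≤
          phiSub D a (reesFam R) (c - N * D)) ∧
        (∀ c, (phiSub D a (reesFam R) c).map h ≤ phiSub D a (reesFam R) (c - N * D)) ∧
        (∀ l m, ∀ f ∈ phiFil R R d m,
          φ l (phiD (mulFam x) f) - phiD (mulFam x) (φ l f) ∈ phiFil R R d (m + 1)) ∧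
        (∀ m, ∀ f ∈ phiFil R R d m,
          f - ∑ l, x l ^ N • φ l f - phiD (mulFam x) (h f) - h (phiD (mulFam x) f) ∈
            phiFil R R d (m + 1))

/-- B, finiteness over `R` of the cohomology at level `0`, and its class. -/
def GoalPhiClass : Prop :=
  ∀ (R : Type u) [CommRing R] [IsLocalRing R] [IsNoetherianRing R] (d D : ℕ) (x : Fin d → R)
    (hd : RedData R d D x) (q : ℕ), 0 < q → ∀ (a : Fin (d - 1) → ℤ),
      (∀ r, Module.Finite R (HMod (phiD (mulFam x)) (phiGr R D q a 0) (fun _ => ⊥) r)) ∧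
      ∀ η : ∀ (N : Type u) [AddCommGroup N] [Module R N], ℤ,
        IsAddKilling R (x ⟨d - 1, Nat.sub_lt hd.dpos Nat.one_pos⟩) η →
        ∑ r ∈ Finset.Icc (-(d : ℤ)) d, ((Int.negOnePow r : ℤˣ) : ℤ) *
            η (HMod (phiD (mulFam x)) (phiGr R D q a 0) (fun _ => ⊥) r) =
          ((d - 1).factorial : ℤ) * η R

/-- B, the graded pieces: almost all cohomology sits in the expected degree, and the Euler
characteristic of the blocks is asymptotically concentrated at `j = -1`. The twists are chosen for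
each `q`. -/
def GoalPhiWindow : Prop :=
  ∀ (R : Type u) [CommRing R] [IsLocalRing R] [IsNoetherianRing R] (d D : ℕ) (x : Fin d → R),
    RedData R d D x → ∀ (e : ℝ), HasMult R e →
    ∃ a : ℕ → Fin (d - 1) → ℤ, ∀ K : ℕ, ∃ C : ℝ, ∀ q : ℕ, 0 < q →
      ∀ j : ℤ, -(K : ℤ) ≤ j → j ≤ K →
        (∀ r, hlen R (phiD (mulFam x)) (phiGr R D q (a q) j) (phiGr R D q (a q) (j + 1)) r ≠ ⊤) ∧
        (∀ r : ℤ, ¬ (min (max (-j - 2) 0) ((d : ℤ) - 1) ≤ r ∧
              r ≤ min (max (-j - 1) 0) ((d : ℤ) - 1)) →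
          ((hlen R (phiD (mulFam x)) (phiGr R D q (a q) j)
            (phiGr R D q (a q) (j + 1)) r).toNat : ℝ) ≤ C * (q : ℝ) ^ (d - 1)) ∧
        (-(d : ℤ) ≤ j → j ≤ -1 →
          |((∑ r ∈ Finset.Icc (-(d : ℤ)) d, ((Int.negOnePow r : ℤˣ) : ℤ) *
              ((hlen R (phiD (mulFam x)) (phiGr R D q (a q) j)
                (phiGr R D q (a q) (j + 1)) r).toNat : ℤ) : ℤ) : ℝ) -
            (if j = -1 then ((d - 1).factorial : ℝ) * e * (q : ℝ) ^ d else 0)| ≤
          C * (q : ℝ) ^ (d - 1))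

end Vale.Agent.P202
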