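import Vale.Agent.P202.Twist
import Vale.Agent.P202.PhiDefs

/-! The Frobenius twist of a ring, and small facts used in the final assembly. -/

universe u

namespace Vale.Agent.P202

open TensorProduct IsLocalRing Filter

/-- A copy of `R`, an algebra over `R` through the `e`-th power of Frobenius. -/
@[nolint unusedArguments]
def Fr (R : Type u) (_p _e : ℕ) : Type u := R

namespace Fr

variable (R : Type u) [CommRing R] (p e : ℕ)

instance instCommRing : CommRing (Fr R p e) := inferInstanceAs (CommRing R)

instance instIsLocalRing [IsLocalRing R] : IsLocalRing (Fr R p e) :=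
  inferInstanceAs (IsLocalRing R)

instance instIsNoetherianRing [IsNoetherianRing R] : IsNoetherianRing (Fr R p e) :=
  inferInstanceAs (IsNoetherianRing R)

/-- The identity. -/
def equiv : R ≃+* Fr R p e := RingEquiv.refl R

variable [ExpChar R p]

noncomputable instance instAlgebra : Algebra R (Fr R p e) :=
  ((equiv R p e).toRingHom.comp (iterateFrobenius R p e)).toAlgebra

lemma algebraMap_apply (a : R) : algebraMap R (Fr R p e) a = equiv R p e a ^ p ^ e := rfl

lemma finite (hF : (frobenius R p).Finite) : (algebraMap R (Fr R p e)).Finite := by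
  refine RingHom.Finite.comp (RingHom.Finite.of_surjective _ (equiv R p e).surjective) ?_
  induction e with
  | zero => rw [iterateFrobenius_zero]; exact RingHom.Finite.id R
  | succ e ih =>
    have : iterateFrobenius R p (e + 1) = (frobenius R p).comp (iterateFrobenius R p e) := by
      refine RingHom.ext fun a => ?_
      simp [iterateFrobenius_def, frobenius_def, pow_succ, pow_mul]
    rw [this]
    exact hF.comp ih

variable [Fact p.Prime]

instance instIsLocalHom : IsLocalHom (algebraMap R (Fr R p e)) :=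
  ⟨fun a ha => by
    rw [algebraMap_apply, isUnit_pow_iff (pow_ne_zero _ (Fact.out : p.Prime).ne_zero)] at ha
    exact (isUnit_map_iff (equiv R p e) a).1 ha⟩

end Fr

lemma ndim_of_subsingleton (A : Type*) [CommRing A] [Subsingleton A] : ndim A = 0 := by
  rw [ndim, ringKrullDim_eq_bot_of_subsingleton]
  rfl

/-- Killing a power of one element of a system of parameters drops the dimension. -/
lemma ndim_quotient_span_pow_lt {R : Type*} [CommRing R] [IsLocalRing R] [IsNoetherianRing R]
    {d : ℕ} {x : Fin d → R} (hx : ∀ l, x l ∈ maximalIdeal R) (c : ℕ)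
    (hc : maximalIdeal R ^ c ≤ Ideal.span (Set.range x)) (i : Fin d) (k : ℕ) :
    ndim (R ⧸ Ideal.span {x i ^ k}) < d := by
  classical
  by_cases htop : Ideal.span {x i ^ k} = ⊤
  · haveI : Subsingleton (R ⧸ Ideal.span {x i ^ k}) := Ideal.Quotient.subsingleton_iff.2 htop
    rw [ndim_of_subsingleton]
    exact i.pos
  let s := (Finset.univ.erase i).image x
  have hrad : Ideal.span (Set.range x) ≤
      (Ideal.span {x i ^ k} ⊔ Ideal.span (s : Set R)).radical := by
    rw [Ideal.span_le]
    rintro _ ⟨l, rfl⟩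
    by_cases hl : l = i
    · subst hl
      exact ⟨k, Ideal.mem_sup_left (Ideal.mem_span_singleton_self _)⟩
    · exact Ideal.le_radical (Ideal.mem_sup_right (Ideal.subset_span
        (Finset.mem_image_of_mem x (Finset.mem_erase.2 ⟨hl, Finset.mem_univ l⟩))))
  obtain ⟨N, hN⟩ := Ideal.exists_pow_le_of_le_radical_of_fg hrad (IsNoetherian.noetherian _)
  have h := ndim_quotient_le_card (Ideal.span {x i ^ k}) htop s (fun a ha => by
    obtain ⟨l, -, rfl⟩ := Finset.mem_image.1 ha
    exact hx l) (c * N) ((pow_mul (maximalIdeal R) c N).le.trans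
      ((pow_le_pow_left' hc N).trans hN))
  refine h.trans_lt ?_
  refine Finset.card_image_le.trans_lt ?_
  rw [Finset.card_erase_of_mem (Finset.mem_univ i), Finset.card_univ, Fintype.card_fin]
  exact Nat.sub_lt i.pos Nat.one_pos

/-- A reduction is a system of parameters. -/
lemma exists_pow_le_of_reduction {A : Type*} [CommRing A] [IsLocalRing A] {D : ℕ}
    {J : Ideal A} {n₀ : ℕ}
    (h : maximalIdeal A ^ (n₀ + D) ≤ J * maximalIdeal A ^ n₀) :
    ∃ c, 0 < c ∧ maximalIdeal A ^ c ≤ J :=
  ⟨n₀ + D + 1, Nat.succ_pos _,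
    (Ideal.pow_le_pow_right (Nat.le_succ _)).trans (h.trans Ideal.mul_le_left)⟩

lemma par_of_pow_le {A : Type*} [CommRing A] [IsLocalRing A] [IsNoetherianRing A] {d : ℕ}
    {y : Fin d → A} (hy : ∀ l, y l ∈ maximalIdeal A) {c : ℕ}
    (hc : maximalIdeal A ^ c ≤ Ideal.span (Set.range y)) : Par y where
  mem := hy
  fin := ne_top_of_le_ne_top (length_quot_maxPow_ne_top A c)
    (Module.length_le_of_surjective (Submodule.factor hc) (Submodule.factor_surjective _))

/-- A reduction of the maximal ideal computes the multiplicity. -/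
lemma hasMult_eq_kchi (G : KoszulGoals.{u}) {S : Type u} [CommRing S] [IsLocalRing S]
    [IsNoetherianRing S] {d : ℕ} (hd : ndim S = d) {y : Fin d → S}
    (hy : ∀ l, y l ∈ maximalIdeal S) {n₀ : ℕ}
    (hred : ∀ n, n₀ ≤ n → maximalIdeal S ^ (n + 1) ≤
      Ideal.span (Set.range y) * maximalIdeal S ^ n)
    {e : ℝ} (he : HasMult S e) : e = (kchi y S : ℝ) := by
  set Q := Ideal.span (Set.range y)
  have hpow : ∀ k, maximalIdeal S ^ (n₀ + k) ≤ Q ^ k * maximalIdeal S ^ n₀ := by
    intro k
    induction k with
    | zero => simp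
    | succ k ih =>
      refine (hred (n₀ + k) (Nat.le_add_right _ _)).trans ?_
      rw [pow_succ' Q k, mul_assoc]
      exact Ideal.mul_mono le_rfl ih
  obtain ⟨c, -, hc⟩ := exists_pow_le_of_reduction (hred n₀ le_rfl)
  have hpar : Par y := par_of_pow_le hy hc
  have hfl : IsFiniteLength S (S ⧸ (Q • (⊤ : Submodule S S))) := by
    rw [smul_eq_mul, Ideal.mul_top]
    exact Module.length_ne_top_iff.1 hpar.fin
  have hlim := G.kmult S S d y hy hfl
  have hQtop : ∀ n, (Ideal.span (Set.range y) ^ n • (⊤ : Submodule S S)) =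
      Ideal.span (Set.range y) ^ n := fun n => by simp
  replace hlim := hlim.congr (fun n => by rw [hQtop n])
  rw [HasMult, hd] at he
  set b : ℕ → ℕ := fun n => (Module.length S (S ⧸ maximalIdeal S ^ n)).toNat
  have hQm : Q ≤ maximalIdeal S := Ideal.span_le.2 (by rintro _ ⟨l, rfl⟩; exact hy l)
  have h1 : ∀ n, b n ≤ (Module.length S (S ⧸ Q ^ n)).toNat := fun n => by
    refine ENat.toNat_le_toNat (Module.length_le_of_surjective
      (Submodule.factor (pow_le_pow_left' hQm n)) (Submodule.factor_surjective _)) ?_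
    refine ne_top_of_le_ne_top (length_quot_maxPow_ne_top S (c * n)) (Module.length_le_of_surjective
      (Submodule.factor ?_) (Submodule.factor_surjective _))
    rw [pow_mul]
    exact pow_le_pow_left' hc n
  have h2 : ∀ n, (Module.length S (S ⧸ Q ^ n)).toNat ≤ b (n₀ + n) := fun n =>
    ENat.toNat_le_toNat (Module.length_le_of_surjective
      (Submodule.factor ((hpow n).trans Ideal.mul_le_left)) (Submodule.factor_surjective _))
      (length_quot_maxPow_ne_top S _)
  have hshift : Tendsto (fun n : ℕ => (d.factorial : ℝ) * (b (n₀ + n) : ℝ) / (n : ℝ) ^ d) atTop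
      (nhds e) := by
    have hr : Tendsto (fun n : ℕ => ((((n₀ + n : ℕ)) : ℝ) / n) ^ d) atTop (nhds ((1 : ℝ) ^ d)) := by
      refine Tendsto.pow ?_ d
      have := ((tendsto_inv_atTop_nhds_zero_nat (𝕜 := ℝ)).const_mul (n₀ : ℝ)).const_add (1 : ℝ)
      rw [mul_zero, add_zero] at this
      refine this.congr' ?_
      filter_upwards [eventually_gt_atTop 0] with n hn
      have : (n : ℝ) ≠ 0 := by exact_mod_cast hn.ne'
      push_cast
      field_simp
      ring
    have h3 := (he.comp (tendsto_atTop_atTop.2 fun m => ⟨m, fun n hn =>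
      hn.trans (Nat.le_add_left n n₀)⟩ : Tendsto (fun n : ℕ => n₀ + n) atTop atTop)).mul hr
    rw [one_pow, mul_one] at h3
    refine h3.congr' ?_
    filter_upwards [eventually_gt_atTop 0] with n hn
    have hn' : (n : ℝ) ≠ 0 := by exact_mod_cast hn.ne'
    have hnn : ((n₀ + n : ℕ) : ℝ) ≠ 0 := by exact_mod_cast (by omega : n₀ + n ≠ 0)
    simp only [Function.comp_apply, div_pow, b]
    field_simp
  refine tendsto_nhds_unique ?_ hlim
  refine tendsto_of_tendsto_of_tendsto_of_le_of_le he hshift (fun n => ?_) (fun n => ?_)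
  · exact div_le_div_of_nonneg_right (mul_le_mul_of_nonneg_left (Nat.cast_le.2 (h1 n))
      (Nat.cast_nonneg _)) (by positivity)
  · exact div_le_div_of_nonneg_right (mul_le_mul_of_nonneg_left (Nat.cast_le.2 (h2 n))
      (Nat.cast_nonneg _)) (by positivity)

/-- The zeroth Koszul homology of a nonzero finite module is nonzero. -/
lemma khlen_zero_pos {S : Type*} [CommRing S] [IsLocalRing S] {d : ℕ} {y : Fin d → S}
    (hy : ∀ l, y l ∈ maximalIdeal S) (M : Type*) [AddCommGroup M] [Module S M]
    [Module.Finite S M] [Nontrivial M] : khlen y M 0 ≠ 0 := by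
  classical
  intro h
  rw [khlen, sq_eq_zero_iff] at h
  set N : Submodule S M := Ideal.span (Set.range y) • ⊤ with hN
  have htop : N ≠ ⊤ := by
    refine Submodule.top_ne_ideal_smul_of_le_jacobson_annihilator ?_ |>.symm
    refine le_trans ?_ (IsLocalRing.maximalIdeal_le_jacobson _)
    exact Ideal.span_le.2 (by rintro _ ⟨l, rfl⟩; exact hy l)
  obtain ⟨m, -, hm⟩ := SetLike.exists_of_lt htop.lt_top
  let f : Finset (Fin d) → M := fun s => if s = ∅ then m else 0
  have hf : f ∈ kchain S d M 0 ⊓ LinearMap.ker (kd y M) := by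
    refine ⟨fun s hs => if_neg fun h => hs (by rw [h]; rfl), ?_⟩
    rw [SetLike.mem_coe, LinearMap.mem_ker]
    funext s
    rw [kd_apply]
    refine Finset.sum_eq_zero fun l _ => ?_
    simp [f, Finset.insert_ne_empty]
  obtain ⟨g, -, hg⟩ := h hf
  refine hm ?_
  have hm' : m = kd y M g ∅ := by rw [hg]; simp [f]
  rw [hm', kd_apply]
  exact Submodule.sum_mem _ fun l _ => Submodule.smul_of_tower_mem _ _
    (Submodule.smul_mem_smul (Ideal.subset_span (Set.mem_range_self l)) trivial)

end Vale.Agent.P202
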