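import Vale.Agent.P202.Kos

/-! Koszul homology of `B ⊗ V` as a functor on modules `V` killed by an ideal. -/

universe u

namespace Vale.Agent.P202

open TensorProduct

section

variable {R S : Type*} [CommRing R] [CommRing S] {B : Type*} [AddCommGroup B] [Module R B]
  [Module S B] [SMulCommClass R S B] {d : ℕ}

/-- Functions into `B ⊗ V` modulo Koszul boundaries in cardinality `p`. -/
abbrev HQ (B : Type*) [AddCommGroup B] [Module R B] [Module S B] [SMulCommClass R S B]
    (y : Fin d → S) (V : Type*) [AddCommGroup V] [Module R V] (p : ℕ) : Type _ :=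
  (Finset (Fin d) → B ⊗[R] V) ⧸ kbd y (B ⊗[R] V) p

variable (B) in
/-- The homology in cardinality `p`, as a submodule. -/
noncomputable def hp (y : Fin d → S) (V : Type*) [AddCommGroup V] [Module R V] (p : ℕ) :
    Submodule S (HQ (R := R) B y V p) :=
  (kcyc y (B ⊗[R] V) p).map (kbd y (B ⊗[R] V) p).mkQ

variable (B) in
/-- Functoriality. -/
noncomputable def hpMap (y : Fin d → S) (p : ℕ) {V W : Type*} [AddCommGroup V] [Module R V]
    [AddCommGroup W] [Module R W] (g : V →ₗ[R] W) :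
    HQ (R := R) B y V p →ₗ[S] HQ (R := R) B y W p :=
  Submodule.mapQ _ _ (kmap d (lT S B g))
    (Submodule.map_le_iff_le_comap.1 (kmap_kbd_le y (lT S B g) p))

variable {y : Fin d → S} {p : ℕ} {U V W : Type*} [AddCommGroup U] [Module R U] [AddCommGroup V]
  [Module R V] [AddCommGroup W] [Module R W]

lemma hpMap_mk (g : V →ₗ[R] W) (f : Finset (Fin d) → B ⊗[R] V) :
    hpMap B y p g (Submodule.Quotient.mk f) = Submodule.Quotient.mk (kmap d (lT S B g) f) := rfl

lemma hpMap_hmap (g : V →ₗ[R] W) (f : U →ₗ[R] V) (x : HQ (R := R) B y U p) :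
    hpMap B y p g (hpMap B y p f x) = hpMap B y p (g ∘ₗ f) x := by
  obtain ⟨x, rfl⟩ := Submodule.mkQ_surjective _ x
  simp only [Submodule.mkQ_apply, hpMap_mk]
  congr 1
  funext s
  simp [lT_comp_apply]

lemma hpMap_hp_le (g : V →ₗ[R] W) : (hp B y V p).map (hpMap B y p g) ≤ hp B y W p := by
  rintro _ ⟨_, ⟨f, hf, rfl⟩, rfl⟩
  exact ⟨kmap d (lT S B g) f, kmap_kcyc_le y _ p (Submodule.mem_map_of_mem hf), rfl⟩

lemma hpMap_zero : hpMap B y p (0 : V →ₗ[R] W) = 0 := by
  refine LinearMap.ext fun x => ?_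
  obtain ⟨x, rfl⟩ := Submodule.mkQ_surjective _ x
  rw [Submodule.mkQ_apply, hpMap_mk, LinearMap.zero_apply, Submodule.Quotient.mk_eq_zero]
  have : kmap d (lT S B (0 : V →ₗ[R] W)) x = 0 := by
    funext s; simp [lT_zero]
  rw [this]
  exact Submodule.zero_mem _

lemma hpMap_neg (g : V →ₗ[R] W) : hpMap B y p (-g) = -hpMap B y p g := by
  refine LinearMap.ext fun x => ?_
  obtain ⟨x, rfl⟩ := Submodule.mkQ_surjective _ x
  rw [Submodule.mkQ_apply, hpMap_mk, LinearMap.neg_apply, hpMap_mk, ← Submodule.Quotient.mk_neg]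
  congr 1
  funext s
  simp [lT_neg]

lemma khlen_eq_sq_hp :
    khlen y (B ⊗[R] V) p = sq S (hp B y V p) (⊥ : Submodule S (HQ (R := R) B y V p)) := by
  rw [hp, sq_map, Submodule.comap_bot, Submodule.ker_mkQ]
  rfl

end

/-- The module is killed by the ideal. -/
def KilledBy {R : Type*} [CommRing R] (I : Ideal R) (V : Type*) [AddCommGroup V] [Module R V] :
    Prop :=
  ∀ a ∈ I, ∀ v : V, a • v = 0

/-- Koszul homology of `B ⊗ -` is exact on modules killed by `I`, and scales lengths by `β`. -/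
structure HPHyp {R S : Type u} [CommRing R] [CommRing S] (B : Type u) [AddCommGroup B]
    [Module R B] [Module S B] [SMulCommClass R S B] {d : ℕ} (y : Fin d → S) (I : Ideal R)
    (β : ℕ → ℕ) : Prop where
  exact : ∀ (V₁ V₂ V₃ : Type u) [AddCommGroup V₁] [Module R V₁] [AddCommGroup V₂] [Module R V₂]
      [AddCommGroup V₃] [Module R V₃] (f : V₁ →ₗ[R] V₂) (g : V₂ →ₗ[R] V₃),
      KilledBy I V₁ → KilledBy I V₂ → KilledBy I V₃ →
      Function.Injective f → Function.Exact f g → Function.Surjective g → ∀ p,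
      hp B y V₁ p ⊓ LinearMap.ker (hpMap B y p f) = ⊥ ∧
      hp B y V₂ p ⊓ LinearMap.ker (hpMap B y p g) ≤ (hp B y V₁ p).map (hpMap B y p f) ∧
      hp B y V₃ p ≤ (hp B y V₂ p).map (hpMap B y p g)
  length_eq : ∀ (V : Type u) [AddCommGroup V] [Module R V], KilledBy I V →
      Module.length R V ≠ ⊤ → ∀ p, khlen y (B ⊗[R] V) p = β p * Module.length R V

section

variable {R S : Type u} [CommRing R] [CommRing S] {B : Type u} [AddCommGroup B]
  [Module R B] [Module S B] [SMulCommClass R S B] {d : ℕ} {y : Fin d → S} {I : Ideal R}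
  {β : ℕ → ℕ} {V : Type u} [AddCommGroup V] [Module R V]

variable (B y) in
/-- The image in `hp V` of `hp N`. -/
noncomputable def EE (p : ℕ) (N : Submodule R V) : Submodule S (HQ (R := R) B y V p) :=
  (hp B y ↥N p).map (hpMap B y p N.subtype)

lemma killedBy_submodule (hV : KilledBy I V) (N : Submodule R V) : KilledBy I ↥N :=
  fun a ha v => Subtype.ext (hV a ha v)

lemma killedBy_quotient (hV : KilledBy I V) (N : Submodule R V) : KilledBy I (V ⧸ N) := by
  intro a ha v
  obtain ⟨v, rfl⟩ := Submodule.mkQ_surjective _ v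
  rw [← map_smul, hV a ha v, map_zero]

lemma EE_inj (H : HPHyp B y I β) (hV : KilledBy I V) (p : ℕ) (N : Submodule R V) :
    hp B y ↥N p ⊓ LinearMap.ker (hpMap B y p N.subtype) = ⊥ :=
  (H.exact ↥N V (V ⧸ N) N.subtype N.mkQ (killedBy_submodule hV N) hV (killedBy_quotient hV N)
    N.injective_subtype (LinearMap.exact_subtype_mkQ N) N.mkQ_surjective p).1

lemma EE_le (p : ℕ) (N : Submodule R V) : EE B y p N ≤ hp B y V p := hpMap_hp_le _

lemma EE_mono (p : ℕ) {N N' : Submodule R V} (h : N ≤ N') : EE B y p N ≤ EE B y p N' := by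
  rintro _ ⟨z, hz, rfl⟩
  refine ⟨hpMap B y p (Submodule.inclusion h) z, hpMap_hp_le _ (Submodule.mem_map_of_mem hz), ?_⟩
  rw [hpMap_hmap]; rfl

lemma EE_bot (H : HPHyp B y I β) (hV : KilledBy I V) (p : ℕ) :
    EE B y p (⊥ : Submodule R V) = ⊥ := by
  have h : (⊥ : Submodule R V).subtype = 0 := by ext ⟨x, hx⟩; simpa using hx
  rw [EE, h, hpMap_zero, Submodule.map_zero]

lemma EE_map (H : HPHyp B y I β) (hV : KilledBy I V) (p : ℕ) (g : V →ₗ[R] V)
    (N : Submodule R V) : EE B y p (N.map g) = (EE B y p N).map (hpMap B y p g) := by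
  have hex := H.exact ↥(LinearMap.ker (g.submoduleMap N)) ↥N ↥(N.map g)
    (LinearMap.ker (g.submoduleMap N)).subtype (g.submoduleMap N)
    (killedBy_submodule (killedBy_submodule hV N) _) (killedBy_submodule hV N)
    (killedBy_submodule hV _) (Submodule.injective_subtype _)
    (LinearMap.exact_subtype_ker_map _) (g.submoduleMap_surjective N) p
  apply le_antisymm
  · rintro _ ⟨z, hz, rfl⟩
    obtain ⟨w, hw, rfl⟩ := hex.2.2 hz
    refine ⟨_, Submodule.mem_map_of_mem hw, ?_⟩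
    rw [hpMap_hmap, hpMap_hmap]; rfl
  · rintro _ ⟨_, ⟨w, hw, rfl⟩, rfl⟩
    refine ⟨_, hpMap_hp_le (g.submoduleMap N) (Submodule.mem_map_of_mem hw), ?_⟩
    rw [hpMap_hmap, hpMap_hmap]; rfl

lemma EE_inf_ker (H : HPHyp B y I β) (hV : KilledBy I V) (p : ℕ) (g : V →ₗ[R] V)
    (N : Submodule R V) :
    EE B y p (N ⊓ LinearMap.ker g) = EE B y p N ⊓ LinearMap.ker (hpMap B y p g) := by
  apply le_antisymm
  · refine le_inf (EE_mono p inf_le_left) ?_
    rintro _ ⟨z, _, rfl⟩
    rw [LinearMap.mem_ker, hpMap_hmap,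
      show g ∘ₗ (N ⊓ LinearMap.ker g).subtype = 0 from LinearMap.ext fun x => x.2.2, hpMap_zero]
    rfl
  · rintro _ ⟨⟨z, hz, rfl⟩, hz'⟩
    rw [SetLike.mem_coe, LinearMap.mem_ker, hpMap_hmap,
      show g ∘ₗ N.subtype = (N.map g).subtype ∘ₗ g.submoduleMap N from rfl, ← hpMap_hmap] at hz'
    have h0 : hpMap B y p (g.submoduleMap N) z = 0 := by
      have hm : hpMap B y p (g.submoduleMap N) z ∈
          hp B y ↥(N.map g) p ⊓ LinearMap.ker (hpMap B y p (N.map g).subtype) :=
        ⟨hpMap_hp_le _ (Submodule.mem_map_of_mem hz), hz'⟩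
      rwa [EE_inj H hV, Submodule.mem_bot] at hm
    have hex := H.exact ↥(LinearMap.ker (g.submoduleMap N)) ↥N ↥(N.map g)
      (LinearMap.ker (g.submoduleMap N)).subtype (g.submoduleMap N)
      (killedBy_submodule (killedBy_submodule hV N) _) (killedBy_submodule hV N)
      (killedBy_submodule hV _) (Submodule.injective_subtype _)
      (LinearMap.exact_subtype_ker_map _) (g.submoduleMap_surjective N) p
    obtain ⟨w, hw, rfl⟩ := hex.2.1 ⟨hz, h0⟩
    let e : ↥(LinearMap.ker (g.submoduleMap N)) →ₗ[R] ↥(N ⊓ LinearMap.ker g) :=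
      { toFun := fun x => ⟨x.1.1, ⟨x.1.2, congrArg Subtype.val (LinearMap.mem_ker.1 x.2)⟩⟩
        map_add' := fun _ _ => rfl
        map_smul' := fun _ _ => rfl }
    refine ⟨_, hpMap_hp_le e (Submodule.mem_map_of_mem hw), ?_⟩
    rw [hpMap_hmap, hpMap_hmap]; rfl

lemma sq_EE (H : HPHyp B y I β) (hV : KilledBy I V) (p : ℕ) {N L : Submodule R V} (hLN : L ≤ N)
    (hfin : sq R N L ≠ ⊤) : sq S (EE B y p N) (EE B y p L) = β p * sq R N L := by
  let L' : Submodule R ↥N := L.comap N.subtype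
  have hQ : KilledBy I (↥N ⧸ L') := killedBy_quotient (killedBy_submodule hV N) L'
  have hex := H.exact ↥L' ↥N (↥N ⧸ L') L'.subtype L'.mkQ
    (killedBy_submodule (killedBy_submodule hV N) _) (killedBy_submodule hV N) hQ
    L'.injective_subtype (LinearMap.exact_subtype_mkQ L') L'.mkQ_surjective p
  have hker : hp B y ↥N p ⊓ (EE B y p L).comap (hpMap B y p N.subtype) =
      hp B y ↥N p ⊓ LinearMap.ker (hpMap B y p L'.mkQ) := by
    apply le_antisymm
    · rintro z ⟨hz, hz'⟩
      refine ⟨hz, ?_⟩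
      obtain ⟨w, hw, hwz⟩ := hz'
      let e : ↥L →ₗ[R] ↥L' :=
        { toFun := fun x => ⟨⟨x.1, hLN x.2⟩, x.2⟩
          map_add' := fun _ _ => rfl
          map_smul' := fun _ _ => rfl }
      have hw' : hpMap B y p L'.subtype (hpMap B y p e w) = z := by
        have h1 : hpMap B y p L'.subtype (hpMap B y p e w) - z ∈
            hp B y ↥N p ⊓ LinearMap.ker (hpMap B y p N.subtype) := by
          refine ⟨(hp B y ↥N p).sub_mem (hpMap_hp_le _ (Submodule.mem_map_of_mem
            (hpMap_hp_le _ (Submodule.mem_map_of_mem hw)))) hz, ?_⟩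
          rw [SetLike.mem_coe, LinearMap.mem_ker, map_sub, hpMap_hmap, hpMap_hmap, sub_eq_zero]
          exact hwz
        rw [EE_inj H hV, Submodule.mem_bot, sub_eq_zero] at h1
        exact h1
      rw [SetLike.mem_coe, LinearMap.mem_ker, ← hw', hpMap_hmap, hpMap_hmap,
        show (L'.mkQ ∘ₗ L'.subtype) ∘ₗ e = 0 from LinearMap.ext fun x =>
          (Submodule.Quotient.mk_eq_zero L').2 (e x).2, hpMap_zero]
      rfl
    · rintro z hz
      refine ⟨hz.1, ?_⟩
      obtain ⟨w, hw, rfl⟩ := hex.2.1 hz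
      let e : ↥L' →ₗ[R] ↥L :=
        { toFun := fun x => ⟨x.1.1, x.2⟩
          map_add' := fun _ _ => rfl
          map_smul' := fun _ _ => rfl }
      refine ⟨_, hpMap_hp_le e (Submodule.mem_map_of_mem hw), ?_⟩
      rw [hpMap_hmap, hpMap_hmap]; rfl
  rw [EE, sq_map, sq_congr_inf hker, ← Submodule.comap_bot, ← sq_map,
    le_antisymm (hpMap_hp_le (B := B) (y := y) (p := p) L'.mkQ) hex.2.2, ← khlen_eq_sq_hp]
  exact H.length_eq _ hQ hfin p

/-- The homology of `hp` of a complex inside a module killed by `I`. -/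
lemma hlen_EE (H : HPHyp B y I β) (hV : KilledBy I V) (p : ℕ) (δ : V →ₗ[R] V) (hδ : δ ∘ₗ δ = 0)
    (g : ℤ → Submodule R V) (hg : IsStable δ g) (i : ℤ)
    (hfin : hlen R δ g (fun _ => ⊥) i ≠ ⊤) :
    hlen S (hpMap B y p δ) (fun i => EE B y p (g i)) (fun _ => ⊥) i =
      β p * hlen R δ g (fun _ => ⊥) i := by
  simp only [hlen, Submodule.comap_bot, sup_bot_eq] at hfin ⊢
  rw [← EE_inf_ker H hV, ← EE_map H hV]
  refine sq_EE H hV p ?_ hfin
  exact le_inf (hg.map_pred i) (by
    rintro _ ⟨x, _, rfl⟩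
    simpa using LinearMap.congr_fun hδ x)

end

end Vale.Agent.P202
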