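import Vale.Agent.P202.InterfacesG

/-!
G1: fields of characteristic `p` are formally smooth over the prime field, and the resulting lifts
into complete local rings.

An element of the first naive cotangent homology of `k` involves finitely many elements of `k`,
so it comes from a finitely generated subfield, which is separably generated.
-/

universe u v

namespace Vale.Agent.P202

open IsLocalRing

/-- The relations among all elements of `A`. -/
private noncomputable abbrev relIdeal (F A : Type*) [CommRing F] [CommRing A] [Algebra F A] :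
    Ideal (MvPolynomial A F) := (Algebra.Generators.self F A).ker

private lemma mem_relIdeal {F A : Type*} [CommRing F] [CommRing A] [Algebra F A]
    (x : MvPolynomial A F) : x ∈ relIdeal F A ↔ MvPolynomial.aeval (_root_.id : A → A) x = 0 := by
  exact Iff.rfl

private lemma cotangentComplex_eq_zero_iff {F A : Type*} [CommRing F] [CommRing A] [Algebra F A]
    (x : MvPolynomial A F) (hx : x ∈ relIdeal F A) :
    (Algebra.Generators.self F A).toExtension.cotangentComplex
        (Algebra.Extension.Cotangent.mk ⟨x, hx⟩) = 0 ↔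
      ∀ i : A, MvPolynomial.aeval (_root_.id : A → A) (MvPolynomial.pderiv i x) = 0 := by
  have hrepr : ∀ i, (Algebra.Generators.self F A).cotangentSpaceBasis.repr
      ((Algebra.Generators.self F A).toExtension.cotangentComplex
        (Algebra.Extension.Cotangent.mk ⟨x, hx⟩)) i =
      MvPolynomial.aeval (_root_.id : A → A) (MvPolynomial.pderiv i x) := fun i =>
    (Algebra.Generators.self F A).cotangentSpaceBasis_repr_one_tmul x i
  rw [← (Algebra.Generators.self F A).cotangentSpaceBasis.repr.map_eq_zero_iff, Finsupp.ext_iff]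
  exact forall_congr' fun i => by rw [hrepr i]; rfl

private lemma mk_eq_zero_iff_sq {F A : Type*} [CommRing F] [CommRing A] [Algebra F A]
    (x : MvPolynomial A F) (hx : x ∈ relIdeal F A) :
    Algebra.Extension.Cotangent.mk (P := (Algebra.Generators.self F A).toExtension) ⟨x, hx⟩ = 0 ↔
      x ∈ relIdeal F A ^ 2 :=
  Algebra.Extension.Cotangent.mk_eq_zero_iff _

/-- If all finitely generated subfields are formally smooth then so is the field. -/
theorem formallySmooth_of_fg_subfields {F : Type*} {k : Type v} [Field F] [Field k] [Algebra F k]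
    (h : ∀ L : IntermediateField F k, L.FG → Algebra.FormallySmooth F L) :
    Algebra.FormallySmooth F k := by
  classical
  refine ⟨inferInstance, ?_⟩
  rw [Algebra.Extension.subsingleton_h1Cotangent, injective_iff_map_eq_zero]
  intro z hz
  obtain ⟨⟨(x : MvPolynomial k F), (hx : x ∈ relIdeal F k)⟩, rfl⟩ :=
    Algebra.Extension.Cotangent.mk_surjective z
  have hz := (cotangentComplex_eq_zero_iff x hx).1 hz
  refine (mk_eq_zero_iff_sq x hx).2 ?_
  obtain ⟨s, x₁, hx₁⟩ := MvPolynomial.exists_finset_rename x
  let L := IntermediateField.adjoin F (↑s : Set k)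
  have := h L ⟨s, rfl⟩
  let j : s → L := fun a => ⟨a.1, IntermediateField.subset_adjoin F _ a.2⟩
  let x' : MvPolynomial L F := MvPolynomial.rename j x₁
  have hxx' : MvPolynomial.rename (Subtype.val : L → k) x' = x := by
    rw [hx₁, MvPolynomial.rename_rename]
    rfl
  have hval : ∀ q : MvPolynomial L F, MvPolynomial.aeval (_root_.id : k → k)
      (MvPolynomial.rename (Subtype.val : L → k) q) =
        ((MvPolynomial.aeval (_root_.id : L → L) q : L) : k) := by
    intro q
    rw [MvPolynomial.aeval_rename]
    exact (MvPolynomial.comp_aeval_apply _ L.val q).symm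
  have hx' : x' ∈ relIdeal F L := by
    rw [mem_relIdeal]
    refine Subtype.val_injective ?_
    rw [← hval, hxx']
    exact (mem_relIdeal x).1 hx
  have hz' := (cotangentComplex_eq_zero_iff x' hx').2 fun i => by
    refine Subtype.val_injective ?_
    rw [← hval, ← MvPolynomial.pderiv_rename Subtype.val_injective, hxx']
    exact hz i.1
  have hsq : x' ∈ relIdeal F L ^ 2 := (mk_eq_zero_iff_sq x' hx').1
    ((injective_iff_map_eq_zero _).1 ((Algebra.Extension.subsingleton_h1Cotangent _).1
      Algebra.FormallySmooth.subsingleton_h1Cotangent) _ hz')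
  let ren : MvPolynomial L F →+* MvPolynomial k F :=
    (MvPolynomial.rename (Subtype.val : L → k)).toRingHom
  have hle : (relIdeal F L ^ 2).map ren ≤ relIdeal F k ^ 2 := by
    rw [Ideal.map_pow]
    refine Ideal.pow_right_mono (Ideal.map_le_iff_le_comap.2 fun q hq => ?_) 2
    rw [Ideal.mem_comap, mem_relIdeal]
    change MvPolynomial.aeval (_root_.id : k → k) (MvPolynomial.rename Subtype.val q) = 0
    rw [hval, (mem_relIdeal q).1 hq]
    rfl
  rw [← hxx']
  exact hle (Ideal.mem_map_of_mem ren hsq)

/-- G1: fields of characteristic `p` are formally smooth over the prime field. -/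
theorem goalFieldSmooth : GoalFieldSmooth.{u} := by
  intro p _ k _ _
  refine formallySmooth_of_fg_subfields fun L hL => ?_
  have : Algebra.EssFiniteType (ZMod p) L := IntermediateField.essFiniteType_iff.2 hL
  infer_instance

variable {S : Type u} [CommRing S] [IsLocalRing S] [IsNoetherianRing S]

/-- A complete Noetherian local ring is complete for every proper ideal. -/
theorem isAdicComplete_of_le_maximalIdeal [IsAdicComplete (maximalIdeal S) S] {J : Ideal S}
    (hJ : J ≤ maximalIdeal S) : IsAdicComplete J S := by
  have hH : IsHausdorff J S := ⟨fun x hx => by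
    refine IsHausdorff.haus (I := maximalIdeal S) inferInstance x fun n => ?_
    exact (hx n).mono (Submodule.smul_mono_left (Ideal.pow_right_mono hJ n))⟩
  refine { toIsHausdorff := hH, prec' := fun f hf => ?_ }
  obtain ⟨L, hL⟩ := IsPrecomplete.prec (I := maximalIdeal S) inferInstance (f := f) fun {m n} hmn =>
    (hf hmn).mono (Submodule.smul_mono_left (Ideal.pow_right_mono hJ m))
  refine ⟨L, fun n => ?_⟩
  rcases eq_or_ne (J ^ n) ⊤ with htop | htop
  · rw [SModEq.sub_mem, smul_eq_mul, Ideal.mul_top, htop]
    trivial
  have : Nontrivial (S ⧸ J ^ n) := Ideal.Quotient.nontrivial_iff.2 htop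
  have : IsLocalRing (S ⧸ J ^ n) :=
    IsLocalRing.of_surjective' (Ideal.Quotient.mk (J ^ n)) Ideal.Quotient.mk_surjective
  have hne : (maximalIdeal S).map (Ideal.Quotient.mk (J ^ n)) ≠ ⊤ := by
    intro h
    have := congrArg (Ideal.comap (Ideal.Quotient.mk (J ^ n))) h
    rw [Ideal.comap_map_of_surjective _ Ideal.Quotient.mk_surjective, Ideal.comap_top,
      ← RingHom.ker_eq_comap_bot, Ideal.mk_ker, sup_eq_left.2 (le_maximalIdeal htop)] at this
    exact (maximalIdeal.isMaximal S).ne_top this
  rw [SModEq.sub_mem, smul_eq_mul, Ideal.mul_top, ← Ideal.Quotient.eq_zero_iff_mem,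
    ← Ideal.mem_bot, ← Ideal.iInf_pow_eq_bot_of_isLocalRing _ hne, Submodule.mem_iInf]
  intro m
  have h1 : f n - f (max n m) ∈ J ^ n := by
    simpa [SModEq.sub_mem] using hf (le_max_left n m)
  have h2 : f (max n m) - L ∈ maximalIdeal S ^ m := by
    have h := hL (max n m)
    rw [SModEq.sub_mem, smul_eq_mul, Ideal.mul_top] at h
    exact Ideal.pow_le_pow_right (le_max_right n m) h
  rw [← Ideal.map_pow, show f n - L = (f n - f (max n m)) + (f (max n m) - L) by ring, map_add,
    Ideal.Quotient.eq_zero_iff_mem.2 h1, zero_add]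
  exact Ideal.mem_map_of_mem _ h2

/-- Homs from a field of characteristic `p` lift from `S ⧸ J` to the complete ring `S`. -/
theorem exists_lift_ringHom [IsAdicComplete (maximalIdeal S) S] (p : ℕ) [Fact p.Prime] [CharP S p]
    {k : Type*} [Field k] {J : Ideal S} (hJ : J ≠ ⊤) (f : k →+* S ⧸ J) :
    ∃ g : k →+* S, (Ideal.Quotient.mk J).comp g = f := by
  have : Nontrivial (S ⧸ J) := Ideal.Quotient.nontrivial_iff.2 hJ
  have : CharP k p := by
    refine (CharP.charP_iff_prime_eq_zero Fact.out).2 (f.injective ?_)
    rw [map_natCast, map_zero, ← map_natCast (Ideal.Quotient.mk J), CharP.cast_eq_zero, map_zero]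
  let : Algebra (ZMod p) k := ZMod.algebra k p
  let : Algebra (ZMod p) S := ZMod.algebra S p
  have := goalFieldSmooth p k
  have := isAdicComplete_of_le_maximalIdeal (le_maximalIdeal hJ)
  let fa : k →ₐ[ZMod p] S ⧸ J :=
    { f with
      commutes' := fun r => RingHom.congr_fun
        (Subsingleton.elim (f.comp (algebraMap (ZMod p) k)) (algebraMap (ZMod p) (S ⧸ J))) r }
  obtain ⟨g, hg⟩ := Algebra.FormallySmooth.exists_mkₐ_comp_eq_of_isAdicComplete fa
  exact ⟨g.toRingHom, RingHom.ext fun x => AlgHom.congr_fun hg x⟩

/-- Coefficient fields: the residue map has a section. -/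
theorem exists_coefficientField_charP [IsAdicComplete (maximalIdeal S) S] (p : ℕ) [Fact p.Prime]
    [CharP S p] : ∃ σ : ResidueField S →+* S, ∀ c, residue S (σ c) = c := by
  obtain ⟨σ, hσ⟩ := exists_lift_ringHom (S := S) p (maximalIdeal.isMaximal S).ne_top
    (RingHom.id (ResidueField S))
  exact ⟨σ, fun c => RingHom.congr_fun hσ c⟩

end Vale.Agent.P202
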