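import Vale.Agent.P202.Hom

/-! The functor `B ⊗[R] -` with values in `S`-modules, on submodules. -/

universe u

namespace Vale.Agent.P202

open TensorProduct

variable {R S : Type*} [CommRing R] [CommRing S] {B : Type*} [AddCommGroup B] [Module R B]
  [Module S B] [SMulCommClass R S B]
  {A A' A'' : Type*} [AddCommGroup A] [Module R A] [AddCommGroup A'] [Module R A']
  [AddCommGroup A''] [Module R A'']

variable (S B) in
/-- `B ⊗ f` as an `S`-linear map. -/
noncomputable def lT (f : A →ₗ[R] A') : (B ⊗[R] A) →ₗ[S] (B ⊗[R] A') where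
  toFun := f.lTensor B
  map_add' := map_add _
  map_smul' s x := by
    induction x using TensorProduct.induction_on with
    | zero => simp
    | tmul b a => simp [TensorProduct.smul_tmul']
    | add x y hx hy => simp [smul_add, hx, hy] at *

@[simp] lemma lT_tmul (f : A →ₗ[R] A') (b : B) (a : A) :
    lT S B f (b ⊗ₜ[R] a) = b ⊗ₜ[R] f a := rfl

lemma lT_apply (f : A →ₗ[R] A') (x : B ⊗[R] A) : lT S B f x = f.lTensor B x := rfl

lemma lT_comp (g : A' →ₗ[R] A'') (f : A →ₗ[R] A') :
    lT S B (g ∘ₗ f) = lT S B g ∘ₗ lT S B f := by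
  ext x; simp [lT_apply, LinearMap.lTensor_comp]

lemma lT_comp_apply (g : A' →ₗ[R] A'') (f : A →ₗ[R] A') (x : B ⊗[R] A) :
    lT S B g (lT S B f x) = lT S B (g ∘ₗ f) x := by
  rw [lT_comp]; rfl

lemma lT_id : lT S B (LinearMap.id : A →ₗ[R] A) = LinearMap.id := by
  ext x; simp [lT_apply]

lemma lT_zero : lT S B (0 : A →ₗ[R] A') = 0 := by
  ext x; simp [lT_apply]

lemma lT_add (f g : A →ₗ[R] A') : lT S B (f + g) = lT S B f + lT S B g := by
  ext x; simp [lT_apply, LinearMap.lTensor_add]

lemma lT_neg (f : A →ₗ[R] A') : lT S B (-f) = -lT S B f := by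
  ext x; simp [lT_apply, LinearMap.lTensor_neg]

lemma lT_sub (f g : A →ₗ[R] A') : lT S B (f - g) = lT S B f - lT S B g := by
  ext x; simp [lT_apply, LinearMap.lTensor_sub]

lemma lT_zsmul (n : ℤ) (f : A →ₗ[R] A') : lT S B (n • f) = n • lT S B f :=
  let F : (A →ₗ[R] A') →+ ((B ⊗[R] A) →ₗ[S] (B ⊗[R] A')) :=
    { toFun := lT S B, map_zero' := lT_zero, map_add' := lT_add }
  map_zsmul F n f

lemma lT_exact {f : A →ₗ[R] A'} {g : A' →ₗ[R] A''} (h : Function.Exact f g) [Module.Flat R B] :
    Function.Exact (lT S B f) (lT S B g) :=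
  Module.Flat.lTensor_exact B h

lemma lT_injective {f : A →ₗ[R] A'} (h : Function.Injective f) [Module.Flat R B] :
    Function.Injective (lT S B f) :=
  Module.Flat.lTensor_preserves_injective_linearMap f h

lemma lT_surjective {f : A →ₗ[R] A'} (h : Function.Surjective f) :
    Function.Surjective (lT S B f) :=
  LinearMap.lTensor_surjective B h

variable (S B) in
/-- The image of `B ⊗ N` in `B ⊗ A`. -/
noncomputable def gbar (N : Submodule R A) : Submodule S (B ⊗[R] A) :=
  LinearMap.range (lT S B N.subtype)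

lemma gbar_mono {N N' : Submodule R A} (h : N ≤ N') : gbar S B N ≤ gbar S B N' := by
  rintro _ ⟨x, rfl⟩
  refine ⟨lT S B (Submodule.inclusion h) x, ?_⟩
  rw [lT_comp_apply]; rfl

@[simp] lemma gbar_bot : gbar S B (⊥ : Submodule R A) = ⊥ := by
  rw [gbar, LinearMap.range_eq_bot]
  have : (⊥ : Submodule R A).subtype = 0 := by
    ext ⟨x, hx⟩; simpa using hx
  rw [this, lT_zero]

@[simp] lemma gbar_top : gbar S B (⊤ : Submodule R A) = ⊤ :=
  LinearMap.range_eq_top.2 (lT_surjective fun a => ⟨⟨a, trivial⟩, rfl⟩)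

lemma gbar_map (f : A →ₗ[R] A') (N : Submodule R A) :
    gbar S B (N.map f) = (gbar S B N).map (lT S B f) := by
  rw [gbar, gbar, ← LinearMap.range_comp, ← lT_comp,
    show f ∘ₗ N.subtype = (N.map f).subtype ∘ₗ f.submoduleMap N from rfl, lT_comp]
  exact (LinearMap.range_comp_of_range_eq_top _
    (LinearMap.range_eq_top.2 (lT_surjective (f.submoduleMap_surjective N)))).symm

lemma ker_lT_mkQ (N : Submodule R A) :
    LinearMap.ker (lT S B N.mkQ) = gbar S B N := by
  have h : Function.Exact N.subtype N.mkQ := LinearMap.exact_subtype_mkQ N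
  have h2 := lTensor_exact B h (Submodule.mkQ_surjective N)
  ext x
  exact h2 x

lemma gbar_comap [Module.Flat R B] (f : A →ₗ[R] A') (L : Submodule R A') :
    gbar S B (L.comap f) = (gbar S B L).comap (lT S B f) := by
  have h : Function.Exact (L.comap f).subtype (L.mkQ ∘ₗ f) := by
    rw [LinearMap.exact_iff, Submodule.range_subtype, LinearMap.ker_comp, Submodule.ker_mkQ]
  have h2 := lT_exact (S := S) (B := B) h
  rw [LinearMap.exact_iff] at h2
  rw [gbar, ← h2, lT_comp, LinearMap.ker_comp, ker_lT_mkQ]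

lemma gbar_inf [Module.Flat R B] (N L : Submodule R A) :
    gbar S B (N ⊓ L) = gbar S B N ⊓ gbar S B L := by
  have h : N ⊓ L = (L.comap N.subtype).map N.subtype := by
    rw [Submodule.map_comap_subtype]
  rw [h, gbar_map, gbar_comap, Submodule.map_comap_eq]
  rfl

lemma smul_lT {a : R} {s : S} (h : ∀ b : B, a • b = s • b) (x : B ⊗[R] A) :
    lT S B (a • LinearMap.id : A →ₗ[R] A) x = s • x := by
  induction x using TensorProduct.induction_on with
  | zero => simp
  | tmul b v =>
    rw [lT_tmul, TensorProduct.smul_tmul', ← h b]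
    simp [TensorProduct.tmul_smul, TensorProduct.smul_tmul']
  | add x y hx hy => rw [map_add, hx, hy, smul_add]

end Vale.Agent.P202
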