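import Vale.Agent.P202.Basic
import Vale.Agent.P202.Tensor

/-!
The local flatness criterion at the maximal ideal, and flatness of a quotient of a flat algebra by
an ideal `N` with `N ⊓ m B ≤ m N`.
-/

universe u

namespace Vale.Agent.P202

open TensorProduct IsLocalRing

section Criterion

variable {A B : Type u} [CommRing A] [IsLocalRing A] [IsNoetherianRing A] [CommRing B]
  [IsLocalRing B] [Algebra A B]

omit [IsLocalRing B] in
/-- Tensoring preserves injections with cokernel killed by a power of the maximal ideal, as soon as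
it does so for the maximal ideal. -/
lemma lTensor_injective_of_pow_killed (h : Function.Injective ((maximalIdeal A).subtype.lTensor B))
    (c : ℕ) : ∀ (M : Type u) [AddCommGroup M] [Module A M] [Module.Finite A M]
      (L : Submodule A M), (∀ a ∈ maximalIdeal A ^ c, ∀ v : M, a • v ∈ L) →
      Function.Injective (L.subtype.lTensor B) := by
  classical
  -- adding one element killed by the maximal ideal modulo the submodule
  have step : ∀ (M : Type u) [AddCommGroup M] [Module A M] (L : Submodule A M) (v : M),
      (∀ a ∈ maximalIdeal A, a • v ∈ L) →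
      Function.Injective ((Submodule.inclusion (le_sup_left : L ≤ L ⊔ Submodule.span A {v})).lTensor
        B) := by
    intro M _ _ L v hv
    by_cases hvL : v ∈ L
    · have heq : L ⊔ Submodule.span A {v} = L :=
        sup_eq_left.2 ((Submodule.span_singleton_le_iff_mem _ _).2 hvL)
      exact ((LinearEquiv.ofEq L _ heq.symm).lTensor B).injective
    let L' := L ⊔ Submodule.span A {v}
    let κ : (↥(maximalIdeal A)) →ₗ[A] L × A :=
      (LinearMap.codRestrict L ((LinearMap.toSpanSingleton A M v).domRestrict (maximalIdeal A))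
        fun a => hv a.1 a.2).prod (-(maximalIdeal A).subtype)
    let π : L × A →ₗ[A] L' :=
      (Submodule.inclusion le_sup_left).coprod (LinearMap.toSpanSingleton A L'
        ⟨v, Submodule.mem_sup_right (Submodule.mem_span_singleton_self v)⟩)
    have hπ : Function.Surjective π := by
      rintro ⟨w, hw⟩
      obtain ⟨l, hl, z, hz, rfl⟩ := Submodule.mem_sup.1 hw
      obtain ⟨a, rfl⟩ := Submodule.mem_span_singleton.1 hz
      exact ⟨(⟨l, hl⟩, a), Subtype.ext (by simp [π])⟩
    have hex : Function.Exact κ π := by
      intro z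
      constructor
      · intro hz
        have h1 : (z.1 : M) + z.2 • v = 0 := by simpa [π] using congrArg Subtype.val hz
        have hm : z.2 ∈ maximalIdeal A := by
          by_contra hu
          obtain ⟨u, hu⟩ := IsLocalRing.notMem_maximalIdeal.1 hu
          apply hvL
          have h2 : z.2 • v ∈ L := by
            rw [eq_neg_of_add_eq_zero_right h1]; exact L.neg_mem z.1.2
          rw [← hu, Submodule.smul_mem_iff_of_isUnit _ u.isUnit] at h2
          exact h2
        refine ⟨⟨-z.2, neg_mem hm⟩, Prod.ext (Subtype.ext ?_) (by simp [κ])⟩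
        have h3 : (z.1 : M) = -(z.2 • v) := eq_neg_of_add_eq_zero_left h1
        show (-z.2) • v = (z.1 : M)
        rw [h3, neg_smul]
      · rintro ⟨a, rfl⟩
        exact Subtype.ext (show a.1 • v + (-a.1) • v = 0 by rw [neg_smul, add_neg_cancel])
    intro x x' hxx'
    rw [← sub_eq_zero] at hxx' ⊢
    rw [← map_sub] at hxx'
    generalize x - x' = w at hxx' ⊢
    have hw : π.lTensor B ((LinearMap.inl A L A).lTensor B w) = 0 := by
      rw [← LinearMap.lTensor_comp_apply, show π ∘ₗ LinearMap.inl A L A =
        Submodule.inclusion le_sup_left from LinearMap.coprod_inl _ _]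
      exact hxx'
    obtain ⟨z, hz⟩ := (lTensor_exact B hex hπ _).1 hw
    have h2 := congrArg ((LinearMap.snd A L A).lTensor B) hz
    rw [← LinearMap.lTensor_comp_apply, ← LinearMap.lTensor_comp_apply,
      show LinearMap.snd A L A ∘ₗ κ = -(maximalIdeal A).subtype from LinearMap.snd_prod _ _,
      show LinearMap.snd A L A ∘ₗ LinearMap.inl A L A = 0 from LinearMap.snd_comp_inl _ _ _,
      LinearMap.lTensor_neg, LinearMap.neg_apply, LinearMap.lTensor_zero, LinearMap.zero_apply,
      neg_eq_zero] at h2
    have hz0 : z = 0 := h (by rw [h2, map_zero])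
    have h1 := congrArg ((LinearMap.fst A L A).lTensor B) hz
    rw [hz0, map_zero, map_zero, ← LinearMap.lTensor_comp_apply, LinearMap.fst_comp_inl,
      LinearMap.lTensor_id, LinearMap.id_apply] at h1
    exact h1.symm
  have step' : ∀ (M : Type u) [AddCommGroup M] [Module A M] (L : Submodule A M) (v : M),
      (∀ a ∈ maximalIdeal A, a • v ∈ L) →
      Function.Injective ((L ⊔ Submodule.span A {v}).subtype.lTensor B) →
      Function.Injective (L.subtype.lTensor B) := by
    intro M _ _ L v hv hP
    have h1 : L.subtype.lTensor B = (L ⊔ Submodule.span A {v}).subtype.lTensor B ∘ₗ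
        (Submodule.inclusion le_sup_left).lTensor B := by
      rw [← LinearMap.lTensor_comp, Submodule.subtype_comp_inclusion]
    rw [h1, LinearMap.coe_comp]
    exact hP.comp (step M L v hv)
  induction c with
  | zero =>
    intro M _ _ _ L hL
    have : L = ⊤ := eq_top_iff.2 fun v _ => by simpa using hL 1 (by simp) v
    subst this
    exact ((Submodule.topEquiv (R := A) (M := M)).lTensor B).injective
  | succ c ih =>
    intro M _ _ _ L hL
    have : IsNoetherian A M := isNoetherian_of_isNoetherianRing_of_finite A M
    obtain ⟨g, hg⟩ := IsNoetherian.noetherian (maximalIdeal A ^ c • (⊤ : Submodule A M))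
    have hgk : ∀ v ∈ g, ∀ a ∈ maximalIdeal A, a • v ∈ L := by
      intro v hv a ha
      have hv' : v ∈ maximalIdeal A ^ c • (⊤ : Submodule A M) := hg ▸ Submodule.subset_span hv
      refine Submodule.smul_induction_on hv' (fun r hr w _ => ?_) (fun w w' hw hw' => ?_)
      · rw [smul_smul]
        exact hL _ (by rw [pow_succ']; exact Ideal.mul_mem_mul ha hr) w
      · rw [smul_add]; exact add_mem hw hw'
    have hsteps : ∀ s : Finset M, (∀ v ∈ s, ∀ a ∈ maximalIdeal A, a • v ∈ L) →
        Function.Injective ((L ⊔ Submodule.span A (s : Set M)).subtype.lTensor B) →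
        Function.Injective (L.subtype.lTensor B) := by
      intro s
      induction s using Finset.induction with
      | empty =>
        intro _ hP
        rw [Finset.coe_empty, Submodule.span_empty, sup_bot_eq] at hP
        exact hP
      | insert v s hvs ihs =>
        intro hs hP
        refine ihs (fun w hw => hs w (Finset.mem_insert_of_mem hw)) ?_
        rw [Finset.coe_insert, Submodule.span_insert, sup_comm (Submodule.span A {v}),
          ← sup_assoc] at hP
        exact step' M _ v
          (fun a ha => Submodule.mem_sup_left (hs v (Finset.mem_insert_self v s) a ha)) hP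
    refine hsteps g hgk (ih M _ fun a ha v => Submodule.mem_sup_right ?_)
    rw [hg]
    exact Submodule.smul_mem_smul ha trivial

variable [IsNoetherianRing B] [IsLocalHom (algebraMap A B)]

/-- A local map of Noetherian local rings is flat if tensoring keeps the maximal ideal injective. -/
theorem flat_of_maximalIdeal_injective
    (h : Function.Injective ((maximalIdeal A).subtype.lTensor B)) : Module.Flat A B := by
  refine Module.Flat.iff_lTensor_injective'.mpr fun J => ?_
  rw [injective_iff_map_eq_zero]
  intro x hx
  suffices ∀ n, x ∈ (maximalIdeal B ^ n • ⊤ : Submodule B (B ⊗[A] J)) by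
    have := Ideal.iInf_pow_smul_eq_bot_of_isLocalRing (R := B) (M := B ⊗[A] J) (maximalIdeal B)
      (maximalIdeal.isMaximal B).ne_top
    rw [← Submodule.mem_bot B, ← this]
    exact (Submodule.mem_iInf _).mpr ‹∀ n, x ∈ _›
  intro n
  obtain ⟨k, hk⟩ := Ideal.exists_pow_inf_eq_pow_smul (maximalIdeal A) (M := A) J
  let W : Submodule A A := maximalIdeal A ^ (n + k)
  let K : Submodule A J := W.comap J.subtype
  let e : (↥J ⧸ K) →ₗ[A] A ⧸ W := K.mapQ W J.subtype le_rfl
  have he : Function.Injective e := by
    rw [injective_iff_map_eq_zero]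
    intro q hq
    obtain ⟨q, rfl⟩ := Submodule.Quotient.mk_surjective K q
    rw [Submodule.mapQ_apply, Submodule.Quotient.mk_eq_zero] at hq
    exact (Submodule.Quotient.mk_eq_zero K).mpr hq
  have hkill : ∀ a ∈ maximalIdeal A ^ (n + k), ∀ v : A ⧸ W, a • v ∈ LinearMap.range e := by
    intro a ha v
    obtain ⟨v, rfl⟩ := Submodule.Quotient.mk_surjective W v
    rw [← Submodule.Quotient.mk_smul, smul_eq_mul, (Submodule.Quotient.mk_eq_zero W).2
      (Ideal.mul_mem_right v (maximalIdeal A ^ (n + k)) ha)]
    exact zero_mem _
  have hinj : Function.Injective (e.lTensor B) := by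
    have h1 : e.lTensor B = (LinearMap.range e).subtype.lTensor B ∘ₗ
        (LinearEquiv.ofInjective e he).toLinearMap.lTensor B := by
      rw [← LinearMap.lTensor_comp]; rfl
    rw [h1, LinearMap.coe_comp]
    exact (lTensor_injective_of_pow_killed h (n + k) _ _ hkill).comp
      ((LinearEquiv.ofInjective e he).lTensor B).injective
  have hq : K.mkQ.lTensor B x = 0 := by
    apply hinj
    rw [map_zero, ← LinearMap.lTensor_comp_apply]
    have : e ∘ₗ K.mkQ = W.mkQ ∘ₗ J.subtype := rfl
    rw [this, LinearMap.lTensor_comp_apply, hx, map_zero]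
  obtain ⟨y, rfl⟩ := (lTensor_exact B (LinearMap.exact_subtype_mkQ K) K.mkQ_surjective x).mp hq
  clear hx hq
  induction y with
  | zero => simp
  | add y z hy hz => rw [map_add]; exact add_mem hy hz
  | tmul b c =>
    rw [LinearMap.lTensor_tmul]
    have hc : (c.1.1 : A) ∈ maximalIdeal A ^ (n + k) • (⊤ : Submodule A A) ⊓ J :=
      ⟨by rw [smul_eq_mul, Ideal.mul_top]; exact c.2, c.1.2⟩
    rw [hk (n + k) (Nat.le_add_left k n), Nat.add_sub_cancel] at hc
    have hc2 : (c.1.1 : A) ∈ maximalIdeal A ^ n • J := Submodule.smul_mono le_rfl inf_le_right hc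
    have hc3 : c.1 ∈ (maximalIdeal A ^ n • ⊤ : Submodule A J) := by
      rw [← Submodule.comap_map_eq_of_injective J.injective_subtype
        (maximalIdeal A ^ n • ⊤ : Submodule A J), Submodule.mem_comap, Submodule.map_smul'',
        Submodule.map_subtype_top]
      exact hc2
    rw [Submodule.subtype_apply]
    refine Submodule.smul_induction_on
      (p := fun z => b ⊗ₜ[A] z ∈ (maximalIdeal B ^ n • ⊤ : Submodule B (B ⊗[A] J))) hc3
      (fun r hr j _ => ?_) (fun j j' hj hj' => ?_)
    · rw [← smul_tmul, Algebra.smul_def]
      have : (algebraMap A B r * b) ⊗ₜ[A] j = algebraMap A B r • (b ⊗ₜ[A] j) := rfl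
      rw [this]
      refine Submodule.smul_mem_smul ?_ trivial
      have h1 := Ideal.mem_map_of_mem (algebraMap A B) hr
      rw [Ideal.map_pow] at h1
      exact Ideal.pow_right_mono ((map_maximalIdeal_le (algebraMap A B))) n h1
    · rw [tmul_add]; exact add_mem hj hj'

omit [IsLocalRing B] [IsLocalHom (algebraMap A B)] in
/-- A quotient of a flat algebra by `N` with `N ⊓ m B ≤ m N` is flat. -/
theorem flat_quotient_of_inf_le [Module.Flat A B] (N : Ideal B) [IsLocalRing (B ⧸ N)]
    [IsLocalHom (algebraMap A (B ⧸ N))]
    (h : N ⊓ (maximalIdeal A).map (algebraMap A B) ≤ (maximalIdeal A).map (algebraMap A B) * N) :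
    Module.Flat A (B ⧸ N) := by
  refine flat_of_maximalIdeal_injective ?_
  rw [injective_iff_map_eq_zero]
  intro z hz
  let q : B →ₗ[A] B ⧸ N := (Ideal.Quotient.mkₐ A N).toLinearMap
  have hqs : Function.Surjective q := Ideal.Quotient.mk_surjective
  obtain ⟨w, rfl⟩ := LinearMap.rTensor_surjective (maximalIdeal A) hqs z
  let μ : B ⊗[A] (maximalIdeal A) →ₗ[A] B :=
    (TensorProduct.rid A B).toLinearMap ∘ₗ (maximalIdeal A).subtype.lTensor B
  have hμinj : Function.Injective μ :=
    (TensorProduct.rid A B).injective.comp
      (Module.Flat.lTensor_preserves_injective_linearMap _ (maximalIdeal A).injective_subtype)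
  have hμ : ∀ b a, μ (b ⊗ₜ a) = algebraMap A B a.1 * b := fun b a => by
    simp [μ, Algebra.smul_def]
  have hμN : μ w ∈ N ⊓ (maximalIdeal A).map (algebraMap A B) := by
    refine ⟨?_, ?_⟩
    · rw [SetLike.mem_coe, ← Ideal.Quotient.eq_zero_iff_mem]
      have h1 := congrArg (TensorProduct.rid A (B ⧸ N)) hz
      rw [map_zero] at h1
      rw [← h1]
      show q (μ w) = _
      clear h1 hz
      induction w with
      | zero => simp
      | add y z hy hz => simp only [map_add, hy, hz]
      | tmul b a => simp [μ, q, Algebra.smul_def]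
    · clear hz
      induction w with
      | zero => simp
      | add y z hy hz => rw [map_add]; exact add_mem hy hz
      | tmul b a => rw [hμ]; exact Ideal.mul_mem_right _ _ (Ideal.mem_map_of_mem _ a.2)
  have hmain : ∀ x ∈ (maximalIdeal A).map (algebraMap A B) * N,
      ∃ v : B ⊗[A] (maximalIdeal A), μ v = x ∧ q.rTensor (maximalIdeal A) v = 0 := by
    intro x hx
    refine Submodule.mul_induction_on hx (fun m hm n hn => ?_) (fun x y hx hy => ?_)
    · refine Submodule.span_induction (p := fun m _ => ∃ v, μ v = m * n ∧
        q.rTensor (maximalIdeal A) v = 0) ?_ ⟨0, by simp⟩ ?_ ?_ hm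
      · rintro _ ⟨a, ha, rfl⟩
        refine ⟨n ⊗ₜ ⟨a, ha⟩, hμ _ _, ?_⟩
        simp [q, Ideal.Quotient.eq_zero_iff_mem.2 hn]
      · rintro x y _ _ ⟨v, hv, hv'⟩ ⟨v', hv₁, hv₁'⟩
        exact ⟨v + v', by rw [map_add, hv, hv₁, add_mul], by rw [map_add, hv', hv₁', add_zero]⟩
      · intro c x _ hx
        obtain ⟨v, hv, hv'⟩ := hx
        refine ⟨c • v, ?_, ?_⟩
        · rw [smul_eq_mul, mul_assoc, ← hv]
          clear hv hv'
          induction v with
          | zero => simp
          | add y z hy hz => simp only [map_add, smul_add, hy, hz, mul_add]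
          | tmul b a => rw [smul_tmul', hμ, hμ, smul_eq_mul]; ring
        · have key : ∀ v, q.rTensor (maximalIdeal A) (c • v) =
              Ideal.Quotient.mk N c • q.rTensor (maximalIdeal A) v := by
            intro v
            induction v with
            | zero => simp
            | add y z hy hz => simp only [map_add, smul_add, hy, hz]
            | tmul b a => simp [q, smul_tmul', map_mul]
          rw [key, hv', smul_zero]
    · obtain ⟨v, hv, hv'⟩ := hx
      obtain ⟨v', hv₁, hv₁'⟩ := hy
      exact ⟨v + v', by rw [map_add, hv, hv₁], by rw [map_add, hv', hv₁', add_zero]⟩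
  obtain ⟨v, hv, hv'⟩ := hmain _ (h hμN)
  rwa [← hμinj hv]

end Criterion

end Vale.Agent.P202
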