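import Vale.Agent.P202.EPowerSeries
import Vale.Agent.P202.Fr
import Vale.Agent.P202.G2Crit

/-!
G2: the Frobenius of a power series ring over a field is flat, with fibre length `q ^ n`; more
generally maps sending the variables to powers of distinct variables are flat.
-/

universe u

namespace Vale.Agent.P202

open MvPowerSeries IsLocalRing TensorProduct

/-- A series without monomials below the box lies in the ideal of the powers of the variables. -/
lemma mem_span_X_pow_box {τ : Type*} [Finite τ] {R : Type*} [CommRing R] (s : Finset τ) (q : ℕ)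
    (f : MvPowerSeries τ R) :
    f ∈ Ideal.span ((fun i => (X i : MvPowerSeries τ R) ^ q) '' (s : Set τ)) ↔
      ∀ e : τ →₀ ℕ, (∀ i ∈ s, e i < q) → coeff e f = 0 := by
  classical
  refine ⟨fun hf e he => ?_, fun hf => ?_⟩
  · suffices h : ∀ g ∈ Ideal.span ((fun i => (X i : MvPowerSeries τ R) ^ q) '' (s : Set τ)),
        ∀ e : τ →₀ ℕ, (∀ i ∈ s, e i < q) → coeff e g = 0 from h f hf e he
    intro g hg
    induction hg using Submodule.span_induction with
    | mem g hg =>
      obtain ⟨i, hi, rfl⟩ := hg
      intro e he
      simp only [X_pow_eq, coeff_monomial]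
      rw [if_neg]
      rintro rfl
      simpa using he i hi
    | zero => simp
    | add a b _ _ iha ihb => intro e he; rw [map_add, iha e he, ihb e he, add_zero]
    | smul c a _ iha =>
      intro e he
      rw [smul_eq_mul, coeff_mul]
      refine Finset.sum_eq_zero fun ab hab => ?_
      rw [iha ab.2 (fun i hi => lt_of_le_of_lt ?_ (he i hi)), mul_zero]
      rw [← Finset.HasAntidiagonal.mem_antidiagonal.1 hab]
      simp
  induction s using Finset.induction_on generalizing f with
  | empty =>
    have : f = 0 := MvPowerSeries.ext fun e => by simpa using hf e (by simp)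
    simp [this]
  | @insert a s ha ih =>
    let g : MvPowerSeries τ R := fun e => coeff (e + Finsupp.single a q) f
    have hg : ∀ e, coeff e ((X a : MvPowerSeries τ R) ^ q * g) =
        if q ≤ e a then coeff e f else 0 := by
      intro e
      rw [X_pow_eq, coeff_monomial_mul]
      simp only [Finsupp.single_le_iff]
      split_ifs with h
      · rw [one_mul, show ∀ m, coeff m g = coeff (m + Finsupp.single a q) f from fun _ => rfl,
          tsub_add_cancel_of_le (Finsupp.single_le_iff.2 h)]
      · rfl
    rw [Finset.coe_insert, Set.image_insert_eq, Ideal.span_insert]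
    have : f = X a ^ q * g + (f - X a ^ q * g) := by ring
    rw [this]
    refine Submodule.add_mem_sup (Ideal.mul_mem_right _ _ (Ideal.mem_span_singleton_self _))
      (ih _ fun e he => ?_)
    rw [map_sub, hg]
    split_ifs with h
    · exact sub_self _
    · rw [sub_zero]
      refine hf e fun i hi => ?_
      rcases Finset.mem_insert.1 hi with rfl | hi
      · omega
      · exact he i hi

section Flat

variable {σ τ : Type*} [Finite σ] [Finite τ] {k K : Type u} [Field k] [Field K]

/-- For a map sending the variables to powers of distinct variables, tensoring the inclusion of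
the maximal ideal stays injective. -/
lemma maximalIdeal_lTensor_injective (f : MvPowerSeries σ k →+* MvPowerSeries τ K) (ι : σ → τ)
    (hι : Function.Injective ι) {q : ℕ} (hf : ∀ i, f (X i) = X (ι i) ^ q) :
    letI := f.toAlgebra
    Function.Injective
      ((maximalIdeal (MvPowerSeries σ k)).subtype.lTensor (MvPowerSeries τ K)) := by
  classical
  let _ : Algebra (MvPowerSeries σ k) (MvPowerSeries τ K) := f.toAlgebra
  let A := MvPowerSeries σ k
  let B := MvPowerSeries τ K
  let x : σ → maximalIdeal A := fun i => ⟨X i, by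
    rw [maximalIdeal_powerSeries]; exact Ideal.subset_span ⟨i, rfl⟩⟩
  have hsm : ∀ (a : A) (b : B), a • b = f a * b := fun _ _ => rfl
  have key : ∀ (s : Finset σ) (g : σ → B), (∑ i ∈ s, g i * f (X i)) = 0 →
      (∑ i ∈ s, g i ⊗ₜ[A] x i) = 0 := by
    intro s
    induction s using Finset.induction_on with
    | empty => intro g _; simp
    | @insert l s hl ih =>
      intro g hg
      rw [Finset.sum_insert hl] at hg ⊢
      have hmem : g l ∈ Ideal.span
          ((fun j => (X j : B) ^ q) '' ((s.image ι : Finset τ) : Set τ)) := by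
        rw [mem_span_X_pow_box]
        intro e he
        have hprod : g l * (X (ι l) : B) ^ q ∈ Ideal.span
            ((fun j => (X j : B) ^ q) '' ((s.image ι : Finset τ) : Set τ)) := by
          rw [← hf, eq_neg_of_add_eq_zero_left hg]
          refine neg_mem (Ideal.sum_mem _ fun i hi => Ideal.mul_mem_left _ _ ?_)
          rw [hf]
          exact Ideal.subset_span ⟨ι i, Finset.mem_image_of_mem ι hi, rfl⟩
        have h := (mem_span_X_pow_box _ _ _).1 hprod (Finsupp.single (ι l) q + e) fun j hj => by
          obtain ⟨i, hi, rfl⟩ := Finset.mem_image.1 hj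
          have hne : ι l ≠ ι i := fun h => hl (hι h ▸ hi)
          simpa [Finsupp.single_apply, hne] using he (ι i) (Finset.mem_image_of_mem ι hi)
        rwa [mul_comm, X_pow_eq, coeff_monomial_mul, if_pos le_self_add, add_tsub_cancel_left,
          one_mul] at h
      obtain ⟨h, hh⟩ : ∃ h : σ → B, ∑ i ∈ s, h i * f (X i) = g l := by
        rw [Finset.coe_image, Set.image_image] at hmem
        obtain ⟨h, hh⟩ := (Submodule.mem_span_image_finset_iff_exists_fun' _).1 hmem
        exact ⟨h, by simpa only [hf, smul_eq_mul] using hh⟩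
      have hsplit : g l ⊗ₜ[A] x l = ∑ i ∈ s, (h i * f (X l)) ⊗ₜ[A] x i := by
        rw [← hh, TensorProduct.sum_tmul]
        refine Finset.sum_congr rfl fun i _ => ?_
        rw [mul_comm, ← hsm, TensorProduct.smul_tmul, mul_comm (h i), ← hsm,
          TensorProduct.smul_tmul]
        congr 1
        exact Subtype.ext (mul_comm _ _)
      rw [hsplit, ← Finset.sum_add_distrib]
      simp only [← TensorProduct.add_tmul]
      refine ih (fun i => h i * f (X l) + g i) ?_
      rw [← hh, Finset.sum_mul, ← Finset.sum_add_distrib] at hg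
      refine (Finset.sum_congr rfl fun i _ => ?_).trans hg
      ring
  have : Fintype σ := Fintype.ofFinite σ
  have hrep : ∀ z : B ⊗[A] maximalIdeal A, ∃ g : σ → B, z = ∑ i, g i ⊗ₜ[A] x i := by
    intro z
    induction z using TensorProduct.induction_on with
    | zero => exact ⟨0, by simp⟩
    | tmul b m =>
      have hm : (m : A) ∈ Ideal.span (Set.range (X : σ → A)) :=
        maximalIdeal_powerSeries.le m.2
      obtain ⟨a, ha⟩ := Ideal.mem_span_range_iff_exists_fun.1 hm
      refine ⟨fun i => a i • b, ?_⟩
      simp only [TensorProduct.smul_tmul, ← TensorProduct.tmul_sum]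
      congr 1
      refine Subtype.ext ?_
      simpa [x] using ha.symm
    | add z w hz hw =>
      obtain ⟨g, rfl⟩ := hz
      obtain ⟨g', rfl⟩ := hw
      exact ⟨g + g', by simp [TensorProduct.add_tmul, Finset.sum_add_distrib]⟩
  rw [injective_iff_map_eq_zero]
  intro z hz
  obtain ⟨g, rfl⟩ := hrep z
  refine key Finset.univ g ?_
  have := congrArg (TensorProduct.rid A B) hz
  simp only [map_sum, map_zero] at this
  refine (Finset.sum_congr rfl fun i _ => ?_).trans this
  exact mul_comm (g i) (f (X i))

end Flat

theorem flat_of_X_pow_small {k K : Type u} [Field k] [Field K] {σ τ : Type} [Finite σ] [Finite τ]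
    (f : MvPowerSeries σ k →+* MvPowerSeries τ K) (ι : σ → τ)
    (hι : Function.Injective ι) {q : ℕ} (hq : 0 < q) (hf : ∀ i, f (X i) = X (ι i) ^ q) :
    f.Flat := by
  let _ : Algebra (MvPowerSeries σ k) (MvPowerSeries τ K) := f.toAlgebra
  have : IsLocalHom (algebraMap (MvPowerSeries σ k) (MvPowerSeries τ K)) := by
    refine ((local_hom_TFAE f).out 2 0).1 ?_
    rw [maximalIdeal_powerSeries, Ideal.map_span, Ideal.span_le]
    rintro _ ⟨_, ⟨i, rfl⟩, rfl⟩
    rw [hf]
    exact Ideal.pow_mem_of_mem _ (maximalIdeal_powerSeries.ge (Ideal.subset_span ⟨_, rfl⟩)) q hq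
  exact flat_of_maximalIdeal_injective (maximalIdeal_lTensor_injective f ι hι hf)

theorem flat_of_X_pow {k K : Type u} [Field k] [Field K] {d : ℕ} {τ : Type*} [Finite τ]
    (f : MvPowerSeries (Fin d) k →+* MvPowerSeries τ K) (ι : Fin d → τ)
    (hι : Function.Injective ι) {q : ℕ} (hq : 0 < q) (hf : ∀ i, f (X i) = X (ι i) ^ q) :
    f.Flat := by
  have : Fintype τ := Fintype.ofFinite τ
  let e := Fintype.equivFin τ
  let E : MvPowerSeries τ K ≃ₐ[K] MvPowerSeries (Fin (Fintype.card τ)) K :=
    MvPowerSeries.renameEquiv (R := K) e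
  have h := flat_of_X_pow_small (E.toRingEquiv.toRingHom.comp f) (fun i => e (ι i))
    (e.injective.comp hι) hq fun i => by simp [hf, E, e]
  have h2 := h.comp (RingHom.Flat.of_bijective E.symm.toRingEquiv.bijective :
    E.symm.toRingEquiv.toRingHom.Flat)
  convert h2 using 1
  exact RingHom.ext fun a => (E.symm_apply_apply (f a)).symm

theorem flat_fr_powerSeries (p : ℕ) [Fact p.Prime] (e : ℕ) {σ : Type} [Finite σ] (K : Type u)
    [Field K] [CharP K p] [ExpChar (MvPowerSeries σ K) p] :
    Module.Flat (MvPowerSeries σ K) (Fr (MvPowerSeries σ K) p e) :=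
  flat_of_X_pow_small (iterateFrobenius (MvPowerSeries σ K) p e) id Function.injective_id
    (pow_pos (Fact.out : p.Prime).pos e) fun i => iterateFrobenius_def p e (X i)

/-- The length of `K[[x]]` modulo the `q`-th powers of the variables. -/
lemma length_quot_X_pow {σ : Type*} [Finite σ] (K : Type u) [Field K] (q : ℕ) :
    Module.length (MvPowerSeries σ K) (MvPowerSeries σ K ⧸
      Ideal.span (Set.range fun i => (X i : MvPowerSeries σ K) ^ q)) = (q ^ Nat.card σ : ℕ) := by
  classical
  have : Fintype σ := Fintype.ofFinite σ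
  set A := MvPowerSeries σ K
  set J : Ideal A := Ideal.span (Set.range fun i => (X i : A) ^ q) with hJ
  have : IsLocalHom (algebraMap K A) :=
    ⟨fun a ha => isUnit_iff_ne_zero.2 fun h => by simp [h] at ha⟩
  have hres : Module.length (ResidueField K) (ResidueField A) = 1 := by
    rw [← (LinearEquiv.ofBijective (Algebra.linearMap (ResidueField K) (ResidueField A))
      ⟨RingHom.injective _, fun r => ?_⟩).length_eq, Module.length_eq_finrank,
      Module.finrank_self, Nat.cast_one]
    obtain ⟨a, rfl⟩ := residue_surjective r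
    refine ⟨residue K (constantCoeff a), ?_⟩
    change residue A (algebraMap K A (constantCoeff a)) = residue A a
    rw [← sub_eq_zero, ← map_sub, residue_eq_zero_iff, mem_maximalIdeal, mem_nonunits_iff,
      isUnit_iff_constantCoeff]
    have hc : ∀ c : K, constantCoeff (algebraMap K (MvPowerSeries σ K) c) = c := fun c => constantCoeff_C c
    rw [map_sub, hc, sub_self]
    simp
  have h1 : Module.length K (A ⧸ J) = Module.length A (A ⧸ J) := by
    rw [IsLocalRing.length_restrictScalars K A (A ⧸ J), hres, mul_one]
  rw [← h1]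
  let emb : (σ → Fin q) → σ →₀ ℕ := fun e => Finsupp.equivFunOnFinite.symm fun i => (e i : ℕ)
  let L : A →ₗ[K] ((σ → Fin q) → K) := LinearMap.pi fun e => coeff (emb e)
  have hsurj : Function.Surjective L := by
    intro g
    refine ⟨fun e => if h : ∀ i, e i < q then g fun i => ⟨e i, h i⟩ else 0, funext fun e => ?_⟩
    simp only [L]
    exact (dif_pos fun i => by simp [emb]).trans (congrArg g (funext fun i => by simp [emb]))
  have hker : LinearMap.ker L = J.restrictScalars K := by
    ext a
    rw [LinearMap.mem_ker, Submodule.restrictScalars_mem, hJ, ← Set.image_univ,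
      ← Finset.coe_univ, mem_span_X_pow_box]
    simp only [Finset.mem_univ, forall_const, funext_iff, L, LinearMap.pi_apply, Pi.zero_apply]
    refine ⟨fun h e he => ?_, fun h e => h _ fun i => by simp [emb]⟩
    have h' := h fun i => ⟨e i, he i⟩
    rwa [show emb (fun i => ⟨e i, he i⟩) = e from Finsupp.ext fun i => rfl] at h'
  rw [← (Submodule.Quotient.restrictScalarsEquiv K J).length_eq,
    ((Submodule.quotEquivOfEq _ _ hker.symm).trans
      (L.quotKerEquivOfSurjective hsurj)).length_eq,
    Module.length_eq_finrank, Module.finrank_pi, Fintype.card_fun, Fintype.card_fin,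
    Nat.card_eq_fintype_card]

theorem length_fr_powerSeries (p : ℕ) [Fact p.Prime] (e : ℕ) {σ : Type} [Finite σ] (K : Type u)
    [Field K] [CharP K p] [ExpChar (MvPowerSeries σ K) p] :
    Module.length (Fr (MvPowerSeries σ K) p e)
        (Fr (MvPowerSeries σ K) p e ⊗[MvPowerSeries σ K] ResidueField (MvPowerSeries σ K)) =
      ((p ^ e) ^ Nat.card σ : ℕ) := by
  set A := MvPowerSeries σ K
  have hmap : (maximalIdeal A).map (algebraMap A (Fr A p e)) =
      (Ideal.span (Set.range fun i => (X i : A) ^ p ^ e)).map (Fr.equiv A p e).toRingHom := by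
    rw [maximalIdeal_powerSeries, Ideal.map_span, Ideal.map_span, ← Set.range_comp,
      ← Set.range_comp]
    congr 2
  have heq : (Ideal.span (Set.range fun i => (X i : A) ^ p ^ e)).map (Fr.equiv A p e).toRingHom =
      Ideal.span (Set.range fun i => (X i : A) ^ p ^ e) := Ideal.map_id _
  rw [← length_quot_X_pow (σ := σ) K (p ^ e)]
  refine ((Algebra.TensorProduct.quotIdealMapEquivTensorQuot (Fr A p e)
    (maximalIdeal A)).toLinearEquiv.length_eq).symm.trans ?_
  rw [hmap, heq]
  rfl

end Vale.Agent.P202
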