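import Vale.Agent.P202.Basic

/-! Completion and flat extensions of local rings, used in the reduction step. -/

universe u v

namespace Vale.Agent.P202

open IsLocalRing TensorProduct

section CompletionMap

variable {A : Type u} {C : Type v} [CommRing A] [CommRing C] (I : Ideal A) (K : Ideal C)
  (g : A →+* C) (h : I.map g ≤ K)

/-- The maps `AdicCompletion I A → C ⧸ K ^ n` induced by `g`. -/
noncomputable def completionMapAux (n : ℕ) : AdicCompletion I A →+* C ⧸ K ^ n :=
  (Ideal.quotientMap (K ^ n) g
    (Ideal.map_le_iff_le_comap.mp (by rw [Ideal.map_pow]; exact Ideal.pow_right_mono h n))).comp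
    (AdicCompletion.evalₐ I n).toRingHom

theorem completionMapAux_compat {m n : ℕ} (hle : m ≤ n) :
    (Ideal.Quotient.factorPow K hle).comp (completionMapAux I K g h n) =
      completionMapAux I K g h m := by
  refine RingHom.ext fun x => ?_
  obtain ⟨c, rfl⟩ := AdicCompletion.mk_surjective I A x
  simp only [completionMapAux, RingHom.comp_apply, AlgHom.toRingHom_eq_coe, RingHom.coe_coe,
    AdicCompletion.evalₐ_mk, Ideal.quotientMap_mk]
  have := (AdicCompletion.Ideal.mk_eq_mk I hle c)
  rw [Ideal.Quotient.eq] at this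
  simp only [Ideal.Quotient.factor_mk]
  rw [Ideal.Quotient.eq, ← map_sub]
  have h2 := Ideal.mem_map_of_mem g this
  rw [Ideal.map_pow] at h2
  exact Ideal.pow_right_mono h m h2

/-- The map of adic completions induced by a ring map. -/
noncomputable def completionMap : AdicCompletion I A →+* AdicCompletion K C :=
  AdicCompletion.liftRingHom K (completionMapAux I K g h) (completionMapAux_compat I K g h)

theorem completionMap_algebraMap (a : A) :
    completionMap I K g h (algebraMap A (AdicCompletion I A) a) =
      algebraMap C (AdicCompletion K C) (g a) := by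
  refine AdicCompletion.ext_evalₐ fun n => ?_
  simp [completionMap, completionMapAux]

theorem completionMap_comp_algebraMap :
    (completionMap I K g h).comp (algebraMap A (AdicCompletion I A)) =
      (algebraMap C (AdicCompletion K C)).comp g :=
  RingHom.ext (completionMap_algebraMap I K g h)

end CompletionMap

/-- The completion of a Noetherian local ring is Noetherian. -/
instance isNoetherianRing_completion (A : Type u) [CommRing A] [IsLocalRing A]
    [IsNoetherianRing A] : IsNoetherianRing (AdicCompletion (maximalIdeal A) A) := by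
  classical
  obtain ⟨s, hs⟩ := (maximalIdeal A).fg_of_isNoetherianRing
  let a : (↥s) → A := fun i => i.1
  let J : Ideal (MvPolynomial (↥s) A) := MvPolynomial.idealOfVars (↥s) A
  let ev : MvPolynomial (↥s) A →+* A := (MvPolynomial.aeval a).toRingHom
  have hJfg : J.FG := by
    exact Submodule.fg_span (Set.finite_range _)
  have hJ : J.map ev = maximalIdeal A := by
    simp only [J, MvPolynomial.idealOfVars, Ideal.map_span]
    rw [← hs, ← Set.range_comp]
    congr 1
    ext x
    simp [ev, a]
  let ψ := completionMap J (maximalIdeal A) ev hJ.le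
  have : IsNoetherianRing (AdicCompletion J (MvPolynomial (↥s) A)) :=
    isNoetherianRing_of_ringEquiv _ (MvPowerSeries.toAdicCompletionAlgEquiv (↥s) A).toRingEquiv
  let I := J.map (algebraMap _ (AdicCompletion J (MvPolynomial (↥s) A)))
  have hI : I.map ψ = maximalIdeal (AdicCompletion (maximalIdeal A) A) := by
    rw [AdicCompletion.maximalIdeal_eq_map, Ideal.map_map, completionMap_comp_algebraMap,
      ← Ideal.map_map, hJ]
  have : IsAdicComplete I (AdicCompletion J (MvPolynomial (↥s) A)) :=
    AdicCompletion.isAdicComplete_self J hJfg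
  have : IsHausdorff (I.map ψ) (AdicCompletion (maximalIdeal A) A) := by
    rw [hI]; infer_instance
  refine isNoetherianRing_of_surjective _ _ ψ
    (surjective_of_mk_map_comp_surjective (I := I) ψ fun y => ?_)
  obtain ⟨y, rfl⟩ := Ideal.Quotient.mk_surjective y
  obtain ⟨b, hb⟩ := (AdicCompletion.residueField_map_bijective A).2 (residue _ y)
  obtain ⟨b, rfl⟩ := residue_surjective b
  refine ⟨algebraMap (MvPolynomial (↥s) A) _ (MvPolynomial.C b), ?_⟩
  rw [ResidueField.map_residue] at hb
  rw [RingHom.comp_apply, completionMap_algebraMap, Ideal.Quotient.eq, hI]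
  have : ev (MvPolynomial.C b) = b := by simp [ev]
  rw [this]
  exact Ideal.Quotient.eq.mp hb

section Flat

variable {A : Type u} {B : Type v} [CommRing A] [IsLocalRing A] [CommRing B] [IsLocalRing B]
  [Algebra A B] [IsLocalHom (algebraMap A B)] [Module.Flat A B]

theorem length_quot_pow_eq (h : (maximalIdeal A).map (algebraMap A B) = maximalIdeal B) (n : ℕ) :
    Module.length B (B ⧸ maximalIdeal B ^ n) = Module.length A (A ⧸ maximalIdeal A ^ n) := by
  have e : Module.length B (B ⧸ maximalIdeal B ^ n) =
      Module.length B (B ⧸ (maximalIdeal A ^ n).map (algebraMap A B)) := by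
    rw [Ideal.map_pow, h]
  rw [e, (Algebra.TensorProduct.quotIdealMapEquivTensorQuot B
    (maximalIdeal A ^ n)).toLinearEquiv.length_eq, IsLocalRing.length_baseChange A B, h]
  have : IsSimpleModule B (B ⧸ maximalIdeal B) :=
    isSimpleModule_iff_quot_maximal.mpr ⟨_, inferInstance, ⟨LinearEquiv.refl _ _⟩⟩
  rw [Module.length_eq_one B (B ⧸ maximalIdeal B), mul_one]

variable [IsNoetherianRing A] [IsNoetherianRing B]

theorem ringKrullDim_eq_of_map_maximalIdeal
    (h : (maximalIdeal A).map (algebraMap A B) = maximalIdeal B) :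
    ringKrullDim B = ringKrullDim A := by
  rw [← maximalIdeal_height_eq_ringKrullDim, ← maximalIdeal_height_eq_ringKrullDim]
  have : (maximalIdeal B).LiesOver (maximalIdeal A) :=
    ⟨(maximalIdeal_comap (algebraMap A B)).symm⟩
  have : Nontrivial (B ⧸ (maximalIdeal A).map (algebraMap A B)) :=
    Ideal.Quotient.nontrivial_iff.mpr (by rw [h]; exact (maximalIdeal.isMaximal B).ne_top)
  rw [Ideal.height_eq_height_add_of_liesOver_of_hasGoingDown (maximalIdeal A) (maximalIdeal B)]
  have h0 : (maximalIdeal B).map (Ideal.Quotient.mk ((maximalIdeal A).map (algebraMap A B))) = ⊥ := by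
    rw [Ideal.map_eq_bot_iff_le_ker, Ideal.mk_ker, h]
  rw [h0, Ideal.height_bot, add_zero]

theorem ndim_eq_of_map_maximalIdeal
    (h : (maximalIdeal A).map (algebraMap A B) = maximalIdeal B) : ndim B = ndim A := by
  rw [ndim, ndim, ringKrullDim_eq_of_map_maximalIdeal h]

theorem hasMult_of_map_maximalIdeal
    (h : (maximalIdeal A).map (algebraMap A B) = maximalIdeal B) {e : ℝ} (he : HasMult A e) :
    HasMult B e := by
  simpa only [HasMult, ndim_eq_of_map_maximalIdeal h, length_quot_pow_eq h] using he

end Flat

section Dense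

variable {A : Type u} {T : Type u} {B : Type u} [CommRing A] [CommRing T] [CommRing B]
  [Algebra A T] [Algebra A B] [Algebra T B] [IsScalarTower A T B]

theorem smul_tmul_of_mem {I : Ideal A} {M : Type u} [AddCommGroup M] [Module A M]
    (hM : ∀ a ∈ I, ∀ x : M, a • x = 0) {e : T} (he : e ∈ I.map (algebraMap A T)) :
    ∀ (b : B) (x : M), (e • b) ⊗ₜ[A] x = 0 := by
  refine Submodule.span_induction ?_ ?_ ?_ ?_ he
  · rintro _ ⟨a, ha, rfl⟩ b x
    rw [algebraMap_smul, smul_tmul, hM a ha, tmul_zero]
  · intro b x; simp
  · intro y z _ _ hy hz b x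
    rw [add_smul, add_tmul, hy, hz, add_zero]
  · intro c y _ hy b x
    rw [smul_eq_mul, mul_comm, mul_smul]
    exact hy _ _

theorem compatibleSMul_of_dense {I : Ideal A} {M : Type u} [AddCommGroup M] [Module A M]
    [Module T M] [IsScalarTower A T M] (hM : ∀ e ∈ I.map (algebraMap A T), ∀ x : M, e • x = 0)
    (dense : ∀ t : T, ∃ a : A, t - algebraMap A T a ∈ I.map (algebraMap A T)) :
    TensorProduct.CompatibleSMul A T B M := by
  refine ⟨fun t b x => ?_⟩
  obtain ⟨a, ha⟩ := dense t
  have h1 : t • b = a • b + (t - algebraMap A T a) • b := by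
    rw [sub_smul, algebraMap_smul]; abel
  have h2 : t • x = a • x := by
    have := hM _ ha x
    rwa [sub_smul, algebraMap_smul, sub_eq_zero] at this
  have hMA : ∀ a ∈ I, ∀ x : M, a • x = 0 := fun a ha x => by
    rw [← algebraMap_smul T a x]; exact hM _ (Ideal.mem_map_of_mem _ ha) x
  rw [h1, h2, add_tmul, smul_tmul_of_mem hMA ha, add_zero, smul_tmul]

/-- Flatness passes to `T` when `A` is dense in `T` in the adic sense. -/
theorem flat_of_flat_of_dense [IsLocalRing T] [IsNoetherianRing T] [IsLocalRing B]
    [IsNoetherianRing B] [IsLocalHom (algebraMap T B)] [Module.Flat A B] (I : Ideal A)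
    (hI : I.map (algebraMap A T) = maximalIdeal T)
    (dense : ∀ (N : ℕ) (t : T), ∃ a : A, t - algebraMap A T a ∈ maximalIdeal T ^ N) :
    Module.Flat T B := by
  refine Module.Flat.iff_lTensor_injective'.mpr fun J => ?_
  rw [injective_iff_map_eq_zero]
  intro x hx
  suffices ∀ n, x ∈ (maximalIdeal B ^ n • ⊤ : Submodule B (B ⊗[T] J)) by
    have := Ideal.iInf_pow_smul_eq_bot_of_isLocalRing (R := B) (M := B ⊗[T] J) (maximalIdeal B)
      (maximalIdeal.isMaximal B).ne_top
    rw [← Submodule.mem_bot B, ← this]
    exact (Submodule.mem_iInf _).mpr ‹∀ n, x ∈ _›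
  intro n
  obtain ⟨k, hk⟩ := Ideal.exists_pow_inf_eq_pow_smul (maximalIdeal T) (M := T) J
  let N := n + k
  let W : Submodule T T := maximalIdeal T ^ N
  let K : Submodule T J := W.comap J.subtype
  let i : (↥J ⧸ K) →ₗ[T] T ⧸ W := K.mapQ W J.subtype le_rfl
  have hi : Function.Injective i := by
    rw [injective_iff_map_eq_zero]
    intro q hq
    obtain ⟨q, rfl⟩ := Submodule.Quotient.mk_surjective K q
    rw [Submodule.mapQ_apply, Submodule.Quotient.mk_eq_zero] at hq
    exact (Submodule.Quotient.mk_eq_zero K).mpr hq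
  have hW : (I ^ N).map (algebraMap A T) = maximalIdeal T ^ N := by rw [Ideal.map_pow, hI]
  have hdense : ∀ t : T, ∃ a : A, t - algebraMap A T a ∈ (I ^ N).map (algebraMap A T) := by
    rw [hW]; exact dense N
  have c1 : TensorProduct.CompatibleSMul A T B (↥J ⧸ K) :=
    compatibleSMul_of_dense (fun e he q => by
      rw [hW] at he
      obtain ⟨q, rfl⟩ := Submodule.Quotient.mk_surjective K q
      rw [← Submodule.Quotient.mk_smul, Submodule.Quotient.mk_eq_zero]
      exact Ideal.mul_mem_right _ _ he) hdense
  have c2 : TensorProduct.CompatibleSMul A T B (T ⧸ W) :=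
    compatibleSMul_of_dense (fun e he q => by
      rw [hW] at he
      obtain ⟨q, rfl⟩ := Submodule.Quotient.mk_surjective W q
      rw [← Submodule.Quotient.mk_smul, Submodule.Quotient.mk_eq_zero]
      exact Ideal.mul_mem_right _ _ he) hdense
  have hinj : Function.Injective (i.lTensor B) := by
    let e1 := TensorProduct.equivOfCompatibleSMul T A A B (↥J ⧸ K)
    let e2 := TensorProduct.equivOfCompatibleSMul T A A B (T ⧸ W)
    have hcomm : ∀ y, e2 ((i.restrictScalars A).lTensor B y) = i.lTensor B (e1 y) := by
      intro y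
      induction y with
      | zero => simp
      | tmul b q => rfl
      | add y z hy hz => simp only [map_add, hy, hz]
    intro y z hyz
    obtain ⟨y, rfl⟩ := e1.surjective y
    obtain ⟨z, rfl⟩ := e1.surjective z
    rw [← hcomm, ← hcomm] at hyz
    exact congrArg e1 (Module.Flat.lTensor_preserves_injective_linearMap
      (i.restrictScalars A) hi (e2.injective hyz))
  have hq : K.mkQ.lTensor B x = 0 := by
    apply hinj
    rw [map_zero, ← LinearMap.lTensor_comp_apply]
    have : i ∘ₗ K.mkQ = W.mkQ ∘ₗ J.subtype := rfl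
    rw [this, LinearMap.lTensor_comp_apply, hx, map_zero]
  obtain ⟨y, rfl⟩ := (lTensor_exact B (LinearMap.exact_subtype_mkQ K) K.mkQ_surjective x).mp hq
  clear hx hq
  induction y with
  | zero => simp
  | add y z hy hz => rw [map_add]; exact add_mem hy hz
  | tmul b c =>
    rw [LinearMap.lTensor_tmul]
    have hc : (c.1.1 : T) ∈ maximalIdeal T ^ N • (⊤ : Submodule T T) ⊓ J :=
      ⟨by rw [smul_eq_mul, Ideal.mul_top]; exact c.2, c.1.2⟩
    rw [hk N (by simp [N])] at hc
    have hN : N - k = n := by simp [N]
    rw [hN] at hc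
    have hc2 : (c.1.1 : T) ∈ maximalIdeal T ^ n • J := Submodule.smul_mono le_rfl inf_le_right hc
    have hc3 : c.1 ∈ (maximalIdeal T ^ n • ⊤ : Submodule T J) := by
      rw [← Submodule.comap_map_eq_of_injective J.injective_subtype
        (maximalIdeal T ^ n • ⊤ : Submodule T J), Submodule.mem_comap, Submodule.map_smul'',
        Submodule.map_subtype_top]
      exact hc2
    rw [Submodule.subtype_apply]
    refine Submodule.smul_induction_on
      (p := fun z => b ⊗ₜ[T] z ∈ (maximalIdeal B ^ n • ⊤ : Submodule B (B ⊗[T] J))) hc3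
      (fun r hr j _ => ?_) (fun j j' hj hj' => ?_)
    · rw [← smul_tmul, Algebra.smul_def]
      have : (algebraMap T B r * b) ⊗ₜ[T] j = algebraMap T B r • (b ⊗ₜ[T] j) := rfl
      rw [this]
      refine Submodule.smul_mem_smul ?_ trivial
      have h1 := Ideal.mem_map_of_mem (algebraMap T B) hr
      rw [Ideal.map_pow] at h1
      exact Ideal.pow_right_mono ((map_maximalIdeal_le (algebraMap T B))) n h1
    · rw [tmul_add]; exact add_mem hj hj'

end Dense

end Vale.Agent.P202
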