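import Vale.Agent.P202.Fr
import Vale.Agent.P202.ReduceAux

/-!
G4: dimension of a flat local algebra with a system of parameters, and the Euler characteristic of a
Frobenius pushforward in a regular presentation.
-/

universe u

namespace Vale.Agent.P202

open IsLocalRing TensorProduct Filter

private lemma exists_pow_le_of_length_ne_top {A : Type*} [CommRing A] [IsLocalRing A]
    [IsNoetherianRing A] {J : Ideal A} (h : Module.length A (A ⧸ J) ≠ ⊤) :
    ∃ c, maximalIdeal A ^ c ≤ J := by
  have : IsArtinianRing (A ⧸ J) := by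
    have hfl := Module.length_ne_top_iff.1 h
    rw [isFiniteLength_iff_isNoetherian_isArtinian] at hfl
    have := hfl.2
    exact isArtinian_of_tower A inferInstance
  exact IsLocalRing.exists_maximalIdeal_pow_le_of_isArtinianRing_quotient J

/-- The length of a quotient does not change along a surjection. -/
private lemma length_quot_comap {A B : Type*} [CommRing A] [CommRing B] (f : A →+* B)
    (hf : Function.Surjective f) (I : Ideal B) :
    Module.length A (A ⧸ I.comap f) = Module.length B (B ⧸ I) := by
  let _ : Algebra A B := f.toAlgebra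
  rw [← Module.length_eq_of_surjective (S := A) (R := B) (M := B ⧸ I) hf]
  let φ : A →ₗ[A] B ⧸ I := (I.mkQ.restrictScalars A).comp (Algebra.linearMap A B)
  have hφ : Function.Surjective φ := fun b => by
    obtain ⟨b, rfl⟩ := I.mkQ_surjective b
    obtain ⟨a, rfl⟩ := hf b
    exact ⟨a, rfl⟩
  have hker : LinearMap.ker φ = I.comap f := by
    ext a
    exact Submodule.Quotient.mk_eq_zero I
  exact ((Submodule.quotEquivOfEq _ _ hker.symm).trans
    (φ.quotKerEquivOfSurjective hφ)).length_eq

/-- Equal dimensions for a flat local map with a system of parameters upstairs. -/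
theorem ndim_eq_of_flat_par {R T : Type u} [CommRing R] [IsLocalRing R] [IsNoetherianRing R]
    [CommRing T] [IsLocalRing T] [IsNoetherianRing T] [Algebra R T]
    [IsLocalHom (algebraMap R T)] [Module.Flat R T] {d : ℕ} (hd : ndim R = d) {y : Fin d → T}
    (hy : Par y) : ndim T = d := by
  classical
  refine le_antisymm ?_ ?_
  · obtain ⟨c, hc⟩ := exists_pow_le_of_length_ne_top hy.fin
    have h := ndim_quotient_le_card (⊥ : Ideal T) bot_ne_top (Finset.univ.image y)
      (fun a ha => by
        obtain ⟨l, -, rfl⟩ := Finset.mem_image.1 ha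
        exact hy.mem l) c (by simpa using hc)
    rw [ndim_congr (RingEquiv.quotientBot T)] at h
    exact h.trans (Finset.card_image_le.trans (by simp))
  · have : (maximalIdeal T).LiesOver (maximalIdeal R) :=
      ⟨(maximalIdeal_comap (algebraMap R T)).symm⟩
    have h := Ideal.height_eq_height_add_of_liesOver_of_hasGoingDown (maximalIdeal R)
      (maximalIdeal T)
    have h1 : (maximalIdeal R).height ≤ (maximalIdeal T).height := h ▸ le_self_add
    have h2 : ((maximalIdeal R).height : WithBot ℕ∞) ≤ ((maximalIdeal T).height : WithBot ℕ∞) :=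
      WithBot.coe_le_coe.2 h1
    rw [maximalIdeal_height_eq_ringKrullDim, maximalIdeal_height_eq_ringKrullDim,
      ringKrullDim_eq_coe_ndim R, ringKrullDim_eq_coe_ndim T, hd] at h2
    exact_mod_cast h2

theorem par_and_kchi_le_of_frob (G : KoszulGoals.{u}) (p e : ℕ) [Fact p.Prime] {P S U : Type u}
    [CommRing P] [IsLocalRing P] [IsNoetherianRing P] [ExpChar P p]
    [Module.Flat P (Fr P p e)] [CommRing S] [IsLocalRing S] [IsNoetherianRing S] [CommRing U]
    [IsLocalRing U] [IsNoetherianRing U] (c : ℕ)
    (hc : Module.length (Fr P p e) (Fr P p e ⊗[P] ResidueField P) = c)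
    (ε : P →+* S) (hε : Function.Surjective ε) (g : P →+* U) (hg : Function.Surjective g)
    (FS : S →+* U) (hFS : ∀ a, g a ^ p ^ e = FS (ε a)) {d : ℕ} {y : Fin d → S} (hy : Par y) :
    Par (fun l => FS (y l)) ∧ kchi (fun l => FS (y l)) U ≤ (c : ℤ) * kchi y S := by
  classical
  set I := Ideal.span (Set.range y) with hI
  set I' := Ideal.span (Set.range fun l => FS (y l)) with hI'
  let g' : Fr P p e →+* U := g.comp (Fr.equiv P p e).symm.toRingHom
  have hg' : Function.Surjective g' := hg.comp (Fr.equiv P p e).symm.surjective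
  have : IsLocalHom ε := IsLocalHom.of_surjective _ hε
  have : IsLocalHom g := IsLocalHom.of_surjective _ hg
  have hS : ∀ n, Module.length S (S ⧸ I ^ n) ≠ ⊤ := fun n => by
    obtain ⟨k, hk⟩ := exists_pow_le_of_length_ne_top hy.fin
    refine ne_top_of_le_ne_top (length_quot_maxPow_ne_top S (k * n))
      (Module.length_le_of_surjective (Submodule.factor ?_) (Submodule.factor_surjective _))
    rw [pow_mul]
    exact pow_le_pow_left' hk n
  have hle : ∀ n, Module.length U (U ⧸ I' ^ n) ≤ (c : ℕ∞) * Module.length S (S ⧸ I ^ n) := by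
    intro n
    have h1 := length_quot_comap ε hε (I ^ n)
    have h2 : ((I ^ n).comap ε).map (algebraMap P (Fr P p e)) ≤ (I' ^ n).comap g' := by
      refine Ideal.map_le_iff_le_comap.2 fun a ha => ?_
      have h3 : g' (algebraMap P (Fr P p e) a) = FS (ε a) := by
        rw [Fr.algebraMap_apply, map_pow, ← hFS]
        simp [g']
      rw [Ideal.mem_comap, Ideal.mem_comap, h3, hI', ← Function.comp_def FS y, Set.range_comp,
        ← Ideal.map_span, ← Ideal.map_pow]
      exact Ideal.mem_map_of_mem _ ha
    calc Module.length U (U ⧸ I' ^ n)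
        = Module.length (Fr P p e) (Fr P p e ⧸ (I' ^ n).comap g') :=
          (length_quot_comap g' hg' _).symm
      _ ≤ Module.length (Fr P p e)
            (Fr P p e ⧸ ((I ^ n).comap ε).map (algebraMap P (Fr P p e))) :=
          Module.length_le_of_surjective (Submodule.factor h2) (Submodule.factor_surjective _)
      _ = Module.length P (P ⧸ (I ^ n).comap ε) * c := by
          rw [length_quot_map P (Fr P p e) _ (h1 ▸ hS n), hc]
      _ = (c : ℕ∞) * Module.length S (S ⧸ I ^ n) := by rw [h1, mul_comm]
  have hpar : Par fun l => FS (y l) := by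
    refine ⟨fun l => ?_, ?_⟩
    · obtain ⟨b, hb⟩ := hε (y l)
      have hbm : b ∈ maximalIdeal P := fun hu => hy.mem l (hb ▸ hu.map ε)
      change FS (y l) ∈ maximalIdeal U
      rw [← hb, ← hFS]
      exact Ideal.pow_mem_of_mem _ (map_nonunit g b hbm) _ (pow_pos (Fact.out : p.Prime).pos e)
    · have h := hle 1
      rw [pow_one, pow_one] at h
      exact ne_top_of_le_ne_top (WithTop.mul_ne_top (ENat.natCast_ne_top c) hy.fin) h
  refine ⟨hpar, ?_⟩
  have hU := G.kmult U U d (fun l => FS (y l)) hpar.mem (Module.length_ne_top_iff.1 (by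
    rw [smul_eq_mul, Ideal.mul_top]; exact hpar.fin))
  have hSl := G.kmult S S d y hy.mem (Module.length_ne_top_iff.1 (by
    rw [smul_eq_mul, Ideal.mul_top]; exact hy.fin))
  have hU' : Tendsto (fun n : ℕ => (d.factorial : ℝ) *
      ((Module.length U (U ⧸ I' ^ n)).toNat : ℝ) / (n : ℝ) ^ d) atTop
      (nhds (kchi (fun l => FS (y l)) U : ℝ)) := by
    refine hU.congr fun n => ?_
    rw [show I' ^ n • (⊤ : Submodule U U) = I' ^ n by rw [smul_eq_mul, Ideal.mul_top]]
  have hS' : Tendsto (fun n : ℕ => (c : ℝ) * ((d.factorial : ℝ) *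
      ((Module.length S (S ⧸ I ^ n)).toNat : ℝ) / (n : ℝ) ^ d)) atTop
      (nhds ((c : ℝ) * (kchi y S : ℝ))) := by
    refine (hSl.congr fun n => ?_).const_mul _
    rw [show I ^ n • (⊤ : Submodule S S) = I ^ n by rw [smul_eq_mul, Ideal.mul_top]]
  have hfin := le_of_tendsto_of_tendsto' hU' hS' fun n => by
    have h := ENat.toNat_le_toNat (hle n) (WithTop.mul_ne_top (ENat.natCast_ne_top c) (hS n))
    rw [ENat.toNat_mul, ENat.toNat_natCast] at h
    rw [← mul_div_assoc, mul_left_comm]
    refine div_le_div_of_nonneg_right (mul_le_mul_of_nonneg_left ?_ (Nat.cast_nonneg _))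
      (by positivity)
    exact_mod_cast h
  exact_mod_cast hfin

end Vale.Agent.P202
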