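import Vale.Agent.P202.G4Push
import Vale.Agent.P202.Fr

/-!
G4: the ring `Rq = R ⊗[A] Fr A`, the map `π : Rq → R`, `r ⊗ a ↦ r ^ q a`.
-/

universe u

namespace Vale.Agent.P202

open TensorProduct IsLocalRing

attribute [local instance] Algebra.TensorProduct.rightAlgebra

variable (R A : Type u) [CommRing R] [CommRing A] [Algebra A R] (p e : ℕ) [Fact p.Prime]
  [CharP R p] [ExpChar A p]

/-- `R ⊗[A] Fr A`. -/
abbrev RqRing : Type u := R ⊗[A] Fr A p e

/-- `r ⊗ a ↦ r ^ q a`. -/
noncomputable def piRq : RqRing R A p e →+* R :=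
  tensorHom (iterateFrobenius R p e) ((algebraMap A R).comp (Fr.equiv A p e).symm.toRingHom)
    fun a => by
      show algebraMap A R a ^ p ^ e = algebraMap A R (a ^ p ^ e)
      rw [map_pow]

lemma piRq_tmul (r : R) (a : A) :
    piRq R A p e (r ⊗ₜ[A] Fr.equiv A p e a) = r ^ p ^ e * algebraMap A R a := rfl

lemma piRq_left (r : R) :
    piRq R A p e ((pushL : R →+* RqRing R A p e) r) = r ^ p ^ e := by
  show piRq R A p e (r ⊗ₜ[A] Fr.equiv A p e 1) = _
  rw [piRq_tmul, map_one, mul_one]

lemma piRq_right (a : A) :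
    piRq R A p e ((pushR : Fr A p e →+* RqRing R A p e) (Fr.equiv A p e a)) = algebraMap A R a := by
  show piRq R A p e (1 ⊗ₜ[A] Fr.equiv A p e a) = _
  rw [piRq_tmul, one_pow, one_mul]

variable [IsLocalRing R] (hres : Function.Surjective ((residue R).comp (algebraMap A R)))

include hres in
lemma surjective_residue_piRq : Function.Surjective ((residue R).comp (piRq R A p e)) := fun z => by
  obtain ⟨a, ha⟩ := hres z
  exact ⟨(pushR : Fr A p e →+* RqRing R A p e) (Fr.equiv A p e a), by
    rw [RingHom.comp_apply, piRq_right]; exact ha⟩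

omit [IsLocalRing R] in
lemma finite_piRq [Module.Finite A R] : (piRq R A p e).Finite := by
  refine RingHom.Finite.of_comp_finite (f := (pushR : Fr A p e →+* RqRing R A p e)) ?_
  have h : (piRq R A p e).comp (pushR : Fr A p e →+* RqRing R A p e) =
      (algebraMap A R).comp (Fr.equiv A p e).symm.toRingHom :=
    RingHom.ext fun a => piRq_right R A p e ((Fr.equiv A p e).symm a)
  rw [h]
  exact RingHom.Finite.comp (RingHom.finite_algebraMap.2 inferInstance)
    (RingHom.Finite.of_surjective _ (Fr.equiv A p e).symm.surjective)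

omit [IsLocalRing R] in
lemma left_piRq [IsLocalRing (RqRing R A p e)] (t : RqRing R A p e) :
    (pushL : R →+* RqRing R A p e) (piRq R A p e t) = t ^ p ^ e := by
  have hp0 : (p : RqRing R A p e) = 0 := by
    rw [← map_natCast (pushL : R →+* RqRing R A p e), CharP.cast_eq_zero, map_zero]
  haveI : CharP (RqRing R A p e) p := (CharP.charP_iff_prime_eq_zero Fact.out).2 hp0
  have h : (pushL : R →+* RqRing R A p e).comp (piRq R A p e) =
      iterateFrobenius (RqRing R A p e) p e := by
    refine tensorHom_ext (fun r => ?_) (fun b => ?_)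
    · show (pushL : R →+* RqRing R A p e) (piRq R A p e (pushL r)) = _
      rw [piRq_left, map_pow]
      rfl
    · obtain ⟨a, rfl⟩ := (Fr.equiv A p e).surjective b
      show (pushL : R →+* RqRing R A p e) (piRq R A p e (pushR (Fr.equiv A p e a))) = _
      rw [piRq_right, push_comm, Fr.algebraMap_apply, map_pow]
      rfl
  exact RingHom.congr_fun h t

include hres in
/-- The closed fibre of `R → Rq` is `Fr A` modulo the maximal ideal of `A`. -/
theorem length_fibre_Rq [IsLocalRing A] [IsLocalHom (algebraMap A R)] [Module.Finite A R]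
    (c : ℕ)
    (hc : Module.length (Fr A p e) (Fr A p e ⊗[A] ResidueField A) = c) :
    Module.length (RqRing R A p e) (RqRing R A p e ⧸
      (maximalIdeal R).map (algebraMap R (RqRing R A p e))) = c := by
  haveI : IsLocalRing (RqRing R A p e) := push_local hres
  set I := (maximalIdeal R).map (algebraMap R (RqRing R A p e))
  let f : Fr A p e →+* RqRing R A p e ⧸ I := (Ideal.Quotient.mk I).comp pushR
  have hf : Function.Surjective f := by
    intro z
    obtain ⟨x, rfl⟩ := Ideal.Quotient.mk_surjective z
    obtain ⟨g, hg⟩ := push_surj hres x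
    exact ⟨g, (Ideal.Quotient.eq.2 hg).symm⟩
  obtain ⟨ρ, hρ, hρker⟩ := exists_push_fibre (P := Fr A p e) hres
  have hk : RingHom.ker f = (maximalIdeal A).map (algebraMap A (Fr A p e)) := by
    refine le_antisymm (fun g hg => push_ker hres (Ideal.Quotient.eq_zero_iff_mem.1 hg)) ?_
    rw [Ideal.map_le_iff_le_comap]
    intro a ha
    refine Ideal.Quotient.eq_zero_iff_mem.2 ?_
    rw [← push_comm]
    exact Ideal.mem_map_of_mem _ (map_maximalIdeal_le _ (Ideal.mem_map_of_mem _ ha))
  rw [← hc]
  refine Eq.trans ?_ (Algebra.TensorProduct.quotIdealMapEquivTensorQuot (Fr A p e)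
    (maximalIdeal A)).toLinearEquiv.length_eq
  let l : Fr A p e →ₗ[Fr A p e] RqRing R A p e ⧸ I := Algebra.linearMap _ _
  have hl : LinearMap.ker l = RingHom.ker f := rfl
  have e1 : Module.length (Fr A p e) (RqRing R A p e ⧸ I) =
      Module.length (Fr A p e) (Fr A p e ⧸ (maximalIdeal A).map (algebraMap A (Fr A p e))) := by
    rw [← hk, ← hl]
    exact (l.quotKerEquivOfSurjective hf).length_eq.symm
  have hf' : Function.Surjective (algebraMap (Fr A p e) (RqRing R A p e ⧸ I)) := hf
  have hq : Function.Surjective (algebraMap (RqRing R A p e) (RqRing R A p e ⧸ I)) :=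
    Ideal.Quotient.mk_surjective
  rw [← e1, Module.length_eq_of_surjective (R := RqRing R A p e ⧸ I) hf',
    Module.length_eq_of_surjective (R := RqRing R A p e ⧸ I) hq]

end Vale.Agent.P202
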