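import Vale.Agent.P202.PsiBasic

/-!
Restriction of scalars along a ring map, as a type synonym, and lengths of quotients.
-/

universe u

namespace Vale.Agent.P202

open IsLocalRing

/-- `V` seen as a module through `f`. -/
@[nolint unusedArguments]
def Res {R R' : Type u} [CommRing R] [CommRing R'] (_f : R →+* R') (V : Type u) : Type u := V

namespace Res

variable {R R' : Type u} [CommRing R] [CommRing R'] (f : R →+* R')
variable (V W : Type u) [AddCommGroup V] [Module R' V] [AddCommGroup W] [Module R' W]

instance instAddCommGroup : AddCommGroup (Res f V) := inferInstanceAs (AddCommGroup V)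

instance instModuleTop : Module R' (Res f V) := inferInstanceAs (Module R' V)

instance instModule : Module R (Res f V) := Module.compHom V f

lemma smul_def (a : R) (v : Res f V) : a • v = f a • v := rfl

/-- The identity, over the upper ring. -/
def equiv : V ≃ₗ[R'] Res f V := LinearEquiv.refl R' V

variable {V W}

/-- A linear map over the upper ring, seen below. -/
def map (g : V →ₗ[R'] W) : Res f V →ₗ[R] Res f W where
  toFun := g
  map_add' := map_add g
  map_smul' a v := map_smul g (f a) v

lemma map_apply (g : V →ₗ[R'] W) (v : Res f V) : map f g v = g v := rfl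

lemma finite (hf : f.Finite) [Module.Finite R' V] : Module.Finite R (Res f V) := by
  letI := f.toAlgebra
  haveI : Module.Finite R R' := hf
  haveI : IsScalarTower R R' (Res f V) := IsScalarTower.of_algebraMap_smul fun _ _ => rfl
  haveI : Module.Finite R' (Res f V) := Module.Finite.equiv (equiv f V)
  exact Module.Finite.trans R' (Res f V)

lemma killedBy (J : Ideal R) (J' : Ideal R') (h : J ≤ J'.comap f) (hV : KilledBy J' V) :
    KilledBy J (Res f V) :=
  fun _ ha v => hV _ (h ha) v

end Res

section Local

variable {R R' : Type u} [CommRing R] [IsLocalRing R] [CommRing R'] [IsLocalRing R']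
  (f : R →+* R')

/-- The residue degree of `f`. -/
noncomputable def resDeg : ℕ := (Module.length R (Res f (ResidueField R'))).toNat

variable [IsLocalHom f]

lemma length_res_aux (V : Type u) [AddCommGroup V] [Module R' V] :
    Module.length R (Res f V) =
      Module.length R' V * Module.length R (Res f (ResidueField R')) := by
  letI := f.toAlgebra
  haveI : IsLocalHom (algebraMap R R') := ‹IsLocalHom f›
  haveI : IsScalarTower R R' (Res f V) := IsScalarTower.of_algebraMap_smul fun _ _ => rfl
  haveI : IsScalarTower R R' (Res f (ResidueField R')) :=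
    IsScalarTower.of_algebraMap_smul fun _ _ => rfl
  rw [IsLocalRing.length_restrictScalars R R' (Res f V),
    IsLocalRing.length_restrictScalars R R' (Res f (ResidueField R'))]
  have h1 : Module.length R' (Res f (ResidueField R')) = 1 := by
    rw [← (Res.equiv f (ResidueField R')).length_eq]
    exact Module.length_eq_one_iff.2 <| by
      rw [isSimpleModule_iff_quot_maximal]
      exact ⟨maximalIdeal R', inferInstance, ⟨LinearEquiv.refl _ _⟩⟩
  rw [h1, one_mul, (Res.equiv f V).length_eq]

lemma length_res_residue_ne_top (hf : f.Finite) :
    Module.length R (Res f (ResidueField R')) ≠ ⊤ := by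
  haveI := Res.finite f (V := ResidueField R') hf
  letI := f.toAlgebra
  haveI : IsLocalHom (algebraMap R R') := ‹IsLocalHom f›
  haveI : Module.Finite R R' := hf
  haveI : IsScalarTower R R' (Res f (ResidueField R')) :=
    IsScalarTower.of_algebraMap_smul fun _ _ => rfl
  rw [IsLocalRing.length_restrictScalars R R' (Res f (ResidueField R'))]
  refine WithTop.mul_ne_top ?_ Module.length_ne_top
  rw [← (Res.equiv f (ResidueField R')).length_eq,
    Module.length_eq_of_surjective (M := ResidueField R') (residue_surjective (R := R'))]
  exact Module.length_ne_top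

lemma resDeg_eq (hf : f.Finite) :
    (resDeg f : ℕ∞) = Module.length R (Res f (ResidueField R')) :=
  ENat.coe_toNat (length_res_residue_ne_top f hf)

lemma resDeg_pos (hf : f.Finite) : 0 < resDeg f := by
  have h : 0 < (resDeg f : ℕ∞) := by
    rw [resDeg_eq f hf]
    haveI : Nontrivial (Res f (ResidueField R')) := inferInstanceAs (Nontrivial (ResidueField R'))
    exact Module.length_pos
  exact_mod_cast h

lemma length_res (hf : f.Finite) (V : Type u) [AddCommGroup V] [Module R' V] :
    Module.length R (Res f V) = Module.length R' V * resDeg f := by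
  rw [resDeg_eq f hf, length_res_aux]

lemma resDeg_of_surjective (hs : Function.Surjective f) : resDeg f = 1 := by
  have : Module.length R (Res f (ResidueField R')) = 1 := by
    letI := f.toAlgebra
    haveI : IsScalarTower R R' (Res f (ResidueField R')) :=
      IsScalarTower.of_algebraMap_smul fun _ _ => rfl
    rw [Module.length_eq_of_surjective (R := R') (M := Res f (ResidueField R')) hs,
      ← (Res.equiv f (ResidueField R')).length_eq,
      Module.length_eq_of_surjective (M := ResidueField R') (residue_surjective (R := R')),
      Module.length_eq_finrank, Module.finrank_self]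
    rfl
  rw [resDeg, this]; rfl

lemma length_res_quot (hf : f.Finite) (I : Ideal R) (V : Type u) [AddCommGroup V] [Module R' V] :
    Module.length R (Res f V ⧸ I • (⊤ : Submodule R (Res f V))) =
      Module.length R' (V ⧸ I.map f • (⊤ : Submodule R' V)) * resDeg f := by
  rw [← length_res f hf]
  let N : Submodule R' V := I.map f • ⊤
  have hker : LinearMap.ker (Res.map f N.mkQ) = I • (⊤ : Submodule R (Res f V)) := by
    letI := f.toAlgebra
    haveI : IsScalarTower R R' (Res f V) := IsScalarTower.of_algebraMap_smul fun _ _ => rfl
    have h := Ideal.smul_restrictScalars (S := R') I (⊤ : Submodule R' (Res f V))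
    rw [Submodule.restrictScalars_top] at h
    rw [← h]
    ext v
    rw [LinearMap.mem_ker, Res.map_apply, Submodule.restrictScalars_mem]
    exact (Submodule.Quotient.mk_eq_zero N)
  have hsurj : Function.Surjective (Res.map f N.mkQ) := N.mkQ_surjective
  rw [← hker]
  exact ((Res.map f N.mkQ).quotKerEquivOfSurjective hsurj).length_eq

end Local

lemma length_quot_quot {A : Type*} [CommRing A] (J I : Ideal A) :
    Module.length A ((A ⧸ J) ⧸ I • (⊤ : Submodule A (A ⧸ J))) =
      Module.length A (A ⧸ (J ⊔ I)) := by
  rw [Ideal.smul_top_eq_map, show algebraMap A (A ⧸ J) = Ideal.Quotient.mk J from rfl]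
  exact ((Submodule.Quotient.restrictScalarsEquiv A _).trans
    (DoubleQuot.quotQuotEquivQuotSupₐ A J I).toLinearEquiv).length_eq

lemma length_quot_sup_pow {R : Type*} [CommRing R] [IsLocalRing R] (J : Ideal R)
    [IsLocalRing (R ⧸ J)] (k : ℕ) :
    Module.length R (R ⧸ (J ⊔ maximalIdeal R ^ k)) =
      Module.length (R ⧸ J) ((R ⧸ J) ⧸ maximalIdeal (R ⧸ J) ^ k) := by
  have hmap : (maximalIdeal R).map (Ideal.Quotient.mk J) = maximalIdeal (R ⧸ J) :=
    IsLocalRing.map_maximalIdeal_of_surjective _ Ideal.Quotient.mk_surjective
  rw [← hmap, ← Ideal.map_pow]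
  refine Eq.trans ?_ (Module.length_eq_of_surjective Ideal.Quotient.mk_surjective)
  exact ((DoubleQuot.quotQuotEquivQuotSupₐ R J (maximalIdeal R ^ k)).toLinearEquiv.length_eq).symm

end Vale.Agent.P202
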