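import Vale.Agent.P202.G2Crit
import Vale.Agent.P202.Res

/-!
G4: the pullback of a presentation along a semilinear map whose fibre is a flat endomorphism. For
`S = Q ⧸ J` flat over `R` and `N` generated by the image of `J`, the relations of `N` modulo the
maximal ideal lift, so `N ⊓ m' Q' ≤ m' N`.
-/

universe u

namespace Vale.Agent.P202

open IsLocalRing

variable {R Q S R' Q' Bz : Type u} [CommRing R] [IsLocalRing R] [CommRing Q] [CommRing S]
  [Algebra R Q] [Algebra R S] [Module.Flat R S] [CommRing R'] [IsLocalRing R'] [CommRing Q']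
  [Algebra R' Q'] [CommRing Bz]

/-- The kernel of a surjection onto a flat algebra meets `m Q` in `m J`. -/
theorem ker_inf_le (ε : Q →ₐ[R] S) (hε : Function.Surjective ε) :
    RingHom.ker ε.toRingHom ⊓ (maximalIdeal R).map (algebraMap R Q) ≤
      (maximalIdeal R).map (algebraMap R Q) * RingHom.ker ε.toRingHom := by
  classical
  rintro x ⟨hxJ, hxm⟩
  obtain ⟨ι, _, r, g, rfl⟩ : ∃ (ι : Type u) (_ : Fintype ι) (r : ι → maximalIdeal R) (g : ι → Q),
      x = ∑ i, algebraMap R Q (r i) * g i := by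
    rw [SetLike.mem_coe, Ideal.map, Ideal.span, Submodule.mem_span_set] at hxm
    obtain ⟨c, hc, rfl⟩ := hxm
    choose r hr hr' using fun i : c.support => hc i.2
    refine ⟨c.support, inferInstance, fun i => ⟨r i, hr i⟩, fun i => c i, ?_⟩
    rw [Finsupp.sum, ← Finset.sum_coe_sort]
    refine Finset.sum_congr rfl fun i _ => ?_
    rw [smul_eq_mul, mul_comm, hr' i]
  have hrel : ∑ i, (r i : R) • ε (g i) = 0 := by
    rw [SetLike.mem_coe, RingHom.mem_ker] at hxJ
    have : ε (∑ i, algebraMap R Q (r i) * g i) = 0 := hxJ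
    rw [map_sum] at this
    simpa [Algebra.smul_def] using this
  obtain ⟨k, a, s, hs, ha⟩ := Module.Flat.isTrivialRelation_of_sum_smul_eq_zero (R := R) (M := S)
    (f := fun i => (r i : R)) (x := fun i => ε (g i)) hrel
  simp only at hs ha
  choose t ht using fun j => hε (s j)
  have hdiff : ∀ i, g i - ∑ j, algebraMap R Q (a i j) * t j ∈ RingHom.ker ε.toRingHom := by
    intro i
    show ε (g i - ∑ j, algebraMap R Q (a i j) * t j) = 0
    rw [map_sub, hs i, map_sum, sub_eq_zero]
    refine Finset.sum_congr rfl fun j _ => ?_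
    rw [map_mul, AlgHom.commutes, ht, Algebra.smul_def]
  have heq : ∑ i, algebraMap R Q (r i) * g i =
      ∑ i, algebraMap R Q (r i) * (g i - ∑ j, algebraMap R Q (a i j) * t j) := by
    simp only [mul_sub, Finset.sum_sub_distrib, Finset.mul_sum, ← mul_assoc, ← map_mul]
    rw [Finset.sum_comm (γ := ι), eq_comm, sub_eq_self]
    refine Finset.sum_eq_zero fun j _ => ?_
    rw [← Finset.sum_mul, ← map_sum, ha j, map_zero, zero_mul]
  rw [heq]
  exact Submodule.sum_mem _ fun i _ =>
    Ideal.mul_mem_mul (Ideal.mem_map_of_mem _ (r i).2) (hdiff i)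

/-- Relations of the pulled back kernel lift, as the fibre map is flat. -/
theorem pullback_inf_le (ε : Q →ₐ[R] S) (hε : Function.Surjective ε) (β : Q →+* Bz)
    (hβ : Function.Surjective β)
    (hβk : RingHom.ker β ≤ (maximalIdeal R).map (algebraMap R Q)) (β' : Q' →+* Bz)
    (hβ' : Function.Surjective β')
    (hβ'k : RingHom.ker β' = (maximalIdeal R').map (algebraMap R' Q'))
    (F : Bz →+* Bz) [Module.Flat Bz (Res F Bz)] (Φ : Q →+* Q')
    (hΦβ : ∀ x, β' (Φ x) = F (β x))
    (hΦm : ((maximalIdeal R).map (algebraMap R Q)).map Φ ≤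
      (maximalIdeal R').map (algebraMap R' Q')) :
    (RingHom.ker ε.toRingHom).map Φ ⊓ (maximalIdeal R').map (algebraMap R' Q') ≤
      (maximalIdeal R').map (algebraMap R' Q') * (RingHom.ker ε.toRingHom).map Φ := by
  classical
  set J := RingHom.ker ε.toRingHom
  set M' := (maximalIdeal R').map (algebraMap R' Q')
  rintro x ⟨hxN, hxm⟩
  obtain ⟨ι, _, h, b, hhJ, rfl⟩ : ∃ (ι : Type u) (_ : Fintype ι) (h : ι → Q) (b : ι → Q'),
      (∀ i, h i ∈ J) ∧ x = ∑ i, b i * Φ (h i) := by
    rw [SetLike.mem_coe, Ideal.map, Ideal.span, Submodule.mem_span_set] at hxN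
    obtain ⟨c, hc, rfl⟩ := hxN
    choose r hr hr' using fun i : c.support => hc i.2
    refine ⟨c.support, inferInstance, r, fun i => c i, hr, ?_⟩
    rw [Finsupp.sum, ← Finset.sum_coe_sort]
    refine Finset.sum_congr rfl fun i _ => ?_
    rw [smul_eq_mul, hr' i]
  rw [SetLike.mem_coe, ← hβ'k, RingHom.mem_ker] at hxm
  let b' : ι → Res F Bz := fun i => β' (b i)
  have hrel : ∑ i, β (h i) • b' i = 0 := by
    show (∑ i, F (β (h i)) * β' (b i) : Bz) = 0
    rw [← hxm, map_sum]
    refine Finset.sum_congr rfl fun i _ => ?_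
    rw [map_mul, hΦβ, mul_comm]
  obtain ⟨k, a, y, hy, ha⟩ := Module.Flat.isTrivialRelation_of_sum_smul_eq_zero hrel
  choose s hs using fun i j => hβ (a i j)
  let y₀ : Fin k → Bz := y
  choose c hc using fun j => hβ' (y₀ j)
  -- the lifted relations take values in `m J`
  have hlift : ∀ j, Φ (∑ i, s i j * h i) ∈ M' * J.map Φ := by
    intro j
    have h1 : ∑ i, s i j * h i ∈ J ⊓ (maximalIdeal R).map (algebraMap R Q) := by
      refine ⟨Submodule.sum_mem _ fun i _ => J.mul_mem_left _ (hhJ i), hβk ?_⟩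
      rw [RingHom.mem_ker, map_sum, ← ha j]
      refine Finset.sum_congr rfl fun i _ => ?_
      rw [map_mul, hs, mul_comm]
    have h2 := Ideal.mem_map_of_mem Φ (ker_inf_le ε hε h1)
    rw [Ideal.map_mul] at h2
    exact Ideal.mul_mono_left hΦm h2
  have hb : ∀ i, b i - ∑ j, Φ (s i j) * c j ∈ M' := by
    intro i
    rw [← hβ'k, RingHom.mem_ker, map_sub, map_sum, sub_eq_zero]
    show (b' i : Bz) = _
    rw [hy i]
    show (∑ j, F (a i j) * y₀ j : Bz) = _
    refine Finset.sum_congr rfl fun j _ => ?_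
    rw [map_mul, hΦβ, hs, hc]
  have heq : ∑ i, b i * Φ (h i) =
      ∑ i, (b i - ∑ j, Φ (s i j) * c j) * Φ (h i) + ∑ j, c j * Φ (∑ i, s i j * h i) := by
    simp only [sub_mul, Finset.sum_sub_distrib, map_sum, map_mul, Finset.mul_sum, Finset.sum_mul]
    rw [Finset.sum_comm (γ := ι) (α := Fin k), eq_comm, sub_add, sub_eq_self, sub_eq_zero]
    refine Finset.sum_congr rfl fun j _ => Finset.sum_congr rfl fun i _ => ?_
    ring
  rw [heq]
  exact add_mem
    (Submodule.sum_mem _ fun i _ => Ideal.mul_mem_mul (hb i) (Ideal.mem_map_of_mem Φ (hhJ i)))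
    (Submodule.sum_mem _ fun j _ => Ideal.mul_mem_left _ _ (hlift j))

end Vale.Agent.P202
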