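import Vale.Agent.P202.G4Push
import Vale.Agent.P202.G4Pull
import Vale.Agent.P202.Fr

/-!
G4: the Frobenius pullback `U` of a presentation `P → S`, flat over `Rq`.
-/

universe u

namespace Vale.Agent.P202

open TensorProduct IsLocalRing

attribute [local instance] Algebra.TensorProduct.rightAlgebra

/-- `Res` along the iterated Frobenius is `Fr`. -/
lemma flat_res_iterateFrobenius {B : Type u} [CommRing B] (p e : ℕ) [ExpChar B p]
    [Module.Flat B (Fr B p e)] : Module.Flat B (Res (iterateFrobenius B p e) B) :=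
  Module.Flat.of_linearEquiv (M := Fr B p e)
    ({ toFun := fun v => Fr.equiv B p e v
       invFun := fun v => (Fr.equiv B p e).symm v
       map_add' := fun _ _ => rfl
       map_smul' := fun _ _ => rfl
       left_inv := fun _ => rfl
       right_inv := fun _ => rfl } : Res (iterateFrobenius B p e) B ≃ₗ[B] Fr B p e)

/-- The pullback of `ε : P → S` along the `q`-th powers, as a flat algebra over `Rq`. -/
theorem exists_pullback {R S A P B Rq A' : Type u} [CommRing R] [IsLocalRing R]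
    [CommRing S] [IsLocalRing S] [Algebra R S] [IsLocalHom (algebraMap R S)] [Module.Flat R S]
    [CommRing A] [IsLocalRing A] [Algebra A R] [IsLocalHom (algebraMap A R)] [Module.Finite A R]
    [CommRing P] [IsLocalRing P] [IsNoetherianRing P] [Algebra A P]
    [IsLocalHom (algebraMap A P)]
    [CommRing B] [IsLocalRing B] [CommRing Rq] [IsLocalRing Rq] [IsNoetherianRing Rq]
    [CommRing A'] [IsLocalRing A'] [Algebra A' Rq] [IsLocalHom (algebraMap A' Rq)]
    [Module.Finite A' Rq] [Algebra A' P] [IsLocalHom (algebraMap A' P)] [Module.Flat A' P]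
    (hresR : Function.Surjective ((residue R).comp (algebraMap A R)))
    (hresQ : Function.Surjective ((residue Rq).comp (algebraMap A' Rq)))
    (ι : R →+* Rq) [IsLocalHom ι]
    (hgen : ∀ t : Rq, ∃ (n : ℕ) (r : Fin n → R) (a : Fin n → A'),
      t = ∑ i, ι (r i) * algebraMap A' Rq (a i))
    (p e : ℕ) [Fact p.Prime] [ExpChar P p] [ExpChar B p] [Module.Flat B (Fr B p e)]
    (hA : ∀ a : A, ∃ a' : A', ι (algebraMap A R a) = algebraMap A' Rq a' ∧
      algebraMap A P a ^ p ^ e = algebraMap A' P a')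
    (β₀ : P →+* B) (hβ₀ : Function.Surjective β₀)
    (hkA : RingHom.ker β₀ = (maximalIdeal A).map (algebraMap A P))
    (hkA' : RingHom.ker β₀ = (maximalIdeal A').map (algebraMap A' P))
    (ε : P →+* S) (hε : Function.Surjective ε)
    (hεA : ∀ a, algebraMap R S (algebraMap A R a) = ε (algebraMap A P a)) :
    ∃ (U : Type u) (_ : CommRing U) (_ : IsLocalRing U) (_ : IsNoetherianRing U)
      (_ : Algebra Rq U) (_ : IsLocalHom (algebraMap Rq U)) (_ : Module.Flat Rq U)
      (g : P →+* U) (FS : S →+* U), Function.Surjective g ∧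
        (∀ a, g a ^ p ^ e = FS (ε a)) ∧
        (∀ r, FS (algebraMap R S r) = algebraMap Rq U (ι r)) ∧
        (∀ a', g (algebraMap A' P a') = algebraMap Rq U (algebraMap A' Rq a')) ∧
        ∀ h : P, g h ∈ (maximalIdeal Rq).map (algebraMap Rq U) →
          β₀ h ∈ ((((maximalIdeal R).map (algebraMap R S)).comap ε).map β₀).map
            (iterateFrobenius B p e) := by
  set F := iterateFrobenius B p e
  have := flat_res_iterateFrobenius (B := B) p e
  haveI : IsLocalRing (R ⊗[A] P) := push_local hresR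
  haveI : IsLocalRing (Rq ⊗[A'] P) := push_local hresQ
  haveI : IsNoetherianRing (Rq ⊗[A'] P) := push_noetherian
  obtain ⟨β, hβR, hβs, hβk⟩ := exists_push_beta (R := R) hresR β₀ hβ₀ hkA
  obtain ⟨β', hβ'R, hβ's, hβ'k⟩ := exists_push_beta (R := Rq) hresQ β₀ hβ₀ hkA'
  let εQ : R ⊗[A] P →ₐ[R] S :=
    { tensorHom (algebraMap R S) ε hεA with
      commutes' := fun r => by
        show tensorHom (algebraMap R S) ε hεA (r ⊗ₜ[A] (1 : P)) = _
        rw [tensorHom_tmul, map_one, mul_one] }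
  have hεR : ∀ g, εQ (pushR g) = ε g := fun g => by
    show tensorHom (algebraMap R S) ε hεA ((1 : R) ⊗ₜ[A] g) = _
    rw [tensorHom_tmul, map_one, one_mul]
  have hεs : Function.Surjective εQ := fun s => by
    obtain ⟨g, rfl⟩ := hε s
    exact ⟨pushR g, hεR g⟩
  let Φ : R ⊗[A] P →+* Rq ⊗[A'] P :=
    tensorHom ((pushL : Rq →+* Rq ⊗[A'] P).comp ι)
      ((pushR : P →+* Rq ⊗[A'] P).comp (iterateFrobenius P p e)) fun a => by
      obtain ⟨a', h1, h2⟩ := hA a
      rw [RingHom.comp_apply, RingHom.comp_apply, iterateFrobenius_def, h1, h2]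
      exact push_comm a'
  have hΦR : ∀ g, Φ (pushR g) = pushR (g ^ p ^ e) := fun g => by
    show tensorHom _ _ _ ((1 : R) ⊗ₜ[A] g) = _
    rw [tensorHom_tmul, map_one, one_mul]
    rfl
  have hΦL : ∀ r, Φ (pushL r) = pushL (ι r) := fun r => by
    show tensorHom _ _ _ (r ⊗ₜ[A] (1 : P)) = _
    rw [tensorHom_tmul, map_one, mul_one]
    rfl
  have hΦm : ((maximalIdeal R).map (algebraMap R (R ⊗[A] P))).map Φ ≤
      (maximalIdeal Rq).map (algebraMap Rq (Rq ⊗[A'] P)) := by
    rw [Ideal.map_map, Ideal.map_le_iff_le_comap]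
    intro r hr
    show Φ (pushL r) ∈ (maximalIdeal Rq).map (algebraMap Rq (Rq ⊗[A'] P))
    rw [hΦL]
    exact Ideal.mem_map_of_mem _ (map_maximalIdeal_le ι (Ideal.mem_map_of_mem _ hr))
  have hΦβ : ∀ x, β' (Φ x) = F (β x) := by
    intro x
    obtain ⟨g, hg⟩ := push_surj hresR x
    have h1 : β (x - pushR g) = 0 := by rw [← RingHom.mem_ker, hβk]; exact hg
    have h2 : β' (Φ (x - pushR g)) = 0 := by
      rw [← RingHom.mem_ker, hβ'k]
      exact hΦm (Ideal.mem_map_of_mem Φ hg)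
    rw [map_sub, sub_eq_zero] at h1
    rw [map_sub, map_sub, sub_eq_zero] at h2
    rw [h2, h1, hΦR, hβ'R, hβR, map_pow]
    rfl
  have hincl := pullback_inf_le εQ hεs β hβs hβk.le β' hβ's hβ'k F Φ hΦβ hΦm
  set J := RingHom.ker εQ.toRingHom
  set N := J.map Φ
  haveI : IsLocalHom β := IsLocalHom.of_surjective β hβs
  have hN : N ≤ maximalIdeal (Rq ⊗[A'] P) := by
    rw [Ideal.map_le_iff_le_comap]
    intro j hj
    refine (mem_maximalIdeal _).2 fun hu => ?_
    have h1 : IsUnit (F (β j)) := hΦβ j ▸ hu.map β'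
    rw [iterateFrobenius_def, isUnit_pow_iff (pow_ne_zero _ (Fact.out : p.Prime).ne_zero)] at h1
    have h2 := ((isUnit_map_iff β j).1 h1).map εQ
    rw [show εQ j = 0 from hj] at h2
    exact not_isUnit_zero h2
  have hNtop : N ≠ ⊤ := ne_top_of_le_ne_top (maximalIdeal.isMaximal _).ne_top hN
  haveI : Nontrivial ((Rq ⊗[A'] P) ⧸ N) := Ideal.Quotient.nontrivial_iff.2 hNtop
  haveI : IsLocalRing ((Rq ⊗[A'] P) ⧸ N) := .of_surjective' _ Ideal.Quotient.mk_surjective
  obtain ⟨hlocL, -, -⟩ := push_localHom (R := Rq) (P := P) hresQ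
  haveI : IsLocalHom (algebraMap Rq ((Rq ⊗[A'] P) ⧸ N)) := by
    haveI : IsLocalHom (Ideal.Quotient.mk N) :=
      IsLocalHom.of_surjective _ Ideal.Quotient.mk_surjective
    haveI := hlocL
    exact RingHom.isLocalHom_comp (Ideal.Quotient.mk N) (pushL : Rq →+* Rq ⊗[A'] P)
  haveI : IsLocalHom (algebraMap Rq (Rq ⊗[A'] P)) := hlocL
  have hflat : Module.Flat Rq ((Rq ⊗[A'] P) ⧸ N) := flat_quotient_of_inf_le N hincl
  let gU : P →+* (Rq ⊗[A'] P) ⧸ N := (Ideal.Quotient.mk N).comp pushR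
  let Fq : R ⊗[A] P →+* (Rq ⊗[A'] P) ⧸ N := (Ideal.Quotient.mk N).comp Φ
  let FS : S →+* (Rq ⊗[A'] P) ⧸ N := RingHom.liftOfSurjective εQ.toRingHom hεs
    ⟨Fq, fun j hj => Ideal.Quotient.eq_zero_iff_mem.2 (Ideal.mem_map_of_mem Φ hj)⟩
  have hFS : ∀ x, FS (εQ x) = Fq x := fun x =>
    RingHom.liftOfRightInverse_comp_apply _ _ _ _ _
  have hFSg : ∀ a, gU a ^ p ^ e = FS (ε a) := fun a => by
    rw [← hεR, hFS]
    show _ = Ideal.Quotient.mk N (Φ (pushR a))
    rw [hΦR, ← map_pow]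
    rfl
  have hFSr : ∀ r, FS (algebraMap R S r) =
      algebraMap Rq ((Rq ⊗[A'] P) ⧸ N) (ι r) := fun r => by
    rw [← AlgHom.commutes εQ r, hFS]
    show Ideal.Quotient.mk N (Φ (pushL r)) = _
    rw [hΦL]
    rfl
  have hgA : ∀ a', gU (algebraMap A' P a') =
      algebraMap Rq ((Rq ⊗[A'] P) ⧸ N) (algebraMap A' Rq a') := fun a' => by
    show Ideal.Quotient.mk N (pushR (algebraMap A' P a')) = _
    rw [← push_comm]
    rfl
  refine ⟨_, inferInstance, inferInstance, inferInstance, inferInstance, inferInstance, hflat,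
    gU, FS, ?_, hFSg, hFSr, hgA, ?_⟩
  · intro u
    obtain ⟨x, rfl⟩ := Ideal.Quotient.mk_surjective u
    have hι : ∀ r, ∃ g, gU g = algebraMap Rq ((Rq ⊗[A'] P) ⧸ N) (ι r) := fun r => by
      obtain ⟨g, hg⟩ := hε (algebraMap R S r)
      exact ⟨g ^ p ^ e, by rw [map_pow, hFSg, hg, hFSr]⟩
    have hθ : ∀ t : Rq, ∃ g, gU g = algebraMap Rq ((Rq ⊗[A'] P) ⧸ N) t := fun t => by
      obtain ⟨n, r, a, rfl⟩ := hgen t
      choose g hg using fun i => hι (r i)
      refine ⟨∑ i, g i * algebraMap A' P (a i), ?_⟩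
      simp only [map_sum, map_mul, hg, hgA]
    induction x with
    | zero => exact ⟨0, by simp⟩
    | add y z hy hz =>
      obtain ⟨g, hg⟩ := hy
      obtain ⟨g', hg'⟩ := hz
      exact ⟨g + g', by rw [map_add, map_add, hg, hg']⟩
    | tmul t v =>
      obtain ⟨g, hg⟩ := hθ t
      refine ⟨g * v, ?_⟩
      rw [map_mul, hg, show t ⊗ₜ[A'] v = (t ⊗ₜ 1) * ((1 : Rq) ⊗ₜ v) by simp, map_mul]
      rfl
  · intro h hh
    have h1 : (pushR h : Rq ⊗[A'] P) ∈ (maximalIdeal Rq).map (pushL : Rq →+* Rq ⊗[A'] P) ⊔ N := by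
      have h2 : Ideal.Quotient.mk N (pushR h) ∈
          ((maximalIdeal Rq).map (pushL : Rq →+* Rq ⊗[A'] P)).map (Ideal.Quotient.mk N) := by
        rw [Ideal.map_map]
        exact hh
      rwa [Ideal.mem_quotient_iff_mem_sup] at h2
    obtain ⟨y, hy, z, hz, hyz⟩ := Submodule.mem_sup.1 h1
    have hy0 : β' y = 0 := by rw [← RingHom.mem_ker, hβ'k]; exact hy
    rw [← hβ'R, ← hyz, map_add, hy0, zero_add]
    refine (Ideal.map_le_iff_le_comap.2 ?_ : N ≤ ((((maximalIdeal R).map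
      (algebraMap R S)).comap ε).map β₀ |>.map F).comap β') hz
    intro j hj
    rw [Ideal.mem_comap, Ideal.mem_comap, hΦβ]
    refine Ideal.mem_map_of_mem F ?_
    obtain ⟨g, hg⟩ := push_surj hresR j
    have h3 : β j = β₀ g := by
      rw [← sub_eq_zero, ← hβR, ← map_sub, ← RingHom.mem_ker, hβk]
      exact hg
    rw [h3]
    refine Ideal.mem_map_of_mem β₀ ?_
    have h4 := Ideal.mem_map_of_mem εQ.toRingHom hg
    rw [Ideal.map_map] at h4
    have h5 : εQ.toRingHom.comp (pushL : R →+* R ⊗[A] P) = algebraMap R S :=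
      RingHom.ext fun r => εQ.commutes r
    rw [h5, map_sub, show εQ.toRingHom j = 0 from hj, zero_sub, neg_mem_iff] at h4
    rw [Ideal.mem_comap, ← hεR]
    exact h4

end Vale.Agent.P202
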