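import Vale.Agent.P202.Twist

/-!
Module G5, the Euler characteristic half of G4: for `ι : R → Rq` flat with fibre of length `q ^ m`
and `π : Rq → R` finite with `ι (π t) = t ^ q`, the functional of a flat `Rq`-algebra takes on `Rq`
the value `q ^ (m - d)` times the one on `R` seen through `π`.
-/

universe u

namespace Vale.Agent.P202

open TensorProduct IsLocalRing Filter

/-- Squeezing a counting function between dilations of another one. -/
lemma tendsto_of_dilate {d q : ℕ} (hq : 0 < q) {a b : ℕ → ℕ} {c : ℝ}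
    (hb : Tendsto (fun n : ℕ => (d.factorial : ℝ) * (b n : ℝ) / (n : ℝ) ^ d) atTop (nhds c))
    (hlo : ∀ n, b (q * n) ≤ a n) (hup : ∀ n, a n ≤ b (q * (n + d))) :
    Tendsto (fun n : ℕ => (d.factorial : ℝ) * (a n : ℝ) / (n : ℝ) ^ d) atTop
      (nhds ((q : ℝ) ^ d * c)) := by
  have hmul : ∀ s : ℕ, Tendsto (fun n : ℕ => q * (n + s)) atTop atTop := fun s =>
    tendsto_atTop_atTop.2 fun m => ⟨m, fun n hn =>
      hn.trans ((Nat.le_add_right n s).trans (Nat.le_mul_of_pos_left _ hq))⟩
  have hs : ∀ s : ℕ, Tendsto (fun n : ℕ => (d.factorial : ℝ) * (b (q * (n + s)) : ℝ) /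
      (n : ℝ) ^ d) atTop (nhds ((q : ℝ) ^ d * c)) := by
    intro s
    have hr : Tendsto (fun n : ℕ => (((q * (n + s) : ℕ) : ℝ) / n) ^ d) atTop
        (nhds (((q : ℝ) * 1) ^ d)) := by
      refine Tendsto.pow ?_ d
      have hone : Tendsto (fun n : ℕ => (1 : ℝ) + (s : ℝ) * ((n : ℝ))⁻¹) atTop (nhds 1) := by
        have := (tendsto_inv_atTop_nhds_zero_nat (𝕜 := ℝ)).const_mul (s : ℝ)
        simpa using this.const_add (1 : ℝ)
      refine (hone.const_mul (q : ℝ)).congr' ?_
      filter_upwards [eventually_gt_atTop 0] with n hn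
      have : (n : ℝ) ≠ 0 := by exact_mod_cast hn.ne'
      push_cast
      field_simp
    have h3 := (hb.comp (hmul s)).mul hr
    rw [mul_one, mul_comm c] at h3
    refine h3.congr' ?_
    filter_upwards [eventually_gt_atTop 0] with n hn
    have hn' : (n : ℝ) ≠ 0 := by exact_mod_cast hn.ne'
    have hqn : ((q * (n + s) : ℕ) : ℝ) ≠ 0 := by
      have : 0 < q * (n + s) := Nat.mul_pos hq (by omega)
      exact_mod_cast this.ne'
    simp only [Function.comp_apply, div_pow]
    field_simp
  refine tendsto_of_tendsto_of_tendsto_of_le_of_le (hs 0) (hs d) (fun n => ?_) (fun n => ?_)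
  · refine div_le_div_of_nonneg_right (mul_le_mul_of_nonneg_left ?_ (Nat.cast_nonneg _))
      (by positivity)
    rw [add_zero]
    exact Nat.cast_le.2 (hlo n)
  · refine div_le_div_of_nonneg_right (mul_le_mul_of_nonneg_left ?_ (Nat.cast_nonneg _))
      (by positivity)
    exact Nat.cast_le.2 (hup n)

section Prime

variable {R S : Type u} [CommRing R] [IsLocalRing R] [IsNoetherianRing R] [CommRing S]
  [IsLocalRing S] [IsNoetherianRing S] [Algebra R S] [IsLocalHom (algebraMap R S)]
  [Module.Flat R S] {d : ℕ} {y : Fin d → S}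

omit [IsLocalRing R] [IsNoetherianRing R] in
lemma killedBy_smul_top {P : Ideal R} {K : ℕ} {N : Type u} [AddCommGroup N] [Module R N]
    (h : KilledBy (P ^ (K + 1)) N) : KilledBy (P ^ K) ↥(P • (⊤ : Submodule R N)) := by
  rintro a ha ⟨v, hv⟩
  apply Subtype.ext
  show a • v = 0
  refine Submodule.smul_induction_on hv (fun b hb w _ => ?_) fun v w hv hw => ?_
  · rw [smul_smul]
    exact h _ (pow_succ P K ▸ Ideal.mul_mem_mul ha hb) w
  · rw [smul_add, hv, hw, add_zero]

omit [IsLocalRing R] in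
/-- Dévissage along the powers of an ideal. -/
lemma killedBy_pow_induction (P : Ideal R)
    {motive : ∀ (N : Type u) [AddCommGroup N] [Module R N], Prop}
    (base : ∀ (N : Type u) [AddCommGroup N] [Module R N] [Module.Finite R N],
      KilledBy P N → motive N)
    (ext : ∀ (N₁ N₂ N₃ : Type u) [AddCommGroup N₁] [Module R N₁] [Module.Finite R N₁]
      [AddCommGroup N₂] [Module R N₂] [Module.Finite R N₂]
      [AddCommGroup N₃] [Module R N₃] [Module.Finite R N₃] (f : N₁ →ₗ[R] N₂) (g : N₂ →ₗ[R] N₃),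
      Function.Injective f → Function.Exact f g → Function.Surjective g →
      motive N₁ → motive N₃ → motive N₂) (K : ℕ) :
    ∀ (N : Type u) [AddCommGroup N] [Module R N] [Module.Finite R N],
      KilledBy (P ^ K) N → motive N := by
  induction K with
  | zero =>
    intro N _ _ _ hN
    exact base N fun a _ v => hN a (by rw [pow_zero, Ideal.one_eq_top]; trivial) v
  | succ K ih =>
    intro N _ _ _ hN
    have hfin : Module.Finite R ↥(P • (⊤ : Submodule R N)) :=
      have := isNoetherian_of_isNoetherianRing_of_finite R N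
      Module.IsNoetherian.finite R _
    refine ext _ N _ (P • (⊤ : Submodule R N)).subtype (P • (⊤ : Submodule R N)).mkQ
      (Submodule.injective_subtype _) (LinearMap.exact_subtype_mkQ _) (Submodule.mkQ_surjective _)
      (ih _ (killedBy_smul_top hN)) (base _ fun a ha v => ?_)
    obtain ⟨v, rfl⟩ := Submodule.Quotient.mk_surjective _ v
    rw [← Submodule.Quotient.mk_smul, Submodule.Quotient.mk_eq_zero]
    exact Submodule.smul_mem_smul ha trivial

/-- `psi` kills modules killed by a power of a prime of small dimension. -/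
lemma psi_eq_zero_of_pow (G : KoszulGoals.{u}) (hy : Par y) (h : ndim R = ndim S) (P : Ideal R)
    (hP : ndim (R ⧸ P) < d) (K : ℕ) (M : Type u) [AddCommGroup M] [Module R M] [Module.Finite R M]
    (hM : KilledBy (P ^ K) M) : psi R y M = 0 :=
  killedBy_pow_induction P (motive := fun N _ _ => psi R y N = 0)
    (fun N _ _ _ hN => psi_eq_zero G hy h P hP N hN)
    (fun N₁ N₂ N₃ _ _ _ _ _ _ _ _ _ f g hf he hg h₁ h₃ => by
      rw [psi_add G hy f g hf he hg, h₁, h₃, add_zero])
    K M hM

/-- Two functionals are proportional on the modules killed by a power of a prime. -/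
lemma psi_mul_psi_pow {S' : Type u} [CommRing S'] [IsLocalRing S'] [IsNoetherianRing S']
    [Algebra R S'] [IsLocalHom (algebraMap R S')] [Module.Flat R S'] {y' : Fin d → S'}
    (G : KoszulGoals.{u}) (hy : Par y) (hy' : Par y') (hS : ndim R = ndim S)
    (hS' : ndim R = ndim S') (P : Ideal R) [P.IsPrime] (hP : ndim (R ⧸ P) ≤ d) (K : ℕ)
    (M : Type u) [AddCommGroup M] [Module R M] [Module.Finite R M] (hM : KilledBy (P ^ K) M) :
    psi R y M * psi R y' (R ⧸ P) = psi R y' M * psi R y (R ⧸ P) :=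
  killedBy_pow_induction P
    (motive := fun N _ _ => psi R y N * psi R y' (R ⧸ P) = psi R y' N * psi R y (R ⧸ P))
    (fun N _ _ _ hN => psi_mul_psi G hy hy' hS hS' P hP N hN)
    (fun N₁ N₂ N₃ _ _ _ _ _ _ _ _ _ f g hf he hg h₁ h₃ => by
      rw [psi_add G hy f g hf he hg, psi_add G hy' f g hf he hg, add_mul, add_mul, h₁, h₃])
    K M hM

/-- The functional of a prime quotient of full dimension is positive. -/
lemma psi_prime_pos (G : KoszulGoals.{u}) {x : Fin d → R} (hx : Par x) (P : Ideal R) [P.IsPrime]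
    (hP : ndim (R ⧸ P) = d) : 0 < psi R x (R ⧸ P) := by
  have hloc : IsLocalHom (RingHom.id R) := ⟨fun _ h => h⟩
  obtain ⟨-, hpos⟩ := psi_base_twist G hx (RingEquiv.refl R) (RingHom.id R)
    (RingHom.Finite.id R) one_pos (fun a => by simp) P hP
  have e : Res (RingEquiv.refl R).toRingHom (R ⧸ P) ≃ₗ[R] R ⧸ P :=
    { toFun := fun v => v
      invFun := fun v => v
      map_add' := fun _ _ => rfl
      map_smul' := fun a v => rfl
      left_inv := fun _ => rfl
      right_inv := fun _ => rfl }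
  rwa [psi_congr e] at hpos

end Prime

section Euler

variable {R Rq U : Type u} [CommRing R] [IsLocalRing R] [IsNoetherianRing R]
  [CommRing Rq] [IsLocalRing Rq] [IsNoetherianRing Rq]
  [CommRing U] [IsLocalRing U] [IsNoetherianRing U]
  [Algebra R Rq] [IsLocalHom (algebraMap R Rq)] [Module.Flat R Rq]
  [Algebra Rq U] [IsLocalHom (algebraMap Rq U)] [Module.Flat Rq U]

omit [IsNoetherianRing R] [IsNoetherianRing Rq] in
lemma resDeg_of_surjective_residue (π : Rq →+* R)
    (h : Function.Surjective ((residue R).comp π)) : resDeg π = 1 := by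
  let f : Rq →ₗ[Rq] Res π (ResidueField R) :=
    LinearMap.toSpanSingleton Rq _ (1 : ResidueField R)
  have hf : ∀ a, f a = residue R (π a) := fun a => by
    show residue R (π a) * 1 = _
    rw [mul_one]
  have hs : Function.Surjective f := fun v => by
    obtain ⟨a, ha⟩ := h v
    exact ⟨a, (hf a).trans ha⟩
  have hk : LinearMap.ker f = maximalIdeal Rq := by
    have h1 : (LinearMap.ker f : Ideal Rq) = RingHom.ker ((residue R).comp π) := by
      ext a
      rw [LinearMap.mem_ker, hf, RingHom.mem_ker]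
      rfl
    rw [h1]
    exact IsLocalRing.eq_maximalIdeal (RingHom.ker_isMaximal_of_surjective _ h)
  have : Module.length Rq (Res π (ResidueField R)) = 1 := by
    rw [← (f.quotKerEquivOfSurjective hs).length_eq, Module.length_eq_one_iff,
      isSimpleModule_iff_quot_maximal]
    exact ⟨maximalIdeal Rq, inferInstance, ⟨Submodule.quotEquivOfEq _ _ hk⟩⟩
  rw [resDeg, this]
  rfl

variable {d : ℕ}

omit [IsNoetherianRing R] [IsNoetherianRing Rq] [IsLocalRing Rq] [IsLocalHom (algebraMap R Rq)]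
  [Module.Flat R Rq] in
lemma length_tensor_residue {q m : ℕ}
    (hfib : Module.length Rq (Rq ⧸ (maximalIdeal R).map (algebraMap R Rq)) = (q ^ m : ℕ)) :
    Module.length Rq (Rq ⊗[R] ResidueField R) = (q ^ m : ℕ) :=
  (Algebra.TensorProduct.quotIdealMapEquivTensorQuot Rq
    (maximalIdeal R)).toLinearEquiv.length_eq.symm.trans hfib

/-- The functional `χ` of `Rq` agrees on the base change and the restriction of `R ⧸ 𝔭`. -/
lemma psi_base_agree (G : KoszulGoals.{u}) (π : Rq →+* R) [IsLocalHom π] (hπ : π.Finite) {q m : ℕ}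
    (hq : 0 < q) (hιπ : ∀ t, algebraMap R Rq (π t) = t ^ q)
    (hres : Function.Surjective ((residue R).comp π))
    (hfib : Module.length Rq (Rq ⧸ (maximalIdeal R).map (algebraMap R Rq)) = (q ^ m : ℕ))
    {x : Fin d → R} (hx : Par x) {X : Fin d → Rq} (hX : ∀ l, π (X l) = x l) (hXpar : Par X)
    (𝔭 : Ideal R) :
    (q : ℤ) ^ d * psi Rq X (Rq ⊗[R] (R ⧸ 𝔭)) = (q : ℤ) ^ m * psi Rq X (Res π (R ⧸ 𝔭)) := by
  set ι := algebraMap R Rq with hι
  set c : ℝ := (psi R x (R ⧸ 𝔭) : ℝ) with hc
  set I := Ideal.span (Set.range x) with hI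
  have hb := tendsto_psi_base G hx (R ⧸ 𝔭)
  -- the restriction
  have h2 : (psi Rq X (Res π (R ⧸ 𝔭)) : ℝ) = c := by
    refine tendsto_nhds_unique (tendsto_psi_res G hXpar π hπ (R ⧸ 𝔭)) (hb.congr fun n => ?_)
    rw [resDeg_of_surjective_residue π hres, Nat.cast_one, one_mul]
    rw [show (fun i => π (X i)) = x from funext hX]
  -- the base change
  have hmax : ∀ l, X l ^ q = ι (x l) := fun l => by rw [← hX l, hιπ]
  let e := (Algebra.TensorProduct.quotIdealMapEquivTensorQuot Rq 𝔭).toLinearEquiv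
  have hfin : Module.Finite Rq (Rq ⧸ 𝔭.map ι) := inferInstance
  have h1 := tendsto_psi_base G hXpar (Rq ⧸ 𝔭.map ι)
  rw [← psi_congr (y := X) e]
  set J := Ideal.span (Set.range X) with hJ
  set b : ℕ → ℕ := fun n => (Module.length Rq ((Rq ⧸ 𝔭.map ι) ⧸
    J ^ n • (⊤ : Submodule Rq (Rq ⧸ 𝔭.map ι)))).toNat with hbdef
  set a : ℕ → ℕ := fun n => (Module.length Rq ((Rq ⧸ 𝔭.map ι) ⧸
    Ideal.span (Set.range fun l => X l ^ q) ^ n •
      (⊤ : Submodule Rq (Rq ⧸ 𝔭.map ι)))).toNat with hadef
  have hJfin : ∀ n, Module.length Rq ((Rq ⧸ 𝔭.map ι) ⧸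
      J ^ n • (⊤ : Submodule Rq (Rq ⧸ 𝔭.map ι))) ≠ ⊤ := by
    intro n
    haveI : IsArtinianRing (Rq ⧸ J) := by
      have hfl := Module.length_ne_top_iff.1 hXpar.fin
      rw [isFiniteLength_iff_isNoetherian_isArtinian] at hfl
      haveI := hfl.2
      exact isArtinian_of_tower Rq inferInstance
    obtain ⟨s, hs⟩ := IsLocalRing.exists_maximalIdeal_pow_le_of_isArtinianRing_quotient J
    rw [length_quot_quot]
    refine ne_top_of_le_ne_top ?_ (Module.length_le_of_surjective
      (Submodule.factor (show maximalIdeal Rq ^ (s * n) ≤ 𝔭.map ι ⊔ J ^ n from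
        le_sup_of_le_right (by rw [pow_mul]; exact pow_le_pow_left' hs n)))
      (Submodule.factor_surjective _))
    exact length_quot_maxPow_ne_top Rq _
  have hqJ : Ideal.span (Set.range fun l => X l ^ q) ≤ J ^ q :=
    Ideal.span_le.2 (by
      rintro _ ⟨i, rfl⟩
      exact Ideal.pow_mem_pow (Ideal.subset_span (Set.mem_range_self i)) q)
  have hup : ∀ n, Module.length Rq ((Rq ⧸ 𝔭.map ι) ⧸ Ideal.span (Set.range fun l => X l ^ q) ^ n •
      (⊤ : Submodule Rq (Rq ⧸ 𝔭.map ι))) ≤
      Module.length Rq ((Rq ⧸ 𝔭.map ι) ⧸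
        J ^ (q * (n + d)) • (⊤ : Submodule Rq (Rq ⧸ 𝔭.map ι))) := fun n =>
    Module.length_le_of_surjective (Submodule.factor (Submodule.smul_mono_left
      (span_range_pow_le hq X n))) (Submodule.factor_surjective _)
  have hlo : ∀ n, Module.length Rq ((Rq ⧸ 𝔭.map ι) ⧸
      J ^ (q * n) • (⊤ : Submodule Rq (Rq ⧸ 𝔭.map ι))) ≤
      Module.length Rq ((Rq ⧸ 𝔭.map ι) ⧸ Ideal.span (Set.range fun l => X l ^ q) ^ n •
      (⊤ : Submodule Rq (Rq ⧸ 𝔭.map ι))) := fun n =>
    Module.length_le_of_surjective (Submodule.factor (Submodule.smul_mono_left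
      (by rw [pow_mul]; exact pow_le_pow_left' hqJ n))) (Submodule.factor_surjective _)
  have hfin' : ∀ n, Module.length Rq ((Rq ⧸ 𝔭.map ι) ⧸ Ideal.span (Set.range fun l => X l ^ q) ^ n •
      (⊤ : Submodule Rq (Rq ⧸ 𝔭.map ι))) ≠ ⊤ := fun n => ne_top_of_le_ne_top (hJfin _) (hup n)
  have hdil := tendsto_of_dilate hq (a := a) (b := b) h1
    (fun n => ENat.toNat_le_toNat (hlo n) (hfin' n))
    (fun n => ENat.toNat_le_toNat (hup n) (hJfin _))
  have haval : ∀ n, a n = q ^ m * (Module.length R ((R ⧸ 𝔭) ⧸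
      I ^ n • (⊤ : Submodule R (R ⧸ 𝔭)))).toNat := by
    intro n
    have hspan : Ideal.span (Set.range fun l => X l ^ q) ^ n = (I ^ n).map ι := by
      rw [Ideal.map_pow, hI, Ideal.map_span, ← Set.range_comp]
      simp only [hmax, Function.comp_def]
    have hfl : Module.length R (R ⧸ (𝔭 ⊔ I ^ n)) ≠ ⊤ := by
      haveI : IsArtinianRing (R ⧸ I) := by
        have hfl := Module.length_ne_top_iff.1 hx.fin
        rw [isFiniteLength_iff_isNoetherian_isArtinian] at hfl
        haveI := hfl.2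
        exact isArtinian_of_tower R inferInstance
      obtain ⟨s, hs⟩ := IsLocalRing.exists_maximalIdeal_pow_le_of_isArtinianRing_quotient I
      refine ne_top_of_le_ne_top ?_ (Module.length_le_of_surjective
        (Submodule.factor (show maximalIdeal R ^ (s * n) ≤ 𝔭 ⊔ I ^ n from
          le_sup_of_le_right (by rw [pow_mul]; exact pow_le_pow_left' hs n)))
        (Submodule.factor_surjective _))
      exact length_quot_maxPow_ne_top R _
    rw [hadef]
    dsimp only
    rw [hspan, length_quot_quot, length_quot_quot, ← Ideal.map_sup, length_quot_map R Rq _ hfl,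
      length_tensor_residue hfib, ENat.toNat_mul,
      ENat.toNat_coe, mul_comm]
  have hlim : Tendsto (fun n : ℕ => (d.factorial : ℝ) * (a n : ℝ) / (n : ℝ) ^ d) atTop
      (nhds ((q : ℝ) ^ m * c)) := by
    refine (hb.const_mul ((q : ℝ) ^ m)).congr fun n => ?_
    rw [haval, Nat.cast_mul, Nat.cast_pow]
    ring
  have h4 := tendsto_nhds_unique hdil hlim
  rw [← h2] at h4
  exact_mod_cast h4

/-- Agreement of the functional of `U` on base change and restriction of finite `R`-modules. -/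
theorem psi_tensor_eq_res (G : KoszulGoals.{u}) (π : Rq →+* R) (hπ : π.Finite) {q m : ℕ}
    (hq : 0 < q) (hιπ : ∀ t, algebraMap R Rq (π t) = t ^ q)
    (hres : Function.Surjective ((residue R).comp π))
    (hfib : Module.length Rq (Rq ⧸ (maximalIdeal R).map (algebraMap R Rq)) = (q ^ m : ℕ))
    {x : Fin d → R} (hx : Par x) {X : Fin d → Rq} (hX : ∀ l, π (X l) = x l)
    {y : Fin d → U} (hy : Par y) (hd : ndim Rq = d) (hU : ndim Rq = ndim U)
    (M : Type u) [AddCommGroup M] [Module R M] [Module.Finite R M] :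
    (q : ℤ) ^ d * psi Rq y (Rq ⊗[R] M) = (q : ℤ) ^ m * psi Rq y (Res π M) := by
  have hloc : IsLocalHom π := ⟨fun t ht => (isUnit_pow_iff hq.ne').1 (hιπ t ▸ ht.map _)⟩
  have hloc' : IsLocalHom (algebraMap Rq Rq) := ⟨fun _ h => h⟩
  have hXpar : Par X := by
    refine ⟨fun l => (mem_maximalIdeal _).2 fun hu => ?_, ?_⟩
    · exact (mem_maximalIdeal _).1 (hx.mem l) (hX l ▸ hu.map π)
    · have h1 : (Ideal.span (Set.range x)).map (algebraMap R Rq) ≤ Ideal.span (Set.range X) := by
        rw [Ideal.map_span, Ideal.span_le]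
        rintro _ ⟨_, ⟨l, rfl⟩, rfl⟩
        rw [SetLike.mem_coe, ← hX l, hιπ]
        exact Ideal.pow_mem_of_mem _ (Ideal.subset_span (Set.mem_range_self l)) q hq
      refine ne_top_of_le_ne_top ?_ (Module.length_le_of_surjective (Submodule.factor h1)
        (Submodule.factor_surjective _))
      rw [length_quot_map R Rq _ hx.fin]
      refine WithTop.mul_ne_top hx.fin ?_
      rw [length_tensor_residue hfib]
      exact ENat.coe_ne_top _
  refine IsNoetherianRing.induction_on_isQuotientEquivQuotientPrime R (M := M) ‹_›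
    (motive := fun N _ _ _ =>
      (q : ℤ) ^ d * psi Rq y (Rq ⊗[R] N) = (q : ℤ) ^ m * psi Rq y (Res π N)) ?_ ?_ ?_
  · intro N _ _ _ hN
    haveI : Subsingleton (Res π N) := hN
    rw [psi_subsingleton G hy, psi_subsingleton G hy, mul_zero, mul_zero]
  · intro N _ _ _ P e
    have e1 : Rq ⊗[R] N ≃ₗ[Rq] Rq ⊗[R] (R ⧸ P.asIdeal) :=
      AlgebraTensorModule.congr (LinearEquiv.refl Rq Rq) e
    have e2 : Res π N ≃ₗ[Rq] Res π (R ⧸ P.asIdeal) :=
      { Res.map π e.toLinearMap with
        invFun := e.symm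
        left_inv := e.symm_apply_apply
        right_inv := e.apply_symm_apply }
    rw [psi_congr e1, psi_congr e2]
    set 𝔭 := P.asIdeal
    haveI : 𝔭.IsPrime := P.isPrime
    let P' : Ideal Rq := 𝔭.comap π
    haveI : P'.IsPrime := Ideal.comap_isPrime _ _
    haveI : Module.Finite Rq (Res π (R ⧸ 𝔭)) := Res.finite π hπ
    have hrad : P' ≤ (𝔭.map (algebraMap R Rq)).radical := fun t ht =>
      ⟨q, hιπ t ▸ Ideal.mem_map_of_mem _ ht⟩
    obtain ⟨K, hK⟩ := Ideal.exists_pow_le_of_le_radical_of_fg hrad P'.fg_of_isNoetherianRing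
    have hk1 : KilledBy (P' ^ K) (Rq ⊗[R] (R ⧸ 𝔭)) := by
      intro a ha v
      obtain ⟨w, rfl⟩ :=
        (Algebra.TensorProduct.quotIdealMapEquivTensorQuot Rq 𝔭).toLinearEquiv.surjective v
      obtain ⟨w, rfl⟩ := Submodule.Quotient.mk_surjective _ w
      rw [← map_smul, ← Submodule.Quotient.mk_smul, smul_eq_mul,
        (Submodule.Quotient.mk_eq_zero _).2 (Ideal.mul_mem_right w _ (hK ha)), map_zero]
    have hk2 : KilledBy (P' ^ 1) (Res π (R ⧸ 𝔭)) := by
      rw [pow_one]
      refine Res.killedBy π P' 𝔭 le_rfl fun a ha v => ?_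
      obtain ⟨v, rfl⟩ := Submodule.Quotient.mk_surjective _ v
      rw [← Submodule.Quotient.mk_smul, Submodule.Quotient.mk_eq_zero]
      exact 𝔭.mul_mem_right v ha
    have hP'd : ndim (Rq ⧸ P') ≤ d := hd ▸ ndim_quotient_le P' (Ideal.IsPrime.ne_top ‹_›)
    rcases hP'd.lt_or_eq with h | h
    · rw [psi_eq_zero_of_pow G hy hU P' h K _ hk1, psi_eq_zero_of_pow G hy hU P' h 1 _ hk2,
        mul_zero, mul_zero]
    · have hagree := psi_base_agree G π hπ hq hιπ hres hfib hx hX hXpar 𝔭
      have i1 := psi_mul_psi_pow G hy hXpar hU rfl P' hP'd K _ hk1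
      have i2 := psi_mul_psi_pow G hy hXpar hU rfl P' hP'd 1 _ hk2
      refine mul_right_cancel₀ (psi_prime_pos G hXpar P' h).ne' ?_
      linear_combination ((q : ℤ) ^ d) * i1 - ((q : ℤ) ^ m) * i2 +
        psi Rq y (Rq ⧸ P') * hagree
  · intro N₁ _ _ _ N₂ _ _ _ N₃ _ _ _ f g hf hg he h₁ h₃
    haveI : Module.Finite Rq (Res π N₁) := Res.finite π hπ
    haveI : Module.Finite Rq (Res π N₂) := Res.finite π hπ
    haveI : Module.Finite Rq (Res π N₃) := Res.finite π hπ
    rw [psi_add G hy (lT Rq Rq f) (lT Rq Rq g) (lT_injective hf) (lT_exact he) (lT_surjective hg),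
      psi_add G hy (Res.map π f) (Res.map π g) hf he hg, mul_add, mul_add, h₁, h₃]

/-- G5: the Euler characteristic of `U` is the one of its restriction along `π`. -/
theorem kchi_res_eq (G : KoszulGoals.{u}) (π : Rq →+* R) (hπ : π.Finite) {q m : ℕ}
    (hq : 0 < q) (hιπ : ∀ t, algebraMap R Rq (π t) = t ^ q)
    (hres : Function.Surjective ((residue R).comp π))
    (hfib : Module.length Rq (Rq ⧸ (maximalIdeal R).map (algebraMap R Rq)) = (q ^ m : ℕ))
    {x : Fin d → R} (hx : Par x) {X : Fin d → Rq} (hX : ∀ l, π (X l) = x l)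
    {y : Fin d → U} (hy : Par y) (hd : ndim Rq = d) (hU : ndim Rq = ndim U) :
    (q : ℤ) ^ m * kchi y (U ⊗[Rq] Res π R) = (q : ℤ) ^ d * kchi y U := by
  have h := psi_tensor_eq_res G π hπ hq hιπ hres hfib hx hX hy hd hU R
  rw [psi_congr (AlgebraTensorModule.rid R Rq Rq), psi_self] at h
  exact h.symm

end Euler

end Vale.Agent.P202
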