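import Vale.Agent.P202.Psi

/-!
Interfaces of the characteristic `p` theorem for arbitrary residue fields: the Frobenius pullback
of a flat local map, taken in a regular presentation of the target.
-/

universe u

namespace Vale.Agent.P202

open TensorProduct IsLocalRing

/-- Completion, and an infinite residue field upstairs, with no finiteness on residue fields. -/
def GoalReduceGen : Prop :=
  ∀ (p : ℕ) [Fact p.Prime] (R S : Type u) [CommRing R] [IsLocalRing R] [IsNoetherianRing R]
    [CharP R p] [CommRing S] [IsLocalRing S] [IsNoetherianRing S] [Algebra R S]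
    [IsLocalHom (algebraMap R S)] [Module.Flat R S],
    ndim R = ndim S →
    ∃ (R' S' : Type u) (_ : CommRing R') (_ : IsLocalRing R') (_ : IsNoetherianRing R')
      (_ : CharP R' p) (_ : CommRing S') (_ : IsLocalRing S') (_ : IsNoetherianRing S')
      (_ : Algebra R' S') (_ : IsLocalHom (algebraMap R' S')) (_ : Module.Flat R' S'),
      IsAdicComplete (maximalIdeal R') R' ∧ IsAdicComplete (maximalIdeal S') S' ∧
      Infinite (ResidueField S') ∧ ndim R' = ndim R ∧ ndim S' = ndim S ∧
      (∀ e : ℝ, HasMult R e → HasMult R' e) ∧ (∀ e : ℝ, HasMult S e → HasMult S' e)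

/-- Formal smoothness of fields of characteristic `p` over the prime field. -/
def GoalFieldSmooth : Prop :=
  ∀ (p : ℕ) [Fact p.Prime] (k : Type u) [Field k] [Algebra (ZMod p) k],
    Algebra.FormallySmooth (ZMod p) k

/-- The pullback along the `e`-th Frobenius `F : S → T`: `T` is flat over `R`, its Koszul homology
is exact on modules killed by the Frobenius power of the maximal ideal, with all lengths scaled by
the same `s`, and its Euler characteristic is at most `s * q ^ dim` times the one of `S`. -/
def GoalFrobLift : Prop :=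
  ∀ (p : ℕ) [Fact p.Prime] (R S : Type u) [CommRing R] [IsLocalRing R] [IsNoetherianRing R]
    [CharP R p] [IsAdicComplete (maximalIdeal R) R] [CommRing S] [IsLocalRing S]
    [IsNoetherianRing S] [IsAdicComplete (maximalIdeal S) S] [Algebra R S]
    [IsLocalHom (algebraMap R S)] [Module.Flat R S],
    ndim R = ndim S → ∀ (d : ℕ), ndim R = d → ∀ (y : Fin d → S), Par y → ∀ e : ℕ,
    ∃ (T : Type u) (_ : CommRing T) (_ : IsLocalRing T) (_ : IsNoetherianRing T)
      (_ : Algebra R T) (_ : IsLocalHom (algebraMap R T)) (_ : Module.Flat R T) (F : S →+* T),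
      ndim T = d ∧ (∀ r, F (algebraMap R S r) = algebraMap R T (r ^ p ^ e)) ∧
      Par (fun l => F (y l)) ∧
      ∃ s : ℕ, 0 < s ∧
        (∀ i, khlen (fun l => F (y l)) (T ⊗[R] ResidueField R) i =
          (s : ℕ∞) * khlen y (S ⊗[R] ResidueField R) i) ∧
        HPHyp T (fun l => F (y l))
          (Ideal.span ((fun r : R => r ^ p ^ e) '' (maximalIdeal R : Set R)))
          (fun i => s * (khlen y (S ⊗[R] ResidueField R) i).toNat) ∧
        kchi (fun l => F (y l)) T ≤ (s : ℤ) * ((p ^ e : ℕ) : ℤ) ^ d * kchi y S

end Vale.Agent.P202
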