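import Vale.Agent.P202.G4Hom
import Vale.Agent.P202.G4Euler
import Vale.Agent.P202.G4Target
import Vale.Agent.P202.G4Rq
import Vale.Agent.P202.G5Euler
import Vale.Agent.P202.InterfacesG

/-!
G4: from the pullback `U` over `Rq` to `T = R ⊗[Rq] U`.
-/

universe u

namespace Vale.Agent.P202

open TensorProduct IsLocalRing

/-- Koszul homology of the Frobenius pullback of the closed fibre. -/
theorem khlen_pow_fibre (G : KoszulGoals.{u}) (p e : ℕ) {R S B : Type u} [CommRing R]
    [IsLocalRing R] [IsNoetherianRing R] [CommRing S] [IsLocalRing S] [IsNoetherianRing S]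
    [Algebra R S] [IsLocalHom (algebraMap R S)] [CommRing B] [IsLocalRing B] [ExpChar B p]
    [Fact p.Prime] [Module.Flat B (Fr B p e)] (s : ℕ)
    (hs : Module.length (Fr B p e) (Fr B p e ⊗[B] ResidueField B) = s)
    (εB : B →+* S) (hεB : Function.Surjective εB) {d : ℕ} (z : Fin d → B)
    (hy : Par fun l => εB (z l)) (i : ℕ) :
    khlen (fun l => z l ^ p ^ e)
        (B ⧸ (((maximalIdeal R).map (algebraMap R S)).comap εB).map (iterateFrobenius B p e)) i =
      ((s * (khlen (fun l => εB (z l)) (S ⊗[R] ResidueField R) i).toNat : ℕ) : ℕ∞) := by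
  set J := ((maximalIdeal R).map (algebraMap R S)).comap εB
  have hres : Function.Surjective ((residue S).comp εB) := fun r => by
    obtain ⟨t, rfl⟩ := residue_surjective r
    obtain ⟨b, rfl⟩ := hεB t
    exact ⟨b, rfl⟩
  let φ : B →+* S ⧸ (maximalIdeal R).map (algebraMap R S) := (Ideal.Quotient.mk _).comp εB
  have hφ : Function.Surjective φ := fun c => by
    obtain ⟨t, rfl⟩ := Ideal.Quotient.mk_surjective c
    obtain ⟨b, rfl⟩ := hεB t
    exact ⟨b, rfl⟩
  have hφk : RingHom.ker φ = J := Ideal.ext fun b => Ideal.Quotient.eq_zero_iff_mem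
  let e₁ : (B ⧸ J) ≃+* S ⧸ (maximalIdeal R).map (algebraMap R S) :=
    (Ideal.quotEquivOfEq hφk.symm).trans (RingHom.quotientKerEquivOfSurjective hφ)
  let E : (B ⧸ J) ≃+ S ⊗[R] ResidueField R := e₁.toAddEquiv.trans
    (Algebra.TensorProduct.quotIdealMapEquivTensorQuot S (maximalIdeal R)).toAddEquiv
  have hE : ∀ b v, E (b • v) = εB b • E v := by
    intro b v
    obtain ⟨v, rfl⟩ := Ideal.Quotient.mk_surjective v
    show (Algebra.TensorProduct.quotIdealMapEquivTensorQuot S (maximalIdeal R))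
        (e₁ (Ideal.Quotient.mk J (b * v))) = _
    rw [map_mul, map_mul]
    show (Algebra.TensorProduct.quotIdealMapEquivTensorQuot S (maximalIdeal R))
        (Ideal.Quotient.mk _ (εB b) * e₁ (Ideal.Quotient.mk J v)) = _
    rw [← Ideal.Quotient.algebraMap_eq, ← Algebra.smul_def, map_smul]
    rfl
  have h1 := khlen_semilinear εB hres E hE z i
  have hfin : khlen z (B ⧸ J) i ≠ ⊤ := by
    rw [← h1]
    exact G.kfin S (S ⊗[R] ResidueField R) d _ (hy.finiteLength _) i
  have h2 := khlen_flat_scale (B' := Fr B p e) s hs z i hfin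
  have h3 : khlen (fun l => z l ^ p ^ e) (B ⧸ J.map (iterateFrobenius B p e)) i =
      khlen (fun l => algebraMap B (Fr B p e) (z l)) (Fr B p e ⊗[B] (B ⧸ J)) i := by
    let E₂ : (B ⧸ J.map (iterateFrobenius B p e)) ≃+ Fr B p e ⊗[B] (B ⧸ J) :=
      (Algebra.TensorProduct.quotIdealMapEquivTensorQuot (Fr B p e) J).toAddEquiv
    refine (khlen_semilinear (Fr.equiv B p e).toRingHom (fun r => residue_surjective r) E₂
      (fun b v => ?_) (fun l => z l ^ p ^ e) i).symm
    obtain ⟨v, rfl⟩ := Ideal.Quotient.mk_surjective v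
    exact map_smul (Algebra.TensorProduct.quotIdealMapEquivTensorQuot (Fr B p e) J)
      (Fr.equiv B p e b) (Ideal.Quotient.mk _ (Fr.equiv B p e v))
  rw [h3, h2, ← h1, Nat.cast_mul, ENat.coe_toNat (h1 ▸ hfin)]

/-- A system of parameters stays one along a finite local map. -/
lemma par_of_finite {U T : Type u} [CommRing U] [IsLocalRing U] [IsNoetherianRing U] [CommRing T]
    [IsLocalRing T] (f : U →+* T) [IsLocalHom f] (hf : f.Finite) {d : ℕ} {y : Fin d → U}
    (hy : Par y) : Par fun l => f (y l) := by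
  refine ⟨fun l => map_maximalIdeal_le f (Ideal.mem_map_of_mem f (hy.mem l)), fun htop => ?_⟩
  haveI := Res.finite f (V := T) hf
  obtain ⟨n, g, hg⟩ := Module.Finite.exists_fin' U (Res f T)
  have h := ne_top_of_le_ne_top (WithTop.mul_ne_top (ENat.coe_ne_top n) hy.fin)
    (length_quot_smul_le hg (Ideal.span (Set.range y)))
  rw [length_res_quot f hf, Ideal.map_span, ← Set.range_comp, smul_eq_mul, Ideal.mul_top] at h
  rw [show Module.length T (T ⧸ Ideal.span (Set.range (f ∘ y))) = ⊤ from htop,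
    ENat.top_mul (by exact_mod_cast (resDeg_pos f hf).ne')] at h
  exact h rfl

attribute [local instance] Algebra.TensorProduct.rightAlgebra

/-- The closed fibre, the test hypotheses and the Euler characteristic of `T = R ⊗[Rq] U`. -/
theorem exists_lift_of_pullback (G : KoszulGoals.{u}) {R S B U Rq k : Type u} [CommRing R]
    [IsLocalRing R] [IsNoetherianRing R] [CommRing S] [IsLocalRing S] [IsNoetherianRing S]
    [Algebra R S] [IsLocalHom (algebraMap R S)] [CommRing B] [IsLocalRing B] [Field k]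
    [CommRing Rq] [IsLocalRing Rq] [IsNoetherianRing Rq] [Algebra R Rq]
    [IsLocalHom (algebraMap R Rq)] [Module.Flat R Rq]
    [CommRing U] [IsLocalRing U] [IsNoetherianRing U] [Algebra Rq U]
    [IsLocalHom (algebraMap Rq U)] [Module.Flat Rq U]
    (π : Rq →+* R) (hπ : π.Finite) (q : ℕ) (hq : 0 < q)
    (hιπ : ∀ t, algebraMap R Rq (π t) = t ^ q) (hπι : ∀ r, π (algebraMap R Rq r) = r ^ q)
    (hres : Function.Surjective ((residue R).comp π))
    {d : ℕ} (hd : ndim R = d)
    (hfib : Module.length Rq (Rq ⧸ (maximalIdeal R).map (algebraMap R Rq)) = (q ^ d : ℕ))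
    {x : Fin d → R} (hx : Par x) {X : Fin d → Rq} (hX : ∀ l, π (X l) = x l)
    (σ : k →+* R) (hσ : Function.Bijective ((residue R).comp σ)) (ψ : k →+* B) (γ : B →+* U)
    (hψ : ∀ c, ∃ t : Rq, π t = σ c ∧ γ (ψ c) = algebraMap Rq U t)
    (hγs : ∀ u : U, ∃ b, u - γ b ∈ (maximalIdeal Rq).map (algebraMap Rq U))
    (FS : S →+* U) (hFSr : ∀ r, FS (algebraMap R S r) = algebraMap Rq U (algebraMap R Rq r))
    (N : Ideal B) (hγker : ∀ b, γ b ∈ (maximalIdeal Rq).map (algebraMap Rq U) → b ∈ N)
    (hγN : N.map γ ≤ ((maximalIdeal R).map (algebraMap R S)).map FS)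
    {y : Fin d → S} (hy : Par fun l => FS (y l)) (z : Fin d → B)
    (hz : ∀ l, γ (z l) = FS (y l)) (β : ℕ → ℕ) (hβ : ∀ i, khlen z (B ⧸ N) i = β i) :
    ∃ (T : Type u) (_ : CommRing T) (_ : IsLocalRing T) (_ : IsNoetherianRing T)
      (_ : Algebra R T) (_ : IsLocalHom (algebraMap R T)) (_ : Module.Flat R T) (F : S →+* T),
      ndim T = d ∧ (∀ r, F (algebraMap R S r) = algebraMap R T (r ^ q)) ∧
      Par (fun l => F (y l)) ∧
      (∀ i, khlen (fun l => F (y l)) (T ⊗[R] ResidueField R) i = β i) ∧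
      HPHyp T (fun l => F (y l))
        (Ideal.span ((fun r : R => r ^ q) '' (maximalIdeal R : Set R))) β ∧
      kchi (fun l => F (y l)) T = kchi (fun l => FS (y l)) U := by
  letI : Algebra Rq R := π.toAlgebra
  haveI : Module.Finite Rq R := hπ
  haveI hπloc : IsLocalHom π := ⟨fun t ht => (isUnit_pow_iff hq.ne').1 (hιπ t ▸ ht.map _)⟩
  haveI : IsLocalHom (algebraMap Rq R) := hπloc
  haveI : IsLocalRing (R ⊗[Rq] U) := push_local (A := Rq) (R := R) (P := U) hres
  haveI : IsNoetherianRing (R ⊗[Rq] U) := push_noetherian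
  obtain ⟨hlocL, hlocR, hresR⟩ := push_localHom (A := Rq) (R := R) (P := U) hres
  haveI : IsLocalHom (algebraMap R (R ⊗[Rq] U)) := hlocL
  let jR : U →+* R ⊗[Rq] U := pushR
  haveI : IsLocalHom jR := hlocR
  let F : S →+* R ⊗[Rq] U := jR.comp FS
  let ω : B →+* R ⊗[Rq] U := jR.comp γ
  have hjA : ∀ t, jR (algebraMap Rq U t) = algebraMap R (R ⊗[Rq] U) (π t) := fun t =>
    (push_comm (A := Rq) (R := R) (P := U) t).symm
  have hF : ∀ r, F (algebraMap R S r) = algebraMap R (R ⊗[Rq] U) (r ^ q) := fun r => by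
    rw [RingHom.comp_apply, hFSr, hjA, hπι]
  have hpar : Par fun l => F (y l) := par_of_finite jR (push_finite (A := Rq)) hy
  set I := Ideal.span ((fun r : R => r ^ q) '' (maximalIdeal R : Set R))
  have hm : ((maximalIdeal Rq).map (algebraMap Rq U)).map jR ≤
      (maximalIdeal R).map (algebraMap R (R ⊗[Rq] U)) := by
    rw [Ideal.map_map, Ideal.map_le_iff_le_comap]
    intro t ht
    rw [Ideal.mem_comap, RingHom.comp_apply, hjA]
    exact Ideal.mem_map_of_mem _ (map_maximalIdeal_le π (Ideal.mem_map_of_mem π ht))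
  obtain ⟨hclosed, hHP⟩ := hpHyp_of_trivial (T := R ⊗[Rq] U) I
    (Ideal.span_le.2 (by rintro _ ⟨r, hr, rfl⟩; exact Ideal.pow_mem_of_mem _ hr q hq))
    (fun r hr => ⟨q, Ideal.subset_span ⟨r, hr, rfl⟩⟩) σ hσ ψ ω
    (fun c => by
      obtain ⟨t, ht, ht'⟩ := hψ c
      rw [RingHom.comp_apply, ht', hjA, ht])
    N (by
      rw [← Ideal.map_map]
      refine (Ideal.map_mono hγN).trans ?_
      rw [Ideal.map_map, Ideal.map_map, Ideal.map_le_iff_le_comap]
      intro r hr
      rw [Ideal.mem_comap]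
      show F (algebraMap R S r) ∈ _
      rw [hF]
      exact Ideal.mem_map_of_mem _ (Ideal.subset_span ⟨r, hr, rfl⟩))
    (fun t => by
      obtain ⟨u, hu⟩ := push_surj (A := Rq) (R := R) (P := U) hres t
      obtain ⟨b, hb⟩ := hγs u
      refine ⟨b, ?_⟩
      have := add_mem hu (hm (Ideal.mem_map_of_mem jR hb))
      rwa [map_sub, sub_add_sub_cancel] at this)
    (fun b hb => hγker b (push_ker hres hb))
    z β hβ
  have hfun : (fun l => ω (z l)) = fun l => F (y l) := funext fun l => by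
    rw [RingHom.comp_apply, hz]; rfl
  rw [hfun] at hclosed hHP
  have hdRq : ndim Rq = d := by
    have hXpar : Par X := by
      refine ⟨fun l => (mem_maximalIdeal _).2 fun hu => ?_, ?_⟩
      · exact (mem_maximalIdeal _).1 (hx.mem l) (hX l ▸ hu.map π)
      · have h1 : (Ideal.span (Set.range x)).map (algebraMap R Rq) ≤ Ideal.span (Set.range X) := by
          rw [Ideal.map_span, Ideal.span_le]
          rintro _ ⟨_, ⟨l, rfl⟩, rfl⟩
          rw [SetLike.mem_coe, ← hX l, hιπ]
          exact Ideal.pow_mem_of_mem _ (Ideal.subset_span (Set.mem_range_self l)) q hq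
        refine ne_top_of_le_ne_top ?_ (Module.length_le_of_surjective (Submodule.factor h1)
          (Submodule.factor_surjective _))
        rw [length_quot_map R Rq _ hx.fin, length_tensor_residue hfib]
        exact WithTop.mul_ne_top hx.fin (ENat.coe_ne_top _)
    exact ndim_eq_of_flat_par hd hXpar
  have hdU : ndim U = d := ndim_eq_of_flat_par hdRq hy
  have heul : kchi (fun l => F (y l)) (R ⊗[Rq] U) = kchi (fun l => FS (y l)) U := by
    rw [← mul_left_cancel₀ (pow_ne_zero d (by exact_mod_cast hq.ne' : (q : ℤ) ≠ 0))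
      (kchi_res_eq G π hπ hq hιπ hres hfib hx hX hy hdRq (hdRq.trans hdU.symm))]
    have hsurjU : Function.Surjective ((residue (R ⊗[Rq] U)).comp jR) := hresR
    let Ec : (U ⊗[Rq] Res π R) ≃+ R ⊗[Rq] U := (TensorProduct.comm Rq U R).toAddEquiv
    have hEc : ∀ (u : U) v, Ec (u • v) = jR u • Ec v := by
      intro u v
      induction v with
      | zero => simp
      | add a b ha hb => simp only [smul_add, map_add, ha, hb]
      | tmul a r =>
        rw [smul_tmul', smul_eq_mul (jR u)]
        show (@id R r) ⊗ₜ[Rq] (u * a) = ((1 : R) ⊗ₜ[Rq] u) * ((@id R r) ⊗ₜ[Rq] a)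
        rw [Algebra.TensorProduct.tmul_mul_tmul, one_mul]
    simp only [kchi]
    refine Finset.sum_congr rfl fun i _ => ?_
    rw [← khlen_semilinear jR hsurjU Ec hEc (fun l => FS (y l)) i]
    rfl
  exact ⟨R ⊗[Rq] U, inferInstance, inferInstance, inferInstance, inferInstance, inferInstance,
    inferInstance, F, ndim_eq_of_flat_par hd hpar, hF, hpar, hclosed, hHP, heul⟩

end Vale.Agent.P202
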