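import Vale.Agent.P202.InterfacesG4
import Vale.Agent.P202.G1FieldSmooth
import Vale.Agent.P202.G2Series
import Vale.Agent.P202.E2Series

/-! G4: existence of the presentation of a local map of complete rings of characteristic `p`. -/

universe u

namespace Vale.Agent.P202

open IsLocalRing MvPowerSeries

section Eval

variable {τ : Type} [Finite τ] {K S : Type u} [Field K] [CommRing S] [IsLocalRing S]

omit [Finite τ] in
/-- A map out of power series sends the maximal ideal into the maximal ideal if it does so on
the variables. -/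
lemma map_X_le_maximal (f : MvPowerSeries τ K →+* S) (hf : ∀ i, f (X i) ∈ maximalIdeal S)
    (n : ℕ) : (Ideal.span (Set.range (X : τ → MvPowerSeries τ K)) ^ n).map f ≤
      maximalIdeal S ^ n := by
  rw [Ideal.map_pow]
  refine Ideal.pow_right_mono ?_ n
  rw [Ideal.map_span, Ideal.span_le]
  rintro _ ⟨_, ⟨i, rfl⟩, rfl⟩
  exact hf i

/-- Maps out of power series are determined by constants and variables. -/
lemma powerSeries_hom_ext [IsNoetherianRing S] {f g : MvPowerSeries τ K →+* S}
    (hC : ∀ c, f (C c) = g (C c)) (hX : ∀ i, f (X i) = g (X i))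
    (hm : ∀ i, f (X i) ∈ maximalIdeal S) : f = g := by
  refine RingHom.ext fun p => sub_eq_zero.1 ?_
  have hmem : f p - g p ∈ ⨅ n : ℕ, maximalIdeal S ^ n := by
    rw [Submodule.mem_iInf]
    intro n
    have hp : p - ((truncTotal n p : MvPolynomial τ K) : MvPowerSeries τ K) ∈
        Ideal.span (Set.range (X : τ → MvPowerSeries τ K)) ^ n := by
      rw [mem_span_X_pow_iff]
      intro e he
      rw [map_sub, MvPolynomial.coeff_coe, coeff_truncTotal _ he, sub_self]
    have h1 := map_X_le_maximal f hm n (Ideal.mem_map_of_mem f hp)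
    have h2 := map_X_le_maximal g (fun i => hX i ▸ hm i) n (Ideal.mem_map_of_mem g hp)
    have hq : ∀ q : MvPolynomial τ K, f (q : MvPowerSeries τ K) = g q := by
      intro q
      induction q using MvPolynomial.induction_on with
      | C c => rw [MvPolynomial.coe_C, hC]
      | add a b ha hb => rw [MvPolynomial.coe_add, map_add, map_add, ha, hb]
      | mul_X a i ha => rw [MvPolynomial.coe_mul, MvPolynomial.coe_X, map_mul, map_mul, ha, hX]
    rw [map_sub] at h1 h2
    rw [hq] at h1
    have := sub_mem h1 h2
    rwa [sub_sub_sub_cancel_right] at this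
  rwa [Ideal.iInf_pow_eq_bot_of_isLocalRing _ (maximalIdeal.isMaximal S).ne_top,
    Ideal.mem_bot] at hmem

/-- Evaluation of power series along a map of the coefficient field. -/
lemma exists_evalHom [IsAdicComplete (maximalIdeal S) S] (σ : K →+* S) (x : τ → S)
    (hx : ∀ i, x i ∈ maximalIdeal S) :
    ∃ f : MvPowerSeries τ K →+* S, (∀ c, f (C c) = σ c) ∧ ∀ i, f (X i) = x i := by
  let g : MvPolynomial τ K →+* S := MvPolynomial.eval₂Hom σ x
  have hg : (MvPolynomial.idealOfVars τ K).map g ≤ maximalIdeal S := by
    rw [MvPolynomial.idealOfVars, Ideal.map_span, Ideal.span_le]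
    rintro _ ⟨_, ⟨i, rfl⟩, rfl⟩
    simpa [g] using hx i
  let f : MvPowerSeries τ K →+* S :=
    (AdicCompletion.ofAlgEquiv (maximalIdeal S)).symm.toRingHom.comp
      ((completionMap _ (maximalIdeal S) g hg).comp (toAdicCompletionAlgEquiv τ K).toRingHom)
  have key : ∀ q : MvPolynomial τ K,
      f (algebraMap (MvPolynomial τ K) (MvPowerSeries τ K) q) = g q := by
    intro q
    show (AdicCompletion.ofAlgEquiv (maximalIdeal S)).symm
      (completionMap _ (maximalIdeal S) g hg (toAdicCompletionAlgEquiv τ K (algebraMap _ _ q))) = g q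
    rw [AlgEquiv.commutes, completionMap_algebraMap, AlgEquiv.commutes]
    rfl
  refine ⟨f, fun c => ?_, fun i => ?_⟩
  · have := key (MvPolynomial.C c)
    rw [MvPowerSeries.algebraMap_apply', show g (MvPolynomial.C c) = σ c from
      MvPolynomial.eval₂Hom_C _ _ _] at this
    simpa using this
  · have := key (MvPolynomial.X i)
    rw [MvPowerSeries.algebraMap_apply', show g (MvPolynomial.X i) = x i from
      MvPolynomial.eval₂Hom_X' _ _ _] at this
    simpa using this

/-- The power series ring is complete for its maximal ideal. -/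
lemma isAdicComplete_maximal_powerSeries :
    IsAdicComplete (maximalIdeal (MvPowerSeries τ K)) (MvPowerSeries τ K) := by
  rw [maximalIdeal_powerSeries]
  infer_instance

lemma X_mem_maximal_powerSeries (i : τ) :
    (X i : MvPowerSeries τ K) ∈ maximalIdeal (MvPowerSeries τ K) := by
  rw [maximalIdeal_powerSeries]
  exact Ideal.subset_span ⟨i, rfl⟩

end Eval

/-- The presentation exists. -/
theorem exists_pres (p : ℕ) [Fact p.Prime] (R S : Type u) [CommRing R] [IsLocalRing R]
    [IsNoetherianRing R] [CharP R p] [IsAdicComplete (maximalIdeal R) R] [CommRing S]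
    [IsLocalRing S] [IsNoetherianRing S] [IsAdicComplete (maximalIdeal S) S] [Algebra R S]
    [IsLocalHom (algebraMap R S)] {d : ℕ} (hd : ndim R = d) :
    ∃ N : ℕ, Nonempty (Pres R S (ResidueField R) (ResidueField S) d N) := by
  classical
  have hp0 : (p : S) = 0 := by
    rw [← map_natCast (algebraMap R S), CharP.cast_eq_zero, map_zero]
  have hS : CharP S p := (CharP.charP_iff_prime_eq_zero Fact.out).2 hp0
  -- parameters
  obtain ⟨ys, hlen, hys, c, hc⟩ := exists_parameters (A := R)
  let x : Fin d → R := fun i => ys.getD i 0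
  have hxm : ∀ i, x i ∈ maximalIdeal R := by
    intro i
    rcases lt_or_ge (i : ℕ) ys.length with h | h
    · simp only [x, List.getD_eq_getElem _ _ h]
      exact hys _ (List.getElem_mem h)
    · simp only [x, List.getD_eq_default _ _ h]
      exact zero_mem _
  have hcx : maximalIdeal R ^ c ≤ Ideal.span (Set.range x) := by
    refine hc.trans (Ideal.span_mono fun a ha => ?_)
    obtain ⟨i, hi, rfl⟩ := List.getElem_of_mem ha
    exact ⟨⟨i, lt_of_lt_of_le hi (hd ▸ hlen)⟩, List.getD_eq_getElem _ _ hi⟩
  have hpar : Par x := by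
    refine ⟨hxm, ?_⟩
    exact ne_top_of_le_ne_top (length_quot_maximalIdeal_pow_ne_top c)
      (Module.length_le_of_surjective (Submodule.factor hcx) (Submodule.factor_surjective hcx))
  -- coefficient fields and evaluation downstairs
  obtain ⟨σ, hσ⟩ := exists_coefficientField_charP (S := R) p
  have hσbij : Function.Bijective ((residue R).comp σ) :=
    ⟨RingHom.injective _, fun r => ⟨r, hσ r⟩⟩
  obtain ⟨ev, hevC, hevX⟩ := exists_evalHom σ x hxm
  have hevfin : ev.Finite := by
    let _ : Algebra (ResidueField R) R := σ.toAlgebra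
    refine finite_evalSeries (K := ResidueField R) (fun t => ⟨residue R t, ?_⟩) x ev hevC hevX hxm hcx
    rw [← residue_eq_zero_iff, map_sub, RingHom.algebraMap_toAlgebra, hσ, sub_self]
  obtain ⟨sK, hsK⟩ := exists_coefficientField_charP (S := S) p
  -- the presentation upstairs
  obtain ⟨N, z, hz⟩ := Submodule.fg_iff_exists_fin_generating_family.1
    (maximalIdeal S).fg_of_isNoetherianRing
  have hzm : ∀ j, z j ∈ maximalIdeal S := fun j => hz ▸ Submodule.subset_span ⟨j, rfl⟩
  set B := MvPowerSeries (Fin N) (ResidueField S)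
  set T := MvPowerSeries (Fin d ⊕ Fin N) (ResidueField S)
  obtain ⟨eB, heBC, heBX⟩ := exists_evalHom sK z hzm
  have hBc : IsAdicComplete (maximalIdeal B) B := isAdicComplete_maximal_powerSeries
  have hTc : IsAdicComplete (maximalIdeal T) T := isAdicComplete_maximal_powerSeries
  have heB : Function.Surjective eB := by
    have hI : (Ideal.span (Set.range (X : Fin N → B))).map eB = maximalIdeal S := by
      rw [Ideal.map_span, ← Set.range_comp, show (⇑eB ∘ (X : Fin N → B)) = z from funext heBX]
      exact hz
    have : IsHausdorff ((Ideal.span (Set.range (X : Fin N → B))).map eB) S := by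
      rw [hI]; infer_instance
    refine surjective_of_mk_map_comp_surjective (I := Ideal.span (Set.range (X : Fin N → B))) eB
      fun y => ?_
    obtain ⟨y, rfl⟩ := Ideal.Quotient.mk_surjective y
    refine ⟨C (residue S y), ?_⟩
    rw [RingHom.comp_apply, Ideal.Quotient.eq, hI, heBC, ← residue_eq_zero_iff, map_sub, hsK,
      sub_self]
  have hBchar : CharP B p := (CharP.charP_iff_prime_eq_zero Fact.out).2 (by
    rw [← map_natCast ((C : ResidueField S →+* B).comp (residue S)), hp0, map_zero])
  have hker : RingHom.ker eB ≠ ⊤ := RingHom.ker_ne_top eB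
  obtain ⟨ψ, hψ⟩ := exists_lift_ringHom (S := B) p hker
    (((RingHom.quotientKerEquivOfSurjective heB).symm.toRingHom.comp (algebraMap R S)).comp σ)
  have hψ' : ∀ a, eB (ψ a) = algebraMap R S (σ a) := by
    intro a
    have h1 : Ideal.Quotient.mk (RingHom.ker eB) (ψ a) =
        (RingHom.quotientKerEquivOfSurjective heB).symm (algebraMap R S (σ a)) :=
      RingHom.congr_fun hψ a
    have h2 := congrArg (RingHom.quotientKerEquivOfSurjective heB) h1
    rw [RingEquiv.apply_symm_apply] at h2
    exact h2
  -- the maps on `T`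
  let emb : Fin N ↪ Fin d ⊕ Fin N := Function.Embedding.inr
  let incl : B →+* T := (rename (R := ResidueField S) emb).toRingHom
  let β₀ : T →+* B := (killCompl (R := ResidueField S) emb).toRingHom
  have hinclX : ∀ j, incl (X j) = X (Sum.inr j) := fun j => rename_X _ j
  have hinclC : ∀ a, incl (C a) = C a := fun a => rename_C _ a
  have hβ₀incl : ∀ b, β₀ (incl b) = b := fun b => killCompl_rename_app b
  have hkerβ : RingHom.ker β₀ =
      Ideal.span (Set.range fun i : Fin d => (X (Sum.inl i) : T)) := by
    refine le_antisymm (fun f hf => ?_) (Ideal.span_le.2 ?_)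
    · have hset : (Set.range fun i : Fin d => (X (Sum.inl i) : T)) =
          (fun v => (X v : T) ^ 1) '' ((Finset.univ.image Sum.inl : Finset (Fin d ⊕ Fin N)) :
            Set (Fin d ⊕ Fin N)) := by
        ext g; simp
      rw [hset, mem_span_X_pow_box]
      intro e he
      have he' : ∀ i, e (Sum.inl i) = 0 := fun i => by
        have := he (Sum.inl i) (Finset.mem_image_of_mem _ (Finset.mem_univ i))
        omega
      have : e = Finsupp.embDomain emb (e.comapDomain emb emb.injective.injOn) := by
        ext v
        rcases v with i | j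
        · rw [Finsupp.embDomain_of_notMem_range _ _ _ (by simp [emb]), he']
        · rw [show (Sum.inr j : Fin d ⊕ Fin N) = emb j from rfl, Finsupp.embDomain_apply_self]
          rfl
      rw [this, ← coeff_killCompl]
      rw [show killCompl emb f = 0 from hf, map_zero]
    · rintro _ ⟨i, rfl⟩
      exact killCompl_X_eq_zero (by simp [emb])
  obtain ⟨ε, hεC, hεX⟩ := exists_evalHom sK (Sum.elim (fun i => algebraMap R S (x i)) z)
    (fun v => by
      rcases v with i | j
      · exact map_nonunit (algebraMap R S) _ (hxm i)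
      · exact hzm j)
  obtain ⟨χ, hχC, hχX⟩ := exists_evalHom (incl.comp ψ) (fun i : Fin d => (X (Sum.inl i) : T))
    (fun i => X_mem_maximal_powerSeries _)
  have hεincl : ε.comp incl = eB := by
    refine powerSeries_hom_ext (fun a => ?_) (fun j => ?_) (fun j => ?_)
    · rw [RingHom.comp_apply, hinclC, hεC, heBC]
    · rw [RingHom.comp_apply, hinclX, hεX, heBX, Sum.elim_inr]
    · rw [RingHom.comp_apply, hinclX, hεX, Sum.elim_inr]
      exact hzm j
  have hεχ : ε.comp χ = (algebraMap R S).comp ev := by
    refine powerSeries_hom_ext (fun a => ?_) (fun i => ?_) (fun i => ?_)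
    · rw [RingHom.comp_apply, hχC, RingHom.comp_apply, ← RingHom.comp_apply ε, hεincl, hψ',
        RingHom.comp_apply, hevC]
    · rw [RingHom.comp_apply, hχX, hεX, Sum.elim_inl, RingHom.comp_apply, hevX]
    · rw [RingHom.comp_apply, hχX, hεX, Sum.elim_inl]
      exact map_nonunit (algebraMap R S) _ (hxm i)
  exact ⟨N, ⟨{
    x := x, par := hpar, σ := σ, σ_bij := hσbij, ev := ev, ev_C := hevC, ev_X := hevX,
    ev_finite := hevfin, ψ := ψ, χ := χ, incl := incl, β₀ := β₀, ε := ε,
    χ_C := fun a => hχC a, χ_X := hχX, β₀_incl := hβ₀incl, ker_β₀ := hkerβ,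
    ε_χ := fun a => RingHom.congr_fun hεχ a,
    ε_incl_surj := hεincl.symm ▸ heB }⟩⟩

end Vale.Agent.P202
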