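import Vale.Agent.P202.G4Core
import Vale.Agent.P202.G4Pres
import Vale.Agent.P202.G2Series
import Vale.Agent.P202.Final

/-! G4: `GoalFrobLift`. -/

universe u

namespace Vale.Agent.P202

open TensorProduct IsLocalRing

attribute [local instance] Algebra.TensorProduct.rightAlgebra

/-- The Frobenius lift from a presentation with flat Frobenius maps. -/
theorem frobLift_core (G : KoszulGoals.{u}) (p e : ℕ) [Fact p.Prime] {R S A P B k : Type u}
    [CommRing R] [IsLocalRing R] [IsNoetherianRing R] [CharP R p] [CommRing S] [IsLocalRing S]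
    [IsNoetherianRing S] [Algebra R S] [IsLocalHom (algebraMap R S)] [Module.Flat R S]
    [CommRing A] [IsLocalRing A] [IsNoetherianRing A] [ExpChar A p] [Algebra A R]
    [IsLocalHom (algebraMap A R)] [Module.Finite A R]
    [CommRing P] [IsLocalRing P] [IsNoetherianRing P] [ExpChar P p] [Algebra A P]
    [IsLocalHom (algebraMap A P)] [Module.Flat A P]
    [CommRing B] [IsLocalRing B] [ExpChar B p] [Field k]
    [Module.Flat A (Fr A p e)] [Module.Flat B (Fr B p e)] [Module.Flat P (Fr P p e)]
    {d : ℕ} (hd : ndim R = d) (s : ℕ) (hs0 : 0 < s)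
    (hA : Module.length (Fr A p e) (Fr A p e ⊗[A] ResidueField A) = ((p ^ e) ^ d : ℕ))
    (hB : Module.length (Fr B p e) (Fr B p e ⊗[B] ResidueField B) = s)
    (hP : Module.length (Fr P p e) (Fr P p e ⊗[P] ResidueField P) = (s * (p ^ e) ^ d : ℕ))
    (X : Fin d → A) (hX : Par fun l => algebraMap A R (X l))
    (cA : k →+* A) (hσ : Function.Bijective ((residue R).comp ((algebraMap A R).comp cA)))
    (ψ : k →+* B) (incl : B →+* P) (hcA : ∀ c, algebraMap A P (cA c) = incl (ψ c))
    (β₀ : P →+* B) (hβincl : ∀ b, β₀ (incl b) = b)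
    (hkA : RingHom.ker β₀ = (maximalIdeal A).map (algebraMap A P))
    (ε : P →+* S) (hεincl : Function.Surjective (ε.comp incl))
    (hεA : ∀ a, ε (algebraMap A P a) = algebraMap R S (algebraMap A R a))
    (y : Fin d → S) (hy : Par y) :
    ∃ (T : Type u) (_ : CommRing T) (_ : IsLocalRing T) (_ : IsNoetherianRing T)
      (_ : Algebra R T) (_ : IsLocalHom (algebraMap R T)) (_ : Module.Flat R T) (F : S →+* T),
      ndim T = d ∧ (∀ r, F (algebraMap R S r) = algebraMap R T (r ^ p ^ e)) ∧
      Par (fun l => F (y l)) ∧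
      ∃ s : ℕ, 0 < s ∧
        (∀ i, khlen (fun l => F (y l)) (T ⊗[R] ResidueField R) i =
          (s : ℕ∞) * khlen y (S ⊗[R] ResidueField R) i) ∧
        HPHyp T (fun l => F (y l))
          (Ideal.span ((fun r : R => r ^ p ^ e) '' (maximalIdeal R : Set R)))
          (fun i => s * (khlen y (S ⊗[R] ResidueField R) i).toNat) ∧
        kchi (fun l => F (y l)) T ≤ (s : ℤ) * ((p ^ e : ℕ) : ℤ) ^ d * kchi y S := by
  have hresR : Function.Surjective ((residue R).comp (algebraMap A R)) := fun r => by
    obtain ⟨c, hc⟩ := hσ.2 r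
    exact ⟨cA c, hc⟩
  have hεs : Function.Surjective ε := fun t => by
    obtain ⟨b, hb⟩ := hεincl t
    exact ⟨incl b, hb⟩
  have hβ₀ : Function.Surjective β₀ := fun b => ⟨incl b, hβincl b⟩
  -- the ring `Rq`
  haveI : IsLocalRing (RqRing R A p e) := push_local hresR
  haveI : IsNoetherianRing (RqRing R A p e) := push_noetherian
  obtain ⟨hlocL, hlocR, hresQ⟩ := push_localHom (A := A) (R := R) (P := Fr A p e) hresR
  haveI : IsLocalHom (algebraMap R (RqRing R A p e)) := hlocL
  haveI : Module.Finite (Fr A p e) (RqRing R A p e) := push_finite (A := A) (R := R)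
  haveI : IsLocalHom (algebraMap (Fr A p e) (RqRing R A p e)) := hlocR
  -- `P` over `Fr A`
  letI : Algebra (Fr A p e) P :=
    ((algebraMap A P).comp (Fr.equiv A p e).symm.toRingHom).toAlgebra
  haveI : IsLocalHom (algebraMap (Fr A p e) P) :=
    ⟨fun a ha => (isUnit_map_iff (Fr.equiv A p e).symm a).1 ((isUnit_map_iff (algebraMap A P) _).1 ha)⟩
  haveI : Module.Flat (Fr A p e) P := by
    rw [← RingHom.flat_algebraMap_iff]
    exact RingHom.Flat.comp (RingHom.Flat.of_bijective (Fr.equiv A p e).symm.bijective)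
      (RingHom.flat_algebraMap_iff.2 inferInstance)
  have hkA' : RingHom.ker β₀ =
      (maximalIdeal (Fr A p e)).map (algebraMap (Fr A p e) P) := by
    rw [hkA, ← IsLocalRing.map_maximalIdeal_of_surjective (Fr.equiv A p e).toRingHom
        (Fr.equiv A p e).surjective,
      Ideal.map_map]
    rfl
  let ι : R →+* RqRing R A p e := pushL
  haveI : IsLocalHom ι := hlocL
  obtain ⟨U, _, _, _, _, _, _, g, FS, hg, hFS, hFSr, hgA, hgker⟩ :=
    exists_pullback (A' := Fr A p e) hresR hresQ ι
      (fun t => by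
        induction t with
        | zero => exact ⟨0, Fin.elim0, Fin.elim0, by simp⟩
        | tmul r a => exact ⟨1, fun _ => r, fun _ => a,
          by simp [ι, Algebra.TensorProduct.right_algebraMap_apply]⟩
        | add u v hu hv =>
          obtain ⟨n, r, a, rfl⟩ := hu
          obtain ⟨m, r', a', rfl⟩ := hv
          refine ⟨n + m, Fin.append r r', Fin.append a a', ?_⟩
          rw [Fin.sum_univ_add]
          simp only [Fin.append_left, Fin.append_right])
      p e (fun a => ⟨Fr.equiv A p e (a ^ p ^ e), by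
        show (pushL : R →+* RqRing R A p e) (algebraMap A R a) = _
        rw [push_comm, Fr.algebraMap_apply, ← map_pow]
        rfl, by rw [← map_pow]; rfl⟩)
      β₀ hβ₀ hkA hkA' ε hεs (fun a => (hεA a).symm)
  obtain ⟨hyU, hchi⟩ := par_and_kchi_le_of_frob G p e _ hP ε hεs g hg FS hFS hy
  -- the closed fibre
  set q := p ^ e
  have hq : 0 < q := pow_pos (Fact.out : p.Prime).pos e
  let εB : B →+* S := ε.comp incl
  choose z₀ hz₀ using fun l => hεincl (y l)
  have hz₀' : (fun l => εB (z₀ l)) = y := funext hz₀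
  set β : ℕ → ℕ := fun i => s * (khlen y (S ⊗[R] ResidueField R) i).toNat with hβdef
  set J₀ := (((maximalIdeal R).map (algebraMap R S)).comap εB).map (iterateFrobenius B p e)
  have hβ : ∀ i, khlen (fun l => z₀ l ^ q) (B ⧸ J₀) i = β i := fun i => by
    have hpar : Par fun l => εB (z₀ l) := hz₀'.symm ▸ hy
    have h := khlen_pow_fibre (R := R) G p e s hB εB hεincl z₀ hpar i
    rw [hz₀'] at h
    exact h
  have hkill : ∀ h ∈ RingHom.ker β₀,
      g h ∈ (maximalIdeal (RqRing R A p e)).map (algebraMap (RqRing R A p e) U) := by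
    intro h hh
    rw [hkA'] at hh
    have h1 := Ideal.mem_map_of_mem g hh
    rw [Ideal.map_map] at h1
    have hc : g.comp (algebraMap (Fr A p e) P) = (algebraMap (RqRing R A p e) U).comp
        (algebraMap (Fr A p e) (RqRing R A p e)) := RingHom.ext hgA
    rw [hc, ← Ideal.map_map] at h1
    exact Ideal.map_mono (map_maximalIdeal_le _) h1
  have hmap : ((((maximalIdeal R).map (algebraMap R S)).comap ε).map β₀).map
      (iterateFrobenius B p e) ≤ J₀ := by
    refine Ideal.map_mono ?_
    rw [Ideal.map_le_iff_le_comap]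
    intro h hh
    rw [Ideal.mem_comap] at hh
    rw [Ideal.mem_comap, Ideal.mem_comap]
    have hd' : h - incl (β₀ h) ∈ RingHom.ker β₀ := by
      rw [RingHom.mem_ker, map_sub, hβincl, sub_self]
    rw [hkA] at hd'
    have h1 := Ideal.mem_map_of_mem ε hd'
    rw [Ideal.map_map] at h1
    have hc : ε.comp (algebraMap A P) = (algebraMap R S).comp (algebraMap A R) :=
      RingHom.ext hεA
    rw [hc, ← Ideal.map_map] at h1
    have h2 := Ideal.map_mono (map_maximalIdeal_le (algebraMap A R)) h1
    rw [map_sub] at h2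
    have h3 := sub_mem hh h2
    rwa [sub_sub_cancel] at h3
  obtain ⟨T, _, _, _, _, _, _, F, hdT, hF, hparT, hclosed, hHP, heul⟩ :=
    exists_lift_of_pullback G (piRq R A p e) (finite_piRq R A p e) q hq
      (fun t => left_piRq R A p e t) (fun r => piRq_left R A p e r)
      (surjective_residue_piRq R A p e hresR) hd (length_fibre_Rq R A p e hresR _ hA) hX
      (X := fun l => (pushR : Fr A p e →+* RqRing R A p e) (Fr.equiv A p e (X l)))
      (fun l => piRq_right R A p e (X l))
      ((algebraMap A R).comp cA) hσ ψ (g.comp incl)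
      (fun c => ⟨(pushR : Fr A p e →+* RqRing R A p e) (Fr.equiv A p e (cA c)),
        piRq_right R A p e (cA c), by
          rw [RingHom.comp_apply, ← hcA]
          exact hgA (Fr.equiv A p e (cA c))⟩)
      (fun u => by
        obtain ⟨h, rfl⟩ := hg u
        refine ⟨β₀ h, ?_⟩
        rw [RingHom.comp_apply, ← map_sub]
        refine hkill _ ?_
        rw [RingHom.mem_ker, map_sub, hβincl, sub_self])
      FS hFSr J₀
      (fun b hb => by
        have := hmap (hgker (incl b) hb)
        rwa [hβincl] at this)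
      (by
        rw [Ideal.map_map, Ideal.map_le_iff_le_comap]
        intro b hb
        rw [Ideal.mem_comap]
        show g (incl (b ^ q)) ∈ _
        rw [map_pow, map_pow, hFS]
        exact Ideal.mem_map_of_mem FS hb)
      hyU (fun l => z₀ l ^ q)
      (fun l => by rw [RingHom.comp_apply, map_pow, map_pow, hFS]; exact congrArg FS (hz₀ l))
      β hβ
  refine ⟨T, _, ‹_›, ‹_›, _, ‹_›, ‹_›, F, hdT, hF, hparT, s, hs0, fun i => ?_, hHP, ?_⟩
  · rw [hclosed i, hβdef]
    push_cast
    rw [ENat.natCast_toNat (G.kfin S (S ⊗[R] ResidueField R) d y (hy.finiteLength _) i)]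
  · rw [heul]
    refine hchi.trans (le_of_eq ?_)
    push_cast
    ring

open MvPowerSeries in
/-- `GoalFrobLift` holds. -/
theorem goalFrobLift : GoalFrobLift.{u} := by
  intro p _ R S _ _ _ _ _ _ _ _ _ _ _ _ hdim d hd y hy e
  obtain ⟨N, ⟨Pr⟩⟩ := exists_pres p R S hd
  haveI : CharP S p := (CharP.charP_iff_prime_eq_zero Fact.out).2
    (by rw [← map_natCast (algebraMap R S), CharP.cast_eq_zero, map_zero])
  haveI : CharP (ResidueField R) p := (CharP.charP_iff_prime_eq_zero Fact.out).2
    (by rw [← map_natCast (residue R), CharP.cast_eq_zero, map_zero])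
  haveI : CharP (ResidueField S) p := (CharP.charP_iff_prime_eq_zero Fact.out).2
    (by rw [← map_natCast (residue S), CharP.cast_eq_zero, map_zero])
  let k := ResidueField R
  let K := ResidueField S
  let A := MvPowerSeries (Fin d) k
  let P := MvPowerSeries (Fin d ⊕ Fin N) K
  let B := MvPowerSeries (Fin N) K
  haveI : CharP A p := charP_of_injective_ringHom
    (f := (MvPowerSeries.C : k →+* A)) (fun a b h => by simpa using congrArg constantCoeff h) p
  haveI : CharP P p := charP_of_injective_ringHom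
    (f := (MvPowerSeries.C : K →+* P)) (fun a b h => by simpa using congrArg constantCoeff h) p
  haveI : CharP B p := charP_of_injective_ringHom
    (f := (MvPowerSeries.C : K →+* B)) (fun a b h => by simpa using congrArg constantCoeff h) p
  haveI : ExpChar A p := ExpChar.prime Fact.out
  haveI : ExpChar P p := ExpChar.prime Fact.out
  haveI : ExpChar B p := ExpChar.prime Fact.out
  letI : Algebra A R := Pr.ev.toAlgebra
  letI : Algebra A P := Pr.χ.toAlgebra
  haveI : Module.Finite A R := Pr.ev_finite
  haveI : IsLocalHom (algebraMap A R) := by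
    refine ((local_hom_TFAE Pr.ev).out 2 0).1 ?_
    rw [maximalIdeal_powerSeries, Ideal.map_span, Ideal.span_le]
    rintro _ ⟨_, ⟨i, rfl⟩, rfl⟩
    rw [Pr.ev_X]
    exact Pr.par.mem i
  haveI : IsLocalHom (algebraMap A P) := by
    refine ((local_hom_TFAE Pr.χ).out 2 0).1 ?_
    rw [maximalIdeal_powerSeries, Ideal.map_span, Ideal.span_le]
    rintro _ ⟨_, ⟨i, rfl⟩, rfl⟩
    rw [Pr.χ_X]
    exact maximalIdeal_powerSeries.ge (Ideal.subset_span ⟨_, rfl⟩)
  haveI : Module.Flat A P :=
    flat_of_X_pow Pr.χ Sum.inl Sum.inl_injective one_pos fun i => by rw [Pr.χ_X, pow_one]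
  haveI : Module.Flat A (Fr A p e) := flat_fr_powerSeries p e k
  haveI : Module.Flat B (Fr B p e) := flat_fr_powerSeries p e K
  haveI : Module.Flat P (Fr P p e) := flat_fr_powerSeries p e K
  have hX : (fun l => algebraMap A R (MvPowerSeries.X l)) = Pr.x := funext Pr.ev_X
  exact frobLift_core (A := A) (P := P) (B := B) koszulGoals p e hd ((p ^ e) ^ N)
    (pow_pos (pow_pos (Fact.out : p.Prime).pos e) N)
    (by rw [length_fr_powerSeries p e (σ := Fin d) k, Nat.card_fin])
    (by rw [length_fr_powerSeries p e (σ := Fin N) K, Nat.card_fin])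
    (by
      rw [length_fr_powerSeries p e (σ := Fin d ⊕ Fin N) K, Nat.card_sum, Nat.card_fin,
        Nat.card_fin, pow_add, mul_comm])
    (fun l => MvPowerSeries.X l) (hX.symm ▸ Pr.par) MvPowerSeries.C
    (by
      rw [show (algebraMap A R).comp (MvPowerSeries.C : k →+* A) = Pr.σ from RingHom.ext Pr.ev_C]
      exact Pr.σ_bij)
    Pr.ψ Pr.incl Pr.χ_C Pr.β₀ Pr.β₀_incl
    (by
      rw [Pr.ker_β₀, maximalIdeal_powerSeries, Ideal.map_span, ← Set.range_comp]
      exact congrArg Ideal.span (congrArg Set.range (funext fun i => (Pr.χ_X i).symm)))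
    Pr.ε Pr.ε_incl_surj Pr.ε_χ y hy

end Vale.Agent.P202
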