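import Vale.Agent.P202.Transfer
import Vale.Agent.P202.Fr
import Vale.Agent.P202.E2Series

/-!
Module G4, homological part: Koszul homology lengths along semilinear bijections and flat maps,
and `HPHyp` for a family trivial over the closed point.
-/

universe u

namespace Vale.Agent.P202

open TensorProduct IsLocalRing

/-! ### Semilinear bijections -/

section Semilinear

variable {B T : Type u} [CommRing B] [IsLocalRing B] [CommRing T] [IsLocalRing T]

lemma sq_restrictScalars_of_residue [Algebra B T] [IsLocalHom (algebraMap B T)]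
    (hres : ∀ t : T, ∃ b : B, t - algebraMap B T b ∈ maximalIdeal T) {A : Type u} [AddCommGroup A]
    [Module B A] [Module T A] [IsScalarTower B T A] (N L : Submodule T A) :
    sq B (N.restrictScalars B) (L.restrictScalars B) = sq T N L := by
  rw [sq, sq, ← length_eq_of_residue hres (↥N ⧸ L.comap N.subtype)]
  exact (Submodule.Quotient.restrictScalarsEquiv B (L.comap N.subtype)).length_eq

lemma isLocalHom_of_surjective_residue (ω : B →+* T)
    (hres : Function.Surjective ((residue T).comp ω)) : IsLocalHom ω := by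
  refine ⟨fun b hb => ?_⟩
  by_contra hnb
  have hmax : RingHom.ker ((residue T).comp ω) = maximalIdeal B :=
    IsLocalRing.eq_maximalIdeal (RingHom.ker_isMaximal_of_surjective _ hres)
  have hmem : b ∈ RingHom.ker ((residue T).comp ω) := hmax ▸ (mem_maximalIdeal b).2 hnb
  exact (mem_maximalIdeal (ω b)).1 ((residue_eq_zero_iff _).1 hmem) hb

end Semilinear

/-- Koszul homology lengths do not change along a semilinear bijection. -/
lemma khlen_semilinear {B T : Type u} [CommRing B] [IsLocalRing B] [CommRing T] [IsLocalRing T]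
    (ω : B →+* T) (hres : Function.Surjective ((residue T).comp ω)) {M M' : Type u}
    [AddCommGroup M] [Module B M] [AddCommGroup M'] [Module T M'] (e : M ≃+ M')
    (he : ∀ b v, e (b • v) = ω b • e v) {d : ℕ} (y : Fin d → B) (i : ℕ) :
    khlen (fun l => ω (y l)) M' i = khlen y M i := by
  let _ := ω.toAlgebra
  have : IsLocalHom (algebraMap B T) := isLocalHom_of_surjective_residue ω hres
  let _ : Module B M' := Module.compHom M' ω
  have : IsScalarTower B T M' := IsScalarTower.of_algebraMap_smul fun _ _ => rfl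
  have hres' : ∀ t : T, ∃ b : B, t - algebraMap B T b ∈ maximalIdeal T := by
    intro t
    obtain ⟨b, hb⟩ := hres (residue T t)
    refine ⟨b, ?_⟩
    rw [← residue_eq_zero_iff, map_sub, sub_eq_zero]
    exact hb.symm
  let e' : M ≃ₗ[B] M' := { e with map_smul' := he }
  rw [khlen_congr y e' i]
  set z : Fin d → T := fun l => ω (y l) with hz
  have hkd : ∀ f, kd z M' f = kd y M' f := fun f => rfl
  have hcyc : (kchain T d M' i ⊓ LinearMap.ker (kd z M')).restrictScalars B
      = kchain B d M' i ⊓ LinearMap.ker (kd y M') := by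
    ext f
    exact Iff.rfl
  have hbd : ((kchain T d M' (i + 1)).map (kd z M')).restrictScalars B
      = (kchain B d M' (i + 1)).map (kd y M') := by
    ext f
    exact Iff.rfl
  rw [khlen, khlen, ← hcyc, ← hbd, sq_restrictScalars_of_residue hres']

/-! ### Flat extensions -/

lemma sq_top_bot (S : Type*) [CommRing S] (A : Type*) [AddCommGroup A] [Module S A] :
    sq S (⊤ : Submodule S A) ⊥ = Module.length S A := by
  rw [sq, Submodule.comap_bot, Submodule.ker_subtype]
  exact ((Submodule.quotEquivOfEqBot ⊥ rfl).trans Submodule.topEquiv).length_eq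

lemma sq_gbar {B B' : Type u} [CommRing B] [CommRing B'] [Algebra B B'] [Module.Flat B B']
    {A : Type u} [AddCommGroup A] [Module B A] (N L : Submodule B A) :
    sq B' (gbar B' B' N) (gbar B' B' L)
      = Module.length B' (B' ⊗[B] (↥N ⧸ L.comap N.subtype)) := by
  have h1 : gbar B' B' N = (⊤ : Submodule B' (B' ⊗[B] ↥N)).map (lT B' B' N.subtype) := by
    rw [gbar, Submodule.map_top]
  rw [h1, sq_map, ← gbar_comap, ← ker_lT_mkQ, ← Submodule.comap_bot, ← sq_map, Submodule.map_top,
    LinearMap.range_eq_top.2 (lT_surjective (Submodule.mkQ_surjective _)), sq_top_bot]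

/-- Flat base change scales Koszul homology lengths by the length of the closed fibre. -/
lemma khlen_flat_scale {B B' : Type u} [CommRing B] [IsLocalRing B] [CommRing B'] [IsLocalRing B']
    [Algebra B B'] [IsLocalHom (algebraMap B B')] [Module.Flat B B'] (s : ℕ)
    (hs : Module.length B' (B' ⊗[B] ResidueField B) = s) {M : Type u} [AddCommGroup M] [Module B M]
    {d : ℕ} (y : Fin d → B) (i : ℕ) (hfin : khlen y M i ≠ ⊤) :
    khlen (fun l => algebraMap B B' (y l)) (B' ⊗[B] M) i = (s : ℕ∞) * khlen y M i := by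
  classical
  set y' : Fin d → B' := fun l => algebraMap B B' (y l) with hy'
  set E : (B' ⊗[B] (Finset (Fin d) → M)) ≃ₗ[B'] (Finset (Fin d) → B' ⊗[B] M) :=
    TensorProduct.piRight B B' B' (fun _ : Finset (Fin d) => M) with hE
  have hEt : ∀ b f s, E (b ⊗ₜ f) s = b ⊗ₜ f s := fun b f s => by
    rw [hE]
    simp
  have hkd : ∀ x, E (lT B' B' (kd y M) x) = kd y' (B' ⊗[B] M) (E x) := by
    intro x
    induction x using TensorProduct.induction_on with
    | zero => simp
    | tmul b f =>
      funext s
      rw [lT_tmul, hEt, kd_apply, kd_apply, TensorProduct.tmul_sum]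
      refine Finset.sum_congr rfl fun l _ => ?_
      rw [hEt, TensorProduct.tmul_smul, TensorProduct.tmul_smul, hy', algebraMap_smul]
    | add x x' hx hx' => simp only [map_add, hx, hx']
  let P : (Finset (Fin d) → M) → ℕ → Finset (Fin d) → M :=
    fun f p s => if s.card = p then f s else 0
  let Pl : ℕ → (Finset (Fin d) → M) →ₗ[B] (Finset (Fin d) → M) := fun p =>
    { toFun := fun f => P f p
      map_add' := fun f g => by funext s; simp only [P, Pi.add_apply]; split <;> simp
      map_smul' := fun c f => by funext s; simp only [P, Pi.smul_apply, RingHom.id_apply];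
                                 split <;> simp }
  have hchain : ∀ p, (gbar B' B' (kchain B d M p)).map E.toLinearMap
      = kchain B' d (B' ⊗[B] M) p := by
    intro p
    have hr : kchain B d M p = LinearMap.range (Pl p) := by
      ext f
      refine ⟨fun hf => ⟨f, funext fun s => ?_⟩, ?_⟩
      · show (if s.card = p then f s else 0) = f s
        split_ifs with h
        · rfl
        · exact (hf s h).symm
      · rintro ⟨g, rfl⟩ s hs
        exact if_neg hs
    have hEP : ∀ x s, E (lT B' B' (Pl p) x) s = if s.card = p then E x s else 0 := by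
      intro x s
      induction x using TensorProduct.induction_on with
      | zero => simp
      | tmul b f =>
        rw [lT_tmul, hEt, hEt]
        show b ⊗ₜ (if s.card = p then f s else 0) = _
        split_ifs <;> simp
      | add x x' hx hx' =>
        rw [map_add, map_add, Pi.add_apply, hx, hx', map_add, Pi.add_apply]
        split_ifs <;> simp
    rw [hr, ← Submodule.map_top, gbar_map, gbar_top]
    ext g
    constructor
    · rintro ⟨_, ⟨x, -, rfl⟩, rfl⟩ s hs
      show E (lT B' B' (Pl p) x) s = 0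
      rw [hEP, if_neg hs]
    · intro hg
      refine ⟨_, ⟨E.symm g, trivial, rfl⟩, funext fun s => ?_⟩
      show E (lT B' B' (Pl p) (E.symm g)) s = g s
      rw [hEP, E.apply_symm_apply]
      split_ifs with h
      · rfl
      · exact (hg s h).symm
  have hinj : Function.Injective E.toLinearMap := E.injective
  have hcyc : (gbar B' B' (kchain B d M i ⊓ LinearMap.ker (kd y M))).map E.toLinearMap
      = kchain B' d (B' ⊗[B] M) i ⊓ LinearMap.ker (kd y' (B' ⊗[B] M)) := by
    rw [gbar_inf, Submodule.map_inf _ hinj, hchain, ← Submodule.comap_bot, gbar_comap, gbar_bot]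
    congr 1
    ext g
    constructor
    · rintro ⟨x, hx, rfl⟩
      show kd y' _ (E x) = 0
      rw [← hkd, show lT B' B' (kd y M) x = 0 from hx, map_zero]
    · intro hg
      refine ⟨E.symm g, ?_, E.apply_symm_apply g⟩
      show lT B' B' (kd y M) (E.symm g) = 0
      apply E.injective
      rw [hkd, E.apply_symm_apply, map_zero]
      exact hg
  have hbd : (gbar B' B' ((kchain B d M (i + 1)).map (kd y M))).map E.toLinearMap
      = (kchain B' d (B' ⊗[B] M) (i + 1)).map (kd y' (B' ⊗[B] M)) := by
    rw [gbar_map, ← hchain, ← Submodule.map_comp, ← Submodule.map_comp]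
    congr 1
    exact LinearMap.ext fun x => hkd x
  rw [khlen, ← hcyc, ← hbd, sq_map, Submodule.comap_map_eq_of_injective hinj, sq_gbar,
    length_tensor B B' _ hfin, hs, mul_comm]
  rfl

/-! ### Families trivial over the closed point -/

section Split

variable {T : Type*} [CommRing T] {d : ℕ} {y : Fin d → T} {M M' M'' : Type*} [AddCommGroup M]
  [Module T M] [AddCommGroup M'] [Module T M'] [AddCommGroup M''] [Module T M'']

lemma kd_addHom (ρ : M →+ M') (hρ : ∀ l x, ρ (y l • x) = y l • ρ x)
    (f : Finset (Fin d) → M) :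
    kd y M' (fun s => ρ (f s)) = fun s => ρ (kd y M f s) := by
  funext s
  rw [kd_apply, kd_apply, map_sum]
  refine Finset.sum_congr rfl fun l _ => ?_
  rw [map_zsmul, hρ]

lemma addHom_kcyc (ρ : M →+ M') (hρ : ∀ l x, ρ (y l • x) = y l • ρ x) {p : ℕ}
    {f : Finset (Fin d) → M} (hf : f ∈ kcyc y M p) : (fun s => ρ (f s)) ∈ kcyc y M' p := by
  refine ⟨fun s hs => by simp [hf.1 s hs], ?_⟩
  rw [SetLike.mem_coe, LinearMap.mem_ker, kd_addHom ρ hρ]
  funext s
  have := hf.2
  rw [SetLike.mem_coe, LinearMap.mem_ker] at this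
  simp [this]

lemma addHom_kbd (ρ : M →+ M') (hρ : ∀ l x, ρ (y l • x) = y l • ρ x) {p : ℕ}
    {f : Finset (Fin d) → M} (hf : f ∈ kbd y M p) : (fun s => ρ (f s)) ∈ kbd y M' p := by
  obtain ⟨g, hg, rfl⟩ := hf
  exact ⟨fun s => ρ (g s), fun s hs => by simp [hg s hs], kd_addHom ρ hρ g⟩

end Split

section SplitExact

variable {R T : Type*} [CommRing R] [CommRing T] {B : Type*} [AddCommGroup B] [Module R B]
  [Module T B] [SMulCommClass R T B] {d : ℕ} {y : Fin d → T} {p : ℕ}
  {U V W : Type*} [AddCommGroup U] [Module R U] [AddCommGroup V] [Module R V] [AddCommGroup W]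
  [Module R W]

/-- Exactness from additive splittings that commute with the parameters. -/
lemma hp_exact_of_addSplit (f : U →ₗ[R] V) (g : V →ₗ[R] W)
    (ρ : (B ⊗[R] V) →+ (B ⊗[R] U)) (τ : (B ⊗[R] W) →+ (B ⊗[R] V))
    (hρy : ∀ l x, ρ (y l • x) = y l • ρ x) (hτy : ∀ l x, τ (y l • x) = y l • τ x)
    (hρ : ∀ x, ρ (lT T B f x) = x) (hτ : ∀ x, lT T B g (τ x) = x)
    (hid : ∀ x, lT T B f (ρ x) + τ (lT T B g x) = x) :
    hp B y U p ⊓ LinearMap.ker (hpMap B y p f) = ⊥ ∧
      hp B y V p ⊓ LinearMap.ker (hpMap B y p g) ≤ (hp B y U p).map (hpMap B y p f) ∧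
      hp B y W p ≤ (hp B y V p).map (hpMap B y p g) := by
  refine ⟨?_, ?_, ?_⟩
  · rw [eq_bot_iff]
    rintro _ ⟨⟨z, _, rfl⟩, hz'⟩
    rw [SetLike.mem_coe, LinearMap.mem_ker, Submodule.mkQ_apply, hpMap_mk,
      Submodule.Quotient.mk_eq_zero] at hz'
    rw [Submodule.mem_bot, Submodule.mkQ_apply, Submodule.Quotient.mk_eq_zero]
    have h1 := addHom_kbd ρ hρy hz'
    simpa [hρ] using h1
  · rintro _ ⟨⟨z, hz, rfl⟩, hz'⟩
    rw [SetLike.mem_coe, LinearMap.mem_ker, Submodule.mkQ_apply, hpMap_mk,
      Submodule.Quotient.mk_eq_zero] at hz'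
    refine ⟨Submodule.Quotient.mk fun s => ρ (z s), ⟨_, addHom_kcyc ρ hρy hz, rfl⟩, ?_⟩
    rw [hpMap_mk, Submodule.mkQ_apply, Submodule.Quotient.eq]
    have h1 := addHom_kbd τ hτy hz'
    have h2 : kmap d (lT T B f) (fun s => ρ (z s)) - z
        = -fun s => τ (kmap d (lT T B g) z s) := by
      funext s
      simp only [Pi.sub_apply, Pi.neg_apply, kmap_apply]
      linear_combination (norm := abel) hid (z s)
    rw [h2]
    exact Submodule.neg_mem _ h1
  · rintro _ ⟨z, hz, rfl⟩
    refine ⟨Submodule.Quotient.mk fun s => τ (z s), ⟨_, addHom_kcyc τ hτy hz, rfl⟩, ?_⟩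
    rw [hpMap_mk, Submodule.mkQ_apply]
    congr 1
    exact funext fun s => hτ (z s)

end SplitExact

section Trivial

variable {k R T B : Type u} [Field k] [CommRing R] [CommRing T] [CommRing B] [Algebra k R]
  [Algebra k B] [Algebra k T] [Algebra R T] [IsScalarTower k R T] (ω : B →ₐ[k] T) {I : Ideal R}
  {N : Ideal B} (hN : N.map ω ≤ I.map (algebraMap R T))

lemma tmul_eq_zero_of_mem {V : Type u} [AddCommGroup V] [Module R V] {J : Ideal R}
    (hV : KilledBy J V) {t : T} (ht : t ∈ J.map (algebraMap R T)) (v : V) : t ⊗ₜ[R] v = 0 := by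
  induction ht using Submodule.span_induction with
  | mem t ht =>
    obtain ⟨a, ha, rfl⟩ := ht
    rw [Algebra.algebraMap_eq_smul_one, TensorProduct.smul_tmul, hV a ha, TensorProduct.tmul_zero]
  | zero => rw [TensorProduct.zero_tmul]
  | add s t _ _ hs ht => rw [TensorProduct.add_tmul, hs, ht, add_zero]
  | smul c t _ ht =>
    have h := congrArg (c • ·) ht
    simpa [TensorProduct.smul_tmul'] using h

variable {V : Type u} [AddCommGroup V] [Module k V] [Module R V] [IsScalarTower k R V]
  (hV : KilledBy I V)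

/-- The comparison map before passing to the quotient. -/
noncomputable def trivHom₀ : B →ₗ[k] V →ₗ[k] T ⊗[R] V :=
  LinearMap.mk₂ k (fun b v => ω b ⊗ₜ[R] v)
    (fun b b' v => by rw [map_add, TensorProduct.add_tmul])
    (fun c b v => by rw [map_smul, TensorProduct.smul_tmul'])
    (fun b v v' => by rw [TensorProduct.tmul_add])
    (fun c b v => by
      rw [← algebraMap_smul R c v, ← TensorProduct.smul_tmul, algebraMap_smul,
        TensorProduct.smul_tmul'])

/-- `(B ⧸ N) ⊗[k] V → T ⊗[R] V`. -/
noncomputable def trivHom : (B ⧸ N) ⊗[k] V →ₗ[k] T ⊗[R] V :=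
  TensorProduct.lift (R := k)
    { toFun := fun q => Quotient.liftOn' q (fun b => trivHom₀ ω (R := R) (V := V) b) fun a b h => by
        refine LinearMap.ext fun v => ?_
        show ω a ⊗ₜ[R] v = ω b ⊗ₜ[R] v
        rw [← sub_eq_zero, ← TensorProduct.sub_tmul, ← map_sub]
        refine tmul_eq_zero_of_mem hV (hN (Ideal.mem_map_of_mem ω ?_)) v
        exact (Submodule.quotientRel_def N).1 h
      map_add' := by
        intro a b
        obtain ⟨a, rfl⟩ := Ideal.Quotient.mk_surjective a
        obtain ⟨b, rfl⟩ := Ideal.Quotient.mk_surjective b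
        exact map_add (trivHom₀ ω (R := R) (V := V)) a b
      map_smul' := by
        intro c a
        obtain ⟨a, rfl⟩ := Ideal.Quotient.mk_surjective a
        exact map_smul (trivHom₀ ω (R := R) (V := V)) c a }

lemma trivHom_tmul (b : B) (v : V) :
    trivHom ω hN hV (Ideal.Quotient.mk N b ⊗ₜ[k] v) = ω b ⊗ₜ[R] v := rfl

lemma trivHom_smul (b : B) (x : (B ⧸ N) ⊗[k] V) :
    trivHom ω hN hV (b • x) = ω b • trivHom ω hN hV x := by
  induction x using TensorProduct.induction_on with
  | zero => simp
  | tmul q v =>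
    obtain ⟨a, rfl⟩ := Ideal.Quotient.mk_surjective q
    rw [TensorProduct.smul_tmul', show b • Ideal.Quotient.mk N a = Ideal.Quotient.mk N (b * a) from
      rfl, trivHom_tmul, trivHom_tmul, map_mul, TensorProduct.smul_tmul', smul_eq_mul]
  | add x x' hx hx' => rw [smul_add, map_add, map_add, hx, hx', smul_add]

variable {W : Type u} [AddCommGroup W] [Module k W] [Module R W] [IsScalarTower k R W]
  (hW : KilledBy I W)

lemma trivHom_natural (f : V →ₗ[R] W) (x : (B ⧸ N) ⊗[k] V) :
    trivHom ω hN hW (lT B (B ⧸ N) (f.restrictScalars k) x) = lT T T f (trivHom ω hN hV x) := by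
  induction x using TensorProduct.induction_on with
  | zero => simp
  | tmul q v =>
    obtain ⟨a, rfl⟩ := Ideal.Quotient.mk_surjective q
    rw [lT_tmul, trivHom_tmul, trivHom_tmul, lT_tmul]
    rfl
  | add x x' hx hx' => simp only [map_add, hx, hx']

variable [IsLocalRing R]

lemma trivHom_bijective_of_killed (hσ : Function.Bijective ((residue R).comp (algebraMap k R)))
    (hsurj : ∀ t : T, ∃ b, t - ω b ∈ (maximalIdeal R).map (algebraMap R T))
    (hker : ∀ b, ω b ∈ (maximalIdeal R).map (algebraMap R T) → b ∈ N)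
    (hVm : KilledBy (maximalIdeal R) V) : Function.Bijective (trivHom ω hN hV) := by
  choose θ hθ using hsurj
  have huniq : ∀ t b, t - ω b ∈ (maximalIdeal R).map (algebraMap R T) →
      Ideal.Quotient.mk N (θ t) = Ideal.Quotient.mk N b := fun t b hb => by
    rw [Ideal.Quotient.mk_eq_mk_iff_sub_mem]
    apply hker
    rw [map_sub, show ω (θ t) - ω b = (t - ω b) - (t - ω (θ t)) by ring]
    exact sub_mem hb (hθ t)
  let F : T →+ V →+ (B ⧸ N) ⊗[k] V :=
    AddMonoidHom.mk' (fun t => AddMonoidHom.mk' (fun v => Ideal.Quotient.mk N (θ t) ⊗ₜ[k] v)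
        fun v v' => TensorProduct.tmul_add _ _ _) fun t t' => by
      ext v
      show Ideal.Quotient.mk N (θ (t + t')) ⊗ₜ[k] v = _ ⊗ₜ[k] v + _ ⊗ₜ[k] v
      rw [huniq (t + t') (θ t + θ t'), map_add, TensorProduct.add_tmul]
      rw [map_add, show t + t' - (ω (θ t) + ω (θ t')) = (t - ω (θ t)) + (t' - ω (θ t')) by ring]
      exact add_mem (hθ t) (hθ t')
  let H : T ⊗[R] V →+ (B ⧸ N) ⊗[k] V := TensorProduct.liftAddHom F fun r t v => by
    show Ideal.Quotient.mk N (θ (r • t)) ⊗ₜ[k] v = Ideal.Quotient.mk N (θ t) ⊗ₜ[k] (r • v)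
    obtain ⟨c, hc⟩ := hσ.2 (residue R r)
    have hrc : r - algebraMap k R c ∈ maximalIdeal R := by
      rw [← residue_eq_zero_iff, map_sub, sub_eq_zero]
      exact hc.symm
    have hv : r • v = c • v := by
      rw [← algebraMap_smul R c v, ← sub_eq_zero, ← sub_smul]
      exact hVm _ hrc v
    rw [hv, ← TensorProduct.smul_tmul, huniq (r • t) (c • θ t)]
    · rfl
    · rw [map_smul, Algebra.smul_def, Algebra.smul_def, IsScalarTower.algebraMap_apply k R T,
        show algebraMap R T r * t - algebraMap R T (algebraMap k R c) * ω (θ t)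
          = algebraMap R T (r - algebraMap k R c) * t
            + algebraMap R T (algebraMap k R c) * (t - ω (θ t)) by rw [map_sub]; ring]
      exact add_mem (Ideal.mul_mem_right _ _ (Ideal.mem_map_of_mem _ hrc))
        (Ideal.mul_mem_left _ _ (hθ t))
  have hGH : ∀ x, trivHom ω hN hV (H x) = x := by
    intro x
    induction x using TensorProduct.induction_on with
    | zero => simp
    | tmul t v =>
      show trivHom ω hN hV (Ideal.Quotient.mk N (θ t) ⊗ₜ[k] v) = _
      rw [trivHom_tmul, ← sub_eq_zero, ← TensorProduct.sub_tmul]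
      exact tmul_eq_zero_of_mem hVm (by simpa using neg_mem (hθ t)) v
    | add x x' hx hx' => rw [map_add, map_add, hx, hx']
  have hHG : ∀ x, H (trivHom ω hN hV x) = x := by
    intro x
    induction x using TensorProduct.induction_on with
    | zero => simp
    | tmul q v =>
      obtain ⟨b, rfl⟩ := Ideal.Quotient.mk_surjective q
      rw [trivHom_tmul]
      show Ideal.Quotient.mk N (θ (ω b)) ⊗ₜ[k] v = _
      rw [huniq (ω b) b (by rw [sub_self]; exact zero_mem _)]
    | add x x' hx hx' => rw [map_add, map_add, hx, hx']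
  exact ⟨Function.LeftInverse.injective hHG, fun x => ⟨H x, hGH x⟩⟩

end Trivial

section Devissage

variable {k R T B : Type u} [Field k] [CommRing R] [IsLocalRing R] [CommRing T] [CommRing B]
  [Algebra k R] [Algebra k B] [Algebra k T] [Algebra R T] [IsScalarTower k R T]
  [Module.Flat R T] (ω : B →ₐ[k] T) {I : Ideal R} {N : Ideal B}
  (hN : N.map ω ≤ I.map (algebraMap R T))
  (hσ : Function.Bijective ((residue R).comp (algebraMap k R)))
  (hsurj : ∀ t : T, ∃ b, t - ω b ∈ (maximalIdeal R).map (algebraMap R T))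
  (hker : ∀ b, ω b ∈ (maximalIdeal R).map (algebraMap R T) → b ∈ N)

include hσ hsurj hker

lemma trivHom_bijective_of_pow (n : ℕ) :
    ∀ (V : Type u) [AddCommGroup V] [Module k V] [Module R V] [IsScalarTower k R V]
      (hV : KilledBy I V), KilledBy (maximalIdeal R ^ n) V →
      Function.Bijective (trivHom ω hN hV) := by
  induction n with
  | zero =>
    intro V _ _ _ _ hV hVn
    refine trivHom_bijective_of_killed ω hN hV hσ hsurj hker fun a _ v => hVn a ?_ v
    rw [pow_zero, Ideal.one_eq_top]
    trivial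
  | succ n ih =>
    intro V _ _ _ _ hV hVn
    set W : Submodule R V := maximalIdeal R • ⊤ with hW
    have h1 := ih ↥W (killedBy_submodule hV W) (by
      rintro a ha ⟨v, hv⟩
      apply Subtype.ext
      show a • v = 0
      refine Submodule.smul_induction_on hv (fun b hb w _ => ?_) fun v w hv hw => ?_
      · rw [smul_smul]
        exact hVn _ (pow_succ (maximalIdeal R) n ▸ Ideal.mul_mem_mul ha hb) w
      · rw [smul_add, hv, hw, add_zero])
    have h3 := trivHom_bijective_of_killed ω hN (killedBy_quotient hV W) hσ hsurj hker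
      fun a ha v => by
        obtain ⟨v, rfl⟩ := Submodule.Quotient.mk_surjective _ v
        rw [← Submodule.Quotient.mk_smul, Submodule.Quotient.mk_eq_zero]
        exact Submodule.smul_mem_smul ha trivial
    set i := lT T T W.subtype with hi
    set q := lT T T W.mkQ with hq
    set i' := lT B (B ⧸ N) (W.subtype.restrictScalars k) with hi'
    set q' := lT B (B ⧸ N) (W.mkQ.restrictScalars k) with hq'
    have hexk : Function.Exact (W.subtype.restrictScalars k) (W.mkQ.restrictScalars k) :=
      LinearMap.exact_subtype_mkQ W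
    have hex' : Function.Exact i' q' := lTensor_exact (B ⧸ N) hexk (Submodule.mkQ_surjective W)
    have hex : Function.Exact i q := lT_exact (LinearMap.exact_subtype_mkQ W)
    have hnat1 := trivHom_natural ω hN (killedBy_submodule hV W) hV W.subtype
    have hnat2 := trivHom_natural ω hN hV (killedBy_quotient hV W) W.mkQ
    refine ⟨?_, fun x => ?_⟩
    · rw [injective_iff_map_eq_zero]
      intro x hx
      have h4 : q' x = 0 := h3.1 (by rw [hnat2, hx, map_zero, map_zero])
      obtain ⟨w, rfl⟩ := (hex' x).1 h4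
      rw [hnat1, ← map_zero i] at hx
      have h5 := (lT_injective W.injective_subtype) hx
      rw [← map_zero (trivHom ω hN (killedBy_submodule hV W))] at h5
      rw [h1.1 h5, map_zero]
    · obtain ⟨w, hw⟩ := h3.2 (q x)
      obtain ⟨u, rfl⟩ : ∃ u, q' u = w :=
        lT_surjective (S := B) (B := B ⧸ N) (f := W.mkQ.restrictScalars k)
          (Submodule.mkQ_surjective W) w
      rw [hnat2, ← sub_eq_zero, ← map_sub] at hw
      obtain ⟨r, hr⟩ := (hex _).1 hw
      obtain ⟨r', rfl⟩ := h1.2 r
      refine ⟨u - i' r', ?_⟩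
      rw [map_sub, hnat1, hr]
      abel

end Devissage

/-- G4: `HPHyp` for a family whose closed fibre is trivial. -/
theorem hpHyp_of_trivial {R T B k : Type u} [CommRing R] [IsLocalRing R] [IsNoetherianRing R]
    [CommRing T] [IsLocalRing T] [IsNoetherianRing T] [Algebra R T]
    [IsLocalHom (algebraMap R T)] [Module.Flat R T] [CommRing B] [IsLocalRing B] [Field k]
    (I : Ideal R) (hI : I ≤ maximalIdeal R) (hrad : maximalIdeal R ≤ I.radical)
    (σ : k →+* R) (hσ : Function.Bijective ((residue R).comp σ)) (ψ : k →+* B) (ω : B →+* T)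
    (hψ : ∀ c, ω (ψ c) = algebraMap R T (σ c)) (N : Ideal B)
    (hN : N.map ω ≤ I.map (algebraMap R T))
    (hsurj : ∀ t : T, ∃ b, t - ω b ∈ (maximalIdeal R).map (algebraMap R T))
    (hker : ∀ b, ω b ∈ (maximalIdeal R).map (algebraMap R T) → b ∈ N)
    {d : ℕ} (z : Fin d → B) (β : ℕ → ℕ) (hβ : ∀ i, khlen z (B ⧸ N) i = β i) :
    (∀ i, khlen (fun l => ω (z l)) (T ⊗[R] ResidueField R) i = β i) ∧
      HPHyp T (fun l => ω (z l)) I β := by
  classical
  let _ := σ.toAlgebra
  let _ := ψ.toAlgebra
  let _ : Algebra k T := ((algebraMap R T).comp σ).toAlgebra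
  have : IsScalarTower k R T := IsScalarTower.of_algebraMap_eq fun _ => rfl
  let ω' : B →ₐ[k] T := { ω with commutes' := fun c => hψ c }
  have hN' : N.map ω' ≤ I.map (algebraMap R T) := hN
  obtain ⟨c, hc⟩ := Ideal.exists_pow_le_of_le_radical_of_fg hrad
    (maximalIdeal R).fg_of_isNoetherianRing
  have hbij : ∀ (V : Type u) [AddCommGroup V] [Module k V] [Module R V] [IsScalarTower k R V]
      (hV : KilledBy I V), Function.Bijective (trivHom ω' hN' hV) := fun V _ _ _ _ hV =>
    trivHom_bijective_of_pow ω' hN' hσ hsurj hker c V hV fun a ha v => hV a (hc ha) v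
  set y : Fin d → T := fun l => ω (z l) with hy
  have hres : Function.Surjective ((residue T).comp ω) := fun r => by
    obtain ⟨t, rfl⟩ := residue_surjective r
    obtain ⟨b, hb⟩ := hsurj t
    refine ⟨b, ?_⟩
    have hb' := map_maximalIdeal_le (algebraMap R T) hb
    rw [← residue_eq_zero_iff, map_sub, sub_eq_zero] at hb'
    exact hb'.symm
  -- the closed fibre
  have hclosed : ∀ i, khlen y (T ⊗[R] ResidueField R) i = β i := by
    intro i
    have hk : KilledBy I (ResidueField R) := fun a ha v => by
      rw [Algebra.smul_def, ResidueField.algebraMap_eq, (residue_eq_zero_iff a).2 (hI ha),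
        zero_mul]
    let e₀ : k ≃ₗ[k] ResidueField R :=
      LinearEquiv.ofBijective (LinearMap.toSpanSingleton k _ 1) (by
        have he : ⇑(LinearMap.toSpanSingleton k (ResidueField R) 1) = (residue R).comp σ := by
          funext a
          rw [LinearMap.toSpanSingleton_apply, Algebra.smul_def, mul_one]
          rfl
        rw [he]
        exact hσ)
    let e : (B ⧸ N) ≃+ T ⊗[R] ResidueField R :=
      ((TensorProduct.rid k (B ⧸ N)).symm.trans (LinearEquiv.lTensor (B ⧸ N) e₀)).toAddEquiv.trans
        (LinearEquiv.ofBijective _ (hbij _ hk)).toAddEquiv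
    have he : ∀ q, e q = trivHom ω' hN' hk (q ⊗ₜ[k] e₀ 1) := fun q => rfl
    rw [← hβ i]
    refine khlen_semilinear ω hres e (fun b v => ?_) z i
    rw [he, he, ← TensorProduct.smul_tmul', trivHom_smul]
    rfl
  refine ⟨hclosed, ?_⟩
  have hex : ∀ (U V W : Type u) [AddCommGroup U] [Module R U] [AddCommGroup V] [Module R V]
      [AddCommGroup W] [Module R W] (f : U →ₗ[R] V) (g : V →ₗ[R] W),
      KilledBy I U → KilledBy I V → KilledBy I W →
      Function.Injective f → Function.Exact f g → Function.Surjective g → ∀ p,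
      hp T y U p ⊓ LinearMap.ker (hpMap T y p f) = ⊥ ∧
      hp T y V p ⊓ LinearMap.ker (hpMap T y p g) ≤ (hp T y U p).map (hpMap T y p f) ∧
      hp T y W p ≤ (hp T y V p).map (hpMap T y p g) := by
    intro U V W _ _ _ _ _ _ f g hU hV hW hf he hg p
    let _ : Module k U := Module.compHom U σ
    let _ : Module k V := Module.compHom V σ
    let _ : Module k W := Module.compHom W σ
    have : IsScalarTower k R U := IsScalarTower.of_algebraMap_smul fun _ _ => rfl
    have : IsScalarTower k R V := IsScalarTower.of_algebraMap_smul fun _ _ => rfl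
    have : IsScalarTower k R W := IsScalarTower.of_algebraMap_smul fun _ _ => rfl
    obtain ⟨r, hr⟩ := (f.restrictScalars k).exists_leftInverse_of_injective
      (LinearMap.ker_eq_bot.2 hf)
    obtain ⟨t₀, ht₀⟩ := (g.restrictScalars k).exists_rightInverse_of_surjective
      (LinearMap.range_eq_top.2 hg)
    set t : W →ₗ[k] V := (LinearMap.id - f.restrictScalars k ∘ₗ r) ∘ₗ t₀ with htdef
    have hrf : ∀ u, r (f u) = u := fun u => LinearMap.congr_fun hr u
    have hgt₀ : ∀ w, g (t₀ w) = w := fun w => LinearMap.congr_fun ht₀ w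
    have hgt : ∀ w, g (t w) = w := fun w => by
      simp [htdef, he.apply_apply_eq_zero, hgt₀]
    have hid : ∀ v, f (r v) + t (g v) = v := fun v => by
      obtain ⟨u, hu⟩ := (he (v - t₀ (g v))).1 (by rw [map_sub, hgt₀, sub_self])
      have h2 := congrArg (fun x => f (r x)) hu
      simp only [hrf, map_sub] at h2
      simp only [htdef, LinearMap.comp_apply, LinearMap.sub_apply, LinearMap.id_apply,
        LinearMap.restrictScalars_apply]
      rw [← sub_eq_zero]
      linear_combination (norm := abel) hu - h2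
    set GU := LinearEquiv.ofBijective _ (hbij U hU) with hGU
    set GV := LinearEquiv.ofBijective _ (hbij V hV) with hGV
    set GW := LinearEquiv.ofBijective _ (hbij W hW) with hGW
    let ρ : (T ⊗[R] V) →+ (T ⊗[R] U) :=
      (GU.toLinearMap.toAddMonoidHom.comp (lT B (B ⧸ N) r).toAddMonoidHom).comp
        GV.symm.toLinearMap.toAddMonoidHom
    let τ : (T ⊗[R] W) →+ (T ⊗[R] V) :=
      (GV.toLinearMap.toAddMonoidHom.comp (lT B (B ⧸ N) t).toAddMonoidHom).comp
        GW.symm.toLinearMap.toAddMonoidHom
    have hρ' : ∀ x, ρ (GV x) = GU (lT B (B ⧸ N) r x) := fun x => by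
      show GU (lT B (B ⧸ N) r (GV.symm (GV x))) = _
      rw [GV.symm_apply_apply]
    have hτ' : ∀ x, τ (GW x) = GV (lT B (B ⧸ N) t x) := fun x => by
      show GV (lT B (B ⧸ N) t (GW.symm (GW x))) = _
      rw [GW.symm_apply_apply]
    have hGy : ∀ (X : Type u) [AddCommGroup X] [Module k X] [Module R X] [IsScalarTower k R X]
        (hX : KilledBy I X) l (x : (B ⧸ N) ⊗[k] X),
        y l • LinearEquiv.ofBijective _ (hbij X hX) x
          = LinearEquiv.ofBijective _ (hbij X hX) (z l • x) :=
      fun X _ _ _ _ hX l x => (trivHom_smul ω' hN' hX (z l) x).symm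
    have hnf : ∀ x, lT T T f (GU x) = GV (lT B (B ⧸ N) (f.restrictScalars k) x) :=
      fun x => (trivHom_natural ω' hN' hU hV f x).symm
    have hng : ∀ x, lT T T g (GV x) = GW (lT B (B ⧸ N) (g.restrictScalars k) x) :=
      fun x => (trivHom_natural ω' hN' hV hW g x).symm
    refine hp_exact_of_addSplit f g ρ τ (fun l x => ?_) (fun l x => ?_) (fun x => ?_)
      (fun x => ?_) fun x => ?_
    · obtain ⟨x, rfl⟩ := GV.surjective x
      rw [hGV, hGy V hV l x, ← hGV, hρ', hρ', map_smul, hGU, hGy U hU l]
    · obtain ⟨x, rfl⟩ := GW.surjective x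
      rw [hGW, hGy W hW l x, ← hGW, hτ', hτ', map_smul, hGV, hGy V hV l]
    · obtain ⟨x, rfl⟩ := GU.surjective x
      rw [hnf, hρ', lT_comp_apply, hr, lT_id, LinearMap.id_apply]
    · obtain ⟨x, rfl⟩ := GW.surjective x
      rw [hτ', hng, lT_comp_apply,
        show g.restrictScalars k ∘ₗ t = LinearMap.id from LinearMap.ext hgt, lT_id,
        LinearMap.id_apply]
    · obtain ⟨x, rfl⟩ := GV.surjective x
      rw [hρ', hnf, hng, hτ', ← map_add, lT_comp_apply, lT_comp_apply, ← LinearMap.add_apply,
        ← lT_add, show f.restrictScalars k ∘ₗ r + t ∘ₗ g.restrictScalars k = LinearMap.id from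
          LinearMap.ext hid, lT_id, LinearMap.id_apply]
  refine ⟨hex, ?_⟩
  intro V _ _ hV hfin p
  refine khlen_eq_mul_length (I := I) hex β ?_ V hV hfin p
  intro V _ _ _ hs p
  obtain ⟨m, hm, ⟨e⟩⟩ := isSimpleModule_iff_quot_maximal.1 hs
  obtain rfl := eq_maximalIdeal hm
  rw [← hclosed p]
  exact khlen_congr y (AlgebraTensorModule.congr (LinearEquiv.refl T T) e) p

end Vale.Agent.P202
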