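import Vale.Agent.P202.Basic

/-!
G4: the ring `R ⊗[A] P` for a finite local map `A → R` with trivial residue extension and a local
map `A → P`.
-/

universe u

namespace Vale.Agent.P202

open TensorProduct IsLocalRing

attribute [local instance] Algebra.TensorProduct.rightAlgebra

section Hom

variable {A R P : Type u} [CommRing A] [CommRing R] [CommRing P] [Algebra A R] [Algebra A P]
  {C : Type*} [CommRing C]

/-- The ring map out of `R ⊗[A] P` given by two compatible ring maps. -/
noncomputable def tensorHom (f : R →+* C) (g : P →+* C)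
    (h : ∀ a, f (algebraMap A R a) = g (algebraMap A P a)) : R ⊗[A] P →+* C :=
  letI := (f.comp (algebraMap A R)).toAlgebra
  (Algebra.TensorProduct.lift (⟨f, fun _ => rfl⟩ : R →ₐ[A] C)
    (⟨g, fun a => (h a).symm⟩ : P →ₐ[A] C) (fun r q => Commute.all (f r) (g q))).toRingHom

@[simp]
lemma tensorHom_tmul (f : R →+* C) (g : P →+* C)
    (h : ∀ a, f (algebraMap A R a) = g (algebraMap A P a)) (r : R) (x : P) :
    tensorHom f g h (r ⊗ₜ[A] x) = f r * g x := rfl

lemma tensorHom_ext {φ ψ : R ⊗[A] P →+* C} (hl : ∀ r, φ (r ⊗ₜ 1) = ψ (r ⊗ₜ 1))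
    (hr : ∀ x, φ (1 ⊗ₜ x) = ψ (1 ⊗ₜ x)) : φ = ψ := by
  refine RingHom.ext fun t => ?_
  induction t with
  | zero => simp
  | add y z hy hz => rw [map_add, map_add, hy, hz]
  | tmul r x =>
    have : r ⊗ₜ[A] x = (r ⊗ₜ 1) * (1 ⊗ₜ x) := by simp
    rw [this, map_mul, map_mul, hl, hr]

end Hom

section Push

variable {A R P : Type u} [CommRing A] [CommRing R] [CommRing P] [Algebra A R] [Algebra A P]

/-- The left inclusion. -/
noncomputable abbrev pushL : R →+* R ⊗[A] P := Algebra.TensorProduct.includeLeftRingHom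

/-- The right inclusion. -/
noncomputable abbrev pushR : P →+* R ⊗[A] P :=
  (Algebra.TensorProduct.includeRight : P →ₐ[A] R ⊗[A] P).toRingHom

lemma push_comm (a : A) :
    (pushL : R →+* R ⊗[A] P) (algebraMap A R a) =
      (pushR : P →+* R ⊗[A] P) (algebraMap A P a) := by
  show (algebraMap A R a) ⊗ₜ[A] (1 : P) = (1 : R) ⊗ₜ[A] algebraMap A P a
  rw [Algebra.algebraMap_eq_smul_one, Algebra.algebraMap_eq_smul_one, smul_tmul]

lemma push_finite [Module.Finite A R] : (pushR : P →+* R ⊗[A] P).Finite := by
  have : Module.Finite P (R ⊗[A] P) :=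
    Module.Finite.of_surjective
      ({ toFun := TensorProduct.comm A P R
         map_add' := map_add _
         map_smul' := fun c v => by
          induction v with
          | zero => simp
          | add y z hy hz => simp only [smul_add, map_add, hy, hz, RingHom.id_apply]
          | tmul x r =>
            simp only [RingHom.id_apply, smul_tmul', smul_eq_mul, TensorProduct.comm_tmul]
            rw [Algebra.smul_def, Algebra.TensorProduct.right_algebraMap_apply,
              Algebra.TensorProduct.tmul_mul_tmul, one_mul] } : P ⊗[A] R →ₗ[P] R ⊗[A] P)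
      (TensorProduct.comm A P R).surjective
  exact this

theorem push_noetherian [Module.Finite A R] [IsNoetherianRing P] :
    IsNoetherianRing (R ⊗[A] P) := by
  have : Module.Finite P (R ⊗[A] P) := push_finite
  exact IsNoetherianRing.of_finite P (R ⊗[A] P)

variable [IsLocalRing A] [IsLocalRing R] [IsLocalHom (algebraMap A R)]
  (hres : Function.Surjective ((residue R).comp (algebraMap A R)))

include hres in
/-- Everything is congruent to an element of `P` modulo the maximal ideal of `R`. -/
theorem push_surj (x : R ⊗[A] P) :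
    ∃ g : P, x - pushR g ∈ (maximalIdeal R).map (pushL : R →+* R ⊗[A] P) := by
  induction x with
  | zero => exact ⟨0, by simp⟩
  | add y z hy hz =>
    obtain ⟨g, hg⟩ := hy
    obtain ⟨g', hg'⟩ := hz
    refine ⟨g + g', ?_⟩
    rw [map_add, add_sub_add_comm]
    exact add_mem hg hg'
  | tmul r x =>
    obtain ⟨a, ha⟩ := hres (residue R r)
    refine ⟨algebraMap A P a * x, ?_⟩
    have hr : r - algebraMap A R a ∈ maximalIdeal R := by
      rw [← residue_eq_zero_iff, map_sub, sub_eq_zero]
      exact ha.symm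
    have : r ⊗ₜ[A] x - pushR (algebraMap A P a * x) =
        pushL (r - algebraMap A R a) * pushR x := by
      rw [map_mul, ← push_comm, map_sub, sub_mul]
      congr 1
      simp
    rw [this]
    exact Ideal.mul_mem_right _ _ (Ideal.mem_map_of_mem _ hr)

include hres in
/-- The ring map killing the maximal ideal of `R`. -/
theorem exists_push_fibre :
    ∃ ρ : R ⊗[A] P →+* P ⧸ (maximalIdeal A).map (algebraMap A P),
      (∀ g, ρ (pushR g) = Ideal.Quotient.mk _ g) ∧
        (maximalIdeal R).map (pushL : R →+* R ⊗[A] P) ≤ RingHom.ker ρ := by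
  have hbij : Function.Bijective (ResidueField.map (algebraMap A R)) := by
    refine ⟨RingHom.injective _, fun r => ?_⟩
    obtain ⟨a, ha⟩ := hres r
    exact ⟨residue A a, by rw [ResidueField.map_residue]; exact ha⟩
  let e := RingEquiv.ofBijective _ hbij
  set I := (maximalIdeal A).map (algebraMap A P)
  let f₀ : ResidueField A →+* P ⧸ I :=
    Ideal.Quotient.lift (maximalIdeal A) ((Ideal.Quotient.mk I).comp (algebraMap A P)) fun a ha =>
      Ideal.Quotient.eq_zero_iff_mem.2 (Ideal.mem_map_of_mem _ ha)
  let f : R →+* P ⧸ I := f₀.comp (e.symm.toRingHom.comp (residue R))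
  have hcomp : ∀ a, f (algebraMap A R a) = Ideal.Quotient.mk I (algebraMap A P a) := by
    intro a
    have : e.symm (residue R (algebraMap A R a)) = residue A a := by
      rw [RingEquiv.symm_apply_eq]
      exact (ResidueField.map_residue (algebraMap A R) a).symm
    show f₀ (e.symm (residue R (algebraMap A R a))) = _
    rw [this]
    rfl
  refine ⟨tensorHom f (Ideal.Quotient.mk I) hcomp, fun g => ?_, ?_⟩
  · show tensorHom f _ hcomp ((1 : R) ⊗ₜ[A] g) = _
    rw [tensorHom_tmul, map_one, one_mul]
  · rw [Ideal.map_le_iff_le_comap]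
    intro r hr
    show tensorHom f _ hcomp (r ⊗ₜ[A] (1 : P)) = 0
    rw [tensorHom_tmul, map_one, mul_one]
    show f₀ (e.symm (residue R r)) = 0
    rw [(residue_eq_zero_iff r).2 hr, map_zero, map_zero]

include hres in
/-- An element of `P` in the maximal ideal of `R` comes from the maximal ideal of `A`. -/
theorem push_ker {g : P}
    (h : pushR g ∈ (maximalIdeal R).map (pushL : R →+* R ⊗[A] P)) :
    g ∈ (maximalIdeal A).map (algebraMap A P) := by
  obtain ⟨ρ, hρ, hker⟩ := exists_push_fibre (P := P) hres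
  rw [← Ideal.Quotient.eq_zero_iff_mem, ← hρ]
  exact hker h

include hres in
/-- The map to the closed fibre, given as a quotient of `P`. -/
theorem exists_push_beta {C : Type u} [CommRing C] (β₀ : P →+* C)
    (hβ₀ : Function.Surjective β₀)
    (hker : RingHom.ker β₀ = (maximalIdeal A).map (algebraMap A P)) :
    ∃ β : R ⊗[A] P →+* C, (∀ g, β (pushR g) = β₀ g) ∧ Function.Surjective β ∧
      RingHom.ker β = (maximalIdeal R).map (pushL : R →+* R ⊗[A] P) := by
  obtain ⟨ρ, hρ, hρker⟩ := exists_push_fibre (P := P) hres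
  let e : P ⧸ (maximalIdeal A).map (algebraMap A P) →+* C :=
    Ideal.Quotient.lift _ β₀ fun a ha => by rwa [← RingHom.mem_ker, hker]
  have h : ∀ g, (e.comp ρ) (pushR g) = β₀ g := fun g => by
    rw [RingHom.comp_apply, hρ]; rfl
  refine ⟨e.comp ρ, h, fun c => ?_, le_antisymm (fun x hx => ?_) (hρker.trans fun x hx => ?_)⟩
  · obtain ⟨g, rfl⟩ := hβ₀ c
    exact ⟨pushR g, h g⟩
  · obtain ⟨g, hg⟩ := push_surj hres x
    rw [RingHom.mem_ker] at hx
    have h0 : (e.comp ρ) (x - pushR g) = 0 := by
      rw [RingHom.comp_apply, RingHom.mem_ker.1 (hρker hg), map_zero]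
    rw [map_sub, hx, zero_sub, neg_eq_zero, h, ← RingHom.mem_ker, hker] at h0
    have h1 : (pushR g : R ⊗[A] P) ∈ (maximalIdeal R).map (pushL : R →+* R ⊗[A] P) := by
      have h2 := Ideal.mem_map_of_mem (pushR : P →+* R ⊗[A] P) h0
      rw [Ideal.map_map] at h2
      have hc : (pushR : P →+* R ⊗[A] P).comp (algebraMap A P) =
          (pushL : R →+* R ⊗[A] P).comp (algebraMap A R) := RingHom.ext fun a => (push_comm a).symm
      rw [hc, ← Ideal.map_map] at h2
      exact Ideal.map_mono (map_maximalIdeal_le _) h2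
    have := add_mem hg h1
    rwa [sub_add_cancel] at this
  · rw [RingHom.mem_ker, RingHom.comp_apply, RingHom.mem_ker.1 hx, map_zero]

variable [IsLocalRing P] [IsLocalHom (algebraMap A P)] [Module.Finite A R]

include hres in
/-- The unique maximal ideal. -/
theorem exists_push_residue :
    ∃ χ : R ⊗[A] P →+* ResidueField P, (∀ g, χ (pushR g) = residue P g) ∧
      (maximalIdeal R).map (pushL : R →+* R ⊗[A] P) ≤ RingHom.ker χ ∧
      ∀ M : Ideal (R ⊗[A] P), M.IsMaximal → M = RingHom.ker χ := by
  obtain ⟨ρ, hρ, hker⟩ := exists_push_fibre (P := P) hres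
  have hle : (maximalIdeal A).map (algebraMap A P) ≤ maximalIdeal P :=
    map_maximalIdeal_le (algebraMap A P)
  let χ : R ⊗[A] P →+* ResidueField P := (Ideal.Quotient.factor hle).comp ρ
  have hχ : ∀ g, χ (pushR g) = residue P g := fun g => by
    show Ideal.Quotient.factor hle (ρ (pushR g)) = _
    rw [hρ, Ideal.Quotient.factor_mk]
    rfl
  have hχker : (maximalIdeal R).map (pushL : R →+* R ⊗[A] P) ≤ RingHom.ker χ :=
    hker.trans fun x hx => by
      rw [RingHom.mem_ker] at hx ⊢
      show Ideal.Quotient.factor hle (ρ x) = 0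
      rw [hx, map_zero]
  refine ⟨χ, hχ, hχker, fun M hM => ?_⟩
  have hsurj : Function.Surjective χ := fun z => by
    obtain ⟨g, rfl⟩ := residue_surjective z
    exact ⟨pushR g, hχ g⟩
  have hmax : (RingHom.ker χ).IsMaximal := RingHom.ker_isMaximal_of_surjective _ hsurj
  refine (hmax.eq_of_le hM.ne_top ?_).symm
  -- `M` lies over the maximal ideal of `P`
  have hint : (pushR : P →+* R ⊗[A] P).IsIntegral := RingHom.Finite.to_isIntegral push_finite
  have hMP : M.comap (pushR : P →+* R ⊗[A] P) = maximalIdeal P :=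
    eq_maximalIdeal (Ideal.isMaximal_comap_of_isIntegral_of_isMaximal' _ hint M)
  have hP : ∀ g ∈ maximalIdeal P, pushR g ∈ M := fun g hg => by
    rw [← hMP] at hg
    exact hg
  have hR : (maximalIdeal R).map (pushL : R →+* R ⊗[A] P) ≤ M := by
    rw [Ideal.map_le_iff_le_comap]
    have hA : (maximalIdeal A).map (algebraMap A R) ≤ M.comap pushL := by
      rw [Ideal.map_le_iff_le_comap]
      intro a ha
      show pushL (algebraMap A R a) ∈ M
      rw [push_comm]
      exact hP _ (map_maximalIdeal_le _ (Ideal.mem_map_of_mem _ ha))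
    have hc : ∃ c, maximalIdeal R ^ c ≤ (maximalIdeal A).map (algebraMap A R) := by
      set J := (maximalIdeal A).map (algebraMap A R)
      haveI : Module.Finite (A ⧸ maximalIdeal A) (R ⧸ J) :=
        Module.Finite.of_restrictScalars_finite A _ _
      haveI : IsArtinianRing (A ⧸ maximalIdeal A) :=
        letI := Ideal.Quotient.field (maximalIdeal A)
        inferInstance
      haveI : IsArtinianRing (R ⧸ J) := IsArtinianRing.of_finite (A ⧸ maximalIdeal A) (R ⧸ J)
      exact IsLocalRing.exists_maximalIdeal_pow_le_of_isArtinianRing_quotient J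
    obtain ⟨c, hc⟩ := hc
    haveI : (M.comap (pushL : R →+* R ⊗[A] P)).IsPrime := Ideal.comap_isPrime _ _
    exact Ideal.IsPrime.le_of_pow_le (hc.trans hA)
  intro x hx
  obtain ⟨g, hg⟩ := push_surj hres x
  rw [RingHom.mem_ker] at hx
  have hg0 : χ (x - pushR g) = 0 := hχker hg
  rw [map_sub, hx, hχ, zero_sub, neg_eq_zero, residue_eq_zero_iff] at hg0
  have := add_mem (hR hg) (hP g hg0)
  rwa [sub_add_cancel] at this

include hres in
theorem push_local : IsLocalRing (R ⊗[A] P) := by
  obtain ⟨χ, hχ, -, huniq⟩ := exists_push_residue (P := P) hres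
  refine IsLocalRing.of_unique_max_ideal ⟨RingHom.ker χ, ?_, huniq⟩
  exact RingHom.ker_isMaximal_of_surjective _ fun z => by
    obtain ⟨g, rfl⟩ := residue_surjective z
    exact ⟨pushR g, hχ g⟩

include hres in
/-- The two inclusions are local and `P` reaches the residue field. -/
theorem push_localHom [IsLocalRing (R ⊗[A] P)] :
    IsLocalHom (pushL : R →+* R ⊗[A] P) ∧ IsLocalHom (pushR : P →+* R ⊗[A] P) ∧
      Function.Surjective ((residue (R ⊗[A] P)).comp (pushR : P →+* R ⊗[A] P)) := by
  obtain ⟨χ, hχ, hker, huniq⟩ := exists_push_residue (P := P) hres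
  have hm : maximalIdeal (R ⊗[A] P) = RingHom.ker χ := huniq _ (maximalIdeal.isMaximal _)
  refine ⟨((local_hom_TFAE _).out 3 0).1 (by
      rw [← Ideal.map_le_iff_le_comap, hm]; exact hker),
    ((local_hom_TFAE _).out 3 0).1 (fun g hg => by
      rw [Ideal.mem_comap, hm, RingHom.mem_ker, hχ, residue_eq_zero_iff]; exact hg), fun z => ?_⟩
  obtain ⟨x, rfl⟩ := residue_surjective z
  obtain ⟨g, hg⟩ := push_surj hres x
  refine ⟨g, ?_⟩
  rw [RingHom.comp_apply, eq_comm, ← sub_eq_zero, ← map_sub, residue_eq_zero_iff, hm]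
  exact hker hg

end Push

end Vale.Agent.P202
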