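import Vale.Agent.P202.Scale
import Vale.Agent.P202.InterfacesG

/-! The core inequality at scale `q = p ^ e` from a Frobenius pullback of the flat map. -/

universe u

namespace Vale.Agent.P202

open TensorProduct IsLocalRing Filter

variable {R S : Type u} [CommRing R] [IsLocalRing R] [IsNoetherianRing R] [CommRing S]
  [IsLocalRing S] [IsNoetherianRing S] [Algebra R S] [IsLocalHom (algebraMap R S)]
  [Module.Flat R S]

/-- The core inequality at one scale, with the common factor of the lift cancelled. -/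
theorem lift_scale_inequality (G : KoszulGoals.{u}) (hC : GoalPhiClass.{u})
    (hL : GoalFrobLift.{u}) (p : ℕ) [Fact p.Prime] [CharP R p]
    [IsAdicComplete (maximalIdeal R) R] [IsAdicComplete (maximalIdeal S) S]
    {d D : ℕ} {x : Fin d → R} (hx : RedData R d D x) (hS : ndim R = ndim S) {y : Fin d → S}
    (hy : Par y) {M : ℕ} (hM0 : 0 < M) (c : Fin d → Fin d → S)
    (hc : ∀ i, algebraMap R S (x i) ^ M = ∑ l, y l * c i l) (e : ℕ) (a : Fin (d - 1) → ℤ)
    (hfin : ∀ j r, hg (phiD (mulFam x)) (phiDeg R R d) (phiG R D (p ^ e) a) j r ≠ ⊤) :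
    0 ≤ ((d - 1).factorial : ℤ) * (((p ^ e : ℕ) : ℤ) ^ d * kchi y S) +
      ∑ m ∈ Finset.range d, (∑ i ∈ Finset.Icc (m + 1) d,
          (-1 : ℤ) ^ i * ((khlen y (S ⊗[R] ResidueField R) i).toNat : ℤ)) *
        chiG d (phiD (mulFam x)) (phiDeg R R d) (phiG R D (p ^ e) a) (-((m + 1 : ℕ) : ℤ)) +
      ∑ r ∈ Finset.Icc (-((3 * d + 3 : ℕ) : ℤ)) (3 * d + 3 : ℕ),
        if r = 0 then 0 else (errBound d (d * (M * D))
          (fun i => (khlen y (S ⊗[R] ResidueField R) i).toNat)
          (phiD (mulFam x)) (phiDeg R R d) (phiG R D (p ^ e) a) r : ℤ) := by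
  classical
  obtain ⟨T, _, _, _, _, _, _, F, hdT, hF, hy', s, hs0, -, HB, hle⟩ :=
    hL p R S hS d hx.dim_eq y hy e
  set q := p ^ e with hqdef
  have hq : 0 < q := pow_pos (Fact.out : p.Prime).pos e
  have hRT : ndim R = ndim T := hx.dim_eq.trans hdT.symm
  set y' : Fin d → T := fun l => F (y l) with hy'def
  obtain ⟨n₀, hn₀⟩ := hx.red
  obtain ⟨cx, -, hcx⟩ := exists_pow_le_of_reduction (hn₀ n₀ le_rfl)
  have hxm : ∀ l, x l ∈ maximalIdeal R :=
    fun l => Ideal.pow_le_self hx.Dpos.ne' (hx.mem l)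
  set β : ℕ → ℕ := fun i => (khlen y (S ⊗[R] ResidueField R) i).toNat with hβdef
  set I : Ideal R := Ideal.span ((fun r : R => r ^ q) '' (maximalIdeal R : Set R)) with hI
  have hkillI : I ≤ maximalIdeal R ^ q := Ideal.span_le.2 (by
    rintro _ ⟨r, hr, rfl⟩
    exact Ideal.pow_mem_pow hr q)
  set δ := phiD (mulFam x) with hδdef
  set P := phiDeg R R d with hPdef
  set Gt := phiG R D q a with hGtdef
  have H : FiltSys I d δ P Gt :=
    { sq0 := phiD_phiD (mulFam_comm x)
      degree := fun i => phiDeg_stable (mulFam x) i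
      level := fun j => phiSub_stable (reesFam_stable hx.mem) a _
      anti := fun i j hij v hv k => ⟨reesFam_antitone (by gcongr) (hv k).1, (hv k).2⟩
      kill := fun j b hb v hv k => by
        refine ⟨?_, fun hk => by rw [Finsupp.smul_apply, (hv k).2 hk, smul_zero]⟩
        rw [Finsupp.smul_apply, smul_eq_mul, reesFam]
        have h1 : v k ∈ maximalIdeal R ^ ((q : ℤ) * j + D * k.2.1).toNat := (hv k).1
        refine Ideal.pow_le_pow_right ?_ (pow_add (maximalIdeal R) q _ ▸
          Ideal.mul_mem_mul (hkillI hb) h1)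
        rw [show (q : ℤ) * (j + 1) = (q : ℤ) * j + q by ring]
        omega
      bound := fun i hi => phiDeg_eq_bot hx.dpos hi }
  obtain ⟨φ, h, hφF, hhF, hφP, hhP, hφG, hhG, hcomm, hid⟩ :=
    goalPhiGhost R d D x hx (q * M) (Nat.mul_pos hq hM0) a
  have hlev : ∀ j : ℤ, (q : ℤ) * (j - ((M * D : ℕ) : ℤ)) =
      (q : ℤ) * j - ((q * M : ℕ) : ℤ) * (D : ℤ) := fun j => by push_cast; ring
  have hB : ∀ i, ∀ b : T, (x i ^ (q * M)) • b = (∑ l, y' l * F (c i l)) • b := by
    intro i b
    have h1 := congrArg F (hc i)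
    rw [map_pow, hF, map_sum, ← map_pow, ← pow_mul] at h1
    simp only [map_mul] at h1
    rw [Algebra.smul_def, smul_eq_mul, h1]
  let GD : GhostData T y' δ P Gt (M * D) d :=
    { Fil := phiFil R R d
      fil_zero := eq_top_iff.2 fun v _ k hk => absurd hk (Nat.not_lt_zero _)
      fil_end := eq_bot_iff.2 fun v hv => by
        refine (Submodule.mem_bot R).2 (Finsupp.ext fun k => hv k ?_)
        exact (nBoth_le k).trans_lt (Nat.sub_lt hx.dpos Nat.one_pos)
      a := fun i => x i ^ (q * M)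
      c := fun i l => F (c i l)
      a_smul := hB
      φ := φ
      h := h
      φ_fil := hφF
      h_fil := hhF
      φ_deg := hφP
      h_deg := hhP
      φ_level := fun i j => by
        simp only [hGtdef, phiG]; rw [hlev]; exact hφG i _
      h_level := fun j => by
        simp only [hGtdef, phiG]; rw [hlev]; exact hhG _
      comm := hcomm
      identity := hid }
  obtain ⟨hHfin, hclass⟩ := hC R d D x hx q hq a
  let η : ∀ (N : Type u) [AddCommGroup N] [Module R N], ℤ := fun N _ _ => psi R y' N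
  have hK : ∀ n i, khlen y' (T ⊗[R] HMod δ (fun i => Gt 0 ⊓ P i) (fun _ => ⊥) n) i ≠ ⊤ := by
    intro n i
    haveI := hHfin n
    let V := HMod δ (fun i => Gt 0 ⊓ P i) (fun _ => ⊥) n
    haveI : Module.Finite R V := hHfin n
    exact G.kfin T (T ⊗[R] V) d y' (hy'.finiteLength _) i
  have hkill : IsAddKilling R (x ⟨d - 1, Nat.sub_lt hx.dpos Nat.one_pos⟩) η := by
    refine ⟨?_, ?_⟩
    · intro N₁ N₂ N₃ _ _ _ _ _ _ _ _ _ g h hg he hh
      exact psi_add G hy' g h hg he hh
    · intro N _ _ _ k hk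
      refine psi_eq_zero G hy' hRT (Ideal.span {x ⟨d - 1, Nat.sub_lt hx.dpos Nat.one_pos⟩ ^ k})
        (ndim_quotient_span_pow_lt hxm cx hcx _ k) N ?_
      intro b hb v
      obtain ⟨b', rfl⟩ := Ideal.mem_span_singleton'.1 hb
      rw [mul_smul, hk v, smul_zero]
  have hη : η R = kchi y' T := psi_self
  have hsum : ∑ n ∈ Finset.Icc (-(d : ℤ)) d,
      sgn n * kchi y' (T ⊗[R] HMod δ (fun i => Gt 0 ⊓ P i) (fun _ => ⊥) n) =
      ((d - 1).factorial : ℤ) * η R := (hclass η hkill)
  have hcore := core_inequality H HB GD hfin hK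
  rw [hsum, hη] at hcore
  have hTm : ∀ m : ℕ, (∑ i ∈ Finset.Icc (m + 1) d, (-1 : ℤ) ^ i * (((s * β i : ℕ)) : ℤ)) =
      (s : ℤ) * ∑ i ∈ Finset.Icc (m + 1) d, (-1 : ℤ) ^ i * (β i : ℤ) := by
    intro m
    rw [Finset.mul_sum]
    refine Finset.sum_congr rfl fun i _ => ?_
    push_cast; ring
  have herr : ∀ r, errBound d (d * (M * D)) (fun i => s * β i) δ P Gt r =
      s * errBound d (d * (M * D)) β δ P Gt r := by
    intro r
    simp only [errBound, Finset.mul_sum, mul_assoc]
  simp only [hTm, herr, Nat.cast_mul, ← mul_ite_zero] at hcore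
  refine nonneg_of_mul_nonneg_right (a := (s : ℤ)) ?_ (by exact_mod_cast hs0)
  refine hcore.trans ?_
  rw [mul_add, mul_add, Finset.mul_sum, Finset.mul_sum]
  refine add_le_add (add_le_add ?_ (le_of_eq ?_)) (le_of_eq ?_)
  · calc ((d - 1).factorial : ℤ) * kchi y' T
        ≤ ((d - 1).factorial : ℤ) * ((s : ℤ) * ((q : ℕ) : ℤ) ^ d * kchi y S) :=
          mul_le_mul_of_nonneg_left hle (by positivity)
      _ = _ := by ring
  · refine Finset.sum_congr rfl fun m _ => ?_
    rw [← mul_assoc, Finset.mul_sum]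
    congr 1
    exact Finset.sum_congr rfl fun i _ => by ring
  · refine Finset.sum_congr rfl fun r _ => ?_
    split_ifs with hr
    · rw [mul_zero]
    · exact_mod_cast herr r

end Vale.Agent.P202
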