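import Vale.Agent.P202.Final
import Vale.Agent.P202.GScale

/-! The inequality `e(R) ≤ e(S)` in characteristic `p`, for arbitrary residue fields. -/

universe u

namespace Vale.Agent.P202

open IsLocalRing

/-- `e(R) ≤ e(S)` for every flat local map out of a ring of characteristic `p`. -/
theorem mult_le_of_charP (hC : GoalPhiClass.{u}) (hW : GoalPhiWindow.{u})
    (hL : GoalFrobLift.{u}) (hG3 : GoalReduceGen.{u}) (p : ℕ) [Fact p.Prime]
    (R S : Type u) [CommRing R] [IsLocalRing R] [IsNoetherianRing R] [CharP R p] [CommRing S]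
    [IsLocalRing S] [IsNoetherianRing S] [Algebra R S] [IsLocalHom (algebraMap R S)]
    [Module.Flat R S] {eR eS : ℝ} (heR : HasMult R eR) (heS : HasMult S eS) : eR ≤ eS := by
  obtain ⟨S₁, _, _, _, _, _, _, hdim, hle⟩ := goalEqualDim p R S
  obtain ⟨e₁, -, he₁⟩ := (koszulGoals.{u}).mult S₁
  refine le_trans ?_ (hle eS e₁ heS he₁)
  rcases Nat.eq_zero_or_pos (ndim R) with h0 | h0
  · exact mult_le_of_dim_zero h0 (hdim ▸ h0) heR he₁
  obtain ⟨R', S', _, _, _, _, _, _, _, _, _, _, _, _, _, hR', hS', hmR, hmS⟩ :=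
    hG3 p R S₁ hdim
  have hd : ndim R' = ndim S' := hR'.trans (hdim.trans hS'.symm)
  exact mult_le_of_scale koszulGoals goalReduction hW p
    (fun _ _ hx _ hy _ hM c hc e a hfin =>
      lift_scale_inequality koszulGoals hC hL p hx hd hy hM c hc e a hfin)
    h0 hR' (hS'.trans hdim.symm) (hmR eR heR) (hmS e₁ he₁)

end Vale.Agent.P202
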