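import Vale.Agent.P202.EqualChar
import Vale.Agent.P202.Final
import Vale.Agent.P202.G4Core

/-!
From the prime quotients of maximal dimension to the ring: the inequality `e(R) ≤ e(S)` follows
from the inequalities for `R ⧸ P → S ⧸ P S`.
-/

universe u

namespace Vale.Agent.P202

open IsLocalRing TensorProduct Filter

/-- The multiplicity is at most the Euler characteristic of any system of parameters. -/
lemma mult_le_kchi (G : KoszulGoals.{u}) {A : Type u} [CommRing A] [IsLocalRing A]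
    [IsNoetherianRing A] {d : ℕ} (hd : ndim A = d) {y : Fin d → A} (hy : Par y) {e : ℝ}
    (he : HasMult A e) : e ≤ (kchi y A : ℝ) := by
  have hfl : IsFiniteLength A (A ⧸ (Ideal.span (Set.range y) • (⊤ : Submodule A A))) := by
    rw [smul_eq_mul, Ideal.mul_top]
    exact Module.length_ne_top_iff.1 hy.fin
  obtain ⟨c, hc⟩ : ∃ c, maximalIdeal A ^ c ≤ Ideal.span (Set.range y) := by
    have : IsArtinianRing (A ⧸ Ideal.span (Set.range y)) := by
      have hfl := Module.length_ne_top_iff.1 hy.fin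
      rw [isFiniteLength_iff_isNoetherian_isArtinian] at hfl
      have := hfl.2
      exact isArtinian_of_tower A inferInstance
    exact IsLocalRing.exists_maximalIdeal_pow_le_of_isArtinianRing_quotient _
  have hQtop : ∀ n, (Ideal.span (Set.range y) ^ n • (⊤ : Submodule A A)) =
      Ideal.span (Set.range y) ^ n := fun n => by simp
  have hlim := (G.kmult A A d y hy.mem hfl).congr (fun n => by rw [hQtop n])
  rw [HasMult, hd] at he
  refine le_of_tendsto_of_tendsto' he hlim fun n => ?_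
  refine div_le_div_of_nonneg_right (mul_le_mul_of_nonneg_left ?_ (Nat.cast_nonneg _))
    (by positivity)
  refine Nat.cast_le.2 (ENat.toNat_le_toNat (Module.length_le_of_surjective
    (Submodule.factor (pow_le_pow_left' (Ideal.span_le.2 (by
      rintro _ ⟨l, rfl⟩; exact hy.mem l)) n)) (Submodule.factor_surjective _)) ?_)
  refine ne_top_of_le_ne_top (length_quot_maxPow_ne_top A (c * n)) (Module.length_le_of_surjective
    (Submodule.factor ?_) (Submodule.factor_surjective _))
  rw [pow_mul]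
  exact pow_le_pow_left' hc n

/-- The Euler characteristic of a quotient ring, over the ring or over itself. -/
lemma kchi_quot_eq {A : Type u} [CommRing A] [IsLocalRing A] (J : Ideal A) [IsLocalRing (A ⧸ J)]
    {d : ℕ} (y : Fin d → A) :
    kchi (fun l => Ideal.Quotient.mk J (y l)) (A ⧸ J) = kchi y (A ⧸ J) := by
  simp only [kchi]
  refine Finset.sum_congr rfl fun i _ => ?_
  rw [khlen_semilinear (Ideal.Quotient.mk J) (residue_surjective.comp Ideal.Quotient.mk_surjective)
    (AddEquiv.refl (A ⧸ J)) (fun b v => ?_) y i]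
  exact Algebra.smul_def b v

/-- A system of parameters stays one in a quotient. -/
lemma par_quot {A : Type u} [CommRing A] [IsLocalRing A] [IsNoetherianRing A] (J : Ideal A)
    [IsLocalRing (A ⧸ J)] {d : ℕ} {y : Fin d → A} (hy : Par y) :
    Par fun l => Ideal.Quotient.mk J (y l) := by
  haveI : IsLocalHom (Ideal.Quotient.mk J) :=
    IsLocalHom.of_surjective _ Ideal.Quotient.mk_surjective
  exact par_of_finite (Ideal.Quotient.mk J) (RingHom.Finite.of_surjective _
    Ideal.Quotient.mk_surjective) hy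

variable {R S : Type u} [CommRing R] [IsLocalRing R] [IsNoetherianRing R] [CommRing S]
  [IsLocalRing S] [IsNoetherianRing S] [Algebra R S] [IsLocalHom (algebraMap R S)]
  [Module.Flat R S]

/-- The hypothesis on the prime quotients gives the inequality between the two functionals. -/
theorem psi_base_le (G : KoszulGoals.{u}) {d : ℕ} (hd : ndim R = d) (hS : ndim R = ndim S)
    {x : Fin d → R} (hx : ∀ l, x l ∈ maximalIdeal R) {n₀ : ℕ}
    (hxred : ∀ n, n₀ ≤ n → maximalIdeal R ^ (n + 1) ≤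
      Ideal.span (Set.range x) * maximalIdeal R ^ n)
    {y : Fin d → S} (hy : Par y)
    (hprime : ∀ (P : Ideal R) [P.IsPrime], ndim (R ⧸ P) = d →
      ∀ (A B : Type u) [CommRing A] [IsLocalRing A] [IsNoetherianRing A] [CommRing B]
        [IsLocalRing B] [IsNoetherianRing B] [Algebra A B] [IsLocalHom (algebraMap A B)]
        [Module.Flat A B], (R ⧸ P →+* A) → ∀ eA eB : ℝ, HasMult A eA → HasMult B eB → eA ≤ eB)
    (M : Type u) [AddCommGroup M] [Module R M] [Module.Finite R M] :
    psi R x M ≤ psi R y M := by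
  obtain ⟨c, -, hc⟩ := exists_pow_le_of_reduction (hxred n₀ le_rfl)
  have hxpar : Par x := par_of_pow_le hx hc
  refine IsNoetherianRing.induction_on_isQuotientEquivQuotientPrime R (M := M) ‹_›
    (motive := fun N _ _ _ => psi R x N ≤ psi R y N) ?_ ?_ ?_
  · intro N _ _ _ hN
    rw [psi_subsingleton G hxpar, psi_subsingleton G hy]
  · intro N _ _ _ P e
    rw [psi_congr (y := x) e, psi_congr (y := y) e]
    set 𝔭 := P.asIdeal
    haveI : 𝔭.IsPrime := P.isPrime
    have hkill : KilledBy 𝔭 (R ⧸ 𝔭) := by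
      intro a ha v
      obtain ⟨v, rfl⟩ := Submodule.Quotient.mk_surjective _ v
      rw [← Submodule.Quotient.mk_smul, Submodule.Quotient.mk_eq_zero]
      exact 𝔭.mul_mem_right v ha
    have hle : ndim (R ⧸ 𝔭) ≤ d := hd ▸ ndim_quotient_le 𝔭 (Ideal.IsPrime.ne_top ‹_›)
    rcases hle.lt_or_eq with h | h
    · haveI : IsLocalHom (algebraMap R R) := ⟨fun _ h => h⟩
      rw [psi_eq_zero G hxpar rfl 𝔭 h _ hkill, psi_eq_zero G hy hS 𝔭 h _ hkill]
    haveI : IsLocalRing (R ⧸ 𝔭) := .of_surjective' _ Ideal.Quotient.mk_surjective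
    set J := 𝔭.map (algebraMap R S)
    have hJ : J ≠ ⊤ := ne_top_of_le_ne_top (map_maximalIdeal_lt_top (algebraMap R S)).ne
      (Ideal.map_mono (le_maximalIdeal (Ideal.IsPrime.ne_top ‹_›)))
    haveI : Nontrivial (S ⧸ J) := Ideal.Quotient.nontrivial_iff.2 hJ
    haveI : IsLocalRing (S ⧸ J) := .of_surjective' _ Ideal.Quotient.mk_surjective
    haveI : IsLocalHom (algebraMap (R ⧸ 𝔭) (S ⧸ J)) := by
      refine ⟨fun a ha => ?_⟩
      obtain ⟨a, rfl⟩ := Ideal.Quotient.mk_surjective a
      haveI : IsLocalHom (Ideal.Quotient.mk J) :=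
        IsLocalHom.of_surjective _ Ideal.Quotient.mk_surjective
      exact ((isUnit_map_iff (algebraMap R S) a).1
        ((isUnit_map_iff (Ideal.Quotient.mk J) _).1 ha)).map _
    haveI : Module.Flat (R ⧸ 𝔭) (S ⧸ J) := by
      haveI : Module.Flat (R ⧸ 𝔭) ((R ⧸ 𝔭) ⊗[R] S) := inferInstance
      let e' : ((R ⧸ 𝔭) ⊗[R] S) ≃ₗ[R] S ⧸ J :=
        (TensorProduct.comm R (R ⧸ 𝔭) S).trans
          ((Algebra.TensorProduct.quotIdealMapEquivTensorQuot S 𝔭).toLinearEquiv.symm.restrictScalars
            R)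
      let e'' : ((R ⧸ 𝔭) ⊗[R] S) ≃ₗ[R ⧸ 𝔭] S ⧸ J :=
        { e' with
          map_smul' := fun a v => by
            obtain ⟨a, rfl⟩ := Ideal.Quotient.mk_surjective a
            show e' (Ideal.Quotient.mk 𝔭 a • v) = Ideal.Quotient.mk 𝔭 a • e' v
            rw [← Ideal.Quotient.algebraMap_eq, algebraMap_smul, algebraMap_smul, map_smul] }
      exact Module.Flat.of_linearEquiv e''.symm
    have hdS : ndim (S ⧸ J) = d := ndim_eq_of_flat_par h (par_quot J hy)
    obtain ⟨eA, -, heA⟩ := G.mult (R ⧸ 𝔭)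
    obtain ⟨eB, -, heB⟩ := G.mult (S ⧸ J)
    have hAB : eA ≤ eB :=
      hprime 𝔭 h (R ⧸ 𝔭) (S ⧸ J) (RingHom.id _) eA eB heA heB
    have hA : eA = (kchi (fun l => Ideal.Quotient.mk 𝔭 (x l)) (R ⧸ 𝔭) : ℝ) := by
      have hmap : (maximalIdeal R).map (Ideal.Quotient.mk 𝔭) = maximalIdeal (R ⧸ 𝔭) :=
        IsLocalRing.map_maximalIdeal_of_surjective _ Ideal.Quotient.mk_surjective
      refine hasMult_eq_kchi G h (fun l => hmap.le (Ideal.mem_map_of_mem _ (hx l)))
        (n₀ := n₀) (fun n hn => ?_) heA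
      rw [← hmap, ← Ideal.map_pow, ← Ideal.map_pow]
      refine (Ideal.map_mono (hxred n hn)).trans ?_
      rw [Ideal.map_mul, Ideal.map_span, ← Set.range_comp]
      rfl
    have hB := mult_le_kchi G hdS (par_quot J hy) heB
    rw [kchi_quot_eq] at hA hB
    have h1 : psi R x (R ⧸ 𝔭) = kchi x (R ⧸ 𝔭) :=
      kchi_congr x (TensorProduct.lid R (R ⧸ 𝔭))
    have h2 : psi R y (R ⧸ 𝔭) = kchi y (S ⧸ J) :=
      kchi_congr y (Algebra.TensorProduct.quotIdealMapEquivTensorQuot S 𝔭).toLinearEquiv.symm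
    rw [h1, h2]
    exact_mod_cast hA ▸ hAB.trans hB
  · intro N₁ _ _ _ N₂ _ _ _ N₃ _ _ _ f g hf hg he h₁ h₃
    haveI : IsLocalHom (algebraMap R R) := ⟨fun _ h => h⟩
    rw [psi_add G hxpar f g hf he hg, psi_add G hy f g hf he hg]
    exact add_le_add h₁ h₃

/-- The case of infinite residue fields and equal positive dimensions. -/
theorem mult_le_of_primes_infinite (G : KoszulGoals.{u}) (hRed : GoalReduction.{u})
    [Infinite (ResidueField R)] [Infinite (ResidueField S)] {d : ℕ} (hd : ndim R = d)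
    (hS : ndim R = ndim S)
    (hprime : ∀ (P : Ideal R) [P.IsPrime], ndim (R ⧸ P) = d →
      ∀ (A B : Type u) [CommRing A] [IsLocalRing A] [IsNoetherianRing A] [CommRing B]
        [IsLocalRing B] [IsNoetherianRing B] [Algebra A B] [IsLocalHom (algebraMap A B)]
        [Module.Flat A B], (R ⧸ P →+* A) → ∀ eA eB : ℝ, HasMult A eA → HasMult B eB → eA ≤ eB)
    {eR eS : ℝ} (heR : HasMult R eR) (heS : HasMult S eS) : eR ≤ eS := by
  obtain ⟨D, -, hD, x, hx, n₀, hxred⟩ := hRed R
  obtain rfl := hD ‹_›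
  obtain ⟨D, -, hD, y, hy, n₁, hyred⟩ := hRed S
  obtain rfl := hD ‹_›
  simp only [pow_one] at hx hy
  subst hd
  obtain ⟨y', hy', hy'red⟩ : ∃ y' : Fin (ndim R) → S, (∀ l, y' l ∈ maximalIdeal S) ∧
      ∀ n, n₁ ≤ n → maximalIdeal S ^ (n + 1) ≤
        Ideal.span (Set.range y') * maximalIdeal S ^ n := by
    rw [hS]
    exact ⟨y, hy, hyred⟩
  obtain ⟨c, -, hc⟩ := exists_pow_le_of_reduction (hy'red n₁ le_rfl)
  have h := psi_base_le G rfl hS hx hxred (par_of_pow_le hy' hc) hprime R
  rw [hasMult_eq_kchi G rfl hx hxred heR, hasMult_eq_kchi G hS.symm hy' hy'red heS, ← psi_self (R := R) (S := R),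
    ← psi_self (R := R) (S := S)]
  exact_mod_cast h

end Vale.Agent.P202
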