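import Vale.Agent.P202.GPrimes
import Vale.Agent.P202.ReduceAux
import Vale.Agent.P202.GrowthBound

/-!
The inequality `e(R) ≤ e(S)` when every prime quotient of `R` of maximal dimension contains a
field.
-/

universe u

namespace Vale.Agent.P202

open IsLocalRing

attribute [local instance] Polynomial.algebra

/-- The prime ideal `m R[T]`. -/
noncomputable abbrev qPoly (A : Type u) [CommRing A] [IsLocalRing A] : Ideal (Polynomial A) :=
  (maximalIdeal A).map Polynomial.C

instance qPoly_isPrime (A : Type u) [CommRing A] [IsLocalRing A] : (qPoly A).IsPrime :=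
  Ideal.isPrime_map_C_of_isPrime

/-- The localisation `A(T)`. -/
abbrev Gonf (A : Type u) [CommRing A] [IsLocalRing A] : Type u :=
  Localization.AtPrime (qPoly A)

section Gonf

variable (A : Type u) [CommRing A] [IsLocalRing A]

lemma gonf_map : (maximalIdeal A).map (algebraMap A (Gonf A)) = maximalIdeal (Gonf A) := by
  rw [IsScalarTower.algebraMap_eq A (Polynomial A) (Gonf A), ← Ideal.map_map]
  exact Localization.AtPrime.map_eq_maximalIdeal

lemma gonf_local : IsLocalHom (algebraMap A (Gonf A)) :=
  ((local_hom_TFAE (algebraMap A (Gonf A))).out 0 2).mpr (gonf_map A).le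

lemma gonf_flat : Module.Flat A (Gonf A) := Module.Flat.trans A (Polynomial A) (Gonf A)

lemma gonf_infinite : Infinite (ResidueField (Gonf A)) := by
  refine Infinite.of_injective
    (fun i : ℕ => residue (Gonf A) (algebraMap (Polynomial A) (Gonf A) (Polynomial.X ^ i)))
    fun i j hij => ?_
  by_contra hne
  simp only at hij
  rw [← sub_eq_zero, ← map_sub, residue_eq_zero_iff, ← map_sub,
    IsLocalization.AtPrime.to_map_mem_maximal_iff (Gonf A) (qPoly A), Ideal.mem_map_C_iff] at hij
  have := hij i
  simp [Polynomial.coeff_X_pow, hne] at this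

lemma gonf_noetherian [IsNoetherianRing A] : IsNoetherianRing (Gonf A) :=
  IsLocalization.isNoetherianRing (qPoly A).primeCompl _ inferInstance

end Gonf

/-- Every prime quotient of maximal dimension contains a field. -/
def FieldQuotients (R : Type u) [CommRing R] : Prop :=
  ∀ (P : Ideal R), P.IsPrime → ndim (R ⧸ P) = ndim R →
    ∃ (K : Type u) (_ : Field K), Nonempty (K →+* R ⧸ P)

/-- The property passes to `R(T)`. -/
lemma fieldQuotients_gonf {R : Type u} [CommRing R] [IsLocalRing R] [IsNoetherianRing R]
    (h : FieldQuotients R) : FieldQuotients (Gonf R) := by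
  classical
  haveI := gonf_noetherian R
  haveI := gonf_local R
  haveI := gonf_flat R
  intro Q hQ hdim
  set P := Q.comap (algebraMap R (Gonf R))
  haveI : P.IsPrime := Ideal.comap_isPrime _ _
  have hnd : ndim (Gonf R) = ndim R := ndim_eq_of_map_maximalIdeal (gonf_map R)
  have hPd : ndim (R ⧸ P) = ndim R := by
    refine le_antisymm (ndim_quotient_le P (Ideal.IsPrime.ne_top ‹_›)) ?_
    haveI : IsLocalRing (R ⧸ P) := .of_surjective' _ Ideal.Quotient.mk_surjective
    haveI : IsNoetherianRing (R ⧸ P) := inferInstance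
    obtain ⟨ys, hlen, hys, c, hc⟩ := exists_parameters (A := R ⧸ P)
    have hlift : ∀ a : R ⧸ P, ∃ r : R, Ideal.Quotient.mk P r = a := Ideal.Quotient.mk_surjective
    choose lift hlift using hlift
    let s : Finset (Gonf R) := (ys.toFinset.image lift).image (algebraMap R (Gonf R))
    have hmem : ∀ a ∈ ys, lift a ∈ maximalIdeal R := fun a ha => by
      haveI : IsLocalHom (Ideal.Quotient.mk P) :=
        IsLocalHom.of_surjective _ Ideal.Quotient.mk_surjective
      by_contra hu
      have := (IsLocalRing.notMem_maximalIdeal.1 hu).map (Ideal.Quotient.mk P)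
      rw [hlift] at this
      exact (mem_maximalIdeal _).1 (hys a ha) this
    have h1 : maximalIdeal R ^ c ≤ P ⊔ Ideal.span ((ys.toFinset.image lift : Finset R) : Set R) := by
      intro r hr
      have hr' : Ideal.Quotient.mk P r ∈ maximalIdeal (R ⧸ P) ^ c := by
        rw [← IsLocalRing.map_maximalIdeal_of_surjective _ Ideal.Quotient.mk_surjective,
          ← Ideal.map_pow]
        exact Ideal.mem_map_of_mem _ hr
      have hr'' := hc hr'
      have hspan : Ideal.span {a | a ∈ ys} ≤
          (Ideal.span ((ys.toFinset.image lift : Finset R) : Set R)).map (Ideal.Quotient.mk P) := by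
        rw [Ideal.span_le]
        intro a ha
        rw [← hlift a]
        exact Ideal.mem_map_of_mem _ (Ideal.subset_span
          (Finset.mem_coe.2 (Finset.mem_image_of_mem lift (List.mem_toFinset.2 ha))))
      have := hspan hr''
      rwa [Ideal.mem_quotient_iff_mem_sup, sup_comm] at this
    have h2 : maximalIdeal (Gonf R) ^ c ≤ Q ⊔ Ideal.span (s : Set (Gonf R)) := by
      rw [← gonf_map, ← Ideal.map_pow]
      refine (Ideal.map_mono h1).trans ?_
      rw [Ideal.map_sup, Ideal.map_span]
      refine sup_le_sup Ideal.map_comap_le ?_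
      simp only [s, Finset.coe_image, le_refl]
    have h3 := ndim_quotient_le_card Q hQ.ne_top s (fun z hz => by
      obtain ⟨b, hb, rfl⟩ := Finset.mem_image.1 hz
      obtain ⟨w, hw, rfl⟩ := Finset.mem_image.1 hb
      exact map_maximalIdeal_le _ (Ideal.mem_map_of_mem _ (hmem w (List.mem_toFinset.1 hw)))) c h2
    have h4 : s.card ≤ ys.length :=
      (Finset.card_image_le.trans Finset.card_image_le).trans (List.toFinset_card_le ys)
    omega
  obtain ⟨K, _, ⟨g⟩⟩ := h P ‹_› hPd
  exact ⟨K, inferInstance, ⟨(Ideal.quotientMap Q (algebraMap R (Gonf R)) le_rfl).comp g⟩⟩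

/-- The inequality, given the inequality for all rings containing a field. -/
theorem mult_le_of_fieldQuotients (G : KoszulGoals.{u}) (hRed : GoalReduction.{u})
    (hfield : ∀ (K A B : Type u) [Field K] [CommRing A] [IsLocalRing A] [IsNoetherianRing A]
      [Algebra K A] [CommRing B] [IsLocalRing B] [IsNoetherianRing B] [Algebra A B]
      [IsLocalHom (algebraMap A B)] [Module.Flat A B], ∀ eA eB : ℝ,
      HasMult A eA → HasMult B eB → eA ≤ eB)
    (R S : Type u) [CommRing R] [IsLocalRing R] [IsNoetherianRing R] [CommRing S] [IsLocalRing S]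
    [IsNoetherianRing S] [Algebra R S] [IsLocalHom (algebraMap R S)] [Module.Flat R S]
    (hR : FieldQuotients R) {eR eS : ℝ} (heR : HasMult R eR) (heS : HasMult S eS) : eR ≤ eS := by
  classical
  obtain ⟨S₁, _, _, _, _, _, _, hdim, hle⟩ := exists_equalDim R S
  obtain ⟨e₁, -, he₁⟩ := G.mult S₁
  refine le_trans ?_ (hle eS e₁ heS he₁)
  haveI := gonf_noetherian R
  haveI := gonf_noetherian S₁
  haveI := gonf_infinite R
  haveI := gonf_infinite S₁
  haveI := gonf_local R
  haveI := gonf_local S₁
  haveI := gonf_flat R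
  haveI := gonf_flat S₁
  have hq : qPoly R = (qPoly S₁).comap (Polynomial.mapRingHom (algebraMap R S₁)) := by
    ext f
    rw [Ideal.mem_comap, Ideal.mem_map_C_iff, Ideal.mem_map_C_iff]
    refine forall_congr' fun i => ?_
    rw [Polynomial.coe_mapRingHom, Polynomial.coeff_map, mem_maximalIdeal, mem_maximalIdeal,
      mem_nonunits_iff, mem_nonunits_iff, isUnit_map_iff (algebraMap R S₁)]
  let φ : Gonf R →+* Gonf S₁ :=
    Localization.localRingHom (qPoly R) (qPoly S₁) (Polynomial.mapRingHom (algebraMap R S₁)) hq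
  letI : Algebra (Gonf R) (Gonf S₁) := φ.toAlgebra
  haveI : IsLocalHom (algebraMap (Gonf R) (Gonf S₁)) :=
    Localization.isLocalHom_localRingHom _ _ _ hq
  haveI : Module.Flat (Gonf R) (Gonf S₁) := by
    have hpoly : Module.Flat (Polynomial R) (Polynomial S₁) :=
      Module.Flat.isBaseChange R (Polynomial R) S₁ (Polynomial S₁)
        (Algebra.IsPushout.out (R := R) (S := Polynomial R) (R' := S₁) (S' := Polynomial S₁))
    have h : (Polynomial.mapRingHom (algebraMap R S₁)).Flat :=
      RingHom.flat_algebraMap_iff.2 hpoly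
    exact RingHom.flat_algebraMap_iff.1 (RingHom.Flat.localRingHom h (qPoly S₁) (qPoly R) hq)
  have hdR : ndim (Gonf R) = ndim R := ndim_eq_of_map_maximalIdeal (gonf_map R)
  have hdS : ndim (Gonf S₁) = ndim S₁ := ndim_eq_of_map_maximalIdeal (gonf_map S₁)
  refine mult_le_of_primes_infinite G hRed (d := ndim R) hdR (hdR.trans (hdim.trans hdS.symm))
    (fun P _ hP A B _ _ _ _ _ _ _ _ _ g eA eB hA hB => ?_)
    (hasMult_of_map_maximalIdeal (gonf_map R) heR) (hasMult_of_map_maximalIdeal (gonf_map S₁) he₁)
  obtain ⟨K, _, ⟨k⟩⟩ := fieldQuotients_gonf hR P inferInstance (hP.trans hdR.symm)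
  letI : Algebra K A := (g.comp k).toAlgebra
  exact hfield K A B eA eB hA hB

end Vale.Agent.P202
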