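import Vale.Agent.P202.EPowerSeries

/-!
GoalGradA, part 3: monomial translates of finitely many elements with given degrees, counted by
degree, and the comparison with `s T ^ d / d!`.
-/

namespace Vale.Agent.P202

namespace GRA

open Finset Filter

variable {ι : Type*} [Fintype ι] (d b : ℕ)

/-- Translates in degree `w`. -/
noncomputable def cnt (u : ι → ℕ) (w : ℕ) : ℕ :=
  ∑ t, {δ : Fin d →₀ ℕ | u t + b * δ.degree = w}.ncard

/-- Translates in degrees less than `N`. -/
noncomputable def cum (u : ι → ℕ) (N : ℕ) : ℕ :=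
  ∑ t, {δ : Fin d →₀ ℕ | u t + b * δ.degree < N}.ncard

variable {d b}

lemma finite_lt (hb : 0 < b) (a N : ℕ) : {δ : Fin d →₀ ℕ | a + b * δ.degree < N}.Finite :=
  (Finsupp.finite_of_degree_lt (σ := Fin d) N).subset fun δ hδ => by
    have h1 : a + b * δ.degree < N := hδ
    have h2 := Nat.le_mul_of_pos_left δ.degree hb
    show δ.degree < N
    omega

lemma finite_eq (hb : 0 < b) (a w : ℕ) : {δ : Fin d →₀ ℕ | a + b * δ.degree = w}.Finite :=
  (finite_lt hb a (w + 1)).subset fun _ h => Nat.lt_succ_of_le (le_of_eq h)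

lemma cum_zero (u : ι → ℕ) : cum d b u 0 = 0 := by simp [cum]

lemma cum_succ (hb : 0 < b) (u : ι → ℕ) (w : ℕ) :
    cum d b u (w + 1) = cum d b u w + cnt d b u w := by
  rw [cum, cum, cnt, ← Finset.sum_add_distrib]
  refine Finset.sum_congr rfl fun t _ => ?_
  rw [← Set.ncard_union_eq _ (finite_lt hb _ _) (finite_eq hb _ _)]
  · congr 1
    ext δ
    simp only [Set.mem_union, Set.mem_ofPred_eq]
    omega
  · rw [Set.disjoint_left]
    intro δ h1 h2
    exact (Nat.ne_of_lt h1) h2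

/-- The growth of a power. -/
lemma add_pow_le (a c : ℕ) : ∀ e : ℕ, (a + c) ^ e ≤ a ^ e + e * c * (a + c) ^ (e - 1)
  | 0 => by simp
  | e + 1 => by
    rcases Nat.eq_zero_or_pos e with he | he
    · subst he; simp
    have h := Nat.mul_le_mul_left (a + c) (add_pow_le a c e)
    have e1 : (a + c) * (a + c) ^ (e - 1) = (a + c) ^ e := by
      rw [← pow_succ', Nat.sub_add_cancel he]
    have h2 : c * a ^ e ≤ c * (a + c) ^ e :=
      Nat.mul_le_mul_left c (Nat.pow_le_pow_left (Nat.le_add_right a c) e)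
    rw [Nat.add_sub_cancel]
    calc (a + c) ^ (e + 1) = (a + c) * (a + c) ^ e := pow_succ' _ _
      _ ≤ (a + c) * (a ^ e + e * c * (a + c) ^ (e - 1)) := h
      _ = a ^ (e + 1) + c * a ^ e + e * c * ((a + c) * (a + c) ^ (e - 1)) := by ring
      _ ≤ a ^ (e + 1) + c * (a + c) ^ e + e * c * (a + c) ^ e := by rw [e1]; gcongr
      _ = _ := by ring

lemma add_pow_le' {T : ℕ} (hT : 0 < T) (c e : ℕ) :
    (T + c) ^ e ≤ T ^ e + e * c * (1 + c) ^ (e - 1) * T ^ (e - 1) := by
  refine (add_pow_le T c e).trans ?_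
  rw [mul_assoc (e * c) ((1 + c) ^ (e - 1)), ← mul_pow]
  gcongr
  have := Nat.le_mul_of_pos_right c hT
  rw [add_mul, one_mul]
  omega

/-- The monomials of degree less than `T`, from above. -/
lemma ncard_le {T : ℕ} (hT : 0 < T) :
    d.factorial * {e : Fin d →₀ ℕ | e.degree < T}.ncard ≤
      T ^ d + d * d * (1 + d) ^ (d - 1) * T ^ (d - 1) := by
  rw [ncard_degree_lt d hT]
  calc T.ascFactorial d ≤ (T + 1).ascFactorial d := ascFactorial_le_succ T d
    _ ≤ (T + d) ^ d := Nat.ascFactorial_le_pow_add T d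
    _ ≤ _ := add_pow_le' hT d d

/-- The monomials of degree less than `T - a`, from below. -/
lemma le_ncard (hd : 0 < d) (T a : ℕ) :
    T ^ d ≤ d.factorial * {e : Fin d →₀ ℕ | e.degree < T - a}.ncard + d * a * T ^ (d - 1) := by
  rcases Nat.lt_or_ge a T with h | h
  · rw [ncard_degree_lt d (Nat.sub_pos_of_lt h)]
    have h1 := add_pow_le (T - a) a d
    rw [Nat.sub_add_cancel h.le] at h1
    exact h1.trans (Nat.add_le_add_right (Nat.pow_succ_le_ascFactorial _ _) _)
  · have h1 : T ^ d ≤ d * a * T ^ (d - 1) := by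
      conv_lhs => rw [← Nat.sub_add_cancel hd, pow_succ']
      exact Nat.mul_le_mul_right _ (h.trans (Nat.le_mul_of_pos_left a hd))
    exact h1.trans le_add_self

lemma cum_le (u : ι → ℕ) {T : ℕ} (hT : 0 < T) :
    d.factorial * cum d b u (b * T) ≤ Fintype.card ι * T ^ d +
      Fintype.card ι * (d * d * (1 + d) ^ (d - 1)) * T ^ (d - 1) := by
  rw [cum, Finset.mul_sum]
  calc ∑ t, d.factorial * {δ : Fin d →₀ ℕ | u t + b * δ.degree < b * T}.ncard
      ≤ ∑ _t : ι, (T ^ d + d * d * (1 + d) ^ (d - 1) * T ^ (d - 1)) := by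
        refine Finset.sum_le_sum fun t _ => le_trans ?_ (ncard_le hT)
        refine Nat.mul_le_mul_left _ (Set.ncard_le_ncard (fun δ hδ => ?_)
          (Finsupp.finite_of_degree_lt T))
        show δ.degree < T
        have h1 : u t + b * δ.degree < b * T := hδ
        exact lt_of_mul_lt_mul_left (lt_of_le_of_lt le_add_self h1) (Nat.zero_le b)
    _ = _ := by simp [mul_add, mul_assoc]

lemma le_cum (hd : 0 < d) (hb : 0 < b) (u : ι → ℕ) (T : ℕ) :
    Fintype.card ι * T ^ d ≤
      d.factorial * cum d b u (b * T) + d * (∑ t, u t) * T ^ (d - 1) := by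
  rw [cum, Finset.mul_sum, Finset.mul_sum, Finset.sum_mul, ← Finset.sum_add_distrib]
  calc Fintype.card ι * T ^ d = ∑ _t : ι, T ^ d := by simp
    _ ≤ _ := Finset.sum_le_sum fun t _ => by
      refine (le_ncard hd T (u t)).trans (Nat.add_le_add_right ?_ _)
      refine Nat.mul_le_mul_left _ (Set.ncard_le_ncard (fun δ hδ => ?_) (finite_lt hb _ _))
      show u t + b * δ.degree < b * T
      have h1 : δ.degree + u t + 1 ≤ T := by
        have : δ.degree < T - u t := hδ
        omega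
      have h2 := Nat.mul_le_mul_left b h1
      have h3 := Nat.le_mul_of_pos_left (u t) hb
      rw [mul_add, mul_add, mul_one] at h2
      omega

/-- A sequence with the growth `s T ^ d` has the limit `s`. -/
lemma tendsto_of_bounds (hd : 0 < d) (f : ℕ → ℕ) (s C : ℕ)
    (h1 : ∀ T, 0 < T → d.factorial * f T ≤ s * T ^ d + C * T ^ (d - 1))
    (h2 : ∀ T, 0 < T → s * T ^ d ≤ d.factorial * f T + C * T ^ (d - 1)) :
    Tendsto (fun T : ℕ => (d.factorial : ℝ) * (f T : ℝ) / (T : ℝ) ^ d) atTop (nhds (s : ℝ)) := by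
  rw [← tendsto_sub_nhds_zero_iff]
  refine squeeze_zero_norm' ?_ (tendsto_const_div_atTop_nhds_zero_nat (C : ℝ))
  filter_upwards [eventually_gt_atTop 0] with T hT
  have hT' : (0 : ℝ) < T := by exact_mod_cast hT
  have e1 : (d.factorial : ℝ) * f T ≤ s * (T : ℝ) ^ d + C * (T : ℝ) ^ (d - 1) := by
    exact_mod_cast h1 T hT
  have e2 : (s : ℝ) * (T : ℝ) ^ d ≤ d.factorial * f T + C * (T : ℝ) ^ (d - 1) := by
    exact_mod_cast h2 T hT
  have e3 : (T : ℝ) ^ d = T * (T : ℝ) ^ (d - 1) := by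
    rw [← pow_succ', Nat.sub_add_cancel hd]
  rw [Real.norm_eq_abs, div_sub' (pow_ne_zero _ hT'.ne'), abs_div, abs_of_pos (pow_pos hT' d),
    div_le_div_iff₀ (pow_pos hT' d) hT']
  calc |(d.factorial : ℝ) * f T - (T : ℝ) ^ d * s| * T
      ≤ (C * (T : ℝ) ^ (d - 1)) * T := by
        refine mul_le_mul_of_nonneg_right (abs_le.2 ⟨?_, ?_⟩) hT'.le <;> linarith
    _ = (C : ℝ) * (T : ℝ) ^ d := by rw [e3]; ring

end GRA

end Vale.Agent.P202
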