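import Vale.Agent.P202.InterfacesBand2
import Vale.Agent.P202.CIFinal

/-!
GoalGradA, part 1: the ideal of initial forms, and the annihilator of `U₀` modulo the forms `F`,
also after taking roots of the coefficients and expanding.
-/

universe u

namespace Vale.Agent.P202

namespace GRA

open MvPolynomial

attribute [local instance] MvPolynomial.weightedGradedAlgebra

section parts

variable {k : Type u} [CommRing k] {σ : Type*} (m : ℕ)

/-- Exponents modulo `m`. -/
noncomputable def emod (γ : σ →₀ ℕ) : σ →₀ ℕ := γ.mapRange (· % m) (Nat.zero_mod m)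

/-- Exponents divided by `m`. -/
noncomputable def ediv (γ : σ →₀ ℕ) : σ →₀ ℕ := γ.mapRange (· / m) (Nat.zero_div m)

lemma emod_ediv (γ : σ →₀ ℕ) : m • ediv m γ + emod m γ = γ := by
  ext v; simp [emod, ediv, Nat.div_add_mod]

variable (k) in
/-- The coefficient of the exponent `ρ` in the basis over the expanded polynomials. -/
noncomputable def part (ρ : σ →₀ ℕ) : MvPolynomial σ k →ₗ[k] MvPolynomial σ k :=
  letI := Classical.decEq (σ →₀ ℕ)
  (basisMonomials σ k).constr k fun γ => if emod m γ = ρ then monomial (ediv m γ) 1 else 0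

lemma part_monomial [DecidableEq (σ →₀ ℕ)] (ρ γ : σ →₀ ℕ) (c : k) :
    part k m ρ (monomial γ c) = if emod m γ = ρ then monomial (ediv m γ) c else 0 := by
  have h : monomial γ c = c • basisMonomials σ k γ := by simp [smul_monomial]
  rw [h, part, map_smul, Module.Basis.constr_basis]
  split_ifs <;> simp_all [smul_monomial]

lemma part_expand_mul (hm : 0 < m) (ρ : σ →₀ ℕ) (A P : MvPolynomial σ k) :
    part k m ρ (expand m A * P) = A * part k m ρ P := by
  classical
  induction A using MvPolynomial.induction_on' with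
  | monomial δ c =>
    induction P using MvPolynomial.induction_on' with
    | monomial γ e =>
      rw [expand_monomial_eq, monomial_mul, part_monomial, part_monomial]
      have h1 : emod m (m • δ + γ) = emod m γ := by ext v; simp [emod]
      have h2 : ediv m (m • δ + γ) = δ + ediv m γ := by
        ext v
        simp [ediv, Nat.mul_add_div hm]
      rw [h1, h2, mul_ite, mul_zero, monomial_mul]
    | add P P' hP hP' => rw [mul_add, map_add, hP, hP', map_add, mul_add]
  | add A A' hA hA' => rw [map_add, add_mul, map_add, hA, hA', add_mul]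
where
  expand_monomial_eq {δ : σ →₀ ℕ} {c : k} :
      expand m (monomial δ c) = monomial (m • δ) c := expand_monomial _ _ _

lemma eq_sum_part {P : MvPolynomial σ k} [DecidableEq (σ →₀ ℕ)] :
    P = ∑ ρ ∈ P.support.image (emod m), expand m (part k m ρ P) * monomial ρ 1 := by
  have key : ∀ γ ∈ P.support, ∀ c : k, monomial γ c =
      ∑ ρ ∈ P.support.image (emod m), expand m (part k m ρ (monomial γ c)) * monomial ρ 1 := by
    intro γ hγ c
    rw [Finset.sum_eq_single (emod m γ)]
    · rw [part_monomial, if_pos rfl, expand_monomial, monomial_mul, mul_one, emod_ediv]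
    · intro ρ _ hne; rw [part_monomial, if_neg hne.symm, map_zero, zero_mul]
    · exact fun h => absurd (Finset.mem_image_of_mem _ hγ) h
  conv_lhs => rw [P.as_sum, Finset.sum_congr rfl fun γ hγ => key γ hγ (coeff γ P)]
  rw [Finset.sum_comm]
  refine Finset.sum_congr rfl fun ρ _ => ?_
  rw [← Finset.sum_mul, ← map_sum, ← map_sum, ← P.as_sum]

lemma mem_span_expand (hm : 0 < m) (I : Ideal (MvPolynomial σ k)) (P : MvPolynomial σ k) :
    P ∈ Ideal.span (expand m '' (I : Set (MvPolynomial σ k))) ↔ ∀ ρ, part k m ρ P ∈ I := by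
  classical
  constructor
  · intro h ρ
    suffices ∀ c, part k m ρ (c * P) ∈ I by simpa using this 1
    induction h using Submodule.span_induction with
    | mem _ h =>
      obtain ⟨A, hA, rfl⟩ := h
      intro c
      rw [mul_comm, part_expand_mul m hm]
      exact I.mul_mem_right _ hA
    | zero => simp
    | add _ _ _ _ ha hb => intro c; rw [mul_add, map_add]; exact I.add_mem (ha c) (hb c)
    | smul a _ _ hx => intro c; rw [smul_eq_mul, ← mul_assoc]; exact hx (c * a)
  · intro h
    rw [eq_sum_part m (P := P)]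
    exact Ideal.sum_mem _ fun ρ _ =>
      Ideal.mul_mem_right _ _ (Ideal.subset_span ⟨_, h ρ, rfl⟩)

lemma span_expand_eq (S : Set (MvPolynomial σ k)) :
    Ideal.span (expand m '' S) =
      Ideal.span (expand m '' (Ideal.span S : Set (MvPolynomial σ k))) := by
  refine le_antisymm (Ideal.span_mono (Set.image_mono Ideal.subset_span)) (Ideal.span_le.2 ?_)
  rintro _ ⟨A, hA, rfl⟩
  have := Ideal.mem_map_of_mem (expand m : MvPolynomial σ k →ₐ[k] MvPolynomial σ k).toRingHom hA
  rwa [Ideal.map_span] at this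

end parts

section CI

variable {p : ℕ} [Fact p.Prime] {k : Type u} [Field k] [CharP k p] [PerfectRing k p] {A : Type u}
  [CommRing A] [IsLocalRing A] [Algebra (WittVector p k) A] {d : ℕ} {x : Fin d → A} {b : ℕ}
  {G : ℕ → Ideal A}

/-- The strict evaluation carried by the complete intersection. -/
noncomputable def toBase (C : CIData p k A x b G) : CI.Base p k A x b G :=
  ⟨C.n, C.wt, C.wt_pos, C.wt_X, C.wt_H, C.ev, C.ev_C, C.ev_X, C.strict⟩

variable (C : CIData p k A x b G) (hG : NuFil p k A x b G)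

lemma initIdeal_eq : C.initIdeal = (toBase C).J hG := by
  refine le_antisymm (Ideal.span_le.2 ?_) fun H hH => ?_
  · rintro H ⟨N, h, h0, hh⟩
    exact ((toBase C).exists_ker_iff hG hh.1).2 ⟨h, h0, hh⟩
  · rw [← sum_weightedHomogeneousComponent C.wt H]
    refine finsum_induction (fun P => P ∈ C.initIdeal) (Submodule.zero_mem _)
      (fun _ _ => Submodule.add_mem _) fun N => ?_
    obtain ⟨h, h0, hh⟩ := ((toBase C).exists_ker_iff hG ((toBase C).comp_isWH N H)).1
      (weightedHomogeneousComponent_mem_of_mem k C.wt ((toBase C).J_homogeneous hG) hH N)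
    exact Ideal.subset_span ⟨N, h, h0, hh⟩

include hG in
lemma mem_initIdeal_iff {N : ℕ} {H : MvPolynomial (Vr d C.n) k}
    (hH : IsWeightedHomogeneous C.wt H N) :
    H ∈ C.initIdeal ↔ ∃ h, C.ev h = 0 ∧ HasInit p C.wt N h H := by
  rw [initIdeal_eq C hG]
  exact (toBase C).exists_ker_iff hG hH

lemma U₀_mul_mem {H : MvPolynomial (Vr d C.n) k} (hH : H ∈ C.initIdeal) :
    C.U₀ * H ∈ C.fIdeal := by
  induction hH using Submodule.span_induction with
  | mem H h =>
    obtain ⟨N, g, h0, hh⟩ := h
    exact C.U₀_ann N H hh.1 ⟨g, h0, hh⟩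
  | zero => simp
  | add a a' _ _ ha ha' => rw [mul_add]; exact Ideal.add_mem _ ha ha'
  | smul c a _ ha => rw [smul_eq_mul, mul_left_comm]; exact Ideal.mul_mem_left _ _ ha

lemma fIdeal_le : C.fIdeal ≤ C.initIdeal := by
  refine Ideal.span_le.2 ?_
  rintro _ ⟨v, rfl⟩
  exact Ideal.subset_span ⟨_, C.f v, C.f_ker v, C.f_init v⟩

omit [CharP k p] [PerfectRing k p] in
lemma inX_supported {n : ℕ} (P : MvPolynomial (Fin d) k) :
    inX (n := n) P ∈ supported k (CI.Base.xSet d n) := by
  rw [inX, CI.mem_supported_iff]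
  intro γ hγ v hv
  classical
  rw [support_rename_of_injective (fun a c h => by simpa using h)] at hγ
  obtain ⟨δ, -, rfl⟩ := Finset.mem_image.1 hγ
  by_contra hno
  exact hv (Finsupp.mapDomain_notin_range _ _ hno)

omit [CharP k p] [PerfectRing k p] in
lemma inX_injective {n : ℕ} : Function.Injective (inX (k := k) (d := d) (n := n)) :=
  rename_injective _ fun a c h => by simpa using h

lemma δ_sub_U₀_init :
    HasInit p C.wt C.c (C.δ - C.u) (inX C.δ₀ - C.U₀) := by
  refine ⟨C.δ_init.1.sub C.u_init.1, ?_⟩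
  have h1 := CI.liftPi_sub p (C.wt_pos none) C.δ_init.1 C.u_init.1
  have h2 := C.δ_init.2
  have h3 := C.u_init.2
  rw [CI.cong_iff p (C.wt_pos none)] at h1
  rw [← CI.mem_memWI p (hwt := C.wt_pos none)] at h2 h3 ⊢
  convert Ideal.sub_mem _ (Ideal.sub_mem _ h2 h3) h1 using 1
  ring

lemma δ₀_sub_U₀_mem : inX C.δ₀ - C.U₀ ∈ C.initIdeal :=
  Ideal.subset_span ⟨C.c, _, C.δ_sub_u, δ_sub_U₀_init C⟩

include hG in
lemma U₀_pow_mem_iff (a : ℕ) (H : MvPolynomial (Vr d C.n) k) :
    C.U₀ * inX C.δ₀ ^ a * H ∈ C.fIdeal ↔ H ∈ C.initIdeal := by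
  constructor
  · intro h
    have h1 : inX C.δ₀ ^ (a + 1) * H ∈ C.initIdeal := by
      have e : inX C.δ₀ ^ (a + 1) * H = C.U₀ * inX C.δ₀ ^ a * H +
          (inX C.δ₀ - C.U₀) * (inX C.δ₀ ^ a * H) := by ring
      rw [e]
      exact Ideal.add_mem _ (fIdeal_le C h) (Ideal.mul_mem_right _ _ (δ₀_sub_U₀_mem C))
    rw [initIdeal_eq C hG] at h1 ⊢
    refine (toBase C).J_tfree hG (Subalgebra.pow_mem _ (inX_supported C.δ₀) (a + 1)) ?_ h1
    exact pow_ne_zero _ fun h0 => C.δ₀_ne (inX_injective (h0.trans (by simp [inX])))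
  · intro h
    rw [mul_comm C.U₀, mul_assoc]
    exact Ideal.mul_mem_left _ _ (U₀_mul_mem C h)

include hG in
/-- The annihilator clause of `GoalGradA`. -/
theorem expand_root_iff (j l a : ℕ) (H : MvPolynomial (Vr d C.n) k) :
    expand (p ^ l) (rootPoly p j C.U₀ * rootPoly p j (inX C.δ₀) ^ a) * H ∈
        Ideal.span (Set.range fun v => expand (p ^ l) (rootPoly p j (C.F v))) ↔
      H ∈ Ideal.span ((fun P => expand (p ^ l) (rootPoly p j P)) ''
        (C.initIdeal : Set (MvPolynomial (Vr d C.n) k))) := by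
  classical
  have hm : 0 < p ^ l := pow_pos (Fact.out : p.Prime).pos _
  let φ : MvPolynomial (Vr d C.n) k ≃+* MvPolynomial (Vr d C.n) k :=
    mapEquiv (Vr d C.n) (iterateFrobeniusEquiv k p j).symm
  have hφ : ∀ P, rootPoly p j P = φ P := fun P => rfl
  have e1 : Ideal.span (Set.range fun v => expand (p ^ l) (rootPoly p j (C.F v))) =
      Ideal.span (expand (p ^ l) '' (C.fIdeal.map (φ : _ →+* MvPolynomial (Vr d C.n) k) :
        Set (MvPolynomial (Vr d C.n) k))) := by
    rw [CIData.fIdeal, Ideal.map_span, ← span_expand_eq, ← Set.range_comp, ← Set.range_comp]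
    rfl
  have e2 : Ideal.span ((fun P => expand (p ^ l) (rootPoly p j P)) ''
        (C.initIdeal : Set (MvPolynomial (Vr d C.n) k))) =
      Ideal.span (expand (p ^ l) '' (C.initIdeal.map (φ : _ →+* MvPolynomial (Vr d C.n) k) :
        Set (MvPolynomial (Vr d C.n) k))) := by
    rw [Ideal.map, ← span_expand_eq, Set.image_image]
    rfl
  rw [e1, e2, mem_span_expand _ hm, mem_span_expand _ hm]
  refine forall_congr' fun ρ => ?_
  rw [part_expand_mul _ hm]
  obtain ⟨P, hP⟩ := φ.surjective (part k (p ^ l) ρ H)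
  rw [← hP, hφ, hφ, ← map_pow, ← map_mul, ← map_mul, Ideal.map_comap_of_equiv,
    Ideal.map_comap_of_equiv, Ideal.mem_comap, Ideal.mem_comap]
  simp only [RingEquiv.symm_apply_apply]
  exact U₀_pow_mem_iff C hG a P

end CI

end GRA

end Vale.Agent.P202
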