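import Vale.Agent.P202.GRAGrowth

/-!
GoalGradA: growth, annihilator of `U₀`, and the ranks `e`, `N - e`.
-/

universe u

namespace Vale.Agent.P202

namespace GRA

open MvPolynomial IsLocalRing Filter

variable {p : ℕ} [Fact p.Prime] {R : Type u} [CommRing R] [IsLocalRing R] {k : Type u} [Field k]
  [CharP k p] [PerfectRing k p] {A : Type u} [CommRing A] [IsLocalRing A] [Algebra R A]
  [Algebra (WittVector p k) A] {d : ℕ} {xR : Fin d → R} {b : ℕ} {G : ℕ → Ideal A}
  {ι : ResidueField R →+* k} {e : ℝ}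

omit [IsLocalRing A] in
lemma length_quot_mono {I J : Ideal A} (h : I ≤ J) :
    Module.length A (A ⧸ J) ≤ Module.length A (A ⧸ I) :=
  Module.length_le_of_surjective (Submodule.factor h) (Submodule.factor_surjective h)

omit [CharP k p] [PerfectRing k p] in
lemma pow_le_G {x : Fin d → A} (hG : NuFil p k A x b G) : ∀ T, maximalIdeal A ^ T ≤ G (b * T)
  | 0 => by simp [hG.zero]
  | T + 1 => by
    rw [pow_succ, Nat.mul_succ]
    exact (Ideal.mul_mono (pow_le_G hG T) hG.max_le).trans (hG.mul _ _)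

/-- Growth and the minors. -/
theorem growth_minors (h : BandCtx p R A xR b G ι e)
    (C : CIData p k A (fun l => algebraMap R A (xR l)) b G) :
    (∃ K : ℕ, ∀ T : ℕ, 0 < T → Module.length A (A ⧸ G (b * T)) ≠ ⊤ ∧
      |((Module.length A (A ⧸ G (b * T))).toNat : ℝ) - e / d.factorial * (T : ℝ) ^ d| ≤
        (K : ℝ) * (T : ℝ) ^ (d - 1)) ∧
    ∃ s s' : ℕ, (s : ℝ) = e ∧ s + s' = ∏ v, C.deg v ∧ C.HasMinor C.U₀ s ∧
      C.HasMinor (inX C.δ₀ - C.U₀) s' := by
  have hd := h.d_pos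
  have hb := h.nu.b_pos
  obtain ⟨s, s', hsum, hm, hm'⟩ := exists_minors C h.nu
  obtain ⟨u₁, u₂, hL⟩ := length_bounds C h.nu h.residue_surj h.p_mem hm hm'
  choose L hLeq hlo hhi using hL
  set w := fun γ : Std C => Finsupp.weight C.wt γ.1
  obtain ⟨K, up, low⟩ : ∃ K : ℕ,
      (∀ T, 0 < T → d.factorial * L (b * T) ≤ s * T ^ d + K * T ^ (d - 1)) ∧
      ∀ T, 0 < T → s * T ^ d ≤ d.factorial * L (b * T) + K * T ^ (d - 1) := by
    refine ⟨Fintype.card (Std C) * (d * d * (1 + d) ^ (d - 1)) + d * (∑ t, u₂ t) +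
      d * (∑ t, u₁ t), fun T hT => ?_, fun T hT => ?_⟩
    · have h1 := cum_le (d := d) (b := b) w hT
      have h2 := le_cum hd hb u₂ T
      have h3 := Nat.mul_le_mul_left d.factorial (hhi (b * T))
      rw [mul_add] at h3
      rw [card_std, ← hsum] at h1 ⊢
      rw [Fintype.card_fin] at h2
      nlinarith [Nat.zero_le (d * (∑ t, u₁ t) * T ^ (d - 1))]
    · have h2 := le_cum hd hb u₁ T
      have h3 := Nat.mul_le_mul_left d.factorial (hlo (b * T))
      rw [Fintype.card_fin] at h2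
      nlinarith [Nat.zero_le ((Fintype.card (Std C) * (d * d * (1 + d) ^ (d - 1)) +
        d * (∑ t, u₂ t)) * T ^ (d - 1))]
  obtain ⟨c, hc⟩ := h.nu.bound
  obtain ⟨H, hH⟩ := h.hilbert
  set f : ℕ → ℕ := fun T => (Module.length R (R ⧸ maximalIdeal R ^ T)).toNat
  have hA : ∀ T, (L (b * T) : ℕ∞) ≤ Module.length A (A ⧸ maximalIdeal A ^ T) ∧
      Module.length A (A ⧸ maximalIdeal A ^ T) ≤ (L (b * (T + c)) : ℕ∞) := by
    refine fun T => ⟨hLeq _ ▸ length_quot_mono (pow_le_G h.nu T), hLeq _ ▸ length_quot_mono ?_⟩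
    simpa using hc (T + c)
  have hf : ∀ T, L (b * T) ≤ f T ∧ f T ≤ L (b * (T + c)) + H * T ^ (d - 1) := by
    intro T
    have h1 := (hH T).2.trans (add_le_add_left (hA T).2 _) |>.trans_eq (Nat.cast_add _ _).symm
    have hne : Module.length R (R ⧸ maximalIdeal R ^ T) ≠ ⊤ :=
      ne_top_of_le_ne_top (ENat.natCast_ne_top _) h1
    refine ⟨?_, ENat.toNat_le_of_le_natCast h1⟩
    have h2 := ((hA T).1.trans (hH T).1)
    rw [← ENat.natCast_toNat hne] at h2
    exact_mod_cast h2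
  have hlim : Tendsto (fun T : ℕ => (d.factorial : ℝ) * (f T : ℝ) / (T : ℝ) ^ d) atTop
      (nhds (s : ℝ)) := by
    refine tendsto_of_bounds hd f s (s * (d * c * (1 + c) ^ (d - 1)) + K * (1 + c) ^ (d - 1) +
      d.factorial * H + K) (fun T hT => ?_) fun T hT => ?_
    · have h1 := Nat.mul_le_mul_left d.factorial (hf T).2
      have h2 := up (T + c) (by omega)
      have h3 := Nat.mul_le_mul_left s (add_pow_le' hT c d)
      have h4 : (T + c) ^ (d - 1) ≤ (1 + c) ^ (d - 1) * T ^ (d - 1) := by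
        rw [← mul_pow]
        gcongr
        have := Nat.le_mul_of_pos_right c hT
        rw [add_mul, one_mul]
        omega
      have h5 := Nat.mul_le_mul_left K h4
      nlinarith [Nat.zero_le (K * T ^ (d - 1))]
    · have h1 := Nat.mul_le_mul_left d.factorial (hf T).1
      have h2 := low T hT
      nlinarith [Nat.zero_le ((s * (d * c * (1 + c) ^ (d - 1)) + K * (1 + c) ^ (d - 1) +
        d.factorial * H) * T ^ (d - 1))]
  have hse : (s : ℝ) = e := by
    have hm := h.mult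
    rw [HasMult, h.dim_eq] at hm
    exact tendsto_nhds_unique hlim hm
  refine ⟨⟨K, fun T hT => ⟨by rw [hLeq]; exact ENat.natCast_ne_top _, ?_⟩⟩, s, s', hse, hsum, hm, hm'⟩
  rw [hLeq, ENat.toNat_natCast, ← hse]
  have hfac : (1 : ℝ) ≤ d.factorial := by exact_mod_cast d.factorial_pos
  have e1 : (d.factorial : ℝ) * L (b * T) ≤ s * (T : ℝ) ^ d + K * (T : ℝ) ^ (d - 1) := by
    exact_mod_cast up T hT
  have e2 : (s : ℝ) * (T : ℝ) ^ d ≤ d.factorial * L (b * T) + K * (T : ℝ) ^ (d - 1) := by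
    exact_mod_cast low T hT
  have e3 : (s : ℝ) / d.factorial * (T : ℝ) ^ d = (s : ℝ) * (T : ℝ) ^ d / d.factorial := by ring
  rw [e3, sub_div' (by positivity), abs_div, abs_of_pos (show (0 : ℝ) < d.factorial by positivity),
    div_le_iff₀ (by positivity)]
  refine le_trans (abs_le.2 ⟨?_, ?_⟩) (le_mul_of_one_le_right (by positivity) hfac) <;> linarith

end GRA

/-- The graded ring of `A`: growth, annihilator and ranks. -/
theorem goalGradA : GoalGradA.{u} := by
  intro p _ R _ _ _ k _ _ _ A _ _ _ _ _ d xR b G ι e h CI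
  obtain ⟨h1, h4⟩ := GRA.growth_minors h CI
  exact ⟨h1, fun j l a H => GRA.expand_root_iff CI h.nu j l a H,
    fun N H hH => GRA.mem_initIdeal_iff CI h.nu hH, h4⟩

end Vale.Agent.P202
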