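import Vale.Agent.P202.GRAMinor
import Vale.Agent.P202.GRACount

/-!
GoalGradA, part 4: the dimensions of the graded pieces of the ring of initial forms between the two
minors, and the lengths of `A / G N`.
-/

universe u

namespace Vale.Agent.P202

namespace GRA

open MvPolynomial IsLocalRing

attribute [local instance] MvPolynomial.weightedGradedAlgebra

variable {p : ℕ} [Fact p.Prime] {k : Type u} [Field k] [CharP k p] [PerfectRing k p] {A : Type u}
  [CommRing A] [IsLocalRing A] [Algebra (WittVector p k) A] {d : ℕ} {x : Fin d → A} {b : ℕ}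
  {G : ℕ → Ideal A}

variable (C : CIData p k A x b G)

/-- The forms of weight `w`. -/
abbrev V (w : ℕ) : Submodule k (MvPolynomial (Vr d C.n) k) :=
  weightedHomogeneousSubmodule k C.wt w

/-- An ideal in weight `w`. -/
noncomputable abbrev inW (I : Ideal (MvPolynomial (Vr d C.n) k)) (w : ℕ) : Submodule k (V C w) :=
  (I.restrictScalars k).comap (V C w).subtype

omit [PerfectRing k p] [IsLocalRing A] in
lemma V_finite (w : ℕ) : Module.Finite k (V C w) :=
  Module.Finite.iff_fg.2
    (weightedHomogeneousSubmodule_fg k C.wt (fun v => (C.wt_pos v).ne') w)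

omit [PerfectRing k p] [IsLocalRing A] in
lemma fIdeal_homogeneous : C.fIdeal.IsHomogeneous (weightedHomogeneousSubmodule k C.wt) :=
  Ideal.homogeneous_span _ _ (by rintro _ ⟨v, rfl⟩; exact ⟨_, (C.f_init v).1⟩)

omit [PerfectRing k p] [IsLocalRing A] in
lemma inX_monomial_mul {u : ℕ} {g : MvPolynomial (Vr d C.n) k}
    (hg : IsWeightedHomogeneous C.wt g u) (δ : Fin d →₀ ℕ) (c : k) :
    IsWeightedHomogeneous C.wt (inX (monomial δ c) * g) (u + b * δ.degree) := by
  rw [add_comm]
  refine IsWeightedHomogeneous.mul ?_ hg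
  rw [inX, rename_monomial]
  refine isWeightedHomogeneous_monomial _ _ _ ?_
  rw [Finsupp.weight_apply, Finsupp.sum_mapDomain_index (by simp) (by simp [add_mul]),
    Finsupp.degree_apply, Finsupp.sum, Finset.mul_sum]
  refine Finset.sum_congr rfl fun l _ => ?_
  rw [C.wt_X, smul_eq_mul, mul_comm]

/-- The index set of the translates in weight `w`. -/
abbrev Idx {ι : Type*} (d b : ℕ) (u : ι → ℕ) (w : ℕ) : Type _ :=
  Σ t : ι, {δ : Fin d →₀ ℕ // u t + b * δ.degree = w}

noncomputable instance {ι : Type*} [Fintype ι] (d b : ℕ) [NeZero b] (u : ι → ℕ) (w : ℕ) :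
    Fintype (Idx d b u w) :=
  letI : ∀ t, Fintype {δ : Fin d →₀ ℕ // u t + b * δ.degree = w} := fun t =>
    (finite_eq (d := d) (Nat.pos_of_neZero b) (u t) w).fintype
  inferInstance

lemma card_idx {ι : Type*} [Fintype ι] (d b : ℕ) [NeZero b] (u : ι → ℕ) (w : ℕ) :
    Fintype.card (Idx d b u w) = cnt d b u w := by
  rw [← Nat.card_eq_fintype_card]
  have : ∀ t, Finite {δ : Fin d →₀ ℕ // u t + b * δ.degree = w} := fun t =>
    (finite_eq (d := d) (Nat.pos_of_neZero b) (u t) w).to_subtype
  rw [Nat.card_sigma]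
  rfl

/-- Translates of a family of forms. -/
noncomputable def transl {ι : Type*} {g : ι → MvPolynomial (Vr d C.n) k} {u : ι → ℕ}
    (hg : ∀ t, IsWeightedHomogeneous C.wt (g t) (u t)) (w : ℕ) (e : Idx d b u w) : V C w :=
  ⟨inX (monomial e.2.1 1) * g e.1, by
    have h := inX_monomial_mul C (hg e.1) e.2.1 1
    rw [e.2.2] at h
    exact h⟩

omit [PerfectRing k p] [IsLocalRing A] in
/-- Translates of a family independent over `k[X]` modulo an ideal are independent. -/
lemma transl_li {ι : Type*} [Fintype ι] (I : Ideal (MvPolynomial (Vr d C.n) k))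
    {g : ι → MvPolynomial (Vr d C.n) k} {u : ι → ℕ}
    (hg : ∀ t, IsWeightedHomogeneous C.wt (g t) (u t))
    (hind : ∀ Q : ι → MvPolynomial (Fin d) k, ∑ t, inX (Q t) * g t ∈ I → Q = 0) (w : ℕ) :
    LinearIndependent k fun e => (inW C I w).mkQ (transl C hg w e) := by
  classical
  rw [linearIndependent_iff']
  intro S c hc e he
  rw [← LinearMap.id_apply (R := k) (∑ i ∈ S, c i • (inW C I w).mkQ (transl C hg w i)),
    LinearMap.id_apply] at hc
  simp only [← map_smul, ← map_sum] at hc
  rw [Submodule.mkQ_apply, Submodule.Quotient.mk_eq_zero, Submodule.mem_comap] at hc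
  simp only [map_sum, map_smul, Submodule.subtype_apply, Submodule.restrictScalars_mem,
    transl] at hc
  let Q : ι → MvPolynomial (Fin d) k := fun t =>
    ∑ i ∈ S, if i.1 = t then monomial i.2.1 (c i) else 0
  have h0 : Q = 0 := by
    refine hind Q ?_
    convert hc using 1
    simp only [Q, inX, map_sum, Finset.sum_mul]
    rw [Finset.sum_comm]
    refine Finset.sum_congr rfl fun i _ => ?_
    simp only [apply_ite (rename fun l => (some (Sum.inl l) : Vr d C.n)), map_zero, ite_mul,
      zero_mul, Finset.sum_ite_eq, Finset.mem_univ, if_true]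
    rw [← smul_mul_assoc, ← map_smul, smul_monomial, smul_eq_mul, mul_one]
  have h1 : coeff e.2.1 (Q e.1) = c e := by
    simp only [Q, coeff_sum]
    rw [Finset.sum_eq_single e]
    · simp
    · rintro ⟨t, δ⟩ _ hne
      split_ifs with h
      · obtain rfl : t = e.1 := h
        rw [coeff_monomial, if_neg]
        exact fun h' => hne (Sigma.ext rfl (heq_of_eq (Subtype.ext h')))
      · simp
    · exact fun h => absurd he h
  rw [h0] at h1
  simpa using h1.symm

variable (hG : NuFil p k A x b G)

/-- A minor gives monomials independent over `k[X]` after multiplication. -/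
lemma exists_indep {U : MvPolynomial (Vr d C.n) k} {s : ℕ} (h : C.HasMinor U s) :
    ∃ J : Fin s → Std C, ∀ Q : Fin s → MvPolynomial (Fin d) k,
      ∑ t, inX (Q t) * (U * monomial (J t).1 1) ∈ C.fIdeal → Q = 0 := by
  classical
  obtain ⟨I, J, a, -, -, ha, hdet⟩ := h
  refine ⟨J, fun Q hQ => Matrix.eq_zero_of_vecMul_eq_zero hdet ?_⟩
  have h1 : coord C (∑ t, inX (Q t) * (U * monomial (J t).1 1)) = 0 :=
    (coord_eq_zero_iff C).2 hQ
  rw [coord_sum C] at h1
  funext t'
  have h2 := DFunLike.congr_fun h1 (I t')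
  rw [Finsupp.finsetSum_apply] at h2
  rw [Matrix.vecMul, dotProduct]
  refine Eq.trans (Finset.sum_congr rfl fun t _ => ?_) h2
  rw [coord_inX_mul, coord_unique C (a := a t) (by rw [← sum_eq]; exact ha t)]
  rfl

include hG in
/-- The pieces of the graded ring are at least as big as the translates of the first minor. -/
lemma le_finrank {s : ℕ} {J : Fin s → Std C}
    (hJ : ∀ Q : Fin s → MvPolynomial (Fin d) k,
      ∑ t, inX (Q t) * (C.U₀ * monomial (J t).1 1) ∈ C.fIdeal → Q = 0) (w : ℕ) :
    cnt d b (fun t => Finsupp.weight C.wt (J t).1) w ≤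
      Module.finrank k (V C w ⧸ inW C C.initIdeal w) := by
  have := hG.b_pos
  have : NeZero b := ⟨hG.b_pos.ne'⟩
  have := V_finite C w
  rw [← card_idx]
  refine LinearIndependent.fintype_card_le_finrank (transl_li C C.initIdeal
    (fun t => isWeightedHomogeneous_monomial C.wt (J t).1 (1 : k) rfl) (fun Q hQ => hJ Q ?_) w)
  have h1 := U₀_mul_mem C hQ
  rw [Finset.mul_sum] at h1
  simpa only [mul_left_comm] using h1

lemma finrank_fIdeal_le (hb : 0 < b) (w : ℕ) :
    Module.finrank k (V C w ⧸ inW C C.fIdeal w) ≤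
      cnt d b (fun γ : Std C => Finsupp.weight C.wt γ.1) w := by
  classical
  have : NeZero b := ⟨hb.ne'⟩
  set u := fun γ : Std C => Finsupp.weight C.wt γ.1
  have hg : ∀ γ, IsWeightedHomogeneous C.wt (monomial γ.1 (1 : k)) (u γ) := fun γ =>
    isWeightedHomogeneous_monomial _ _ _ rfl
  set v := fun e : Idx d b u w => (inW C C.fIdeal w).mkQ (transl C hg w e)
  have hspan : Submodule.span k (Set.range v) = ⊤ := by
    rw [eq_top_iff]
    rintro z -
    obtain ⟨⟨H, hH⟩, rfl⟩ := Submodule.Quotient.mk_surjective _ z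
    rw [← Submodule.mkQ_apply]
    let S := Submodule.span k (Set.range fun e => (transl C hg w e : MvPolynomial (Vr d C.n) k))
    obtain ⟨y, hy, hHy⟩ : ∃ y ∈ S, H - y ∈ C.fIdeal := by
      refine ⟨weightedHomogeneousComponent C.wt w
        (∑ γ, inX (coord C H γ) * monomial γ.1 1), ?_, ?_⟩
      · rw [map_sum]
        refine Submodule.sum_mem _ fun γ _ => ?_
        rw [(coord C H γ).as_sum, inX, map_sum, Finset.sum_mul, map_sum]
        refine Submodule.sum_mem _ fun δ _ => ?_
        have hh := inX_monomial_mul C (hg γ) δ (coeff δ (coord C H γ))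
        rw [inX] at hh
        rw [weightedHomogeneousComponent_of_mem hh]
        split_ifs with he
        · rw [show monomial δ (coeff δ (coord C H γ)) =
            coeff δ (coord C H γ) • monomial δ (1 : k) by rw [smul_monomial, smul_eq_mul, mul_one],
            map_smul, smul_mul_assoc]
          exact Submodule.smul_mem _ _ (Submodule.subset_span ⟨⟨γ, ⟨δ, he.symm⟩⟩, rfl⟩)
        · exact Submodule.zero_mem _
      · have h1 := weightedHomogeneousComponent_mem_of_mem k C.wt (fIdeal_homogeneous C)
          (coord_spec C H) w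
        rwa [map_sub, weightedHomogeneousComponent_of_mem hH, if_pos rfl] at h1
    have hyV : y ∈ V C w := by
      have : S ≤ V C w := Submodule.span_le.2 (by rintro _ ⟨e, rfl⟩; exact (transl C hg w e).2)
      exact this hy
    have h2 : (inW C C.fIdeal w).mkQ ⟨H, hH⟩ = (inW C C.fIdeal w).mkQ ⟨y, hyV⟩ := by
      rw [Submodule.mkQ_apply, Submodule.mkQ_apply, Submodule.Quotient.eq]
      exact hHy
    rw [h2]
    have h3 : (⟨y, hyV⟩ : V C w) ∈ Submodule.span k (Set.range (transl C hg w)) := by
      have h5 : y ∈ (Submodule.span k (Set.range (transl C hg w))).map (V C w).subtype := by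
        rw [Submodule.map_span, ← Set.range_comp]
        exact hy
      obtain ⟨y', hy', he⟩ := h5
      rwa [show (⟨y, hyV⟩ : V C w) = y' from Subtype.ext he.symm]
    have h4 := Submodule.mem_map_of_mem (f := (inW C C.fIdeal w).mkQ) h3
    rw [Submodule.map_span, ← Set.range_comp] at h4
    exact h4
  rw [← card_idx, ← finrank_top k, ← hspan]
  exact finrank_range_le_card v

omit [PerfectRing k p] [IsLocalRing A] in
lemma mem_V_mul {s' : ℕ} (J : Fin s' → Std C) (t : Fin s') :
    IsWeightedHomogeneous C.wt ((inX C.δ₀ - C.U₀) * monomial (J t).1 1)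
      (C.c + Finsupp.weight C.wt (J t).1) :=
  (C.δ_init.1.sub C.u_init.1).mul (isWeightedHomogeneous_monomial _ _ _ rfl)

include hG in
/-- The pieces of the graded ring leave room for the translates of the second minor. -/
lemma finrank_le {s' : ℕ} {J : Fin s' → Std C}
    (hJ : ∀ Q : Fin s' → MvPolynomial (Fin d) k,
      ∑ t, inX (Q t) * ((inX C.δ₀ - C.U₀) * monomial (J t).1 1) ∈ C.fIdeal → Q = 0) (w : ℕ) :
    Module.finrank k (V C w ⧸ inW C C.initIdeal w) +
        cnt d b (fun t => C.c + Finsupp.weight C.wt (J t).1) w ≤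
      cnt d b (fun γ : Std C => Finsupp.weight C.wt γ.1) w := by
  have hb := hG.b_pos
  have : NeZero b := ⟨hb.ne'⟩
  have := V_finite C w
  refine le_trans ?_ (finrank_fIdeal_le C hb w)
  have hle : inW C C.fIdeal w ≤ inW C C.initIdeal w :=
    Submodule.comap_mono fun y hy => fIdeal_le C hy
  set φ := Submodule.factor hle
  have hli := transl_li C C.fIdeal (mem_V_mul C J) hJ w
  have hker : ∀ e, (inW C C.fIdeal w).mkQ (transl C (mem_V_mul C J) w e) ∈ LinearMap.ker φ := by
    intro e
    rw [LinearMap.mem_ker]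
    exact (Submodule.Quotient.mk_eq_zero _).2
      (Ideal.mul_mem_left C.initIdeal _ (Ideal.mul_mem_right _ _ (δ₀_sub_U₀_mem C)))
  have hsur : LinearMap.range φ = ⊤ := LinearMap.range_eq_top.2 (Submodule.factor_surjective hle)
  have h2 := LinearMap.finrank_range_add_finrank_ker φ
  rw [hsur, finrank_top] at h2
  rw [← h2, ← card_idx]
  refine Nat.add_le_add_left ?_ _
  exact LinearIndependent.fintype_card_le_finrank
    (LinearIndependent.of_comp (LinearMap.ker φ).subtype
      (v := fun e => (⟨_, hker e⟩ : LinearMap.ker φ)) hli)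

omit [CharP k p] [PerfectRing k p] in
lemma p_mul_mem (hG : NuFil p k A x b G) (hp : (p : A) ∈ maximalIdeal A) {w : ℕ}
    {r : A} (hr : r ∈ G w) : (p : A) * r ∈ G (w + 1) :=
  hG.anti (by have := hG.b_pos; omega) (hG.mul _ _ (Ideal.mul_mem_mul (hG.max_le hp) hr))

include hG in
lemma length_succ (hres : Function.Surjective ((residue A).comp (algebraMap (WittVector p k) A)))
    (hp : (p : A) ∈ maximalIdeal A) (w : ℕ) :
    Module.length A (A ⧸ G (w + 1)) = Module.length A (A ⧸ G w) +
      (Module.finrank k (V C w ⧸ inW C C.initIdeal w) : ℕ) := by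
  classical
  let B := toBase C
  have := V_finite C w
  let π := Submodule.mkQ (G (w + 1))
  let K : Submodule A (A ⧸ G (w + 1)) := Submodule.map π (G w)
  let q : (A ⧸ G (w + 1)) →ₗ[A] A ⧸ G w := Submodule.factor (hG.anti (Nat.le_succ w))
  have hex : Function.Exact K.subtype q := by
    rw [LinearMap.exact_iff, Submodule.range_subtype]
    ext z
    obtain ⟨r, rfl⟩ := Submodule.Quotient.mk_surjective _ z
    rw [LinearMap.mem_ker, show q (Submodule.Quotient.mk r) = Submodule.Quotient.mk r from rfl,
      Submodule.Quotient.mk_eq_zero]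
    constructor
    · exact fun hr => ⟨r, hr, rfl⟩
    · rintro ⟨r', hr', he⟩
      rw [Submodule.mkQ_apply, Submodule.Quotient.eq] at he
      have := (G w).sub_mem hr' (hG.anti (Nat.le_succ w) he)
      rwa [sub_sub_cancel] at this
  rw [Module.length_eq_add_of_exact K.subtype q K.subtype_injective
    (Submodule.factor_surjective _) hex, add_comm]
  congr 1
  let : Algebra (WittVector p k) k := (WittVector.constantCoeff (p := p) (R := k)).toAlgebra
  have hWA : IsLocalHom (algebraMap (WittVector p k) A) := ⟨fun a ha => by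
    by_contra hu
    have h0 : a.coeff 0 = 0 := by
      by_contra h0
      exact hu (WittVector.isUnit_of_coeff_zero_ne_zero a h0)
    obtain ⟨a', rfl⟩ := (CI.p_dvd_iff p a).2 h0
    refine (mem_maximalIdeal _).1 ?_ ha
    rw [map_mul, map_natCast]
    exact Ideal.mul_mem_right _ _ hp⟩
  have hresA : ∀ r : A, ∃ a, r - algebraMap (WittVector p k) A a ∈ maximalIdeal A := fun r => by
    obtain ⟨a, ha⟩ := hres (residue A r)
    exact ⟨a, by rw [← residue_eq_zero_iff, map_sub, sub_eq_zero]; exact ha.symm⟩
  rw [← length_eq_of_residue (A := WittVector p k) hresA K]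
  have hWk : IsLocalHom (algebraMap (WittVector p k) k) := ⟨fun a ha => by
    refine WittVector.isUnit_of_coeff_zero_ne_zero a ?_
    exact ha.ne_zero⟩
  have hsmul : ∀ (a : WittVector p k) (H : MvPolynomial (Vr d C.n) k),
      IsWeightedHomogeneous C.wt H w → IsWeightedHomogeneous C.wt (a • H) w := fun a H hH => by
    rw [← algebraMap_smul k a H]
    exact (V C w).smul_mem _ hH
  let ψ : V C w →ₗ[WittVector p k] A ⧸ G (w + 1) :=
    { toFun := fun H => π (C.ev (liftPi p H.1))
      map_add' := fun H H' => by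
        rw [← map_add]
        simp only [π, Submodule.mkQ_apply]
        rw [Submodule.Quotient.eq, ← map_add C.ev, ← map_sub]
        exact B.ev_mem (CI.liftPi_add p B.hwt H.2 H'.2)
      map_smul' := fun a H => by
        rw [RingHom.id_apply, ← LinearMap.map_smul_of_tower]
        simp only [π, Submodule.mkQ_apply]
        rw [Submodule.Quotient.eq, Algebra.smul_def]
        have e1 : ((a • H : V C w) : MvPolynomial (Vr d C.n) k) =
            monomial 0 (a.coeff 0) * H.1 := by
          rw [show monomial 0 (a.coeff 0) = MvPolynomial.C (a.coeff 0) from rfl, C_mul']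
          rfl
        rw [e1, CI.liftPi_monomial_mul, map_mul]
        have e2 : C.ev (CI.T p (0 : Vr d C.n →₀ ℕ) (a.coeff 0)) =
            algebraMap (WittVector p k) A (WittVector.teichmuller p (a.coeff 0)) := by
          rw [← C.ev_C, CI.T, Finsupp.some_zero, MvPowerSeries.monomial_zero_eq_C_apply]
          simp
        obtain ⟨a', ha'⟩ := (CI.p_dvd_iff p (WittVector.teichmuller p (a.coeff 0) - a)).2 (by
          rw [← WittVector.constantCoeff_apply, map_sub, WittVector.constantCoeff_apply,
            WittVector.constantCoeff_apply, WittVector.teichmuller_coeff_zero, sub_self])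
        rw [e2, ← sub_mul, ← map_sub, ha', map_mul, map_natCast, mul_assoc]
        exact p_mul_mem hG hp (Ideal.mul_mem_left _ _ (B.lift_mem H.2)) }
  have hker : LinearMap.ker ψ = (inW C C.initIdeal w).restrictScalars (WittVector p k) := by
    ext H
    simp only [ψ, π, LinearMap.mem_ker, LinearMap.coe_mk, AddHom.coe_mk, Submodule.mkQ_apply,
      Submodule.Quotient.mk_eq_zero, Submodule.restrictScalars_mem, Submodule.mem_comap,
      Submodule.subtype_apply]
    rw [initIdeal_eq C hG]
    exact (B.mem_J_iff hG H.2).symm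
  have hrange : LinearMap.range ψ = K.restrictScalars (WittVector p k) := by
    ext z
    constructor
    · rintro ⟨H, rfl⟩
      exact ⟨_, B.lift_mem H.2, rfl⟩
    · rintro ⟨r, hr, rfl⟩
      obtain ⟨g, hg, rfl⟩ := (C.strict w r).1 hr
      obtain ⟨H, hH, hgH⟩ := CI.exists_init p C.wt_pos hg
      refine ⟨⟨H, hH⟩, ?_⟩
      simp only [ψ, π, LinearMap.coe_mk, AddHom.coe_mk, Submodule.mkQ_apply]
      rw [Submodule.Quotient.eq, ← map_sub, ← neg_sub, map_neg]
      exact (G (w + 1)).neg_mem (B.ev_mem hgH)
  let e : ((V C w) ⧸ inW C C.initIdeal w) ≃ₗ[WittVector p k]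
      K.restrictScalars (WittVector p k) :=
    (Submodule.Quotient.restrictScalarsEquiv (WittVector p k) (inW C C.initIdeal w)).symm.trans
      ((Submodule.quotEquivOfEq _ _ hker.symm).trans
        (ψ.quotKerEquivRange.trans (LinearEquiv.ofEq _ _ hrange)))
  rw [show Module.length (WittVector p k) K =
      Module.length (WittVector p k) (K.restrictScalars (WittVector p k)) from rfl, ← e.length_eq,
    length_eq_of_residue (A := WittVector p k) (B := k) (fun c => ⟨WittVector.teichmuller p c, by
      rw [show algebraMap (WittVector p k) k (WittVector.teichmuller p c) = c from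
        WittVector.teichmuller_coeff_zero p c, sub_self]
      exact Submodule.zero_mem _⟩),
    Module.length_eq_finrank]

include hG in
/-- The lengths of `A / G N` between the translates of the minors. -/
theorem length_bounds {s s' : ℕ} (hres :
      Function.Surjective ((residue A).comp (algebraMap (WittVector p k) A)))
    (hp : (p : A) ∈ maximalIdeal A) (h : C.HasMinor C.U₀ s)
    (h' : C.HasMinor (inX C.δ₀ - C.U₀) s') :
    ∃ (u₁ : Fin s → ℕ) (u₂ : Fin s' → ℕ), ∀ N, ∃ L : ℕ,
      Module.length A (A ⧸ G N) = (L : ℕ∞) ∧ cum d b u₁ N ≤ L ∧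
        L + cum d b u₂ N ≤ cum d b (fun γ : Std C => Finsupp.weight C.wt γ.1) N := by
  obtain ⟨J, hJ⟩ := exists_indep C h
  obtain ⟨J', hJ'⟩ := exists_indep C h'
  refine ⟨fun t => Finsupp.weight C.wt (J t).1, fun t => C.c + Finsupp.weight C.wt (J' t).1,
    fun N => ?_⟩
  induction N with
  | zero =>
    refine ⟨0, ?_, by simp [cum_zero], by simp [cum_zero]⟩
    have : Subsingleton (A ⧸ G 0) := Submodule.Quotient.subsingleton_iff.2 hG.zero
    simp [Module.length_eq_zero]
  | succ N ih =>
    obtain ⟨L, hL, h1, h2⟩ := ih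
    refine ⟨L + Module.finrank k (V C N ⧸ inW C C.initIdeal N), ?_, ?_, ?_⟩
    · rw [length_succ C hG hres hp N, hL, Nat.cast_add]
    all_goals
      simp only [cum_succ hG.b_pos]
      have e1 := le_finrank C hG hJ N
      have e2 := finrank_le C hG hJ' N
      omega

end GRA

end Vale.Agent.P202
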