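import Vale.Agent.P202.GRAExpand
import Vale.Agent.P202.MFMonicFree

/-!
GoalGradA, part 2: coordinates over `k[X]` of the complete intersection, and complementary minors of
`U₀` and `δ₀ - U₀`.
-/

universe u

namespace Vale.Agent.P202

namespace GRA

open MvPolynomial

section linalg

variable {K : Type u} [Field K] {ι : Type*} [Fintype ι] [DecidableEq ι]

omit [DecidableEq ι] in
/-- A matrix has a nonzero minor of the size of the rank. -/
lemma exists_minor (M : Matrix ι ι K) :
    ∃ I J : Fin M.rank → ι, Function.Injective I ∧ Function.Injective J ∧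
      (Matrix.of fun t t' => M (I t') (J t)).det ≠ 0 := by
  classical
  obtain ⟨κ, a, ha, hspan, hli⟩ := exists_linearIndependent' K M.col
  have : Fintype κ := Fintype.ofInjective a ha
  have hcard : Fintype.card κ = M.rank := by
    rw [Matrix.rank_eq_finrank_span_cols, ← hspan, finrank_span_eq_card hli]
  let e : Fin M.rank ≃ κ := (Fintype.equivFinOfCardEq hcard).symm
  let J : Fin M.rank → ι := a ∘ e
  let N : Matrix (Fin M.rank) ι K := Matrix.of fun t i => M i (J t)
  have hN : LinearIndependent K N.row := hli.comp e e.injective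
  have hNr : N.rank = M.rank := by
    rw [hN.rank_matrix, Fintype.card_fin]
  obtain ⟨κ', a', ha', hspan', hli'⟩ := exists_linearIndependent' K N.col
  have : Fintype κ' := Fintype.ofInjective a' ha'
  have hcard' : Fintype.card κ' = M.rank := by
    rw [← hNr, Matrix.rank_eq_finrank_span_cols, ← hspan', finrank_span_eq_card hli']
  let e' : Fin M.rank ≃ κ' := (Fintype.equivFinOfCardEq hcard').symm
  refine ⟨a' ∘ e', J, ha'.comp e'.injective, ha.comp e.injective, ?_⟩
  have hsq : LinearIndependent K
      (Matrix.of fun t t' => M ((a' ∘ e') t') (J t)).col := hli'.comp e' e'.injective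
  exact ((Matrix.isUnit_iff_isUnit_det _).1
    (Matrix.linearIndependent_cols_iff_isUnit.1 hsq)).ne_zero

/-- An idempotent and its complement have complementary ranks. -/
lemma rank_add_rank (M M' : Matrix ι ι K) {c : K} (hc : c ≠ 0) (hadd : M + M' = c • 1)
    (hmul : M * M' = 0) : M.rank + M'.rank = Fintype.card ι := by
  have key : ∀ v, M.mulVec v + M'.mulVec v = c • v := fun v => by
    rw [← Matrix.add_mulVec, hadd, Matrix.smul_mulVec, Matrix.one_mulVec]
  have hker : LinearMap.ker M.mulVecLin = LinearMap.range M'.mulVecLin := by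
    apply le_antisymm
    · intro v hv
      have h := key v
      rw [show M.mulVec v = 0 from hv, zero_add] at h
      refine ⟨c⁻¹ • v, ?_⟩
      rw [Matrix.mulVecLin_apply, Matrix.mulVec_smul, h, smul_smul, inv_mul_cancel₀ hc, one_smul]
    · rintro _ ⟨v, rfl⟩
      show M.mulVec (M'.mulVec v) = 0
      rw [Matrix.mulVec_mulVec, hmul, Matrix.zero_mulVec]
  have := LinearMap.finrank_range_add_finrank_ker M.mulVecLin
  rw [hker, Module.finrank_fintype_fun_eq_card] at this
  exact this

end linalg

section coord

variable {p : ℕ} [Fact p.Prime] {k : Type u} [Field k] [CharP k p] [PerfectRing k p] {A : Type u}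
  [CommRing A] [IsLocalRing A] [Algebra (WittVector p k) A] {d : ℕ} {x : Fin d → A} {b : ℕ}
  {G : ℕ → Ideal A}

variable (C : CIData p k A x b G)

/-- The standard exponents. -/
abbrev Std : Type := {γ : Vr d C.n →₀ ℕ // IsStdExp (d := d) C.deg γ}

/-- The standard exponents form the box of the degrees. -/
noncomputable def stdEquiv : Std C ≃ ((v : Hv C.n) → Fin (C.deg v)) where
  toFun γ v := ⟨γ.1 (hVar v), γ.2.2 v⟩
  invFun f := ⟨Finsupp.equivFunOnFinite.symm fun w => match w with
      | none => (f none : ℕ)
      | some (Sum.inl _) => 0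
      | some (Sum.inr z) => (f (some z) : ℕ),
    fun l => by simp, fun v => by cases v <;> simp [hVar]⟩
  left_inv γ := by
    refine Subtype.ext (Finsupp.ext fun w => ?_)
    rcases w with _ | (l | z)
    · simp [hVar]
    · simpa using (γ.2.1 l).symm
    · simp [hVar]
  right_inv f := by
    funext v
    cases v <;> simp [hVar]

noncomputable instance : Fintype (Std C) := Fintype.ofEquiv _ (stdEquiv C).symm

lemma card_std : Fintype.card (Std C) = ∏ v, C.deg v := by
  rw [Fintype.card_congr (stdEquiv C), Fintype.card_pi]; simp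

lemma existsUnique_coord (H : MvPolynomial (Vr d C.n) k) :
    ∃! a : Std C →₀ MvPolynomial (Fin d) k,
      H - (a.sum fun γ P => inX P * monomial γ.1 1) ∈ C.fIdeal :=
  (goalMonicFree.{u} k d C.n C.wt C.wt_pos C.deg C.F (fun v => (C.f_init v).1) C.F_monic).1 H

/-- The coordinates on the standard monomials modulo `(F)`. -/
noncomputable def coord (H : MvPolynomial (Vr d C.n) k) : Std C →₀ MvPolynomial (Fin d) k :=
  (existsUnique_coord C H).choose

lemma sum_eq (a : Std C →₀ MvPolynomial (Fin d) k) :
    (a.sum fun γ P => inX P * monomial γ.1 1) = ∑ γ, inX (a γ) * monomial γ.1 1 :=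
  Finsupp.sum_fintype _ _ fun γ => by simp [inX]

lemma coord_spec (H : MvPolynomial (Vr d C.n) k) :
    H - ∑ γ, inX (coord C H γ) * monomial γ.1 1 ∈ C.fIdeal := by
  rw [← sum_eq]
  exact (existsUnique_coord C H).choose_spec.1

lemma coord_unique {H : MvPolynomial (Vr d C.n) k} {a : Std C →₀ MvPolynomial (Fin d) k}
    (h : H - ∑ γ, inX (a γ) * monomial γ.1 1 ∈ C.fIdeal) : coord C H = a := by
  rw [← sum_eq] at h
  exact ((existsUnique_coord C H).choose_spec.2 a h).symm

lemma coord_congr {H H' : MvPolynomial (Vr d C.n) k} (h : H - H' ∈ C.fIdeal) :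
    coord C H = coord C H' := by
  refine coord_unique C ?_
  have := Ideal.add_mem _ h (coord_spec C H')
  rwa [sub_add_sub_cancel] at this

lemma coord_add (H H' : MvPolynomial (Vr d C.n) k) :
    coord C (H + H') = coord C H + coord C H' := by
  refine coord_unique C ?_
  convert Ideal.add_mem _ (coord_spec C H) (coord_spec C H') using 1
  simp only [Finsupp.add_apply, inX, map_add, add_mul, Finset.sum_add_distrib]
  ring

lemma coord_inX_mul (Q : MvPolynomial (Fin d) k) (H : MvPolynomial (Vr d C.n) k) :
    coord C (inX Q * H) = Q • coord C H := by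
  refine coord_unique C ?_
  convert C.fIdeal.mul_mem_left (inX Q) (coord_spec C H) using 1
  simp only [mul_sub, Finset.mul_sum, Finsupp.smul_apply, smul_eq_mul, inX, map_mul, mul_assoc]

lemma coord_zero : coord C 0 = 0 := coord_unique C (by simp [inX])

lemma coord_eq_zero_iff {H : MvPolynomial (Vr d C.n) k} : coord C H = 0 ↔ H ∈ C.fIdeal := by
  constructor
  · intro h
    have := coord_spec C H
    simpa [h, inX] using this
  · intro h
    rw [coord_congr C (H' := 0) (by simpa using h), coord_zero]

lemma coord_sum {ι : Type*} (s : Finset ι) (H : ι → MvPolynomial (Vr d C.n) k) :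
    coord C (∑ i ∈ s, H i) = ∑ i ∈ s, coord C (H i) := by
  classical
  induction s using Finset.induction_on with
  | empty => simp [coord_zero]
  | insert i s hi ih => rw [Finset.sum_insert hi, Finset.sum_insert hi, coord_add, ih]

lemma coord_mon [DecidableEq (Std C)] (γ γ' : Std C) :
    coord C (monomial γ.1 1) γ' = if γ = γ' then 1 else 0 := by
  have : coord C (monomial γ.1 1) = Finsupp.single γ 1 := by
    refine coord_unique C ?_
    rw [← sum_eq, Finsupp.sum_single_index (by simp [inX])]
    simp [inX]
  rw [this, Finsupp.single_apply]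

/-- The matrix of multiplication by `U`. -/
noncomputable def mulMat (U : MvPolynomial (Vr d C.n) k) :
    Matrix (Std C) (Std C) (MvPolynomial (Fin d) k) :=
  Matrix.of fun i j => coord C (U * monomial j.1 1) i

lemma mulMat_mul (U V : MvPolynomial (Vr d C.n) k) :
    mulMat C (U * V) = mulMat C U * mulMat C V := by
  refine Matrix.ext fun i j => ?_
  have h : coord C (U * V * monomial j.1 1) =
      coord C (∑ γ, inX (coord C (V * monomial j.1 1) γ) * (U * monomial γ.1 1)) := by
    refine coord_congr C ?_
    have e : U * V * monomial j.1 1 -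
        ∑ γ, inX (coord C (V * monomial j.1 1) γ) * (U * monomial γ.1 1) =
        U * (V * monomial j.1 1 - ∑ γ, inX (coord C (V * monomial j.1 1) γ) * monomial γ.1 1) := by
      simp only [mul_sub, Finset.mul_sum, mul_assoc, mul_left_comm U]
    rw [e]
    exact C.fIdeal.mul_mem_left U (coord_spec C _)
  simp only [mulMat, Matrix.of_apply, Matrix.mul_apply]
  rw [h, coord_sum C, Finsupp.finsetSum_apply]
  refine Finset.sum_congr rfl fun γ _ => ?_
  rw [coord_inX_mul]
  simp [mul_comm]

variable (hG : NuFil p k A x b G)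

include hG in
lemma compl_mul_mem : (inX C.δ₀ - C.U₀) * C.U₀ ∈ C.fIdeal := by
  rw [mul_comm]
  exact U₀_mul_mem C (δ₀_sub_U₀_mem C)

include hG in
/-- Complementary minors of `U₀` and `δ₀ - U₀`. -/
theorem exists_minors : ∃ s s' : ℕ, s + s' = ∏ v, C.deg v ∧ C.HasMinor C.U₀ s ∧
    C.HasMinor (inX C.δ₀ - C.U₀) s' := by
  classical
  let K := FractionRing (MvPolynomial (Fin d) k)
  let φ : MvPolynomial (Fin d) k →+* K := algebraMap _ K
  set M := mulMat C C.U₀
  set M' := mulMat C (inX C.δ₀ - C.U₀)
  have hzero : ∀ U, U ∈ C.fIdeal → mulMat C U = 0 := fun U hU => by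
    refine Matrix.ext fun i j => ?_
    simp [mulMat, (coord_eq_zero_iff C).2 (C.fIdeal.mul_mem_right (monomial j.1 1) hU)]
  have hadd : M + M' = C.δ₀ • 1 := by
    refine Matrix.ext fun i j => ?_
    simp only [M, M', mulMat, Matrix.add_apply, Matrix.of_apply, Matrix.smul_apply]
    rw [← Finsupp.add_apply, ← coord_add, ← add_mul, add_sub_cancel, coord_inX_mul,
      Finsupp.smul_apply, coord_mon, Matrix.one_apply]
    simp only [eq_comm (a := i)]
  have hmul : M * M' = 0 := by
    rw [← mulMat_mul, mul_comm C.U₀]; exact hzero _ (compl_mul_mem C hG)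
  have hφ0 : φ C.δ₀ ≠ 0 := fun h =>
    C.δ₀_ne (IsFractionRing.injective (MvPolynomial (Fin d) k) K (h.trans (map_zero φ).symm))
  have hsum := rank_add_rank (M.map φ) (M'.map φ) hφ0
    (by rw [← Matrix.map_add φ (map_add φ), hadd]
        ext i j; simp [Matrix.one_apply, apply_ite φ])
    (by rw [← Matrix.map_mul, hmul, Matrix.map_zero _ (map_zero φ)])
  rw [card_std] at hsum
  have hminor : ∀ U, C.HasMinor U ((mulMat C U).map φ).rank := by
    intro U
    obtain ⟨I, J, hI, hJ, hdet⟩ := exists_minor ((mulMat C U).map φ)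
    refine ⟨I, J, fun t => coord C (U * monomial (J t).1 1), hI, hJ,
      fun t => (existsUnique_coord C (U * monomial (J t).1 1)).choose_spec.1, fun h0 => hdet ?_⟩
    have := congrArg φ h0
    rw [map_zero, RingHom.map_det] at this
    exact this
  exact ⟨_, _, hsum, hminor C.U₀, hminor _⟩

end coord

end GRA

end Vale.Agent.P202
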