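import Vale.Agent.P202.ReduceAux
import Vale.Agent.P202.InterfacesG

/-! Module G3: reduction to complete rings with an infinite residue field upstairs. -/

universe u

namespace Vale.Agent.P202

open IsLocalRing

/-- G3: completion, and an infinite residue field upstairs, for any residue fields. -/
theorem goalReduceGen : GoalReduceGen.{u} := by
  classical
  intro p _ R S _ _ _ _ _ _ _ _ _ _ hdim
  let q : Ideal (Polynomial S) := (maximalIdeal S).map Polynomial.C
  have : q.IsPrime := Ideal.isPrime_map_C_of_isPrime
  let B := Localization.AtPrime q
  have hSB : (maximalIdeal S).map (algebraMap S B) = maximalIdeal B := by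
    rw [IsScalarTower.algebraMap_eq S (Polynomial S) B, ← Ideal.map_map]
    exact Localization.AtPrime.map_eq_maximalIdeal
  have : IsLocalHom (algebraMap S B) := by
    refine ((local_hom_TFAE (algebraMap S B)).out 0 2).mpr ?_
    exact hSB.le
  have : IsNoetherianRing B := IsLocalization.isNoetherianRing q.primeCompl B inferInstance
  have hres : Infinite (ResidueField B) := by
    refine Infinite.of_injective
      (fun i : ℕ => residue B (algebraMap (Polynomial S) B (Polynomial.X ^ i))) fun i j hij => ?_
    by_contra hne
    simp only at hij
    rw [← sub_eq_zero, ← map_sub, residue_eq_zero_iff, ← map_sub,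
      IsLocalization.AtPrime.to_map_mem_maximal_iff B q, Ideal.mem_map_C_iff] at hij
    have := hij i
    simp [Polynomial.coeff_X_pow, hne] at this
  let R' := AdicCompletion (maximalIdeal R) R
  let S' := AdicCompletion (maximalIdeal B) B
  let g : R →+* B := (algebraMap S B).comp (algebraMap R S)
  have hg : (maximalIdeal R).map g ≤ maximalIdeal B :=
    map_maximalIdeal_le g
  let φ : R' →+* S' := completionMap (maximalIdeal R) (maximalIdeal B) g hg
  letI algRS : Algebra R' S' := φ.toAlgebra
  have hφ : φ.comp (algebraMap R R') = (algebraMap B S').comp g :=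
    completionMap_comp_algebraMap _ _ g hg
  have hloc : IsLocalHom φ := by
    refine ((local_hom_TFAE φ).out 0 2).mpr ?_
    rw [AdicCompletion.maximalIdeal_eq_map, AdicCompletion.maximalIdeal_eq_map, Ideal.map_map,
      hφ, ← Ideal.map_map]
    exact Ideal.map_mono hg
  have : IsLocalHom (algebraMap R' S') := hloc
  -- flatness of `S'` over `R`
  have : Module.Flat R B := Module.Flat.trans R S B
  have : Module.Flat R S' := Module.Flat.trans R B S'
  have : IsScalarTower R R' S' := IsScalarTower.of_algebraMap_eq' (by
    rw [RingHom.algebraMap_toAlgebra, hφ, IsScalarTower.algebraMap_eq R B S',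
      IsScalarTower.algebraMap_eq R S B])
  have hdense : ∀ (N : ℕ) (t : R'), ∃ a : R, t - algebraMap R R' a ∈ maximalIdeal R' ^ N := by
    intro N t
    obtain ⟨a, ha⟩ := Submodule.Quotient.mk_surjective _ (AdicCompletion.eval _ R N t)
    refine ⟨a, ?_⟩
    rw [AdicCompletion.maximalIdeal_eq_map, ← Ideal.map_pow, ← Submodule.restrictScalars_mem R,
      ← Ideal.smul_top_eq_map, AdicCompletion.pow_smul_top_eq_ker_eval
        (maximalIdeal R).fg_of_isNoetherianRing, LinearMap.mem_ker, map_sub, ← ha, sub_eq_zero]
    rfl
  have hflat : Module.Flat R' S' :=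
    flat_of_flat_of_dense (maximalIdeal R) AdicCompletion.maximalIdeal_eq_map.symm hdense
  -- characteristic
  have hinj : Function.Injective (algebraMap R R') := fun x y hxy =>
    AdicCompletion.of_injective (maximalIdeal R) R hxy
  have hchar : CharP R' p := charP_of_injective_algebraMap hinj p
  -- residue field of `S'`
  have hinf : Infinite (ResidueField S') :=
    Infinite.of_injective _ (AdicCompletion.residueField_map_bijective B).1
  -- dimensions and multiplicities
  have hR' : (maximalIdeal R).map (algebraMap R R') = maximalIdeal R' :=
    AdicCompletion.maximalIdeal_eq_map.symm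
  have hS' : (maximalIdeal B).map (algebraMap B S') = maximalIdeal S' :=
    AdicCompletion.maximalIdeal_eq_map.symm
  refine ⟨R', S', inferInstance, inferInstance, inferInstance, hchar, inferInstance,
    inferInstance, inferInstance, algRS, hloc, hflat,
    inferInstanceAs (IsAdicComplete (maximalIdeal R') R'),
    inferInstanceAs (IsAdicComplete (maximalIdeal S') S'), hinf,
    ndim_eq_of_map_maximalIdeal hR', ?_, fun e he => hasMult_of_map_maximalIdeal hR' he,
    fun e he => hasMult_of_map_maximalIdeal hS' (hasMult_of_map_maximalIdeal hSB he)⟩
  rw [ndim_eq_of_map_maximalIdeal hS', ndim_eq_of_map_maximalIdeal hSB]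

end Vale.Agent.P202
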