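import Vale.Agent.P202.Step

/-! Local nilpotence: far enough inclusions of twisted complexes vanish on homology. -/

universe u

namespace Vale.Agent.P202

open TensorProduct

/-- The data making the inclusions between levels locally null-homotopic. -/
structure GhostData {R S : Type*} [CommRing R] [CommRing S] (B : Type*) [AddCommGroup B]
    [Module R B] [Module S B] {A : Type*} [AddCommGroup A] [Module R A] {d : ℕ}
    (y : Fin d → S) (δ : A →ₗ[R] A) (P Gt : ℤ → Submodule R A) (B₀ : ℕ) (n : ℕ) where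
  /-- the filtration -/
  Fil : ℕ → Submodule R A
  fil_zero : Fil 0 = ⊤
  fil_end : Fil n = ⊥
  /-- the scalars -/
  a : Fin d → R
  /-- coefficients expressing the scalars through `y` -/
  c : Fin d → Fin d → S
  a_smul : ∀ i, ∀ b : B, a i • b = (∑ l, y l * c i l) • b
  /-- the maps multiplied by the scalars -/
  φ : Fin d → A →ₗ[R] A
  /-- the homotopy -/
  h : A →ₗ[R] A
  φ_fil : ∀ i m, (Fil m).map (φ i) ≤ Fil m
  h_fil : ∀ m, (Fil m).map h ≤ Fil m
  φ_deg : ∀ i r, (P r).map (φ i) ≤ P r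
  h_deg : ∀ r, (P r).map h ≤ P (r - 1)
  φ_level : ∀ i j, (Gt j).map (φ i) ≤ Gt (j - B₀)
  h_level : ∀ j, (Gt j).map h ≤ Gt (j - B₀)
  comm : ∀ i m, ∀ f ∈ Fil m, φ i (δ f) - δ (φ i f) ∈ Fil (m + 1)
  identity : ∀ m, ∀ f ∈ Fil m,
    f - ∑ i, a i • φ i f - δ (h f) - h (δ f) ∈ Fil (m + 1)

variable {R S : Type*} [CommRing R] [CommRing S] {B : Type*} [AddCommGroup B] [Module R B]
  [Module S B] [SMulCommClass R S B] [Module.Flat R B] {A : Type*} [AddCommGroup A] [Module R A]
  {d : ℕ} {y : Fin d → S} {I : Ideal R} {δ : A →ₗ[R] A} {P Gt : ℤ → Submodule R A} {B₀ n : ℕ}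

omit [Module.Flat R B] in
lemma kap_dlt (l : Fin d) (δ : A →ₗ[R] A) (f : Finset (Fin d) → B ⊗[R] A) :
    dlt S B d δ (kap S l f) = -kap S l (dlt S B d δ f) := by
  funext s
  simp only [dlt_apply, Pi.neg_apply, kap_apply]
  by_cases hl : l ∈ s
  · rw [if_pos hl, if_pos hl, map_zsmul, smul_smul, smul_smul, ← neg_smul]
    congr 1
    conv_lhs => rw [← Finset.insert_erase hl, Finset.card_insert_of_notMem (Finset.notMem_erase l s)]
    rw [Finset.erase_insert (Finset.notMem_erase l s)]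
    ring
  · rw [if_neg hl, if_neg hl, map_zero, smul_zero, neg_zero]

omit [Module.Flat R B] in
lemma dT_kap (l : Fin d) (δ : A →ₗ[R] A) (f : Finset (Fin d) → B ⊗[R] A) :
    dT B y δ (kap S l f) + kap S l (dT B y δ f) = y l • f := by
  simp only [dT, LinearMap.add_apply, map_add, kap_dlt]
  rw [← kd_kap y l f]
  abel

lemma kap_mem_DT (l : Fin d) {τ : ℕ → ℤ} (hG : Antitone Gt) (hτ : ∀ k, k < d → τ (k + 1) ≤ τ k)
    {r : ℤ} {f : Finset (Fin d) → B ⊗[R] A} (hf : f ∈ DT B y P Gt τ r) :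
    kap S l f ∈ DT B y P Gt τ (r - 1) := by
  rw [mem_DT] at hf ⊢
  have hstep : ∀ s : Finset (Fin d), l ∈ s →
      Gt (τ (s.erase l).card) ≤ Gt (τ s.card) ∧ ((s.erase l).card : ℤ) = (s.card : ℤ) - 1 := by
    intro s hl
    have h1 := Finset.card_erase_add_one hl
    have h2 : s.card ≤ d := (Finset.card_le_univ s).trans (by simp)
    refine ⟨hG ?_, by omega⟩
    rw [← h1]
    exact hτ _ (by omega)
  constructor
  · intro s
    rw [kap_apply]
    by_cases hl : l ∈ s
    · rw [if_pos hl]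
      refine zsmul_mem (gbar_mono (inf_le_inf (hstep s hl).1 ?_) (hf.1 _)) _
      rw [(hstep s hl).2, show r + ((s.card : ℤ) - 1) = r - 1 + s.card by ring]
    · rw [if_neg hl]; exact Submodule.zero_mem _
  · intro s
    have h1 : kd y _ (kap S l f) = y l • f - kap S l (kd y _ f) := eq_sub_of_add_eq (kd_kap y l f)
    rw [h1, Pi.sub_apply, Pi.smul_apply, kap_apply]
    refine Submodule.sub_mem _ (Submodule.smul_mem _ _ (gbar_mono inf_le_left (hf.1 s))) ?_
    by_cases hl : l ∈ s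
    · rw [if_pos hl]
      exact zsmul_mem (gbar_mono (hstep s hl).1 (hf.2 _)) _
    · rw [if_neg hl]; exact Submodule.zero_mem _

namespace GhostData

variable (G : GhostData B y δ P Gt B₀ n)

/-- The filtration on the total complex. -/
noncomputable def filT (m : ℕ) : Submodule S (Finset (Fin d) → B ⊗[R] A) :=
  cardPi d fun _ => gbar S B (G.Fil m)

omit [Module.Flat R B] in
lemma kap_filT (l : Fin d) {m : ℕ} {f : Finset (Fin d) → B ⊗[R] A} (hf : f ∈ G.filT m) :
    kap S l f ∈ G.filT m := by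
  rw [filT, mem_cardPi] at hf ⊢
  intro s
  rw [kap_apply]
  by_cases hl : l ∈ s
  · rw [if_pos hl]; exact zsmul_mem (hf _) _
  · rw [if_neg hl]; exact Submodule.zero_mem _

omit [Module.Flat R B] in
lemma lT_map_mem {m m' : ℕ} (g : A →ₗ[R] A) (hg : ∀ x ∈ G.Fil m, g x ∈ G.Fil m')
    {x : B ⊗[R] A} (hx : x ∈ gbar S B (G.Fil m)) : lT S B g x ∈ gbar S B (G.Fil m') :=
  lT_mem_gbar (by rintro _ ⟨z, hz, rfl⟩; exact hg z hz) hx

lemma stage (hG : Antitone Gt) {σ : ℕ → ℤ} (hσ : ∀ k, k < d → σ (k + 1) ≤ σ k) {m : ℕ}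
    {r : ℤ} {f : Finset (Fin d) → B ⊗[R] A} (hf : f ∈ DT B y P Gt σ r) (hfm : f ∈ G.filT m)
    (hcyc : dT B y δ f = 0) :
    ∃ w ∈ DT B y P Gt (fun l => σ l - B₀) (r - 1),
      f - dT B y δ w ∈ G.filT (m + 1) := by
  classical
  let σ' : ℕ → ℤ := fun l => σ l - B₀
  have hσ' : ∀ k, k < d → σ' (k + 1) ≤ σ' k := fun k hk => by
    simp only [σ']; have := hσ k hk; omega
  let H₀ : Finset (Fin d) → B ⊗[R] A := dlt S B d G.h f
  let u : Fin d → Finset (Fin d) → B ⊗[R] A := fun i => kmap d (lT S B (G.φ i)) f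
  have hf' := hf
  rw [mem_DT] at hf'
  have hH : H₀ ∈ DT B y P Gt σ' (r - 1) := by
    rw [mem_DT]
    constructor
    · intro s
      refine zsmul_mem (lT_mem_gbar ?_ (hf'.1 s)) _
      refine (Submodule.map_inf_le _).trans (inf_le_inf (G.h_level _) ?_)
      convert G.h_deg (r + s.card) using 2
      ring
    · intro s
      rw [show kd y _ H₀ = -dlt S B d G.h (kd y _ f) from kd_dlt y G.h f, Pi.neg_apply, dlt_apply]
      exact Submodule.neg_mem _ (zsmul_mem (lT_mem_gbar (G.h_level _) (hf'.2 s)) _)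
  have hu : ∀ i, u i ∈ DT B y P Gt σ' r := by
    intro i
    rw [mem_DT]
    refine ⟨fun s => lT_mem_gbar ?_ (hf'.1 s), fun s => ?_⟩
    · exact (Submodule.map_inf_le _).trans (inf_le_inf (G.φ_level i _) (G.φ_deg i _))
    · rw [show kd y _ (u i) = kmap d (lT S B (G.φ i)) (kd y _ f) from kd_kmap y _ f, kmap_apply]
      exact lT_mem_gbar (G.φ_level i _) (hf'.2 s)
  refine ⟨H₀ + ∑ i, ∑ l, G.c i l • kap S l (u i), ?_, ?_⟩
  · exact Submodule.add_mem _ hH (Submodule.sum_mem _ fun i _ => Submodule.sum_mem _ fun l _ =>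
      Submodule.smul_mem _ _ (kap_mem_DT l hG hσ' (hu i)))
  have hfm' : ∀ s, f s ∈ gbar S B (G.Fil m) := by
    have := hfm; rw [filT, mem_cardPi] at this; exact this
  have hkdf : ∀ s, kd y _ f s = -(((-1 : ℤ) ^ s.card) • lT S B δ (f s)) := fun s =>
    eq_neg_of_add_eq_zero_left (congrFun hcyc s)
  have hdu : ∀ i, dT B y δ (u i) ∈ G.filT (m + 1) := by
    intro i
    rw [filT, mem_cardPi]
    intro s
    rw [dT_apply, show kd y _ (u i) = kmap d (lT S B (G.φ i)) (kd y _ f) from kd_kmap y _ f,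
      kmap_apply, hkdf, map_neg, map_zsmul, neg_add_eq_sub, ← smul_sub,
      show u i s = lT S B (G.φ i) (f s) from rfl, lT_comp_apply, lT_comp_apply,
      ← LinearMap.sub_apply, ← lT_sub]
    refine zsmul_mem (G.lT_map_mem _ (fun x hx => ?_) (hfm' s)) _
    have := (G.Fil (m + 1)).neg_mem (G.comm i m x hx)
    simpa using this
  have hH2 : ∀ s, dT B y δ H₀ s = lT S B (δ ∘ₗ G.h + G.h ∘ₗ δ) (f s) := by
    intro s
    rw [dT_apply, show kd y _ H₀ = -dlt S B d G.h (kd y _ f) from kd_dlt y G.h f, Pi.neg_apply,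
      dlt_apply, hkdf, show H₀ s = ((-1 : ℤ) ^ s.card) • lT S B G.h (f s) from rfl, map_neg,
      smul_neg, neg_neg, map_zsmul, map_zsmul, smul_smul, smul_smul, ← mul_pow, neg_one_mul,
      neg_neg, one_pow, one_smul, one_smul, lT_comp_apply, lT_comp_apply, lT_add,
      LinearMap.add_apply, add_comm]
  have hsum : ∀ i, dT B y δ (∑ l, G.c i l • kap S l (u i)) =
      (∑ l, y l * G.c i l) • u i - ∑ l, G.c i l • kap S l (dT B y δ (u i)) := by
    intro i
    rw [map_sum, Finset.sum_smul, ← Finset.sum_sub_distrib]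
    refine Finset.sum_congr rfl fun l _ => ?_
    rw [map_smul, eq_sub_of_add_eq (dT_kap l δ (u i)), smul_sub, smul_smul, mul_comm]
  rw [filT, mem_cardPi]
  intro s
  rw [Pi.sub_apply, map_add, Pi.add_apply, hH2, map_sum, Finset.sum_apply]
  simp only [hsum, Pi.sub_apply, Pi.smul_apply, Finset.sum_apply, Finset.sum_sub_distrib]
  have h1 : ∀ i, (∑ l, y l * G.c i l) • u i s = lT S B (G.a i • G.φ i) (f s) := by
    intro i
    rw [← smul_lT (G.a_smul i) (u i s), show u i s = lT S B (G.φ i) (f s) from rfl, lT_comp_apply]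
    rfl
  simp only [h1]
  have h2 : f s - (lT S B (δ ∘ₗ G.h + G.h ∘ₗ δ) (f s) + ((∑ i, lT S B (G.a i • G.φ i) (f s)) -
      ∑ i, ∑ l, G.c i l • kap S l (dT B y δ (u i)) s)) =
      lT S B (LinearMap.id - (∑ i, G.a i • G.φ i) - δ ∘ₗ G.h - G.h ∘ₗ δ) (f s) +
      ∑ i, ∑ l, G.c i l • kap S l (dT B y δ (u i)) s := by
    rw [lT_sub, lT_sub, lT_sub, lT_id, lT_add,
      show lT S B (∑ i, G.a i • G.φ i) = ∑ i, lT S B (G.a i • G.φ i) from
        map_sum ({ toFun := lT S B, map_zero' := lT_zero, map_add' := lT_add } :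
          (A →ₗ[R] A) →+ ((B ⊗[R] A) →ₗ[S] (B ⊗[R] A))) _ _]
    simp only [LinearMap.sub_apply, LinearMap.add_apply, LinearMap.id_apply, LinearMap.sum_apply]
    abel
  rw [h2]
  refine Submodule.add_mem _ (G.lT_map_mem _ (fun x hx => ?_) (hfm' s)) ?_
  · simpa using G.identity m x hx
  · refine Submodule.sum_mem _ fun i _ => Submodule.sum_mem _ fun l _ => ?_
    have := G.kap_filT l (hdu i)
    rw [filT, mem_cardPi] at this
    exact Submodule.smul_mem _ _ (this s)

end GhostData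

/-- Cycles at a far level are boundaries. -/
lemma GhostData.cycle_mem_map (G : GhostData B y δ P Gt B₀ n) (H : FiltSys I d δ P Gt)
    {τ : ℕ → ℤ} (hτ : ∀ k, k < d → τ (k + 1) ≤ τ k) {r : ℤ}
    {f : Finset (Fin d) → B ⊗[R] A}
    (hf : f ∈ DT B y P Gt (fun l => τ l + (n * B₀ : ℕ)) r) (hcyc : dT B y δ f = 0) :
    f ∈ (DT B y P Gt τ (r - 1)).map (dT B y δ) := by
  suffices ∀ k m, m + k = n → ∀ f, f ∈ DT B y P Gt (fun l => τ l + (k * B₀ : ℕ)) r →
      f ∈ G.filT m → dT B y δ f = 0 → f ∈ (DT B y P Gt τ (r - 1)).map (dT B y δ) by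
    refine this n 0 (by simp) f hf ?_ hcyc
    rw [GhostData.filT, mem_cardPi]
    intro s
    rw [G.fil_zero, gbar_top]
    trivial
  intro k
  induction k with
  | zero =>
    intro m hm f _ hfm _
    rw [GhostData.filT, mem_cardPi] at hfm
    have : f = 0 := funext fun s => by
      have := hfm s
      rw [show m = n by omega, G.fil_end, gbar_bot, Submodule.mem_bot] at this
      exact this
    rw [this]; exact Submodule.zero_mem _
  | succ k ih =>
    intro m hm f hf hfm hcyc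
    obtain ⟨w, hw, hw'⟩ := G.stage H.anti
      (σ := fun l => τ l + ((k + 1) * B₀ : ℕ)) (fun l hl => by
        have := hτ l hl; omega) hf hfm hcyc
    have he : (fun l => τ l + ((k + 1) * B₀ : ℕ) - (B₀ : ℤ)) =
        fun l => τ l + ((k * B₀ : ℕ) : ℤ) := by
      funext l; push_cast; ring
    rw [he] at hw
    have hf' : f ∈ DT B y P Gt (fun l => τ l + (k * B₀ : ℕ)) r := by
      refine DT_mono y H.anti (fun l _ => ?_) r hf
      have : k * B₀ ≤ (k + 1) * B₀ := Nat.mul_le_mul_right _ (Nat.le_succ k)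
      omega
    have h1 : f - dT B y δ w ∈ DT B y P Gt (fun l => τ l + (k * B₀ : ℕ)) r :=
      Submodule.sub_mem _ hf' ((DT_stable H y _).map_pred r (Submodule.mem_map_of_mem hw))
    have h2 : dT B y δ (f - dT B y δ w) = 0 := by
      rw [map_sub, hcyc, ← LinearMap.comp_apply, dT_dT y δ H.sq0]; simp
    have h3 := ih (m + 1) (by omega) _ h1 hw' h2
    have h4 : dT B y δ w ∈ (DT B y P Gt τ (r - 1)).map (dT B y δ) :=
      Submodule.mem_map_of_mem (DT_mono y H.anti (fun l _ => by omega) _ hw)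
    simpa using Submodule.add_mem _ h3 h4

end Vale.Agent.P202
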