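import Vale.Agent.P202.GrowthBound

/-!
P202, module C1: chains of homogeneous primes of the Rees algebra and the lower growth bound.
-/

universe u

namespace Vale.Agent.P202

open IsLocalRing Polynomial

variable {A : Type u} [CommRing A] [IsLocalRing A]

/-- The Rees algebra of the maximal ideal. -/
abbrev rees (A : Type u) [CommRing A] [IsLocalRing A] : Subalgebra A A[X] :=
  reesAlgebra (maximalIdeal A)

/-- The monomial `a t ^ i` of the Rees algebra. -/
noncomputable def rmon (i : ℕ) (a : A) (h : a ∈ maximalIdeal A ^ i) : rees A :=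
  ⟨monomial i a, reesAlgebra.monomial_mem.2 h⟩

lemma rmon_mul {i j : ℕ} {a b : A} (ha : a ∈ maximalIdeal A ^ i) (hb : b ∈ maximalIdeal A ^ j) :
    rmon i a ha * rmon j b hb =
      rmon (i + j) (a * b) (by rw [pow_add]; exact Ideal.mul_mem_mul ha hb) :=
  Subtype.ext (monomial_mul_monomial i j a b)

lemma rmon_pow {i : ℕ} {a : A} (ha : a ∈ maximalIdeal A ^ i) (k : ℕ) :
    rmon i a ha ^ k = rmon (i * k) (a ^ k) (by rw [pow_mul]; exact Ideal.pow_mem_pow ha k) :=
  Subtype.ext (by
    show (monomial i a) ^ k = monomial (i * k) (a ^ k)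
    exact monomial_pow ..)

lemma rmon_congr {i j : ℕ} {a b : A} (h : i = j) (h' : a = b) (ha : a ∈ maximalIdeal A ^ i) :
    rmon i a ha = rmon j b (h ▸ h' ▸ ha) := by
  subst h; subst h'; rfl

/-- The degree `i` piece of an ideal of the Rees algebra. -/
noncomputable def piece (P : Ideal (rees A)) (i : ℕ) : Ideal A :=
  ((P.restrictScalars A).map (rees A).val.toLinearMap).comap (monomial i)

lemma mem_piece {P : Ideal (rees A)} {i : ℕ} {a : A} :
    a ∈ piece P i ↔ ∃ h : a ∈ maximalIdeal A ^ i, rmon i a h ∈ P := by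
  constructor
  · rintro ⟨r, hr, he⟩
    have he' : (r : A[X]) = monomial i a := he
    have h : a ∈ maximalIdeal A ^ i := reesAlgebra.monomial_mem.1 (he' ▸ r.2)
    refine ⟨h, ?_⟩
    have : r = rmon i a h := Subtype.ext he'
    exact this ▸ hr
  · rintro ⟨h, hP⟩
    exact ⟨_, hP, rfl⟩

lemma piece_le_pow (P : Ideal (rees A)) (i : ℕ) : piece P i ≤ maximalIdeal A ^ i :=
  fun _ h => (mem_piece.1 h).1

lemma piece_mono {P Q : Ideal (rees A)} (h : P ≤ Q) (i : ℕ) : piece P i ≤ piece Q i := by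
  intro a ha
  obtain ⟨h', hP⟩ := mem_piece.1 ha
  exact mem_piece.2 ⟨h', h hP⟩

lemma mul_mem_piece {P : Ideal (rees A)} {i j : ℕ} {a b : A} (ha : a ∈ piece P i)
    (hb : b ∈ maximalIdeal A ^ j) : a * b ∈ piece P (i + j) := by
  obtain ⟨h, hP⟩ := mem_piece.1 ha
  refine mem_piece.2 ⟨by rw [pow_add]; exact Ideal.mul_mem_mul h hb, ?_⟩
  have := P.mul_mem_right (rmon j b hb) hP
  rwa [rmon_mul] at this

lemma piece_prime {P : Ideal (rees A)} (hP : P.IsPrime) {i j : ℕ} {a b : A}
    (ha : a ∈ maximalIdeal A ^ i) (hb : b ∈ maximalIdeal A ^ j) (h : a * b ∈ piece P (i + j)) :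
    a ∈ piece P i ∨ b ∈ piece P j := by
  obtain ⟨h', hP'⟩ := mem_piece.1 h
  have : rmon i a ha * rmon j b hb ∈ P := by rwa [rmon_mul]
  exact (hP.mem_or_mem this).imp (fun h => mem_piece.2 ⟨ha, h⟩) (fun h => mem_piece.2 ⟨hb, h⟩)

lemma piece_zero_le {P : Ideal (rees A)} (hP : P.IsPrime) : piece P 0 ≤ maximalIdeal A := by
  intro a ha hu
  obtain ⟨b, hb⟩ := hu.exists_right_inv
  have h1 := mul_mem_piece ha (show b ∈ maximalIdeal A ^ 0 by simp)
  rw [hb] at h1
  obtain ⟨h, h2⟩ := mem_piece.1 h1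
  refine hP.ne_top ((Ideal.eq_top_iff_one _).2 ?_)
  have e : rmon (0 + 0) (1 : A) h = 1 := Subtype.ext (by simp [rmon])
  rwa [e] at h2

/-- A prime of the Rees algebra containing `m` in every degree. -/
def Adm (P : Ideal (rees A)) : Prop :=
  P.IsPrime ∧ ∀ i, maximalIdeal A ^ (i + 1) ≤ piece P i

/-- A chain of length `l` above `P`, strict in some positive degree at each step. -/
def Chain : ℕ → Ideal (rees A) → Prop
  | 0, P => Adm P
  | l + 1, P => Adm P ∧ ∃ Q, Chain l Q ∧ (∀ i, piece P i ≤ piece Q i) ∧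
      ∃ s, 0 < s ∧ ∃ f ∈ piece Q s, f ∉ piece P s

lemma Chain.adm {l : ℕ} {P : Ideal (rees A)} (h : Chain l P) : Adm P := by
  cases l with
  | zero => exact h
  | succ l => exact h.1

/-- The growth function of a homogeneous prime. -/
noncomputable def pieceLen (P : Ideal (rees A)) (i : ℕ) : ℕ∞ :=
  sq A (maximalIdeal A ^ i) (piece P i)

/-- The cumulative growth function of a homogeneous prime. -/
noncomputable def cumLen (P : Ideal (rees A)) (n : ℕ) : ℕ∞ :=
  ∑ i ∈ Finset.range n, pieceLen P i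

lemma cumLen_mono (P : Ideal (rees A)) : Monotone (cumLen P) :=
  fun _ _ h => Finset.sum_le_sum_of_subset (Finset.range_mono h)

lemma cumLen_le (P : Ideal (rees A)) (hP : Adm P) (n : ℕ) :
    cumLen P n ≤ Module.length A (A ⧸ maximalIdeal A ^ n) := by
  induction n with
  | zero => simp [cumLen]
  | succ n ih =>
    rw [cumLen, Finset.sum_range_succ, ← sq_top_eq_length,
      sq_add (M := maximalIdeal A ^ n) (Ideal.pow_le_pow_right (Nat.le_succ n)) le_top]
    rw [← sq_top_eq_length] at ih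
    exact add_le_add ih (sq_mono_right (hP.2 n))

lemma pieceLen_shift {P Q : Ideal (rees A)} (hP : P.IsPrime) (hPQ : ∀ i, piece P i ≤ piece Q i)
    {s : ℕ} {f : A} (hfQ : f ∈ piece Q s) (hfP : f ∉ piece P s) (i : ℕ) :
    pieceLen P i + pieceLen Q (i + s) ≤ pieceLen P (i + s) := by
  have hf : f ∈ maximalIdeal A ^ s := piece_le_pow _ _ hfQ
  rw [pieceLen, pieceLen, pieceLen,
    sq_add (N := maximalIdeal A ^ (i + s)) (hPQ (i + s)) (piece_le_pow _ _), add_comm]
  gcongr
  set g : A →ₗ[A] A := LinearMap.mulLeft A f with hg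
  have h1 : Submodule.map g (maximalIdeal A ^ i) ≤ piece Q (i + s) := by
    rintro _ ⟨a, ha, rfl⟩
    rw [hg, LinearMap.mulLeft_apply, add_comm i s]
    exact mul_mem_piece hfQ ha
  refine le_trans ?_ (sq_mono_left h1)
  rw [sq_map]
  refine le_of_eq (sq_congr_inf ?_)
  ext a
  simp only [Submodule.mem_inf, Submodule.mem_comap, hg, LinearMap.mulLeft_apply]
  constructor
  · rintro ⟨ha, h⟩
    refine ⟨ha, ?_⟩
    rw [mul_comm f a]
    exact mul_mem_piece h hf
  · rintro ⟨ha, h⟩
    refine ⟨ha, ?_⟩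
    rw [Nat.add_comm i s] at h
    exact (piece_prime hP hf ha h).resolve_left hfP

lemma cumLen_shift {P Q : Ideal (rees A)} (hP : P.IsPrime) (hPQ : ∀ i, piece P i ≤ piece Q i)
    {s : ℕ} {f : A} (hfQ : f ∈ piece Q s) (hfP : f ∉ piece P s) (n : ℕ) :
    cumLen P n + cumLen Q (n + s) ≤ cumLen P (n + s) := by
  unfold cumLen
  rw [show n + s = s + n from Nat.add_comm n s, Finset.sum_range_add, Finset.sum_range_add]
  calc ∑ i ∈ Finset.range n, pieceLen P i +
        (∑ i ∈ Finset.range s, pieceLen Q i + ∑ i ∈ Finset.range n, pieceLen Q (s + i))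
      = ∑ i ∈ Finset.range s, pieceLen Q i +
        ∑ i ∈ Finset.range n, (pieceLen P i + pieceLen Q (s + i)) := by
          rw [Finset.sum_add_distrib]; ring
    _ ≤ _ := by
          refine add_le_add (Finset.sum_le_sum fun i _ => sq_mono_right (hPQ i))
            (Finset.sum_le_sum fun i _ => ?_)
          rw [Nat.add_comm s i]
          exact pieceLen_shift hP hPQ hfQ hfP i

/-- A chain of length `l` forces growth of degree `l`. -/
theorem Chain.growth : ∀ {l : ℕ} {P : Ideal (rees A)}, Chain l P →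
    ∃ K : ℕ, 0 < K ∧ ∀ m : ℕ, ((m.choose l : ℕ) : ℕ∞) ≤ cumLen P (K * (m + 1)) := by
  intro l
  induction l with
  | zero =>
    intro P hP
    refine ⟨1, one_pos, fun m => ?_⟩
    refine le_trans ?_ (cumLen_mono P (show 1 ≤ 1 * (m + 1) by omega))
    simp only [Nat.choose_zero_right, Nat.cast_one, cumLen, Finset.sum_range_one, pieceLen]
    rw [Order.one_le_iff_ne_zero, Ne, sq_eq_zero_iff]
    intro h
    have h1 : (1 : A) ∈ maximalIdeal A := piece_zero_le hP.1 (h (by simp))
    exact (maximalIdeal.isMaximal A).ne_top ((Ideal.eq_top_iff_one _).2 h1)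
  | succ l ih =>
    rintro P ⟨hP, Q, hQ, hPQ, s, hs, f, hfQ, hfP⟩
    obtain ⟨K, hK, hKb⟩ := ih hQ
    refine ⟨max K s, lt_of_lt_of_le hK (le_max_left _ _), fun m => ?_⟩
    induction m with
    | zero => simp
    | succ m ihm =>
      set K' := max K s
      have h1 : K' * (m + 1 + 1) = (K' * (m + 1 + 1) - s) + s := by
        have : s ≤ K' * (m + 1 + 1) :=
          le_trans (le_max_right K s) (Nat.le_mul_of_pos_right _ (by omega))
        omega
      rw [h1, Nat.choose_succ_succ', Nat.cast_add, add_comm]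
      refine le_trans (add_le_add ?_ ?_) (cumLen_shift hP.1 hPQ hfQ hfP _)
      · refine ihm.trans (cumLen_mono P ?_)
        have : K' * (m + 1 + 1) = K' * (m + 1) + K' := by ring
        have := le_max_right K s
        omega
      · refine le_trans ?_ (le_trans (hKb (m + 1)) (cumLen_mono Q ?_))
        · exact_mod_cast Nat.choose_le_choose l (Nat.le_succ m)
        · rw [← h1]
          exact Nat.mul_le_mul_right _ (le_max_left K s)

/-- A chain of length `l` forces `l ≤ dim A`. -/
theorem Chain.le_ndim [IsNoetherianRing A] {l : ℕ} {P : Ideal (rees A)} (h : Chain l P) :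
    l ≤ ndim A := by
  by_contra hl
  rw [not_le] at hl
  obtain ⟨K, hK, hKb⟩ := h.growth
  obtain ⟨C, hC⟩ := exists_length_quot_pow_le (A := A)
  set d := ndim A
  set T := l.factorial * C * (4 * K) ^ d + 1 with hT
  have key : ∀ m : ℕ, m.choose l ≤ C * (K * (m + 1) + 1) ^ d := fun m =>
    Nat.cast_le.1 ((hKb m).trans ((cumLen_le P h.adm _).trans (hC _)))
  have h1 : T ^ l ≤ ((T + l).descFactorial l) := by
    refine le_trans (Nat.pow_le_pow_left ?_ l) (Nat.pow_sub_le_descFactorial (T + l) l)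
    omega
  rw [Nat.descFactorial_eq_factorial_mul_choose] at h1
  have h2 := key (T + l)
  have hTl : l ≤ T ∨ T < l := le_or_gt l T
  have hstep : T ^ l ≤ l.factorial * C * (K * (T + l + 1) + 1) ^ d := by
    calc T ^ l ≤ l.factorial * (T + l).choose l := h1
      _ ≤ l.factorial * (C * (K * (T + l + 1) + 1) ^ d) := Nat.mul_le_mul_left _ h2
      _ = _ := by ring
  rcases hTl with hTl | hTl
  · have h3 : K * (T + l + 1) + 1 ≤ 4 * K * T := by
      have hT1 : 1 ≤ T := by omega
      nlinarith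
    have h4 : T ^ l ≤ (T - 1) * T ^ d := by
      calc T ^ l ≤ l.factorial * C * (4 * K * T) ^ d :=
            hstep.trans (Nat.mul_le_mul_left _ (Nat.pow_le_pow_left h3 d))
        _ = (T - 1) * T ^ d := by rw [mul_pow, hT, Nat.add_sub_cancel]; ring
    have h5 : T ^ (d + 1) ≤ T ^ l := Nat.pow_le_pow_right (by omega) hl
    rw [pow_succ] at h5
    have h6 : T ^ d * T ≤ (T - 1) * T ^ d := h5.trans h4
    have hTd : 0 < T ^ d := pow_pos (by omega) d
    have h7 : T * T ^ d ≤ (T - 1) * T ^ d := by rwa [mul_comm]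
    have := Nat.le_of_mul_le_mul_right h7 hTd
    omega
  · -- use a multiple of `T` instead
    have hC0 : C ≠ 0 := by
      intro hC0
      have := key (l)
      simp [hC0] at this
    have hpow : 1 ≤ (4 * K) ^ d := Nat.one_le_pow _ _ (by omega)
    have hfac : l ≤ l.factorial := Nat.self_le_factorial l
    have : l ≤ l.factorial * C * (4 * K) ^ d := by
      calc l = l * 1 * 1 := by ring
        _ ≤ l.factorial * C * (4 * K) ^ d :=
          Nat.mul_le_mul (Nat.mul_le_mul hfac (Nat.pos_of_ne_zero hC0)) hpow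
    omega

end Vale.Agent.P202
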