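import Vale.Agent.P202.Functor

/-!
Koszul homology of `S ⊗ W` for modules `W` killed by the maximal ideal, and transport along a
change of rings `R → R'`.
-/

universe u

namespace Vale.Agent.P202

open TensorProduct IsLocalRing

section

variable {R S : Type*} [CommRing R] [CommRing S] {B : Type*} [AddCommGroup B] [Module R B]
  [Module S B] [SMulCommClass R S B] {d : ℕ} {y : Fin d → S} {p : ℕ}
  {V W : Type*} [AddCommGroup V] [Module R V] [AddCommGroup W] [Module R W]

lemma hpMap_id_apply (x : HQ (R := R) B y V p) : hpMap B y p (LinearMap.id : V →ₗ[R] V) x = x := by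
  obtain ⟨x, rfl⟩ := Submodule.mkQ_surjective _ x
  rw [Submodule.mkQ_apply, hpMap_mk]
  congr 1
  funext s
  simp [lT_id]

lemma hpMap_add_apply (f g : V →ₗ[R] W) (x : HQ (R := R) B y V p) :
    hpMap B y p (f + g) x = hpMap B y p f x + hpMap B y p g x := by
  obtain ⟨x, rfl⟩ := Submodule.mkQ_surjective _ x
  rw [Submodule.mkQ_apply, hpMap_mk, hpMap_mk, hpMap_mk, ← Submodule.Quotient.mk_add]
  congr 1
  funext s
  simp [lT_add]

variable {U : Type*} [AddCommGroup U] [Module R U]

/-- Koszul homology is exact on split sequences. -/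
lemma hp_exact_of_split (f : U →ₗ[R] V) (g : V →ₗ[R] W) (r : V →ₗ[R] U) (t : W →ₗ[R] V)
    (hr : r ∘ₗ f = LinearMap.id) (ht : g ∘ₗ t = LinearMap.id)
    (hid : f ∘ₗ r + t ∘ₗ g = LinearMap.id) :
    hp B y U p ⊓ LinearMap.ker (hpMap B y p f) = ⊥ ∧
      hp B y V p ⊓ LinearMap.ker (hpMap B y p g) ≤ (hp B y U p).map (hpMap B y p f) ∧
      hp B y W p ≤ (hp B y V p).map (hpMap B y p g) := by
  refine ⟨?_, ?_, ?_⟩
  · rw [eq_bot_iff]
    rintro x ⟨-, hx⟩
    rw [SetLike.mem_coe, LinearMap.mem_ker] at hx
    rw [Submodule.mem_bot, ← hpMap_id_apply x, ← hr, ← hpMap_hmap, hx, map_zero]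
  · rintro x ⟨hx, hx'⟩
    rw [SetLike.mem_coe, LinearMap.mem_ker] at hx'
    refine ⟨hpMap B y p r x, hpMap_hp_le r (Submodule.mem_map_of_mem hx), ?_⟩
    conv_rhs => rw [← hpMap_id_apply x, ← hid, hpMap_add_apply, ← hpMap_hmap f r, ← hpMap_hmap t g, hx',
      map_zero, add_zero]
  · intro x hx
    refine ⟨hpMap B y p t x, hpMap_hp_le t (Submodule.mem_map_of_mem hx), ?_⟩
    rw [hpMap_hmap, ht, hpMap_id_apply]

end

section Residue

variable {R : Type*} [CommRing R] [IsLocalRing R] {U V W : Type*} [AddCommGroup U] [Module R U]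
  [AddCommGroup V] [Module R V] [AddCommGroup W] [Module R W]

/-- A linear section of a surjection onto a module, when both sides are killed by the maximal
ideal. -/
lemma exists_split (hU : KilledBy (maximalIdeal R) U) (hV : KilledBy (maximalIdeal R) V)
    (f : U →ₗ[R] V) (g : V →ₗ[R] W) (hf : Function.Injective f) (he : Function.Exact f g)
    (hg : Function.Surjective g) :
    ∃ r : V →ₗ[R] U, ∃ t : W →ₗ[R] V, r ∘ₗ f = LinearMap.id ∧ g ∘ₗ t = LinearMap.id ∧
      f ∘ₗ r + t ∘ₗ g = LinearMap.id := by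
  letI : Module (R ⧸ maximalIdeal R) U :=
    Module.IsTorsionBySet.module (M := U) fun v a => hU a a.2 v
  letI : Module (R ⧸ maximalIdeal R) V :=
    Module.IsTorsionBySet.module (M := V) fun v a => hV a a.2 v
  letI : Field (R ⧸ maximalIdeal R) := Ideal.Quotient.field _
  let fk : U →ₗ[R ⧸ maximalIdeal R] V :=
    { toFun := f
      map_add' := map_add f
      map_smul' := by
        intro a v
        obtain ⟨a, rfl⟩ := Ideal.Quotient.mk_surjective a
        exact map_smul f a v }
  have hfk : LinearMap.ker fk = ⊥ := LinearMap.ker_eq_bot.2 hf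
  obtain ⟨rk, hrk⟩ := fk.exists_leftInverse_of_injective hfk
  let r : V →ₗ[R] U :=
    { toFun := rk
      map_add' := map_add rk
      map_smul' := fun a v => map_smul rk (Ideal.Quotient.mk (maximalIdeal R) a) v }
  have hr : r ∘ₗ f = LinearMap.id := LinearMap.ext fun v => LinearMap.congr_fun hrk v
  let e : (V ⧸ LinearMap.ker g) ≃ₗ[R] W := g.quotKerEquivOfSurjective hg
  have hker : LinearMap.ker g ≤ LinearMap.ker (LinearMap.id - f ∘ₗ r) := by
    intro v hv
    obtain ⟨u, rfl⟩ := (he v).1 hv
    have : r (f u) = u := LinearMap.congr_fun hr u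
    simp [this]
  let t : W →ₗ[R] V := (LinearMap.ker g).liftQ _ hker ∘ₗ e.symm.toLinearMap
  have hid : f ∘ₗ r + t ∘ₗ g = LinearMap.id := by
    refine LinearMap.ext fun v => ?_
    have : e.symm (g v) = Submodule.Quotient.mk v := by
      rw [LinearEquiv.symm_apply_eq]; rfl
    simp [t, this]
  refine ⟨r, t, hr, ?_, hid⟩
  refine LinearMap.ext fun w => ?_
  obtain ⟨v, rfl⟩ := hg w
  have := congrArg g (LinearMap.congr_fun hid v)
  simpa [(he.apply_apply_eq_zero (r v))] using this

end Residue

section Congr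

variable {S : Type*} [CommRing S] {d : ℕ} (y : Fin d → S) {M M' : Type*} [AddCommGroup M]
  [Module S M] [AddCommGroup M'] [Module S M']

lemma khlen_congr (e : M ≃ₗ[S] M') (p : ℕ) : khlen y M p = khlen y M' p := by
  let E := kmap d e.toLinearMap
  have hinj : Function.Injective E := fun a b h => funext fun s => e.injective (congrFun h s)
  have hchain : ∀ p, (kchain S d M p).map E = kchain S d M' p := by
    intro p
    refine le_antisymm (kmap_kchain_le _ p) fun f hf => ⟨fun s => e.symm (f s), ?_, ?_⟩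
    · intro s hs; simp [hf s hs]
    · funext s; simp [E]
  have hker : (kchain S d M p ⊓ LinearMap.ker (kd y M)).map E =
      kchain S d M' p ⊓ LinearMap.ker (kd y M') := by
    rw [Submodule.map_inf _ hinj, hchain]
    congr 1
    apply le_antisymm
    · rintro _ ⟨f, hf, rfl⟩
      rw [SetLike.mem_coe, LinearMap.mem_ker] at hf
      rw [LinearMap.mem_ker, kd_kmap, hf, map_zero]
    · intro f hf
      refine ⟨fun s => e.symm (f s), ?_, ?_⟩
      · rw [SetLike.mem_coe, LinearMap.mem_ker]
        apply hinj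
        rw [← kd_kmap]
        rw [LinearMap.mem_ker] at hf
        simp only [map_zero]
        convert hf using 2
        funext s; simp [E]
      · funext s; simp [E]
  have hbd : ((kchain S d M (p + 1)).map (kd y M)).map E =
      (kchain S d M' (p + 1)).map (kd y M') := by
    rw [← hchain, ← Submodule.map_comp, ← Submodule.map_comp]
    congr 1
    exact LinearMap.ext fun f => (kd_kmap y _ f).symm
  rw [khlen, khlen, ← hker, ← hbd, sq_map, Submodule.comap_map_eq_of_injective hinj]

lemma kchi_congr (e : M ≃ₗ[S] M') : kchi y M = kchi y M' := by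
  simp only [kchi, khlen_congr y e]

end Congr

section LengthEq

variable {R S : Type u} [CommRing R] [CommRing S] {B : Type u} [AddCommGroup B]
  [Module R B] [Module S B] [SMulCommClass R S B] {d : ℕ} {y : Fin d → S}

lemma khlen_add_of_exact {U V W : Type u} [AddCommGroup U] [Module R U] [AddCommGroup V]
    [Module R V] [AddCommGroup W] [Module R W] (f : U →ₗ[R] V) (g : V →ₗ[R] W)
    (hfg : g ∘ₗ f = 0) (p : ℕ)
    (hex : hp B y U p ⊓ LinearMap.ker (hpMap B y p f) = ⊥ ∧
      hp B y V p ⊓ LinearMap.ker (hpMap B y p g) ≤ (hp B y U p).map (hpMap B y p f) ∧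
      hp B y W p ≤ (hp B y V p).map (hpMap B y p g)) :
    khlen y (B ⊗[R] V) p = khlen y (B ⊗[R] U) p + khlen y (B ⊗[R] W) p := by
  have hK : hp B y V p ⊓ LinearMap.ker (hpMap B y p g) = (hp B y U p).map (hpMap B y p f) := by
    refine le_antisymm hex.2.1 (le_inf (hpMap_hp_le f) ?_)
    rintro _ ⟨x, _, rfl⟩
    rw [LinearMap.mem_ker, hpMap_hmap, hfg, hpMap_zero, LinearMap.zero_apply]
  rw [khlen_eq_sq_hp, khlen_eq_sq_hp, khlen_eq_sq_hp,
    sq_add (M := hp B y V p ⊓ LinearMap.ker (hpMap B y p g)) bot_le inf_le_left, sq_inf_self, add_comm]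
  congr 1
  · rw [hK, sq_map, Submodule.comap_bot, ← sq_inf_self, hex.1]
  · rw [← Submodule.comap_bot (hpMap B y p g), ← sq_map, le_antisymm (hpMap_hp_le g) hex.2.2]

/-- A length formula extends from simple modules to all killed modules of finite length. -/
lemma khlen_eq_mul_length {I : Ideal R}
    (hex : ∀ (U V W : Type u) [AddCommGroup U] [Module R U] [AddCommGroup V] [Module R V]
      [AddCommGroup W] [Module R W] (f : U →ₗ[R] V) (g : V →ₗ[R] W),
      KilledBy I U → KilledBy I V → KilledBy I W →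
      Function.Injective f → Function.Exact f g → Function.Surjective g → ∀ p,
      hp B y U p ⊓ LinearMap.ker (hpMap B y p f) = ⊥ ∧
      hp B y V p ⊓ LinearMap.ker (hpMap B y p g) ≤ (hp B y U p).map (hpMap B y p f) ∧
      hp B y W p ≤ (hp B y V p).map (hpMap B y p g))
    (β : ℕ → ℕ)
    (hsimple : ∀ (V : Type u) [AddCommGroup V] [Module R V], KilledBy I V → IsSimpleModule R V →
      ∀ p, khlen y (B ⊗[R] V) p = β p)
    (V : Type u) [AddCommGroup V] [Module R V] (hV : KilledBy I V) (hfin : Module.length R V ≠ ⊤)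
    (p : ℕ) : khlen y (B ⊗[R] V) p = β p * Module.length R V := by
  rw [Module.length_ne_top_iff] at hfin
  induction hfin with
  | of_subsingleton =>
    rename_i V _ _ _
    rw [Module.length_eq_zero, mul_zero, khlen_eq_sq_hp, sq_eq_zero_iff]
    rintro _ ⟨x, _, rfl⟩
    have h0 : ∀ z : B ⊗[R] V, z = 0 := fun z => Subsingleton.elim _ _
    rw [Submodule.mem_bot, show x = 0 from funext fun s => h0 _, map_zero]
  | of_simple_quotient hfin ih =>
    rename_i V _ _ N _
    have hN : KilledBy I N := killedBy_submodule hV N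
    have hQ : KilledBy I (V ⧸ N) := killedBy_quotient hV N
    rw [khlen_add_of_exact N.subtype N.mkQ (LinearMap.exact_subtype_mkQ N).linearMap_comp_eq_zero p
        (hex _ _ _ N.subtype N.mkQ hN hV hQ N.injective_subtype (LinearMap.exact_subtype_mkQ N)
          N.mkQ_surjective p),
      Module.length_eq_add_of_exact N.subtype N.mkQ N.injective_subtype N.mkQ_surjective
        (LinearMap.exact_subtype_mkQ N), ih hN, hsimple (V ⧸ N) hQ inferInstance, mul_add,
      Module.length_eq_one (R := R) (M := V ⧸ N), mul_one]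

end LengthEq

end Vale.Agent.P202
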