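import Vale.Agent.P202.Sq

/-! Homology of subquotient complexes inside one ambient module with a square zero endomorphism. -/

universe u

namespace Vale.Agent.P202

open Submodule

variable {S : Type*} [CommRing S] {A : Type*} [AddCommGroup A] [Module S A]

/-- A family of submodules stable under `d`, raising the degree by one. -/
def IsStable (d : A →ₗ[S] A) (P : ℤ → Submodule S A) : Prop :=
  ∀ r, (P r).map d ≤ P (r + 1)

lemma IsStable.map_pred {d : A →ₗ[S] A} {P : ℤ → Submodule S A} (h : IsStable d P) (r : ℤ) :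
    (P (r - 1)).map d ≤ P r := by
  simpa using h (r - 1)

lemma IsStable.le_comap {d : A →ₗ[S] A} {P : ℤ → Submodule S A} (h : IsStable d P) (r : ℤ) :
    P r ≤ (P (r + 1)).comap d :=
  Submodule.map_le_iff_le_comap.1 (h r)

/-- The length of the image of the connecting map into degree `r`. -/
noncomputable def conn (S : Type*) [CommRing S] {A : Type*} [AddCommGroup A] [Module S A]
    (d : A →ₗ[S] A) (O P Q : ℤ → Submodule S A) (r : ℤ) : ℕ∞ :=
  sq S ((O (r - 1)).map d ⊓ P r ⊔ Q r) ((P (r - 1)).map d ⊔ Q r)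

/-- The length of the image of `H(P/Q) → H(O/Q)` in degree `r`. -/
noncomputable def imgA (S : Type*) [CommRing S] {A : Type*} [AddCommGroup A] [Module S A]
    (d : A →ₗ[S] A) (O P Q : ℤ → Submodule S A) (r : ℤ) : ℕ∞ :=
  sq S (P r ⊓ (Q (r + 1)).comap d) ((O (r - 1)).map d ⊔ Q r)

/-- The length of the image of `H(O/Q) → H(O/P)` in degree `r`. -/
noncomputable def imgB (S : Type*) [CommRing S] {A : Type*} [AddCommGroup A] [Module S A]
    (d : A →ₗ[S] A) (O P Q : ℤ → Submodule S A) (r : ℤ) : ℕ∞ :=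
  sq S (O r ⊓ (Q (r + 1)).comap d) ((P r ⊓ (Q (r + 1)).comap d) ⊔ ((O (r - 1)).map d ⊔ Q r))

section LES

variable {d : A →ₗ[S] A} {O P Q : ℤ → Submodule S A}

lemma sq_inf_self (N L : Submodule S A) : sq S N (N ⊓ L) = sq S N L :=
  sq_congr_inf (by rw [← inf_assoc, inf_idem])

lemma map_pred_le_comap (hd : d ∘ₗ d = 0) (X : Submodule S A) (L : Submodule S A) :
    X.map d ≤ L.comap d := by
  rintro x ⟨y, _, rfl⟩
  have : d (d y) = 0 := by simpa using LinearMap.congr_fun hd y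
  simp [this]

lemma hlen_eq_left (hd : d ∘ₗ d = 0) (hP : IsStable d P) (hQ : IsStable d Q)
    (hQP : ∀ r, Q r ≤ P r) (hPO : ∀ r, P r ≤ O r) (r : ℤ) :
    hlen S d P Q r = imgA S d O P Q r + conn S d O P Q r := by
  have h1 : (P (r - 1)).map d ⊔ Q r ≤ (O (r - 1)).map d ⊓ P r ⊔ Q r :=
    sup_le_sup_right (le_inf (Submodule.map_mono (hPO _)) (hP.map_pred r)) _
  have h2 : (O (r - 1)).map d ⊓ P r ⊔ Q r ≤ P r ⊓ (Q (r + 1)).comap d :=
    sup_le (le_inf inf_le_right (inf_le_left.trans (map_pred_le_comap hd _ _)))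
      (le_inf (hQP r) (hQ.le_comap r))
  have h3 : (P r ⊓ (Q (r + 1)).comap d) ⊓ ((O (r - 1)).map d ⊔ Q r) =
      (O (r - 1)).map d ⊓ P r ⊔ Q r := by
    apply le_antisymm
    · intro z hz
      obtain ⟨a, ha, b, hb, rfl⟩ := Submodule.mem_sup.1 hz.2
      have hP' : a ∈ P r := by
        have := (P r).sub_mem hz.1.1 (hQP r hb)
        simpa using this
      exact Submodule.add_mem_sup ⟨ha, hP'⟩ hb
    · exact le_inf h2 (sup_le_sup_right inf_le_left _)
  rw [hlen, sq_add h1 h2, imgA, conn]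
  conv_lhs => rw [← h3, sq_inf_self]
  rw [h3]

lemma hlen_eq_mid (hd : d ∘ₗ d = 0) (hQ : IsStable d Q) (hQP : ∀ r, Q r ≤ P r)
    (hPO : ∀ r, P r ≤ O r) (hO : IsStable d O) (r : ℤ) :
    hlen S d O Q r = imgA S d O P Q r + imgB S d O P Q r := by
  have h2 : (P r ⊓ (Q (r + 1)).comap d) ⊔ ((O (r - 1)).map d ⊔ Q r) ≤
      O r ⊓ (Q (r + 1)).comap d :=
    sup_le (inf_le_inf_right _ (hPO r))
      (sup_le (le_inf (hO.map_pred r) (map_pred_le_comap hd _ _))
        (le_inf ((hQP r).trans (hPO r)) (hQ.le_comap r)))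
  rw [hlen, sq_add le_sup_right h2, sq_sup_left, imgA, imgB, add_comm]

lemma hlen_eq_right (hd : d ∘ₗ d = 0) (hP : IsStable d P) (hQ : IsStable d Q)
    (hO : IsStable d O) (hQP : ∀ r, Q r ≤ P r) (hPO : ∀ r, P r ≤ O r) (r : ℤ) :
    hlen S d O P r = imgB S d O P Q r + conn S d O P Q (r + 1) := by
  have hb : (O (r - 1)).map d ⊔ P r ≤
      (O r ⊓ (Q (r + 1)).comap d) ⊔ ((O (r - 1)).map d ⊔ P r) := le_sup_right
  have ht : (O r ⊓ (Q (r + 1)).comap d) ⊔ ((O (r - 1)).map d ⊔ P r) ≤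
      O r ⊓ (P (r + 1)).comap d :=
    sup_le (inf_le_inf_left _ (Submodule.comap_mono (hQP _)))
      (sup_le (le_inf (hO.map_pred r) (map_pred_le_comap hd _ _))
        (le_inf (hPO r) (hP.le_comap r)))
  rw [hlen, sq_add hb ht, sq_sup_left, add_comm]
  congr 1
  · rw [imgB]
    refine sq_congr_inf (le_antisymm ?_ ?_)
    · rintro z ⟨hz, hz'⟩
      refine ⟨hz, ?_⟩
      obtain ⟨a, ha, b, hb, rfl⟩ := Submodule.mem_sup.1 hz'
      have hbZ : b ∈ P r ⊓ (Q (r + 1)).comap d := by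
        refine ⟨hb, ?_⟩
        have ha2 := map_pred_le_comap hd (O (r - 1)) (Q (r + 1)) ha
        have := ((Q (r + 1)).comap d).sub_mem hz.2 ha2
        simpa using this
      rw [add_comm a b]
      exact Submodule.add_mem_sup hbZ (Submodule.mem_sup_left ha)
    · rintro z ⟨hz, hz'⟩
      refine ⟨hz, ?_⟩
      exact sup_le (inf_le_left.trans le_sup_right)
        (sup_le_sup_left (hQP r) _) hz'
  · rw [conn, show r + 1 - 1 = r by ring]
    have hK : (O r ⊓ (P (r + 1)).comap d).map d = (O r).map d ⊓ P (r + 1) := by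
      apply le_antisymm
      · exact le_inf (Submodule.map_mono inf_le_left) (Submodule.map_le_iff_le_comap.2 inf_le_right)
      · rintro _ ⟨⟨x, hx, rfl⟩, hx'⟩
        exact Submodule.mem_map_of_mem (show x ∈ O r ⊓ (P (r + 1)).comap d from ⟨hx, hx'⟩)
    have hX : (O r ⊓ (P (r + 1)).comap d) ⊓ ((P r).map d ⊔ Q (r + 1)).comap d =
        (O r ⊓ (Q (r + 1)).comap d) ⊔ ((O (r - 1)).map d ⊔ P r) := by
      apply le_antisymm
      · rintro z ⟨hz, hz'⟩
        obtain ⟨a, ⟨p, hp, rfl⟩, b, hb, hab⟩ := Submodule.mem_sup.1 (Submodule.mem_comap.1 hz')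
        have hzp : z - p ∈ O r ⊓ (Q (r + 1)).comap d := by
          refine ⟨(O r).sub_mem hz.1 (hPO r hp), ?_⟩
          rw [SetLike.mem_coe, Submodule.mem_comap, map_sub, ← hab, add_sub_cancel_left]
          exact hb
        rw [← sub_add_cancel z p]
        exact Submodule.add_mem_sup hzp (Submodule.mem_sup_right hp)
      · refine le_inf ht (sup_le ?_ (sup_le ?_ ?_))
        · exact inf_le_right.trans (Submodule.comap_mono le_sup_right)
        · exact map_pred_le_comap hd _ _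
        · exact Submodule.map_le_iff_le_comap.1 le_sup_left
    rw [← hX, sq_inf_self, ← sq_map, hK]
    exact sq_congr_sup (by rw [sup_assoc, sup_of_le_right (le_sup_right : Q (r + 1) ≤ _)])

/-- The three inequalities of the long exact sequence. -/
lemma hlen_mid_le (hd : d ∘ₗ d = 0) (hP : IsStable d P) (hQ : IsStable d Q)
    (hO : IsStable d O) (hQP : ∀ r, Q r ≤ P r) (hPO : ∀ r, P r ≤ O r) (r : ℤ) :
    hlen S d O Q r ≤ hlen S d P Q r + hlen S d O P r := by
  rw [hlen_eq_mid hd hQ hQP hPO hO, hlen_eq_left hd hP hQ hQP hPO,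
    hlen_eq_right hd hP hQ hO hQP hPO]
  exact add_le_add le_self_add le_self_add

lemma hlen_eq_of_left_zero (hd : d ∘ₗ d = 0) (hP : IsStable d P) (hQ : IsStable d Q)
    (hO : IsStable d O) (hQP : ∀ r, Q r ≤ P r) (hPO : ∀ r, P r ≤ O r)
    (h0 : ∀ r, hlen S d P Q r = 0) (r : ℤ) :
    hlen S d O Q r = hlen S d O P r := by
  have hl : ∀ r, imgA S d O P Q r = 0 ∧ conn S d O P Q r = 0 := fun r => by
    have := h0 r
    rw [hlen_eq_left hd hP hQ hQP hPO] at this
    exact add_eq_zero.1 this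
  rw [hlen_eq_mid hd hQ hQP hPO hO, hlen_eq_right hd hP hQ hO hQP hPO, (hl r).1, (hl (r + 1)).2,
    zero_add, add_zero]

end LES

/-- Acyclicity of `P/Q` when `P` is generated over `Q` by a piece `O` and its differential. -/
lemma hlen_eq_zero_of_cone {d : A →ₗ[S] A} (hd : d ∘ₗ d = 0) {P Q O : ℤ → Submodule S A}
    (hQ : IsStable d Q) (hP : ∀ r, P r = Q r ⊔ (O r ⊔ (O (r - 1)).map d))
    (hO : ∀ r, O r ⊓ (Q (r + 1)).comap d ≤ Q r) (r : ℤ) : hlen S d P Q r = 0 := by
  rw [hlen, sq_eq_zero_iff]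
  rintro z ⟨hz, hz'⟩
  rw [SetLike.mem_coe, hP, Submodule.mem_sup] at hz
  obtain ⟨q, hq, w, hw, rfl⟩ := hz
  obtain ⟨x, hx, _, ⟨y, hy, rfl⟩, rfl⟩ := Submodule.mem_sup.1 hw
  have hx' : x ∈ Q r := by
    refine hO r ⟨hx, ?_⟩
    have hdd : d (d y) = 0 := by simpa using LinearMap.congr_fun hd y
    have h1 : d (q + (x + d y)) ∈ Q (r + 1) := hz'
    rw [map_add, map_add, hdd, add_zero] at h1
    have := (Q (r + 1)).sub_mem h1 (hQ.le_comap r hq)
    simpa using this
  rw [← add_assoc, add_comm]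
  refine Submodule.add_mem_sup ?_ ((Q r).add_mem hq hx')
  refine Submodule.mem_map_of_mem ?_
  rw [hP]
  exact Submodule.mem_sup_right (Submodule.mem_sup_left hy)

/-- Transport of homology along a map identifying `P/Q` with `P'/Q'`. -/
lemma hlen_map {A' : Type*} [AddCommGroup A'] [Module S A'] {d : A →ₗ[S] A}
    {d' : A' →ₗ[S] A'} (φ : A →ₗ[S] A') {P Q : ℤ → Submodule S A} {P' Q' : ℤ → Submodule S A'}
    (hP : IsStable d P) (hQ' : IsStable d' Q')
    (hcomm : ∀ r, ∀ x ∈ P r, φ (d x) = d' (φ x))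
    (hsur : ∀ r, (P r).map φ ⊔ Q' r = P' r)
    (hker : ∀ r, P r ⊓ (Q' r).comap φ = Q r) (r : ℤ) :
    hlen S d P Q r = hlen S d' P' Q' r := by
  have hQP : ∀ r, (Q r).map φ ≤ Q' r := fun r => by
    rw [← hker r]
    exact Submodule.map_le_iff_le_comap.2 inf_le_right
  have hZ : P' r ⊓ (Q' (r + 1)).comap d' ⊔ ((P' (r - 1)).map d' ⊔ Q' r) =
      (P r ⊓ (Q (r + 1)).comap d).map φ ⊔ ((P' (r - 1)).map d' ⊔ Q' r) := by
    apply le_antisymm
    · refine sup_le ?_ le_sup_right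
      rintro z ⟨hz, hz'⟩
      rw [SetLike.mem_coe, ← hsur, Submodule.mem_sup] at hz
      obtain ⟨_, ⟨x, hx, rfl⟩, q, hq, rfl⟩ := hz
      have hdx : φ (d x) ∈ Q' (r + 1) := by
        rw [hcomm r x hx]
        have h1 : d' (φ x + q) ∈ Q' (r + 1) := hz'
        rw [map_add] at h1
        have := (Q' (r + 1)).sub_mem h1 (hQ'.le_comap r hq)
        simpa using this
      have hx' : x ∈ P r ⊓ (Q (r + 1)).comap d := by
        refine ⟨hx, ?_⟩
        rw [SetLike.mem_coe, Submodule.mem_comap, ← hker]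
        exact ⟨hP.le_comap r hx, hdx⟩
      exact Submodule.add_mem_sup (Submodule.mem_map_of_mem hx') (Submodule.mem_sup_right hq)
    · refine sup_le ?_ le_sup_right
      rintro _ ⟨x, ⟨hx, hx'⟩, rfl⟩
      refine Submodule.mem_sup_left ⟨?_, ?_⟩
      · rw [← hsur]; exact Submodule.mem_sup_left (Submodule.mem_map_of_mem hx)
      · rw [SetLike.mem_coe, Submodule.mem_comap, ← hcomm r x hx]
        exact hQP _ (Submodule.mem_map_of_mem hx')
  have hB : (P' (r - 1)).map d' ⊔ Q' r = ((P (r - 1)).map d).map φ ⊔ Q' r := by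
    apply le_antisymm
    · refine sup_le ?_ le_sup_right
      rintro _ ⟨z, hz, rfl⟩
      rw [SetLike.mem_coe, ← hsur, Submodule.mem_sup] at hz
      obtain ⟨_, ⟨x, hx, rfl⟩, q, hq, rfl⟩ := hz
      rw [map_add, ← hcomm (r - 1) x hx]
      refine Submodule.add_mem_sup (Submodule.mem_map_of_mem (Submodule.mem_map_of_mem hx)) ?_
      simpa using hQ'.le_comap (r - 1) hq
    · refine sup_le ?_ le_sup_right
      rintro _ ⟨_, ⟨x, hx, rfl⟩, rfl⟩
      refine Submodule.mem_sup_left ?_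
      rw [hcomm (r - 1) x hx]
      refine Submodule.mem_map_of_mem ?_
      rw [← hsur]; exact Submodule.mem_sup_left (Submodule.mem_map_of_mem hx)
  rw [hlen, hlen]
  conv_rhs => rw [sq_congr_sup hZ, sq_map, hB]
  refine sq_congr_inf (le_antisymm ?_ ?_)
  · rintro z ⟨hz, hz'⟩
    refine ⟨hz, ?_⟩
    obtain ⟨a, ha, b, hb, rfl⟩ := Submodule.mem_sup.1 hz'
    rw [SetLike.mem_coe, Submodule.mem_comap, map_add]
    exact Submodule.add_mem_sup (Submodule.mem_map_of_mem ha) (hQP r (Submodule.mem_map_of_mem hb))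
  · rintro z ⟨hz, hz'⟩
    refine ⟨hz, ?_⟩
    obtain ⟨_, ⟨a, ha, rfl⟩, b, hb, hab⟩ := Submodule.mem_sup.1 (Submodule.mem_comap.1 hz')
    rw [← add_sub_cancel a z]
    refine Submodule.add_mem_sup ha ?_
    rw [← hker]
    exact ⟨(P r).sub_mem hz.1 (hP.map_pred r ha), by
      rw [SetLike.mem_coe, Submodule.mem_comap, map_sub, ← hab, add_sub_cancel_left]; exact hb⟩

end Vale.Agent.P202
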