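import Vale.Agent.P202.PhiWindow

/-! Interfaces for mixed characteristic: counts of free cohomology, uniform in the generators
(BLUEPRINT_M2, item 5). -/

universe u

namespace Vale.Agent.P202

open Finset

/-- The critical points of `risePoly`, as given by `exists_zeta`. -/
def IsCrit (d : ℕ) (ζ : Fin (d - 1) → ℝ) : Prop :=
  (∀ l : Fin (d - 1), -((l : ℝ) + 2) < ζ l ∧ ζ l < -((l : ℝ) + 1)) ∧
    ∀ v, (Polynomial.derivative (risePoly d)).eval v = d * ∏ l, (v - ζ l)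

/-- Free cohomology of a block: placed in the expected degrees, with the expected Euler
characteristic, uniformly for generators small against the block length `q`. -/
def GoalFreeBlock : Prop :=
  ∀ (d D : ℕ), 0 < d → 0 < D → ∀ (ζ : Fin (d - 1) → ℝ), IsCrit d ζ → ∀ K : ℕ,
    ∃ θ C : ℝ, 0 < θ ∧ 0 ≤ C ∧ ∀ q : ℕ, 0 < q → ∀ (σ : ℝ), (D : ℝ) ≤ σ * q → σ ≤ θ →
      ∀ (m : ℕ) (g : Fin m → ℤ), (∀ k, |(g k : ℝ)| ≤ σ * q) →
      ∀ j : ℤ, -(K : ℤ) ≤ j → j ≤ K →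
        (∀ i, i < q → ∀ r : ℤ,
          ¬ (min (max (-j - 2) 0) ((d : ℤ) - 1) ≤ r ∧ r ≤ min (max (-j - 1) 0) ((d : ℤ) - 1)) →
            baseR D (twistOf D ζ q) g ((q : ℤ) * j + i) r = ∅) ∧
        |((∑ i ∈ range q, ∑ r ∈ Icc (-(d : ℤ)) d, ((Int.negOnePow r : ℤˣ) : ℤ) *
            ((baseR D (twistOf D ζ q) g ((q : ℤ) * j + i) r).card : ℤ) : ℤ) : ℝ) -
          (m : ℝ) * (((q : ℝ) / D) ^ d / d *
            ((risePoly d).eval ((j : ℝ) + 1) - (risePoly d).eval (j : ℝ)))| ≤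
          C * σ * (m : ℝ) * (q : ℝ) ^ d

/-- Multiplication by a nonzero form of degree `δ` on the free cohomology at a level loses at
most `δ` slices. -/
def GoalMulRank : Prop :=
  ∀ (d D : ℕ), 0 < d → 0 < D → ∃ C : ℕ, ∀ (k : Type u) [Field k] (m : ℕ) (g : Fin m → ℤ)
    (P : MvPolynomial (Fin d) k) (δ : ℕ), P ≠ 0 → (∀ β ∈ P.support, bdeg β = δ) →
    ∀ (a : Fin (d - 1) → ℤ) (c : ℤ) (L : ℕ), 1 ≤ L →
      (∀ l, (a l).natAbs ≤ L) → c.natAbs ≤ L → (∀ i, (g i).natAbs ≤ L) → δ ≤ L →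
      ∀ (r : ℤ) (hPO : ∀ r, phiC D a (mulImg k D g P δ) c r ≤
          phiC D a (freeFam k (d := d) D g) c r),
        (((baseR D a g (c - D * δ) r).card : ℤ) -
            Module.finrank k ↥(LinearMap.range
              (hinc (δ := phiDF k m d) (Q := fun _ => ⊥) hPO r))) * L ≤
          ((C * m * δ * L ^ (d - 1) : ℕ) : ℤ) ∧
        |((baseR D a g c r).card : ℤ) - (baseR D a g (c - D * δ) r).card| * L ≤
          ((C * m * δ * L ^ (d - 1) : ℕ) : ℤ)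

end Vale.Agent.P202
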