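import Vale.Agent.P202.InterfacesBand
import Vale.Agent.P202.InterfacesM8

/-!
Interfaces for mixed characteristic: the modules below the block ranks and the comparison of `H^0`
(BLUEPRINT_BAND): the graded complete intersection, coordinates of the band ring, rank estimates
for `E` on the windows of levels of `L`.
-/

universe u

namespace Vale.Agent.P202

open IsLocalRing MvPolynomial

section poly

variable {p : ℕ} [Fact p.Prime] {k : Type u} [Field k] [CharP k p] {A : Type u} [CommRing A]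
  [Algebra (WittVector p k) A] {d : ℕ} {x : Fin d → A} {b : ℕ} {G : ℕ → Ideal A}

/-- The ideal of the initial forms of the relations of `A`. -/
noncomputable def CIData.initIdeal (CI : CIData p k A x b G) :
    Ideal (MvPolynomial (Vr d CI.n) k) :=
  Ideal.span {H | ∃ (N : ℕ) (h : MvPowerSeries (Fin d ⊕ Fin CI.n) (WittVector p k)),
    CI.ev h = 0 ∧ HasInit p CI.wt N h H}

/-- The ideal of the forms `F`. -/
noncomputable def CIData.fIdeal (CI : CIData p k A x b G) :
    Ideal (MvPolynomial (Vr d CI.n) k) :=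
  Ideal.span (Set.range CI.F)

/-- An endomorphism of the graded complete intersection has a minor of size `s` which is not zero. -/
def CIData.HasMinor (CI : CIData p k A x b G) (U : MvPolynomial (Vr d CI.n) k) (s : ℕ) : Prop :=
  ∃ (I J : Fin s → {γ // IsStdExp (d := d) CI.deg γ})
    (a : Fin s → {γ // IsStdExp (d := d) CI.deg γ} →₀ MvPolynomial (Fin d) k),
    Function.Injective I ∧ Function.Injective J ∧
    (∀ t, U * monomial (J t).1 1 - ((a t).sum fun γ P => inX P * monomial γ.1 1) ∈ CI.fIdeal) ∧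
    Matrix.det (Matrix.of fun t t' => a t (I t')) ≠ 0

end poly

/-- The graded ring of `A` as a piece of the graded complete intersection: growth, annihilator of
`U₀`, and the ranks `e` of `U₀` and `N - e` of `δ₀ - U₀`. -/
def GoalGradA : Prop :=
  ∀ (p : ℕ) [Fact p.Prime] (R : Type u) [CommRing R] [IsLocalRing R] [IsNoetherianRing R]
    (k : Type u) [Field k] [CharP k p] [PerfectRing k p] (A : Type u) [CommRing A] [IsLocalRing A]
    [IsNoetherianRing A] [Algebra R A] [Algebra (WittVector p k) A] (d : ℕ) (xR : Fin d → R)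
    (b : ℕ) (G : ℕ → Ideal A) (ι : ResidueField R →+* k) (e : ℝ),
    BandCtx p R A xR b G ι e → ∀ (CI : CIData p k A (fun l => algebraMap R A (xR l)) b G),
    (∃ C : ℕ, ∀ T : ℕ, 0 < T → Module.length A (A ⧸ G (b * T)) ≠ ⊤ ∧
      |((Module.length A (A ⧸ G (b * T))).toNat : ℝ) - e / d.factorial * (T : ℝ) ^ d| ≤
        (C : ℝ) * (T : ℝ) ^ (d - 1)) ∧
    (∀ (j l a : ℕ) (H : MvPolynomial (Vr d CI.n) k),
      expand (p ^ l) (rootPoly p j CI.U₀ * rootPoly p j (inX CI.δ₀) ^ a) * H ∈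
          Ideal.span (Set.range fun v => expand (p ^ l) (rootPoly p j (CI.F v))) ↔
        H ∈ Ideal.span ((fun P => expand (p ^ l) (rootPoly p j P)) ''
          (CI.initIdeal : Set (MvPolynomial (Vr d CI.n) k)))) ∧
    (∀ N H, MvPolynomial.IsWeightedHomogeneous CI.wt H N → (H ∈ CI.initIdeal ↔
      ∃ h, CI.ev h = 0 ∧ HasInit p CI.wt N h H)) ∧
    ∃ s s' : ℕ, (s : ℝ) = e ∧ s + s' = ∏ v, CI.deg v ∧ CI.HasMinor CI.U₀ s ∧
      CI.HasMinor (inX CI.δ₀ - CI.U₀) s'

/-- The components of the graded ring of `A`: separating forms, and on every component `q ^ d m ^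
(n + 1)` monomials, exponents less than `q`, independent over the `q`-th powers of the variables. -/
def GoalCompData : Prop :=
  ∀ (p : ℕ) [Fact p.Prime] (k : Type u) [Field k] [CharP k p] [PerfectRing k p] (A : Type u)
    [CommRing A] [IsLocalRing A] [IsNoetherianRing A] [Algebra (WittVector p k) A] (d : ℕ)
    (x : Fin d → A) (b : ℕ) (G : ℕ → Ideal A), 0 < d → NuFil p k A x b G →
    ∀ (CI : CIData p k A x b G), ∃ (ν dS : ℕ) (P : Fin ν → Ideal (MvPolynomial (Vr d CI.n) k))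
      (s : Fin ν → MvPolynomial (Vr d CI.n) k),
      0 < ν ∧ 0 < dS ∧ (∀ a, (P a).IsPrime) ∧ (∀ H, (∀ a, H ∈ P a) ↔ H ∈ CI.initIdeal) ∧
      (∀ a, MvPolynomial.IsWeightedHomogeneous CI.wt (s a) dS ∧ s a ∉ P a) ∧
      (∀ a a', a ≠ a' → s a ∈ P a') ∧
      (∀ a N H, MvPolynomial.IsWeightedHomogeneous CI.wt H N → H ∈ P a →
        s a * H ∈ CI.initIdeal) ∧
      ∀ (a : Fin ν) (j l : ℕ), ∃ w : Fin ((p ^ l) ^ (CI.n + 1) * (p ^ (j + l)) ^ d) →
          (Vr d CI.n →₀ ℕ),
        (∀ t v, w t v < p ^ (j + l)) ∧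
        ∀ r : Fin ((p ^ l) ^ (CI.n + 1) * (p ^ (j + l)) ^ d) → MvPolynomial (Vr d CI.n) k,
          ∑ t, expand (p ^ (j + l)) (r t) * monomial (w t) 1 ∈ Ideal.span
            ((fun H => expand (p ^ l) (rootPoly p j H)) ''
              (CI.initIdeal : Set (MvPolynomial (Vr d CI.n) k))) → ∀ t, r t ∈ P a

/-- The windows of fine levels of the complex over `L`. -/
noncomputable def Band.LamF {p : ℕ} [Fact p.Prime] {R : Type u} [CommRing R] [IsLocalRing R]
    {k : Type u} [Field k] [CharP k p] [PerfectRing k p] {A : Type u} [CommRing A] [Algebra R A]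
    [Algebra (WittVector p k) A] {d : ℕ} {x : Fin d → A} {b : ℕ} {G : ℕ → Ideal A}
    {CI : CIData p k A x b G} {ι : ResidueField R →+* k} {i j K : ℕ} (B : Band p R CI ι i j K)
    (u : ℤ) : Submodule B.L (PIdx d →₀ B.L) :=
  phiSub b B.tw (fun N => (B.Fil N : Submodule B.L B.L)) u

namespace Band

variable {p : ℕ} [Fact p.Prime] {R : Type u} [CommRing R] [IsLocalRing R] {k : Type u} [Field k]
  [CharP k p] [PerfectRing k p] {A : Type u} [CommRing A] [Algebra R A]
  [Algebra (WittVector p k) A] {d : ℕ} {x : Fin d → A} {b : ℕ} {G : ℕ → Ideal A}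
  {CI : CIData p k A x b G} {ι : ResidueField R →+* k} {i j K : ℕ}
  (B : Band p R CI ι i j K)

lemma Lam_eq (t : ℤ) : B.Lam t = B.LamF ((B.blen : ℤ) * t) := rfl

lemma levelEnd_smul (z : B.L) :
    LevelEnd (phiD B.mulX) (phiDeg B.L B.L d) B.LamF (z • LinearMap.id) where
  comm := LinearMap.ext fun v => by simp
  deg := fun r => by
    rintro _ ⟨v, hv, rfl⟩
    exact Submodule.smul_mem _ z hv
  level := fun t => by
    rintro _ ⟨v, hv, rfl⟩
    exact Submodule.smul_mem _ z hv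

/-- Multiplication by `z` on the window `[a, c)` of fine levels in degree `r`. -/
noncomputable def winMul (z : B.L) (a c r : ℤ) :
    winH (phiD B.mulX) (phiDeg B.L B.L d) B.LamF a c r →ₗ[B.L]
      winH (phiD B.mulX) (phiDeg B.L B.L d) B.LamF a c r :=
  (B.levelEnd_smul z).winMap a c r

/-- The count of free cohomology of one generator in the window `[a, c)`. -/
noncomputable def cnt (a c r : ℤ) : ℕ :=
  ∑ u ∈ Finset.Ico a c, (baseR b B.tw (fun _ : Fin 1 => (0 : ℤ)) u r).card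

/-- A polynomial in normal form with respect to the expanded complete intersection. -/
def IsNF (P : MvPolynomial (Vr d CI.n) B.κ) : Prop :=
  ∀ γ ∈ P.support, ∀ v : Hv CI.n, γ (hVar v) < B.mm * CI.deg v

end Band

/-- Coordinates on the band ring: residue field, normal forms of the graded ring, lengths. -/
def GoalBandCoord : Prop :=
  ∀ (p : ℕ) [Fact p.Prime] (R : Type u) [CommRing R] [IsLocalRing R] [IsNoetherianRing R]
    (k : Type u) [Field k] [CharP k p] [PerfectRing k p] (A : Type u) [CommRing A] [IsLocalRing A]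
    [IsNoetherianRing A] [Algebra R A] [Algebra (WittVector p k) A] (d : ℕ) (xR : Fin d → R)
    (b : ℕ) (G : ℕ → Ideal A) (ι : ResidueField R →+* k) (e : ℝ),
    BandCtx p R A xR b G ι e → ∀ (CI : CIData p k A (fun l => algebraMap R A (xR l)) b G)
    (i j K : ℕ) (B : Band p R CI ι i j K), B.Rich → 0 < K →
    (∃ res : B.L →+* B.κ, (∀ z, res z = 0 ↔ z ∈ B.Fil 1) ∧
      ∀ a : B.κ, res (B.lift (C a)) = a) ∧
    (∀ (u : ℕ), ∀ z ∈ B.Fil u, ∃! P : MvPolynomial (Vr d CI.n) B.κ,
      MvPolynomial.IsWeightedHomogeneous CI.wt P u ∧ B.IsNF P ∧ z - B.lift P ∈ B.Fil (u + 1)) ∧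
    (∀ r : R, ∃ z : B.L, B.χ (algebraMap R B.As r) = Ideal.Quotient.mk B.Ann z) ∧
    ∀ (M : Type u) [AddCommGroup M] [Module R M] [Module B.L M] (N : ℕ),
      (∀ (r : R) (z : B.L), B.χ (algebraMap R B.As r) = Ideal.Quotient.mk B.Ann z →
        ∀ v : M, r • v = z • v) →
      (∀ z ∈ B.Fil N, ∀ v : M, z • v = 0) →
      Module.length R M = B.c * Module.length B.L M

/-- Rank estimates for `E` and `D` on the windows of `L`. -/
def GoalLWin : Prop :=
  ∀ (p : ℕ) [Fact p.Prime] (R : Type u) [CommRing R] [IsLocalRing R] [IsNoetherianRing R]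
    (k : Type u) [Field k] [CharP k p] [PerfectRing k p] (A : Type u) [CommRing A] [IsLocalRing A]
    [IsNoetherianRing A] [Algebra R A] [Algebra (WittVector p k) A] (d : ℕ) (xR : Fin d → R)
    (b : ℕ) (G : ℕ → Ideal A) (ι : ResidueField R →+* k) (e : ℝ),
    BandCtx p R A xR b G ι e → ∀ (CI : CIData p k A (fun l => algebraMap R A (xR l)) b G)
    (H J : ℕ) (ε : ℝ), 0 < ε → ∃ i₀, ∀ i, i₀ ≤ i → ∃ j₁, ∀ j, j₁ ≤ j → ∀ (K : ℕ)
      (B : Band p R CI ι i j K), B.Rich → 2 * b * H ≤ K → 0 < K → ∃ η : ℕ,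
        (η : ℝ) * B.c ≤ ε * B.unit ∧
        ∀ a c : ℤ, -((B.blen : ℤ) * H) ≤ a → a ≤ c → c ≤ (B.blen : ℤ) * H → ∀ r : ℤ,
          Module.length B.L (winH (phiD B.mulX) (phiDeg B.L B.L d) B.LamF a c r) ≠ ⊤ ∧
          (∀ s, s ≤ J → len B.L ↥(LinearMap.ker (B.winMul B.D a c r ^ s)) ≤ η) ∧
          ∀ s, 1 ≤ s → s ≤ J → |(rkD (B.winMul B.E a c r) s : ℝ) -
            e * (B.mm : ℝ) ^ (CI.n + 1) * (B.cnt a c r : ℝ)| ≤ (η : ℝ)

end Vale.Agent.P202
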