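import Vale.Agent.P202.Basic

/-!
Interfaces of the characteristic zero extension: approximation of formal solutions of polynomial
systems by solutions whose coefficients lie in a finitely generated ring.
-/

universe u

namespace Vale.Agent.P202

/-- The value of an integer polynomial in `x` and `Y` at `x = X` and `Y = y`. -/
noncomputable def sysEval {k : Type u} [Field k] {d m : ℕ} (y : Fin m → MvPowerSeries (Fin d) k)
    (f : MvPolynomial (Fin d ⊕ Fin m) ℤ) : MvPowerSeries (Fin d) k :=
  MvPolynomial.aeval (Sum.elim (fun i => MvPowerSeries.X i) y) f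

/-- E1: a formal solution is congruent, to any order, to a solution with coefficients in a
finitely generated subring. -/
def GoalApprox : Prop :=
  ∀ (k : Type u) [Field k] [CharZero k] (d m : ℕ)
    (F : Finset (MvPolynomial (Fin d ⊕ Fin m) ℤ)) (y₀ : Fin m → MvPowerSeries (Fin d) k),
    (∀ f ∈ F, sysEval y₀ f = 0) → ∀ c : ℕ,
    ∃ C : Subalgebra ℤ k, C.FG ∧ ∃ y : Fin m → MvPowerSeries (Fin d) k,
      (∀ i e, MvPowerSeries.coeff e (y i) ∈ C) ∧ (∀ f ∈ F, sysEval y f = 0) ∧
      ∀ i e, (e.sum fun _ n => n) < c →
        MvPowerSeries.coeff e (y i) = MvPowerSeries.coeff e (y₀ i)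

end Vale.Agent.P202
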