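import Vale.Agent.P202.Psi

/-! G4: a regular presentation of a flat local map of complete local rings of characteristic `p`. -/

universe u

namespace Vale.Agent.P202

open MvPowerSeries IsLocalRing

/-- Coefficient field `σ`, parameters `x`, the presentation `ε : K[[X, Z]] → S` and the map
`χ : k[[X]] → K[[X, Z]]` over `R → S`. -/
structure Pres (R S : Type u) [CommRing R] [IsLocalRing R] [CommRing S] [Algebra R S]
    (k K : Type u) [Field k] [Field K] (d N : ℕ) where
  x : Fin d → R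
  par : Par x
  σ : k →+* R
  σ_bij : Function.Bijective ((residue R).comp σ)
  ev : MvPowerSeries (Fin d) k →+* R
  ev_C : ∀ c, ev (C c) = σ c
  ev_X : ∀ i, ev (X i) = x i
  ev_finite : ev.Finite
  ψ : k →+* MvPowerSeries (Fin N) K
  χ : MvPowerSeries (Fin d) k →+* MvPowerSeries (Fin d ⊕ Fin N) K
  incl : MvPowerSeries (Fin N) K →+* MvPowerSeries (Fin d ⊕ Fin N) K
  β₀ : MvPowerSeries (Fin d ⊕ Fin N) K →+* MvPowerSeries (Fin N) K
  ε : MvPowerSeries (Fin d ⊕ Fin N) K →+* S
  χ_C : ∀ c, χ (C c) = incl (ψ c)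
  χ_X : ∀ i, χ (X i) = X (Sum.inl i)
  β₀_incl : ∀ b, β₀ (incl b) = b
  ker_β₀ : RingHom.ker β₀ =
    Ideal.span (Set.range fun i : Fin d => X (Sum.inl i : Fin d ⊕ Fin N))
  ε_χ : ∀ a, ε (χ a) = algebraMap R S (ev a)
  ε_incl_surj : Function.Surjective (ε.comp incl)

end Vale.Agent.P202
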