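import Vale.Agent.P202.Psi
import Vale.Agent.P202.InterfacesC

/-!
Interfaces for mixed characteristic (BLUEPRINT_M): weighted power series over `W(k)`, the filtration
of the valuations and the complete intersection with the right component.
-/

universe u

namespace Vale.Agent.P202

open IsLocalRing

/-- The variables `Y` (the image of `p`), `X` and `Z`. -/
abbrev Vr (d n : ℕ) : Type := Option (Fin d ⊕ Fin n)

section weighted

variable (p : ℕ) [Fact p.Prime] {k : Type u} [CommRing k] {d n : ℕ}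

/-- The weight of `f` is at least `N`: every term `p ^ i X ^ γ` has `wt γ + i * wt Y ≥ N`. -/
def MemW (wt : Vr d n → ℕ) (N : ℕ) (f : MvPowerSeries (Fin d ⊕ Fin n) (WittVector p k)) : Prop :=
  ∀ γ, ∃ i : ℕ, N ≤ i * wt none + Finsupp.weight (fun v => wt (some v)) γ ∧
    (p : WittVector p k) ^ i ∣ MvPowerSeries.coeff γ f

/-- The lift of a polynomial, with Teichmuller coefficients and `Y` sent to `p`. -/
noncomputable def liftPi (F : MvPolynomial (Vr d n) k) :
    MvPowerSeries (Fin d ⊕ Fin n) (WittVector p k) :=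
  ∑ γ ∈ F.support, MvPowerSeries.monomial γ.some
    (WittVector.teichmuller p (MvPolynomial.coeff γ F) * (p : WittVector p k) ^ γ none)

/-- `F` is the part of weight `N` of `f`, and there is no smaller one. -/
def HasInit (wt : Vr d n → ℕ) (N : ℕ) (f : MvPowerSeries (Fin d ⊕ Fin n) (WittVector p k))
    (F : MvPolynomial (Vr d n) k) : Prop :=
  MvPolynomial.IsWeightedHomogeneous wt F N ∧ MemW p wt (N + 1) (f - liftPi p F)

/-- A polynomial in the `X` alone, inside the polynomials in all variables. -/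
noncomputable def inX (F : MvPolynomial (Fin d) k) : MvPolynomial (Vr d n) k :=
  MvPolynomial.rename (fun l => some (Sum.inl l)) F

end weighted

/-- The filtration by the normalised valuations (section 2e), in integral units `1 / b`. -/
structure NuFil (p : ℕ) [Fact p.Prime] (k : Type u) [CommRing k] (A : Type u) [CommRing A]
    [IsLocalRing A] [Algebra (WittVector p k) A] {d : ℕ} (x : Fin d → A) (b : ℕ)
    (G : ℕ → Ideal A) : Prop where
  b_pos : 0 < b
  zero : G 0 = ⊤
  anti : Antitone G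
  mul : ∀ i j, G i * G j ≤ G (i + j)
  one_le : G 1 ≤ maximalIdeal A
  max_le : maximalIdeal A ≤ G b
  bound : ∃ c : ℕ, ∀ N, G (b * N) ≤ maximalIdeal A ^ (N - c)
  reduced : ∀ N, ∀ r ∈ G N, r * r ∈ G (2 * N + 1) → r ∈ G (N + 1)
  stable : ∃ N₀, ∀ N, N₀ ≤ N → G (N + b) = Ideal.span (Set.range x) * G N
  tfree : ∀ (j : ℕ) (P : MvPolynomial (Fin d) (WittVector p k)), P.IsHomogeneous j →
    (∃ γ, ¬ (p : WittVector p k) ∣ MvPolynomial.coeff γ P) → ∀ (N : ℕ), ∀ r ∈ G N,
      MvPolynomial.aeval x P * r ∈ G (N + b * j + 1) → r ∈ G (N + 1)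

/-- M2: existence of the filtration. -/
def GoalNu : Prop :=
  ∀ (p : ℕ) [Fact p.Prime] (k : Type u) [Field k] [CharP k p] [PerfectRing k p] [Infinite k]
    (A : Type u) [CommRing A] [IsLocalRing A] [IsNoetherianRing A]
    [IsAdicComplete (maximalIdeal A) A] [IsReduced A] [Algebra (WittVector p k) A],
    Function.Surjective ((residue A).comp (algebraMap (WittVector p k) A)) →
    ∀ (d : ℕ), 0 < d → (∀ P ∈ minimalPrimes A, (p : A) ∉ P ∧ ndim (A ⧸ P) = d) →
    ndim A = d → (p : A) ∈ maximalIdeal A →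
    ∀ (x : Fin d → A), (∀ l, x l ∈ maximalIdeal A) →
      (∃ r₀ : ℕ, ∀ N, r₀ ≤ N →
        maximalIdeal A ^ (N + 1) ≤ Ideal.span (Set.range x) * maximalIdeal A ^ N) →
      ∃ (b : ℕ) (G : ℕ → Ideal A), NuFil p k A x b G

/-- The variables `Y` and `Z` (the ones which are not parameters). -/
abbrev Hv (n : ℕ) : Type := Option (Fin n)

/-- A variable of `Hv n` among all variables. -/
def hVar {d n : ℕ} (v : Hv n) : Vr d n := v.map Sum.inr

/-- Section 3: generators of the graded ring, and the complete intersection with the right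
component. -/
structure CIData (p : ℕ) [Fact p.Prime] (k : Type u) [Field k] [CharP k p] (A : Type u)
    [CommRing A] [Algebra (WittVector p k) A] {d : ℕ} (x : Fin d → A) (b : ℕ) (G : ℕ → Ideal A)
    where
  n : ℕ
  wt : Vr d n → ℕ
  wt_pos : ∀ v, 0 < wt v
  wt_X : ∀ l, wt (some (Sum.inl l)) = b
  wt_H : ∀ v : Hv n, b ≤ wt (hVar v)
  ev : MvPowerSeries (Fin d ⊕ Fin n) (WittVector p k) →+* A
  ev_C : ∀ w, ev (MvPowerSeries.C w) = algebraMap _ A w
  ev_X : ∀ l, ev (MvPowerSeries.X (Sum.inl l)) = x l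
  strict : ∀ N (r : A), r ∈ G N ↔ ∃ f, MemW p wt N f ∧ ev f = r
  deg : Hv n → ℕ
  deg_pos : ∀ v, 0 < deg v
  /-- the initial forms of the complete intersection -/
  F : Hv n → MvPolynomial (Vr d n) k
  F_monic : ∀ v, F v - MvPolynomial.X (hVar v) ^ deg v ∈
    Ideal.span (Set.range fun l : Fin d => (MvPolynomial.X (some (Sum.inl l)) :
      MvPolynomial (Vr d n) k))
  f : Hv n → MvPowerSeries (Fin d ⊕ Fin n) (WittVector p k)
  f_ker : ∀ v, ev (f v) = 0
  f_init : ∀ v, HasInit p wt (deg v * wt (hVar v)) (f v) (F v)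
  c : ℕ
  U₀ : MvPolynomial (Vr d n) k
  δ₀ : MvPolynomial (Fin d) k
  δ₀_ne : δ₀ ≠ 0
  u : MvPowerSeries (Fin d ⊕ Fin n) (WittVector p k)
  δ : MvPowerSeries (Fin d ⊕ Fin n) (WittVector p k)
  u_init : HasInit p wt c u U₀
  δ_init : HasInit p wt c δ (inX δ₀)
  δ_sub_u : ev (δ - u) = 0
  u_ann : ∀ h, ev h = 0 → u * h ∈ Ideal.span (Set.range f)
  U₀_ann : ∀ (N : ℕ) (H : MvPolynomial (Vr d n) k), MvPolynomial.IsWeightedHomogeneous wt H N →
    (∃ h, ev h = 0 ∧ HasInit p wt N h H) → U₀ * H ∈ Ideal.span (Set.range F)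

/-- M3: existence of the complete intersection. -/
def GoalCI : Prop :=
  ∀ (p : ℕ) [Fact p.Prime] (k : Type u) [Field k] [CharP k p] [PerfectRing k p] [Infinite k]
    (A : Type u) [CommRing A] [IsLocalRing A] [IsNoetherianRing A]
    [IsAdicComplete (maximalIdeal A) A] [Algebra (WittVector p k) A],
    Function.Surjective ((residue A).comp (algebraMap (WittVector p k) A)) →
    (p : A) ∈ maximalIdeal A → (p : A) ≠ 0 →
    ∀ (d : ℕ), 0 < d → ∀ (x : Fin d → A) (b : ℕ) (G : ℕ → Ideal A),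
      (∀ l, x l ∈ maximalIdeal A) → NuFil p k A x b G →
      Nonempty (CIData p k A x b G)

end Vale.Agent.P202
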