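import Vale.Agent.P202.Psi
import Vale.Agent.P202.InterfacesC

/-! Interfaces for mixed characteristic: the core statement and the reduction to it (section 0). -/

universe u

namespace Vale.Agent.P202

open IsLocalRing

/-- The core of the mixed characteristic case: a complete domain of characteristic `0` with infinite
residue field of characteristic `p`. -/
def GoalMixedCore : Prop :=
  ∀ (p : ℕ) [Fact p.Prime] (R S : Type u) [CommRing R] [IsLocalRing R] [IsNoetherianRing R]
    [IsAdicComplete (maximalIdeal R) R] [IsDomain R] [CharZero R] [CharP (ResidueField R) p]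
    [Infinite (ResidueField R)] [CommRing S] [IsLocalRing S] [IsNoetherianRing S] [Algebra R S]
    [IsLocalHom (algebraMap R S)] [Module.Flat R S] (d : ℕ), 0 < d → ndim R = d → ndim S = d →
    ∀ (y : Fin d → S), Par y → ∀ e : ℝ, HasMult R e → e ≤ (kchi y S : ℝ)

/-- The reduction: Lech's conjecture for all Noetherian local rings follows from the core. -/
def GoalMixedWiring : Prop :=
  GoalMixedCore.{u} →
    ∀ (R S : Type u) [CommRing R] [IsLocalRing R] [IsNoetherianRing R] [CommRing S]
      [IsLocalRing S] [IsNoetherianRing S] [Algebra R S] [IsLocalHom (algebraMap R S)]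
      [Module.Flat R S] (eR eS : ℝ), HasMult R eR → HasMult S eS → eR ≤ eS

end Vale.Agent.P202
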