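import Vale.Agent.P202.Psi
import Vale.Agent.P202.InterfacesC

/-! Interfaces for mixed characteristic: coefficients (section 1, BLUEPRINT_M2 item 1). -/

universe u

namespace Vale.Agent.P202

open IsLocalRing

/-- A finite stage of the coefficients modulo depth `T`: `Ω` in `W(k)`, of residue field `κ` of
degree `c` over the residue field of `R`, and a subalgebra `As` of `A` with lengths scaled by `c`. -/
structure CoefStage (p : ℕ) [Fact p.Prime] (R : Type u) [CommRing R] [IsLocalRing R]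
    (k : Type u) [Field k] [CharP k p] (A : Type u) [CommRing A] [IsLocalRing A] [Algebra R A]
    [Algebra (WittVector p k) A] (ι : ResidueField R →+* k) (Z₀ : Finset A) (T : ℕ)
    (Sw : Finset (WittVector p k)) (Sa : Finset A) where
  Ω : Subring (WittVector p k)
  κ : Subfield k
  c : ℕ
  bas : Fin c → k
  bas_mem : ∀ i, bas i ∈ κ
  bas_span : ∀ a ∈ κ, ∃! r : Fin c → ResidueField R, a = ∑ i, ι (r i) * bas i
  c_pos : 0 < c
  ι_mem : ∀ r, ι r ∈ κ
  residue_mem : ∀ w ∈ Ω, w.coeff 0 ∈ κ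
  residue_surj : ∀ a ∈ κ, ∃ w ∈ Ω, w.coeff 0 = a
  saturated : ∀ w ∈ Ω, (p : WittVector p k) ∣ w → ∃ w' ∈ Ω, w = p * w'
  Sw_mem : ∀ w ∈ Sw, ∃ w' ∈ Ω, (p : WittVector p k) ^ T ∣ w - w'
  As : Subalgebra R A
  Ω_As : ∀ w ∈ Ω, algebraMap (WittVector p k) A w ∈ As
  Sa_As : ∀ a ∈ Sa, a ∈ As
  deep_As : ∀ a ∈ maximalIdeal A ^ T, a ∈ As
  As_le : ∀ a ∈ As, ∃ a' ∈ Subring.closure
    ((algebraMap (WittVector p k) A) '' (Ω : Set (WittVector p k)) ∪ ↑Sa ∪ ↑Z₀),
      a - a' ∈ maximalIdeal A ^ T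
  length_eq : ∀ I : Ideal A, maximalIdeal A ^ T ≤ I →
    I = Ideal.span ((I : Set A) ∩ (As : Set A)) →
      sq R (Subalgebra.toSubmodule As) (I.restrictScalars R) = c * Module.length A (A ⧸ I)
  basA : Fin c → As
  basA_residue : ∀ e, ∃ w ∈ Ω, w.coeff 0 = bas e ∧
    residue A (basA e : A) = residue A (algebraMap (WittVector p k) A w)
  basA_span : ∀ a ∈ As, ∃ r : Fin c → R,
    a - ∑ e, algebraMap R A (r e) * (basA e : A) ∈ maximalIdeal A ^ T

/-- What section 1 provides for a complete domain `R` of mixed characteristic. -/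
structure CoefData (p : ℕ) [Fact p.Prime] (R : Type u) [CommRing R] [IsLocalRing R] (d : ℕ)
    (k : Type u) [Field k] [CharP k p] (A : Type u) [CommRing A] [IsLocalRing A] [Algebra R A]
    [Algebra (WittVector p k) A] : Prop where
  residue_surj : Function.Surjective ((residue A).comp (algebraMap (WittVector p k) A))
  map_max : (maximalIdeal R).map (algebraMap R A) = maximalIdeal A
  min_primes : ∀ P ∈ minimalPrimes A, (p : A) ∉ P ∧ ndim (A ⧸ P) = d
  dim_eq : ndim A = d
  hilbert : ∃ C : ℕ, ∀ T : ℕ,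
    Module.length A (A ⧸ maximalIdeal A ^ T) ≤ Module.length R (R ⧸ maximalIdeal R ^ T) ∧
    Module.length R (R ⧸ maximalIdeal R ^ T) ≤
      Module.length A (A ⧸ maximalIdeal A ^ T) + (C * T ^ (d - 1) : ℕ)
  stages : ∃ (ι : ResidueField R →+* k) (Z₀ : Finset A),
    (∀ r : R, ∀ a, residue A (algebraMap (WittVector p k) A a) = residue A (algebraMap R A r) →
      a.coeff 0 = ι (residue R r)) ∧
    ∀ (T : ℕ) (Sw : Finset (WittVector p k)) (Sa : Finset A),
      Nonempty (CoefStage p R k A ι Z₀ T Sw Sa)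

/-- M1. -/
def GoalCoef : Prop :=
  ∀ (p : ℕ) [Fact p.Prime] (R : Type u) [CommRing R] [IsLocalRing R] [IsNoetherianRing R]
    [IsAdicComplete (maximalIdeal R) R] [IsDomain R] [CharZero R] [CharP (ResidueField R) p]
    [Infinite (ResidueField R)] (d : ℕ), 0 < d → ndim R = d →
    ∃ (k : Type u) (_ : Field k) (_ : CharP k p) (_ : PerfectRing k p) (_ : Infinite k)
      (A : Type u) (_ : CommRing A) (_ : IsLocalRing A) (_ : IsNoetherianRing A)
      (_ : IsAdicComplete (maximalIdeal A) A) (_ : IsReduced A) (_ : Algebra R A)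
      (_ : Algebra (WittVector p k) A), CoefData p R d k A

end Vale.Agent.P202
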