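import Vale.Agent.P202.Psi
import Vale.Agent.P202.InterfacesC

/-! Interfaces for mixed characteristic: the `S` side (BLUEPRINT_M2, item 7). -/

universe u

namespace Vale.Agent.P202

open IsLocalRing

/-- The length of the image of `H_p(K(y) ⊗ S/J') → H_p(K(y) ⊗ S/J)` for `J' ≤ J`. -/
noncomputable def kimg {S : Type u} [CommRing S] {d : ℕ} (y : Fin d → S) (J J' : Ideal S)
    (p : ℕ) : ℕ∞ :=
  sq S (kchain S d S p ⊓ (Submodule.pi Set.univ fun _ : Finset (Fin d) => J').comap (kd y S))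
    ((kchain S d S (p + 1)).map (kd y S) ⊔ Submodule.pi Set.univ fun _ : Finset (Fin d) => J)

/-- The adic levels of an ideal of definition compute the Koszul homology of `y ^ n` from a depth
linear in `n` on. -/
def GoalKoszulStable : Prop :=
  ∀ (S : Type u) [CommRing S] [IsLocalRing S] [IsNoetherianRing S] (d : ℕ) (y : Fin d → S),
    Par y → ∀ (I : Ideal S), I ≠ ⊤ → (∃ c, maximalIdeal S ^ c ≤ I) →
      ∃ C : ℕ, ∀ (n T T' : ℕ), 0 < n → C * n ≤ T → C * T ≤ T' → ∀ p ≤ d,
        kimg (fun l => y l ^ n) (I ^ T) (I ^ T') p = khlen (fun l => y l ^ n) S p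

/-- The Euler characteristic of the powers. -/
def GoalKchiPow : Prop :=
  ∀ (S : Type u) [CommRing S] [IsLocalRing S] [IsNoetherianRing S] (d : ℕ) (y : Fin d → S),
    Par y → ∀ n : ℕ, 0 < n →
      kchi (fun l => y l ^ n) S = (n : ℤ) ^ d * kchi y S

end Vale.Agent.P202
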