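import Vale.Agent.P202.InterfacesM

/-!
Interfaces for mixed characteristic (BLUEPRINT_M): complete intersections monic in separate
variables, and the element `E` on the truncated root ring (sections 4 to 6).
-/

universe u

namespace Vale.Agent.P202

open IsLocalRing

/-- The exponents which are `0` on `X` and less than `deg` on the other variables. -/
def IsStdExp {d n : ℕ} (deg : Hv n → ℕ) (γ : Vr d n →₀ ℕ) : Prop :=
  (∀ l, γ (some (Sum.inl l)) = 0) ∧ ∀ v, γ (hVar v) < deg v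

/-- A utility: forms monic in separate variables modulo the `X` cut out a free `k[X]`-module with
the standard monomials as a basis, and their relations are the Koszul relations. -/
def GoalMonicFree : Prop :=
  ∀ (k : Type u) [CommRing k] (d n : ℕ) (wt : Vr d n → ℕ), (∀ v, 0 < wt v) →
    ∀ (deg : Hv n → ℕ) (F : Hv n → MvPolynomial (Vr d n) k),
    (∀ v, MvPolynomial.IsWeightedHomogeneous wt (F v) (deg v * wt (hVar v))) →
    (∀ v, F v - MvPolynomial.X (hVar v) ^ deg v ∈
      Ideal.span (Set.range fun l : Fin d => (MvPolynomial.X (some (Sum.inl l)) :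
        MvPolynomial (Vr d n) k))) →
    (∀ H : MvPolynomial (Vr d n) k, ∃! a : {γ // IsStdExp (d := d) deg γ} →₀ MvPolynomial (Fin d) k,
      H - (a.sum fun γ P => inX P * MvPolynomial.monomial γ.1 1) ∈ Ideal.span (Set.range F)) ∧
    ∀ (N : ℕ) (a : Hv n → MvPolynomial (Vr d n) k),
      (∀ v, ∀ γ, MvPolynomial.coeff γ (a v) ≠ 0 →
        Finsupp.weight wt γ + deg v * wt (hVar v) = N) →
      ∑ v, a v * F v = 0 → ∃ b : Hv n → Hv n → MvPolynomial (Vr d n) k,
        (∀ v w, b v w = -b w v) ∧ (∀ v, b v v = 0) ∧ (∀ v, a v = ∑ w, b v w * F w) ∧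
        ∀ v w γ, MvPolynomial.coeff γ (b v w) ≠ 0 →
          Finsupp.weight wt γ + deg v * wt (hVar v) + deg w * wt (hVar w) = N

section root

variable (p : ℕ) [Fact p.Prime]

/-- `Y ^ Q = p` and the relations `g`. -/
noncomputable def lIdeal {Ω : Type u} [CommRing Ω] {d n : ℕ} (Q : ℕ)
    (g : Hv n → MvPolynomial (Vr d n) Ω) : Ideal (MvPolynomial (Vr d n) Ω) :=
  Ideal.span (insert (MvPolynomial.X none ^ Q - MvPolynomial.C (p : Ω)) (Set.range g))

/-- The root ring `L`: the exponents are counted in units `1 / Q`. -/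
abbrev LR {Ω : Type u} [CommRing Ω] {d n : ℕ} (Q : ℕ) (g : Hv n → MvPolynomial (Vr d n) Ω) :
    Type u :=
  MvPolynomial (Vr d n) Ω ⧸ lIdeal p Q g

/-- The monomials of weight at least `t`. -/
noncomputable def wIdeal (Ω : Type u) [CommRing Ω] {d n : ℕ} (wt : Vr d n → ℕ) (t : ℕ) :
    Ideal (MvPolynomial (Vr d n) Ω) :=
  Ideal.span {m | ∃ γ, t ≤ Finsupp.weight wt γ ∧ m = MvPolynomial.monomial γ 1}

/-- The filtration of `L` by weight. -/
noncomputable def lfil {Ω : Type u} [CommRing Ω] {d n : ℕ} (wt : Vr d n → ℕ) (Q : ℕ)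
    (g : Hv n → MvPolynomial (Vr d n) Ω) (t : ℕ) : Ideal (LR p Q g) :=
  (wIdeal Ω wt t).map (Ideal.Quotient.mk (lIdeal p Q g))

/-- The Teichmuller lift of a polynomial. -/
noncomputable def liftL {k : Type u} [CommRing k] {d n : ℕ} (F : MvPolynomial (Vr d n) k) :
    MvPolynomial (Vr d n) (WittVector p k) :=
  ∑ γ ∈ F.support, MvPolynomial.monomial γ (WittVector.teichmuller p (MvPolynomial.coeff γ F))

/-- The `p ^ j`-th root of a weighted polynomial, exponents in units `1 / p ^ j`. -/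
noncomputable def rootPoly {k : Type u} [CommRing k] [CharP k p] [PerfectRing k p] {d n : ℕ}
    (j : ℕ) (F : MvPolynomial (Vr d n) k) : MvPolynomial (Vr d n) k :=
  MvPolynomial.map ((iterateFrobeniusEquiv k p j).symm : k →+* k) F

/-- A polynomial in `X`, `Z` seen in the root ring. -/
noncomputable def piQ {Ω : Type u} [CommRing Ω] {d n : ℕ} (Q : ℕ)
    (h : MvPolynomial (Fin d ⊕ Fin n) Ω) : MvPolynomial (Vr d n) Ω :=
  MvPolynomial.rename some (MvPolynomial.expand Q h)

end root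

/-- The conclusion of sections 4 to 6 for the roots of exponent `1 / p ^ j` and `eps = p ^ (-i)`,
modulo real weight `K`, at a level `q = p ^ jq` which may be finer. -/
def HasE (p : ℕ) [Fact p.Prime] {k : Type u} [Field k] [CharP k p] [PerfectRing k p]
    {A : Type u} [CommRing A] [Algebra (WittVector p k) A] {d : ℕ} {x : Fin d → A} {b : ℕ}
    {G : ℕ → Ideal A} (CI : CIData p k A x b G) (i j K : ℕ) : Prop :=
  ∃ (jq : ℕ) (g : Hv CI.n → MvPolynomial (Vr d CI.n) (WittVector p k))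
    (D E : LR p (p ^ jq) g), j ≤ jq ∧
    (∀ v, g v - liftL p (MvPolynomial.expand (p ^ (jq - j)) (rootPoly p j (CI.F v))) ∈
      wIdeal _ CI.wt (p ^ (jq - j) * (CI.deg v * CI.wt (hVar v)) + 1) ⊔
        Ideal.span {MvPolynomial.X none ^ p ^ jq - MvPolynomial.C (p : WittVector p k)}) ∧
    D - Ideal.Quotient.mk _ (liftL p (MvPolynomial.expand (p ^ (jq - j))
        (rootPoly p j (inX CI.δ₀) ^ p ^ (j - i)))) ∈
      lfil p CI.wt (p ^ jq) g (p ^ (jq - i) * CI.c + 1) ∧
    E - Ideal.Quotient.mk _ (liftL p (MvPolynomial.expand (p ^ (jq - j))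
        (rootPoly p j CI.U₀ * rootPoly p j (inX CI.δ₀) ^ (p ^ (j - i) - 1)))) ∈
      lfil p CI.wt (p ^ jq) g (p ^ (jq - i) * CI.c + 1) ∧
    E * (D - E) ∈ lfil p CI.wt (p ^ jq) g (p ^ jq * K) ∧
    ∀ h, CI.ev h = 0 → ∀ (M : ℕ) (h' : MvPolynomial (Fin d ⊕ Fin CI.n) (WittVector p k)),
      K ≤ M → MemW p CI.wt M (h - (h' : MvPowerSeries _ (WittVector p k))) →
      E * Ideal.Quotient.mk _ (piQ (p ^ jq) h') ∈ lfil p CI.wt (p ^ jq) g (p ^ jq * K)

/-- M4 and M5: `E` exists, with a scale bound independent of the precision `K`. -/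
def GoalE : Prop :=
  ∀ (p : ℕ) [Fact p.Prime] (k : Type u) [Field k] [CharP k p] [PerfectRing k p]
    (A : Type u) [CommRing A] [Algebra (WittVector p k) A] (d : ℕ) (x : Fin d → A) (b : ℕ)
    (G : ℕ → Ideal A), 0 < b → ∀ (CI : CIData p k A x b G) (i : ℕ),
      ∃ j₀, i ≤ j₀ ∧ ∀ j, j₀ ≤ j → ∀ K, HasE p CI i j K

end Vale.Agent.P202
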