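import Vale.Agent.P202.M4Expo
import Vale.Agent.P202.InterfacesM2

/-!
Internal interface of M4 (truncated perfect rings, Lemma A) for M5. The definitions `KG`, `PT`,
`teiPT`, `monPT`, `levelPT`, `levelKG`, `FilKG`, `JPT`, `piPT` are in `M4Expo`; `teiData` (the
bundled facts: multiplicative, `tei Y = p`, generation, MIX) is proved in `M4Sharp`.
-/

universe u

namespace Vale.Agent.P202

open P202.Mixed

/-- The basic facts about the Teichmuller map of `PT`. -/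
def GoalTei : Prop :=
  ∀ (p : ℕ) [Fact p.Prime] (k : Type u) [Field k] [CharP k p] [PerfectRing k p] (d n : ℕ)
    (wt : Vr d n → ℕ), (∀ v, 0 < wt v) → ∀ T : ℚ,
    (∃ D : TeiData p (PT p k wt T) (KG p k d n),
      (D.tei : KG p k d n → PT p k wt T) = teiPT p wt T ∧
      D.Y = AddMonoidAlgebra.single (exY p d n) 1 ∧ D.Fil = FilKG p wt ∧ D.wp = wt none ∧
      D.T = ⌈T⌉₊) ∧
    (∀ (g : Ex p d n) (w : k), teiPT p wt T (AddMonoidAlgebra.single g w) =
      monPT p wt T g (WittVector.teichmuller p w)) ∧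
    (∀ (S : Set (KG p k d n)), (∀ c, ∀ x ∈ S, c * x ∈ S) →
      (∀ (l : List (KG p k d n)), (∀ x ∈ l, x ∈ S) → ∀ (e : Fin l.length → ℕ)
        (r : Fin l.length → KG p k d n), ∑ i, e i = p ^ ⌈T⌉₊ →
        (∀ i, r i ^ p ^ ⌈T⌉₊ = l.get i) → ∏ i, r i ^ e i ∈ S) →
      ∀ x ∈ AddSubmonoid.closure S, teiPT p wt T x ∈ AddSubmonoid.closure (teiPT p wt T '' S))

/-- Lemma A, without loss: `f - [G]` lies in `p J_N(G)` and `G` starts with the initial form. -/
def GoalLemmaA : Prop :=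
  ∀ (p : ℕ) [Fact p.Prime] (k : Type u) [Field k] [CharP k p] [PerfectRing k p] (d n : ℕ)
    (wt : Vr d n → ℕ), (∀ v, 0 < wt v) →
    ∀ (f : MvPowerSeries (Fin d ⊕ Fin n) (WittVector p k)) (F : MvPolynomial (Vr d n) k) (N₀ : ℕ),
      HasInit p wt N₀ f F → ∀ T N : ℚ, ∃ G : KG p k d n,
        G - levelKG p 0 F ∈ FilKG p wt (N₀ + 1) ∧ G ∈ FilKG p wt N₀ ∧
        ∃ x ∈ JPT p wt T G N, piPT p wt T f - teiPT p wt T G = (p : PT p k wt T) * x

/-- Levels exhaust, their kernels, compatibility, and the truncation of power series. -/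
def GoalLevel : Prop :=
  ∀ (p : ℕ) [Fact p.Prime] (k : Type u) [Field k] [CharP k p] [PerfectRing k p] (d n : ℕ)
    (wt : Vr d n → ℕ), (∀ v, 0 < wt v) → ∀ T : ℕ,
    (∀ (jq : ℕ) (h : MvPolynomial (Vr d n) (WittVector p k)),
      levelPT p wt (T : ℚ) jq h = 0 ↔ h ∈ wIdeal (WittVector p k) wt (p ^ jq * T) ⊔
        Ideal.span {MvPolynomial.X none ^ p ^ jq - MvPolynomial.C (p : WittVector p k)}) ∧
    (∀ x : PT p k wt (T : ℚ), ∃ jq h, levelPT p wt (T : ℚ) jq h = x) ∧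
    (∀ jq m h, levelPT p wt (T : ℚ) (jq + m) (MvPolynomial.expand (p ^ m) h) =
      (levelPT p wt (T : ℚ) jq h : PT p k wt (T : ℚ))) ∧
    (∀ f g : MvPowerSeries (Fin d ⊕ Fin n) (WittVector p k),
      piPT p wt (T : ℚ) (f + g) = piPT p wt (T : ℚ) f + piPT p wt (T : ℚ) g ∧
      piPT p wt (T : ℚ) (f * g) = piPT p wt (T : ℚ) f * piPT p wt (T : ℚ) g) ∧
    (∀ f : MvPowerSeries (Fin d ⊕ Fin n) (WittVector p k), MemW p wt T f →
      piPT p wt (T : ℚ) f = 0) ∧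
    (∀ (jq : ℕ) (h' : MvPolynomial (Fin d ⊕ Fin n) (WittVector p k)),
      levelPT p wt (T : ℚ) jq (piQ (p ^ jq) h') =
        piPT p wt (T : ℚ) (h' : MvPowerSeries (Fin d ⊕ Fin n) (WittVector p k))) ∧
    (∀ (jq t : ℕ) (F : MvPolynomial (Vr d n) k),
      levelKG p jq F ∈ FilKG p wt ((t : ℚ) / (p : ℚ) ^ jq) →
      teiPT p wt (T : ℚ) (levelKG p jq F) - levelPT p wt (T : ℚ) jq (liftL p F) ∈
        AddSubmonoid.closure (teiPT p wt (T : ℚ) ''
          ((FilKG (k := k) p wt ((t : ℚ) / (p : ℚ) ^ jq + wt none) : AddSubgroup (KG p k d n)) :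
            Set (KG p k d n))))

end Vale.Agent.P202
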