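import Vale.Agent.P202.InterfacesM1
import Vale.Agent.P202.InterfacesM2

/-!
Interfaces for mixed characteristic: the band ring at a finite stage (BLUEPRINT_M2; section 6).
-/

universe u

namespace Vale.Agent.P202

open IsLocalRing

/-- The band ring `L` over a finite residue extension `κ`: filtered with graded ring
`κ[Y,X,Z] / (roots of F)`, the elements `E`, `D`, and the action of `As ≤ A` on `E L` modulo weight
`K` (`q = p ^ jq`, weights in units `1 / q`). -/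
structure Band (p : ℕ) [Fact p.Prime] (R : Type u) [CommRing R] [IsLocalRing R] {k : Type u}
    [Field k] [CharP k p] [PerfectRing k p] {A : Type u} [CommRing A] [Algebra R A]
    [Algebra (WittVector p k) A] {d : ℕ} {x : Fin d → A} {b : ℕ} {G : ℕ → Ideal A}
    (CI : CIData p k A x b G) (ι : ResidueField R →+* k) (i j K : ℕ) : Type (u + 1) where
  jq : ℕ
  j_le : j ≤ jq
  κ : Subfield k
  c : ℕ
  c_pos : 0 < c
  bas : Fin c → k
  bas_mem : ∀ e, bas e ∈ κ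
  bas_span : ∀ z ∈ κ, ∃! r : Fin c → ResidueField R, z = ∑ e, ι (r e) * bas e
  ι_mem : ∀ r, ι r ∈ κ
  L : Type u
  [instRing : CommRing L]
  Fil : ℤ → Ideal L
  fil_top : ∀ N : ℤ, N ≤ 0 → Fil N = ⊤
  anti : Antitone Fil
  fil_mul : ∀ M N : ℤ, Fil M * Fil N ≤ Fil (M + N)
  lift : MvPolynomial (Vr d CI.n) κ → L
  lift_mem : ∀ (N : ℕ) P, MvPolynomial.IsWeightedHomogeneous CI.wt P N → lift P ∈ Fil N
  lift_add : ∀ (N : ℕ) P P', MvPolynomial.IsWeightedHomogeneous CI.wt P N →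
    MvPolynomial.IsWeightedHomogeneous CI.wt P' N →
      lift (P + P') - lift P - lift P' ∈ Fil (N + 1)
  lift_mul : ∀ (M N : ℕ) P P', MvPolynomial.IsWeightedHomogeneous CI.wt P M →
    MvPolynomial.IsWeightedHomogeneous CI.wt P' N →
      lift (P * P') - lift P * lift P' ∈ Fil (M + N + 1)
  lift_one : lift 1 - 1 ∈ Fil 1
  lift_surj : ∀ (N : ℕ), ∀ z ∈ Fil N, ∃ P, MvPolynomial.IsWeightedHomogeneous CI.wt P N ∧
    z - lift P ∈ Fil (N + 1)
  lift_ker : ∀ (N : ℕ) P, MvPolynomial.IsWeightedHomogeneous CI.wt P N →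
    (lift P ∈ Fil (N + 1) ↔ P.map κ.subtype ∈ Ideal.span (Set.range fun v =>
      MvPolynomial.expand (p ^ (jq - j)) (rootPoly p j (CI.F v))))
  X : Fin d → L
  X_mem : ∀ l, X l ∈ Fil b
  X_init : ∀ l, X l - lift (MvPolynomial.X (some (Sum.inl l))) ∈ Fil (b + 1)
  E : L
  D : L
  E₀ : MvPolynomial (Vr d CI.n) κ
  D₀ : MvPolynomial (Vr d CI.n) κ
  E₀_eq : E₀.map κ.subtype = MvPolynomial.expand (p ^ (jq - j))
    (rootPoly p j CI.U₀ * rootPoly p j (inX CI.δ₀) ^ (p ^ (j - i) - 1))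
  D₀_eq : D₀.map κ.subtype = MvPolynomial.expand (p ^ (jq - j))
    (rootPoly p j (inX CI.δ₀) ^ p ^ (j - i))
  E_init : E - lift E₀ ∈ Fil ((p ^ (jq - i) * CI.c : ℕ) + 1)
  D_init : D - lift D₀ ∈ Fil ((p ^ (jq - i) * CI.c : ℕ) + 1)
  E_idem : E * (D - E) ∈ Fil (p ^ jq * K : ℕ)
  Ann : Ideal L
  mem_Ann : ∀ z, z ∈ Ann ↔ E * z ∈ Fil (p ^ jq * K : ℕ)
  As : Subalgebra R A
  χ : As →+* L ⧸ Ann
  χ_fil : ∀ (m : ℕ) (a : As), (a : A) ∈ G m →
    ∃ z ∈ Fil (p ^ jq * m : ℕ), χ a = Ideal.Quotient.mk Ann z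
  χ_init : ∀ (m : ℕ) (a : As) (P : MvPolynomial (Vr d CI.n) κ),
    (∃ f, CI.ev f = (a : A) ∧ HasInit p CI.wt m f (P.map κ.subtype)) →
      ∃ z ∈ Fil ((p ^ jq * m : ℕ) + 1),
        χ a = Ideal.Quotient.mk Ann (lift (MvPolynomial.expand (p ^ jq) P) + z)
  x_mem : ∀ l, x l ∈ As
  χ_x : ∀ l, χ ⟨x l, x_mem l⟩ = Ideal.Quotient.mk Ann (X l ^ p ^ jq)
  init_surj : ∀ m, m < K → ∀ P : MvPolynomial (Vr d CI.n) κ,
    MvPolynomial.IsWeightedHomogeneous CI.wt P m →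
      ∃ a ∈ As, ∃ f, CI.ev f = a ∧ HasInit p CI.wt m f (P.map κ.subtype)
  length_eq : ∀ m, m ≤ K → sq R (Subalgebra.toSubmodule As) ((G m).restrictScalars R) =
    c * Module.length A (A ⧸ G m)
  basA : Fin c → As
  basA_span : ∀ a ∈ As, ∃ r : Fin c → R,
    a - ∑ e, algebraMap R A (r e) * (basA e : A) ∈ G K

attribute [instance] Band.instRing

/-- M6: the band rings exist. -/
def GoalBand : Prop :=
  ∀ (p : ℕ) [Fact p.Prime] (R : Type u) [CommRing R] [IsLocalRing R] [IsNoetherianRing R]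
    [Infinite (ResidueField R)] (k : Type u) [Field k] [CharP k p] [PerfectRing k p]
    (A : Type u) [CommRing A] [IsLocalRing A] [IsNoetherianRing A] [Algebra R A]
    [Algebra (WittVector p k) A],
    Function.Surjective ((residue A).comp (algebraMap (WittVector p k) A)) →
    (maximalIdeal R).map (algebraMap R A) = maximalIdeal A →
    (p : A) ∈ maximalIdeal A →
    ∀ (ι : ResidueField R →+* k) (Z₀ : Finset A),
    (∀ r : R, ∀ a, residue A (algebraMap (WittVector p k) A a) = residue A (algebraMap R A r) →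
      a.coeff 0 = ι (residue R r)) →
    (∀ (T : ℕ) (Sw : Finset (WittVector p k)) (Sa : Finset A),
      Nonempty (CoefStage p R k A ι Z₀ T Sw Sa)) →
    ∀ (d : ℕ), 0 < d → ∀ (x : Fin d → A) (b : ℕ) (G : ℕ → Ideal A), NuFil p k A x b G →
      ∀ (CI : CIData p k A x b G) (i j K : ℕ), i ≤ j → 0 < K → HasE p CI i j K →
        ∀ Sk : Finset k, ∃ B : Band p R CI ι i j K, ∀ s ∈ Sk, s ∈ B.κ

end Vale.Agent.P202
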