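import Vale.Agent.P202.PhiGhostAlg

/-!
Module B, layer 3b: the operators `φ_l` and the homotopy showing that the inclusions between the
levels are locally nilpotent in cohomology.
-/

universe u

namespace Vale.Agent.P202

open Finset

variable (R : Type*) [CommRing R] (M : Type*) [AddCommGroup M] [Module R M] {d : ℕ}

/-- Translation of the exponents, as a monoid homomorphism. -/
noncomputable def transHom : Multiplicative (PExp d) →* Module.End R (PIdx d →₀ M) where
  toFun g := Finsupp.lmapDomain M R fun i => (i.1, g.toAdd + i.2)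
  map_one' := Finsupp.lhom_ext fun i m => by simp
  map_mul' g h := Finsupp.lhom_ext fun i m => by simp [add_assoc]

/-- The action of Laurent polynomials by translation. -/
noncomputable def shOp : PLaur d →ₐ[ℤ] Module.End R (PIdx d →₀ M) :=
  AddMonoidAlgebra.lift ℤ (Module.End R (PIdx d →₀ M)) (PExp d) (transHom R M)

lemma shOp_single (g : PExp d) (i : PIdx d) (m : M) :
    shOp R M (AddMonoidAlgebra.single g 1) (Finsupp.single i m) =
      Finsupp.single (i.1, g + i.2) m := by
  rw [shOp, AddMonoidAlgebra.lift_single, one_smul]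
  simp [transHom]

lemma shOp_apply_single (c : PLaur d) (i : PIdx d) (m : M) :
    shOp R M c (Finsupp.single i m) =
      ∑ g ∈ c.coeff.support, c.coeff g • Finsupp.single (i.1, g + i.2) m := by
  rw [shOp, AddMonoidAlgebra.lift_apply, Finsupp.sum, LinearMap.sum_apply]
  refine Finset.sum_congr rfl fun g _ => ?_
  simp [transHom]

lemma commute_shOp {A : Module.End R (PIdx d →₀ M)}
    (h : ∀ g : PExp d, Commute A (shOp R M (AddMonoidAlgebra.single g 1))) (c : PLaur d) :
    Commute A (shOp R M c) := by
  induction c using AddMonoidAlgebra.induction_on with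
  | of g => exact h g
  | add x y hx hy => rw [map_add]; exact hx.add_right hy
  | smul r x hx => rw [map_smul]; exact hx.smul_right r

/-- Monomials of the chart `C`. -/
noncomputable def projC (C : Fin (d - 1) → Fin 3) : Module.End R (PIdx d →₀ M) :=
  Finsupp.lsum R fun i => if i.1.2 = C then Finsupp.lsingle i else 0

lemma projC_single (C : Fin (d - 1) → Fin 3) (i : PIdx d) (m : M) :
    projC R M C (Finsupp.single i m) = if i.1.2 = C then Finsupp.single i m else 0 := by
  rw [projC, Finsupp.lsum_single]
  split <;> simp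

lemma sum_projC : ∑ C, projC R M (d := d) C = 1 := by
  refine Finsupp.lhom_ext fun i m => ?_
  rw [LinearMap.sum_apply, Finset.sum_congr rfl fun C _ => projC_single R M C i m,
    Finset.sum_ite_eq]
  simp

lemma insOp_commute_shOp (l : Fin d) (c : PLaur d) : Commute (insOp R M l) (shOp R M c) := by
  refine commute_shOp R M (fun g => Finsupp.lhom_ext fun i m => ?_) c
  simp only [Module.End.mul_apply, shOp_single, insOp_single]
  split <;> simp [shOp_single, PIdx.nBoth]

lemma projC_commute_shOp (C : Fin (d - 1) → Fin 3) (c : PLaur d) :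
    Commute (projC R M C) (shOp R M c) := by
  refine commute_shOp R M (fun g => Finsupp.lhom_ext fun i m => ?_) c
  simp only [Module.End.mul_apply, shOp_single, projC_single]
  split <;> simp [shOp_single]

lemma projC_commute_insOp (C : Fin (d - 1) → Fin 3) (l : Fin d) :
    Commute (projC R M C) (insOp R M l) := by
  refine Finsupp.lhom_ext fun i m => ?_
  simp only [Module.End.mul_apply, insOp_single, projC_single]
  by_cases h : l ∈ i.1.1 <;> by_cases h' : i.1.2 = C <;> simp [h, h', projC_single, insOp_single]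

/-- Removing `l` from the Koszul set, with sign. -/
noncomputable def remOp (l : Fin d) : Module.End R (PIdx d →₀ M) :=
  Finsupp.lsum R fun i =>
    if l ∈ i.1.1 then ((-1 : ℤ) ^ i.nBoth * ksign l (i.1.1.erase l)) •
      Finsupp.lsingle ((i.1.1.erase l, i.1.2), i.2)
    else 0

lemma remOp_single (l : Fin d) (i : PIdx d) (m : M) :
    remOp R M l (Finsupp.single i m) =
      if l ∈ i.1.1 then ((-1 : ℤ) ^ i.nBoth * ksign l (i.1.1.erase l)) •
        Finsupp.single ((i.1.1.erase l, i.1.2), i.2) m
      else 0 := by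
  rw [remOp, Finsupp.lsum_single]
  split <;> simp

lemma remOp_commute_shOp (l : Fin d) (c : PLaur d) : Commute (remOp R M l) (shOp R M c) := by
  refine commute_shOp R M (fun g => Finsupp.lhom_ext fun i m => ?_) c
  simp only [Module.End.mul_apply, shOp_single, remOp_single]
  split <;> simp [shOp_single, PIdx.nBoth]

lemma sq_sign (n : ℕ) (z : ℤ) (hz : z * z = 1) :
    ((-1 : ℤ) ^ n * z) * ((-1) ^ n * z) = 1 := by
  have : (-1 : ℤ) ^ n * (-1) ^ n = 1 := by rw [← mul_pow]; simp
  linear_combination (z * z) * this + hz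

lemma ksign_sq {l : Fin d} (J : Finset (Fin d)) : ksign l J * ksign l J = 1 := by
  rw [ksign, ← mul_pow]; simp

lemma ksign_erase_insert {j l : Fin d} {J : Finset (Fin d)} (hne : j ≠ l) (hj : j ∉ J)
    (hl : l ∈ J) :
    ksign j J * ksign l ((insert j J).erase l) = -(ksign l (J.erase l) * ksign j (J.erase l)) := by
  have hl' : l ∉ J.erase l := Finset.notMem_erase _ _
  have hj' : j ∉ J.erase l := by simp [hj]
  have e1 : J = insert l (J.erase l) := (Finset.insert_erase hl).symm
  have e2 : (insert j J).erase l = insert j (J.erase l) := Finset.erase_insert_of_ne hne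
  have h := ksign_mul_ksign hne hj' hl'
  rw [← e1] at h
  rw [e2]
  have s2 := ksign_sq (l := j) (J.erase l)
  have s3 := ksign_sq (l := j) J
  linear_combination (ksign j J * ksign j (J.erase l)) * h
    - (ksign j J * ksign l (insert j (J.erase l))) * s2
    - (ksign l (J.erase l) * ksign j (J.erase l)) * s3

lemma remOp_insOp (l j : Fin d) :
    remOp R M l * insOp R M j + insOp R M j * remOp R M l =
      if j = l then 1 else 0 := by
  refine Finsupp.lhom_ext fun i m => ?_
  obtain ⟨⟨J, C⟩, p⟩ := i
  simp only [LinearMap.add_apply, Module.End.mul_apply, insOp_single, remOp_single]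
  rcases eq_or_ne j l with rfl | hne
  · rw [if_pos rfl, Module.End.one_apply]
    by_cases h : j ∈ J
    · rw [if_pos h, if_pos h, map_zero, zero_add, map_zsmul, insOp_single,
        if_neg (Finset.notMem_erase _ _), smul_smul, Finset.insert_erase h]
      change (_ * ((-1 : ℤ) ^ PIdx.nBoth (((J, C), p) : PIdx d) * _)) • _ = _
      rw [sq_sign _ _ (ksign_sq _), one_smul]
    · rw [if_neg h, if_neg h, map_zero, add_zero, map_zsmul, remOp_single,
        if_pos (Finset.mem_insert_self _ _), smul_smul, Finset.erase_insert h]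
      change (_ * ((-1 : ℤ) ^ PIdx.nBoth (((J, C), p) : PIdx d) * _)) • _ = _
      rw [sq_sign _ _ (ksign_sq _), one_smul]
  · rw [if_neg hne, LinearMap.zero_apply]
    by_cases hl : l ∈ J
    swap
    · rw [if_neg hl, map_zero, add_zero]
      split
      · rw [map_zero]
      · rw [map_zsmul, remOp_single, if_neg (by simp [hl, Ne.symm hne]), smul_zero]
    rw [if_pos hl, map_zsmul, insOp_single]
    by_cases hj : j ∈ J
    · rw [if_pos hj, map_zero, if_pos (by simp [hj, hne]), smul_zero, add_zero]
    rw [if_neg hj, if_neg (by simp [hj]), map_zsmul, remOp_single,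
      if_pos (by simp [hl]), smul_smul, smul_smul, Finset.erase_insert_of_ne hne, ← add_smul]
    convert zero_smul ℤ _ using 2
    have hq : ((-1 : ℤ) ^ PIdx.nBoth (((J, C), p) : PIdx d)) *
        ((-1) ^ PIdx.nBoth (((J, C), p) : PIdx d)) = 1 := by rw [← mul_pow]; simp
    have := ksign_erase_insert hne hj hl
    rw [Finset.erase_insert_of_ne hne] at this
    change (-1 : ℤ) ^ PIdx.nBoth (((J, C), p) : PIdx d) * ksign j J *
        ((-1) ^ PIdx.nBoth (((J, C), p) : PIdx d) * ksign l (insert j (J.erase l))) +
      (-1) ^ PIdx.nBoth (((J, C), p) : PIdx d) * ksign l (J.erase l) *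
        ((-1) ^ PIdx.nBoth (((J, C), p) : PIdx d) * ksign j (J.erase l)) = 0
    linear_combination this + (ksign j J * ksign l (insert j (J.erase l)) +
      ksign l (J.erase l) * ksign j (J.erase l)) * hq

section ops

variable {M} (X : Fin d → M →ₗ[R] M)

/-- Multiplication by `X l` on every monomial. -/
noncomputable def xOp (l : Fin d) : Module.End R (PIdx d →₀ M) :=
  Finsupp.mapRange.linearMap (X l)

lemma xOp_single (l : Fin d) (i : PIdx d) (m : M) :
    xOp R X l (Finsupp.single i m) = Finsupp.single i (X l m) :=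
  Finsupp.mapRange_single (hf := (X l).map_zero)

lemma xOp_commute_shOp (l : Fin d) (c : PLaur d) : Commute (xOp R X l) (shOp R M c) := by
  refine commute_shOp R M (fun g => Finsupp.lhom_ext fun i m => ?_) c
  simp [Module.End.mul_apply, shOp_single, xOp_single]

lemma xOp_commute_insOp (l j : Fin d) : Commute (xOp R X l) (insOp R M j) := by
  refine Finsupp.lhom_ext fun i m => ?_
  simp only [Module.End.mul_apply, insOp_single, xOp_single]
  split <;> simp [xOp_single]

lemma xOp_commute_remOp (l j : Fin d) : Commute (xOp R X l) (remOp R M j) := by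
  refine Finsupp.lhom_ext fun i m => ?_
  simp only [Module.End.mul_apply, remOp_single, xOp_single]
  split <;> simp [xOp_single]

lemma xOp_commute_projC (l : Fin d) (C : Fin (d - 1) → Fin 3) :
    Commute (xOp R X l) (projC R M C) := by
  refine Finsupp.lhom_ext fun i m => ?_
  simp only [Module.End.mul_apply, projC_single, xOp_single]
  split <;> simp [xOp_single]

/-- The shift by one step down. -/
noncomputable def downPoly : PLaur d := AddMonoidAlgebra.single ((-1, 0) : PExp d) 1

lemma phiT_mul_down (l : Fin d) :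
    phiT X l * shOp R M downPoly = xOp R X l - shOp R M (ftPoly l) := by
  refine Finsupp.lhom_ext fun i m => ?_
  obtain ⟨jc, σ, e⟩ := i
  rw [Module.End.mul_apply, LinearMap.sub_apply, downPoly, shOp_single, ftPoly, map_sum,
    LinearMap.sum_apply, xOp_single]
  change phiT X l (Finsupp.single (jc, -1 + σ, 0 + e) m) = _
  rw [phiT_single]
  congr 1
  · congr 3
    · ring
    · simp
  · refine Finset.sum_congr rfl fun ε _ => ?_
    rw [shOp_single]
    congr 1
    refine Prod.ext rfl (Prod.ext rfl (funext fun j => ?_))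
    simp [expOf, add_comm]

lemma phiT_eq (l : Fin d) :
    phiT X l = (xOp R X l - shOp R M (ftPoly l)) *
      shOp R M (AddMonoidAlgebra.single ((1, 0) : PExp d) 1) := by
  rw [← phiT_mul_down, mul_assoc, ← map_mul, downPoly, AddMonoidAlgebra.single_mul_single,
    one_mul]
  have : ((-1, 0) : PExp d) + ((1, 0) : PExp d) = 0 := by simp
  rw [this, ← AddMonoidAlgebra.one_def, map_one, mul_one]

lemma commute_phiT {A : Module.End R (PIdx d →₀ M)} (l : Fin d) (h : Commute A (xOp R X l))
    (h' : ∀ c, Commute A (shOp R M c)) : Commute A (phiT X l) := by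
  rw [phiT_eq]
  exact (h.sub_right (h' _)).mul_right (h' _)

/-- The Koszul part of the differential. -/
noncomputable def kOp : Module.End R (PIdx d →₀ M) := ∑ j, phiT X j * insOp R M j

lemma phiD_eq_add : phiD X = chOp R M d + kOp R X := phiD_eq X

/-- The homotopy between `X l` and the elementary form. -/
noncomputable def rhoOp (l : Fin d) : Module.End R (PIdx d →₀ M) :=
  shOp R M downPoly * remOp R M l

variable {X} (hX : ∀ a b, X a ∘ₗ X b = X b ∘ₗ X a)

include hX

lemma xOp_commute_xOp (a b : Fin d) : Commute (xOp R X a) (xOp R X b) := by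
  refine Finsupp.lhom_ext fun i m => ?_
  simp [Module.End.mul_apply, xOp_single, show X a (X b m) = X b (X a m) from
    LinearMap.congr_fun (hX a b) m]

lemma xOp_commute_kOp (l : Fin d) : Commute (xOp R X l) (kOp R X) :=
  Commute.sum_right _ _ _ fun j _ =>
    (commute_phiT R X j (xOp_commute_xOp R hX l j) (xOp_commute_shOp R X l)).mul_right
      (xOp_commute_insOp R X l j)

omit hX in
lemma shOp_commute_kOp (c : PLaur d) : Commute (shOp R M c) (kOp R X) :=
  Commute.sum_right _ _ _ fun j _ =>
    (commute_phiT R X j (xOp_commute_shOp R X j c).symm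
      (fun c' => (Commute.all c c').map (shOp R M))).mul_right (insOp_commute_shOp R M j c).symm

omit hX in
lemma kOp_rho (l : Fin d) :
    kOp R X * rhoOp R l + rhoOp R l * kOp R X = xOp R X l - shOp R M (ftPoly l) := by
  rw [kOp, rhoOp, Finset.sum_mul, Finset.mul_sum, ← Finset.sum_add_distrib]
  have e : ∀ j, phiT X j * insOp R M j * (shOp R M downPoly * remOp R M l) +
      shOp R M downPoly * remOp R M l * (phiT X j * insOp R M j) =
      (phiT X j * shOp R M downPoly) *
        (remOp R M l * insOp R M j + insOp R M j * remOp R M l) := by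
    intro j
    have c1 : insOp R M j * shOp R M downPoly = shOp R M downPoly * insOp R M j :=
      insOp_commute_shOp R M j _
    have c2 : remOp R M l * phiT X j = phiT X j * remOp R M l :=
      commute_phiT R X j (xOp_commute_remOp R X j l).symm (remOp_commute_shOp R M l)
    have c3 : shOp R M downPoly * phiT X j = phiT X j * shOp R M downPoly :=
      commute_phiT R X j (xOp_commute_shOp R X j _).symm
        (fun c' => (Commute.all _ c').map (shOp R M))
    calc _ = phiT X j * (insOp R M j * shOp R M downPoly) * remOp R M l +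
          shOp R M downPoly * (remOp R M l * phiT X j) * insOp R M j := by
            simp only [mul_assoc]
      _ = phiT X j * shOp R M downPoly * (insOp R M j * remOp R M l) +
          (shOp R M downPoly * phiT X j) * (remOp R M l * insOp R M j) := by
            rw [c1, c2]; simp only [mul_assoc]
      _ = _ := by rw [c3, mul_add, add_comm]
  rw [Finset.sum_congr rfl fun j _ => (e j).trans (by rw [remOp_insOp, mul_ite, mul_one, mul_zero]),
    Finset.sum_ite_eq', if_pos (Finset.mem_univ l), phiT_mul_down]

/-- The homotopy between the `N`-th powers. -/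
noncomputable def powHom (X : Fin d → M →ₗ[R] M) (l : Fin d) (N : ℕ) :
    Module.End R (PIdx d →₀ M) :=
  (∑ i ∈ range N, xOp R X l ^ i * shOp R M (ftPoly l) ^ (N - 1 - i)) * rhoOp R l

lemma kOp_powHom (l : Fin d) (N : ℕ) :
    kOp R X * powHom R X l N + powHom R X l N * kOp R X =
      xOp R X l ^ N - shOp R M (ftPoly l) ^ N := by
  have hc : Commute (kOp R X)
      (∑ i ∈ range N, xOp R X l ^ i * shOp R M (ftPoly l) ^ (N - 1 - i)) :=
    Commute.sum_right _ _ _ fun i _ =>
      ((xOp_commute_kOp R hX l).symm.pow_right i).mul_right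
        ((shOp_commute_kOp R (ftPoly l)).symm.pow_right _)
  rw [powHom, ← mul_assoc, hc.eq, mul_assoc, mul_assoc, ← mul_add, kOp_rho,
    (xOp_commute_shOp R X l (ftPoly l)).geom_sum₂_mul]

omit hX

variable (c : (Fin (d - 1) → Fin 3) → Fin d → PLaur d)

/-- Multiplication by the partition of unity. -/
noncomputable def cMul (M : Type*) [AddCommGroup M] [Module R M]
    (c : (Fin (d - 1) → Fin 3) → Fin d → PLaur d) (l : Fin d) :
    Module.End R (PIdx d →₀ M) :=
  ∑ C, shOp R M (c C l) * projC R M C

lemma cMul_commute_kOp (l : Fin d) : Commute (cMul R M c l) (kOp R X) :=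
  Commute.sum_left _ _ _ fun C _ => (shOp_commute_kOp R _).mul_left
    (Commute.sum_right _ _ _ fun j _ =>
      (commute_phiT R X j (xOp_commute_projC R X j C).symm (projC_commute_shOp R M C)).mul_right
        (projC_commute_insOp R M C j))

lemma sum_ft_cMul (N : ℕ) (hc : ∀ C, ∑ l, ftPoly l ^ N * c C l = 1) :
    ∑ l, shOp R M (ftPoly l) ^ N * cMul R M c l = 1 := by
  simp only [cMul, Finset.mul_sum, ← mul_assoc, ← map_pow, ← map_mul]
  rw [Finset.sum_comm, ← sum_projC R M]
  refine Finset.sum_congr rfl fun C _ => ?_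
  rw [← Finset.sum_mul, ← map_sum, hc C, map_one, one_mul]

include hX

lemma kOp_identity (N : ℕ) (hc : ∀ C, ∑ l, ftPoly l ^ N * c C l = 1) :
    (1 : Module.End R (PIdx d →₀ M)) + (kOp R X * (∑ l, cMul R M c l * powHom R X l N) +
      (∑ l, cMul R M c l * powHom R X l N) * kOp R X) = ∑ l, xOp R X l ^ N * cMul R M c l := by
  have e : ∀ l, kOp R X * (cMul R M c l * powHom R X l N) +
      cMul R M c l * powHom R X l N * kOp R X =
      cMul R M c l * (xOp R X l ^ N) - cMul R M c l * shOp R M (ftPoly l) ^ N := by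
    intro l
    rw [← mul_sub, ← kOp_powHom R hX, mul_add, ← mul_assoc, ← mul_assoc, ← mul_assoc,
      (cMul_commute_kOp R c l).eq]
  have hx : ∀ l, cMul R M c l * xOp R X l ^ N = xOp R X l ^ N * cMul R M c l := fun l =>
    (Commute.sum_left _ _ _ fun C _ => ((xOp_commute_shOp R X l _).symm.mul_left
      (xOp_commute_projC R X l C).symm)).pow_right N
  have hf : ∀ l, cMul R M c l * shOp R M (ftPoly l) ^ N = shOp R M (ftPoly l) ^ N * cMul R M c l :=
    fun l => (Commute.sum_left _ _ _ fun C _ => (((Commute.all (c C l) (ftPoly l)).map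
      (shOp R M)).mul_left (projC_commute_shOp R M C _))).pow_right N
  rw [Finset.mul_sum, Finset.sum_mul, ← Finset.sum_add_distrib,
    Finset.sum_congr rfl fun l _ => e l, Finset.sum_sub_distrib,
    Finset.sum_congr rfl fun l _ => hx l,
    Finset.sum_congr rfl fun l _ => hf l, sum_ft_cMul R c N hc]
  abel

end ops

section filt

variable {M}

/-- Endomorphisms that respect the filtration. -/
def PresFil (A : Module.End R (PIdx d →₀ M)) : Prop :=
  ∀ m, (phiFil R M d m).map A ≤ phiFil R M d m

/-- Endomorphisms that shift the degree by `k`. -/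
def PresDeg (A : Module.End R (PIdx d →₀ M)) (k : ℤ) : Prop :=
  ∀ r, (phiDeg R M d r).map A ≤ phiDeg R M d (r + k)

lemma presFil_of_single {A : Module.End R (PIdx d →₀ M)}
    (h : ∀ i m, A (Finsupp.single i m) ∈ phiFil R M d i.nBoth) : PresFil R A := by
  rintro k _ ⟨f, hf, rfl⟩
  refine finsupp_map_mem _ _ fun i hi => ?_
  have hik : k ≤ i.nBoth := not_lt.1 fun h' => hi (hf i h')
  exact fun j hj => h i (f i) j (by omega)

lemma presDeg_of_single {A : Module.End R (PIdx d →₀ M)} {k : ℤ}
    (h : ∀ i m, A (Finsupp.single i m) ∈ phiDeg R M d (i.deg + k)) : PresDeg R A k := by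
  rintro r _ ⟨f, hf, rfl⟩
  refine finsupp_map_mem _ _ fun i hi => ?_
  have hir : i.deg = r := not_not.1 fun h' => hi (hf i h')
  subst hir
  exact h i (f i)

variable {R}

lemma PresFil.mul {A B : Module.End R (PIdx d →₀ M)} (hA : PresFil R A) (hB : PresFil R B) :
    PresFil R (A * B) := fun m => by
  rw [Module.End.mul_eq_comp, Submodule.map_comp]
  exact (Submodule.map_mono (hB m)).trans (hA m)

lemma PresFil.sum {ι : Type*} (s : Finset ι) {A : ι → Module.End R (PIdx d →₀ M)}
    (hA : ∀ i ∈ s, PresFil R (A i)) : PresFil R (∑ i ∈ s, A i) := by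
  rintro m _ ⟨f, hf, rfl⟩
  rw [LinearMap.sum_apply]
  exact Submodule.sum_mem _ fun i hi => hA i hi m (Submodule.mem_map_of_mem hf)

lemma PresFil.neg {A : Module.End R (PIdx d →₀ M)} (hA : PresFil R A) : PresFil R (-A) := by
  rintro m _ ⟨f, hf, rfl⟩
  exact Submodule.neg_mem _ (hA m (Submodule.mem_map_of_mem hf))

lemma PresDeg.mul {A B : Module.End R (PIdx d →₀ M)} {a b : ℤ} (hA : PresDeg R A a)
    (hB : PresDeg R B b) : PresDeg R (A * B) (b + a) := fun r => by
  rw [Module.End.mul_eq_comp, Submodule.map_comp, ← add_assoc]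
  exact (Submodule.map_mono (hB r)).trans (hA _)

lemma PresDeg.sum {ι : Type*} (s : Finset ι) {A : ι → Module.End R (PIdx d →₀ M)} {k : ℤ}
    (hA : ∀ i ∈ s, PresDeg R (A i) k) : PresDeg R (∑ i ∈ s, A i) k := by
  rintro r _ ⟨f, hf, rfl⟩
  rw [LinearMap.sum_apply]
  exact Submodule.sum_mem _ fun i hi => hA i hi r (Submodule.mem_map_of_mem hf)

lemma PresDeg.neg {A : Module.End R (PIdx d →₀ M)} {k : ℤ} (hA : PresDeg R A k) :
    PresDeg R (-A) k := by
  rintro r _ ⟨f, hf, rfl⟩
  exact Submodule.neg_mem _ (hA r (Submodule.mem_map_of_mem hf))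

variable (R)

lemma presFil_shOp (c : PLaur d) : PresFil R (shOp R M c) :=
  presFil_of_single R fun i m => by
    rw [shOp_apply_single]
    refine Submodule.sum_mem _ fun g _ => zsmul_mem ?_ _
    exact single_mem_phiFil _ (le_refl _)

lemma presDeg_shOp (c : PLaur d) : PresDeg R (shOp R M c) 0 :=
  presDeg_of_single R fun i m => by
    rw [shOp_apply_single]
    refine Submodule.sum_mem _ fun g _ => zsmul_mem ?_ _
    refine single_mem_phiDeg _ ?_
    rw [add_zero]
    rfl

variable (X : Fin d → M →ₗ[R] M)

lemma presFil_xOp_pow (l : Fin d) (n : ℕ) : PresFil R (xOp R X l ^ n) := by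
  induction n with
  | zero => intro m; simp [Module.End.one_eq_id]
  | succ k ih =>
    rw [pow_succ]
    exact ih.mul (presFil_of_single R fun i m => by
      rw [xOp_single]; exact single_mem_phiFil _ le_rfl)

lemma presDeg_xOp_pow (l : Fin d) (n : ℕ) : PresDeg R (xOp R X l ^ n) 0 := by
  induction n with
  | zero => intro m; simp [Module.End.one_eq_id]
  | succ k ih =>
    rw [pow_succ]
    have h0 : PresDeg R (xOp R X l) 0 := presDeg_of_single R fun i m => by
      rw [xOp_single]; exact single_mem_phiDeg _ (add_zero _).symm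
    simpa using ih.mul h0

lemma presFil_remOp (l : Fin d) : PresFil R (remOp R M l) :=
  presFil_of_single R fun i m => by
    rw [remOp_single]
    split
    · refine zsmul_mem ?_ _
      exact single_mem_phiFil _ (le_refl _)
    · exact zero_mem _

lemma presDeg_remOp (l : Fin d) : PresDeg R (remOp R M l) (-1) :=
  presDeg_of_single R fun i m => by
    rw [remOp_single]
    split
    · rename_i h
      refine zsmul_mem (single_mem_phiDeg _ ?_) _
      simp only [PIdx.deg, PIdx.nBoth, Finset.card_erase_of_mem h]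
      have := Finset.card_pos.2 ⟨l, h⟩
      omega
    · exact zero_mem _

lemma presFil_projC (C : Fin (d - 1) → Fin 3) : PresFil R (projC R M C) :=
  presFil_of_single R fun i m => by
    rw [projC_single]
    split
    · exact single_mem_phiFil _ le_rfl
    · exact zero_mem _

lemma presDeg_projC (C : Fin (d - 1) → Fin 3) : PresDeg R (projC R M C) 0 :=
  presDeg_of_single R fun i m => by
    rw [projC_single]
    split
    · exact single_mem_phiDeg _ (add_zero _).symm
    · exact zero_mem _

lemma presFil_cMul (c : (Fin (d - 1) → Fin 3) → Fin d → PLaur d) (l : Fin d) :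
    PresFil R (cMul R M c l) :=
  PresFil.sum _ fun _ _ => (presFil_shOp R _).mul (presFil_projC R _)

lemma presDeg_cMul (c : (Fin (d - 1) → Fin 3) → Fin d → PLaur d) (l : Fin d) :
    PresDeg R (cMul R M c l) 0 :=
  PresDeg.sum _ fun C _ => by simpa using (presDeg_shOp R (M := M) (c C l)).mul (presDeg_projC R C)

lemma presFil_powHom (l : Fin d) (N : ℕ) : PresFil R (powHom R X l N) :=
  (PresFil.sum _ fun i _ => (presFil_xOp_pow R X l i).mul
    (by rw [← map_pow]; exact presFil_shOp R _)).mul ((presFil_shOp R _).mul (presFil_remOp R l))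

lemma presDeg_powHom (l : Fin d) (N : ℕ) : PresDeg R (powHom R X l N) (-1) := by
  have h1 : PresDeg R (∑ i ∈ range N, xOp R X l ^ i * shOp R M (ftPoly l) ^ (N - 1 - i)) 0 :=
    PresDeg.sum _ fun i _ => by
      have h := (presDeg_xOp_pow R X l i).mul
        (presDeg_shOp R (M := M) (ftPoly l ^ (N - 1 - i)))
      rw [map_pow, add_zero] at h
      exact h
  have h2 : PresDeg R (rhoOp R (M := M) l) (-1) := by
    simpa [rhoOp] using (presDeg_shOp R (M := M) downPoly).mul (presDeg_remOp R l)
  simpa [powHom] using h1.mul h2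

lemma chOp_raise : ∀ m, (phiFil R M d m).map (chOp R M d) ≤ phiFil R M d (m + 1) := by
  rintro k _ ⟨f, hf, rfl⟩
  refine finsupp_map_mem _ _ fun i hi => ?_
  have hik : k ≤ i.nBoth := not_lt.1 fun h' => hi (hf i h')
  rw [chOp_single]
  refine Submodule.sum_mem _ fun l hl => zsmul_mem (single_mem_phiFil _ ?_) _
  rw [nBoth_update i.1.1 (Finset.mem_filter.1 hl).2 i.2.1 i.2.2]
  change k + 1 ≤ i.nBoth + 1
  omega

end filt

section level

variable {M} {D : ℕ} {a : Fin (d - 1) → ℤ} {W : ℤ → Submodule R M} {X : Fin d → M →ₗ[R] M}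

lemma phiSub_map_le {A : Module.End R (PIdx d →₀ M)} {c : ℤ} {Q : Submodule R (PIdx d →₀ M)}
    (h : ∀ i m, m ∈ W (c + D * i.2.1) → i.Allowed a → A (Finsupp.single i m) ∈ Q) :
    (phiSub D a W c).map A ≤ Q := by
  rintro _ ⟨f, hf, rfl⟩
  exact finsupp_map_mem _ _ fun i hi =>
    h i _ (hf i).1 (not_not.1 fun h' => hi ((hf i).2 h'))

lemma ftPoly_support {l : Fin d} {g : PExp d} (hg : g ∈ (ftPoly l).coeff.support) :
    g.1 = -1 ∧ ∀ j, 0 ≤ g.2 j ∧ g.2 j ≤ 1 := by
  rw [ftPoly, AddMonoidAlgebra.coeff_sum] at hg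
  obtain ⟨ε, -, hε⟩ := Finset.mem_biUnion.1 (Finsupp.support_finsetSum hg)
  rw [AddMonoidAlgebra.coeff_single] at hε
  obtain rfl := Finset.mem_singleton.1 (Finsupp.support_single_subset hε)
  exact ⟨rfl, fun j => by by_cases h : j ∈ ε <;> simp [expOf, h]⟩

lemma shOp_ft_le (l : Fin d) (c : ℤ) (n : ℕ) :
    (phiSub D a W c).map (shOp R M (ftPoly l ^ n)) ≤ phiSub D a W (c + n * D) := by
  induction n generalizing c with
  | zero => simp [Module.End.one_eq_id]
  | succ n ih =>
    rw [pow_succ, map_mul, Module.End.mul_eq_comp, Submodule.map_comp]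
    have h1 : (phiSub D a W c).map (shOp R M (ftPoly l)) ≤ phiSub D a W (c + D) := by
      refine phiSub_map_le R fun i m hm hA => ?_
      rw [shOp_apply_single]
      refine Submodule.sum_mem _ fun g hg => zsmul_mem (single_mem_phiSub ?_ ?_) _
      · rw [show c + D + D * (g + i.2).1 = c + D * i.2.1 by
          rw [Prod.fst_add, (ftPoly_support hg).1]; ring]
        exact hm
      · obtain ⟨h0, hj⟩ := ftPoly_support hg
        intro j
        have := hj j
        obtain ⟨a1, a2⟩ := hA j
        refine ⟨fun hc => ?_, fun hc => ?_⟩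
        · have := a1 hc
          simp only [PIdx.rest, Prod.fst_add, Prod.snd_add, Pi.add_apply] at *
          omega
        · have := a2 hc
          simp only [Prod.snd_add, Pi.add_apply] at *
          omega
    refine (Submodule.map_mono h1).trans ((ih (c + D)).trans (le_of_eq ?_))
    congr 1
    push_cast; ring

lemma rhoOp_le (l : Fin d) (c : ℤ) :
    (phiSub D a W c).map (rhoOp R l) ≤ phiSub D a W (c + D) := by
  refine phiSub_map_le R fun i m hm hA => ?_
  rw [rhoOp, Module.End.mul_apply, remOp_single]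
  split
  swap
  · rw [map_zero]; exact zero_mem _
  rename_i hl
  rw [map_zsmul, downPoly, shOp_single]
  refine zsmul_mem (single_mem_phiSub ?_ ?_) _
  · rw [show c + D + D * ((((-1 : ℤ), (0 : Fin (d - 1) → ℤ)) + i.2).1) = c + D * i.2.1 by
      simp; ring]
    exact hm
  · intro j
    obtain ⟨a1, a2⟩ := hA j
    have hcard := Finset.card_pos.2 ⟨l, hl⟩
    refine ⟨fun hc => ?_, fun hc => ?_⟩
    · have := a1 hc
      simp only [PIdx.rest, Finset.card_erase_of_mem hl, Prod.fst_add, Prod.snd_add,
        Pi.add_apply, Pi.zero_apply] at *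
      omega
    · simpa using a2 hc

lemma xOp_pow_single (l : Fin d) (n : ℕ) (i : PIdx d) (m : M) :
    (xOp R X l ^ n) (Finsupp.single i m) = Finsupp.single i ((X l ^ n) m) := by
  induction n with
  | zero => simp
  | succ n ih => rw [pow_succ', pow_succ', Module.End.mul_apply, ih, xOp_single, Module.End.mul_apply]

lemma pow_mem_fam (hW : FamStable D X W) (l : Fin d) (n : ℕ) (k : ℤ) (m : M) (hm : m ∈ W k) :
    (X l ^ n) m ∈ W (k + n * D) := by
  induction n with
  | zero => simpa using hm
  | succ n ih =>
    rw [pow_succ', Module.End.mul_apply]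
    convert hW l _ _ ih using 2
    push_cast; ring

lemma xOp_pow_le {W' : ℤ → Submodule R M} (l : Fin d) (n : ℕ) (c c' : ℤ)
    (h : ∀ σ : ℤ, ∀ m ∈ W (c + D * σ), (X l ^ n) m ∈ W' (c' + D * σ)) :
    (phiSub D a W c).map (xOp R X l ^ n) ≤ phiSub D a W' c' := by
  refine phiSub_map_le R fun i m hm hA => ?_
  rw [xOp_pow_single]
  exact single_mem_phiSub (h _ _ hm) hA

lemma powHom_le (hW : FamStable D X W) (l : Fin d) (N : ℕ) (c : ℤ) :
    (phiSub D a W c).map (powHom R X l N) ≤ phiSub D a W (c + N * D) := by
  rw [powHom, Module.End.mul_eq_comp, Submodule.map_comp]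
  refine (Submodule.map_mono (rhoOp_le R l c)).trans ?_
  rintro _ ⟨f, hf, rfl⟩
  rw [LinearMap.sum_apply]
  refine Submodule.sum_mem _ fun i hi => ?_
  rw [Module.End.mul_apply, ← map_pow]
  refine xOp_pow_le R l i (c + D + ((N - 1 - i : ℕ) : ℤ) * D) (c + N * D) ?_
    (Submodule.mem_map_of_mem (shOp_ft_le R l (c + D) (N - 1 - i) (Submodule.mem_map_of_mem hf)))
  intro σ m hm
  convert pow_mem_fam R hW l i _ m hm using 2
  have : (N : ℤ) = i + 1 + (N - 1 - i : ℕ) := by
    have := Finset.mem_range.1 hi
    omega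
  rw [this]; ring

lemma cMul_le {N : ℕ} {c : (Fin (d - 1) → Fin 3) → Fin d → PLaur d}
    (hc : ∀ C l, RegOn C N (c C l)) (l : Fin d) (c₀ : ℤ) :
    (phiSub D a W c₀).map (cMul R M c l) ≤ phiSub D a W (c₀ - N * D) := by
  refine phiSub_map_le R fun i m hm hA => ?_
  rw [cMul, LinearMap.sum_apply]
  refine Submodule.sum_mem _ fun C _ => ?_
  rw [Module.End.mul_apply, projC_single]
  split
  swap
  · rw [map_zero]; exact zero_mem _
  rename_i hiC
  rw [shOp_apply_single]
  refine Submodule.sum_mem _ fun g hg => zsmul_mem (single_mem_phiSub ?_ ?_) _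
  · rw [show c₀ - N * D + D * (g + i.2).1 = c₀ + D * i.2.1 by
      rw [Prod.fst_add, (hc C l g hg).1]; ring]
    exact hm
  · intro j
    obtain ⟨a1, a2⟩ := hA j
    obtain ⟨g1, g2⟩ := (hc C l g hg).2 j
    refine ⟨fun h => ?_, fun h => ?_⟩
    · have := a1 h
      have := g2 (hiC ▸ h)
      simp only [PIdx.rest, Prod.fst_add, Prod.snd_add, Pi.add_apply] at *
      omega
    · have := a2 h
      have := g1 (hiC ▸ h)
      simp only [Prod.snd_add, Pi.add_apply] at *
      omega

end level

section main

variable {M}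

/-- A choice of partition of unity on every chart. -/
noncomputable def partC (hd : 0 < d) (N : ℕ) (C : Fin (d - 1) → Fin 3) : Fin d → PLaur d :=
  (exists_partition hd C N).choose

/-- The homotopy of the local nilpotence statement. -/
noncomputable def ghostHom (hd : 0 < d) (N : ℕ) (X : Fin d → M →ₗ[R] M) :
    Module.End R (PIdx d →₀ M) :=
  -∑ l, cMul R M (partC hd N) l * powHom R X l N

/-- The general form of the local nilpotence statement. -/
theorem ghost_general (hd : 0 < d) (N : ℕ) {X : Fin d → M →ₗ[R] M}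
    (hX : ∀ a b, X a ∘ₗ X b = X b ∘ₗ X a) (m : ℕ) (f : PIdx d →₀ M)
    (hf : f ∈ phiFil R M d m) :
    f - ∑ l, (xOp R X l ^ N) (cMul R M (partC hd N) l f) - phiD X (ghostHom R hd N X f) -
      ghostHom R hd N X (phiD X f) ∈ phiFil R M d (m + 1) := by
  have hid := LinearMap.congr_fun (kOp_identity R hX (partC hd N) N
    fun C => (exists_partition hd C N).choose_spec.2) f
  simp only [Module.End.one_apply, LinearMap.add_apply, LinearMap.sum_apply,
    Module.End.mul_apply] at hid
  have hh : PresFil R (ghostHom R hd N X) :=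
    (PresFil.sum _ fun l _ => (presFil_cMul R _ l).mul (presFil_powHom R X l N)).neg
  have h1 : chOp R M d (ghostHom R hd N X f) ∈ phiFil R M d (m + 1) :=
    chOp_raise R m (Submodule.mem_map_of_mem (hh m (Submodule.mem_map_of_mem hf)))
  have h2 : ghostHom R hd N X (chOp R M d f) ∈ phiFil R M d (m + 1) :=
    hh _ (Submodule.mem_map_of_mem (chOp_raise R m (Submodule.mem_map_of_mem hf)))
  rw [phiD_eq_add, LinearMap.add_apply, LinearMap.add_apply, map_add]
  rw [← hid]
  convert Submodule.neg_mem _ (Submodule.add_mem _ h1 h2) using 1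
  simp only [ghostHom, LinearMap.neg_apply, LinearMap.sum_apply, Module.End.mul_apply, map_neg,
    map_sum]
  abel

theorem ghostHom_le {D : ℕ} {a : Fin (d - 1) → ℤ} {W : ℤ → Submodule R M} (hd : 0 < d) (N : ℕ)
    {X : Fin d → M →ₗ[R] M} (hW : FamStable D X W) (c : ℤ) :
    (phiSub D a W c).map (ghostHom R hd N X) ≤ phiSub D a W c := by
  rintro _ ⟨f, hf, rfl⟩
  rw [ghostHom, LinearMap.neg_apply, LinearMap.sum_apply]
  refine Submodule.neg_mem _ (Submodule.sum_mem _ fun l _ => ?_)
  rw [Module.End.mul_apply]
  have h := cMul_le (W := W) (D := D) (a := a) R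
    (fun C l => (exists_partition hd C N).choose_spec.1 l) l (c + N * D)
    (Submodule.mem_map_of_mem (powHom_le R hW l N c (Submodule.mem_map_of_mem hf)))
  rwa [add_sub_cancel_right] at h

lemma presDeg_ghostHom (hd : 0 < d) (N : ℕ) (X : Fin d → M →ₗ[R] M) :
    PresDeg R (ghostHom R hd N X) (-1) :=
  (PresDeg.sum _ fun l _ => by
    simpa using (presDeg_cMul R (partC hd N) l).mul (presDeg_powHom R X l N)).neg

lemma presFil_ghostHom (hd : 0 < d) (N : ℕ) (X : Fin d → M →ₗ[R] M) :
    PresFil R (ghostHom R hd N X) :=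
  (PresFil.sum _ fun l _ => (presFil_cMul R _ l).mul (presFil_powHom R X l N)).neg

end main

theorem goalPhiGhost : GoalPhiGhost.{u} := by
  intro R _ _ _ d D x hx N _ a
  have hcomm := mulFam_comm x
  have hW := reesFam_stable hx.mem
  refine ⟨fun l => cMul R R (partC hx.dpos N) l, ghostHom R hx.dpos N (mulFam x),
    fun l => presFil_cMul R _ l, presFil_ghostHom R _ N _, fun l r => ?_, fun r => ?_,
    fun l c => cMul_le R (fun C l => (exists_partition hx.dpos C N).choose_spec.1 l) l c,
    fun c => ?_, fun l m f hf => ?_, fun m f hf => ?_⟩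
  · simpa using presDeg_cMul R (M := R) (partC hx.dpos N) l r
  · simpa [sub_eq_add_neg] using presDeg_ghostHom R hx.dpos N (mulFam x) r
  · refine (ghostHom_le R hx.dpos N hW c).trans (phiSub_mono fun σ => reesFam_antitone ?_)
    have : (0 : ℤ) ≤ (N : ℤ) * D := by positivity
    omega
  · have hk := LinearMap.congr_fun (cMul_commute_kOp R (partC hx.dpos N) (X := mulFam x) l).eq f
    simp only [Module.End.mul_apply] at hk
    have h1 : cMul R R (partC hx.dpos N) l (chOp R R d f) ∈ phiFil R R d (m + 1) :=
      presFil_cMul R _ l _ (Submodule.mem_map_of_mem (chOp_raise R m (Submodule.mem_map_of_mem hf)))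
    have h2 : chOp R R d (cMul R R (partC hx.dpos N) l f) ∈ phiFil R R d (m + 1) :=
      chOp_raise R m (Submodule.mem_map_of_mem
        (presFil_cMul R _ l m (Submodule.mem_map_of_mem hf)))
    rw [phiD_eq_add, LinearMap.add_apply, LinearMap.add_apply, map_add]
    convert Submodule.sub_mem _ h1 h2 using 1
    rw [hk]
    abel
  · have hx' : ∀ l (g : PIdx d →₀ R), (xOp R (mulFam x) l ^ N) g = x l ^ N • g := by
      intro l g
      have hh : xOp R (mulFam x) l ^ N = x l ^ N • (1 : Module.End R (PIdx d →₀ R)) := by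
        refine Finsupp.lhom_ext fun i b => ?_
        rw [xOp_pow_single]
        simp [mulFam, LinearMap.pow_mulLeft, Finsupp.smul_single]
      rw [hh]; rfl
    simpa [hx'] using ghost_general R hx.dpos N hcomm m f hf

end Vale.Agent.P202
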