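import Vale.Agent.P202.Ghost
import Vale.Agent.P202.PhiGhost
import Vale.Agent.P202.PhiFam

/-!
Interfaces for mixed characteristic, module M7 (ghost): local nilpotence along a chain of filtered
complexes, and the operators of `PhiGhost` for a general module with commuting operators.

A stage `k → k + 1` consists of a chain map `ι k` (it may contain an endomorphism `D`), maps `φ`
lowering the level by `B₀` and a homotopy `h` with `ι - ∑ aᵢ φᵢ - δ h - h δ` raising the filtration.
After `n` stages the composite of the `ι`s is zero on the cohomology of every twisted window.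
-/

universe u

namespace Vale.Agent.P202

open TensorProduct

section chain

/-- A family of filtered complexes, one at each stage. -/
structure StageSys {R : Type*} [CommRing R] (A : ℕ → Type*) [∀ k, AddCommGroup (A k)]
    [∀ k, Module R (A k)] where
  /-- the differential -/
  δ : ∀ k, A k →ₗ[R] A k
  /-- the degree parts -/
  P : ∀ k, ℤ → Submodule R (A k)
  /-- the levels -/
  Gt : ∀ k, ℤ → Submodule R (A k)
  /-- the filtration used by the stages -/
  Fil : ∀ k, ℕ → Submodule R (A k)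
  sq0 : ∀ k, δ k ∘ₗ δ k = 0
  degree : ∀ k i, (P k i).map (δ k) ≤ P k (i + 1)
  level : ∀ k j, (Gt k j).map (δ k) ≤ Gt k j
  anti : ∀ k, Antitone (Gt k)

/-- The stages `k → k + 1` for `k < n`, with scalars `a` acting on `B` through combinations of
`y`. -/
structure StageData {R S : Type*} [CommRing R] [CommRing S] {A : ℕ → Type*}
    [∀ k, AddCommGroup (A k)] [∀ k, Module R (A k)] (C : StageSys (R := R) A) (B : Type*)
    [AddCommGroup B] [Module R B] [Module S B] {d e : ℕ} (y : Fin d → S) (n B₀ : ℕ)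
    (a : Fin e → R) where
  /-- coefficients expressing the scalars through `y` -/
  c : Fin e → Fin d → S
  a_smul : ∀ i, ∀ b : B, a i • b = (∑ l, y l * c i l) • b
  /-- the chain maps -/
  ι : ∀ k, A k →ₗ[R] A (k + 1)
  /-- the maps multiplied by the scalars -/
  φ : ∀ k, Fin e → A k →ₗ[R] A (k + 1)
  /-- the homotopies -/
  h : ∀ k, A k →ₗ[R] A (k + 1)
  fil_zero : C.Fil 0 0 = ⊤
  fil_end : C.Fil n n = ⊥
  ι_comm : ∀ k < n, C.δ (k + 1) ∘ₗ ι k = ι k ∘ₗ C.δ k
  ι_deg : ∀ k < n, ∀ r, (C.P k r).map (ι k) ≤ C.P (k + 1) r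
  φ_deg : ∀ k < n, ∀ i r, (C.P k r).map (φ k i) ≤ C.P (k + 1) r
  h_deg : ∀ k < n, ∀ r, (C.P k r).map (h k) ≤ C.P (k + 1) (r - 1)
  ι_level : ∀ k < n, ∀ j, (C.Gt k j).map (ι k) ≤ C.Gt (k + 1) j
  φ_level : ∀ k < n, ∀ i j, (C.Gt k j).map (φ k i) ≤ C.Gt (k + 1) (j - B₀)
  h_level : ∀ k < n, ∀ j, (C.Gt k j).map (h k) ≤ C.Gt (k + 1) (j - B₀)
  comm : ∀ k < n, ∀ i, ∀ f ∈ C.Fil k k,
    φ k i (C.δ k f) - C.δ (k + 1) (φ k i f) ∈ C.Fil (k + 1) (k + 1)
  identity : ∀ k < n, ∀ f ∈ C.Fil k k,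
    ι k f - ∑ i, a i • φ k i f - C.δ (k + 1) (h k f) - h k (C.δ k f) ∈ C.Fil (k + 1) (k + 1)

/-- The composite of the first `k` chain maps. -/
def stageComp {R : Type*} [CommRing R] {A : ℕ → Type*} [∀ k, AddCommGroup (A k)]
    [∀ k, Module R (A k)] (ι : ∀ k, A k →ₗ[R] A (k + 1)) : ∀ k, A 0 →ₗ[R] A k
  | 0 => LinearMap.id
  | k + 1 => ι k ∘ₗ stageComp ι k

/-- M7, ghost: a class of the window `DT τ / DT υ` is killed by the composite of the `n` stages in
the window `DT (τ - n B₀) / DT (υ - n B₀)`. For constant twists this is the complex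
`K(y) ⊗ Gt`. The degree-`r` conclusion is the form used in `hlen` and `HMod`. -/
def GoalStageGhost : Prop :=
  ∀ (R S : Type u) [CommRing R] [CommRing S] (B : Type u) [AddCommGroup B] [Module R B]
    [Module S B] [SMulCommClass R S B] [Module.Flat R B] (A : ℕ → Type u)
    [∀ k, AddCommGroup (A k)] [∀ k, Module R (A k)] (C : StageSys (R := R) A) (d e : ℕ)
    (y : Fin d → S) (n B₀ : ℕ) (a : Fin e → R) (G : StageData C B y n B₀ a) (τ υ : ℕ → ℤ),
    (∀ l, l < d → τ (l + 1) ≤ τ l) → (∀ l, l < d → υ (l + 1) ≤ υ l) →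
    (∀ l, l ≤ d → τ l ≤ υ l) →
    ∀ (r : ℤ), ∀ f ∈ DT B y (C.P 0) (C.Gt 0) τ r,
      dT B y (C.δ 0) f ∈ DT B y (C.P 0) (C.Gt 0) υ (r + 1) →
      kmap d (lT S B (stageComp G.ι n)) f ∈
        (DT B y (C.P n) (C.Gt n) (fun l => τ l - (n * B₀ : ℕ)) (r - 1)).map (dT B y (C.δ n)) ⊔
          DT B y (C.P n) (C.Gt n) (fun l => υ l - (n * B₀ : ℕ)) r

/-- M7: an endomorphism commuting with the chain maps comes out of the composite as a power, so a
stage may use `Dl ∘ incl` as its chain map. -/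
def GoalStageComp : Prop :=
  ∀ (R : Type u) [CommRing R] (A : ℕ → Type u) [∀ k, AddCommGroup (A k)] [∀ k, Module R (A k)]
    (incl : ∀ k, A k →ₗ[R] A (k + 1)) (Dl : ∀ k, Module.End R (A k)) (n : ℕ),
    (∀ k < n, Dl (k + 1) ∘ₗ incl k = incl k ∘ₗ Dl k) →
    stageComp (fun k => Dl (k + 1) ∘ₗ incl k) n = (Dl n ^ n) ∘ₗ stageComp incl n

end chain

section phi

variable {R : Type*} [CommRing R] {d : ℕ}

/-- The map multiplied by `X l ^ N`, for any module. -/
noncomputable def ghostPhi (R M : Type*) [CommRing R] [AddCommGroup M] [Module R M] {d : ℕ}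
    (hd : 0 < d) (N : ℕ) (l : Fin d) : Module.End R (PIdx d →₀ M) :=
  cMul R M (partC hd N) l

end phi

/-- M7: the operators of `PhiGhost` for any module `M` with commuting operators `X` and any family
stable under them. They are natural in `M`, so they descend to the windows and commute with every
endomorphism commuting with `X`. -/
def GoalPhiGhostGen : Prop :=
  ∀ (R : Type u) [CommRing R] (M M' : Type u) [AddCommGroup M] [Module R M] [AddCommGroup M']
    [Module R M'] (d D : ℕ) (hd : 0 < d) (N : ℕ) (X : Fin d → M →ₗ[R] M)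
    (X' : Fin d → M' →ₗ[R] M'), (∀ a b, X a ∘ₗ X b = X b ∘ₗ X a) →
    ∀ (a : Fin (d - 1) → ℤ),
      phiFil R M d 0 = ⊤ ∧ phiFil R M d d = ⊥ ∧
      (∀ l m, (phiFil R M d m).map (ghostPhi R M hd N l) ≤ phiFil R M d m) ∧
      (∀ m, (phiFil R M d m).map (ghostHom R hd N X) ≤ phiFil R M d m) ∧
      (∀ l r, (phiDeg R M d r).map (ghostPhi R M hd N l) ≤ phiDeg R M d r) ∧
      (∀ r, (phiDeg R M d r).map (ghostHom R hd N X) ≤ phiDeg R M d (r - 1)) ∧
      (∀ (W : ℤ → Submodule R M), FamStable D X W → ∀ c,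
        (phiSub D a W c).map (ghostHom R hd N X) ≤ phiSub D a W c) ∧
      (∀ (W : ℤ → Submodule R M) l c,
        (phiSub D a W c).map (ghostPhi R M hd N l) ≤ phiSub D a W (c - N * D)) ∧
      (∀ l m, ∀ f ∈ phiFil R M d m,
        ghostPhi R M hd N l (phiD X f) - phiD X (ghostPhi R M hd N l f) ∈
          phiFil R M d (m + 1)) ∧
      (∀ m, ∀ f ∈ phiFil R M d m,
        f - ∑ l, chainMap (X l ^ N) (ghostPhi R M hd N l f) - phiD X (ghostHom R hd N X f) -
          ghostHom R hd N X (phiD X f) ∈ phiFil R M d (m + 1)) ∧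
      (∀ (g : M →ₗ[R] M') l f,
        chainMap g (ghostPhi R M hd N l f) = ghostPhi R M' hd N l (chainMap g f)) ∧
      (∀ (g : M →ₗ[R] M'), (∀ l v, g (X l v) = X' l (g v)) → ∀ f,
        chainMap g (ghostHom R hd N X f) = ghostHom R hd N X' (chainMap g f))

end Vale.Agent.P202
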