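import Vale.Agent.P202.Step
import Vale.Agent.P202.PhiHMod

/-! Interfaces for mixed characteristic: the step isomorphism, natural in the filtered system, and
the exact sequences of Koszul homology in the exponents. -/

universe u

namespace Vale.Agent.P202

open TensorProduct

/-- The image of a map of filtered systems on the cohomology of one elementary step of the twist
has `β p` times the length of its image on the cohomology of the block. -/
def GoalStepMap : Prop :=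
  ∀ (R S : Type u) [CommRing R] [CommRing S] (B : Type u) [AddCommGroup B] [Module R B]
    [Module S B] [SMulCommClass R S B] [Module.Flat R B] (A A' : Type u) [AddCommGroup A]
    [Module R A] [AddCommGroup A'] [Module R A'] (d : ℕ) (y : Fin d → S) (I : Ideal R)
    (β : ℕ → ℕ) (δ : A →ₗ[R] A) (P Gt : ℤ → Submodule R A) (δ' : A' →ₗ[R] A')
    (P' Gt' : ℤ → Submodule R A'),
    FiltSys I d δ P Gt → FiltSys I d δ' P' Gt' → HPHyp B y I β →
    ∀ (g : A →ₗ[R] A'), δ' ∘ₗ g = g ∘ₗ δ →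
      ∀ (hP : ∀ i, (P i).map g ≤ P' i) (hG : ∀ j, (Gt j).map g ≤ Gt' j),
    ∀ (τ τ' : ℕ → ℤ) (p : ℕ) (j : ℤ), TwistStep d τ τ' p j → ∀ r : ℤ,
      hlen R δ (fun i => Gt j ⊓ P i) (fun i => Gt (j + 1) ⊓ P i) (r + p) ≠ ⊤ →
      hlen R δ' (fun i => Gt' j ⊓ P' i) (fun i => Gt' (j + 1) ⊓ P' i) (r + p) ≠ ⊤ →
      ∀ (h₁ : ∀ i, ∀ f ∈ DT B y P Gt τ' i, kmap d (lT S B g) f ∈ DT B y P' Gt' τ' i)
        (h₂ : ∀ i, ∀ f ∈ DT B y P Gt τ i, kmap d (lT S B g) f ∈ DT B y P' Gt' τ i)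
        (hc : ∀ i, ∀ f ∈ DT B y P Gt τ' i,
          kmap d (lT S B g) (dT B y δ f) = dT B y δ' (kmap d (lT S B g) f))
        (e₁ : ∀ i, ∀ x ∈ Gt j ⊓ P i, g x ∈ Gt' j ⊓ P' i)
        (e₂ : ∀ i, ∀ x ∈ Gt (j + 1) ⊓ P i, g x ∈ Gt' (j + 1) ⊓ P' i)
        (ec : ∀ i, ∀ x ∈ Gt j ⊓ P i, g (δ x) = δ' (g x)),
      Module.length S ↥(LinearMap.range
          (hmap (δ := dT B y δ) (δ' := dT B y δ') (kmap d (lT S B g)) h₁ h₂ hc r)) =
        β p * Module.length R ↥(LinearMap.range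
          (hmap (δ := δ) (δ' := δ') g e₁ e₂ ec (r + p)))

/-- `K(y, y_l ^ a) → K(y, y_l ^ (a + b))`. -/
def kExpA {S : Type*} [CommRing S] {d : ℕ} (l : Fin d) (c : S) (M : Type*) [AddCommGroup M]
    [Module S M] : (Finset (Fin d) → M) →ₗ[S] (Finset (Fin d) → M) :=
  LinearMap.pi fun s => if l ∈ s then LinearMap.proj s else c • LinearMap.proj s

/-- `K(y, y_l ^ (a + b)) → K(y, y_l ^ b)`. -/
def kExpB {S : Type*} [CommRing S] {d : ℕ} (l : Fin d) (c : S) (M : Type*) [AddCommGroup M]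
    [Module S M] : (Finset (Fin d) → M) →ₗ[S] (Finset (Fin d) → M) :=
  LinearMap.pi fun s => if l ∈ s then c • LinearMap.proj s else LinearMap.proj s

/-- `K(y, y_l ^ b) → K(y, y_l ^ a)`, of degree `-1`. -/
def kExpK {S : Type*} [CommRing S] {d : ℕ} (l : Fin d) (M : Type*) [AddCommGroup M]
    [Module S M] : (Finset (Fin d) → M) →ₗ[S] (Finset (Fin d) → M) :=
  LinearMap.pi fun s => if l ∈ s then 0 else ksign l s • LinearMap.proj (insert l s)

/-- The long exact sequence of the Koszul homologies for the exponents `a`, `a + b`, `b` of one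
element. -/
def GoalKoszulPowExact : Prop :=
  ∀ (S : Type u) [CommRing S] (M : Type u) [AddCommGroup M] [Module S M] (d : ℕ) (y : Fin d → S)
    (l : Fin d) (a b : ℕ),
    let ya := Function.update y l (y l ^ a)
    let yc := Function.update y l (y l ^ (a + b))
    let yb := Function.update y l (y l ^ b)
    let α := kExpA l (y l ^ b) M
    let β := kExpB l (y l ^ a) M
    let κ := kExpK l M
    (kd yc M ∘ₗ α = α ∘ₗ kd ya M ∧ kd yb M ∘ₗ β = β ∘ₗ kd yc M ∧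
      kd ya M ∘ₗ κ = -(κ ∘ₗ kd yb M)) ∧
    (∀ p, (kchain S d M p).map α ≤ kchain S d M p ∧ (kchain S d M p).map β ≤ kchain S d M p ∧
      (kchain S d M (p + 1)).map κ ≤ kchain S d M p ∧
      (kchain S d M 0).map κ = ⊥) ∧
    (∀ p, ∀ z ∈ kcyc yc M p, (β z ∈ kbd yb M p ↔ z ∈ (kcyc ya M p).map α ⊔ kbd yc M p)) ∧
    (∀ p, ∀ z ∈ kcyc yb M (p + 1),
      (κ z ∈ kbd ya M p ↔ z ∈ (kcyc yc M (p + 1)).map β ⊔ kbd yb M (p + 1))) ∧
    (∀ z ∈ kcyc yb M 0, z ∈ (kcyc yc M 0).map β ⊔ kbd yb M 0) ∧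
    (∀ p, ∀ z ∈ kcyc ya M p, (α z ∈ kbd yc M p ↔ z ∈ (kcyc yb M (p + 1)).map κ ⊔ kbd ya M p))

end Vale.Agent.P202
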