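import Vale.Agent.P202.InterfacesM

/-! Interfaces for mixed characteristic: generators over the `Q`-th powers of the graded ring, and
the independence of the monomials in the chart coordinates (BLUEPRINT_M2, item 8). -/

universe u

namespace Vale.Agent.P202

open Finset

/-- Almost `Q ^ d` elements, each with weights in one unit interval (weights counted in units
`1 / Q`), independent over the `Q`-th powers modulo a reduced graded ideal `J` over which `k[X]` is
a Noether normalisation. -/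
def GoalBins : Prop :=
  ∀ (p : ℕ) [Fact p.Prime] (k : Type u) [Field k] [CharP k p] [PerfectRing k p] [Infinite k]
    (d n : ℕ), 0 < d → ∀ (wt : Vr d n → ℕ) (b : ℕ), (∀ v, 0 < wt v) →
      (∀ l, wt (some (Sum.inl l)) = b) →
    ∀ (J : Ideal (MvPolynomial (Vr d n) k)), J ≠ ⊤ → J.IsRadical →
      (∀ H ∈ J, ∀ N, MvPolynomial.weightedHomogeneousComponent wt N H ∈ J) →
      (∀ v : Hv n, ∃ e : ℕ, 0 < e ∧ ∃ H ∈ J, H - MvPolynomial.X (hVar v) ^ e ∈
        Ideal.span (Set.range fun l : Fin d => (MvPolynomial.X (some (Sum.inl l)) :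
          MvPolynomial (Vr d n) k))) →
      (∀ (P : MvPolynomial (Fin d) k) (H : MvPolynomial (Vr d n) k), P ≠ 0 →
        inX P * H ∈ J → H ∈ J) →
    ∃ C : ℕ, ∀ j : ℕ, ∃ (N : ℕ) (e : Fin N → ℕ) (w : Fin N → MvPolynomial (Vr d n) k),
      (p ^ j) ^ d ≤ N + C * (p ^ j) ^ (d - 1) ∧ N ≤ (p ^ j) ^ d ∧ (∀ a, e a ≤ C) ∧
      (∀ a γ, MvPolynomial.coeff γ (w a) ≠ 0 →
        p ^ j * e a ≤ Finsupp.weight wt γ ∧ Finsupp.weight wt γ < p ^ j * (e a + 1)) ∧
      ∀ (ω : ℕ) (r : Fin N → MvPolynomial (Vr d n) k),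
        (∀ a, MvPolynomial.IsWeightedHomogeneous wt (r a) (ω - e a)) →
        (∀ a, ω < e a → r a = 0) →
        ∑ a, r a ^ p ^ j * w a ∈ J → ∀ a, r a ∈ J

/-- The monomials `u ^ e`, `e_l ≤ l`, are independent over the forms in the coefficients of
`∏ (T + u_l)`. -/
def GoalSplitBasis : Prop :=
  ∀ (k : Type u) [Field k] (d : ℕ), 0 < d → ∀ (s : ℕ)
    (P : ((l : Fin (d - 1)) → Fin ((l : ℕ) + 1)) → MvPolynomial (Fin d) k),
    (∀ e, (P e).IsHomogeneous s) →
    ∑ e, (∏ l, MvPolynomial.X l ^ (e l : ℕ)) *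
        MvPolynomial.aeval (fun i : Fin d => MvPolynomial.esymm (Fin (d - 1)) k (i : ℕ)) (P e) =
      0 → ∀ e, P e = 0

end Vale.Agent.P202
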