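import Vale.Agent.P202.InterfacesM10
import Vale.Agent.P202.KoszulMult

/-!
Lengths of images in Koszul homology: behaviour under maps with small kernel and cokernel, finite
products, and the adic quotients of the ring.
-/

universe u

namespace Vale.Agent.P202

open Finset

/-- The length of the image of the `p`-th Koszul homology under `φ`. -/
noncomputable def kimgM {S : Type u} [CommRing S] {d : ℕ} (y : Fin d → S) {M' M : Type u}
    [AddCommGroup M'] [Module S M'] [AddCommGroup M] [Module S M] (φ : M' →ₗ[S] M) (p : ℕ) : ℕ∞ :=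
  sq S ((kcyc y M' p).map (kmap d φ)) (kbd y M p)

section

variable {S : Type u} [CommRing S] {d : ℕ} (y : Fin d → S) {M M' N N' : Type u} [AddCommGroup M]
  [Module S M] [AddCommGroup M'] [Module S M'] [AddCommGroup N] [Module S N] [AddCommGroup N']
  [Module S N'] (p : ℕ)

lemma kmap_comp (g : M →ₗ[S] N) (f : M' →ₗ[S] M) :
    kmap d (g ∘ₗ f) = kmap d g ∘ₗ kmap d f := rfl

lemma kimgM_id : kimgM y (LinearMap.id : M →ₗ[S] M) p = khlen y M p := by
  rw [kimgM, show kmap d (LinearMap.id : M →ₗ[S] M) = LinearMap.id from rfl, Submodule.map_id]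
  rfl

lemma length_quot_range_kmap (f : M →ₗ[S] N) :
    Module.length S ((Finset (Fin d) → N) ⧸ LinearMap.range (kmap d f)) =
      2 ^ d * Module.length S (N ⧸ LinearMap.range f) := by
  have hs : Function.Surjective (kmap d (LinearMap.range f).mkQ) := by
    intro v
    choose w hw using fun s => (LinearMap.range f).mkQ_surjective (v s)
    exact ⟨w, funext hw⟩
  have hk : LinearMap.range (kmap d f) = LinearMap.ker (kmap d (LinearMap.range f).mkQ) := by
    ext v
    constructor
    · rintro ⟨u, rfl⟩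
      funext s
      simp
    · intro hv
      choose w hw using fun s => (Submodule.Quotient.mk_eq_zero _).1 (congrFun hv s)
      exact ⟨w, funext hw⟩
  rw [hk, ((kmap d (LinearMap.range f).mkQ).quotKerEquivOfSurjective hs).length_eq,
    Module.length_pi_of_fintype, Finset.sum_const, Finset.card_univ, Fintype.card_finset,
    Fintype.card_fin, nsmul_eq_mul, Nat.cast_pow, Nat.cast_ofNat]

lemma sq_ker_kmap_le (f : M →ₗ[S] N) :
    sq S (LinearMap.ker (kmap d f)) ⊥ ≤ 2 ^ d * Module.length S ↥(LinearMap.ker f) := by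
  refine le_trans (Module.length_le_of_surjective
    (M := ↥(LinearMap.ker (kmap d f))) _ (Submodule.mkQ_surjective _)) ?_
  let g : ↥(LinearMap.ker (kmap d f)) →ₗ[S] (Finset (Fin d) → ↥(LinearMap.ker f)) :=
    LinearMap.pi fun s => (LinearMap.proj s ∘ₗ (LinearMap.ker (kmap d f)).subtype).codRestrict _
      fun v => congrFun v.2 s
  refine (Module.length_le_of_injective g fun v w h => Subtype.ext (funext fun s =>
    congrArg Subtype.val (congrFun h s))).trans (le_of_eq ?_)
  rw [Module.length_pi_of_fintype, Finset.sum_const, Finset.card_univ, Fintype.card_finset,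
    Fintype.card_fin, nsmul_eq_mul, Nat.cast_pow, Nat.cast_ofNat]

lemma sq_le_length_quot (C : Submodule S M) (L : Submodule S M) :
    sq S C L ≤ Module.length S (M ⧸ L) := by
  rw [length_quot_eq_sq]; exact sq_mono_left le_top

/-- Truncation: a chain in the range comes from a chain. -/
lemma exists_kchain_kmap (f : M →ₗ[S] N) {u : Finset (Fin d) → M}
    (hu : kmap d f u ∈ kchain S d N p) :
    ∃ u' ∈ kchain S d M p, kmap d f u' = kmap d f u := by
  refine ⟨fun s => if s.card = p then u s else 0, fun s hs => if_neg hs, funext fun s => ?_⟩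
  simp only [kmap_apply]
  split_ifs with h
  · rfl
  · rw [map_zero]; exact (hu s h).symm

/-- The kernel on homology of a map of modules is small. -/
lemma sq_ker_homology_le (f : M →ₗ[S] N) :
    sq S (kcyc y M p ⊓ (kbd y N p).comap (kmap d f)) (kbd y M p) ≤
      2 ^ d * (Module.length S ↥(LinearMap.ker f) + Module.length S (N ⧸ LinearMap.range f)) := by
  set F := kmap d f
  set B := kbd y M p
  set K := kcyc y M p ⊓ (kbd y N p).comap F
  have hB : B ≤ K :=
    le_inf (map_kd_kchain_le y p) (Submodule.map_le_iff_le_comap.1 (kmap_kbd_le y f p))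
  rw [sq_add (M := K ⊓ (B ⊔ LinearMap.ker F)) (le_inf hB le_sup_left) inf_le_left, mul_add,
    add_comm]
  refine add_le_add ?_ ?_
  · refine (sq_mono_left inf_le_right).trans ?_
    rw [sup_comm, sq_sup_left]
    exact (sq_mono_right bot_le).trans (sq_ker_kmap_le f)
  · rw [sq_congr_inf (show K ⊓ (K ⊓ (B ⊔ LinearMap.ker F)) = K ⊓ (B ⊔ LinearMap.ker F) by
      rw [← inf_assoc, inf_idem]), ← Submodule.comap_map_eq, ← sq_map]
    refine (sq_mono_left (Submodule.map_le_iff_le_comap.2 inf_le_right)).trans ?_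
    rw [show kbd y N p = (kchain S d N (p + 1)).map (kd y N) from rfl, sq_map]
    refine (sq_mono_right (L' := kchain S d N (p + 1) ⊓ LinearMap.range F) ?_).trans ?_
    · rintro _ ⟨hv, u, rfl⟩
      obtain ⟨u', hu', he⟩ := exists_kchain_kmap (p + 1) f hv
      exact ⟨kd y M u', ⟨u', hu', rfl⟩, by rw [← kd_kmap, he]⟩
    · rw [sq_congr_inf (show kchain S d N (p + 1) ⊓ (kchain S d N (p + 1) ⊓ LinearMap.range F) =
        kchain S d N (p + 1) ⊓ LinearMap.range F by rw [← inf_assoc, inf_idem])]
      exact (sq_le_length_quot _ _).trans (le_of_eq (length_quot_range_kmap f))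

/-- The cokernel on homology of a map of modules is small. -/
lemma sq_coker_homology_le (f : M →ₗ[S] N) :
    sq S (kcyc y N p) ((kcyc y M p).map (kmap d f) ⊔ kbd y N p) ≤
      2 ^ d * (Module.length S ↥(LinearMap.ker f) + Module.length S (N ⧸ LinearMap.range f)) := by
  set F := kmap d f
  set Z := kcyc y N p
  set L := (kcyc y M p).map F ⊔ kbd y N p
  have hL : L ≤ Z := sup_le (kmap_kcyc_le y f p) (map_kd_kchain_le y p)
  rw [sq_add (M := Z ⊓ LinearMap.range F ⊔ L) le_sup_right (sup_le inf_le_left hL), mul_add,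
    add_comm]
  refine add_le_add ?_ ((sq_mono_right le_sup_left).trans ?_)
  · rw [sq_sup_left]
    set W := kchain S d M p ⊓ Z.comap F
    refine (sq_mono_left (N' := W.map F) ?_).trans ?_
    · rintro _ ⟨hv, u, rfl⟩
      obtain ⟨u', hu', he⟩ := exists_kchain_kmap p f hv.1
      exact ⟨u', ⟨hu', show F u' ∈ Z by rw [he]; exact hv⟩, he⟩
    rw [sq_map]
    refine (sq_mono_right (L' := W ⊓ (⊥ : Submodule S _).comap (kd y M)) ?_).trans ?_
    · rintro w ⟨hw, hw'⟩
      rw [Submodule.mem_comap]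
      exact Submodule.mem_sup_left ⟨w, ⟨hw.1, LinearMap.mem_ker.2 ((Submodule.mem_bot S).1 hw')⟩,
        rfl⟩
    rw [sq_congr_inf (show W ⊓ (W ⊓ (⊥ : Submodule S _).comap (kd y M)) =
      W ⊓ (⊥ : Submodule S _).comap (kd y M) by rw [← inf_assoc, inf_idem]), ← sq_map]
    refine (sq_mono_left ?_).trans (sq_ker_kmap_le f)
    rintro _ ⟨w, hw, rfl⟩
    rw [LinearMap.mem_ker, ← kd_kmap]
    exact LinearMap.mem_ker.1 hw.2.2
  · rw [sq_congr_inf (show Z ⊓ (Z ⊓ LinearMap.range F) = Z ⊓ LinearMap.range F by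
      rw [← inf_assoc, inf_idem])]
    exact (sq_le_length_quot _ _).trans (le_of_eq (length_quot_range_kmap f))

/-- In a commutative square the images differ by the kernel of the lower map. -/
lemma kimgM_le_of_square {φ : M' →ₗ[S] M} {ψ : N' →ₗ[S] N} {f' : M' →ₗ[S] N'} {f : M →ₗ[S] N}
    (h : f ∘ₗ φ = ψ ∘ₗ f') :
    kimgM y φ p ≤ kimgM y ψ p +
      2 ^ d * (Module.length S ↥(LinearMap.ker f) + Module.length S (N ⧸ LinearMap.range f)) := by
  set F := kmap d f
  set I := (kcyc y M' p).map (kmap d φ)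
  set B := kbd y M p
  have hIZ : I ⊔ B ≤ kcyc y M p := sup_le (kmap_kcyc_le y φ p) (map_kd_kchain_le y p)
  have hBF : B ≤ (kbd y N p).comap F := Submodule.map_le_iff_le_comap.1 (kmap_kbd_le y f p)
  rw [kimgM, ← sq_sup_left, sq_add (M := (I ⊔ B) ⊓ (kbd y N p).comap F) (le_inf le_sup_right hBF)
    inf_le_left]
  refine add_le_add ?_
    ((sq_mono_left (inf_le_inf_right _ hIZ)).trans (sq_ker_homology_le y p f))
  rw [sq_congr_inf (show (I ⊔ B) ⊓ ((I ⊔ B) ⊓ (kbd y N p).comap F) = (I ⊔ B) ⊓
    (kbd y N p).comap F by rw [← inf_assoc, inf_idem]), ← sq_map, kimgM]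
  conv_rhs => rw [← sq_sup_left]
  refine sq_mono_left ?_
  rw [Submodule.map_sup]
  refine sup_le_sup (le_of_eq_of_le ?_ (Submodule.map_mono (kmap_kcyc_le y f' p)))
    (kmap_kbd_le y f p)
  rw [← Submodule.map_comp, ← Submodule.map_comp, ← kmap_comp, ← kmap_comp, h]

/-- In a commutative square the images differ by the cokernel of the upper map. -/
lemma kimgM_ge_of_square {φ : M' →ₗ[S] M} {ψ : N' →ₗ[S] N} {f' : M' →ₗ[S] N'} {f : M →ₗ[S] N}
    (h : f ∘ₗ φ = ψ ∘ₗ f') :
    kimgM y ψ p ≤ kimgM y φ p +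
      2 ^ d * (Module.length S ↥(LinearMap.ker f') +
        Module.length S (N' ⧸ LinearMap.range f')) := by
  set I := (kcyc y N' p).map (kmap d ψ)
  set FI := ((kcyc y M' p).map (kmap d φ)).map (kmap d f)
  set B := kbd y N p
  have hFI : FI = ((kcyc y M' p).map (kmap d f')).map (kmap d ψ) := by
    simp only [FI, ← Submodule.map_comp, ← kmap_comp, h]
  have hFI' : FI ≤ I := hFI ▸ Submodule.map_mono (kmap_kcyc_le y f' p)
  rw [kimgM, ← sq_sup_left, sq_add (M := FI ⊔ B) le_sup_right (sup_le_sup_right hFI' _), add_comm]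
  refine add_le_add ?_ ?_
  · rw [sq_sup_left, sq_map, kimgM]
    exact sq_mono_right (Submodule.map_le_iff_le_comap.1 (kmap_kbd_le y f p))
  · refine (sq_mono_left (N' := I ⊔ (FI ⊔ B)) (sup_le_sup_left le_sup_right _)).trans ?_
    rw [sq_sup_left, sq_map]
    refine (sq_mono_right ?_).trans (sq_coker_homology_le y p f')
    refine sup_le (Submodule.map_le_iff_le_comap.1 ?_) (Submodule.map_le_iff_le_comap.1
      ((kmap_kbd_le y ψ p).trans le_sup_right))
    exact hFI.ge.trans le_sup_left

/-- Finite products. -/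
lemma kimgM_pi {ι : Type}  [Fintype ι] (φ : M' →ₗ[S] M) :
    kimgM y (φ.compLeft ι) p = Fintype.card ι * kimgM y φ p := by
  set Φ := kmap d (φ.compLeft ι)
  set L := (kbd y M p).comap (kmap d φ)
  let g : ↥(kcyc y (ι → M') p) →ₗ[S] (ι → ↥(kcyc y M' p) ⧸ L.comap (kcyc y M' p).subtype) :=
    LinearMap.pi fun t => (L.comap (kcyc y M' p).subtype).mkQ ∘ₗ
      (kmap d (LinearMap.proj t : (ι → M') →ₗ[S] M')).restrict
        (fun z hz => kmap_kcyc_le y (LinearMap.proj t : (ι → M') →ₗ[S] M') p
          (Submodule.mem_map_of_mem hz))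
  have hs : Function.Surjective g := by
    intro v
    choose z hz using fun t => Submodule.mkQ_surjective _ (v t)
    refine ⟨⟨fun s t => (z t).1 s, fun s hs => funext fun t => (z t).2.1 s hs, ?_⟩, ?_⟩
    · rw [SetLike.mem_coe, LinearMap.mem_ker]
      funext s t
      have h1 := congrFun (LinearMap.mem_ker.1 (z t).2.2) s
      simp only [kd_apply, Pi.zero_apply] at h1 ⊢
      simpa [Finset.sum_apply] using h1
    · funext t
      rw [← hz t]
      exact congrArg (Submodule.mkQ _) (Subtype.ext rfl)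
  have hk : LinearMap.ker g = ((kbd y (ι → M) p).comap Φ).comap (kcyc y (ι → M') p).subtype := by
    ext ⟨z, hz⟩
    constructor
    · intro h
      have h' : ∀ t, kmap d φ (fun s => z s t) ∈ kbd y M p := fun t =>
        (Submodule.Quotient.mk_eq_zero (L.comap (kcyc y M' p).subtype)).1
          (congrFun (LinearMap.mem_ker.1 h) t)
      choose w hw hwz using h'
      refine ⟨fun s t => w t s, fun s hs => funext fun t => hw t s hs, funext fun s => funext
        fun t => ?_⟩
      have h1 := congrFun (hwz t) s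
      simp only [kd_apply, kmap_apply] at h1
      simpa [kd_apply, Finset.sum_apply, Φ] using h1
    · intro h
      refine LinearMap.mem_ker.2 (funext fun t => (Submodule.Quotient.mk_eq_zero _).2 ?_)
      exact kmap_kbd_le y (LinearMap.proj t : (ι → M) →ₗ[S] M) p
        (Submodule.mem_map_of_mem (r := Φ z) h)
  rw [kimgM, sq_map, sq, ← hk, (g.quotKerEquivOfSurjective hs).length_eq,
    Module.length_pi_of_fintype, Finset.sum_const, Finset.card_univ, nsmul_eq_mul, kimgM, sq_map]
  rfl

end

/-- The adic quotients of the ring. -/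
lemma kimgM_factor {S : Type u} [CommRing S] {d : ℕ} (y : Fin d → S) {J J' : Ideal S}
    (h : J' ≤ J) (p : ℕ) :
    kimgM y (Submodule.factor h : (S ⧸ J') →ₗ[S] S ⧸ J) p = kimg y J J' p := by
  have hpi : ∀ K : Ideal S, LinearMap.ker (kmap d K.mkQ) =
      Submodule.pi Set.univ fun _ : Finset (Fin d) => K := fun K => by
    ext v
    rw [LinearMap.mem_ker, Submodule.mem_pi, funext_iff]
    simp [Ideal.Quotient.eq_zero_iff_mem, kmap]
  set N := kchain S d S p ⊓
    (Submodule.pi Set.univ fun _ : Finset (Fin d) => J').comap (kd y S)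
  have hN : kcyc y (S ⧸ J') p = N.map (kmap d J'.mkQ) := by
    refine le_antisymm ?_ ?_
    · rintro v ⟨hv, hv'⟩
      obtain ⟨u, rfl⟩ : ∃ u, kmap d J'.mkQ u = v := by
        choose w hw using fun s => J'.mkQ_surjective (v s)
        exact ⟨w, funext hw⟩
      obtain ⟨u', hu', he⟩ := exists_kchain_kmap p J'.mkQ hv
      refine ⟨u', ⟨hu', ?_⟩, he⟩
      rw [SetLike.mem_coe, Submodule.mem_comap, ← hpi, LinearMap.mem_ker, ← kd_kmap, he]
      exact hv'
    · rintro _ ⟨u, hu, rfl⟩
      refine ⟨kmap_kchain_le _ _ (Submodule.mem_map_of_mem hu.1), ?_⟩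
      rw [SetLike.mem_coe, LinearMap.mem_ker, kd_kmap, ← LinearMap.mem_ker, hpi]
      exact hu.2
  have hB : kbd y (S ⧸ J) p = ((kchain S d S (p + 1)).map (kd y S)).map (kmap d J.mkQ) := by
    refine le_antisymm ?_ (kmap_kbd_le y J.mkQ p)
    rintro _ ⟨v, hv, rfl⟩
    obtain ⟨u, rfl⟩ : ∃ u, kmap d J.mkQ u = v := by
      choose w hw using fun s => J.mkQ_surjective (v s)
      exact ⟨w, funext hw⟩
    obtain ⟨u', hu', he⟩ := exists_kchain_kmap (p + 1) J.mkQ hv
    exact ⟨kd y S u', ⟨u', hu', rfl⟩, by rw [← kd_kmap, he]⟩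
  rw [kimgM, hN, hB, ← Submodule.map_comp, ← kmap_comp, Submodule.factor_comp_mk, sq_map,
    Submodule.comap_map_eq, hpi]
  rfl

end Vale.Agent.P202
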