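import Vale.Agent.P202.InterfacesM7G

/-! M7: local nilpotence along a chain of filtered complexes. -/

universe u

namespace Vale.Agent.P202

open TensorProduct

section maps

variable {R S : Type*} [CommRing R] [CommRing S] {B : Type*} [AddCommGroup B] [Module R B]
  [Module S B] [SMulCommClass R S B] {A A' : Type*} [AddCommGroup A] [Module R A]
  [AddCommGroup A'] [Module R A'] {d : ℕ}

variable (S B) in
/-- A map with the sign of the cardinality. -/
noncomputable def sgnMap (d : ℕ) (g : A →ₗ[R] A') :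
    (Finset (Fin d) → B ⊗[R] A) →ₗ[S] (Finset (Fin d) → B ⊗[R] A') :=
  LinearMap.pi fun s => ((-1 : ℤ) ^ s.card) • (lT S B g ∘ₗ LinearMap.proj s)

@[simp] lemma sgnMap_apply (g : A →ₗ[R] A') (f : Finset (Fin d) → B ⊗[R] A)
    (s : Finset (Fin d)) : sgnMap S B d g f s = ((-1 : ℤ) ^ s.card) • lT S B g (f s) := rfl

lemma kd_sgnMap (y : Fin d → S) (g : A →ₗ[R] A') (f : Finset (Fin d) → B ⊗[R] A) :
    kd y (B ⊗[R] A') (sgnMap S B d g f) = -sgnMap S B d g (kd y (B ⊗[R] A) f) := by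
  funext s
  simp only [kd_apply, sgnMap_apply, Pi.neg_apply, map_sum, Finset.smul_sum,
    ← Finset.sum_neg_distrib]
  refine Finset.sum_congr rfl fun l hl => ?_
  rw [Finset.card_insert_of_notMem (by simpa using hl), map_zsmul, map_smul, pow_succ,
    smul_comm ((-1 : ℤ) ^ s.card) (ksign l s), smul_comm (y l) ((-1 : ℤ) ^ s.card * -1)]
  simp

variable {P Gt : ℤ → Submodule R A} {P' Gt' : ℤ → Submodule R A'} {y : Fin d → S}
  {τ τ' : ℕ → ℤ} {r r' : ℤ} {f : Finset (Fin d) → B ⊗[R] A}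

lemma kmap_mem_DT (g : A →ₗ[R] A') (hP : ∀ i, (P (r + i)).map g ≤ P' (r' + i))
    (hG : ∀ l, (Gt (τ l)).map g ≤ Gt' (τ' l)) (hf : f ∈ DT B y P Gt τ r) :
    kmap d (lT S B g) f ∈ DT B y P' Gt' τ' r' := by
  rw [mem_DT] at hf ⊢
  refine ⟨fun s => lT_mem_gbar ?_ (hf.1 s), fun s => ?_⟩
  · exact (Submodule.map_inf_le _).trans (inf_le_inf (hG _) (hP _))
  · rw [kd_kmap, kmap_apply]
    exact lT_mem_gbar (hG _) (hf.2 s)

lemma sgnMap_mem_DT (g : A →ₗ[R] A') (hP : ∀ i, (P (r + i)).map g ≤ P' (r' + i))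
    (hG : ∀ l, (Gt (τ l)).map g ≤ Gt' (τ' l)) (hf : f ∈ DT B y P Gt τ r) :
    sgnMap S B d g f ∈ DT B y P' Gt' τ' r' := by
  rw [mem_DT] at hf ⊢
  refine ⟨fun s => zsmul_mem (lT_mem_gbar ?_ (hf.1 s)) _, fun s => ?_⟩
  · exact (Submodule.map_inf_le _).trans (inf_le_inf (hG _) (hP _))
  · rw [kd_sgnMap, Pi.neg_apply, sgnMap_apply]
    exact Submodule.neg_mem _ (zsmul_mem (lT_mem_gbar (hG _) (hf.2 s)) _)

lemma dT_kmap {δ : A →ₗ[R] A} {δ' : A' →ₗ[R] A'} (g : A →ₗ[R] A') (hg : δ' ∘ₗ g = g ∘ₗ δ)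
    (f : Finset (Fin d) → B ⊗[R] A) :
    dT B y δ' (kmap d (lT S B g) f) = kmap d (lT S B g) (dT B y δ f) := by
  funext s
  rw [dT_apply, kd_kmap, kmap_apply, kmap_apply, kmap_apply, dT_apply, map_add, map_zsmul,
    lT_comp_apply, lT_comp_apply, hg]

end maps

variable {R S : Type*} [CommRing R] [CommRing S] {B : Type*} [AddCommGroup B] [Module R B]
  [Module S B] [SMulCommClass R S B] [Module.Flat R B] {A : ℕ → Type*}
  [∀ k, AddCommGroup (A k)] [∀ k, Module R (A k)] {C : StageSys (R := R) A} {d e : ℕ}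
  {y : Fin d → S} {n B₀ : ℕ} {a : Fin e → R}

lemma StageSys.DT_stable (C : StageSys (R := R) A) (y : Fin d → S) (k : ℕ) (τ : ℕ → ℤ) :
    IsStable (dT B y (C.δ k)) (DT B y (C.P k) (C.Gt k) τ) := by
  rintro r _ ⟨f, hf, rfl⟩
  rw [SetLike.mem_coe, mem_DT] at hf
  rw [mem_DT]
  refine ⟨fun s => ?_, fun s => ?_⟩
  · rw [dT_apply]
    refine Submodule.add_mem _ ?_ (zsmul_mem (lT_mem_gbar ?_ (hf.1 s)) _)
    · rw [gbar_inf]
      refine ⟨hf.2 s, ?_⟩
      refine kd_mem_of_comp y _ f s fun l hl => ?_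
      have := gbar_mono (S := S) (B := B) inf_le_right (hf.1 (insert l s))
      rw [Finset.card_insert_of_notMem hl] at this
      convert this using 2
      push_cast; ring_nf
    · refine (Submodule.map_inf_le _).trans (inf_le_inf (C.level k _) ?_)
      convert C.degree k (r + s.card) using 2
      ring
  · have : kd y (B ⊗[R] A k) (dT B y (C.δ k) f) = -dlt S B d (C.δ k) (kd y (B ⊗[R] A k) f) := by
      have h1 : kd y (B ⊗[R] A k) (kd y (B ⊗[R] A k) f) = 0 := LinearMap.congr_fun (kd_kd y) f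
      simp [dT, h1, kd_dlt]
    rw [this, Pi.neg_apply, dlt_apply]
    exact Submodule.neg_mem _ (zsmul_mem (lT_mem_gbar (C.level k _) (hf.2 s)) _)

lemma StageSys.map_DT_le (C : StageSys (R := R) A) (y : Fin d → S) (k : ℕ) (τ : ℕ → ℤ) (r : ℤ) :
    (DT B y (C.P k) (C.Gt k) τ (r - 1)).map (dT B y (C.δ k)) ≤ DT B y (C.P k) (C.Gt k) τ r :=
  (C.DT_stable y k τ).map_pred r

variable (B) in
/-- The filtration on the total complex. -/
noncomputable def StageSys.filT (S : Type*) [CommRing S] [Module S B] [SMulCommClass R S B]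
    (C : StageSys (R := R) A) (d k m : ℕ) : Submodule S (Finset (Fin d) → B ⊗[R] A k) :=
  cardPi d fun _ => gbar S B (C.Fil k m)

/-- One stage. -/
lemma StageData.step (G : StageData C B y n B₀ a) {k : ℕ} (hk : k < n) {σ ρ : ℕ → ℤ}
    (hσ : ∀ l, l < d → σ (l + 1) ≤ σ l) (hρ : ∀ l, l < d → ρ (l + 1) ≤ ρ l) {r : ℤ}
    {f : Finset (Fin d) → B ⊗[R] A k} (hf : f ∈ DT B y (C.P k) (C.Gt k) σ r)
    (hfm : f ∈ C.filT B S d k k)
    (hdf : dT B y (C.δ k) f ∈ DT B y (C.P k) (C.Gt k) ρ (r + 1)) :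
    ∃ w ∈ DT B y (C.P (k + 1)) (C.Gt (k + 1)) (fun l => σ l - B₀) (r - 1),
    ∃ g ∈ DT B y (C.P (k + 1)) (C.Gt (k + 1)) (fun l => ρ l - B₀) r,
      kmap d (lT S B (G.ι k)) f - dT B y (C.δ (k + 1)) w - g ∈
        C.filT B S d (k + 1) (k + 1) := by
  classical
  set δ := C.δ k
  set δ' := C.δ (k + 1)
  set g₀ := dT B y δ f with hg₀
  let u : Fin e → Finset (Fin d) → B ⊗[R] A (k + 1) := fun i => kmap d (lT S B (G.φ k i)) f
  let v : Fin e → Finset (Fin d) → B ⊗[R] A (k + 1) := fun i => kmap d (lT S B (G.φ k i)) g₀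
  let H₀ := sgnMap S B d (G.h k) f
  let H₁ := sgnMap S B d (G.h k) g₀
  have hσ' : ∀ l, l < d → σ (l + 1) - (B₀ : ℤ) ≤ σ l - B₀ := fun l hl => by
    have := hσ l hl; omega
  have hρ' : ∀ l, l < d → ρ (l + 1) - (B₀ : ℤ) ≤ ρ l - B₀ := fun l hl => by
    have := hρ l hl; omega
  have hu : ∀ i, u i ∈ DT B y (C.P (k + 1)) (C.Gt (k + 1)) (fun l => σ l - B₀) r := fun i =>
    kmap_mem_DT _ (fun j => G.φ_deg k hk i _) (fun l => G.φ_level k hk i _) hf
  have hv : ∀ i, v i ∈ DT B y (C.P (k + 1)) (C.Gt (k + 1)) (fun l => ρ l - B₀) (r + 1) := fun i =>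
    kmap_mem_DT _ (fun j => G.φ_deg k hk i _) (fun l => G.φ_level k hk i _) hdf
  have hH₀ : H₀ ∈ DT B y (C.P (k + 1)) (C.Gt (k + 1)) (fun l => σ l - B₀) (r - 1) :=
    sgnMap_mem_DT _ (fun j => by
      convert G.h_deg k hk (r + j) using 2; ring) (fun l => G.h_level k hk _) hf
  have hH₁ : H₁ ∈ DT B y (C.P (k + 1)) (C.Gt (k + 1)) (fun l => ρ l - B₀) r :=
    sgnMap_mem_DT _ (fun j => by
      convert G.h_deg k hk (r + 1 + j) using 2; ring) (fun l => G.h_level k hk _) hdf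
  refine ⟨H₀ + ∑ i, ∑ l, G.c i l • kap S l (u i), ?_,
    H₁ + ∑ i, ∑ l, G.c i l • kap S l (v i), ?_, ?_⟩
  · exact Submodule.add_mem _ hH₀ (Submodule.sum_mem _ fun i _ => Submodule.sum_mem _ fun l _ =>
      Submodule.smul_mem _ _ (kap_mem_DT l (C.anti _) hσ' (hu i)))
  · refine Submodule.add_mem _ hH₁ (Submodule.sum_mem _ fun i _ => Submodule.sum_mem _ fun l _ =>
      Submodule.smul_mem _ _ ?_)
    simpa using kap_mem_DT l (C.anti _) hρ' (hv i)
  have hfm' : ∀ s, f s ∈ gbar S B (C.Fil k k) := by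
    have := hfm; rwa [StageSys.filT, mem_cardPi] at this
  have hkdf : ∀ s, kd y _ f s = g₀ s - ((-1 : ℤ) ^ s.card) • lT S B δ (f s) := fun s => by
    rw [hg₀, dT_apply, add_sub_cancel_right]
  have hfil : ∀ (g : A k →ₗ[R] A (k + 1)), (∀ x ∈ C.Fil k k, g x ∈ C.Fil (k + 1) (k + 1)) →
      ∀ s, lT S B g (f s) ∈ gbar S B (C.Fil (k + 1) (k + 1)) := fun g hg s =>
    lT_mem_gbar (by rintro _ ⟨x, hx, rfl⟩; exact hg x hx) (hfm' s)
  -- the derivative of `u i` agrees with `v i` modulo the next filtration step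
  have hE : ∀ i, dT B y δ' (u i) - v i ∈ C.filT B S d (k + 1) (k + 1) := by
    intro i
    rw [StageSys.filT, mem_cardPi]
    intro s
    have : (dT B y δ' (u i) - v i) s =
        ((-1 : ℤ) ^ s.card) • lT S B (δ' ∘ₗ G.φ k i - G.φ k i ∘ₗ δ) (f s) := by
      simp only [u, v, Pi.sub_apply, dT_apply, kd_kmap, kmap_apply, hkdf, map_sub, map_zsmul,
        lT_comp_apply, lT_sub, LinearMap.sub_apply, smul_sub]
      abel
    rw [this]
    refine zsmul_mem (hfil _ (fun x hx => ?_) s) _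
    have := (C.Fil (k + 1) (k + 1)).neg_mem (G.comm k hk i x hx)
    simpa using this
  have hH : ∀ s, dT B y δ' H₀ s = -H₁ s + lT S B (δ' ∘ₗ G.h k + G.h k ∘ₗ δ) (f s) := by
    intro s
    have hpm : ((-1 : ℤ) ^ s.card) * ((-1) ^ s.card) = 1 := by rw [← mul_pow]; simp
    simp only [H₀, H₁, dT_apply, kd_sgnMap, Pi.neg_apply, sgnMap_apply, hkdf, map_sub, map_zsmul,
      smul_sub, smul_smul, hpm, one_smul, lT_comp_apply, lT_add, LinearMap.add_apply]
    abel
  have hsum : ∀ i, dT B y δ' (∑ l, G.c i l • kap S l (u i)) =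
      (∑ l, y l * G.c i l) • u i - ∑ l, G.c i l • kap S l (dT B y δ' (u i)) := by
    intro i
    rw [map_sum, Finset.sum_smul, ← Finset.sum_sub_distrib]
    refine Finset.sum_congr rfl fun l _ => ?_
    rw [map_smul, eq_sub_of_add_eq (dT_kap l δ' (u i)), smul_sub, smul_smul, mul_comm]
  rw [StageSys.filT, mem_cardPi]
  intro s
  have h1 : ∀ i, (∑ l, y l * G.c i l) • u i s = lT S B (a i • G.φ k i) (f s) := by
    intro i
    rw [← smul_lT (G.a_smul i) (u i s), show u i s = lT S B (G.φ k i) (f s) from rfl, lT_comp_apply]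
    rfl
  have hkey : (kmap d (lT S B (G.ι k)) f - dT B y δ' (H₀ + ∑ i, ∑ l, G.c i l • kap S l (u i)) -
      (H₁ + ∑ i, ∑ l, G.c i l • kap S l (v i))) s =
      lT S B (G.ι k - (∑ i, a i • G.φ k i) - δ' ∘ₗ G.h k - G.h k ∘ₗ δ) (f s) +
        ∑ i, ∑ l, G.c i l • kap S l (dT B y δ' (u i) - v i) s := by
    rw [lT_sub, lT_sub, lT_sub,
      show lT S B (∑ i, a i • G.φ k i) = ∑ i, lT S B (a i • G.φ k i) from
        map_sum ({ toFun := lT S B, map_zero' := lT_zero, map_add' := lT_add } :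
          (A k →ₗ[R] A (k + 1)) →+ ((B ⊗[R] A k) →ₗ[S] (B ⊗[R] A (k + 1)))) _ _]
    rw [Pi.sub_apply, Pi.sub_apply, Pi.add_apply, map_add, map_sum, Pi.add_apply, hH, lT_add]
    simp only [hsum, Finset.sum_apply, Pi.sub_apply, Pi.smul_apply, Finset.sum_sub_distrib, h1,
      map_sub, smul_sub, kmap_apply, LinearMap.sub_apply, LinearMap.add_apply, LinearMap.sum_apply]
    abel
  rw [hkey]
  refine Submodule.add_mem _ (hfil _ (fun x hx => ?_) s) ?_
  · simpa using G.identity k hk x hx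
  · refine Submodule.sum_mem _ fun i _ => Submodule.sum_mem _ fun l _ => Submodule.smul_mem _ _ ?_
    rw [kap_apply]
    split
    · have := hE i
      rw [StageSys.filT, mem_cardPi] at this
      exact zsmul_mem (this _) _
    · exact Submodule.zero_mem _

/-- The form of the class after `k` stages. -/
lemma StageData.stages (G : StageData C B y n B₀ a) {τ υ : ℕ → ℤ}
    (hτ : ∀ l, l < d → τ (l + 1) ≤ τ l) (hυ : ∀ l, l < d → υ (l + 1) ≤ υ l)
    (hle : ∀ l, l ≤ d → τ l ≤ υ l) {r : ℤ} {f : Finset (Fin d) → B ⊗[R] A 0}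
    (hf : f ∈ DT B y (C.P 0) (C.Gt 0) τ r)
    (hdf : dT B y (C.δ 0) f ∈ DT B y (C.P 0) (C.Gt 0) υ (r + 1)) :
    ∀ k, k ≤ n → ∃ w ∈ DT B y (C.P k) (C.Gt k) (fun l => τ l - (k * B₀ : ℕ)) (r - 1),
      ∃ g ∈ DT B y (C.P k) (C.Gt k) (fun l => υ l - (k * B₀ : ℕ)) r,
      ∃ h ∈ DT B y (C.P k) (C.Gt k) (fun l => τ l - (k * B₀ : ℕ)) r,
        h ∈ C.filT B S d k k ∧
        dT B y (C.δ k) h ∈ DT B y (C.P k) (C.Gt k) (fun l => υ l - (k * B₀ : ℕ)) (r + 1) ∧
        kmap d (lT S B (stageComp G.ι k)) f = dT B y (C.δ k) w + g + h := by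
  intro k
  induction k with
  | zero =>
    intro _
    refine ⟨0, Submodule.zero_mem _, 0, Submodule.zero_mem _, f, by simpa using hf, ?_,
      by simpa using hdf, ?_⟩
    · rw [StageSys.filT, mem_cardPi]
      intro s
      rw [G.fil_zero, gbar_top]
      trivial
    · funext s
      simp [stageComp, lT_id]
  | succ k ih =>
    intro hk
    have hk' : k < n := hk
    obtain ⟨w, hw, g, hg, h, hh, hhm, hdh, hcomp⟩ := ih hk'.le
    obtain ⟨w', hw', g', hg', hnext⟩ := G.step hk' (σ := fun l => τ l - (k * B₀ : ℕ))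
      (ρ := fun l => υ l - (k * B₀ : ℕ)) (fun l hl => by have := hτ l hl; omega)
      (fun l hl => by have := hυ l hl; omega) hh hhm hdh
    have e1 : ∀ t : ℕ → ℤ, (fun l => t l - (k * B₀ : ℕ) - (B₀ : ℤ)) =
        fun l => t l - (((k + 1) * B₀ : ℕ) : ℤ) := fun t => by funext l; push_cast; ring
    rw [e1] at hw' hg'
    set τ₁ : ℕ → ℤ := fun l => τ l - (((k + 1) * B₀ : ℕ) : ℤ) with hτ₁
    set υ₁ : ℕ → ℤ := fun l => υ l - (((k + 1) * B₀ : ℕ) : ℤ) with hυ₁
    have hι : ∀ (t : ℕ → ℤ) (r : ℤ) (z : Finset (Fin d) → B ⊗[R] A k),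
        z ∈ DT B y (C.P k) (C.Gt k) (fun l => t l - (k * B₀ : ℕ)) r →
        kmap d (lT S B (G.ι k)) z ∈
          DT B y (C.P (k + 1)) (C.Gt (k + 1)) (fun l => t l - (((k + 1) * B₀ : ℕ) : ℤ)) r := by
      intro t r z hz
      refine kmap_mem_DT _ (fun j => G.ι_deg k hk' _) (fun l => ?_) hz
      refine (G.ι_level k hk' _).trans (C.anti (k + 1) ?_)
      have : k * B₀ ≤ (k + 1) * B₀ := Nat.mul_le_mul_right _ (Nat.le_succ k)
      omega
    have hgd : g' ∈ DT B y (C.P (k + 1)) (C.Gt (k + 1)) τ₁ r :=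
      DT_mono y (C.anti _) (fun l hl => by simp only [hτ₁, hυ₁]; have := hle l hl; omega) r hg'
    have hdι := dT_kmap (B := B) (y := y) (G.ι k) (G.ι_comm k hk')
    refine ⟨kmap d (lT S B (G.ι k)) w + w', Submodule.add_mem _ (hι τ _ w hw) hw',
      kmap d (lT S B (G.ι k)) g + g', Submodule.add_mem _ (hι υ _ g hg) hg',
      kmap d (lT S B (G.ι k)) h - dT B y (C.δ (k + 1)) w' - g', ?_, hnext, ?_, ?_⟩
    · exact Submodule.sub_mem _ (Submodule.sub_mem _ (hι τ _ h hh)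
        (C.map_DT_le y (k + 1) τ₁ r (Submodule.mem_map_of_mem hw'))) hgd
    · rw [map_sub, map_sub, ← LinearMap.comp_apply (dT B y (C.δ (k + 1))) (dT B y (C.δ (k + 1))),
        dT_dT y _ (C.sq0 _), LinearMap.zero_apply, sub_zero, hdι]
      exact Submodule.sub_mem _ (hι υ _ _ hdh)
        (C.DT_stable y (k + 1) υ₁ r (Submodule.mem_map_of_mem hg'))
    · have : kmap d (lT S B (stageComp G.ι (k + 1))) f =
          kmap d (lT S B (G.ι k)) (kmap d (lT S B (stageComp G.ι k)) f) := by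
        funext s
        simp [stageComp, lT_comp_apply]
      rw [this, hcomp, map_add, map_add, ← hdι, map_add]
      abel

theorem goalStageGhost : GoalStageGhost.{u} := by
  intro R S _ _ B _ _ _ _ _ A _ _ C d e y n B₀ a G τ υ hτ hυ hle r f hf hdf
  obtain ⟨w, hw, g, hg, h, -, hhm, -, hcomp⟩ := G.stages hτ hυ hle hf hdf n le_rfl
  have h0 : h = 0 := funext fun s => by
    rw [StageSys.filT, mem_cardPi] at hhm
    have := hhm s
    rw [G.fil_end, gbar_bot, Submodule.mem_bot] at this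
    exact this
  rw [hcomp, h0, add_zero]
  exact Submodule.add_mem_sup (Submodule.mem_map_of_mem hw) hg

theorem goalStageComp : GoalStageComp.{u} := by
  intro R _ A _ _ incl Dl n hc
  suffices ∀ k ≤ n, stageComp (fun k => Dl (k + 1) ∘ₗ incl k) k =
      (Dl k ^ k) ∘ₗ stageComp incl k from this n le_rfl
  intro k
  induction k with
  | zero => intro _; simp [stageComp, Module.End.one_eq_id]
  | succ k ih =>
    intro hk
    have hcomm : ∀ j, incl k ∘ₗ (Dl k ^ j) = (Dl (k + 1) ^ j) ∘ₗ incl k := by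
      intro j
      induction j with
      | zero => simp [Module.End.one_eq_id]
      | succ j ihj =>
        rw [pow_succ, pow_succ, Module.End.mul_eq_comp, Module.End.mul_eq_comp,
          ← LinearMap.comp_assoc, ihj, LinearMap.comp_assoc, ← hc k hk, LinearMap.comp_assoc]
    calc stageComp (fun k => Dl (k + 1) ∘ₗ incl k) (k + 1)
        = (Dl (k + 1) ∘ₗ incl k) ∘ₗ ((Dl k ^ k) ∘ₗ stageComp incl k) := by
          rw [← ih (Nat.le_of_succ_le hk)]; rfl
      _ = Dl (k + 1) ∘ₗ ((incl k ∘ₗ (Dl k ^ k)) ∘ₗ stageComp incl k) := rfl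
      _ = _ := by
          rw [hcomm, pow_succ', Module.End.mul_eq_comp]
          rfl

end Vale.Agent.P202
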