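import Vale.Agent.P202.InterfacesR
import Vale.Agent.P202.M7Ghost
import Vale.Agent.P202.M10Img

/-!
Interfaces for the parts of `GoalRankCore` (BLUEPRINT_R): the windows of the twisted complexes (R1),
their comparison with the Koszul homology of `S ⊗ V T` (R2), and the Koszul side (R3).
-/

universe u

namespace Vale.Agent.P202

open IsLocalRing TensorProduct

variable {R S : Type u} [CommRing R] [CommRing S] [Algebra R S] {A : Type u} [AddCommGroup A]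
  [Module R A] {d : ℕ} {δ g : A →ₗ[R] A} {P Gt : ℤ → Submodule R A}

/-- The homology of the window `[0, T)` with values in the Koszul complex of `y`. -/
abbrev uH (y : Fin d → S) (δ : A →ₗ[R] A) (P Gt : ℤ → Submodule R A) (T : ℤ) (r : ℤ) : Type u :=
  HMod (dT S y δ) (DT S y P Gt fun _ => 0) (DT S y P Gt fun _ => T) r

/-- The action of a level endomorphism on it. -/
noncomputable def LevelEnd.uD (h : LevelEnd δ P Gt g) (y : Fin d → S) (T r : ℤ) :
    uH y δ P Gt T r →ₗ[S] uH y δ P Gt T r :=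
  hmap (δ := dT S y δ) (δ' := dT S y δ) (kmap d (lT S S g))
    (fun _ _ hv => kmap_mem_DT g (fun _ => h.deg _) (fun _ => h.level _) hv)
    (fun _ _ hv => kmap_mem_DT g (fun _ => h.deg _) (fun _ => h.level _) hv)
    (fun _ v _ => (dT_kmap g h.comm v).symm) r

/-- The transition from the top `T'` to the top `T`. -/
noncomputable def uTr (y : Fin d → S) (δ : A →ₗ[R] A) {P Gt : ℤ → Submodule R A}
    (hG : Antitone Gt) {T T' : ℤ} (h : T ≤ T') (r : ℤ) :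
    uH y δ P Gt T' r →ₗ[S] uH y δ P Gt T r :=
  hmap (δ := dT S y δ) (δ' := dT S y δ) LinearMap.id (fun _ _ hv => hv)
    (fun r _ hv => DT_mono y hG (fun _ _ => h) r hv) (fun _ _ _ => rfl) r

/-- The rank at depth `a` of the transition, in degree `-p`. -/
noncomputable def uRk (h : LevelEnd δ P Gt g) (y : Fin d → S) (hG : Antitone Gt) {T T' : ℤ}
    (hT : T ≤ T') (p a : ℕ) : ℕ :=
  rkS (h.uD y T (-(p : ℤ))) (LinearMap.range (uTr y δ hG hT (-(p : ℤ)))) a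

/-- The length of the image of `f` on the `p`-th Koszul homology of `S ⊗ -`. -/
noncomputable def hpRk (y : Fin d → S) {V W : Type u} [AddCommGroup V] [Module R V] [AddCommGroup W]
    [Module R W] (f : V →ₗ[R] W) (p : ℕ) : ℕ :=
  (kimgM y (lT S S f) p).toNat

/-- R1: regularity of the windows. -/
def GoalRankReg : Prop :=
  ∀ (R S : Type u) [CommRing R] [IsLocalRing R] [IsNoetherianRing R] [CommRing S] [IsLocalRing S]
    [IsNoetherianRing S] [Algebra R S] [IsLocalHom (algebraMap R S)] [Module.Flat R S] (d : ℕ),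
    0 < d → ndim R = d → ndim S = d → ∀ (x : Fin d → R) (y : Fin d → S), Par y → ∀ (H : ℕ),
      ∃ K i₀ X : ℕ, ∀ (e : ℝ) (C J Z η : ℕ) (D : RankSys (S := S) x e C H J Z η), X ≤ J →
        ∀ T : ℕ, T ≤ H → ∀ r : ℤ,
          Module.length S (uH y D.δ D.P D.Gt (T : ℤ) r) ≠ ⊤ ∧
            Reg (D.dl.uD y (T : ℤ) r) i₀ (K * η) (J - X)

/-- R1: stability in the tops, and the Euler characteristic. -/
def GoalRankWindow : Prop :=
  ∀ (R S : Type u) [CommRing R] [IsLocalRing R] [IsNoetherianRing R] [CommRing S] [IsLocalRing S]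
    [IsNoetherianRing S] [Algebra R S] [IsLocalHom (algebraMap R S)] [Module.Flat R S] (d : ℕ),
    0 < d → ndim R = d → ndim S = d → ∀ (x : Fin d → R) (y : Fin d → S), Par y → ∀ (N H : ℕ),
      (∀ l, algebraMap R S (x l) ^ N ∈ Ideal.span (Set.range y)) →
      ∃ K i₀ X : ℕ, ∀ (e : ℝ) (C J Z η : ℕ) (D : RankSys (S := S) x e C H J Z η),
      ∀ (T₃ T₂ T₁ : ℕ) (h₂ : T₃ ≤ T₂) (h₁ : T₂ ≤ T₁),
        2 * (d * N) ≤ T₃ → T₃ + 2 * (d * N) ≤ T₂ → T₂ + 2 * (d * N) ≤ T₁ →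
        T₁ + d * N + d + 1 ≤ H → ∀ a : ℕ, i₀ ≤ a → a + X ≤ J →
          (∀ p, p ≤ d →
            uRk D.dl y D.filt.anti (Int.ofNat_le.2 h₁) p a ≤
              uRk D.dl y D.filt.anti (Int.ofNat_le.2 (h₂.trans h₁)) p a + K * η ∧
            uRk D.dl y D.filt.anti (Int.ofNat_le.2 h₂) p a ≤
              uRk D.dl y D.filt.anti (Int.ofNat_le.2 (h₂.trans h₁)) p a + K * η) ∧
          ((khlen y (S ⊗[R] ResidueField R) 0).toNat : ℝ) * ((d - 1).factorial : ℝ) * e * Z -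
              (K * η : ℕ) ≤
            ((∑ p ∈ Finset.range (d + 1), (-1 : ℤ) ^ p *
              (uRk D.dl y D.filt.anti (Int.ofNat_le.2 (h₂.trans h₁)) p a : ℤ) : ℤ) : ℝ)

/-- R2: the transition of windows has the rank of the induced map of `H_p(y; S ⊗ V T)`. -/
def GoalRankCompare : Prop :=
  ∀ (R S : Type u) [CommRing R] [IsLocalRing R] [IsNoetherianRing R] [CommRing S] [IsLocalRing S]
    [IsNoetherianRing S] [Algebra R S] [IsLocalHom (algebraMap R S)] [Module.Flat R S] (d : ℕ),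
    0 < d → ndim R = d → ndim S = d → ∀ (x : Fin d → R) (y : Fin d → S), Par y → ∀ (H : ℕ),
      ∃ K X : ℕ, ∀ (e : ℝ) (C J Z η : ℕ) (D : RankSys (S := S) x e C H J Z η),
      ∀ (T T' : ℕ) (hT : T ≤ T'), T' ≤ H → ∀ (f : D.V T' →ₗ[R] D.V T),
        f ∘ₗ D.toV T' = D.toV T ∘ₗ winTr D.δ D.filt.anti 0 (Int.ofNat_le.2 hT) 0 →
      ∀ (i₀ η' J' : ℕ), (∀ r : ℤ, Module.length S (uH y D.δ D.P D.Gt (T : ℤ) r) ≠ ⊤ ∧
          Module.length S (uH y D.δ D.P D.Gt (T' : ℤ) r) ≠ ⊤ ∧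
          Reg (D.dl.uD y (T : ℤ) r) i₀ η' J') →
        i₀ + X ≤ J' → J' ≤ J → ∀ p, p ≤ d → ∀ a : ℕ, i₀ + X ≤ a → a + X ≤ J' →
          uRk D.dl y D.filt.anti (Int.ofNat_le.2 hT) p a ≤ hpRk y f p + K * (η + η') ∧
            hpRk y f p ≤ uRk D.dl y D.filt.anti (Int.ofNat_le.2 hT) p a + K * (η + η')

/-- R3: the Koszul side. If the three stages `V₁ → V₂ → V₃` are stable for all exponents up to `n`
and close to `(R / m ^ T) ^ n₀`, the Euler characteristic of the image at exponent one is at most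
`n₀ * kchi y S` up to small errors. -/
def GoalRankKoszul : Prop :=
  ∀ (R S : Type u) [CommRing R] [IsLocalRing R] [IsNoetherianRing R] [CommRing S] [IsLocalRing S]
    [IsNoetherianRing S] [Algebra R S] [IsLocalHom (algebraMap R S)] [Module.Flat R S] (d : ℕ),
    0 < d → ndim R = d → ndim S = d → ∀ (y : Fin d → S), Par y →
      0 ≤ kchi y S ∧
      ∃ C' K : ℕ, ∀ n : ℕ, 0 < n → ∃ K' : ℕ,
      ∀ (V₁ V₂ V₃ : Type u) [AddCommGroup V₁] [Module R V₁] [AddCommGroup V₂] [Module R V₂]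
        [AddCommGroup V₃] [Module R V₃],
        Module.length R V₁ ≠ ⊤ → Module.length R V₂ ≠ ⊤ → Module.length R V₃ ≠ ⊤ →
      ∀ (t : V₁ →ₗ[R] V₂) (s : V₂ →ₗ[R] V₃) (η' : ℕ),
        (∀ a : Fin d → ℕ, (∀ l, 0 < a l ∧ a l ≤ n) → ∀ p, p ≤ d →
          hpRk (fun l => y l ^ a l) t p ≤ hpRk (fun l => y l ^ a l) (s ∘ₗ t) p + η' ∧
          hpRk (fun l => y l ^ a l) s p ≤ hpRk (fun l => y l ^ a l) (s ∘ₗ t) p + η') →
      ∀ (T₁ T₃ n₀ L : ℕ) (g₁ : (Fin n₀ → R) →ₗ[R] V₁) (g₃ : (Fin n₀ → R) →ₗ[R] V₃),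
        C' * n ≤ T₃ → C' * T₃ ≤ T₁ → (s ∘ₗ t) ∘ₗ g₁ = g₃ →
        (∀ v, (∀ i, v i ∈ maximalIdeal R ^ T₁) → g₁ v = 0) →
        (∀ v, (∀ i, v i ∈ maximalIdeal R ^ T₃) → g₃ v = 0) →
        sq R (LinearMap.ker g₁) (Submodule.pi Set.univ fun _ : Fin n₀ => maximalIdeal R ^ T₁) ≤
          (L : ℕ∞) →
        sq R (LinearMap.ker g₃) (Submodule.pi Set.univ fun _ : Fin n₀ => maximalIdeal R ^ T₃) ≤
          (L : ℕ∞) →
        Module.length R (V₁ ⧸ LinearMap.range g₁) ≤ (L : ℕ∞) →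
        Module.length R (V₃ ⧸ LinearMap.range g₃) ≤ (L : ℕ∞) →
        (n : ℤ) ^ d * ∑ p ∈ Finset.range (d + 1), (-1 : ℤ) ^ p * (hpRk y (s ∘ₗ t) p : ℤ) ≤
          (n₀ : ℤ) * ((n : ℤ) ^ d * kchi y S) + (K' * η' + K * L : ℕ)

end Vale.Agent.P202
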