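import Vale.Agent.P202.RWindow

/-!
Interfaces inside R1: Euler characteristic of the staircase window, and Lemma P on the triangle of
the windows `[0, T)`, `[-l, T)`, `[-l, 0)`.
-/

universe u

namespace Vale.Agent.P202

open IsLocalRing TensorProduct

/-- The constant twist. -/
def cstT (c : ℤ) : ℕ → ℤ := fun _ => c

/-- The shifted twist. -/
def shfT (c : ℤ) : ℕ → ℤ := fun l => c - l

theorem shfT_le_cstT (c : ℤ) (l : ℕ) : shfT c l ≤ cstT c l := by
  simp [shfT, cstT]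

theorem cstT_le_cstT {c c' : ℤ} (h : c ≤ c') (d : ℕ) : ∀ l, l ≤ d → cstT c l ≤ cstT c' l :=
  fun _ _ => h

variable {R S : Type u} [CommRing R] [CommRing S] [Algebra R S] {A : Type u} [AddCommGroup A]
  [Module R A] {d : ℕ} {δ g : A →ₗ[R] A} {P Gt : ℤ → Submodule R A}

/-- The rank of the transition of tops of the windows `[τ, T)`. -/
noncomputable def tRk (h : LevelEnd δ P Gt g) (y : Fin d → S) (hG : Antitone Gt) (τ : ℕ → ℤ)
    {T T' : ℤ} (hT : T ≤ T') (r : ℤ) (a : ℕ) : ℕ :=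
  rkS (h.tD y τ (cstT T) r)
    (LinearMap.range (tMap y δ P hG (fun l (_ : l ≤ d) => le_refl (τ l)) (cstT_le_cstT hT d) r)) a

/-- The alternating sum of a rank function over all degrees. -/
noncomputable def chiSum (d : ℕ) (f : ℤ → ℕ) : ℤ :=
  ∑ r ∈ Finset.Icc (-((3 * d + 3 : ℕ) : ℤ)) (3 * d + 3 : ℕ), sgn r * (f r : ℤ)

/-- The Euler characteristic of the window from the staircase to the constant twist. -/
def GoalStairChi : Prop :=
  ∀ (R S : Type u) [CommRing R] [IsLocalRing R] [IsNoetherianRing R] [CommRing S] [IsLocalRing S]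
    [IsNoetherianRing S] [Algebra R S] [IsLocalHom (algebraMap R S)] [Module.Flat R S] (d : ℕ),
    0 < d → ndim R = d → ndim S = d → ∀ (x : Fin d → R) (y : Fin d → S), Par y → ∀ (H : ℕ),
      d ≤ H → ∃ K a₀ : ℕ, ∀ (e : ℝ) (C J Z η : ℕ) (D : RankSys (S := S) x e C H J Z η),
      ∀ a : ℕ, a₀ ≤ a → a + a₀ ≤ J →
        ((chiSum d (fun r => rkD (D.dl.tD y (shfT 0) (cstT 0) r) a) : ℤ) : ℝ) ≤
          -(((khlen y (S ⊗[R] ResidueField R) 0).toNat : ℝ) * ((d - 1).factorial : ℝ) * e * Z) +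
            (K * η : ℕ)

/-- Lemma P on the triangle, for three tops. Regularity, finiteness and stability are assumed. -/
def GoalTriangleChi : Prop :=
  ∀ (R S : Type u) [CommRing R] [IsLocalRing R] [CommRing S] [Algebra R S] [Module.Flat R S]
    (d : ℕ) (A : Type u) [AddCommGroup A] [Module R A] (δ g : A →ₗ[R] A)
    (P Gt : ℤ → Submodule R A), FiltSys (maximalIdeal R) d δ P Gt →
    ∀ (h : LevelEnd δ P Gt g) (hG : Antitone Gt) (y : Fin d → S) (T₃ T₂ T₁ : ℕ) (h₂ : T₃ ≤ T₂)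
      (h₁ : T₂ ≤ T₁) (i η η' J a : ℕ), 2 * i ≤ a → a ≤ J →
      (∀ T ∈ [T₁, T₂, T₃], ∀ τ ∈ [cstT 0, shfT 0], ∀ r : ℤ,
        Module.length S (tH y δ P Gt τ (cstT (T : ℤ)) r) ≠ ⊤ ∧
          Reg (h.tD y τ (cstT (T : ℤ)) r) i η J) →
      (∀ r : ℤ, Module.length S (tH y δ P Gt (shfT 0) (cstT 0) r) ≠ ⊤ ∧
          Reg (h.tD y (shfT 0) (cstT 0) r) i η J) →
      (∀ τ ∈ [cstT 0, shfT 0], ∀ r : ℤ,
        tRk h y hG τ (Int.ofNat_le.2 h₁) r a ≤
            tRk h y hG τ (Int.ofNat_le.2 (h₂.trans h₁)) r a + η' ∧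
          tRk h y hG τ (Int.ofNat_le.2 h₂) r a ≤
            tRk h y hG τ (Int.ofNat_le.2 (h₂.trans h₁)) r a + η') →
      |chiSum d (fun r => tRk h y hG (shfT 0) (Int.ofNat_le.2 (h₂.trans h₁)) r a) -
          chiSum d (fun r => tRk h y hG (cstT 0) (Int.ofNat_le.2 (h₂.trans h₁)) r a) -
          chiSum d (fun r => rkD (h.tD y (shfT 0) (cstT 0) r) a)| ≤
        ((3 * (6 * d + 8)) * (3 * η + 2 * η') : ℕ)

end Vale.Agent.P202
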