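import Vale.Agent.P202.Tensor

/-! The Koszul differential on functions `Finset (Fin d) → M`, contracting maps and naturality. -/

universe u

namespace Vale.Agent.P202

open Finset

variable {S : Type*} [CommRing S] {d : ℕ} (y : Fin d → S) {M M' : Type*} [AddCommGroup M]
  [Module S M] [AddCommGroup M'] [Module S M']

lemma kd_apply (f : Finset (Fin d) → M) (s : Finset (Fin d)) :
    kd y M f s = ∑ l ∈ sᶜ, ksign l s • (y l • f (insert l s)) := rfl

lemma ksign_sq_eq_one (l : Fin d) (s : Finset (Fin d)) : ksign l s * ksign l s = 1 := by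
  simp [ksign, ← mul_pow]

lemma ksign_insert_mul {l m : Fin d} (t : Finset (Fin d)) (hlm : l ≠ m) (hl : l ∉ t)
    (hm : m ∉ t) :
    ksign l (insert m t) * ksign m t = -(ksign m (insert l t) * ksign l t) := by
  rcases lt_or_gt_of_ne hlm with h | h
  · simp only [ksign, Finset.filter_insert, h, if_true, if_neg (not_lt.2 h.le)]
    rw [card_insert_of_notMem (by simp [hl]), pow_succ]
    ring
  · simp only [ksign, Finset.filter_insert, h, if_true, if_neg (not_lt.2 h.le)]
    rw [card_insert_of_notMem (by simp [hm]), pow_succ]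
    ring

lemma kd_kd : kd y M ∘ₗ kd y M = 0 := by
  refine LinearMap.ext fun f => funext fun s => ?_
  simp only [LinearMap.comp_apply, LinearMap.zero_apply, Pi.zero_apply, kd_apply, smul_sum]
  rw [Finset.sum_sigma']
  refine Finset.sum_involution (fun p _ => (⟨p.2, p.1⟩ : Σ _ : Fin d, Fin d)) ?_ ?_ ?_ ?_
  · rintro ⟨l, m⟩ h
    simp only [mem_sigma, mem_compl, mem_insert, not_or] at h
    rw [Finset.insert_comm l m s]
    simp only [smul_comm (y l) (ksign m (insert l s)), smul_comm (y m) (ksign l (insert m s)),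
      smul_smul, mul_comm (y m) (y l)]
    rw [← add_smul]
    rw [show ksign l s * ksign m (insert l s) + ksign m s * ksign l (insert m s) = 0 by
      linear_combination ksign_insert_mul s (Ne.symm h.2.1) h.1 h.2.2]
    simp
  · rintro ⟨l, m⟩ h _
    simp only [mem_sigma, mem_compl, mem_insert, not_or] at h
    intro heq
    exact h.2.1 (congrArg Sigma.fst heq)
  · rintro ⟨l, m⟩ h
    simp only [mem_sigma, mem_compl, mem_insert, not_or] at h ⊢
    exact ⟨h.2.2, Ne.symm h.2.1, h.1⟩
  · rintro ⟨l, m⟩ _
    rfl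

/-- The map raising the cardinality by one, attached to `l`. -/
def kap (S : Type*) [CommRing S] {d : ℕ} {M : Type*} [AddCommGroup M] [Module S M] (l : Fin d) : (Finset (Fin d) → M) →ₗ[S] (Finset (Fin d) → M) where
  toFun f s := if l ∈ s then ksign l (s.erase l) • f (s.erase l) else 0
  map_add' f g := by
    funext s
    by_cases h : l ∈ s <;> simp [h, smul_add]
  map_smul' c f := by
    funext s
    by_cases h : l ∈ s <;> simp [h, smul_comm c]

lemma kap_apply (l : Fin d) (f : Finset (Fin d) → M) (s : Finset (Fin d)) :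
    kap S l f s = if l ∈ s then ksign l (s.erase l) • f (s.erase l) else 0 := rfl

lemma kd_kap (l : Fin d) (f : Finset (Fin d) → M) :
    kd y M (kap S l f) + kap S l (kd y M f) = y l • f := by
  funext s
  simp only [Pi.add_apply, Pi.smul_apply, kd_apply, kap_apply]
  by_cases hl : l ∈ s
  · rw [if_pos hl]
    obtain ⟨t, hlt, rfl⟩ : ∃ t, l ∉ t ∧ s = insert l t :=
      ⟨s.erase l, Finset.notMem_erase _ _, (Finset.insert_erase hl).symm⟩
    rw [Finset.erase_insert hlt]
    have hc : tᶜ = insert l (insert l t)ᶜ := by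
      ext m; by_cases hm : m = l <;> simp [hm, hlt]
    rw [hc, Finset.sum_insert (by simp), smul_add, smul_smul (ksign l t) (ksign l t), ksign_sq_eq_one,
      one_smul, add_left_comm, add_eq_left, Finset.smul_sum, ← Finset.sum_add_distrib]
    refine Finset.sum_eq_zero fun m hm => ?_
    simp only [mem_compl, mem_insert, not_or] at hm
    rw [if_pos (by simp), show (insert m (insert l t)).erase l = insert m t by
      rw [Finset.insert_comm, Finset.erase_insert (by simp [Ne.symm hm.1, hlt])]]
    simp only [smul_comm (y m) (ksign l (insert m t)), smul_smul, ← add_smul]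
    rw [show ksign m (insert l t) * ksign l (insert m t) + ksign l t * ksign m t = 0 by
      have h1 := ksign_insert_mul t (Ne.symm hm.1) hlt hm.2
      have h2 := ksign_sq_eq_one l t
      have h3 := ksign_sq_eq_one m t
      have h4 := ksign_sq_eq_one m (insert l t)
      linear_combination (ksign m (insert l t) * ksign m t) * h1 -
        ksign m (insert l t) * ksign l (insert m t) * h3 -
        ksign l t * ksign m t * h4]
    simp
  · rw [if_neg hl, add_zero, Finset.sum_eq_single l]
    · rw [if_pos (by simp), Finset.erase_insert hl, smul_comm (y l) (ksign l s), smul_smul,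
        ksign_sq_eq_one, one_smul]
    · intro m _ hm
      rw [if_neg (by simp [hl, Ne.symm hm]), smul_zero, smul_zero]
    · simp [hl]

lemma kd_natural (g : M →ₗ[S] M') (f : Finset (Fin d) → M) :
    kd y M' (fun s => g (f s)) = fun s => g (kd y M f s) := by
  funext s
  simp [kd_apply, map_sum, map_zsmul]

lemma kd_mem_kchain {p : ℕ} {f : Finset (Fin d) → M} (hf : f ∈ kchain S d M (p + 1)) :
    kd y M f ∈ kchain S d M p := by
  intro s hs
  rw [kd_apply]
  refine Finset.sum_eq_zero fun l hl => ?_
  rw [hf _ (by simp at hl; simp [card_insert_of_notMem hl, hs]), smul_zero, smul_zero]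

/-- The boundaries in cardinality `p`. -/
def kbd (M : Type*) [AddCommGroup M] [Module S M] (p : ℕ) : Submodule S (Finset (Fin d) → M) :=
  (kchain S d M (p + 1)).map (kd y M)

/-- The cycles in cardinality `p`. -/
def kcyc (M : Type*) [AddCommGroup M] [Module S M] (p : ℕ) : Submodule S (Finset (Fin d) → M) :=
  kchain S d M p ⊓ LinearMap.ker (kd y M)

/-- Composition with `g`, componentwise. -/
def kmap (d : ℕ) (g : M →ₗ[S] M') : (Finset (Fin d) → M) →ₗ[S] (Finset (Fin d) → M') :=
  g.compLeft _

@[simp] lemma kmap_apply (g : M →ₗ[S] M') (f : Finset (Fin d) → M) (s : Finset (Fin d)) :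
    kmap d g f s = g (f s) := rfl

lemma kd_kmap (g : M →ₗ[S] M') (f : Finset (Fin d) → M) :
    kd y M' (kmap d g f) = kmap d g (kd y M f) :=
  kd_natural y g f

lemma kmap_kchain_le (g : M →ₗ[S] M') (p : ℕ) :
    (kchain S d M p).map (kmap d g) ≤ kchain S d M' p := by
  rintro _ ⟨f, hf, rfl⟩ s hs
  simp [hf s hs]

lemma kmap_kbd_le (g : M →ₗ[S] M') (p : ℕ) : (kbd y M p).map (kmap d g) ≤ kbd y M' p := by
  rintro _ ⟨_, ⟨f, hf, rfl⟩, rfl⟩
  exact ⟨kmap d g f, kmap_kchain_le g _ (Submodule.mem_map_of_mem hf), kd_kmap y g f⟩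

lemma kmap_kcyc_le (g : M →ₗ[S] M') (p : ℕ) : (kcyc y M p).map (kmap d g) ≤ kcyc y M' p := by
  rintro _ ⟨f, ⟨hf, hf'⟩, rfl⟩
  refine ⟨kmap_kchain_le g _ (Submodule.mem_map_of_mem hf), ?_⟩
  rw [SetLike.mem_coe, LinearMap.mem_ker] at hf' ⊢
  rw [kd_kmap, hf', map_zero]

end Vale.Agent.P202
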