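import Vale.Agent.P202.InterfacesM8

/-!
GoalLWin, part 1: counts of the free cohomology at the levels of a window, for generators in
`[0, M]`: outside `lwNear` all generators sit in one degree, which decreases with the level.
-/

namespace Vale.Agent.P202.LW

open Finset

variable {d D m : ℕ}

/-- The threshold of the factor `l`. -/
def lwThr (D : ℕ) (a : Fin (d - 1) → ℤ) (l : Fin (d - 1)) : ℤ := D * (a l - d - 1)

/-- The degree of the free cohomology of a generator of weight `0` at the level `u`. -/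
def lwDeg (D : ℕ) (a : Fin (d - 1) → ℤ) (u : ℤ) : ℕ :=
  (univ.filter fun l => u ≤ lwThr D a l).card

/-- The levels where generators in `[0, M]` can have different degrees. -/
noncomputable def lwNearSet (D : ℕ) (a : Fin (d - 1) → ℤ) (M : ℕ) : Finset ℤ :=
  univ.biUnion fun l => Finset.Ioc (lwThr D a l) (lwThr D a l + M)

/-- The count at one level. -/
noncomputable def lev (D : ℕ) (a : Fin (d - 1) → ℤ) (g : Fin m → ℤ) (u r : ℤ) : ℕ :=
  (baseR D a g u r).card

/-- The count at one level of one generator of weight `0`. -/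
noncomputable def lev1 (D : ℕ) (a : Fin (d - 1) → ℤ) (u r : ℤ) : ℕ :=
  lev D a (fun _ : Fin 1 => (0 : ℤ)) u r

variable {a : Fin (d - 1) → ℤ} {g : Fin m → ℤ}

lemma lwDeg_anti {u v : ℤ} (h : u ≤ v) : lwDeg D a v ≤ lwDeg D a u :=
  Finset.card_le_card fun l hl => by
    simp only [Finset.mem_filter, mem_univ, true_and] at hl ⊢
    omega

lemma nNeg_eq (hD : 0 < D) {u : ℤ} {k : Fin m} (hk : (D : ℤ) ∣ g k - u) :
    nNeg D a g u k = lwDeg D a (u - g k) := by
  refine congrArg Finset.card (Finset.filter_congr fun l _ => ?_)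
  obtain ⟨s, hs⟩ := hk
  have e : sigOf D g u k = s := by
    rw [sigOf, hs, Int.mul_ediv_cancel_left _ (by omega)]
  have hD' : (0 : ℤ) < D := by omega
  rw [tOf, e, lwThr, show u - g k = (D : ℤ) * (-s) by linarith, mul_le_mul_iff_right₀ hD']
  omega

lemma lev_eq_sum (u r : ℤ) : lev D a g u r = ∑ k, lev1 D a (u - g k) r := by
  unfold lev lev1 lev
  rw [card_baseR]
  refine Finset.sum_congr rfl fun k _ => ?_
  have e : ∀ l, tOf D a (fun _ : Fin 1 => (0 : ℤ)) (u - g k) 0 l = tOf D a g u k l := fun l => by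
    simp only [tOf, sigOf]
    rw [show (0 : ℤ) - (u - g k) = g k - u by ring]
  have en : nNeg D a (fun _ : Fin 1 => (0 : ℤ)) (u - g k) 0 = nNeg D a g u k := by
    simp only [nNeg, e]
  rw [card_baseR, Fin.sum_univ_one, en]
  simp only [e, show (0 : ℤ) - (u - g k) = g k - u by ring]

variable {M : ℕ}

lemma lwDeg_sub {u x : ℤ} (hu : u ∉ lwNearSet D a M) (h0 : 0 ≤ x) (hM : x ≤ M) :
    lwDeg D a (u - x) = lwDeg D a u := by
  refine congrArg Finset.card (Finset.filter_congr fun l _ => ?_)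
  simp only [lwNearSet, Finset.mem_biUnion, mem_univ, true_and, Finset.mem_Ioc, not_exists] at hu
  have := hu l
  omega

lemma lev_eq_zero (hD : 0 < D) (hg : ∀ k, 0 ≤ g k ∧ g k ≤ M) {u r : ℤ}
    (hu : u ∉ lwNearSet D a M) (hr : (lwDeg D a u : ℤ) ≠ r) : lev D a g u r = 0 := by
  rw [lev, baseR_eq_empty fun k hk he => hr ?_, Finset.card_empty]
  rw [← he, nNeg_eq hD hk, lwDeg_sub hu (hg k).1 (hg k).2]

lemma card_lwNearSet_le : (lwNearSet D a M).card ≤ d * M := by
  refine Finset.card_biUnion_le.trans ?_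
  refine (Finset.sum_le_sum (g := fun _ => M) fun l _ => ?_).trans ?_
  · simp
  · simp only [Finset.sum_const, Finset.card_univ, Fintype.card_fin, smul_eq_mul]
    exact Nat.mul_le_mul_right _ (Nat.sub_le d 1)

/-- The bound for one generator at a level of size at most `W`. -/
def lwBox (d W : ℕ) : ℕ := (d + 2 * W + 2) ^ (d - 1)

lemma lev1_le (hD : 0 < D) {W : ℕ} (ha : ∀ l, (a l).natAbs ≤ W) {u : ℤ} (hu : u.natAbs ≤ W)
    (r : ℤ) : lev1 D a u r ≤ lwBox d W := by
  refine (card_baseR_le r (d + 2 * W + 2) fun k l => ?_).trans (le_of_eq (one_mul _))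
  refine (card_ivl_le hD k l).trans ?_
  have := ha l
  simp only [Int.natAbs_zero]
  omega

lemma lev_le (hD : 0 < D) {W : ℕ} (ha : ∀ l, (a l).natAbs ≤ W) {u : ℤ}
    (hg : ∀ k, (u - g k).natAbs ≤ W) (r : ℤ) : lev D a g u r ≤ m * lwBox d W := by
  rw [lev_eq_sum]
  exact (Finset.sum_le_sum fun k _ => lev1_le hD ha (hg k) r).trans (by simp)

/-- The levels in `lwNearSet` are few. -/
lemma near_sum_le (hD : 0 < D) {W : ℕ} (ha : ∀ l, (a l).natAbs ≤ W) {x y : ℤ}
    (hg : ∀ k, ∀ u ∈ Finset.Ico x y, (u - g k).natAbs ≤ W) (r : ℤ) :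
    ∑ u ∈ (Finset.Ico x y).filter (· ∈ lwNearSet D a M), lev D a g u r ≤
      d * M * (m * lwBox d W) := by
  refine (Finset.sum_le_sum (g := fun _ => m * lwBox d W) fun u hu => ?_).trans ?_
  · exact lev_le hD ha (fun k => hg k u (Finset.mem_filter.1 hu).1) r
  · rw [Finset.sum_const, smul_eq_mul]
    exact Nat.mul_le_mul_right _ ((Finset.card_le_card fun u hu =>
      (Finset.mem_filter.1 hu).2).trans card_lwNearSet_le)

/-- A translation by at most `M` hardly changes the sum over a window. -/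
lemma shift_sum {f : ℤ → ℕ} {B M : ℕ} {x y z : ℤ} (h0 : 0 ≤ z) (hM : z ≤ M)
    (hf : ∀ u, x - M ≤ u → u < y → f u ≤ B) :
    ∑ u ∈ Finset.Ico x y, f (u - z) ≤ (∑ u ∈ Finset.Ico x y, f u) + M * B ∧
      ∑ u ∈ Finset.Ico x y, f u ≤ (∑ u ∈ Finset.Ico x y, f (u - z)) + M * B := by
  have e : ∑ u ∈ Finset.Ico x y, f (u - z) = ∑ u ∈ Finset.Ico (x - z) (y - z), f u := by
    refine Finset.sum_nbij' (fun u => u - z) (fun u => u + z) ?_ ?_ ?_ ?_ ?_ <;> intro u hu <;>
      simp only [Finset.mem_Ico] at hu ⊢ <;> omega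
  rw [e]
  constructor
  · refine (Finset.sum_le_sum_of_subset (t := Finset.Ico (x - z) x ∩ Finset.Ico (x - z) y ∪
      Finset.Ico x y) ?_).trans ?_
    · intro u hu
      simp only [Finset.mem_union, Finset.mem_inter, Finset.mem_Ico] at hu ⊢
      omega
    rw [Finset.sum_union (Finset.disjoint_left.2 fun u h1 h2 => by
      simp only [Finset.mem_inter, Finset.mem_Ico] at h1 h2
      omega), add_comm]
    refine Nat.add_le_add_left ((Finset.sum_le_sum (g := fun _ => B) fun u hu => ?_).trans ?_) _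
    · simp only [Finset.mem_inter, Finset.mem_Ico] at hu
      exact hf u (by omega) hu.2.2
    · rw [Finset.sum_const, smul_eq_mul]
      refine Nat.mul_le_mul_right _ ((Finset.card_le_card Finset.inter_subset_left).trans ?_)
      rw [Int.card_Ico]
      omega
  · refine (Finset.sum_le_sum_of_subset (t := Finset.Ico (y - z) y ∩ Finset.Ico x y ∪
      Finset.Ico (x - z) (y - z)) ?_).trans ?_
    · intro u hu
      simp only [Finset.mem_union, Finset.mem_inter, Finset.mem_Ico] at hu ⊢
      omega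
    rw [Finset.sum_union (Finset.disjoint_left.2 fun u h1 h2 => by
      simp only [Finset.mem_inter, Finset.mem_Ico] at h1 h2
      omega), add_comm]
    refine Nat.add_le_add_left ((Finset.sum_le_sum (g := fun _ => B) fun u hu => ?_).trans ?_) _
    · simp only [Finset.mem_inter, Finset.mem_Ico] at hu
      exact hf u (by omega) hu.1.2
    · rw [Finset.sum_const, smul_eq_mul]
      refine Nat.mul_le_mul_right _ ((Finset.card_le_card Finset.inter_subset_left).trans ?_)
      rw [Int.card_Ico]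
      omega

/-- Generators in `[0, M]` count as generators of weight `0`, up to the boundary. -/
lemma sum_lev_approx (hD : 0 < D) {W : ℕ} (ha : ∀ l, (a l).natAbs ≤ W)
    (hg : ∀ k, 0 ≤ g k ∧ g k ≤ M) {x y : ℤ}
    (hW : ∀ u, x - M ≤ u → u < y → u.natAbs ≤ W) (r : ℤ) :
    ∑ u ∈ Finset.Ico x y, lev D a g u r ≤
        m * (∑ u ∈ Finset.Ico x y, lev1 D a u r) + m * (M * lwBox d W) ∧
      m * (∑ u ∈ Finset.Ico x y, lev1 D a u r) ≤
        (∑ u ∈ Finset.Ico x y, lev D a g u r) + m * (M * lwBox d W) := by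
  have hf : ∀ u, x - M ≤ u → u < y → lev1 D a u r ≤ lwBox d W := fun u h1 h2 =>
    lev1_le hD ha (hW u h1 h2) r
  have hs := fun k => shift_sum (f := fun u => lev1 D a u r) (hg k).1 (hg k).2 hf
  simp only [lev_eq_sum]
  rw [Finset.sum_comm]
  constructor
  · refine (Finset.sum_le_sum fun k _ => (hs k).1).trans (le_of_eq ?_)
    simp [mul_add]
  · have h := Finset.sum_le_sum (s := (Finset.univ : Finset (Fin m))) fun k _ => (hs k).2
    simpa [Finset.sum_add_distrib] using h

end Vale.Agent.P202.LW
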