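import Vale.Agent.P202.InterfacesR
import Vale.Agent.P202.M7Calc

/-!
GoalLWin, part 2: windows of levels of a filtered complex. The connecting maps between the levels
of a window are small when, outside a small set of levels, the cohomology of a level sits in one
degree which decreases with the level; then multiplication by a scalar shifting the levels has at
least the rank it has on the levels.
-/

universe u

namespace Vale.Agent.P202.LW

open Finset M7

variable {S : Type u} [CommRing S]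

section len

variable {X Y Z : Type u} [AddCommGroup X] [Module S X] [AddCommGroup Y] [Module S Y]
  [AddCommGroup Z] [Module S Z]

/-- The length of the image. -/
noncomputable def lrk (f : X →ₗ[S] Y) : ℕ := len S ↥(LinearMap.range f)

lemma len_ker_add [IsNoetherian S X] [IsArtinian S X] (f : X →ₗ[S] Y) :
    len S X = len S ↥(LinearMap.ker f) + lrk f := by
  rw [lrk, ← len_top (X := X), len_split f ⊤, top_inf_eq, Submodule.map_top, add_comm]

lemma len_ker_eq {f : X →ₗ[S] Y} {g : Y →ₗ[S] Z} (h : Function.Exact f g) :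
    len S ↥(LinearMap.ker g) = lrk f := by
  rw [lrk, LinearMap.exact_iff.1 h]

lemma lrk_le [IsNoetherian S X] [IsArtinian S X] (f : X →ₗ[S] Y) : lrk f ≤ len S X := by
  rw [len_ker_add f]; omega

lemma lrk_le_target [IsNoetherian S Y] [IsArtinian S Y] (f : X →ₗ[S] Y) : lrk f ≤ len S Y :=
  (len_mono le_top).trans (le_of_eq len_top)

lemma finite_of_exact {f : X →ₗ[S] Y} {g : Y →ₗ[S] Z} (h : Function.Exact f g)
    (hX : Module.length S X ≠ ⊤) (hZ : Module.length S Z ≠ ⊤) : Module.length S Y ≠ ⊤ := by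
  have h1 : Module.length S Y =
      Module.length S ↥(LinearMap.ker g) + Module.length S ↥(LinearMap.range g) :=
    Module.length_eq_add_of_exact (LinearMap.ker g).subtype g.rangeRestrict
      (Submodule.injective_subtype _) g.surjective_rangeRestrict
      (LinearMap.exact_iff.2 (by rw [LinearMap.ker_rangeRestrict, Submodule.range_subtype]))
  rw [h1, LinearMap.exact_iff.1 h]
  exact WithTop.add_ne_top.2
    ⟨ne_top_of_le_ne_top hX (Module.length_le_of_surjective _ f.surjective_rangeRestrict),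
      ne_top_of_le_ne_top hZ (Module.length_le_of_injective _ (Submodule.injective_subtype _))⟩

end len

variable {A : Type u} [AddCommGroup A] [Module S A] {δ : A →ₗ[S] A} {P Gt : ℤ → Submodule S A}

/-- A complex filtered by levels. -/
structure WinCtx (δ : A →ₗ[S] A) (P Gt : ℤ → Submodule S A) : Prop where
  sq : δ ∘ₗ δ = 0
  anti : Antitone Gt
  stable : ∀ j, IsStable δ (lvl P Gt j)
  fin : ∀ u r, Module.length S (winH δ P Gt u (u + 1) r) ≠ ⊤

/-- The length of the cohomology of one level. -/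
noncomputable def lvLen (δ : A →ₗ[S] A) (P Gt : ℤ → Submodule S A) (u r : ℤ) : ℕ :=
  len S (winH δ P Gt u (u + 1) r)

/-- The total length of the levels of the exceptional set. -/
noncomputable def nearLen (δ : A →ₗ[S] A) (P Gt : ℤ → Submodule S A) (Nr : Finset ℤ) (a c r : ℤ) :
    ℕ :=
  ∑ u ∈ (Ico a c).filter (· ∈ Nr), lvLen δ P Gt u r

variable (h : WinCtx δ P Gt)
include h

lemma lvl_le {i j : ℤ} (hij : i ≤ j) (r : ℤ) : lvl P Gt j r ≤ lvl P Gt i r :=
  inf_le_inf_right _ (h.anti hij)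

/-- `[v, c) → [a, c)`. -/
def winI {a v : ℤ} (hav : a ≤ v) (c r : ℤ) : winH δ P Gt v c r →ₗ[S] winH δ P Gt a c r :=
  hinc (δ := δ) (Q := lvl P Gt c) (lvl_le h hav) r

/-- `[a, c) → [a, v)`. -/
def winP {v c : ℤ} (hvc : v ≤ c) (a r : ℤ) : winH δ P Gt a c r →ₗ[S] winH δ P Gt a v r :=
  hproj (δ := δ) (O := lvl P Gt a) (lvl_le h hvc) r

/-- The connecting map from `[a, v)` to `[v, c)`. -/
def winC (a v c r : ℤ) : winH δ P Gt a v r →ₗ[S] winH δ P Gt v c (r + 1) :=
  hconn (Q := lvl P Gt c) (O := lvl P Gt a) h.sq (h.stable v) r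

lemma exact_IP {a v c : ℤ} (hav : a ≤ v) (hvc : v ≤ c) (r : ℤ) :
    Function.Exact (winI h hav c r) (winP h hvc a r) :=
  exact_hinc_hproj (lvl_le h hvc) (lvl_le h hav) h.sq r

lemma exact_PC {a v c : ℤ} (hav : a ≤ v) (hvc : v ≤ c) (r : ℤ) :
    Function.Exact (winP h hvc a r) (winC h a v c r) :=
  exact_hproj_hconn (lvl_le h hvc) (lvl_le h hav) h.sq (h.stable v) r

lemma exact_CI {a v c : ℤ} (hav : a ≤ v) (hvc : v ≤ c) (r : ℤ) :
    Function.Exact (winC h a v c r) (winI h hav c (r + 1)) :=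
  exact_hconn_hinc (lvl_le h hav) h.sq (h.stable v) (lvl_le h hvc) r

omit h in
lemma win_self (a r : ℤ) : Subsingleton (winH δ P Gt a a r) :=
  hmod_subsingleton fun _ hx => Submodule.mem_sup_right hx.1

lemma win_finite (a c r : ℤ) (hac : a ≤ c) : Module.length S (winH δ P Gt a c r) ≠ ⊤ := by
  obtain ⟨n, rfl⟩ : ∃ n : ℕ, c = a + n := ⟨(c - a).toNat, by omega⟩
  clear hac
  induction n generalizing r with
  | zero =>
    rw [Nat.cast_zero, add_zero]
    have := win_self (δ := δ) (P := P) (Gt := Gt) a r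
    rw [Module.length_eq_zero]
    exact ENat.zero_ne_top
  | succ n ih =>
    rw [Nat.cast_succ, ← add_assoc]
    exact finite_of_exact (exact_IP h (a := a) (v := a + n) (c := a + n + 1) (by omega) (by omega) r)
      (h.fin _ r) (ih r)

lemma win_noeth {a c : ℤ} (hac : a ≤ c) (r : ℤ) : IsNoetherian S (winH δ P Gt a c r) :=
  (isFiniteLength_iff_isNoetherian_isArtinian.1
    (Module.length_ne_top_iff.1 (win_finite h a c r hac))).1

lemma win_art {a c : ℤ} (hac : a ≤ c) (r : ℤ) : IsArtinian S (winH δ P Gt a c r) :=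
  (isFiniteLength_iff_isNoetherian_isArtinian.1
    (Module.length_ne_top_iff.1 (win_finite h a c r hac))).2

/-- Adding a level at the top. -/
lemma len_step_top {a v : ℤ} (hav : a ≤ v) (r : ℤ) :
    len S (winH δ P Gt a (v + 1) r) + lrk (winC h a v (v + 1) r) ≤
      len S (winH δ P Gt a v r) + lvLen δ P Gt v r := by
  have := win_noeth h (show a ≤ v + 1 by omega) r
  have := win_art h (show a ≤ v + 1 by omega) r
  have := win_noeth h hav r
  have := win_art h hav r
  have := win_noeth h (show v ≤ v + 1 by omega) r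
  have := win_art h (show v ≤ v + 1 by omega) r
  have e1 := len_ker_add (winP h (show v ≤ v + 1 by omega) a r)
  rw [len_ker_eq (exact_IP h hav (show v ≤ v + 1 by omega) r)] at e1
  have e2 := len_ker_add (winC h a v (v + 1) r)
  rw [len_ker_eq (exact_PC h hav (show v ≤ v + 1 by omega) r)] at e2
  have e3 := lrk_le (winI h hav (v + 1) r)
  unfold lvLen
  omega

/-- Adding a level at the bottom. -/
lemma len_step_bot {v c : ℤ} (hvc : v + 1 ≤ c) (r : ℤ) :
    len S (winH δ P Gt v c (r + 1)) + lrk (winC h v (v + 1) c r) ≤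
      len S (winH δ P Gt (v + 1) c (r + 1)) + lvLen δ P Gt v (r + 1) := by
  have hv : v ≤ v + 1 := by omega
  have := win_noeth h (hv.trans hvc) (r + 1)
  have := win_art h (hv.trans hvc) (r + 1)
  have := win_noeth h hvc (r + 1)
  have := win_art h hvc (r + 1)
  have := win_noeth h hv (r + 1)
  have := win_art h hv (r + 1)
  have e1 := len_ker_add (winP h hvc v (r + 1))
  rw [len_ker_eq (exact_IP h hv hvc (r + 1))] at e1
  have e2 := len_ker_add (winI h hv c (r + 1))
  rw [len_ker_eq (exact_CI h hv hvc r)] at e2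
  have e3 := lrk_le_target (winP h hvc v (r + 1))
  unfold lvLen
  omega

/-- The connecting ranks are paid by the levels, from below. -/
lemma sum_low {a v : ℤ} (hav : a ≤ v) (r : ℤ) :
    len S (winH δ P Gt a v r) + ∑ w ∈ Ico a v, lrk (winC h a w (w + 1) r) ≤
      ∑ w ∈ Ico a v, lvLen δ P Gt w r := by
  obtain ⟨n, rfl⟩ : ∃ n : ℕ, v = a + n := ⟨(v - a).toNat, by omega⟩
  clear hav
  induction n with
  | zero =>
    rw [Nat.cast_zero, add_zero]
    have := win_self (δ := δ) (P := P) (Gt := Gt) a r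
    simp [len, Module.length_eq_zero]
  | succ n ih =>
    rw [Nat.cast_succ, ← add_assoc, ← Finset.insert_Ico_right_eq_Ico_add_one (by omega),
      Finset.sum_insert (by simp), Finset.sum_insert (by simp)]
    have := len_step_top h (show a ≤ a + n by omega) r
    omega

/-- The connecting ranks are paid by the levels, from above. -/
lemma sum_high {v c : ℤ} (hvc : v ≤ c) (r : ℤ) :
    len S (winH δ P Gt v c (r + 1)) + ∑ w ∈ Ico v c, lrk (winC h w (w + 1) c r) ≤
      ∑ w ∈ Ico v c, lvLen δ P Gt w (r + 1) := by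
  obtain ⟨n, rfl⟩ : ∃ n : ℕ, v = c - n := ⟨(c - v).toNat, by omega⟩
  clear hvc
  induction n with
  | zero =>
    rw [Nat.cast_zero, sub_zero]
    have := win_self (δ := δ) (P := P) (Gt := Gt) c (r + 1)
    simp [len, Module.length_eq_zero]
  | succ n ih =>
    have e : c - ((n + 1 : ℕ) : ℤ) + 1 = c - n := by push_cast; ring
    rw [← Finset.insert_Ico_add_one_left_eq_Ico (show c - ((n + 1 : ℕ) : ℤ) < c by omega),
      Finset.sum_insert (by simp), Finset.sum_insert (by simp)]
    have := len_step_bot h (v := c - ((n + 1 : ℕ) : ℤ)) (c := c) (by omega) r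
    rw [e] at this ⊢
    omega

section degree

variable {Nr : Finset ℤ} {R : ℤ → ℕ} (hR : ∀ u v, u ≤ v → R v ≤ R u) {a c : ℤ}
  (hdeg : ∀ u r, a ≤ u → u < c → u ∉ Nr → (R u : ℤ) ≠ r → lvLen δ P Gt u r = 0)
include hR hdeg

lemma conn_low (r : ℤ) :
    ∑ w ∈ Ico a c, lrk (winC h a w (w + 1) r) ≤ (nearLen δ P Gt Nr a c r) + (nearLen δ P Gt Nr a c (r + 1)) := by
  have hle : ∀ w, lrk (winC h a w (w + 1) r) ≤ lvLen δ P Gt w (r + 1) := fun w => by
    have := win_noeth h (show w ≤ w + 1 by omega) (r + 1)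
    have := win_art h (show w ≤ w + 1 by omega) (r + 1)
    exact lrk_le_target _
  set T := (Ico a c).filter fun w => w ∉ Nr ∧ (R w : ℤ) = r + 1 with hT
  have hout : ∀ w ∈ Ico a c, w ∉ T → w ∉ Nr → lrk (winC h a w (w + 1) r) = 0 := by
    intro w hw hwT hwN
    refine Nat.le_zero.1 ((hle w).trans (le_of_eq (hdeg w _ (Finset.mem_Ico.1 hw).1
      (Finset.mem_Ico.1 hw).2 hwN fun e => hwT (Finset.mem_filter.2 ⟨hw, hwN, e⟩))))
  have hsplit : ∑ w ∈ Ico a c, lrk (winC h a w (w + 1) r) ≤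
      (∑ w ∈ T, lrk (winC h a w (w + 1) r)) + (nearLen δ P Gt Nr a c (r + 1)) := by
    rw [← Finset.sum_filter_add_sum_filter_not (Ico a c) (· ∈ Nr), add_comm]
    refine Nat.add_le_add (le_of_eq (Finset.sum_subset ?_ ?_).symm)
      (Finset.sum_le_sum fun w _ => hle w)
    · intro w hw
      exact Finset.mem_filter.2 ⟨(Finset.mem_filter.1 hw).1, (Finset.mem_filter.1 hw).2.1⟩
    · intro w hw hwT
      exact hout w (Finset.mem_filter.1 hw).1 hwT (Finset.mem_filter.1 hw).2
  refine hsplit.trans (Nat.add_le_add_right ?_ _)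
  rcases T.eq_empty_or_nonempty with he | he
  · rw [he]; simp
  obtain ⟨v, hv, hmax⟩ := Finset.exists_max_image T id he
  obtain ⟨hvI, -, hvR⟩ := Finset.mem_filter.1 hv
  rw [Finset.mem_Ico] at hvI
  have h1 := sum_low h (show a ≤ v + 1 by omega) r
  refine le_trans (le_trans (Finset.sum_le_sum_of_subset fun w hw => Finset.mem_Ico.2
    ⟨(Finset.mem_Ico.1 (Finset.mem_filter.1 hw).1).1, Int.lt_add_one_iff.2 (hmax w hw)⟩)
    (le_trans (Nat.le_add_left _ _) h1)) ?_
  rw [← Finset.sum_filter_add_sum_filter_not (Ico a (v + 1)) (· ∈ Nr)]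
  rw [Finset.sum_eq_zero (s := (Ico a (v + 1)).filter (· ∉ Nr)) fun w hw => ?_, add_zero]
  · exact Finset.sum_le_sum_of_subset
      (Finset.filter_subset_filter _ (Finset.Ico_subset_Ico_right (by omega)))
  · obtain ⟨hwI, hwN⟩ := Finset.mem_filter.1 hw
    rw [Finset.mem_Ico] at hwI
    refine hdeg w r hwI.1 (by omega) hwN ?_
    have := hR w v (by omega)
    omega

lemma conn_high (r : ℤ) :
    ∑ w ∈ Ico a c, lrk (winC h w (w + 1) c r) ≤ (nearLen δ P Gt Nr a c r) + (nearLen δ P Gt Nr a c (r + 1)) := by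
  have hle : ∀ w, lrk (winC h w (w + 1) c r) ≤ lvLen δ P Gt w r := fun w => by
    have := win_noeth h (show w ≤ w + 1 by omega) r
    have := win_art h (show w ≤ w + 1 by omega) r
    exact lrk_le _
  set T := (Ico a c).filter fun w => w ∉ Nr ∧ (R w : ℤ) = r with hT
  have hout : ∀ w ∈ Ico a c, w ∉ T → w ∉ Nr → lrk (winC h w (w + 1) c r) = 0 := by
    intro w hw hwT hwN
    refine Nat.le_zero.1 ((hle w).trans (le_of_eq (hdeg w _ (Finset.mem_Ico.1 hw).1
      (Finset.mem_Ico.1 hw).2 hwN fun e => hwT (Finset.mem_filter.2 ⟨hw, hwN, e⟩))))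
  have hsplit : ∑ w ∈ Ico a c, lrk (winC h w (w + 1) c r) ≤
      (nearLen δ P Gt Nr a c r) + ∑ w ∈ T, lrk (winC h w (w + 1) c r) := by
    rw [← Finset.sum_filter_add_sum_filter_not (Ico a c) (· ∈ Nr)]
    refine Nat.add_le_add (Finset.sum_le_sum fun w _ => hle w)
      (le_of_eq (Finset.sum_subset ?_ ?_).symm)
    · intro w hw
      exact Finset.mem_filter.2 ⟨(Finset.mem_filter.1 hw).1, (Finset.mem_filter.1 hw).2.1⟩
    · intro w hw hwT
      exact hout w (Finset.mem_filter.1 hw).1 hwT (Finset.mem_filter.1 hw).2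
  refine hsplit.trans (Nat.add_le_add_left ?_ _)
  rcases T.eq_empty_or_nonempty with he | he
  · rw [he]; simp
  obtain ⟨v, hv, hmin⟩ := Finset.exists_min_image T id he
  obtain ⟨hvI, -, hvR⟩ := Finset.mem_filter.1 hv
  rw [Finset.mem_Ico] at hvI
  have h1 := sum_high h (show v ≤ c by omega) r
  refine le_trans (le_trans (Finset.sum_le_sum_of_subset fun w hw => Finset.mem_Ico.2
    ⟨hmin w hw, (Finset.mem_Ico.1 (Finset.mem_filter.1 hw).1).2⟩)
    (le_trans (Nat.le_add_left _ _) h1)) ?_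
  rw [← Finset.sum_filter_add_sum_filter_not (Ico v c) (· ∈ Nr)]
  rw [Finset.sum_eq_zero (s := (Ico v c).filter (· ∉ Nr)) fun w hw => ?_, add_zero]
  · exact Finset.sum_le_sum_of_subset
      (Finset.filter_subset_filter _ (Finset.Ico_subset_Ico_left (by omega)))
  · obtain ⟨hwI, hwN⟩ := Finset.mem_filter.1 hw
    rw [Finset.mem_Ico] at hwI
    refine hdeg w _ (by omega) hwI.2 hwN ?_
    have := hR v w (by omega)
    omega

end degree

/-- Multiplication by `z`, raising the levels by `δz`, between two windows. -/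
def zMap {z : S} {δz : ℤ} (hz : ∀ j, ∀ v ∈ Gt j, z • v ∈ Gt (j + δz)) (a c r : ℤ) :
    winH δ P Gt a c r →ₗ[S] winH δ P Gt (a + δz) (c + δz) r :=
  hmap (δ := δ) (δ' := δ) (P := lvl P Gt a) (Q := lvl P Gt c) (P' := lvl P Gt (a + δz))
    (Q' := lvl P Gt (c + δz)) (z • LinearMap.id)
    (fun r _ hv => ⟨hz _ _ hv.1, (P r).smul_mem z hv.2⟩)
    (fun r _ hv => ⟨hz _ _ hv.1, (P r).smul_mem z hv.2⟩) (fun _ v _ => by simp) r

omit h in
lemma zMap_hmk {z : S} {δz : ℤ} (hz : ∀ j, ∀ v ∈ Gt j, z • v ∈ Gt (j + δz)) (a c r : ℤ)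
    (x : ↥(hcyc δ (lvl P Gt a) (lvl P Gt c) r))
    (hx : z • x.1 ∈ hcyc δ (lvl P Gt (a + δz)) (lvl P Gt (c + δz)) r) :
    zMap hz a c r (hmk _ _ _ r x) = hmk _ _ _ r ⟨z • x.1, hx⟩ := rfl

/-- The rank of multiplication by `z` from one level to the level `δz` higher. -/
noncomputable def zRank {z : S} {δz : ℤ} (hz : ∀ j, ∀ v ∈ Gt j, z • v ∈ Gt (j + δz)) (v r : ℤ) :
    ℕ :=
  lrk (zMap (δ := δ) (P := P) hz v (v + 1) r)

variable {z : S} {δz : ℕ} (hz : ∀ j, ∀ v ∈ Gt j, z • v ∈ Gt (j + δz))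
include hz

lemma rank_step {a v c : ℤ} (hav : a ≤ v) (hvc : v + 1 + (δz : ℤ) ≤ c) (r : ℤ) :
    len S ↥((LinearMap.range (winI h (show a ≤ v + 1 by omega) c (r + 1))).map
        (z • LinearMap.id)) + zRank (δ := δ) (P := P) hz v (r + 1) ≤
      len S ↥((LinearMap.range (winI h hav c (r + 1))).map (z • LinearMap.id)) +
        lrk (winC h v (v + 1) c (r + 1)) + lrk (winC h a (v + δz) (v + δz + 1) r) := by
  have hv : v ≤ v + 1 := by omega
  have hvc' : v + 1 ≤ c := by omega
  have ha' : a ≤ v + δz := by omega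
  have hvd : v + (δz : ℤ) + 1 ≤ c := by omega
  have := win_noeth h (show a ≤ c by omega) (r + 1)
  have := win_art h (show a ≤ c by omega) (r + 1)
  have := win_noeth h hv (r + 1)
  have := win_art h hv (r + 1)
  have := win_noeth h (show v ≤ c by omega) (r + 1)
  have := win_art h (show v ≤ c by omega) (r + 1)
  have := win_noeth h (show v + (δz : ℤ) ≤ v + δz + 1 by omega) (r + 1)
  have := win_art h (show v + (δz : ℤ) ≤ v + δz + 1 by omega) (r + 1)
  have := win_noeth h (show v + (δz : ℤ) ≤ v + 1 + δz by omega) (r + 1)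
  have := win_art h (show v + (δz : ℤ) ≤ v + 1 + δz by omega) (r + 1)
  set g : winH δ P Gt a c (r + 1) →ₗ[S] winH δ P Gt a c (r + 1) := z • LinearMap.id with hg
  set π := winP h hvd a (r + 1) with hπ
  set N₀ := (LinearMap.range (winI h (show a ≤ v + 1 by omega) c (r + 1))).map g with hN₀
  set N₁ := (LinearMap.range (winI h hav c (r + 1))).map g with hN₁
  have hle : N₀ ≤ N₁ := by
    refine Submodule.map_mono ?_
    rintro _ ⟨x, rfl⟩
    obtain ⟨⟨x, hx⟩, rfl⟩ := hmk_surjective δ (lvl P Gt (v + 1)) (lvl P Gt c) (r + 1) x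
    exact ⟨hmk _ _ _ (r + 1) ⟨x, lvl_le h hv _ hx.1, hx.2⟩, rfl⟩
  have hker : N₀ ≤ LinearMap.ker π := by
    rintro _ ⟨_, ⟨x, rfl⟩, rfl⟩
    obtain ⟨⟨x, hx⟩, rfl⟩ := hmk_surjective δ (lvl P Gt (v + 1)) (lvl P Gt c) (r + 1) x
    refine LinearMap.mem_ker.2 (hmk_eq_zero.2 (Submodule.mem_sup_right ?_))
    refine ⟨?_, (P (r + 1)).smul_mem z hx.1.2⟩
    have := hz (v + 1) x hx.1.1
    rwa [show v + 1 + (δz : ℤ) = v + δz + 1 by ring] at this
  have e1 : len S N₀ + len S ↥(N₁.map π) ≤ len S N₁ := by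
    have h1 := len_split π N₁
    have h2 : len S N₀ ≤ len S ↥(N₁ ⊓ LinearMap.ker π) := len_mono (le_inf hle hker)
    omega
  have hmain : ∀ w, w = v + (δz : ℤ) + 1 → ∀ hw : v + (δz : ℤ) ≤ w, ∀ hwc : w ≤ c,
      ∀ (hw1 : v + 1 + (δz : ℤ) = w),
      zRank (δ := δ) (P := P) hz v (r + 1) ≤ len S ↥(N₁.map (winP h hwc a (r + 1))) +
        lrk (winC h v (v + 1) c (r + 1)) + lrk (winC h a (v + δz) w r) := by
    rintro w - hw hwc rfl
    set Lz := zMap (δ := δ) (P := P) hz v (v + 1) (r + 1) with hLz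
    set pr := winP h hvc' v (r + 1) with hpr
    set ic := winI h ha' (v + 1 + δz) (r + 1) with hic
    have e2 : N₁.map (winP h hwc a (r + 1)) = ((LinearMap.range pr).map Lz).map ic := by
      rw [hN₁, ← LinearMap.range_comp, ← LinearMap.range_comp, ← LinearMap.range_comp,
        ← LinearMap.range_comp]
      congr 1
      refine LinearMap.ext fun x => ?_
      obtain ⟨⟨x, hx⟩, rfl⟩ := hmk_surjective δ (lvl P Gt v) (lvl P Gt c) (r + 1) x
      rfl
    have h1 := len_split ic ((LinearMap.range pr).map Lz)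
    have h2 : len S ↥((LinearMap.range pr).map Lz ⊓ LinearMap.ker ic) ≤
        lrk (winC h a (v + δz) (v + 1 + δz) r) :=
      (len_mono inf_le_right).trans (le_of_eq (len_ker_eq (exact_CI h ha' hw r)))
    have h3 := key Lz (le_top : LinearMap.range pr ≤ ⊤)
    rw [Submodule.map_top, len_top] at h3
    have h4 := len_ker_add (winC h v (v + 1) c (r + 1))
    rw [len_ker_eq (exact_PC h hv hvc' (r + 1))] at h4
    rw [e2]
    have eL : lrk Lz = zRank (δ := δ) (P := P) hz v (r + 1) := rfl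
    have ep : lrk pr = lrk (winP h hvc' v (r + 1)) := rfl
    unfold lrk at eL ep h2 h4 ⊢
    omega
  have := hmain (v + δz + 1) rfl (by omega) hvd (by ring)
  rw [hπ] at e1
  omega

omit hz in
/-- The length of a window is at most that of its levels. -/
lemma len_le_sum {a c : ℤ} (hac : a ≤ c) (r : ℤ) :
    len S (winH δ P Gt a c r) ≤ ∑ w ∈ Ico a c, lvLen δ P Gt w r :=
  (Nat.le_add_right _ _).trans (sum_low h hac r)

lemma rank_sum {a v c : ℤ} (hav : a ≤ v) (hvc : v ≤ c) (r : ℤ) :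
    ∑ w ∈ Ico v (c - δz), zRank (δ := δ) (P := P) hz w (r + 1) ≤
      len S ↥((LinearMap.range (winI h hav c (r + 1))).map (z • LinearMap.id)) +
        ∑ w ∈ Ico v (c - δz), (lrk (winC h w (w + 1) c (r + 1)) +
          lrk (winC h a (w + δz) (w + δz + 1) r)) := by
  rcases lt_or_ge v (c - δz) with hlt | hge
  · obtain ⟨n, hn⟩ : ∃ n : ℕ, v = c - δz - n := ⟨(c - δz - v).toNat, by omega⟩
    clear hlt
    induction n generalizing v with
    | zero => rw [Finset.Ico_eq_empty (by omega)]; simp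
    | succ n ih =>
      have h1 := ih (v := v + 1) (by omega) (by omega) (by push_cast at hn; omega)
      have h2 := rank_step h hz hav (show v + 1 + (δz : ℤ) ≤ c by omega) r
      rw [← Finset.insert_Ico_add_one_left_eq_Ico (show v < c - δz by omega),
        Finset.sum_insert (by simp), Finset.sum_insert (by simp)]
      omega
  · rw [Finset.Ico_eq_empty (by omega)]; simp

/-- The lower bound for the rank of `z` on a window. -/
theorem rank_window {Nr : Finset ℤ} {R : ℤ → ℕ} (hR : ∀ u v, u ≤ v → R v ≤ R u) {a c : ℤ}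
    (hac : a ≤ c)
    (hdeg : ∀ u r, a ≤ u → u < c → u ∉ Nr → (R u : ℤ) ≠ r → lvLen δ P Gt u r = 0) (r : ℤ) :
    ∑ w ∈ Ico a (c - δz), zRank (δ := δ) (P := P) hz w r ≤
      rkD (z • LinearMap.id : winH δ P Gt a c r →ₗ[S] winH δ P Gt a c r) 1 +
        (nearLen δ P Gt Nr a c (r - 1) + 2 * nearLen δ P Gt Nr a c r +
          nearLen δ P Gt Nr a c (r + 1)) := by
  obtain ⟨r, rfl⟩ : ∃ r', r = r' + 1 := ⟨r - 1, by ring⟩
  have er : nearLen δ P Gt Nr a c (r + 1 - 1) = nearLen δ P Gt Nr a c r := by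
    congr 1
    ring
  rw [er]
  have := win_noeth h hac (r + 1)
  have := win_art h hac (r + 1)
  have h1 := rank_sum h hz (le_refl a) hac r
  have h2 : len S ↥((LinearMap.range (winI h (le_refl a) c (r + 1))).map
      (z • LinearMap.id : winH δ P Gt a c (r + 1) →ₗ[S] winH δ P Gt a c (r + 1))) ≤
      rkD (z • LinearMap.id : winH δ P Gt a c (r + 1) →ₗ[S] winH δ P Gt a c (r + 1)) 1 := by
    rw [rkD, pow_one]
    exact len_mono LinearMap.map_le_range
  have h3 : ∑ w ∈ Ico a (c - δz), lrk (winC h w (w + 1) c (r + 1)) ≤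
      nearLen δ P Gt Nr a c (r + 1) + nearLen δ P Gt Nr a c (r + 1 + 1) :=
    (Finset.sum_le_sum_of_subset (Finset.Ico_subset_Ico_right (by omega))).trans
      (conn_high h hR hdeg (r + 1))
  have h4 : ∑ w ∈ Ico a (c - δz), lrk (winC h a (w + δz) (w + δz + 1) r) ≤
      nearLen δ P Gt Nr a c r + nearLen δ P Gt Nr a c (r + 1) := by
    refine le_trans ?_ (conn_low h hR hdeg r)
    rw [← Finset.sum_image (f := fun w => lrk (winC h a w (w + 1) r))
      (g := fun w : ℤ => w + δz) (fun _ _ _ _ e => add_right_cancel e)]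
    refine Finset.sum_le_sum_of_subset fun w hw => ?_
    simp only [Finset.mem_image, Finset.mem_Ico] at hw ⊢
    omega
  rw [Finset.sum_add_distrib] at h1
  omega

end Vale.Agent.P202.LW
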