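import Vale.Agent.P202.LWDefs
import Vale.Agent.P202.LW1Count
import Vale.Agent.P202.LW2Window

/-!
The split of `GoalLWin`: what one level of `L` gives. Its length is the count of free cohomology, and
multiplication by `z` with initial form `P` has at least the rank which the maps of `GoalLWMinor`
leave.
-/

universe u

namespace Vale.Agent.P202

open IsLocalRing MvPolynomial

/-- The lengths of the levels and the ranks of multiplications between levels. -/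
def GoalLWLevel : Prop :=
  ∀ (d b : ℕ), 0 < d → 0 < b → ∃ Cb : ℕ,
  ∀ (p : ℕ) [Fact p.Prime] (R : Type u) [CommRing R] [IsLocalRing R] [IsNoetherianRing R]
    (k : Type u) [Field k] [CharP k p] [PerfectRing k p] (A : Type u) [CommRing A] [IsLocalRing A]
    [IsNoetherianRing A] [Algebra R A] [Algebra (WittVector p k) A] (xR : Fin d → R)
    (G : ℕ → Ideal A) (ι : ResidueField R →+* k) (e : ℝ),
    BandCtx p R A xR b G ι e → ∀ (CI : CIData p k A (fun l => algebraMap R A (xR l)) b G)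
    (i j K : ℕ) (B : Band p R CI ι i j K), B.Rich → 0 < K →
    ∀ res : B.L →+* B.κ, (∀ z, res z = 0 ↔ z ∈ B.Fil 1) → (∀ a : B.κ, res (B.lift (C a)) = a) →
    ∀ (N : ℕ) (γ : Fin N → Vr d CI.n →₀ ℕ), Function.Injective γ →
      (∀ v, (∃ t, γ t = v) ↔ IsStdExp (d := d) (fun w => B.mm * CI.deg w) v) →
    (∀ u r : ℤ, Module.length B.L (winH (phiD B.mulX) (phiDeg B.L B.L d) B.LamF u (u + 1) r) =
      (LW.lev b B.tw (fun t => (Finsupp.weight CI.wt (γ t) : ℤ)) u r : ℕ∞)) ∧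
    ∀ (δz : ℕ) (z : B.L) (P : MvPolynomial (Vr d CI.n) B.κ), IsWeightedHomogeneous CI.wt P δz →
      z - B.lift P ∈ B.Fil ((δz : ℤ) + 1) →
      ∀ (m' : ℕ) (g₁ : Fin m' → ℤ) (Am Tm : FreeMod B.κ m' d →ₗ[B.κ] FreeMod B.κ N d)
        (Bm : FreeMod B.κ N d →ₗ[B.κ] FreeMod B.κ m' d) (P' : MvPolynomial (Fin d) B.κ) (Δ : ℕ),
      (∀ o f, Am (xFree B.κ o f) = xFree B.κ o (Am f)) →
      (∀ o f, Tm (xFree B.κ o f) = xFree B.κ o (Tm f)) →
      (∀ o f, Bm (xFree B.κ o f) = xFree B.κ o (Bm f)) →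
      (∀ n, ∀ f ∈ freeFam B.κ (d := d) b g₁ n,
        Am f ∈ freeFam B.κ b (fun t => (Finsupp.weight CI.wt (γ t) : ℤ)) n) →
      (∀ n, ∀ f ∈ freeFam B.κ (d := d) b g₁ n,
        Tm f ∈ freeFam B.κ b (fun t => (Finsupp.weight CI.wt (γ t) : ℤ)) (n + δz)) →
      (∀ n, ∀ f ∈ freeFam B.κ (d := d) b (fun t => (Finsupp.weight CI.wt (γ t) : ℤ)) (n + δz),
        Bm f ∈ freeFam B.κ b g₁ (n + (b * Δ : ℕ))) →
      (∀ f, (P * nfPoly γ (Am f) - nfPoly γ (Tm f)).map B.κ.subtype ∈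
        Ideal.span (Set.range fun v => expand (p ^ (B.jq - j)) (rootPoly p j (CI.F v)))) →
      P' ≠ 0 → (∀ β ∈ P'.support, bdeg β = Δ) →
      (∀ f, Bm (Tm f) =
        pAct (X := fun o => (xFree B.κ o : FreeMod B.κ m' d →ₗ[B.κ] _)) xFree_comm P' f) →
      ∀ (hz : ∀ t, ∀ v ∈ B.LamF t, z • v ∈ B.LamF (t + δz)) (v r : ℤ) (L : ℕ), 1 ≤ L →
        (∀ l, (B.tw l).natAbs ≤ L) → (v + (b * Δ : ℕ)).natAbs ≤ L → (∀ i, (g₁ i).natAbs ≤ L) →
        Δ ≤ L →
        LW.lev b B.tw g₁ v r * L ≤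
          LW.zRank (δ := phiD B.mulX) (P := phiDeg B.L B.L d) hz v r * L +
            Cb * m' * Δ * L ^ (d - 1)

end Vale.Agent.P202
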