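import Vale.Agent.P202.LevelSym
import Vale.Agent.P202.PhiFam

/-!
GoalLWLevel, part 1: the symbols of chains of one level are compatible with the differential and
with multiplication by an element of given initial form.
-/

universe u

namespace Vale.Agent.P202

open IsLocalRing MvPolynomial

namespace LW

open LevelIso

variable {p : ℕ} [Fact p.Prime] {R : Type u} [CommRing R] [IsLocalRing R] {k : Type u} [Field k]
  [CharP k p] [PerfectRing k p] {A : Type u} [CommRing A] [Algebra R A]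
  [Algebra (WittVector p k) A] {d : ℕ} {x : Fin d → A} {b : ℕ} {G : ℕ → Ideal A}
  {CI : CIData p k A x b G} {ι : ResidueField R →+* k} {i j K N : ℕ}
  (B : Band p R CI ι i j K) {γ : Fin N → Vr d CI.n →₀ ℕ}

variable (γ) in
/-- A chain has the symbol `w` at the level `u`. -/
def PRel (u : ℤ) (f : PIdx d →₀ B.L) (w : PIdx d →₀ FreeMod B.κ N d) : Prop :=
  ∀ c : PIdx d, Rel B γ (u + (b : ℤ) * c.2.1) (f c) (w c)

lemma rel_zero (n : ℤ) : Rel B γ n 0 0 := (rel_zero_iff B).2 (zero_mem _)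

lemma rel_zsmul {n : ℤ} {z : B.L} {v : FreeMod B.κ N d} (h : Rel B γ n z v) :
    ∀ e : ℤ, Rel B γ n (e • z) (e • v) := by
  intro e
  induction e using Int.induction_on with
  | zero => simpa using rel_zero B n
  | succ e ih => simpa [add_smul] using ih.add B h
  | pred e ih =>
    rw [sub_smul, sub_smul, one_smul, one_smul, sub_eq_add_neg, sub_eq_add_neg]
    exact ih.add B (rel_neg B h)

lemma PRel.add {u : ℤ} {f f' : PIdx d →₀ B.L} {w w' : PIdx d →₀ FreeMod B.κ N d}
    (h : PRel B γ u f w) (h' : PRel B γ u f' w') : PRel B γ u (f + f') (w + w') := fun c => by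
  rw [Finsupp.add_apply, Finsupp.add_apply]
  exact (h c).add B (h' c)

lemma pRel_zero (u : ℤ) : PRel B γ u 0 0 := fun _ => rel_zero B _

lemma PRel.zsmul {u : ℤ} {f : PIdx d →₀ B.L} {w : PIdx d →₀ FreeMod B.κ N d}
    (h : PRel B γ u f w) (e : ℤ) : PRel B γ u (e • f) (e • w) := fun c => by
  rw [Finsupp.smul_apply, Finsupp.smul_apply]
  exact rel_zsmul B (h c) e

lemma PRel.sum {u : ℤ} {σ : Type*} (s : Finset σ) {f : σ → PIdx d →₀ B.L}
    {w : σ → PIdx d →₀ FreeMod B.κ N d} (h : ∀ t ∈ s, PRel B γ u (f t) (w t)) :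
    PRel B γ u (∑ t ∈ s, f t) (∑ t ∈ s, w t) := fun c => by
  rw [Finsupp.finsetSum_apply, Finsupp.finsetSum_apply]
  exact Rel.sum B s fun t ht => h t ht c

lemma pRel_single {u : ℤ} {c : PIdx d} {z : B.L} {v : FreeMod B.κ N d}
    (h : Rel B γ (u + (b : ℤ) * c.2.1) z v) :
    PRel B γ u (Finsupp.single c z) (Finsupp.single c v) := fun c' => by
  classical
  rw [Finsupp.single_apply, Finsupp.single_apply]
  split_ifs with e
  · exact e ▸ h
  · exact rel_zero B _

lemma PRel.sub {u : ℤ} {f f' : PIdx d →₀ B.L} {w w' : PIdx d →₀ FreeMod B.κ N d}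
    (h : PRel B γ u f w) (h' : PRel B γ u f' w') : PRel B γ u (f - f') (w - w') := by
  rw [sub_eq_add_neg, sub_eq_add_neg, ← neg_one_zsmul f', ← neg_one_zsmul w']
  exact h.add B (h'.zsmul B (-1))

/-- The symbol of the differential is the differential of the symbol. -/
lemma PRel.phiD {u : ℤ} {f : PIdx d →₀ B.L} {w : PIdx d →₀ FreeMod B.κ N d}
    (h : PRel B γ u f w) : PRel B γ u (phiD B.mulX f) (phiDF B.κ N d w) := by
  classical
  let s := f.support ∪ w.support
  have hf : f = ∑ c ∈ s, Finsupp.single c (f c) := by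
    conv_lhs => rw [← f.sum_single]
    exact Finsupp.sum_of_support_subset f Finset.subset_union_left _ fun _ _ => Finsupp.single_zero _
  have hw : w = ∑ c ∈ s, Finsupp.single c (w c) := by
    conv_lhs => rw [← w.sum_single]
    exact Finsupp.sum_of_support_subset w Finset.subset_union_right _ fun _ _ =>
      Finsupp.single_zero _
  rw [hf, hw, map_sum, map_sum]
  refine PRel.sum B s fun c _ => ?_
  obtain ⟨⟨J, C⟩, σ, e⟩ := c
  rw [phiDF, phiD_single, phiD_single]
  refine (PRel.sum B _ fun l _ => (pRel_single B ?_).zsmul B _).add B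
    ((PRel.sum B _ fun l _ => PRel.zsmul B ?_ _).zsmul B _)
  · exact h (((J, C), σ, e) : PIdx d)
  · rw [phiT_single, phiT_single]
    refine (pRel_single B ?_).sub B (PRel.sum B _ fun ε _ => pRel_single B ?_)
    · have := (h (((J, C), σ, e) : PIdx d)).mulX B l
      show Rel B γ (u + (b : ℤ) * (σ + 1)) _ _
      rw [mul_add, mul_one, ← add_assoc]
      exact this
    · exact h (((J, C), σ, e) : PIdx d)

/-- Multiplication by an element with initial form `P` acts on symbols as `P`. -/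
lemma rel_mul {δz : ℕ} {z : B.L} {P : MvPolynomial (Vr d CI.n) B.κ}
    (hP : IsWeightedHomogeneous CI.wt P δz) (hz : z - B.lift P ∈ B.Fil ((δz : ℤ) + 1)) {n : ℤ}
    {y : B.L} {v v' : FreeMod B.κ N d} (h : Rel B γ n y v)
    (hv' : v' ∈ freeFam B.κ b (gens γ) (n + δz))
    (hk : (P * nfPoly γ v - nfPoly γ v').map B.κ.subtype ∈ Ideal.span (Set.range fun e =>
      MvPolynomial.expand (p ^ (B.jq - j)) (rootPoly p j (CI.F e)))) :
    Rel B γ (n + δz) (z * y) v' := by
  refine ⟨hv', ?_⟩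
  rcases lt_or_ge (n + (δz : ℤ)) 0 with h1 | h1
  · rw [B.fil_top (n + δz + 1) (by omega)]; trivial
  obtain ⟨n', hn'⟩ := Int.eq_ofNat_of_zero_le h1
  rw [hn'] at hv' ⊢
  have hhom' := isHom_nfPoly B hv'
  have hzm : z ∈ B.Fil δz := by
    simpa using add_mem (B.anti (Int.le_add_one le_rfl) hz) (B.lift_mem δz _ hP)
  rcases lt_or_ge n 0 with hn | hn
  · rw [freeFam_eq_zero B hn h.1, map_zero, mul_zero, zero_sub, map_neg, neg_mem_iff] at hk
    refine sub_mem (B.anti ?_ (Ideal.mul_mem_right _ _ hzm)) ((B.lift_ker n' _ hhom').2 hk)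
    omega
  obtain ⟨m, rfl⟩ := Int.eq_ofNat_of_zero_le hn
  obtain rfl : n' = m + δz := by omega
  have hhom := isHom_nfPoly B h.1
  have hprod : IsWeightedHomogeneous CI.wt (P * nfPoly γ v) (m + δz) := by
    rw [add_comm m δz]; exact hP.mul hhom
  have hD : IsWeightedHomogeneous CI.wt (P * nfPoly γ v - nfPoly γ v') (m + δz) :=
    (weightedHomogeneousSubmodule B.κ CI.wt (m + δz)).sub_mem hprod hhom'
  have e1 := B.lift_add (m + δz) _ _ hhom' hD
  rw [add_sub_cancel] at e1
  have e2 := B.lift_mul δz m _ _ hP hhom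
  have e3 := B.fil_mul _ _ (Ideal.mul_mem_mul hz (B.lift_mem m _ hhom))
  have e4 := B.fil_mul _ _ (Ideal.mul_mem_mul hzm h.2)
  have e5 := (B.lift_ker (m + δz) _ hD).2 hk
  rw [show ((δz : ℤ) + m + 1) = ((m + δz : ℕ) : ℤ) + 1 by push_cast; ring] at e2
  rw [show ((δz : ℤ) + 1 + m) = ((m + δz : ℕ) : ℤ) + 1 by push_cast; ring] at e3
  rw [show ((δz : ℤ) + (m + 1)) = ((m + δz : ℕ) : ℤ) + 1 by push_cast; ring] at e4
  convert add_mem (add_mem e1 e5) (sub_mem (add_mem e3 e4) e2) using 1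
  ring

end LW

end Vale.Agent.P202
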