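import Vale.Agent.P202.InterfacesM8

/-! Proof of `GoalMulRank`: multiplication by a form loses a bounded number of slices, with a
constant independent of the generators, the form and the parameters. -/

universe u

namespace Vale.Agent.P202

open Finset

section count

variable {m d D : ℕ} {a : Fin (d - 1) → ℤ} {g : Fin m → ℤ} {c : ℤ}

/-- The staying base monomials inject into the base monomials of the target level. -/
lemma m8_card_stayR_le (δ : ℕ) (η : Fin (d - 1) → ℤ) (r : ℤ) :
    (stayR D a g c δ η r).card ≤ (baseR D a g c r).card := by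
  classical
  have hinj : Function.Injective (fun b : Fin m × (Fin (d - 1) → ℤ) => (b.1, b.2 + η)) := by
    intro b b' h
    obtain ⟨h1, h2⟩ := Prod.mk.inj h
    exact Prod.ext h1 (add_right_cancel h2)
  rw [← Finset.card_image_of_injective _ hinj]
  refine Finset.card_le_card fun b hb => ?_
  obtain ⟨b', hb', rfl⟩ := Finset.mem_image.1 hb
  exact (Finset.mem_filter.1 hb').2.1

/-- In degree zero every base monomial stays. -/
lemma m8_stayR_zero (r : ℤ) : stayR D a g c 0 0 r = baseR D a g c r := by
  classical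
  have e : c - (D : ℤ) * (0 : ℕ) = c := by simp
  simp only [stayR, e, add_zero]
  refine Finset.filter_true_of_mem fun b hb => ?_
  simpa using hb

/-- The two levels differ from the staying monomials by at most `δ` slices. -/
lemma m8_boundary (hD : 0 < D) {δ : ℕ} {η : Fin (d - 1) → ℤ} (hη : ∀ l, 0 ≤ η l ∧ η l ≤ δ)
    (r : ℤ) {L : ℕ} (ha : ∀ l, (a l).natAbs ≤ L) (hc : c.natAbs ≤ L)
    (hg : ∀ i, (g i).natAbs ≤ L) (hL : 1 ≤ L) (hδ : δ ≤ L) :
    (baseR D a g (c - D * δ) r).card * L ≤ (stayR D a g c δ η r).card * L +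
        4 * d * (d + D + 6) ^ (d - 1) * m * δ * L ^ (d - 1) ∧
      (baseR D a g c r).card * L ≤ (stayR D a g c δ η r).card * L +
        4 * d * (d + D + 6) ^ (d - 1) * m * δ * L ^ (d - 1) := by
  rcases Nat.eq_zero_or_pos δ with h0 | h0
  · subst h0
    have e : η = 0 := funext fun l => by
      have := hη l
      simp only [Pi.zero_apply]
      omega
    subst e
    rw [m8_stayR_zero]
    simp
  set G := d + D + 6 with hG
  have hG1 : 1 ≤ G := by omega
  have hDδ : ((D : ℤ) * δ).natAbs ≤ D * L := by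
    rw [Int.natAbs_mul, Int.natAbs_natCast, Int.natAbs_natCast]
    exact Nat.mul_le_mul_left _ hδ
  have hivl : ∀ c' : ℤ, c'.natAbs ≤ L + D * L → ∀ k l,
      (ivl (tOf D a g c' k l)).card ≤ G * L := by
    intro c' hc' k l
    refine (card_ivl_le hD k l).trans ?_
    have h1 := hg k
    have h2 := ha l
    have h3 : (d + 2) * 1 ≤ (d + 2) * L := Nat.mul_le_mul_left _ hL
    have h4 : G * L = (d + 2) * L + D * L + 4 * L := by rw [hG]; ring
    omega
  have hc0 : c.natAbs ≤ L + D * L := by omega
  have hc1 : (c - (D : ℤ) * δ).natAbs ≤ L + D * L :=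
    (Int.natAbs_sub_le c _).trans (add_le_add hc hDδ)
  have hb : m * (d - 1) * (2 * (δ + 1)) * (G * L) ^ (d - 1) ≤
      G * (4 * d * G ^ (d - 1) * m * δ * L ^ (d - 1)) := by
    calc m * (d - 1) * (2 * (δ + 1)) * (G * L) ^ (d - 1)
        ≤ m * d * (4 * δ) * (G * L) ^ (d - 1) := by
          exact Nat.mul_le_mul_right _
            (Nat.mul_le_mul (Nat.mul_le_mul_left _ (Nat.sub_le d 1)) (by omega))
      _ = 1 * (4 * d * G ^ (d - 1) * m * δ * L ^ (d - 1)) := by rw [mul_pow]; ring
      _ ≤ _ := Nat.mul_le_mul_right _ hG1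
  have h1 := (src_boundary (a := a) (g := g) (c := c) (η := η) hD hη r (G * L)
    (hivl _ hc1)).trans (Nat.add_le_add_left hb _)
  have h2 := (tgt_boundary (a := a) (g := g) (c := c) (η := η) hD hη r (G * L)
    (hivl _ hc0)).trans (Nat.add_le_add_left hb _)
  constructor
  · refine Nat.le_of_mul_le_mul_left ?_ (show 0 < G by omega)
    rw [mul_add]
    calc G * ((baseR D a g (c - D * δ) r).card * L)
        = (baseR D a g (c - D * δ) r).card * (G * L) := by ring
      _ ≤ _ := h1
      _ = _ := by ring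
  · refine Nat.le_of_mul_le_mul_left ?_ (show 0 < G by omega)
    rw [mul_add]
    calc G * ((baseR D a g c r).card * L) = (baseR D a g c r).card * (G * L) := by ring
      _ ≤ _ := h2
      _ = _ := by ring

end count

theorem goalMulRank : GoalMulRank.{u} := by
  intro d D hd hD
  refine ⟨4 * d * (d + D + 6) ^ (d - 1), ?_⟩
  intro k _ m g P δ hne hP a c L hL ha hc hg hδ r hPO
  obtain ⟨η, hη, hη0, hmax⟩ := exists_top_exponent hd hP hne
  have h1 := stayR_le_rank hd hD hP hη hη0 hmax (a := a) (g := g) c r hPO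
  obtain ⟨h2, h3⟩ := m8_boundary (a := a) (g := g) (c := c) hD hη0 r ha hc hg hL hδ
  have h4 := Finset.card_le_card (stayR_subset D a g c δ η r)
  have h5 := m8_card_stayR_le (D := D) (a := a) (g := g) (c := c) δ η r
  set E := 4 * d * (d + D + 6) ^ (d - 1) * m * δ * L ^ (d - 1) with hE
  set S := (stayR D a g c δ η r).card with hS
  set X := (baseR D a g (c - D * δ) r).card with hX
  set Y := (baseR D a g c r).card with hY
  set R := Module.finrank k
    ↥(LinearMap.range (hinc (δ := phiDF k m d) (Q := fun _ => ⊥) hPO r)) with hR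
  have h2' : (X : ℤ) * L ≤ S * L + E := by exact_mod_cast h2
  have h3' : (Y : ℤ) * L ≤ S * L + E := by exact_mod_cast h3
  have hL0 : (0 : ℤ) ≤ L := Int.natCast_nonneg L
  have k1 : (S : ℤ) * L ≤ R * L := mul_le_mul_of_nonneg_right (by exact_mod_cast h1) hL0
  have k4 : (S : ℤ) * L ≤ X * L := mul_le_mul_of_nonneg_right (by exact_mod_cast h4) hL0
  have k5 : (S : ℤ) * L ≤ Y * L := mul_le_mul_of_nonneg_right (by exact_mod_cast h5) hL0
  refine ⟨by rw [sub_mul]; omega, ?_⟩
  have e : |(Y : ℤ) - X| * L = |((Y : ℤ) - X) * L| := by rw [abs_mul, abs_of_nonneg hL0]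
  rw [e, sub_mul, abs_le]
  constructor <;> omega

end Vale.Agent.P202
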