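import Vale.Agent.P202.LW3Defs
import Vale.Agent.P202.LW3LevelSym
import Vale.Agent.P202.M8MulRank

/-!
GoalLWLevel: one level of `L` has the length of the free cohomology, and multiplication between
levels has the rank of multiplication by a form on free cohomology, up to few slices.
-/

universe u

namespace Vale.Agent.P202

open IsLocalRing MvPolynomial

namespace LW

open LevelIso

section semilinear

variable {L κ : Type u} [CommRing L] [CommRing κ] {res : L →+* κ} {W H : Type u} [AddCommGroup W]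
  [Module L W] [AddCommGroup H] [Module κ H]

lemma sl_length (hsurj : Function.Surjective res) (f : W →+ H) (hf : Function.Bijective f)
    (hs : ∀ z v, f (z • v) = res z • f v) : Module.length L W = Module.length κ H := by
  have : RingHomSurjective res := ⟨hsurj⟩
  let g : W →ₛₗ[res] H := { f with map_smul' := hs }
  apply WithBot.coe_injective
  rw [Module.coe_length, Module.coe_length,
    Order.krullDim_eq_of_orderIso (Submodule.orderIsoMapComapOfBijective g hf)]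

lemma sl_image (hsurj : Function.Surjective res) (f : W →+ H) (hf : Function.Bijective f)
    (hs : ∀ z v, f (z • v) = res z • f v) (N : Submodule L W) :
    ∃ V : Submodule κ H, (∀ v ∈ N, f v ∈ V) ∧ Module.length L ↥N = Module.length κ ↥V := by
  have : RingHomSurjective res := ⟨hsurj⟩
  let g : W →ₛₗ[res] H := { f with map_smul' := hs }
  refine ⟨N.map g, fun v hv => ⟨v, hv, rfl⟩, ?_⟩
  refine sl_length hsurj ((f.comp N.subtype.toAddMonoidHom).codRestrict (N.map g).toAddSubgroup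
    fun v => ⟨v.1, v.2, rfl⟩) ⟨?_, ?_⟩ ?_
  · exact fun a c e => Subtype.ext (hf.1 (congrArg Subtype.val e))
  · rintro ⟨_, v, hv, rfl⟩
    exact ⟨⟨v, hv⟩, rfl⟩
  · exact fun z v => Subtype.ext (hs z v.1)

end semilinear

section chain

variable {A : Type*} [CommRing A] {d : ℕ} {M M₂ : Type*} [AddCommGroup M] [Module A M]
  [AddCommGroup M₂] [Module A M₂]

/-- A map of families shifting the weight by `e` shifts the levels by `e`. -/
lemma chainMap_phiC_shift {D : ℕ} {a : Fin (d - 1) → ℤ} {W : ℤ → Submodule A M}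
    {W₂ : ℤ → Submodule A M₂} (Φ : M →ₗ[A] M₂) {c e c' : ℤ}
    (h : ∀ n, ∀ v ∈ W n, Φ v ∈ W₂ (n + e)) (hc : c' = c + e) (r : ℤ) :
    ∀ f ∈ phiC D a W c r, chainMap Φ f ∈ phiC D a W₂ c' r := by
  subst hc
  rintro f ⟨h1, h2⟩
  refine ⟨fun i => ?_, fun i hi => ?_⟩
  · rw [chainMap_apply]
    refine ⟨?_, fun hn => by rw [(h1 i).2 hn, map_zero]⟩
    rw [add_right_comm]
    exact h _ _ (h1 i).1
  · rw [chainMap_apply, h2 i hi, map_zero]

end chain

section band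

variable {p : ℕ} [Fact p.Prime] {R : Type u} [CommRing R] [IsLocalRing R] {k : Type u} [Field k]
  [CharP k p] [PerfectRing k p] {A : Type u} [CommRing A] [Algebra R A]
  [Algebra (WittVector p k) A] {d : ℕ} {x : Fin d → A} {b : ℕ} {G : ℕ → Ideal A}
  {CI : CIData p k A x b G} {ι : ResidueField R →+* k} {i j K N : ℕ}
  {B : Band p R CI ι i j K} {γ : Fin N → Vr d CI.n →₀ ℕ}

/-- A free cycle lifts to a cycle of the level of `L` with that symbol. -/
lemma exists_lift_cycle {v r : ℤ} {w : PIdx d →₀ FreeMod B.κ N d}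
    (hw : w ∈ phiC b B.tw (freeFam B.κ b (gens γ)) v r) (h0 : phiDF B.κ N d w = 0) :
    ∃ f : ↥(hcyc (phiD B.mulX) (lvl (phiDeg B.L B.L d) B.LamF v)
        (lvl (phiDeg B.L B.L d) B.LamF (v + 1)) r), PRel B γ v f.1 w := by
  classical
  let f : PIdx d →₀ B.L := Finsupp.onFinset w.support
    (fun c => if w c = 0 then 0 else B.lift (nfPoly γ (w c))) fun c hc =>
      Finsupp.mem_support_iff.2 fun e => hc (if_pos e)
  have hf0 : ∀ c, w c = 0 → f c = 0 := fun c hc => if_pos hc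
  have hrel : PRel B γ v f w := fun c => by
    by_cases hc : w c = 0
    · rw [hf0 c hc, hc]; exact rel_zero B _
    · show Rel B γ _ (if w c = 0 then 0 else B.lift (nfPoly γ (w c))) _
      rw [if_neg hc]
      exact rel_lift B (hw.1 c).1
  have hsub : f ∈ B.LamF v := fun c => ⟨(hrel c).mem, fun hn => hf0 c ((hw.1 c).2 hn)⟩
  have hdeg : f ∈ phiDeg B.L B.L d r := fun c hc => hf0 c (hw.2 c hc)
  refine ⟨⟨f, ⟨hsub, hdeg⟩, ?_, phiDeg_stable B.mulX r (Submodule.mem_map_of_mem hdeg)⟩, hrel⟩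
  intro c
  refine ⟨?_, ((phiSub_stable B.famStable B.tw v (Submodule.mem_map_of_mem hsub)) c).2⟩
  have h := hrel.phiD B c
  rw [h0, Finsupp.zero_apply, rel_zero_iff] at h
  rwa [add_right_comm] at h

end band

section free

variable {κ : Type u} [Field κ] {d b N m' : ℕ} {a : Fin (d - 1) → ℤ} {gγ : Fin N → ℤ}
  {g₁ : Fin m' → ℤ}

/-- The multiples of a form on free cohomology factor through the classes of the images of cycles. -/
lemma free_image_le (hb : 0 < b) {δz Δ : ℕ}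
    {Tm : FreeMod κ m' d →ₗ[κ] FreeMod κ N d} {Bm : FreeMod κ N d →ₗ[κ] FreeMod κ m' d}
    {P' : MvPolynomial (Fin d) κ} (hTX : ∀ o f, Tm (xFree κ o f) = xFree κ o (Tm f))
    (hBX : ∀ o f, Bm (xFree κ o f) = xFree κ o (Bm f))
    (hT : ∀ n, ∀ f ∈ freeFam κ (d := d) b g₁ n, Tm f ∈ freeFam κ b gγ (n + δz))
    (hB : ∀ n, ∀ f ∈ freeFam κ (d := d) b gγ (n + δz), Bm f ∈ freeFam κ b g₁ (n + (b * Δ : ℕ)))
    (hP0 : P' ≠ 0)
    (hcomp : ∀ f, Bm (Tm f) =
      pAct (X := fun o => (xFree κ o : FreeMod κ m' d →ₗ[κ] _)) xFree_comm P' f)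
    {v r : ℤ} (hPO : ∀ r, phiC b a (mulImg κ b g₁ P' Δ) (v + (b * Δ : ℕ)) r ≤
      phiC b a (freeFam κ (d := d) b g₁) (v + (b * Δ : ℕ)) r)
    (V : Submodule κ
      (HMod (phiDF κ N d) (phiC b a (freeFam κ b gγ) (v + δz)) (fun _ => ⊥) r))
    (hV : ∀ φ ∈ phiC b a (freeFam κ (d := d) b g₁) v r, phiDF κ m' d φ = 0 →
      ∀ hc, hmk (phiDF κ N d) (phiC b a (freeFam κ b gγ) (v + δz)) (fun _ => ⊥) r
        ⟨chainMap Tm φ, hc⟩ ∈ V) :
    Module.finrank κ ↥(LinearMap.range (hinc (δ := phiDF κ m' d) (Q := fun _ => ⊥) hPO r)) ≤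
      Module.finrank κ ↥V := by
  have := finite_free (k := κ) (m := N) (d := d) (a := a) (g := gγ) hb (v + δz) r
  have hB' : ∀ n, ∀ f ∈ freeFam κ (d := d) b gγ n,
      Bm f ∈ freeFam κ b g₁ (n + (((b * Δ : ℕ) : ℤ) - δz)) := fun n f hf => by
    rw [show n + (((b * Δ : ℕ) : ℤ) - δz) = (n - δz) + (b * Δ : ℕ) by ring]
    exact hB (n - δz) f (by rwa [sub_add_cancel])
  let ΦB := hmap (δ := phiDF κ N d) (δ' := phiDF κ m' d) (chainMap Bm)
    (P := phiC b a (freeFam κ b gγ) (v + δz)) (Q := fun _ => ⊥)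
    (P' := phiC b a (freeFam κ (d := d) b g₁) (v + (b * Δ : ℕ))) (Q' := fun _ => ⊥)
    (chainMap_phiC_shift Bm (e := ((b * Δ : ℕ) : ℤ) - δz) hB' (by ring))
    (fun _ w hw => by rw [Submodule.mem_bot] at hw ⊢; rw [hw, map_zero])
    (fun _ w _ => chainMap_phiD Bm (fun l f => hBX l f) w) r
  refine (Submodule.finrank_mono (t := V.map ΦB) ?_).trans (Submodule.finrank_map_le ΦB V)
  rintro _ ⟨q, rfl⟩
  obtain ⟨⟨ψ, hψ⟩, rfl⟩ := hmk_surjective _ _ _ r q
  let pA : FreeMod κ m' d →ₗ[κ] FreeMod κ m' d :=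
    pAct (X := fun o => (xFree κ o : FreeMod κ m' d →ₗ[κ] _)) xFree_comm P'
  have hsur : ψ ∈ (phiC b a (freeFam κ (d := d) b g₁) v r).map (chainMap pA) := by
    have h := chainMap_sur (D := b) (a := a)
      (W := fun n => freeFam κ (d := d) b g₁ (n + -((b : ℤ) * Δ)))
      (W₂ := mulImg κ b g₁ P' Δ) (W₂' := fun _ => ⊥) pA (fun n w hw => ⟨w, hw, rfl⟩)
      (fun _ => bot_le) (v + (b * Δ : ℕ)) (fun σ => le_sup_left) r hψ.1
    rw [show phiC b a (fun _ => (⊥ : Submodule κ (FreeMod κ m' d))) (v + (b * Δ : ℕ)) r =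
        ⊥ from (Submodule.eq_bot_iff _).2 fun f hf =>
          Finsupp.ext fun c => (Submodule.mem_bot κ).1 (hf.1 c).1,
      sup_bot_eq, phiC_shift_add,
      show v + ((b * Δ : ℕ) : ℤ) + -((b : ℤ) * Δ) = v by push_cast; ring] at h
    exact h
  obtain ⟨φ, hφ, hφψ⟩ := hsur
  have hφ0 : phiDF κ m' d φ = 0 := by
    have h1 : phiDF κ m' d ψ = 0 := (Submodule.mem_bot κ).1 hψ.2
    rw [← hφψ, phiDF, ← chainMap_phiD pA (fun l f => pAct_commute _ P' l f)] at h1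
    refine Finsupp.ext fun c => pAct_free_injective (m := m') hP0 ?_
    have h2 := DFunLike.congr_fun h1 c
    rw [chainMap_apply, Finsupp.zero_apply] at h2
    rw [Finsupp.zero_apply, map_zero]
    exact h2
  have hTcyc : chainMap Tm φ ∈ hcyc (phiDF κ N d) (phiC b a (freeFam κ b gγ) (v + δz))
      (fun _ => ⊥) r := by
    refine ⟨chainMap_phiC_shift Tm hT rfl r φ hφ, (Submodule.mem_bot κ).2 ?_⟩
    rw [phiDF, ← chainMap_phiD Tm (fun l f => hTX l f), hφ0, map_zero]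
  refine ⟨_, hV φ hφ hφ0 hTcyc, ?_⟩
  refine congrArg (hmk (phiDF κ m' d) (phiC b a (freeFam κ (d := d) b g₁) (v + (b * Δ : ℕ)))
    (fun _ => ⊥) r) (Subtype.ext ?_)
  show chainMap Bm (chainMap Tm φ) = ψ
  rw [← hφψ]
  refine Finsupp.ext fun c => ?_
  rw [chainMap_apply, chainMap_apply, chainMap_apply]
  exact hcomp (φ c)

end free

section mult

variable {p : ℕ} [Fact p.Prime] {R : Type u} [CommRing R] [IsLocalRing R] {k : Type u} [Field k]
  [CharP k p] [PerfectRing k p] {A : Type u} [CommRing A] [Algebra R A]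
  [Algebra (WittVector p k) A] {d : ℕ} {x : Fin d → A} {b : ℕ} {G : ℕ → Ideal A}
  {CI : CIData p k A x b G} {ι : ResidueField R →+* k} {i j K N m' : ℕ}
  {B : Band p R CI ι i j K} {γ : Fin N → Vr d CI.n →₀ ℕ}

/-- Multiplication by `z` on the lift of a free cycle has the symbol given by `Tm`. -/
lemma exists_z_cycle {δz : ℕ} {z : B.L} {P : MvPolynomial (Vr d CI.n) B.κ}
    (hP : IsWeightedHomogeneous CI.wt P δz) (hz : z - B.lift P ∈ B.Fil ((δz : ℤ) + 1))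
    {g₁ : Fin m' → ℤ} {Am Tm : FreeMod B.κ m' d →ₗ[B.κ] FreeMod B.κ N d}
    (hAX : ∀ o f, Am (xFree B.κ o f) = xFree B.κ o (Am f))
    (hA : ∀ n, ∀ f ∈ freeFam B.κ (d := d) b g₁ n, Am f ∈ freeFam B.κ b (gens γ) n)
    (hT : ∀ n, ∀ f ∈ freeFam B.κ (d := d) b g₁ n, Tm f ∈ freeFam B.κ b (gens γ) (n + δz))
    (hker : ∀ f, (P * nfPoly γ (Am f) - nfPoly γ (Tm f)).map B.κ.subtype ∈
      Ideal.span (Set.range fun v =>
        MvPolynomial.expand (p ^ (B.jq - j)) (rootPoly p j (CI.F v))))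
    (hzl : ∀ t, ∀ v ∈ B.LamF t, z • v ∈ B.LamF (t + δz)) {v r : ℤ}
    {φ : PIdx d →₀ FreeMod B.κ m' d} (hφ : φ ∈ phiC b B.tw (freeFam B.κ (d := d) b g₁) v r)
    (hφ0 : phiDF B.κ m' d φ = 0) :
    ∃ (f : ↥(hcyc (phiD B.mulX) (lvl (phiDeg B.L B.L d) B.LamF v)
          (lvl (phiDeg B.L B.L d) B.LamF (v + 1)) r))
      (_ : z • f.1 ∈ hcyc (phiD B.mulX) (lvl (phiDeg B.L B.L d) B.LamF (v + δz))
          (lvl (phiDeg B.L B.L d) B.LamF (v + 1 + δz)) r),
      PRel B γ (v + δz) (z • f.1) (chainMap Tm φ) := by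
  have hwA0 : phiDF B.κ N d (chainMap Am φ) = 0 := by
    rw [phiDF, ← chainMap_phiD Am (fun l f => hAX l f), hφ0, map_zero]
  obtain ⟨f, hf⟩ := exists_lift_cycle (chainMap_phiC Am hA v r φ hφ) hwA0
  refine ⟨f, ⟨⟨hzl _ _ f.2.1.1, Submodule.smul_mem _ z f.2.1.2⟩, ?_⟩, fun c => ?_⟩
  · rw [SetLike.mem_coe, Submodule.mem_comap, map_smul]
    exact ⟨hzl _ _ f.2.2.1, Submodule.smul_mem _ z f.2.2.2⟩
  · have h1 := hf c
    rw [chainMap_apply] at h1
    rw [Finsupp.smul_apply, smul_eq_mul, chainMap_apply, add_right_comm]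
    exact rel_mul B hP hz h1 (hT _ _ (hφ.1 c).1) (hker (φ c))

end mult

section levels

variable {p : ℕ} [Fact p.Prime] {R : Type u} [CommRing R] [IsLocalRing R] {k : Type u} [Field k]
  [CharP k p] [PerfectRing k p] {A : Type u} [CommRing A] [Algebra R A]
  [Algebra (WittVector p k) A] {d : ℕ} {x : Fin d → A} {b : ℕ} {G : ℕ → Ideal A}
  {CI : CIData p k A x b G} {ι : ResidueField R →+* k} {i j K N : ℕ}
  {B : Band p R CI ι i j K} {γ : Fin N → Vr d CI.n →₀ ℕ}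

variable (B γ) in
/-- The level from `u` to `c'` is free cohomology, semilinearly along `res`, by symbols. -/
def IsFreeLevel (res : B.L →+* B.κ) (u c' r : ℤ) : Prop :=
  ∃ Φ : winH (phiD B.mulX) (phiDeg B.L B.L d) B.LamF u c' r →+
      HMod (phiDF B.κ N d) (phiC b B.tw (freeFam B.κ b (gens γ)) u) (fun _ => ⊥) r,
    Function.Bijective Φ ∧ (∀ z v, Φ (z • v) = res z • Φ v) ∧
    ∀ f φ, PRel B γ u f.1 φ.1 →
      Φ (hmk (phiD B.mulX) (lvl (phiDeg B.L B.L d) B.LamF u)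
          (lvl (phiDeg B.L B.L d) B.LamF c') r f) =
        hmk (phiDF B.κ N d) (phiC b B.tw (freeFam B.κ b (gens γ)) u) (fun _ => ⊥) r φ

/-- The length of a level. -/
lemma level_length {res : B.L →+* B.κ} (hsurj : Function.Surjective res) (hb : 0 < b) {u r : ℤ}
    (h : IsFreeLevel B γ res u (u + 1) r) :
    Module.length B.L (winH (phiD B.mulX) (phiDeg B.L B.L d) B.LamF u (u + 1) r) =
      (lev b B.tw (gens γ) u r : ℕ∞) := by
  obtain ⟨Φ, h1, h2, -⟩ := h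
  have := finite_free (k := B.κ) (m := N) (d := d) (a := B.tw) (g := gens γ) hb u r
  refine (sl_length hsurj Φ h1 h2).trans ?_
  rw [Module.length_eq_finrank, finrank_free hb]
  rfl

/-- The rank of multiplication by `z` between levels. -/
lemma level_rank {res : B.L →+* B.κ} (hsurj : Function.Surjective res) (hb : 0 < b) {m' δz : ℕ}
    {z : B.L} {P : MvPolynomial (Vr d CI.n) B.κ}
    (hP : IsWeightedHomogeneous CI.wt P δz) (hz : z - B.lift P ∈ B.Fil ((δz : ℤ) + 1))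
    {g₁ : Fin m' → ℤ} {Am Tm : FreeMod B.κ m' d →ₗ[B.κ] FreeMod B.κ N d}
    {Bm : FreeMod B.κ N d →ₗ[B.κ] FreeMod B.κ m' d} {P' : MvPolynomial (Fin d) B.κ} {Δ : ℕ}
    (hAX : ∀ o f, Am (xFree B.κ o f) = xFree B.κ o (Am f))
    (hTX : ∀ o f, Tm (xFree B.κ o f) = xFree B.κ o (Tm f))
    (hBX : ∀ o f, Bm (xFree B.κ o f) = xFree B.κ o (Bm f))
    (hA : ∀ n, ∀ f ∈ freeFam B.κ (d := d) b g₁ n, Am f ∈ freeFam B.κ b (gens γ) n)
    (hT : ∀ n, ∀ f ∈ freeFam B.κ (d := d) b g₁ n, Tm f ∈ freeFam B.κ b (gens γ) (n + δz))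
    (hB : ∀ n, ∀ f ∈ freeFam B.κ (d := d) b (gens γ) (n + δz),
      Bm f ∈ freeFam B.κ b g₁ (n + (b * Δ : ℕ)))
    (hker : ∀ f, (P * nfPoly γ (Am f) - nfPoly γ (Tm f)).map B.κ.subtype ∈
      Ideal.span (Set.range fun v =>
        MvPolynomial.expand (p ^ (B.jq - j)) (rootPoly p j (CI.F v))))
    (hP0 : P' ≠ 0)
    (hcomp : ∀ f, Bm (Tm f) =
      pAct (X := fun o => (xFree B.κ o : FreeMod B.κ m' d →ₗ[B.κ] _)) xFree_comm P' f)
    (hzl : ∀ t, ∀ v ∈ B.LamF t, z • v ∈ B.LamF (t + δz)) {v r : ℤ}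
    (hiso : IsFreeLevel B γ res (v + δz) (v + 1 + δz) r)
    (hPO : ∀ r, phiC b B.tw (mulImg B.κ b g₁ P' Δ) (v + (b * Δ : ℕ)) r ≤
      phiC b B.tw (freeFam B.κ (d := d) b g₁) (v + (b * Δ : ℕ)) r) :
    Module.finrank B.κ
        ↥(LinearMap.range (hinc (δ := phiDF B.κ m' d) (Q := fun _ => ⊥) hPO r)) ≤
      zRank (δ := phiD B.mulX) (P := phiDeg B.L B.L d) hzl v r := by
  obtain ⟨Φ, hΦb, hΦs, hΦc⟩ := hiso
  obtain ⟨V, hV, hVlen⟩ := sl_image hsurj Φ hΦb hΦs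
    (LinearMap.range (zMap (δ := phiD B.mulX) (P := phiDeg B.L B.L d) hzl v (v + 1) r))
  have himg : ∀ φ ∈ phiC b B.tw (freeFam B.κ (d := d) b g₁) v r, phiDF B.κ m' d φ = 0 →
      ∀ hc, hmk (phiDF B.κ N d) (phiC b B.tw (freeFam B.κ b (gens γ)) (v + δz)) (fun _ => ⊥) r
        ⟨chainMap Tm φ, hc⟩ ∈ V := by
    intro φ hφ hφ0 hc
    obtain ⟨f, hzf, hrel⟩ := exists_z_cycle hP hz hAX hA hT hker hzl hφ hφ0
    rw [← hΦc ⟨z • f.1, hzf⟩ ⟨chainMap Tm φ, hc⟩ hrel]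
    exact hV _ ⟨hmk _ _ _ r f, zMap_hmk hzl v (v + 1) r f hzf⟩
  have := finite_free (k := B.κ) (m := N) (d := d) (a := B.tw) (g := gens γ) hb (v + δz) r
  refine (free_image_le hb hTX hBX hT hB hP0 hcomp hPO V himg).trans (le_of_eq ?_)
  rw [zRank, lrk, len, hVlen, Module.length_eq_finrank, ENat.toNat_natCast]

end levels

/-- A count up to `Y / L`, transferred to an upper bound of the rank. -/
lemma count_aux {c X Z L Y : ℕ} (h : ((c : ℤ) - X) * L ≤ (Y : ℤ)) (hX : X ≤ Z) :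
    c * L ≤ Z * L + Y := by
  have : (X : ℤ) * L ≤ (Z : ℤ) * L := by exact_mod_cast Nat.mul_le_mul_right L hX
  have h' : ((c * L : ℕ) : ℤ) ≤ ((Z * L + Y : ℕ) : ℤ) := by push_cast; linarith
  exact_mod_cast h'

open LevelIso in
theorem goalLWLevel (hLI : GoalLevelIso.{u}) : GoalLWLevel.{u} := by
  intro d b hd hb
  obtain ⟨Cb, hCb⟩ := goalMulRank.{u} d b hd hb
  refine ⟨Cb, ?_⟩
  intro p _ R _ _ _ k _ _ _ A _ _ _ _ _ xR G ι e hctx CI i j K B hrich hK res hres hC N γ hγi hγ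
  have hsurj : Function.Surjective res := fun a => ⟨_, hC a⟩
  have iso : ∀ u c' r : ℤ, c' = u + 1 → IsFreeLevel B γ res u c' r := by
    rintro u _ r rfl
    obtain ⟨Φ, h1, h2, h3⟩ := hLI p R k A d xR b G ι e hctx CI i j K B hrich hK res hres hC N γ hγi
      hγ u r
    exact ⟨Φ, h1, h2, fun f φ h => h3 f φ fun c => (h c).2⟩
  refine ⟨fun u r => level_length hsurj hb (iso u (u + 1) r rfl), ?_⟩
  intro δz z P hP hz m' g₁ Am Tm Bm P' Δ hAX hTX hBX hA hT hB hker hP0 hPd hcomp hzl v r L hL htw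
    hvL hgL hΔ
  have hPO : ∀ r, phiC b B.tw (mulImg B.κ b g₁ P' Δ) (v + (b * Δ : ℕ)) r ≤
      phiC b B.tw (freeFam B.κ (d := d) b g₁) (v + (b * Δ : ℕ)) r := fun r =>
    inf_le_inf_right _ (phiSub_mono fun σ => mulImg_le hPd _)
  have hfin := level_rank hsurj hb hP hz hAX hTX hBX hA hT hB hker hP0 hcomp hzl
    (iso (v + δz) (v + 1 + δz) r (by ring)) hPO
  have hc := (hCb B.κ m' g₁ P' Δ hP0 hPd B.tw (v + (b * Δ : ℕ)) L hL htw hvL hgL hΔ r hPO).1
  have h2 := count_aux hc hfin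
  rwa [show v + ((b * Δ : ℕ) : ℤ) - (b : ℤ) * Δ = v by push_cast; ring] at h2

end LW

end Vale.Agent.P202
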