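import Vale.Agent.P202.LWDefs
import Vale.Agent.P202.GRAExpand

/-!
GoalLWin, part 4: the algebra around the minors. The standard exponents are counted; the powers of
`U₀` and of `δ₀ - U₀` are, modulo the forms `F`, themselves times powers of `δ₀`; the minor of `1`.
-/

universe u

namespace Vale.Agent.P202.LW

open MvPolynomial

/-- If `x (d - x)` lies in an ideal, the powers of `x` are `x` times powers of `d` modulo it. -/
lemma pow_congr {R : Type*} [CommRing R] {I : Ideal R} {x d : R} (h : x * (d - x) ∈ I) (t : ℕ) :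
    x ^ (t + 1) - x * d ^ t ∈ I := by
  induction t with
  | zero => simp
  | succ t ih =>
    have e : x ^ (t + 1 + 1) - x * d ^ (t + 1) =
        x * (x ^ (t + 1) - x * d ^ t) - d ^ t * (x * (d - x)) := by ring
    rw [e]
    exact I.sub_mem (I.mul_mem_left _ ih) (I.mul_mem_left _ h)

/-- Powers of a sum modulo the product. -/
lemma add_pow_congr {R : Type*} [CommRing R] {I : Ideal R} {x y : R} (h : x * y ∈ I) (t : ℕ) :
    (x + y) ^ (t + 1) - x ^ (t + 1) - y ^ (t + 1) ∈ I := by
  induction t with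
  | zero => simp
  | succ t ih =>
    have e : (x + y) ^ (t + 1 + 1) - x ^ (t + 1 + 1) - y ^ (t + 1 + 1) =
        (x + y) * ((x + y) ^ (t + 1) - x ^ (t + 1) - y ^ (t + 1)) +
          (x ^ t + y ^ t) * (x * y) := by ring
    rw [e]
    exact I.add_mem (I.mul_mem_left _ ih) (I.mul_mem_left _ h)

section hom

variable {p : ℕ} [Fact p.Prime] {k : Type u} [Field k] [CharP k p] [PerfectRing k p] {d n : ℕ}

/-- Roots of the coefficients, then expansion, as a ring homomorphism. -/
noncomputable def rootExp (p : ℕ) [Fact p.Prime] [CharP k p] [PerfectRing k p] (j l : ℕ) :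
    MvPolynomial (Vr d n) k →+* MvPolynomial (Vr d n) k :=
  (expand (p ^ l) : MvPolynomial (Vr d n) k →ₐ[k] MvPolynomial (Vr d n) k).toRingHom.comp
    (MvPolynomial.map ((iterateFrobeniusEquiv k p j).symm : k →+* k))

lemma rootExp_apply (j l : ℕ) (P : MvPolynomial (Vr d n) k) :
    rootExp p j l P = expand (p ^ l) (rootPoly p j P) := rfl

lemma isWH_map {σ R S : Type*} [CommSemiring R] [CommSemiring S] (f : R →+* S) {w : σ → ℕ}
    {P : MvPolynomial σ R} {N : ℕ} (h : IsWeightedHomogeneous w P N) :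
    IsWeightedHomogeneous w (MvPolynomial.map f P) N := fun γ hγ =>
  h fun e => hγ (by rw [coeff_map, e, map_zero])

lemma isWH_of_map {σ R S : Type*} [CommSemiring R] [CommSemiring S] (f : R →+* S)
    (hf : Function.Injective f) {w : σ → ℕ} {P : MvPolynomial σ R} {N : ℕ}
    (h : IsWeightedHomogeneous w (MvPolynomial.map f P) N) : IsWeightedHomogeneous w P N :=
  fun γ hγ => h (by rw [coeff_map, ← map_zero f]; exact fun e => hγ (hf e))

lemma isWH_expand {σ R : Type*} [CommSemiring R] {w : σ → ℕ} {P : MvPolynomial σ R} {N : ℕ}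
    (m : ℕ) (h : IsWeightedHomogeneous w P N) : IsWeightedHomogeneous w (expand m P) (m * N) := by
  classical
  have key : ∀ γ ∈ P.support,
      IsWeightedHomogeneous w (expand m (monomial γ (coeff γ P))) (m * N) := fun γ hγ => by
    rw [expand_monomial]
    refine isWeightedHomogeneous_monomial _ _ _ ?_
    rw [map_nsmul, h (mem_support_iff.1 hγ), smul_eq_mul]
  have e : expand m P = ∑ γ ∈ P.support, expand m (monomial γ (coeff γ P)) := by
    rw [← map_sum, ← P.as_sum]
  rw [e]
  exact IsWeightedHomogeneous.sum _ _ _ key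

lemma isWH_rootExp {wt : Vr d n → ℕ} {P : MvPolynomial (Vr d n) k} {N : ℕ} (j l : ℕ)
    (h : IsWeightedHomogeneous wt P N) :
    IsWeightedHomogeneous wt (rootExp p j l P) (p ^ l * N) := by
  rw [rootExp_apply, rootPoly]
  exact isWH_expand (p ^ l) (isWH_map _ h)

end hom

section ci

variable {p : ℕ} [Fact p.Prime] {k : Type u} [Field k] [CharP k p] [PerfectRing k p] {A : Type u}
  [CommRing A] [IsLocalRing A] [Algebra (WittVector p k) A] {d : ℕ} {x : Fin d → A} {b : ℕ}
  {G : ℕ → Ideal A} (CI : CIData p k A x b G)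

omit [IsLocalRing A] in
lemma rootExp_mem {P : MvPolynomial (Vr d CI.n) k} (h : P ∈ CI.fIdeal) (j l : ℕ) :
    rootExp p j l P ∈
      Ideal.span (Set.range fun v => expand (p ^ l) (rootPoly p j (CI.F v))) := by
  have := Ideal.mem_map_of_mem (rootExp p j l) h
  rw [CIData.fIdeal, Ideal.map_span, ← Set.range_comp] at this
  exact this

lemma U₀_mul_sub_mem : CI.U₀ * (inX CI.δ₀ - CI.U₀) ∈ CI.fIdeal :=
  GRA.U₀_mul_mem CI (GRA.δ₀_sub_U₀_mem CI)

lemma δ₀_sub_mul_mem : (inX CI.δ₀ - CI.U₀) * (inX CI.δ₀ - (inX CI.δ₀ - CI.U₀)) ∈ CI.fIdeal := by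
  rw [sub_sub_cancel, mul_comm]
  exact U₀_mul_sub_mem CI

omit [IsLocalRing A] in
/-- The congruence for the powers. -/
lemma pow_rootExp {U : MvPolynomial (Vr d CI.n) k}
    (hU : U * (inX CI.δ₀ - U) ∈ CI.fIdeal) (j l a t : ℕ) :
    (rootExp p j l (U * inX CI.δ₀ ^ a)) ^ (t + 1) -
        expand (p ^ l) (rootPoly p j U * rootPoly p j (inX CI.δ₀) ^ ((a + 1) * (t + 1) - 1)) ∈
      Ideal.span (Set.range fun v => expand (p ^ l) (rootPoly p j (CI.F v))) := by
  have e1 : (a + 1) * (t + 1) - 1 = a * (t + 1) + t := by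
    rw [add_mul, one_mul]
    omega
  have e : (U * inX CI.δ₀ ^ a) ^ (t + 1) - U * inX CI.δ₀ ^ ((a + 1) * (t + 1) - 1) =
      inX CI.δ₀ ^ (a * (t + 1)) * (U ^ (t + 1) - U * inX CI.δ₀ ^ t) := by
    rw [e1]
    ring
  have h := rootExp_mem CI (P := (U * inX CI.δ₀ ^ a) ^ (t + 1) -
    U * inX CI.δ₀ ^ ((a + 1) * (t + 1) - 1)) (by
      rw [e]; exact Ideal.mul_mem_left _ _ (pow_congr hU t)) j l
  rw [map_sub, map_pow] at h
  convert h using 2
  simp only [rootExp_apply, rootPoly, map_mul, map_pow]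

end ci

section std

variable {d n : ℕ}

/-- The exponent with given values off the `X`. -/
noncomputable def ofH (f : Hv n → ℕ) : Vr d n →₀ ℕ :=
  Finsupp.equivFunOnFinite.symm fun x => match x with
    | none => f none
    | some (Sum.inl _) => 0
    | some (Sum.inr z) => f (some z)

lemma ofH_hVar (f : Hv n → ℕ) (v : Hv n) : ofH (d := d) f (hVar v) = f v := by
  rcases v with _ | z <;> rfl

lemma ofH_inl (f : Hv n → ℕ) (l : Fin d) : ofH (d := d) f (some (Sum.inl l)) = 0 := rfl

lemma std_eq {deg : Hv n → ℕ} {γ : Vr d n →₀ ℕ} (h : IsStdExp (d := d) deg γ) :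
    ofH (fun v => γ (hVar v)) = γ := by
  refine Finsupp.ext fun x => ?_
  rcases x with _ | (l | z)
  · exact ofH_hVar _ none
  · exact (ofH_inl _ l).trans (h.1 l).symm
  · exact ofH_hVar _ (some z)

/-- The standard exponents as a product of ranges. -/
noncomputable def stdEquiv (deg : Hv n → ℕ) :
    (∀ v : Hv n, Fin (deg v)) ≃ {γ : Vr d n →₀ ℕ // IsStdExp (d := d) deg γ} where
  toFun f := ⟨ofH fun v => (f v : ℕ), fun l => ofH_inl _ l, fun v => by
    rw [ofH_hVar]; exact (f v).2⟩
  invFun γ v := ⟨γ.1 (hVar v), γ.2.2 v⟩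
  left_inv f := funext fun v => Fin.ext (ofH_hVar (fun v => (f v : ℕ)) v)
  right_inv γ := Subtype.ext (std_eq γ.2)

/-- An enumeration of the standard exponents. -/
lemma exists_std_enum (deg : Hv n → ℕ) :
    ∃ γ : Fin (∏ v, deg v) → Vr d n →₀ ℕ, Function.Injective γ ∧
      ∀ x, (∃ t, γ t = x) ↔ IsStdExp (d := d) deg x := by
  classical
  let e : Fin (∏ v, deg v) ≃ {γ : Vr d n →₀ ℕ // IsStdExp (d := d) deg γ} :=
    ((finCongr (by simp)).trans
      (Fintype.equivFin (∀ v : Hv n, Fin (deg v))).symm).trans (stdEquiv deg)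
  refine ⟨fun t => (e t).1, Subtype.val_injective.comp e.injective, fun x => ⟨?_, fun h => ?_⟩⟩
  · rintro ⟨t, rfl⟩; exact (e t).2
  · exact ⟨e.symm ⟨x, h⟩, by simp⟩

lemma weight_std_le {wt : Vr d n → ℕ} {deg : Hv n → ℕ} {γ : Vr d n →₀ ℕ}
    (h : IsStdExp (d := d) deg γ) :
    Finsupp.weight wt γ ≤ ∑ v : Hv n, deg v * wt (hVar v) := by
  rw [Finsupp.weight_apply, Finsupp.sum_fintype _ _ (fun _ => by simp), Fintype.sum_option,
    Fintype.sum_sum_type, Fintype.sum_option]
  rw [Finset.sum_eq_zero fun l _ => by rw [h.1 l, zero_smul], zero_add]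
  simp only [smul_eq_mul]
  exact Nat.add_le_add (Nat.mul_le_mul_right _ (h.2 none).le)
    (Finset.sum_le_sum fun z _ => Nat.mul_le_mul_right _ (h.2 (some z)).le)

end std

section minor

variable {p : ℕ} [Fact p.Prime] {k : Type u} [Field k] [CharP k p] {A : Type u} [CommRing A]
  [Algebra (WittVector p k) A] {d : ℕ} {x : Fin d → A} {b : ℕ} {G : ℕ → Ideal A}
  (CI : CIData p k A x b G)

/-- The minor of `1`. -/
lemma hasMinor_one : CI.HasMinor 1 (∏ v, CI.deg v) := by
  classical
  obtain ⟨γ, hγ, hstd⟩ := exists_std_enum (d := d) CI.deg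
  let I : Fin (∏ v, CI.deg v) → {γ // IsStdExp (d := d) CI.deg γ} :=
    fun t => ⟨γ t, (hstd _).1 ⟨t, rfl⟩⟩
  have hI : Function.Injective I := fun s t e => hγ (congrArg Subtype.val e)
  refine ⟨I, I, fun t => Finsupp.single (I t) 1, hI, hI, fun t => ?_, ?_⟩
  · rw [Finsupp.sum_single_index (by simp [inX]), show inX (n := CI.n) (1 : MvPolynomial (Fin d) k) = 1
      from map_one _, one_mul, sub_self]
    exact Ideal.zero_mem _
  · have e : (Matrix.of fun t t' => (Finsupp.single (I t) (1 : MvPolynomial (Fin d) k)) (I t')) = 1 := by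
      refine Matrix.ext fun t t' => ?_
      rw [Matrix.of_apply, Finsupp.single_apply, Matrix.one_apply]
      by_cases h : t = t'
      · simp [h]
      · rw [if_neg (fun e => h (hI e)), if_neg h]
    rw [e, Matrix.det_one]
    exact one_ne_zero

end minor

end Vale.Agent.P202.LW
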