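import Vale.Agent.P202.LW3Defs
import Vale.Agent.P202.LW4Alg

/-!
GoalLWin, part 5: the band ring acting on the windows of its levels, and the initial forms of the
powers of `E`, `D - E` and `D`.
-/

universe u

namespace Vale.Agent.P202.LW

open IsLocalRing MvPolynomial Finset

section smul

variable {S : Type u} [CommRing S] {X : Type u} [AddCommGroup X] [Module S X]

lemma smulId_pow (z : S) (t : ℕ) :
    (z • LinearMap.id : X →ₗ[S] X) ^ t = (z ^ t • LinearMap.id : X →ₗ[S] X) := by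
  rw [show (LinearMap.id : X →ₗ[S] X) = 1 from rfl, smul_pow, one_pow]

lemma rkD_smulId (z : S) (t : ℕ) :
    rkD (z • LinearMap.id : X →ₗ[S] X) t = lrk (z ^ t • LinearMap.id : X →ₗ[S] X) := by
  rw [rkD, lrk, smulId_pow]

/-- Two scalars with product `0` on a module share its length. -/
lemma lrk_add_le [IsNoetherian S X] [IsArtinian S X] {x y : S} (h : ∀ v : X, (x * y) • v = 0) :
    lrk (x • LinearMap.id : X →ₗ[S] X) + lrk (y • LinearMap.id : X →ₗ[S] X) ≤ len S X := by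
  have h1 : lrk (y • LinearMap.id : X →ₗ[S] X) ≤
      len S ↥(LinearMap.ker (x • LinearMap.id : X →ₗ[S] X)) := by
    refine M7.len_mono ?_
    rintro _ ⟨v, rfl⟩
    rw [LinearMap.mem_ker, LinearMap.smul_apply, LinearMap.smul_apply, LinearMap.id_apply,
      LinearMap.id_apply, smul_smul]
    exact h v
  have h2 := len_ker_add (x • LinearMap.id : X →ₗ[S] X)
  omega

lemma lrk_congr {x y : S} (h : ∀ v : X, x • v = y • v) :
    lrk (x • LinearMap.id : X →ₗ[S] X) = lrk (y • LinearMap.id : X →ₗ[S] X) := by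
  rw [show (x • LinearMap.id : X →ₗ[S] X) = y • LinearMap.id from LinearMap.ext h]

end smul

section band

variable {p : ℕ} [Fact p.Prime] {R : Type u} [CommRing R] [IsLocalRing R] {k : Type u} [Field k]
  [CharP k p] [PerfectRing k p] {A : Type u} [CommRing A] [Algebra R A]
  [Algebra (WittVector p k) A] {d : ℕ} {x : Fin d → A} {b : ℕ} {G : ℕ → Ideal A}
  {CI : CIData p k A x b G} {ι : ResidueField R →+* k} {i j K : ℕ}
  (B : Band p R CI ι i j K)

/-- The degree parts of the chains over `L`. -/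
abbrev degL : ℤ → Submodule B.L (PIdx d →₀ B.L) := phiDeg B.L B.L d

lemma winMul_eq (z : B.L) (a c r : ℤ) :
    B.winMul z a c r = z • LinearMap.id := by
  refine LinearMap.ext fun v => ?_
  obtain ⟨w, rfl⟩ := hmk_surjective _ _ _ r v
  rfl

/-- The complex over `L` filtered by fine levels. -/
lemma winCtx (hfin : ∀ u r : ℤ, Module.length B.L
    (winH (phiD B.mulX) (degL B) B.LamF u (u + 1) r) ≠ ⊤) :
    WinCtx (phiD B.mulX) (degL B) B.LamF where
  sq := phiD_phiD B.mulX_comm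
  anti := fun _ _ h => phiSub_mono fun _ => B.anti (by omega)
  stable := fun t => phiC_stable B.famStable B.tw t
  fin := hfin

lemma smul_LamF {z : B.L} {δz : ℤ} (hz : z ∈ B.Fil δz) (t : ℤ) :
    ∀ v ∈ B.LamF t, z • v ∈ B.LamF (t + δz) := by
  intro v hv c
  refine ⟨?_, fun hc => by rw [Finsupp.smul_apply, (hv c).2 hc, smul_zero]⟩
  rw [Finsupp.smul_apply, smul_eq_mul, show t + δz + (b : ℤ) * c.2.1 = δz + (t + b * c.2.1) by ring]
  exact B.fil_mul _ _ (Ideal.mul_mem_mul hz (hv c).1)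

lemma smul_win_eq_zero {z : B.L} {N : ℤ} (hz : z ∈ B.Fil N) {a c : ℤ} (hN : c - a ≤ N) (r : ℤ)
    (v : winH (phiD B.mulX) (degL B) B.LamF a c r) : z • v = 0 := by
  obtain ⟨w, rfl⟩ := hmk_surjective _ _ _ r v
  rw [← map_smul, hmk_eq_zero]
  refine Submodule.mem_sup_right ⟨?_, Submodule.smul_mem _ z w.2.1.2⟩
  exact phiSub_mono (fun σ => B.anti (by omega)) (smul_LamF B hz a w.1 w.2.1.1)

lemma lift_mem' {N : ℕ} {P : MvPolynomial (Vr d CI.n) B.κ} {z : B.L}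
    (hP : IsWeightedHomogeneous CI.wt P N) (h : z - B.lift P ∈ B.Fil ((N : ℤ) + 1)) :
    z ∈ B.Fil N := by
  have h1 := B.anti (show (N : ℤ) ≤ (N : ℤ) + 1 by omega) h
  have h2 := Ideal.add_mem _ h1 (B.lift_mem N P hP)
  rwa [sub_add_cancel] at h2

lemma lift_pow {N : ℕ} {P : MvPolynomial (Vr d CI.n) B.κ} {z : B.L}
    (hP : IsWeightedHomogeneous CI.wt P N) (h : z - B.lift P ∈ B.Fil ((N : ℤ) + 1)) (t : ℕ) :
    IsWeightedHomogeneous CI.wt (P ^ t) (t * N) ∧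
      z ^ t - B.lift (P ^ t) ∈ B.Fil (((t * N : ℕ) : ℤ) + 1) := by
  induction t with
  | zero =>
    refine ⟨by rw [pow_zero, zero_mul]; exact isWeightedHomogeneous_one _ _, ?_⟩
    rw [pow_zero, pow_zero, zero_mul, Nat.cast_zero, zero_add, ← neg_sub]
    exact (B.Fil 1).neg_mem B.lift_one
  | succ t ih =>
    obtain ⟨ih1, ih2⟩ := ih
    have hh : IsWeightedHomogeneous CI.wt (P ^ (t + 1)) ((t + 1) * N) := by
      rw [pow_succ, add_mul, one_mul]
      exact ih1.mul hP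
    refine ⟨hh, ?_⟩
    have e1 := B.lift_mul (t * N) N (P ^ t) P ih1 hP
    have e2 : (z ^ t - B.lift (P ^ t)) * z ∈ B.Fil (((t * N : ℕ) : ℤ) + 1 + N) :=
      B.fil_mul _ _ (Ideal.mul_mem_mul ih2 (lift_mem' B hP h))
    have e3 : B.lift (P ^ t) * (z - B.lift P) ∈ B.Fil (((t * N : ℕ) : ℤ) + ((N : ℤ) + 1)) :=
      B.fil_mul _ _ (Ideal.mul_mem_mul (B.lift_mem _ _ ih1) h)
    have e : ((((t + 1) * N : ℕ)) : ℤ) + 1 = ((t * N : ℕ) : ℤ) + N + 1 := by push_cast; ring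
    rw [e]
    rw [show ((t * N : ℕ) : ℤ) + 1 + N = ((t * N : ℕ) : ℤ) + N + 1 by ring] at e2
    rw [show ((t * N : ℕ) : ℤ) + ((N : ℤ) + 1) = ((t * N : ℕ) : ℤ) + N + 1 by ring] at e3
    have := Ideal.sub_mem _ (Ideal.add_mem _ e2 e3) e1
    convert this using 1
    rw [pow_succ, pow_succ]
    ring

variable (hi : i ≤ j)
include hi

lemma E_weight :
    p ^ (B.jq - i) * CI.c = p ^ (B.jq - j) * (CI.c + (p ^ (j - i) - 1) * CI.c) := by
  have hP : 0 < p ^ (j - i) := pow_pos (Fact.out : p.Prime).pos _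
  have := B.j_le
  rw [show B.jq - i = (B.jq - j) + (j - i) by omega, pow_add]
  rw [show CI.c + (p ^ (j - i) - 1) * CI.c = ((p ^ (j - i) - 1) + 1) * CI.c by ring,
    Nat.sub_add_cancel hP]
  ring

omit hi [PerfectRing k p] in
lemma isWH_δ₀ : IsWeightedHomogeneous CI.wt (inX CI.δ₀) CI.c := CI.δ_init.1

omit hi in
lemma isWH_UP {U : MvPolynomial (Vr d CI.n) k} (hU : IsWeightedHomogeneous CI.wt U CI.c) (a : ℕ) :
    IsWeightedHomogeneous CI.wt (U * inX CI.δ₀ ^ a) (CI.c + a * CI.c) := by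
  have := (isWH_δ₀ (CI := CI)).pow a
  rw [smul_eq_mul] at this
  exact hU.mul this

lemma E₀_spec :
    B.E₀.map B.κ.subtype = rootExp p j (B.jq - j) (CI.U₀ * inX CI.δ₀ ^ (p ^ (j - i) - 1)) ∧
      IsWeightedHomogeneous CI.wt B.E₀ (p ^ (B.jq - i) * CI.c) := by
  have e : B.E₀.map B.κ.subtype =
      rootExp p j (B.jq - j) (CI.U₀ * inX CI.δ₀ ^ (p ^ (j - i) - 1)) := by
    simp only [B.E₀_eq, rootExp_apply, rootPoly, map_mul, map_pow]
  refine ⟨e, isWH_of_map _ B.κ.subtype.injective ?_⟩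
  rw [e, E_weight B hi]
  exact isWH_rootExp _ _ (isWH_UP CI.u_init.1 _)

lemma D₀_spec :
    B.D₀.map B.κ.subtype = rootExp p j (B.jq - j) (inX CI.δ₀ ^ p ^ (j - i)) ∧
      IsWeightedHomogeneous CI.wt B.D₀ (p ^ (B.jq - i) * CI.c) := by
  have e : B.D₀.map B.κ.subtype = rootExp p j (B.jq - j) (inX CI.δ₀ ^ p ^ (j - i)) := by
    simp only [B.D₀_eq, rootExp_apply, rootPoly, map_pow]
  refine ⟨e, isWH_of_map _ B.κ.subtype.injective ?_⟩
  rw [e, E_weight B hi]
  refine isWH_rootExp _ _ ?_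
  have := (isWH_δ₀ (CI := CI)).pow (p ^ (j - i))
  rw [smul_eq_mul] at this
  have hP : 0 < p ^ (j - i) := pow_pos (Fact.out : p.Prime).pos _
  rwa [show CI.c + (p ^ (j - i) - 1) * CI.c = p ^ (j - i) * CI.c by
    rw [show CI.c + (p ^ (j - i) - 1) * CI.c = ((p ^ (j - i) - 1) + 1) * CI.c by ring,
      Nat.sub_add_cancel hP]]

lemma F₀_spec :
    (B.D₀ - B.E₀).map B.κ.subtype =
        rootExp p j (B.jq - j) ((inX CI.δ₀ - CI.U₀) * inX CI.δ₀ ^ (p ^ (j - i) - 1)) ∧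
      IsWeightedHomogeneous CI.wt (B.D₀ - B.E₀) (p ^ (B.jq - i) * CI.c) ∧
      (B.D - B.E) - B.lift (B.D₀ - B.E₀) ∈ B.Fil (((p ^ (B.jq - i) * CI.c : ℕ) : ℤ) + 1) := by
  obtain ⟨eE, hE⟩ := E₀_spec B hi
  obtain ⟨eD, hD⟩ := D₀_spec B hi
  refine ⟨?_, hD.sub hE, ?_⟩
  · rw [map_sub, eE, eD, ← map_sub]
    congr 1
    have hP : 0 < p ^ (j - i) := pow_pos (Fact.out : p.Prime).pos _
    rw [show inX (n := CI.n) CI.δ₀ ^ p ^ (j - i) = inX CI.δ₀ ^ (p ^ (j - i) - 1) * inX CI.δ₀ by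
      rw [← pow_succ, Nat.sub_add_cancel hP]]
    ring
  · have h := B.lift_add _ (B.D₀ - B.E₀) B.E₀ (hD.sub hE) hE
    rw [sub_add_cancel] at h
    have h1 := Ideal.add_mem _ (Ideal.sub_mem _ B.D_init B.E_init) h
    convert h1 using 1
    ring

omit hi in
/-- The congruence of a power of a form of the shape `U δ₀ ^ a`. -/
lemma pow_form [IsLocalRing A] {U : MvPolynomial (Vr d CI.n) k}
    (hU : U * (inX CI.δ₀ - U) ∈ CI.fIdeal) {P : MvPolynomial (Vr d CI.n) B.κ} {a : ℕ}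
    (hP : P.map B.κ.subtype = rootExp p j (B.jq - j) (U * inX CI.δ₀ ^ a)) (t : ℕ) :
    (P ^ (t + 1)).map B.κ.subtype - expand (p ^ (B.jq - j))
        (rootPoly p j U * rootPoly p j (inX CI.δ₀) ^ ((a + 1) * (t + 1) - 1)) ∈
      Ideal.span (Set.range fun v => expand (p ^ (B.jq - j)) (rootPoly p j (CI.F v))) := by
  rw [map_pow, hP]
  exact pow_rootExp CI hU j _ a t

end band

end Vale.Agent.P202.LW
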