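import Vale.Agent.P202.LW5Band

/-!
GoalLWin, part 6: from the lengths and ranks of levels to lengths and ranks of windows.
-/

universe u

namespace Vale.Agent.P202.LW

open IsLocalRing MvPolynomial Finset

variable {p : ℕ} [Fact p.Prime] {R : Type u} [CommRing R] [IsLocalRing R] {k : Type u} [Field k]
  [CharP k p] [PerfectRing k p] {A : Type u} [CommRing A] [Algebra R A]
  [Algebra (WittVector p k) A] {d : ℕ} {x : Fin d → A} {b : ℕ} {G : ℕ → Ideal A}
  {CI : CIData p k A x b G} {ι : ResidueField R →+* k} {i j K : ℕ}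
  (B : Band p R CI ι i j K) {N : ℕ} (γ : Fin N → Vr d CI.n →₀ ℕ)

/-- The weights of the normal monomials. -/
noncomputable def gNF : Fin N → ℤ := fun t => (Finsupp.weight CI.wt (γ t) : ℤ)

/-- The levels have the lengths of the free complex on the normal monomials. -/
def LevelLen : Prop :=
  ∀ u r : ℤ, Module.length B.L (winH (phiD B.mulX) (degL B) B.LamF u (u + 1) r) =
    (lev b B.tw (gNF γ) u r : ℕ∞)

/-- The ranks which the maps of `GoalLWMinor` leave. -/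
def LevelRank (Cb : ℕ) : Prop :=
  ∀ (δz : ℕ) (z : B.L) (P : MvPolynomial (Vr d CI.n) B.κ), IsWeightedHomogeneous CI.wt P δz →
    z - B.lift P ∈ B.Fil ((δz : ℤ) + 1) →
    ∀ (m' : ℕ) (g₁ : Fin m' → ℤ) (Am Tm : FreeMod B.κ m' d →ₗ[B.κ] FreeMod B.κ N d)
      (Bm : FreeMod B.κ N d →ₗ[B.κ] FreeMod B.κ m' d) (P' : MvPolynomial (Fin d) B.κ) (Δ : ℕ),
    (∀ o f, Am (xFree B.κ o f) = xFree B.κ o (Am f)) →
    (∀ o f, Tm (xFree B.κ o f) = xFree B.κ o (Tm f)) →
    (∀ o f, Bm (xFree B.κ o f) = xFree B.κ o (Bm f)) →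
    (∀ n, ∀ f ∈ freeFam B.κ (d := d) b g₁ n,
      Am f ∈ freeFam B.κ b (fun t => (Finsupp.weight CI.wt (γ t) : ℤ)) n) →
    (∀ n, ∀ f ∈ freeFam B.κ (d := d) b g₁ n,
      Tm f ∈ freeFam B.κ b (fun t => (Finsupp.weight CI.wt (γ t) : ℤ)) (n + δz)) →
    (∀ n, ∀ f ∈ freeFam B.κ (d := d) b (fun t => (Finsupp.weight CI.wt (γ t) : ℤ)) (n + δz),
      Bm f ∈ freeFam B.κ b g₁ (n + (b * Δ : ℕ))) →
    (∀ f, (P * nfPoly γ (Am f) - nfPoly γ (Tm f)).map B.κ.subtype ∈
      Ideal.span (Set.range fun v => expand (p ^ (B.jq - j)) (rootPoly p j (CI.F v)))) →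
    P' ≠ 0 → (∀ β ∈ P'.support, bdeg β = Δ) →
    (∀ f, Bm (Tm f) =
      pAct (X := fun o => (xFree B.κ o : FreeMod B.κ m' d →ₗ[B.κ] _)) xFree_comm P' f) →
    ∀ (hz : ∀ t, ∀ v ∈ B.LamF t, z • v ∈ B.LamF (t + δz)) (v r : ℤ) (L : ℕ), 1 ≤ L →
      (∀ l, (B.tw l).natAbs ≤ L) → (v + (b * Δ : ℕ)).natAbs ≤ L → (∀ i, (g₁ i).natAbs ≤ L) →
      Δ ≤ L →
      lev b B.tw g₁ v r * L ≤
        zRank (δ := phiD B.mulX) (P := phiDeg B.L B.L d) hz v r * L +
          Cb * m' * Δ * L ^ (d - 1)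

variable {B γ}

lemma gNF_mem (hstd : ∀ v, (∃ t, γ t = v) → IsStdExp (d := d) (fun w => B.mm * CI.deg w) v)
    (t : Fin N) : 0 ≤ gNF γ t ∧ gNF γ t ≤ ((B.mm * CI.stdBound : ℕ) : ℤ) := by
  refine ⟨Int.natCast_nonneg _, Int.ofNat_le.2 ?_⟩
  refine (weight_std_le (hstd _ ⟨t, rfl⟩)).trans (le_of_eq ?_)
  rw [CIData.stdBound, Finset.mul_sum]
  simp only [mul_assoc]

lemma levelLen_ctx (hlen : LevelLen B γ) : WinCtx (phiD B.mulX) (degL B) B.LamF :=
  winCtx B fun u r => by rw [hlen u r]; exact ENat.natCast_ne_top _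

lemma lvLen_eq (hlen : LevelLen B γ) (u r : ℤ) :
    lvLen (phiD B.mulX) (degL B) B.LamF u r = lev b B.tw (gNF γ) u r := by
  rw [lvLen, len, hlen u r, ENat.toNat_natCast]

lemma cnt_eq (a c r : ℤ) : B.cnt a c r = ∑ u ∈ Ico a c, lev1 b B.tw u r := rfl

/-- The length of a window is at most the count, up to the boundary. -/
lemma win_upper (hb : 0 < b) (hlen : LevelLen B γ)
    (hstd : ∀ v, (∃ t, γ t = v) → IsStdExp (d := d) (fun w => B.mm * CI.deg w) v)
    {L : ℕ} (htw : ∀ l, (B.tw l).natAbs ≤ L) {a c : ℤ} (hac : a ≤ c)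
    (hW : a.natAbs + c.natAbs + B.mm * CI.stdBound ≤ L) (r : ℤ) :
    len B.L (winH (phiD B.mulX) (degL B) B.LamF a c r) ≤
      N * B.cnt a c r + N * (B.mm * CI.stdBound * lwBox d L) := by
  refine (len_le_sum (levelLen_ctx hlen) hac r).trans ?_
  simp only [lvLen_eq hlen, cnt_eq]
  exact (sum_lev_approx hb htw (gNF_mem hstd) (x := a) (y := c)
    (fun u h1 h2 => by omega) r).1

/-- A minor of size `s` bounds the rank of the power of the form on a window from below. -/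
lemma win_lower [IsLocalRing A] (hMin : GoalLWMinor.{u}) (hd : 0 < d) (hb : 0 < b) (hR : B.Rich)
    {Cb : ℕ} (hlen : LevelLen B γ) (hlev : LevelRank B γ Cb) (hγ : Function.Injective γ)
    (hstd : ∀ v, (∃ t, γ t = v) ↔ IsStdExp (d := d) (fun w => B.mm * CI.deg w) v)
    {U : MvPolynomial (Vr d CI.n) k} {w s e δz : ℕ} (hU : IsWeightedHomogeneous CI.wt U w)
    (hUs : CI.HasMinor U s) (hs : s * B.mm ^ (CI.n + 1) ≤ N) {z : B.L}
    {P : MvPolynomial (Vr d CI.n) B.κ} (hδ : δz = B.mm * (w + e * CI.c))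
    (hP : IsWeightedHomogeneous CI.wt P δz) (hzP : z - B.lift P ∈ B.Fil ((δz : ℤ) + 1))
    (hcong : P.map B.κ.subtype -
        expand (p ^ (B.jq - j)) (rootPoly p j U * rootPoly p j (inX CI.δ₀) ^ e) ∈
      Ideal.span (Set.range fun v => expand (p ^ (B.jq - j)) (rootPoly p j (CI.F v))))
    {L : ℕ} (hL : 1 ≤ L) (htw : ∀ l, (B.tw l).natAbs ≤ L) {a c : ℤ} (hac : a ≤ c)
    (hW : a.natAbs + c.natAbs + B.mm * CI.stdBound +
      B.mm * (s * (w + e * CI.c + CI.stdBound)) ≤ L) (r : ℤ) :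
    s * B.mm ^ (CI.n + 1) * B.cnt a c r ≤
      rkD (z • LinearMap.id : winH (phiD B.mulX) (degL B) B.LamF a c r →ₗ[B.L]
          winH (phiD B.mulX) (degL B) B.LamF a c r) 1 +
        N * lwBox d L * (B.mm * CI.stdBound + δz + Cb * (B.mm * (s * (w + e * CI.c + CI.stdBound))) +
          4 * d * (B.mm * CI.stdBound)) := by
  subst hδ
  obtain ⟨m', g₁, Am, Tm, Bm, P', Δ, hm', hg₁, hA, hT, hB, hAd, hTd, hBd, hPA, hP0, hP', hBT, hΔ⟩ :=
    hMin p k A d x b G hd CI B.κ j (B.jq - j) hR N γ hγ hstd U w s e hU hUs P hP hcong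
  set M := B.mm * CI.stdBound with hM
  set Δb := B.mm * (s * (w + e * CI.c + CI.stdBound)) with hΔb
  set Bx := lwBox d L with hBx
  set δz := B.mm * (w + e * CI.c) with hδz
  have hctx := levelLen_ctx hlen
  have hz : ∀ t, ∀ v ∈ B.LamF t, z • v ∈ B.LamF (t + (δz : ℤ)) :=
    fun t => smul_LamF B (lift_mem' B hP hzP) t
  have hm'N : m' ≤ N := hm'.le.trans hs
  have hbΔ : b * Δ ≤ Δb := hΔ
  have hΔb' : Δ ≤ Δb := le_trans (Nat.le_mul_of_pos_left Δ hb) hbΔ
  have hg₁' : ∀ t, 0 ≤ g₁ t ∧ g₁ t ≤ (M : ℤ) := hg₁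
  have hWu : ∀ u, a - (M : ℤ) ≤ u → u < c → u.natAbs ≤ L := fun u h1 h2 => by omega
  -- the count of the small free module
  have S1 : m' * B.cnt a c r ≤ (∑ u ∈ Ico a c, lev b B.tw g₁ u r) + m' * (M * Bx) := by
    rw [cnt_eq]
    exact (sum_lev_approx hb htw hg₁' hWu r).2
  have S2 : ∑ u ∈ Ico a c, lev b B.tw g₁ u r ≤
      (∑ u ∈ Ico a (c - δz), lev b B.tw g₁ u r) + δz * (m' * Bx) := by
    refine (Finset.sum_le_sum_of_subset (t := Ico a (c - δz) ∪ Ico (max a (c - δz)) c) ?_).trans ?_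
    · intro u hu
      simp only [Finset.mem_union, Finset.mem_Ico] at hu ⊢
      omega
    rw [Finset.sum_union (Finset.disjoint_left.2 fun u h1 h2 => by
      simp only [Finset.mem_Ico] at h1 h2
      omega)]
    refine Nat.add_le_add_left ((Finset.sum_le_sum (g := fun _ => m' * Bx) fun u hu => ?_).trans ?_) _
    · simp only [Finset.mem_Ico] at hu
      exact lev_le hb htw (fun t => hWu _ (by have := hg₁' t; omega) (by have := hg₁' t; omega)) r
    · rw [Finset.sum_const, smul_eq_mul, Int.card_Ico]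
      exact Nat.mul_le_mul_right _ (by omega)
  have S3 : ∑ u ∈ Ico a (c - δz), lev b B.tw g₁ u r ≤
      (∑ u ∈ Ico a (c - δz), zRank (δ := phiD B.mulX) (P := degL B) hz u r) +
        Cb * m' * Δb * Bx := by
    refine Nat.le_of_mul_le_mul_right ?_ (show 0 < L by omega)
    rw [Finset.sum_mul, add_mul, Finset.sum_mul]
    refine (Finset.sum_le_sum (g := fun u => zRank (δ := phiD B.mulX) (P := degL B) hz u r * L +
      Cb * m' * Δ * L ^ (d - 1)) fun u hu => ?_).trans ?_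
    · simp only [Finset.mem_Ico] at hu
      exact hlev δz z P hP hzP m' g₁ Am Tm Bm P' Δ hA hT hB hAd hTd hBd hPA hP0 hP' hBT hz u r L
        hL htw (by omega) (fun t => by have := hg₁' t; omega) (by omega)
    rw [Finset.sum_add_distrib, Finset.sum_const, smul_eq_mul, Int.card_Ico]
    refine Nat.add_le_add_left ?_ _
    calc (c - δz - a).toNat * (Cb * m' * Δ * L ^ (d - 1)) ≤ L * (Cb * m' * Δb * Bx) := by
          refine Nat.mul_le_mul (by omega) (Nat.mul_le_mul (Nat.mul_le_mul_left _ hΔb') ?_)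
          exact Nat.pow_le_pow_left (by omega) _
      _ = _ := mul_comm _ _
  have hnear : ∀ r', nearLen (phiD B.mulX) (degL B) B.LamF (lwNearSet b B.tw M) a c r' ≤
      d * M * (N * Bx) := fun r' => by
    simp only [nearLen, lvLen_eq hlen]
    refine near_sum_le hb htw (fun t u hu => ?_) r'
    simp only [Finset.mem_Ico] at hu
    have h3 := gNF_mem (fun v => (hstd v).1) t
    exact hWu _ (by omega) (by omega)
  have hdeg : ∀ u r', a ≤ u → u < c → u ∉ lwNearSet b B.tw M → (lwDeg b B.tw u : ℤ) ≠ r' →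
      lvLen (phiD B.mulX) (degL B) B.LamF u r' = 0 := fun u r' _ _ hu hr => by
    rw [lvLen_eq hlen]
    exact lev_eq_zero hb (gNF_mem fun v => (hstd v).1) hu hr
  have S4 := rank_window hctx hz (Nr := lwNearSet b B.tw M) (R := lwDeg b B.tw)
    (fun u v h => lwDeg_anti h) hac hdeg r
  have n1 := hnear (r - 1)
  have n2 := hnear r
  have n3 := hnear (r + 1)
  rw [show s * B.mm ^ (CI.n + 1) = m' from hm'.symm]
  have f1 : m' * (M * Bx) ≤ N * Bx * M := by
    rw [mul_comm M, ← mul_assoc]; gcongr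
  have f2 : δz * (m' * Bx) ≤ N * Bx * δz := by
    rw [mul_comm]; gcongr
  have f3 : Cb * m' * Δb * Bx ≤ N * Bx * (Cb * Δb) := by
    calc Cb * m' * Δb * Bx ≤ Cb * N * Δb * Bx := by gcongr
      _ = _ := by ring
  have f4 : 4 * (d * M * (N * Bx)) = N * Bx * (4 * d * M) := by ring
  rw [mul_add, mul_add, mul_add]
  omega

end Vale.Agent.P202.LW
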