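import Vale.Agent.P202.LW6Window

/-!
GoalLWin, part 7: the rank estimates on the windows, from the level statements and the minors.

The ranks of `E ^ s` and `(D - E) ^ s` are bounded below by the counts with `e` and `N - e`; their
product kills the window, whose length is at most the count with `N`, so both bounds are sharp.
-/

universe u

namespace Vale.Agent.P202.LW

open IsLocalRing MvPolynomial

/-- The parameters of a window are at most `q Λ`, and the error factor at most `w α`. -/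
lemma num_small {m P w q c cF N₀ J d b H Cb Λ α : ℕ} (hmP : m * P = w) (hmw : m ≤ w) (hwq : w ≤ q)
    (hΛ : 2 * b * H + cF + N₀ * (J * c + cF) ≤ Λ)
    (hα : cF + J * c + Cb * (N₀ * (J * c + cF)) + 4 * d * cF ≤ α)
    {T S X Y : ℕ} (hT : T ≤ J) (hS : S ≤ N₀) (hX : X = T * P * c) (hY : Y ≤ q * (2 * b * H)) :
    Y + m * cF + m * (S * (X + cF)) ≤ q * Λ ∧
      m * cF + m * X + Cb * (m * (S * (X + cF))) + 4 * d * (m * cF) ≤ w * α := by
  have h1 : m * X ≤ w * (J * c) := by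
    rw [hX, ← hmP]
    calc m * (T * P * c) ≤ m * (J * P * c) := by gcongr
      _ = _ := by ring
  have h2 : m * cF ≤ w * cF := Nat.mul_le_mul_right _ hmw
  have h3 : m * (S * (X + cF)) ≤ w * (N₀ * (J * c + cF)) := by
    calc m * (S * (X + cF)) = S * (m * X + m * cF) := by ring
      _ ≤ N₀ * (w * (J * c) + w * cF) := by gcongr
      _ = _ := by ring
  refine ⟨?_, ?_⟩
  · have h4 : w * cF ≤ q * cF := Nat.mul_le_mul_right _ hwq
    have h5 : w * (N₀ * (J * c + cF)) ≤ q * (N₀ * (J * c + cF)) := Nat.mul_le_mul_right _ hwq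
    have h6 : q * (2 * b * H) + q * cF + q * (N₀ * (J * c + cF)) ≤ q * Λ := by
      rw [← mul_add, ← mul_add]; exact Nat.mul_le_mul_left _ hΛ
    omega
  · calc m * cF + m * X + Cb * (m * (S * (X + cF))) + 4 * d * (m * cF)
        ≤ w * cF + w * (J * c) + Cb * (w * (N₀ * (J * c + cF))) + 4 * d * (w * cF) := by gcongr
      _ = w * (cF + J * c + Cb * (N₀ * (J * c + cF)) + 4 * d * cF) := by ring
      _ ≤ _ := Nat.mul_le_mul_left _ hα

/-- The error against the unit. -/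
lemma err_le {N₀ M Λ' α w P q d c Err Gc unit : ℕ} {ε : ℝ} (hd : 0 < d) (hP : 0 < P)
    (hErr : Err = N₀ * M * (Λ' * q) ^ (d - 1) * (w * α)) (hwP : w * P = q)
    (hGc : Gc = 2 * N₀ * Λ' ^ (d - 1) * α) (hunit : unit = c * M * q ^ d)
    (hε : (Gc : ℝ) ≤ ε * P) : ((2 * Err : ℕ) : ℝ) * c ≤ ε * unit := by
  have e1 : (2 * Err * c) * P = Gc * unit := by
    subst hErr hGc hunit
    rw [mul_pow, show q ^ d = q ^ (d - 1) * q by rw [← pow_succ, Nat.sub_add_cancel hd]]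
    conv_rhs => rw [← hwP]
    rw [← hwP]
    ring
  have hP' : (0 : ℝ) < P := by exact_mod_cast hP
  refine le_of_mul_le_mul_right ?_ hP'
  calc ((2 * Err : ℕ) : ℝ) * c * P = (Gc : ℝ) * unit := by exact_mod_cast e1
    _ ≤ ε * P * unit := mul_le_mul_of_nonneg_right hε (Nat.cast_nonneg _)
    _ = _ := by ring

variable {p : ℕ} [Fact p.Prime] {R : Type u} [CommRing R] [IsLocalRing R] {k : Type u} [Field k]
  [CharP k p] [PerfectRing k p] {A : Type u} [CommRing A] [IsLocalRing A] [Algebra R A]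
  [Algebra (WittVector p k) A] {d : ℕ} {x : Fin d → A} {b : ℕ} {G : ℕ → Ideal A}
  {CI : CIData p k A x b G} {ι : ResidueField R →+* k} {i j K : ℕ}
  {B : Band p R CI ι i j K} {N : ℕ} {γ : Fin N → Vr d CI.n →₀ ℕ}

/-- A window on which `L` acts, with an upper bound for its length. -/
lemma ker_pow_le {S X : Type u} [CommRing S] [AddCommGroup X] [Module S X] [IsNoetherian S X]
    [IsArtinian S X] (z : S) (t T E : ℕ) (hup : len S X ≤ T + E)
    (hlow : T ≤ lrk (z ^ t • LinearMap.id : X →ₗ[S] X) + E) :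
    len S ↥(LinearMap.ker ((z • LinearMap.id : X →ₗ[S] X) ^ t)) ≤ 2 * E := by
  rw [smulId_pow]
  have := len_ker_add (z ^ t • LinearMap.id : X →ₗ[S] X)
  omega

/-- Two lower bounds with product `0` give an upper bound. -/
lemma rkD_two_sided {S X : Type u} [CommRing S] [AddCommGroup X] [Module S X] [IsNoetherian S X]
    [IsArtinian S X] (z y : S) (t T T' E : ℕ) (hup : len S X ≤ T + T' + E)
    (hlow : T ≤ lrk (z ^ t • LinearMap.id : X →ₗ[S] X) + E)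
    (hlow' : T' ≤ lrk (y ^ t • LinearMap.id : X →ₗ[S] X) + E)
    (hkill : ∀ v : X, (z ^ t * y ^ t) • v = 0) :
    rkD (z • LinearMap.id : X →ₗ[S] X) t ≤ T + 2 * E ∧
      T ≤ rkD (z • LinearMap.id : X →ₗ[S] X) t + 2 * E := by
  rw [rkD_smulId]
  have := lrk_add_le hkill
  omega

/-- The common hypotheses on a window. -/
structure WinHyp (B : Band p R CI ι i j K) (γ : Fin N → Vr d CI.n →₀ ℕ) (Cb L J Err α : ℕ)
    (a c : ℤ) : Prop where
  hMin : GoalLWMinor.{u}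
  hd : 0 < d
  hb : 0 < b
  hR : B.Rich
  hij : i ≤ j
  hlen : LevelLen B γ
  hlev : LevelRank B γ Cb
  hγ : Function.Injective γ
  hstd : ∀ v, (∃ t, γ t = v) ↔ IsStdExp (d := d) (fun w => B.mm * CI.deg w) v
  hN : N = (∏ v, CI.deg v) * B.mm ^ (CI.n + 1)
  hL : 1 ≤ L
  htw : ∀ l, (B.tw l).natAbs ≤ L
  hac : a ≤ c
  hK : a.natAbs + c.natAbs ≤ p ^ B.jq * K
  hsmall : ∀ (T S₁ X : ℕ), T ≤ J → S₁ ≤ ∏ v, CI.deg v → X = T * p ^ (j - i) * CI.c →
    a.natAbs + c.natAbs + B.mm * CI.stdBound + B.mm * (S₁ * (X + CI.stdBound)) ≤ L ∧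
    B.mm * CI.stdBound + B.mm * X + Cb * (B.mm * (S₁ * (X + CI.stdBound))) +
      4 * d * (B.mm * CI.stdBound) ≤ p ^ (B.jq - i) * α
  hErr : N * lwBox d L * (p ^ (B.jq - i) * α) ≤ Err

variable {Cb L J Err α : ℕ} {a c : ℤ}

/-- One form on one window. -/
lemma win_form (h : WinHyp B γ Cb L J Err α a c) {U : MvPolynomial (Vr d CI.n) k}
    {w S₁ e₁ T : ℕ} {z : B.L} {P : MvPolynomial (Vr d CI.n) B.κ}
    (hU : IsWeightedHomogeneous CI.wt U w) (hUs : CI.HasMinor U S₁)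
    (hS₁ : S₁ ≤ ∏ v, CI.deg v) (hT : T ≤ J) (hX : w + e₁ * CI.c = T * p ^ (j - i) * CI.c)
    (hP : IsWeightedHomogeneous CI.wt P (T * (p ^ (B.jq - i) * CI.c)))
    (hzP : z - B.lift P ∈ B.Fil (((T * (p ^ (B.jq - i) * CI.c) : ℕ) : ℤ) + 1))
    (hcong : P.map B.κ.subtype -
        expand (p ^ (B.jq - j)) (rootPoly p j U * rootPoly p j (inX CI.δ₀) ^ e₁) ∈
      Ideal.span (Set.range fun v => expand (p ^ (B.jq - j)) (rootPoly p j (CI.F v)))) (r : ℤ) :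
    S₁ * B.mm ^ (CI.n + 1) * B.cnt a c r ≤
      lrk (z • LinearMap.id : winH (phiD B.mulX) (degL B) B.LamF a c r →ₗ[B.L]
        winH (phiD B.mulX) (degL B) B.LamF a c r) + Err := by
  have hjq := B.j_le
  have hij := h.hij
  have hmm : B.mm * p ^ (j - i) = p ^ (B.jq - i) := by
    rw [Band.mm, ← pow_add]; congr 1; omega
  obtain ⟨hW, hbr⟩ := h.hsmall T S₁ (w + e₁ * CI.c) hT hS₁ hX
  have hδ : T * (p ^ (B.jq - i) * CI.c) = B.mm * (w + e₁ * CI.c) := by rw [hX, ← hmm]; ring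
  have h1 := win_lower (B := B) (γ := γ) h.hMin h.hd h.hb h.hR (Cb := Cb) h.hlen h.hlev h.hγ h.hstd
    hU hUs (by rw [h.hN]; exact Nat.mul_le_mul_right _ hS₁) hδ hP hzP hcong h.hL h.htw h.hac hW r
  rw [rkD, pow_one] at h1
  refine h1.trans (Nat.add_le_add_left ?_ _)
  rw [hδ]
  exact (Nat.mul_le_mul_left _ hbr).trans h.hErr

omit [IsLocalRing A] in
lemma win_len (h : WinHyp B γ Cb L J Err α a c) (r : ℤ) :
    len B.L (winH (phiD B.mulX) (degL B) B.LamF a c r) ≤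
      (∏ v, CI.deg v) * B.mm ^ (CI.n + 1) * B.cnt a c r + Err := by
  obtain ⟨hW, hbr⟩ := h.hsmall 0 0 0 (Nat.zero_le _) (Nat.zero_le _) (by simp)
  have hle : B.mm * CI.stdBound ≤ p ^ (B.jq - i) * α := by omega
  rw [← h.hN]
  refine (win_upper (γ := γ) h.hb h.hlen (fun v => (h.hstd v).1) h.htw h.hac (by omega) r).trans
    (Nat.add_le_add_left (le_trans (le_of_eq ?_) ((Nat.mul_le_mul_left _ hle).trans h.hErr)) _)
  ring

omit [IsLocalRing A] in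
lemma pow_D₀ (hij : i ≤ j) (t : ℕ) :
    (B.D₀ ^ (t + 1)).map B.κ.subtype - expand (p ^ (B.jq - j))
        (rootPoly p j 1 * rootPoly p j (inX CI.δ₀) ^ (p ^ (j - i) * (t + 1))) ∈
      Ideal.span (Set.range fun v => expand (p ^ (B.jq - j)) (rootPoly p j (CI.F v))) := by
  obtain ⟨eD, -⟩ := D₀_spec B hij
  simp only [map_pow, eD, rootExp_apply, rootPoly, map_one, one_mul, ← pow_mul, sub_self]
  exact Ideal.zero_mem _

omit [IsLocalRing A] in
lemma len_ker_one {S X : Type u} [CommRing S] [AddCommGroup X] [Module S X] (f : X →ₗ[S] X) :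
    len S ↥(LinearMap.ker (f ^ 0)) = 0 := by
  rw [len, pow_zero, LinearMap.ker_eq_bot.2 (fun _ _ h => h), Module.length_bot]
  rfl

lemma win_kerD (h : WinHyp B γ Cb L J Err α a c) (r : ℤ) {t : ℕ} (ht : t ≤ J) :
    len B.L ↥(LinearMap.ker (B.winMul B.D a c r ^ t)) ≤ 2 * Err := by
  have hctx := levelLen_ctx (γ := γ) h.hlen
  have := win_noeth hctx h.hac r
  have := win_art hctx h.hac r
  rw [winMul_eq]
  rcases t with _ | t
  · rw [len_ker_one]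
    exact Nat.zero_le _
  obtain ⟨-, hD⟩ := D₀_spec B h.hij
  obtain ⟨hP, hzP⟩ := lift_pow B hD B.D_init (t + 1)
  have he : 0 + p ^ (j - i) * (t + 1) * CI.c = (t + 1) * p ^ (j - i) * CI.c := by ring
  exact ker_pow_le B.D (t + 1) _ Err (win_len h r)
    (win_form h (isWeightedHomogeneous_one _ _) (hasMinor_one CI) le_rfl ht he hP hzP
      (pow_D₀ h.hij t) r)

lemma win_rankE (h : WinHyp B γ Cb L J Err α a c) {S S' : ℕ}
    (hSS : S + S' = ∏ v, CI.deg v) (hmS : CI.HasMinor CI.U₀ S)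
    (hmS' : CI.HasMinor (inX CI.δ₀ - CI.U₀) S') (r : ℤ) {t : ℕ} (ht1 : 1 ≤ t) (htJ : t ≤ J) :
    rkD (B.winMul B.E a c r) t ≤ S * B.mm ^ (CI.n + 1) * B.cnt a c r + 2 * Err ∧
      S * B.mm ^ (CI.n + 1) * B.cnt a c r ≤ rkD (B.winMul B.E a c r) t + 2 * Err := by
  obtain ⟨t, rfl⟩ : ∃ t', t = t' + 1 := ⟨t - 1, by omega⟩
  have hctx := levelLen_ctx (γ := γ) h.hlen
  have := win_noeth hctx h.hac r
  have := win_art hctx h.hac r
  obtain ⟨eE, hE⟩ := E₀_spec B h.hij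
  obtain ⟨eF, hF, hFl⟩ := F₀_spec B h.hij
  obtain ⟨hPE, hzE⟩ := lift_pow B hE B.E_init (t + 1)
  obtain ⟨hPF, hzF⟩ := lift_pow B hF hFl (t + 1)
  have hP1 : 1 ≤ p ^ (j - i) := Nat.one_le_pow _ _ (Fact.out : p.Prime).pos
  have hX : CI.c + ((p ^ (j - i) - 1 + 1) * (t + 1) - 1) * CI.c =
      (t + 1) * p ^ (j - i) * CI.c := by
    rw [Nat.sub_add_cancel hP1]
    have h1 : 1 ≤ p ^ (j - i) * (t + 1) := Nat.succ_le_of_lt (Nat.mul_pos hP1 (Nat.succ_pos t))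
    calc CI.c + (p ^ (j - i) * (t + 1) - 1) * CI.c
        = (p ^ (j - i) * (t + 1) - 1 + 1) * CI.c := by ring
      _ = _ := by rw [Nat.sub_add_cancel h1]; ring
  have hlen := win_len h r
  rw [← hSS, add_mul, add_mul] at hlen
  rw [winMul_eq]
  refine rkD_two_sided B.E (B.D - B.E) (t + 1) _ _ Err hlen
    (win_form h CI.u_init.1 hmS (by omega) htJ hX hPE hzE (pow_form B (U₀_mul_sub_mem CI) eE t) r)
    (win_form h (CI.δ_init.1.sub CI.u_init.1) hmS' (by omega) htJ hX hPF hzF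
      (pow_form B (δ₀_sub_mul_mem CI) eF t) r) ?_
  have hK := h.hK
  refine smul_win_eq_zero B (N := ((p ^ B.jq * K : ℕ) : ℤ)) ?_ (by omega) r
  rw [← mul_pow]
  exact Ideal.pow_mem_of_mem _ B.E_idem _ (Nat.succ_pos t)

/-- All the conclusions for one band, with the constants given. -/
lemma band_main (hMin : GoalLWMinor.{u}) (hd : 0 < d) (hb : 0 < b) (hR : B.Rich) (hij : i ≤ j)
    (hlen : LevelLen B γ) (hlev : LevelRank B γ Cb) (hγ : Function.Injective γ)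
    (hstd : ∀ v, (∃ t, γ t = v) ↔ IsStdExp (d := d) (fun w => B.mm * CI.deg w) v)
    (hN : N = (∏ v, CI.deg v) * B.mm ^ (CI.n + 1)) {S S' : ℕ}
    (hSS : S + S' = ∏ v, CI.deg v) (hmS : CI.HasMinor CI.U₀ S)
    (hmS' : CI.HasMinor (inX CI.δ₀ - CI.U₀) S') {H : ℕ} (hK : 2 * b * H ≤ K) {Λ : ℕ}
    (hΛ : 2 * b * H + CI.stdBound + (∏ v, CI.deg v) * (J * CI.c + CI.stdBound) +
      (2 * d + 4) * b + 1 ≤ Λ)
    (hα : CI.stdBound + J * CI.c + Cb * ((∏ v, CI.deg v) * (J * CI.c + CI.stdBound)) +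
      4 * d * CI.stdBound ≤ α) :
    ∀ a c : ℤ, -((B.blen : ℤ) * H) ≤ a → a ≤ c → c ≤ (B.blen : ℤ) * H → ∀ r : ℤ,
      Module.length B.L (winH (phiD B.mulX) (degL B) B.LamF a c r) ≠ ⊤ ∧
      (∀ t, t ≤ J → len B.L ↥(LinearMap.ker (B.winMul B.D a c r ^ t)) ≤
        2 * ((∏ v, CI.deg v) * B.mm ^ (CI.n + 1) * ((d + 2 * Λ + 2) * B.qq) ^ (d - 1) *
          (p ^ (B.jq - i) * α))) ∧
      ∀ t, 1 ≤ t → t ≤ J → |(rkD (B.winMul B.E a c r) t : ℝ) -
          (S : ℝ) * (B.mm : ℝ) ^ (CI.n + 1) * (B.cnt a c r : ℝ)| ≤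
        ((2 * ((∏ v, CI.deg v) * B.mm ^ (CI.n + 1) * ((d + 2 * Λ + 2) * B.qq) ^ (d - 1) *
          (p ^ (B.jq - i) * α)) : ℕ) : ℝ) := by
  intro a c ha hac hc r
  refine ⟨win_finite (levelLen_ctx (γ := γ) hlen) a c r hac, ?_⟩
  have hjq := B.j_le
  have hp1 : 1 < p := (Fact.out : p.Prime).one_lt
  have hq1 : 1 ≤ B.qq := Nat.one_le_pow _ _ (by omega)
  have hwq : p ^ (B.jq - i) ≤ B.qq := Nat.pow_le_pow_right (by omega) (Nat.sub_le _ _)
  have hmm : B.mm * p ^ (j - i) = p ^ (B.jq - i) := by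
    rw [Band.mm, ← pow_add]; congr 1; omega
  have hmm1 : B.mm ≤ p ^ (B.jq - i) := by
    rw [← hmm]; exact Nat.le_mul_of_pos_right _ (pow_pos (by omega) _)
  have hblen : B.blen = B.qq * b := rfl
  have htw : ∀ l, (B.tw l).natAbs ≤ B.qq * Λ := fun l => by
    refine (natAbs_twistOf_le hb (isCrit_zetaOf hd).1 (Nat.mul_pos hq1 hb) l).trans ?_
    calc (2 * d + 4) * B.blen = B.qq * ((2 * d + 4) * b) := by rw [hblen]; ring
      _ ≤ B.qq * Λ := Nat.mul_le_mul_left _ (by omega)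
  have hac' : a.natAbs + c.natAbs ≤ B.qq * (2 * b * H) := by
    have h1 : (B.blen : ℤ) * H = ((B.qq * b * H : ℕ) : ℤ) := by rw [hblen]; push_cast; ring
    have h2 : B.qq * (2 * b * H) = 2 * (B.qq * b * H) := by ring
    omega
  have hbox : lwBox d (B.qq * Λ) ≤ ((d + 2 * Λ + 2) * B.qq) ^ (d - 1) := by
    refine Nat.pow_le_pow_left ?_ _
    have h1 : (d + 2) * 1 ≤ (d + 2) * B.qq := Nat.mul_le_mul_left _ hq1
    have h2 : (d + 2 * Λ + 2) * B.qq = 2 * (B.qq * Λ) + (d + 2) * B.qq := by ring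
    omega
  have hwin : WinHyp B γ Cb (B.qq * Λ) J ((∏ v, CI.deg v) * B.mm ^ (CI.n + 1) *
      ((d + 2 * Λ + 2) * B.qq) ^ (d - 1) * (p ^ (B.jq - i) * α)) α a c :=
    ⟨hMin, hd, hb, hR, hij, hlen, hlev, hγ, hstd, hN,
      Nat.one_le_iff_ne_zero.2 (Nat.mul_ne_zero (by omega) (by omega)), htw, hac,
      hac'.trans (Nat.mul_le_mul_left _ hK),
      fun T S₁ X hT hS₁ hX => num_small hmm hmm1 hwq (by omega) hα hT hS₁ hX hac',
      by rw [hN]; exact Nat.mul_le_mul_right _ (Nat.mul_le_mul_left _ hbox)⟩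
  refine ⟨fun t ht => win_kerD hwin r ht, fun t ht1 htJ => ?_⟩
  obtain ⟨b1, b2⟩ := win_rankE hwin hSS hmS hmS' r ht1 htJ
  have c1 := (Nat.cast_le (α := ℝ)).2 b1
  have c2 := (Nat.cast_le (α := ℝ)).2 b2
  simp only [Nat.cast_add, Nat.cast_mul, Nat.cast_pow] at c1 c2 ⊢
  rw [abs_le]
  constructor <;> linarith

/-- A scale beyond which the error is below `ε`. -/
lemma exists_scale (G : ℕ) {p : ℕ} (hp : 1 < p) {ε : ℝ} (hε : 0 < ε) :
    ∃ i₀ : ℕ, ∀ i, i₀ ≤ i → (G : ℝ) ≤ ε * ((p ^ i : ℕ) : ℝ) := by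
  have hp1 : (1 : ℝ) < (p : ℝ) := by exact_mod_cast hp
  obtain ⟨i₀, hi₀⟩ := pow_unbounded_of_one_lt ((G : ℝ) / ε) hp1
  refine ⟨i₀, fun i hi => ?_⟩
  rw [div_lt_iff₀ hε, mul_comm] at hi₀
  rw [Nat.cast_pow]
  exact hi₀.le.trans (mul_le_mul_of_nonneg_left (pow_le_pow_right₀ hp1.le hi) hε.le)

/-- Everything after the choice of the band. -/
lemma band_goal (hMin : GoalLWMinor.{u}) (hd : 0 < d) (hb : 0 < b) (hR : B.Rich) (hij : i ≤ j)
    (hlev : ∀ (N : ℕ) (γ : Fin N → Vr d CI.n →₀ ℕ), Function.Injective γ →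
      (∀ v, (∃ t, γ t = v) ↔ IsStdExp (d := d) (fun w => B.mm * CI.deg w) v) →
        LevelLen B γ ∧ LevelRank B γ Cb) {S S' : ℕ}
    (hSS : S + S' = ∏ v, CI.deg v) (hmS : CI.HasMinor CI.U₀ S)
    (hmS' : CI.HasMinor (inX CI.δ₀ - CI.U₀) S') {H : ℕ} (hK : 2 * b * H ≤ K) {Λ : ℕ}
    (hΛ : 2 * b * H + CI.stdBound + (∏ v, CI.deg v) * (J * CI.c + CI.stdBound) +
      (2 * d + 4) * b + 1 ≤ Λ)
    (hα : CI.stdBound + J * CI.c + Cb * ((∏ v, CI.deg v) * (J * CI.c + CI.stdBound)) +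
      4 * d * CI.stdBound ≤ α) {e ε : ℝ} (hS : (S : ℝ) = e)
    (hi : ((2 * (∏ v, CI.deg v) * (d + 2 * Λ + 2) ^ (d - 1) * α : ℕ) : ℝ) ≤
      ε * ((p ^ i : ℕ) : ℝ)) :
    ∃ η : ℕ, (η : ℝ) * B.c ≤ ε * B.unit ∧
      ∀ a c : ℤ, -((B.blen : ℤ) * H) ≤ a → a ≤ c → c ≤ (B.blen : ℤ) * H → ∀ r : ℤ,
        Module.length B.L (winH (phiD B.mulX) (degL B) B.LamF a c r) ≠ ⊤ ∧
        (∀ t, t ≤ J → len B.L ↥(LinearMap.ker (B.winMul B.D a c r ^ t)) ≤ η) ∧
        ∀ t, 1 ≤ t → t ≤ J → |(rkD (B.winMul B.E a c r) t : ℝ) -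
          e * (B.mm : ℝ) ^ (CI.n + 1) * (B.cnt a c r : ℝ)| ≤ (η : ℝ) := by
  obtain ⟨γ, hγ, hstd⟩ := exists_std_enum (d := d) (n := CI.n) fun w => B.mm * CI.deg w
  obtain ⟨h1, h2⟩ := hlev _ γ hγ hstd
  have hN : (∏ w, (B.mm * CI.deg w)) = (∏ v, CI.deg v) * B.mm ^ (CI.n + 1) := by
    rw [Finset.prod_mul_distrib, Finset.prod_const, Finset.card_univ, Fintype.card_option,
      Fintype.card_fin, mul_comm]
  refine ⟨2 * ((∏ v, CI.deg v) * B.mm ^ (CI.n + 1) * ((d + 2 * Λ + 2) * B.qq) ^ (d - 1) *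
    (p ^ (B.jq - i) * α)), ?_, ?_⟩
  · refine err_le hd (pow_pos (Fact.out : p.Prime).pos i) rfl ?_ rfl rfl hi
    have := B.j_le
    rw [Band.qq, ← pow_add]
    exact congrArg _ (by omega)
  rw [← hS]
  exact band_main (B := B) (γ := γ) hMin hd hb hR hij h1 h2 hγ hstd hN hSS hmS hmS' hK hΛ hα

end Vale.Agent.P202.LW

namespace Vale.Agent.P202

open IsLocalRing MvPolynomial LW

theorem goalLWin_of (hLev : GoalLWLevel.{u}) (hMin : GoalLWMinor.{u}) :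
    GoalGradA.{u} → GoalBandCoord.{u} → GoalLWin.{u} := by
  intro hGA hBC p _ R _ _ _ k _ _ _ A _ _ _ _ _ d xR b G ι e ctx CI H J ε hε
  exact (hGA p R k A d xR b G ι e ctx CI).2.2.2.elim fun S hS₁ => hS₁.elim fun S' hS₂ =>
    (hLev d b ctx.d_pos ctx.nu.b_pos).elim fun Cb hCb =>
      (exists_scale (2 * (∏ v, CI.deg v) * (d + 2 * (2 * b * H + CI.stdBound +
          (∏ v, CI.deg v) * (J * CI.c + CI.stdBound) + (2 * d + 4) * b + 1) + 2) ^ (d - 1) *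
          (CI.stdBound + J * CI.c + Cb * ((∏ v, CI.deg v) * (J * CI.c + CI.stdBound)) +
            4 * d * CI.stdBound)) (Fact.out : p.Prime).one_lt hε).elim fun i₀ hi₀ =>
        ⟨i₀, fun i hi => ⟨i, fun j hij K B hR hK hK0 =>
          (hBC p R k A d xR b G ι e ctx CI i j K B hR hK0).1.elim fun res hres =>
            band_goal (B := B) hMin ctx.d_pos ctx.nu.b_pos hR hij
              (fun N γ hγ hstd =>
                hCb p R k A xR G ι e ctx CI i j K B hR hK0 res hres.1 hres.2 N γ hγ hstd)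
              hS₂.2.1 hS₂.2.2.1 hS₂.2.2.2 hK le_rfl le_rfl hS₂.1 (hi₀ i hi)⟩⟩

end Vale.Agent.P202
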