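import Vale.Agent.P202.LWMinorAux

/-!
Auxiliary facts for `GoalLWMinor`: exponents after expansion, roots of the complete intersection
over a subfield.
-/

universe u

namespace Vale.Agent.P202

open MvPolynomial

section exps

variable {d n : ℕ}

/-- The exponent `ρ` on the variables different from the `X`. -/
noncomputable def lwRho (ρ : Hv n → ℕ) : Vr d n →₀ ℕ :=
  Finsupp.equivFunOnFinite.symm fun
    | none => ρ none
    | some (Sum.inl _) => 0
    | some (Sum.inr z) => ρ (some z)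

lemma lwRho_hVar (ρ : Hv n → ℕ) (v : Hv n) : lwRho (d := d) ρ (hVar v) = ρ v := by
  cases v <;> rfl

lemma lwRho_inl (ρ : Hv n → ℕ) (l : Fin d) : lwRho (d := d) ρ (some (Sum.inl l)) = 0 := rfl

lemma lw_std_expand {deg : Hv n → ℕ} {m : ℕ} {θ : Vr d n →₀ ℕ}
    (hθ : IsStdExp (d := d) deg θ) {ρ : Hv n → ℕ} (hρ : ∀ v, ρ v < m) :
    IsStdExp (d := d) (fun v => m * deg v) (m • θ + lwRho ρ) := by
  refine ⟨fun l => ?_, fun v => ?_⟩
  · rw [Finsupp.add_apply, Finsupp.smul_apply, hθ.1 l, lwRho_inl, smul_zero, add_zero]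
  · rw [Finsupp.add_apply, Finsupp.smul_apply, lwRho_hVar, smul_eq_mul]
    calc m * θ (hVar v) + ρ v < m * θ (hVar v) + m := by have := hρ v; omega
      _ = m * (θ (hVar v) + 1) := by ring
      _ ≤ m * deg v := Nat.mul_le_mul_left m (hθ.2 v)

lemma lw_expand_inj {deg : Hv n → ℕ} {m : ℕ} {θ θ' : Vr d n →₀ ℕ}
    (hθ : IsStdExp (d := d) deg θ) (hθ' : IsStdExp (d := d) deg θ') {ρ ρ' : Hv n → ℕ}
    (hρ : ∀ v, ρ v < m) (hρ' : ∀ v, ρ' v < m)
    (h : m • θ + lwRho ρ = m • θ' + lwRho ρ') : θ = θ' ∧ ρ = ρ' := by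
  have hv : ∀ v, θ (hVar v) = θ' (hVar v) ∧ ρ v = ρ' v := by
    intro v
    have e := congrArg (fun f : Vr d n →₀ ℕ => f (hVar v)) h
    simp only [Finsupp.add_apply, Finsupp.smul_apply, lwRho_hVar, smul_eq_mul] at e
    have h1 : (ρ v + m * θ (hVar v)) / m = (ρ' v + m * θ' (hVar v)) / m := by
      rw [add_comm (ρ v), add_comm (ρ' v), e]
    have hm : 0 < m := lt_of_le_of_lt (Nat.zero_le _) (hρ v)
    rw [Nat.add_mul_div_left _ _ hm, Nat.add_mul_div_left _ _ hm, Nat.div_eq_of_lt (hρ v),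
      Nat.div_eq_of_lt (hρ' v), Nat.zero_add, Nat.zero_add] at h1
    exact ⟨h1, by rw [h1] at e; omega⟩
  refine ⟨Finsupp.ext fun x => ?_, funext fun v => (hv v).2⟩
  rcases mf_cases x with ⟨v, rfl⟩ | ⟨l, rfl⟩
  · exact (hv v).1
  · rw [hθ.1 l, hθ'.1 l]

lemma lw_weight_std (wt : Vr d n → ℕ) {D : Hv n → ℕ} {θ : Vr d n →₀ ℕ}
    (hθ : IsStdExp (d := d) D θ) :
    Finsupp.weight wt θ ≤ ∑ v, D v * wt (hVar v) := by
  rw [Finsupp.weight_apply, Finsupp.sum_fintype _ _ (by simp), Fintype.sum_option,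
    Fintype.sum_sum_type, Fintype.sum_option]
  have h0 : ∑ l : Fin d, θ (some (Sum.inl l)) • wt (some (Sum.inl l)) = 0 :=
    Finset.sum_eq_zero fun l _ => by rw [hθ.1 l, zero_smul]
  rw [h0, zero_add]
  refine add_le_add ?_ (Finset.sum_le_sum fun z _ => ?_)
  · exact Nat.mul_le_mul_right _ (hθ.2 none).le
  · exact Nat.mul_le_mul_right _ (hθ.2 (some z)).le

end exps

section root

variable {p : ℕ} [Fact p.Prime] {k : Type u} [Field k] [CharP k p] [PerfectRing k p]
  {σ : Type*}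

/-- Roots of exponent `p ^ j`, then expansion by `p ^ l`. -/
noncomputable def lwPhi (p : ℕ) [Fact p.Prime] [CharP k p] [PerfectRing k p] (σ : Type*)
    (j l : ℕ) : MvPolynomial σ k →+* MvPolynomial σ k :=
  (expand (p ^ l)).toRingHom.comp (MvPolynomial.map ((iterateFrobeniusEquiv k p j).symm : k →+* k))

lemma lwPhi_eq {d n : ℕ} (j l : ℕ) (H : MvPolynomial (Vr d n) k) :
    lwPhi p _ j l H = expand (p ^ l) (rootPoly p j H) := rfl

lemma lwPhi_injective (j l : ℕ) : Function.Injective (lwPhi (k := k) p σ j l) :=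
  (expand_injective (pow_pos (Fact.out : p.Prime).pos l)).comp
    (map_injective _ (iterateFrobeniusEquiv k p j).symm.injective)

lemma lwPhi_monomial_one (j l : ℕ) (θ : σ →₀ ℕ) :
    lwPhi (k := k) p σ j l (monomial θ 1) = monomial (p ^ l • θ) 1 := by
  show expand (p ^ l) (MvPolynomial.map _ (monomial θ 1)) = _
  rw [map_monomial, map_one, expand_monomial]

lemma lwPhi_inX {d n : ℕ} (j l : ℕ) (Q : MvPolynomial (Fin d) k) :
    lwPhi p _ j l (inX (n := n) Q) = inX (lwPhi p _ j l Q) := by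
  show expand (p ^ l) (MvPolynomial.map _ (rename _ Q)) = rename _ (expand (p ^ l) _)
  rw [map_rename, rename_expand]

lemma lwPhi_hom {d n : ℕ} {wt : Vr d n → ℕ} {H : MvPolynomial (Vr d n) k} {W : ℕ}
    (hH : IsWeightedHomogeneous wt H W) (j l : ℕ) :
    IsWeightedHomogeneous wt (lwPhi p _ j l H) (p ^ l * W) := by
  show IsWeightedHomogeneous wt (expand (p ^ l) (MvPolynomial.map _ H)) _
  rw [as_sum (MvPolynomial.map _ H), map_sum]
  refine IsWeightedHomogeneous.sum _ _ _ fun δ hδ => ?_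
  rw [expand_monomial]
  refine isWeightedHomogeneous_monomial _ _ _ ?_
  rw [mem_support_iff, coeff_map] at hδ
  rw [map_nsmul, hH (d := δ) fun e => hδ (by rw [e, map_zero]), smul_eq_mul]

lemma lwPhi_monic {d n : ℕ} {F : MvPolynomial (Vr d n) k} {v : Hv n} {D : ℕ}
    (hF : F - X (hVar v) ^ D ∈ Ideal.span (Set.range fun l : Fin d =>
      (X (some (Sum.inl l)) : MvPolynomial (Vr d n) k))) (j l : ℕ) :
    lwPhi p _ j l F - X (hVar v) ^ (p ^ l * D) ∈ Ideal.span (Set.range fun l : Fin d =>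
      (X (some (Sum.inl l)) : MvPolynomial (Vr d n) k)) := by
  have h1 : ∀ x : Vr d n, lwPhi (k := k) p _ j l (X x) = X x ^ p ^ l := fun x => by
    show expand (p ^ l) (MvPolynomial.map _ (X x)) = _
    rw [map_X, expand_X]
  have h2 : lwPhi p _ j l F - X (hVar v) ^ (p ^ l * D) = lwPhi p _ j l (F - X (hVar v) ^ D) := by
    rw [map_sub, map_pow, h1, ← pow_mul]
  rw [h2]
  have h3 := Ideal.mem_map_of_mem (lwPhi p (Vr d n) j l) hF
  rw [Ideal.map_span] at h3
  refine Ideal.span_le.2 ?_ h3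
  rintro _ ⟨_, ⟨i, rfl⟩, rfl⟩
  rw [SetLike.mem_coe, h1]
  refine Ideal.pow_mem_of_mem _ ?_ _ ?_
  · exact Ideal.subset_span ⟨i, rfl⟩
  exact pow_pos (Fact.out : p.Prime).pos l

/-- The expanded roots of the complete intersection over a field containing their coefficients. -/
lemma lw_descend {A : Type u} [CommRing A] [Algebra (WittVector p k) A] {d : ℕ} {x : Fin d → A}
    {b : ℕ} {G : ℕ → Ideal A} (CI : CIData p k A x b G) (κ : Subfield k) (j l : ℕ)
    (hκ : ∀ (v : Hv CI.n) (γ : Vr d CI.n →₀ ℕ), coeff γ (rootPoly p j (CI.F v)) ∈ κ) :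
    ∃ Fκ : Hv CI.n → MvPolynomial (Vr d CI.n) κ,
      (∀ v, (Fκ v).map κ.subtype = expand (p ^ l) (rootPoly p j (CI.F v))) ∧
      (∀ v, IsWeightedHomogeneous CI.wt (Fκ v) (p ^ l * CI.deg v * CI.wt (hVar v))) ∧
      ∀ v, Fκ v - X (hVar v) ^ (p ^ l * CI.deg v) ∈ Ideal.span (Set.range fun l : Fin d =>
        (X (some (Sum.inl l)) : MvPolynomial (Vr d CI.n) κ)) := by
  classical
  have hinj : Function.Injective κ.subtype := Subtype.val_injective
  let F' : Hv CI.n → MvPolynomial (Vr d CI.n) κ := fun v =>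
    ∑ γ ∈ (rootPoly p j (CI.F v)).support, monomial γ (⟨coeff γ (rootPoly p j (CI.F v)), hκ v γ⟩ : κ)
  have hF' : ∀ v, (F' v).map κ.subtype = rootPoly p j (CI.F v) := by
    intro v
    conv_rhs => rw [as_sum (rootPoly p j (CI.F v))]
    simp [F', map_sum, map_monomial]
  have he : ∀ v, (expand (p ^ l) (F' v)).map κ.subtype =
      lwPhi p _ j l (CI.F v) := fun v => by
    rw [map_expand, hF', lwPhi_eq]
  refine ⟨fun v => expand (p ^ l) (F' v), he, fun v γ hγ => ?_, fun v => ?_⟩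
  · have h := @lwPhi_hom p _ k _ _ _ d CI.n CI.wt _ _ (CI.f_init v).1 j l γ
    rw [← he v, coeff_map] at h
    rw [mul_assoc]
    exact h fun e => hγ (hinj (e.trans (map_zero _).symm))
  · have h := lwPhi_monic (CI.F_monic v) j l (p := p)
    rw [← he v] at h
    rw [show (Set.range fun l : Fin d => (X (some (Sum.inl l)) : MvPolynomial (Vr d CI.n) k)) =
      X '' Set.range fun l : Fin d => (some (Sum.inl l) : Vr d CI.n) from Set.range_comp X fun l : Fin d => (some (Sum.inl l) : Vr d CI.n),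
      mem_ideal_span_X_image] at h
    rw [show (Set.range fun l : Fin d => (X (some (Sum.inl l)) : MvPolynomial (Vr d CI.n) κ)) =
      X '' Set.range fun l : Fin d => (some (Sum.inl l) : Vr d CI.n) from Set.range_comp X fun l : Fin d => (some (Sum.inl l) : Vr d CI.n),
      mem_ideal_span_X_image]
    intro m hm
    refine h m ?_
    have e : (expand (p ^ l) (F' v)).map κ.subtype - X (hVar v) ^ (p ^ l * CI.deg v) =
        (expand (p ^ l) (F' v) - X (hVar v) ^ (p ^ l * CI.deg v)).map κ.subtype := by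
      rw [map_sub, map_pow, map_X]
    rw [e, support_map_of_injective _ hinj]
    exact hm

end root

end Vale.Agent.P202
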