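import Vale.Agent.P202.LWDefs
import Vale.Agent.P202.LWMinorExp

/-!
`GoalLWMinor`: a minor of an endomorphism of the graded complete intersection, after roots and
expansion, blockwise in the remainders of the exponents.
-/

universe u

namespace Vale.Agent.P202

open MvPolynomial

section key

variable {p : ℕ} [Fact p.Prime] {k : Type u} [Field k] [CharP k p] [PerfectRing k p]
  {A : Type u} [CommRing A] [Algebra (WittVector p k) A] {d : ℕ} {x : Fin d → A} {b : ℕ}
  {G : ℕ → Ideal A}

/-- The forms of the complete intersection after roots and expansion. -/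
lemma lw_forms (CI : CIData p k A x b G) (j l : ℕ) :
    (∀ v, IsWeightedHomogeneous CI.wt (lwPhi p _ j l (CI.F v))
      (p ^ l * CI.deg v * CI.wt (hVar v))) ∧
    ∀ v, lwPhi p _ j l (CI.F v) - X (hVar v) ^ (p ^ l * CI.deg v) ∈
      Ideal.span (Set.range fun l : Fin d =>
        (X (some (Sum.inl l)) : MvPolynomial (Vr d CI.n) k)) := by
  constructor
  · intro v
    rw [mul_assoc]
    exact lwPhi_hom (p := p) (CI.f_init v).1 j l
  · intro v
    exact lwPhi_monic (p := p) (CI.F_monic v) j l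

/-- A product in one block has its coordinates in that block. -/
lemma lw_key (CI : CIData p k A x b G) (j l e : ℕ) {N : ℕ} {γ : Fin N → Vr d CI.n →₀ ℕ}
    (hinj : Function.Injective γ)
    (hγ : ∀ v, (∃ t, γ t = v) ↔ IsStdExp (d := d) (fun w => p ^ l * CI.deg w) v)
    {U Pk : MvPolynomial (Vr d CI.n) k}
    (hPk : Pk - lwPhi p _ j l (U * inX CI.δ₀ ^ e) ∈
      Ideal.span (Set.range fun v => lwPhi p _ j l (CI.F v)))
    (ρ : Hv CI.n → Fin (p ^ l)) (q : {v // IsStdExp (d := d) CI.deg v} → Fin N)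
    (hq : ∀ θ, γ (q θ) = p ^ l • θ.1 + lwRho fun v => (ρ v : ℕ))
    {J : {v // IsStdExp (d := d) CI.deg v}}
    {a : {v // IsStdExp (d := d) CI.deg v} →₀ MvPolynomial (Fin d) k}
    (ha : U * monomial J.1 1 - (a.sum fun γ P => inX P * monomial γ.1 1) ∈ CI.fIdeal)
    {c : Fin N → MvPolynomial (Fin d) k}
    (hc : Pk * monomial (γ (q J)) 1 - lwT γ c ∈
      Ideal.span (Set.range fun v => lwPhi p _ j l (CI.F v))) :
    c = ∑ θ ∈ a.support, Pi.single (q θ) (lwPhi p _ j l (CI.δ₀ ^ e * a θ)) := by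
  classical
  refine (lw_basis CI.wt_pos (lw_forms CI j l).1 (lw_forms CI j l).2 hinj hγ _).unique hc ?_
  have hmono : ∀ θ, monomial (γ (q θ)) (1 : k) =
      lwPhi p _ j l (monomial θ.1 1) * monomial (lwRho fun v => (ρ v : ℕ)) 1 := by
    intro θ
    rw [lwPhi_monomial_one, monomial_mul, one_mul, hq]
  have h1 : lwT γ (∑ θ ∈ a.support, Pi.single (q θ) (lwPhi p _ j l (CI.δ₀ ^ e * a θ))) =
      lwPhi p _ j l (inX CI.δ₀ ^ e * a.sum fun γ P => inX P * monomial γ.1 1) *
        monomial (lwRho fun v => (ρ v : ℕ)) 1 := by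
    rw [map_sum, Finsupp.sum, Finset.mul_sum, map_sum, Finset.sum_mul]
    refine Finset.sum_congr rfl fun θ _ => ?_
    rw [lwT_single, hmono, ← lwPhi_inX, ← mul_assoc, ← map_mul]
    congr 2
    simp only [inX, map_mul, map_pow]
    ring
  have h2 := Ideal.mem_map_of_mem (lwPhi p (Vr d CI.n) j l)
    (Ideal.mul_mem_left _ (inX CI.δ₀ ^ e) ha)
  rw [CIData.fIdeal, Ideal.map_span, ← Set.range_comp] at h2
  rw [h1, hmono]
  generalize (a.sum fun γ P => inX P * monomial γ.1 1) = S at h2 ⊢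
  have h4 := add_mem
    (Ideal.mul_mem_right (lwPhi p _ j l (monomial J.1 1) *
      monomial (lwRho fun v => (ρ v : ℕ)) 1) _ hPk)
    (Ideal.mul_mem_right (monomial (lwRho fun v => (ρ v : ℕ)) 1) _ h2)
  simp only [map_sub, map_mul] at h4 ⊢
  ring_nf at h4 ⊢
  exact h4

end key

/-- The composite of the blockwise cofactors with the coordinates. -/
lemma lw_mat {S : Type*} [CommRing S] {s N : ℕ} {ι κ' R : Type*} [Fintype ι] [DecidableEq ι]
    [DecidableEq R] (idx : ι ≃ Fin s × R) (q : κ' → R → Fin N) (I : Fin s → κ')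
    (M : Matrix (Fin s) (Fin s) S) (C : Matrix ι (Fin N) S)
    (hval : ∀ i t' ρ', C i (q (I t') ρ') = if ρ' = (idx i).2 then M (idx i).1 t' else 0) :
    C * (Matrix.of fun u i =>
      ∑ t', if u = q (I t') (idx i).2 then M.adjugate t' (idx i).1 else 0) =
      M.det • (1 : Matrix ι ι S) := by
  ext i i'
  rw [Matrix.mul_apply]
  simp only [Matrix.of_apply, Finset.mul_sum]
  rw [Finset.sum_comm]
  simp only [mul_ite, mul_zero, Finset.sum_ite_eq', Finset.mem_univ, if_true, hval,
    Matrix.smul_apply, smul_eq_mul]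
  by_cases h2 : (idx i').2 = (idx i).2
  · have hadj : ∑ t', M (idx i).1 t' * M.adjugate t' (idx i').1 =
        (M.det • (1 : Matrix (Fin s) (Fin s) S)) (idx i).1 (idx i').1 := by
      rw [← Matrix.mul_adjugate, Matrix.mul_apply]
    simp only [if_pos h2]
    rw [hadj, Matrix.smul_apply, smul_eq_mul]
    by_cases h : i = i'
    · subst h
      rw [Matrix.one_apply_eq, Matrix.one_apply_eq]
    · rw [Matrix.one_apply_ne h, Matrix.one_apply_ne fun h1 =>
        h (idx.injective (Prod.ext h1 h2.symm))]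
  · rw [Matrix.one_apply_ne fun h : i = i' => h2 (by rw [h]), mul_zero]
    exact Finset.sum_eq_zero fun t' _ => by rw [if_neg h2, zero_mul]

/-- A minor of `U` gives, after roots and expansion, free modules on which `U δ₀ ^ e` becomes
multiplication by a nonzero form of small degree. -/
theorem goalLWMinor : GoalLWMinor.{u} := by
  intro p _ k _ _ _ A _ _ d x b G hd CI κ j l hκ N γ hinj hγ U w s e _ hmin P hP hPc
  classical
  obtain ⟨I, J, a, hI, -, ha, hdet⟩ := hmin
  obtain ⟨Fκ, hFmap, hFhom, hFmon⟩ := lw_descend CI κ j l hκ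
  have hm : 0 < p ^ l := pow_pos (Fact.out : p.Prime).pos l
  have hb : 0 < b := CI.wt_X ⟨0, hd⟩ ▸ CI.wt_pos _
  have hsub : Function.Injective κ.subtype := Subtype.val_injective
  have hmapI : ∀ H ∈ Ideal.span (Set.range Fκ), MvPolynomial.map κ.subtype H ∈
      Ideal.span (Set.range fun v => expand (p ^ l) (rootPoly p j (CI.F v))) := by
    intro H hH
    have h := Ideal.mem_map_of_mem (MvPolynomial.map κ.subtype) hH
    rw [Ideal.map_span, ← Set.range_comp] at h
    rwa [show ⇑(MvPolynomial.map κ.subtype) ∘ Fκ =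
      fun v => expand (p ^ l) (rootPoly p j (CI.F v)) from funext hFmap] at h
  -- the blocks
  have hu' : ∀ (θ : {v // IsStdExp (d := d) CI.deg v}) (ρ : Hv CI.n → Fin (p ^ l)),
      ∃ t, γ t = p ^ l • θ.1 + lwRho fun v => (ρ v : ℕ) := fun θ ρ =>
    (hγ _).2 (lw_std_expand θ.2 fun v => (ρ v).isLt)
  choose q hq using hu'
  have hqinj : ∀ θ θ' ρ ρ', q θ ρ = q θ' ρ' → θ = θ' ∧ ρ = ρ' := by
    intro θ θ' ρ ρ' h
    have h1 := hq θ ρ
    rw [h, hq] at h1
    obtain ⟨e1, e2⟩ := lw_expand_inj θ'.2 θ.2 (fun v => (ρ' v).isLt) (fun v => (ρ v).isLt) h1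
    exact ⟨Subtype.ext e1.symm, funext fun v => Fin.ext (congrFun e2 v).symm⟩
  have hcard : Fintype.card (Fin s × (Hv CI.n → Fin (p ^ l))) = s * (p ^ l) ^ (CI.n + 1) := by
    simp
  let idx : Fin (s * (p ^ l) ^ (CI.n + 1)) ≃ Fin s × (Hv CI.n → Fin (p ^ l)) :=
    (Fintype.equivFinOfCardEq hcard).symm
  let η : Fin (s * (p ^ l) ^ (CI.n + 1)) → Fin N := fun i => q (J (idx i).1) (idx i).2
  set W := p ^ l * (w + e * CI.c) with hW
  set wt := CI.wt with hwtdef
  let gγ : Fin N → ℤ := fun t => (Finsupp.weight wt (γ t) : ℤ)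
  have hgq : ∀ θ ρ, gγ (q θ ρ) = ((p ^ l : ℕ) : ℤ) * Finsupp.weight wt θ.1 +
      Finsupp.weight wt (lwRho (d := d) fun v => (ρ v : ℕ)) := fun θ ρ => by
    simp only [gγ, hq, map_add, map_nsmul, smul_eq_mul, Nat.cast_add, Nat.cast_mul]
  -- coordinates of the products
  have hex : ∀ i, ∃ c : Fin N → MvPolynomial (Fin d) κ,
      P * monomial (γ (η i)) 1 - lwT γ c ∈ Ideal.span (Set.range Fκ) := fun i =>
    (lw_basis CI.wt_pos hFhom hFmon hinj hγ _).exists
  choose C hC using hex
  have hCdeg : ∀ i t, IsWeightedHomogeneous (lwW d b) (C i t)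
      (gγ (η i) + (W : ℤ) - gγ t) := by
    intro i t β hβ
    have h := lw_coord_hom CI.wt_X CI.wt_pos hFhom hFmon hinj hγ
      (hP.mul (isWeightedHomogeneous_monomial wt (γ (η i)) (1 : κ) rfl)) (hC i) t hβ
    have h' := congrArg (fun z : ℕ => (z : ℤ)) h
    push_cast at h'
    rw [lwW_weight]
    simp only [gγ]
    linarith
  have hPk : MvPolynomial.map κ.subtype P - lwPhi p _ j l (U * inX CI.δ₀ ^ e) ∈
      Ideal.span (Set.range fun v => lwPhi p _ j l (CI.F v)) := by
    rw [map_mul (lwPhi p _ j l), map_pow (lwPhi p _ j l)]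
    simp only [lwPhi_eq]
    rw [map_mul (expand (p ^ l)), map_pow (expand (p ^ l))] at hPc
    exact hPc
  have hkey : ∀ i, (fun t => MvPolynomial.map κ.subtype (C i t)) =
      ∑ θ ∈ (a (idx i).1).support, Pi.single (q θ (idx i).2)
        (lwPhi p _ j l (CI.δ₀ ^ e * a (idx i).1 θ)) := by
    intro i
    have h := hmapI _ (hC i)
    rw [map_sub, map_mul, map_monomial, map_one, lwT_map] at h
    exact lw_key CI j l e hinj hγ hPk (idx i).2 (fun θ => q θ (idx i).2)
      (fun θ => hq θ (idx i).2) (J := J (idx i).1) (ha (idx i).1) (by simpa only [lwPhi_eq] using h)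
  -- the matrix
  have hkey' : ∀ i t' ρ', MvPolynomial.map κ.subtype (C i (q (I t') ρ')) =
      if ρ' = (idx i).2 then lwPhi p _ j l (CI.δ₀ ^ e * a (idx i).1 (I t')) else 0 := by
    intro i t' ρ'
    rw [congrFun (hkey i) (q (I t') ρ'), Finset.sum_apply]
    by_cases hρ : ρ' = (idx i).2
    · rw [if_pos hρ, Finset.sum_eq_single (I t')]
      · rw [hρ, Pi.single_eq_same]
      · intro θ _ hθ
        exact Pi.single_eq_of_ne (fun h => hθ (hqinj _ _ _ _ h).1.symm) _
      · intro h
        rw [Finsupp.notMem_support_iff.1 h, mul_zero, map_zero, Pi.single_zero, Pi.zero_apply]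
    · rw [if_neg hρ]
      exact Finset.sum_eq_zero fun θ _ =>
        Pi.single_eq_of_ne (fun h => hρ (hqinj _ _ _ _ h).2) _
  let ρ₀ : Hv CI.n → Fin (p ^ l) := fun _ => ⟨0, hm⟩
  let M : Matrix (Fin s) (Fin s) (MvPolynomial (Fin d) κ) :=
    Matrix.of fun t t' => C (idx.symm (t, ρ₀)) (q (I t') ρ₀)
  have hMmap : ∀ t t', MvPolynomial.map κ.subtype (M t t') =
      lwPhi p _ j l (CI.δ₀ ^ e * a t (I t')) := fun t t' => by
    show MvPolynomial.map κ.subtype (C _ _) = _
    rw [hkey']
    simp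
  have hval : ∀ i t' ρ', C i (q (I t') ρ') = if ρ' = (idx i).2 then M (idx i).1 t' else 0 := by
    intro i t' ρ'
    refine map_injective κ.subtype hsub ?_
    rw [hkey']
    by_cases h : ρ' = (idx i).2
    · rw [if_pos h, if_pos h, hMmap]
    · rw [if_neg h, if_neg h, map_zero]
  have hdet' : M.det ≠ 0 := by
    intro h0
    have h1 : (MvPolynomial.map κ.subtype).mapMatrix M = (lwPhi p (Fin d) j l).mapMatrix
        ((CI.δ₀ ^ e) • Matrix.of fun t t' => a t (I t')) := by
      refine Matrix.ext fun t t' => ?_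
      simpa using hMmap t t'
    have h2 := congrArg Matrix.det h1
    rw [← RingHom.map_det, ← RingHom.map_det, h0, map_zero, Matrix.det_smul] at h2
    exact mul_ne_zero (pow_ne_zero _ (pow_ne_zero _ CI.δ₀_ne)) hdet
      (lwPhi_injective j l (h2.symm.trans (map_zero _).symm))
  let r : Fin s → ℤ := fun t => ((p ^ l : ℕ) : ℤ) * Finsupp.weight wt (J t).1 + W
  let c : Fin s → ℤ := fun t' => ((p ^ l : ℕ) : ℤ) * Finsupp.weight wt (I t').1
  have hMdeg : ∀ t t', IsWeightedHomogeneous (lwW d b) (M t t') (r t - c t') := fun t t' => by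
    have h := hCdeg (idx.symm (t, ρ₀)) (q (I t') ρ₀)
    simp only [η, Equiv.apply_symm_apply, hgq] at h
    show IsWeightedHomogeneous _ (C _ _) _
    convert h using 1
    simp only [r, c]
    ring
  obtain ⟨β₀, hβ₀⟩ := exists_coeff_ne_zero hdet'
  have hS : (b : ℤ) * bdeg β₀ = ∑ t, r t - ∑ t, c t := by
    rw [← lwW_weight]
    exact lw_det_hom hMdeg hβ₀
  let Am : Matrix (Fin (s * (p ^ l) ^ (CI.n + 1))) (Fin N) (MvPolynomial (Fin d) κ) :=
    Matrix.of fun i => Pi.single (η i) 1
  let B : Matrix (Fin N) (Fin (s * (p ^ l) ^ (CI.n + 1))) (MvPolynomial (Fin d) κ) :=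
    Matrix.of fun u i =>
      ∑ t', if u = q (I t') (idx i).2 then M.adjugate t' (idx i).1 else 0
  refine ⟨_, fun i => gγ (η i), lwMap Am, lwMap (Matrix.of C), lwMap B, M.det, bdeg β₀, rfl,
    fun i => ⟨Int.natCast_nonneg _, ?_⟩, lwMap_xFree _, lwMap_xFree _, lwMap_xFree _,
    ?_, ?_, ?_, ?_, hdet', ?_, lwMap_comp _ _ ?_, ?_⟩
  · refine Int.ofNat_le.2 ((lw_weight_std wt ((hγ _).1 ⟨η i, rfl⟩)).trans (le_of_eq ?_))
    simp only [CIData.stdBound, Finset.mul_sum, mul_assoc, hwtdef]
  · intro z f hf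
    have h := lwMap_deg Am (sh := 0) (h := gγ) (fun i u => ?_) hf
    · rwa [add_zero] at h
    · simp only [Am, Matrix.of_apply]
      by_cases h : u = η i
      · rw [h, Pi.single_eq_same, add_zero, sub_self]
        exact isWeightedHomogeneous_one _ _
      · rw [Pi.single_eq_of_ne h]
        exact isWeightedHomogeneous_zero _ _ _
  · intro z f hf
    exact lwMap_deg (Matrix.of C) (h := gγ) hCdeg hf
  · intro z f hf
    have h := lwMap_deg B (sh := ((b * bdeg β₀ : ℕ) : ℤ) - W) (h := fun i => gγ (η i))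
      (fun u i => ?_) hf
    · rwa [add_assoc, add_sub_cancel] at h
    · show IsWeightedHomogeneous _ _ (gγ u + _ - gγ (η i))
      simp only [B, Matrix.of_apply]
      refine IsWeightedHomogeneous.sum _ _ _ fun t' _ => ?_
      by_cases h : u = q (I t') (idx i).2
      · rw [if_pos h, h]
        convert lw_adj_hom hMdeg t' (idx i).1 using 1
        push_cast
        rw [hS]
        simp only [η, hgq, r, c]
        ring
      · rw [if_neg h]
        exact isWeightedHomogeneous_zero _ _ _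
  · intro f
    refine hmapI _ ?_
    have hv : ∀ T : Matrix (Fin (s * (p ^ l) ^ (CI.n + 1))) (Fin N) (MvPolynomial (Fin d) κ),
        nfPoly γ (lwMap T f) =
          ∑ i, inX (polyEquiv κ _ d f i) * lwT γ (T i) := by
      intro T
      rw [lw_nfPoly, lwMap_poly]
      have h : Matrix.vecMul (polyEquiv κ _ d f) T = ∑ i, polyEquiv κ _ d f i • T i := by
        funext u
        simp [Matrix.vecMul, dotProduct, Finset.sum_apply]
      rw [h, map_sum]
      simp only [lwT_smul]
    rw [hv, hv, Finset.mul_sum, ← Finset.sum_sub_distrib]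
    refine sum_mem fun i _ => ?_
    rw [mul_left_comm, ← mul_sub]
    refine Ideal.mul_mem_left _ _ ?_
    rw [show Am i = Pi.single (η i) 1 from rfl, lwT_single, inX, map_one, one_mul]
    exact hC i
  · intro β hβ
    have h := lw_det_hom hMdeg (mem_support_iff.1 hβ)
    rw [lwW_weight, ← hS] at h
    exact_mod_cast mul_left_cancel₀ (by exact_mod_cast hb.ne') h
  · exact lw_mat idx q I M (Matrix.of C) hval
  · have hJ : ∀ t, Finsupp.weight wt (J t).1 ≤ CI.stdBound := fun t =>
      lw_weight_std wt (J t).2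
    have h1 : ∑ t, r t ≤ ∑ _t : Fin s, (((p ^ l : ℕ) : ℤ) * CI.stdBound + W) :=
      Finset.sum_le_sum fun t _ => by
        have := mul_le_mul_of_nonneg_left (Int.ofNat_le.2 (hJ t))
          (Int.natCast_nonneg (p ^ l))
        simp only [r]
        linarith
    have h2 : 0 ≤ ∑ t, c t := Finset.sum_nonneg fun t _ => by positivity
    rw [Finset.sum_const, Finset.card_univ, Fintype.card_fin, nsmul_eq_mul] at h1
    have h3 : (b : ℤ) * bdeg β₀ ≤ (s : ℤ) * (((p ^ l : ℕ) : ℤ) * CI.stdBound + W) := by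
      rw [hS]; linarith
    have h4 : b * bdeg β₀ ≤ s * (p ^ l * CI.stdBound + W) := by exact_mod_cast h3
    refine h4.trans (le_of_eq ?_)
    rw [hW]
    ring

end Vale.Agent.P202
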