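import Vale.Agent.P202.LW7Main
import Vale.Agent.P202.LWMinor
import Vale.Agent.P202.LW3Level
import Vale.Agent.P202.LevelIso

/-!
`GoalLWin` from the graded ring and the band coordinates: the level estimate (`LW3Level`, through
`LevelIso`), the minor (`LWMinor`) and the window assembly (`LW7Main`).
-/

universe u

namespace Vale.Agent.P202

/-- The lower bound on the windows of the band complex. -/
theorem goalLWin : GoalGradA.{u} → GoalBandCoord.{u} → GoalLWin.{u} := fun hGA hBC =>
  goalLWin_of (LW.goalLWLevel (goalLevelIso hBC)) goalLWMinor hGA hBC

end Vale.Agent.P202
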