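import Vale.Agent.P202.InterfacesBand3

/-!
The split of `GoalLWin` (BLUEPRINT_BAND, section 4): the algebraic part, which turns a nonzero minor
of an endomorphism of the graded complete intersection into maps of free modules over the residue
field, with composite the multiplication by a polynomial of small degree.
-/

universe u

namespace Vale.Agent.P202

open MvPolynomial

section

variable {p : ℕ} [Fact p.Prime] {k : Type u} [Field k] [CharP k p] {A : Type u} [CommRing A]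
  [Algebra (WittVector p k) A] {d : ℕ} {x : Fin d → A} {b : ℕ} {G : ℕ → Ideal A}

/-- A bound for the weights of the standard monomials. -/
noncomputable def CIData.stdBound (CI : CIData p k A x b G) : ℕ :=
  ∑ v, CI.deg v * CI.wt (hVar v)

end

/-- A minor of `U` gives, after roots and expansion, free modules on which `U δ₀ ^ e` becomes
multiplication by a nonzero form of small degree. -/
def GoalLWMinor : Prop :=
  ∀ (p : ℕ) [Fact p.Prime] (k : Type u) [Field k] [CharP k p] [PerfectRing k p] (A : Type u)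
    [CommRing A] [Algebra (WittVector p k) A] (d : ℕ) (x : Fin d → A) (b : ℕ) (G : ℕ → Ideal A),
    0 < d → ∀ (CI : CIData p k A x b G) (κ : Subfield k) (j l : ℕ),
    (∀ (v : Hv CI.n) (γ : Vr d CI.n →₀ ℕ), coeff γ (rootPoly p j (CI.F v)) ∈ κ) →
    ∀ (N : ℕ) (γ : Fin N → Vr d CI.n →₀ ℕ), Function.Injective γ →
      (∀ v, (∃ t, γ t = v) ↔ IsStdExp (d := d) (fun w => p ^ l * CI.deg w) v) →
    ∀ (U : MvPolynomial (Vr d CI.n) k) (w s e : ℕ), IsWeightedHomogeneous CI.wt U w →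
      CI.HasMinor U s → ∀ (P : MvPolynomial (Vr d CI.n) κ),
      IsWeightedHomogeneous CI.wt P (p ^ l * (w + e * CI.c)) →
      P.map κ.subtype - expand (p ^ l) (rootPoly p j U * rootPoly p j (inX CI.δ₀) ^ e) ∈
        Ideal.span (Set.range fun v => expand (p ^ l) (rootPoly p j (CI.F v))) →
    ∃ (m' : ℕ) (g₁ : Fin m' → ℤ) (Am Tm : FreeMod κ m' d →ₗ[κ] FreeMod κ N d)
      (Bm : FreeMod κ N d →ₗ[κ] FreeMod κ m' d) (P' : MvPolynomial (Fin d) κ) (Δ : ℕ),
      m' = s * (p ^ l) ^ (CI.n + 1) ∧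
      (∀ i, 0 ≤ g₁ i ∧ g₁ i ≤ (p ^ l * CI.stdBound : ℕ)) ∧
      (∀ o f, Am (xFree κ o f) = xFree κ o (Am f)) ∧
      (∀ o f, Tm (xFree κ o f) = xFree κ o (Tm f)) ∧
      (∀ o f, Bm (xFree κ o f) = xFree κ o (Bm f)) ∧
      (∀ n, ∀ f ∈ freeFam κ (d := d) b g₁ n,
        Am f ∈ freeFam κ b (fun t => (Finsupp.weight CI.wt (γ t) : ℤ)) n) ∧
      (∀ n, ∀ f ∈ freeFam κ (d := d) b g₁ n,
        Tm f ∈ freeFam κ b (fun t => (Finsupp.weight CI.wt (γ t) : ℤ))
          (n + (p ^ l * (w + e * CI.c) : ℕ))) ∧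
      (∀ n, ∀ f ∈ freeFam κ (d := d) b (fun t => (Finsupp.weight CI.wt (γ t) : ℤ))
          (n + (p ^ l * (w + e * CI.c) : ℕ)),
        Bm f ∈ freeFam κ b g₁ (n + (b * Δ : ℕ))) ∧
      (∀ f, (P * nfPoly γ (Am f) - nfPoly γ (Tm f)).map κ.subtype ∈
        Ideal.span (Set.range fun v => expand (p ^ l) (rootPoly p j (CI.F v)))) ∧
      P' ≠ 0 ∧ (∀ β ∈ P'.support, bdeg β = Δ) ∧
      (∀ f, Bm (Tm f) =
        pAct (X := fun o => (xFree κ o : FreeMod κ m' d →ₗ[κ] _)) xFree_comm P' f) ∧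
      b * Δ ≤ p ^ l * (s * (w + e * CI.c + CI.stdBound))

end Vale.Agent.P202
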