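import Vale.Agent.P202.RCmpCalc
import Vale.Agent.P202.PhiHMod

/-!
Maps of homology modules: composition, powers, naturality of the long exact sequence.
-/

universe u

namespace Vale.Agent.P202

namespace RCmp

variable {S : Type*} [CommRing S] {A : Type*} [AddCommGroup A] [Module S A]
  {A' : Type*} [AddCommGroup A'] [Module S A'] {A'' : Type*} [AddCommGroup A''] [Module S A'']
  {δ : A →ₗ[S] A} {δ' : A' →ₗ[S] A'} {δ'' : A'' →ₗ[S] A''}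

lemma hmap_congr {φ ψ : A →ₗ[S] A'} {P Q : ℤ → Submodule S A} {P' Q' : ℤ → Submodule S A'}
    (e : φ = ψ) (a₁ : ∀ r, ∀ x ∈ P r, φ x ∈ P' r) (a₂ : ∀ r, ∀ x ∈ Q r, φ x ∈ Q' r)
    (a₃ : ∀ r, ∀ x ∈ P r, φ (δ x) = δ' (φ x)) (b₁ : ∀ r, ∀ x ∈ P r, ψ x ∈ P' r)
    (b₂ : ∀ r, ∀ x ∈ Q r, ψ x ∈ Q' r) (b₃ : ∀ r, ∀ x ∈ P r, ψ (δ x) = δ' (ψ x)) (r : ℤ) :
    hmap φ a₁ a₂ a₃ r = hmap ψ b₁ b₂ b₃ r := by
  subst e; rfl

lemma hmap_comp (φ : A →ₗ[S] A') (ψ : A' →ₗ[S] A'') {P Q : ℤ → Submodule S A}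
    {P' Q' : ℤ → Submodule S A'} {P'' Q'' : ℤ → Submodule S A''}
    (a₁ : ∀ r, ∀ x ∈ P r, φ x ∈ P' r) (a₂ : ∀ r, ∀ x ∈ Q r, φ x ∈ Q' r)
    (a₃ : ∀ r, ∀ x ∈ P r, φ (δ x) = δ' (φ x))
    (b₁ : ∀ r, ∀ x ∈ P' r, ψ x ∈ P'' r) (b₂ : ∀ r, ∀ x ∈ Q' r, ψ x ∈ Q'' r)
    (b₃ : ∀ r, ∀ x ∈ P' r, ψ (δ' x) = δ'' (ψ x))
    (c₁ : ∀ r, ∀ x ∈ P r, (ψ ∘ₗ φ) x ∈ P'' r) (c₂ : ∀ r, ∀ x ∈ Q r, (ψ ∘ₗ φ) x ∈ Q'' r)
    (c₃ : ∀ r, ∀ x ∈ P r, (ψ ∘ₗ φ) (δ x) = δ'' ((ψ ∘ₗ φ) x)) (r : ℤ) :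
    hmap ψ b₁ b₂ b₃ r ∘ₗ hmap φ a₁ a₂ a₃ r = hmap (ψ ∘ₗ φ) c₁ c₂ c₃ r := by
  refine LinearMap.ext fun v => ?_
  obtain ⟨z, rfl⟩ := hmk_surjective δ P Q r v
  rfl

/-- An endomorphism of a complex with a bottom. -/
structure HEnd (δ : A →ₗ[S] A) (P Q : ℤ → Submodule S A) (g : A →ₗ[S] A) : Prop where
  mem : ∀ r, ∀ x ∈ P r, g x ∈ P r
  memQ : ∀ r, ∀ x ∈ Q r, g x ∈ Q r
  comm : ∀ x, g (δ x) = δ (g x)

/-- A map of complexes with bottoms. -/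
structure HHom (δ : A →ₗ[S] A) (δ' : A' →ₗ[S] A') (P Q : ℤ → Submodule S A)
    (P' Q' : ℤ → Submodule S A') (φ : A →ₗ[S] A') : Prop where
  mem : ∀ r, ∀ x ∈ P r, φ x ∈ P' r
  memQ : ∀ r, ∀ x ∈ Q r, φ x ∈ Q' r
  comm : ∀ r, ∀ x ∈ P r, φ (δ x) = δ' (φ x)

/-- The induced map on homology. -/
abbrev HHom.map {φ : A →ₗ[S] A'} {P Q : ℤ → Submodule S A} {P' Q' : ℤ → Submodule S A'}
    (h : HHom δ δ' P Q P' Q' φ) (r : ℤ) : HMod δ P Q r →ₗ[S] HMod δ' P' Q' r :=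
  hmap φ h.mem h.memQ h.comm r

lemma HHom.comp {φ : A →ₗ[S] A'} {ψ : A' →ₗ[S] A''} {P Q : ℤ → Submodule S A}
    {P' Q' : ℤ → Submodule S A'} {P'' Q'' : ℤ → Submodule S A''}
    (h : HHom δ δ' P Q P' Q' φ) (h' : HHom δ' δ'' P' Q' P'' Q'' ψ) :
    HHom δ δ'' P Q P'' Q'' (ψ ∘ₗ φ) where
  mem r x hx := h'.mem r _ (h.mem r x hx)
  memQ r x hx := h'.memQ r _ (h.memQ r x hx)
  comm r x hx := by
    rw [LinearMap.comp_apply, LinearMap.comp_apply, h.comm r x hx, h'.comm r _ (h.mem r x hx)]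

/-- A commutative square of chain maps gives one on homology. -/
lemma HHom.square {B : Type*} [AddCommGroup B] [Module S B] {δB : B →ₗ[S] B}
    {P Q : ℤ → Submodule S A} {P' Q' : ℤ → Submodule S A'} {U V : ℤ → Submodule S B}
    {U'' V'' : ℤ → Submodule S A''} {φ : A →ₗ[S] A'} {ψ : A' →ₗ[S] A''} {φ' : A →ₗ[S] B}
    {ψ' : B →ₗ[S] A''} (h₁ : HHom δ δ' P Q P' Q' φ) (h₂ : HHom δ' δ'' P' Q' U'' V'' ψ)
    (k₁ : HHom δ δB P Q U V φ') (k₂ : HHom δB δ'' U V U'' V'' ψ') (r : ℤ)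
    (e : ∀ x ∈ P r, ψ (φ x) = ψ' (φ' x)) :
    h₂.map r ∘ₗ h₁.map r = k₂.map r ∘ₗ k₁.map r := by
  refine LinearMap.ext fun v => ?_
  obtain ⟨z, rfl⟩ := hmk_surjective δ P Q r v
  exact congrArg (hmk δ'' U'' V'' r) (Subtype.ext (e z.1 z.2.1))

lemma HHom.map_pow {g : A →ₗ[S] A} {P Q : ℤ → Submodule S A} (h : HHom δ δ P Q P Q g) (n : ℕ)
    (hn : HHom δ δ P Q P Q (g ^ n)) (r : ℤ) : h.map r ^ n = hn.map r := by
  induction n with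
  | zero =>
    refine LinearMap.ext fun v => ?_
    obtain ⟨z, rfl⟩ := hmk_surjective δ P Q r v
    rfl
  | succ n ih =>
    have hn' : HHom δ δ P Q P Q (g ^ n) := by
      clear ih hn
      induction n with
      | zero => exact ⟨fun _ _ hx => hx, fun _ _ hx => hx, fun _ _ _ => rfl⟩
      | succ n ih => rw [pow_succ']; exact ih.comp h
    rw [pow_succ', ih hn']
    refine LinearMap.ext fun v => ?_
    obtain ⟨z, rfl⟩ := hmk_surjective δ P Q r v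
    refine congrArg (hmk δ P Q r) (Subtype.ext ?_)
    show g ((g ^ n) z.1) = (g ^ (n + 1)) z.1
    rw [pow_succ']; rfl

/-- The connecting map is natural. -/
lemma hconn_natural {φ : A →ₗ[S] A'} {O P Q : ℤ → Submodule S A}
    {O' P' Q' : ℤ → Submodule S A'} (hd : δ ∘ₗ δ = 0) (hd' : δ' ∘ₗ δ' = 0)
    (hP : IsStable δ P) (hP' : IsStable δ' P') (h : HHom δ δ' O P O' P' φ)
    (h' : HHom δ δ' P Q P' Q' φ) (r : ℤ) :
    hconn (Q := Q') (O := O') hd' hP' r ∘ₗ h.map r =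
      h'.map (r + 1) ∘ₗ hconn (Q := Q) (O := O) hd hP r := by
  refine LinearMap.ext fun v => ?_
  obtain ⟨z, rfl⟩ := hmk_surjective δ O P r v
  exact congrArg (hmk δ' P' Q' (r + 1)) (Subtype.ext (h.comm r z.1 z.2.1).symm)

/-- The length of the kernel on homology. -/
lemma length_ker_hmap (φ : A →ₗ[S] A') {P Q : ℤ → Submodule S A} {P' Q' : ℤ → Submodule S A'}
    (hP : ∀ r, ∀ x ∈ P r, φ x ∈ P' r) (hQ : ∀ r, ∀ x ∈ Q r, φ x ∈ Q' r)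
    (hcomm : ∀ r, ∀ x ∈ P r, φ (δ x) = δ' (φ x)) (r : ℤ) :
    Module.length S ↥(LinearMap.ker (hmap φ hP hQ hcomm r)) =
      sq S (hcyc δ P Q r ⊓ (hbd δ' P' Q' r).comap φ) (hbd δ P Q r) := by
  set K := hcyc δ P Q r ⊓ (hbd δ' P' Q' r).comap φ
  have hmem : ∀ x ∈ hcyc δ P Q r, φ x ∈ hcyc δ' P' Q' r := fun x hx =>
    ⟨hP r x hx.1, show δ' (φ x) ∈ Q' (r + 1) by rw [← hcomm r x hx.1]; exact hQ _ _ hx.2⟩
  have key : ∀ z : ↥(hcyc δ P Q r), hmk δ P Q r z ∈ LinearMap.ker (hmap φ hP hQ hcomm r) ↔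
      φ z.1 ∈ hbd δ' P' Q' r := fun z => by
    rw [LinearMap.mem_ker, hmap_hmk φ hP hQ hcomm r z (hmem _ z.2), hmk_eq_zero]
  let F : ↥K →ₗ[S] ↥(LinearMap.ker (hmap φ hP hQ hcomm r)) :=
    LinearMap.codRestrict _ ((hmk δ P Q r).comp (Submodule.inclusion inf_le_left))
      (fun z => (key ⟨z.1, z.2.1⟩).2 z.2.2)
  have hF : Function.Surjective F := by
    rintro ⟨v, hv⟩
    obtain ⟨z, rfl⟩ := hmk_surjective δ P Q r v
    exact ⟨⟨z.1, z.2, (key z).1 hv⟩, Subtype.ext rfl⟩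
  have hk : LinearMap.ker F = (hbd δ P Q r).comap K.subtype := by
    ext z
    rw [show LinearMap.ker F = LinearMap.ker ((hmk δ P Q r).comp (Submodule.inclusion inf_le_left))
      from LinearMap.ker_codRestrict _ _ _, LinearMap.mem_ker, LinearMap.comp_apply, hmk_eq_zero]
    rfl
  rw [sq, ← hk]
  exact (F.quotKerEquivOfSurjective hF).symm.length_eq

/-- The length of homology is at most that of the chains. -/
lemma length_hmod_le (δ : A →ₗ[S] A) (P Q : ℤ → Submodule S A) (r : ℤ) :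
    Module.length S (HMod δ P Q r) ≤ sq S (P r) (Q r) := by
  rw [← hlen_eq_length]
  exact sq_mono inf_le_left le_sup_right

end RCmp

end Vale.Agent.P202
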