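import Vale.Agent.P202.InterfacesR
import Vale.Agent.P202.RCmpHom

/-!
The induction over levels: a map shifting the levels by `e` has on a window at least the sum of its
ranks on the levels, minus the ranks of the connecting maps of source and target; brought back to
the window it loses at most two windows of `e` levels.
-/

universe u

namespace Vale.Agent.P202

open RCmp

section ladder

variable {P : Type u} [CommRing P] {A B C A' B' C' E E' : Type u} [AddCommGroup A] [Module P A]
  [AddCommGroup B] [Module P B] [AddCommGroup C] [Module P C] [AddCommGroup A'] [Module P A']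
  [AddCommGroup B'] [Module P B'] [AddCommGroup C'] [Module P C'] [AddCommGroup E] [Module P E]
  [AddCommGroup E'] [Module P E']

/-- Ranks in a ladder of exact sequences. -/
lemma ladder_le {ι : A →ₗ[P] B} {π : B →ₗ[P] C} {ι' : A' →ₗ[P] B'} {π' : B' →ₗ[P] C'}
    {fA : A →ₗ[P] A'} {fB : B →ₗ[P] B'} {fC : C →ₗ[P] C'} {cS : C →ₗ[P] E}
    {cT : E' →ₗ[P] A'} (hS : Function.Exact π cS) (hT : Function.Exact cT ι')
    (hT' : Function.Exact ι' π') (h₁ : fB ∘ₗ ι = ι' ∘ₗ fA) (h₂ : fC ∘ₗ π = π' ∘ₗ fB) :
    Module.length P ↥(LinearMap.range fA) + Module.length P ↥(LinearMap.range fC) ≤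
      Module.length P ↥(LinearMap.range fB) + Module.length P ↥(LinearMap.range cS) +
        Module.length P ↥(LinearMap.range cT) := by
  have hA : Module.length P ↥(LinearMap.range fA) ≤
      Module.length P ↥((LinearMap.range fA).map ι') + Module.length P ↥(LinearMap.range cT) := by
    have := ell_map_le_add (LinearMap.id : A' →ₗ[P] A') ι' (LinearMap.range fA)
    rw [Submodule.map_id, Submodule.map_id] at this
    refine this.trans (le_trans (le_of_eq (add_comm _ _)) (add_le_add le_rfl (ell_mono ?_)))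
    rw [← LinearMap.exact_iff.1 hT]
    exact inf_le_right
  have hC : Module.length P ↥(LinearMap.range fC) ≤
      Module.length P ↥((LinearMap.range fB).map π') + Module.length P ↥(LinearMap.range cS) := by
    have := ell_map_le_add fC cS ⊤
    rw [Submodule.map_top, Submodule.map_top, top_inf_eq] at this
    refine this.trans (add_le_add (ell_mono ?_) le_rfl)
    rw [LinearMap.exact_iff.1 hS, ← LinearMap.range_comp, ← LinearMap.range_comp, h₂]
  have hle : (LinearMap.range fA).map ι' ≤ LinearMap.range fB := by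
    rw [← LinearMap.range_comp, ← h₁]
    exact LinearMap.range_comp_le_range _ _
  have hB : Module.length P ↥((LinearMap.range fA).map ι') +
      Module.length P ↥((LinearMap.range fB).map π') ≤ Module.length P ↥(LinearMap.range fB) := by
    rw [← sq_bot (LinearMap.range fB), sq_add (M := (LinearMap.range fA).map ι') bot_le hle,
      sq_bot, add_comm, ← sq_bot ((LinearMap.range fB).map π'), sq_map, Submodule.comap_bot,
      LinearMap.exact_iff.1 hT']
    exact add_le_add (sq_mono_right LinearMap.map_le_range) le_rfl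
  refine (add_le_add hA hC).trans ?_
  refine le_trans (le_of_eq ?_) (add_le_add (add_le_add hB (le_refl
    (Module.length P ↥(LinearMap.range cS)))) (le_refl (Module.length P ↥(LinearMap.range cT))))
  ring

end ladder

section shift

variable {R : Type u} [CommRing R] {A : Type u} [AddCommGroup A] [Module R A]
  {δ g : A →ₗ[R] A} {P Gt : ℤ → Submodule R A} {e : ℤ}

/-- A map commuting with `δ`, preserving degrees and raising the level by `e`. -/
structure LevelShift (δ : A →ₗ[R] A) (P Gt : ℤ → Submodule R A) (g : A →ₗ[R] A) (e : ℤ) :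
    Prop where
  comm : δ ∘ₗ g = g ∘ₗ δ
  deg : ∀ i, (P i).map g ≤ P i
  level : ∀ j, (Gt j).map g ≤ Gt (j + e)

lemma LevelShift.hom (h : LevelShift δ P Gt g e) (a c : ℤ) :
    HHom δ δ (lvl P Gt a) (lvl P Gt c) (lvl P Gt (a + e)) (lvl P Gt (c + e)) g where
  mem r _ hv := ⟨h.level a (Submodule.mem_map_of_mem hv.1), h.deg r (Submodule.mem_map_of_mem hv.2)⟩
  memQ r _ hv :=
    ⟨h.level c (Submodule.mem_map_of_mem hv.1), h.deg r (Submodule.mem_map_of_mem hv.2)⟩
  comm _ v _ := (LinearMap.congr_fun h.comm v).symm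

/-- The shift on a window. -/
abbrev LevelShift.win (h : LevelShift δ P Gt g e) (a c r : ℤ) :
    winH δ P Gt a c r →ₗ[R] winH δ P Gt (a + e) (c + e) r :=
  (h.hom a c).map r

lemma lvl_anti (hanti : Antitone Gt) {a c : ℤ} (hac : a ≤ c) (r : ℤ) :
    lvl P Gt c r ≤ lvl P Gt a r :=
  inf_le_inf_right _ (hanti hac)

lemma lvl_stable (hdeg : ∀ i, (P i).map δ ≤ P (i + 1)) (hlev : ∀ j, (Gt j).map δ ≤ Gt j) (j : ℤ) :
    IsStable δ (lvl P Gt j) := fun r =>
  (Submodule.map_inf_le _).trans (inf_le_inf (hlev j) (hdeg r))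

/-- The connecting map from the window `[a, c)` to the window `[c, c')`. -/
noncomputable abbrev winConn (hd : δ ∘ₗ δ = 0) (hdeg : ∀ i, (P i).map δ ≤ P (i + 1))
    (hlev : ∀ j, (Gt j).map δ ≤ Gt j) (a c c' r : ℤ) :
    winH δ P Gt a c r →ₗ[R] winH δ P Gt c c' (r + 1) :=
  hconn (Q := lvl P Gt c') (O := lvl P Gt a) hd (lvl_stable hdeg hlev c) r

variable (hanti : Antitone Gt) (hd : δ ∘ₗ δ = 0) (hdeg : ∀ i, (P i).map δ ≤ P (i + 1))
  (hlev : ∀ j, (Gt j).map δ ≤ Gt j)

include hanti in
/-- One step of the induction. -/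
lemma LevelShift.win_step (h : LevelShift δ P Gt g e) {a c c' : ℤ} (hac : a ≤ c) (hcc : c ≤ c')
    (r : ℤ) :
    Module.length R ↥(LinearMap.range (h.win c c' (r + 1))) +
        Module.length R ↥(LinearMap.range (h.win a c (r + 1))) ≤
      Module.length R ↥(LinearMap.range (h.win a c' (r + 1))) +
        Module.length R ↥(LinearMap.range (winConn hd hdeg hlev a c c' (r + 1))) +
        Module.length R ↥(LinearMap.range (winConn hd hdeg hlev (a + e) (c + e) (c' + e) r)) := by
  have q₁ : ∀ r, lvl P Gt c r ≤ lvl P Gt a r := lvl_anti hanti hac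
  have q₂ : ∀ r, lvl P Gt c' r ≤ lvl P Gt c r := lvl_anti hanti hcc
  have q₁' : ∀ r, lvl P Gt (c + e) r ≤ lvl P Gt (a + e) r := lvl_anti hanti (by omega)
  have q₂' : ∀ r, lvl P Gt (c' + e) r ≤ lvl P Gt (c + e) r := lvl_anti hanti (by omega)
  have k₁ : h.win a c' (r + 1) ∘ₗ hinc (δ := δ) (Q := lvl P Gt c') q₁ (r + 1) =
      hinc (δ := δ) (Q := lvl P Gt (c' + e)) q₁' (r + 1) ∘ₗ h.win c c' (r + 1) := by
    refine LinearMap.ext fun v => ?_
    obtain ⟨z, rfl⟩ := hmk_surjective δ (lvl P Gt c) (lvl P Gt c') (r + 1) v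
    rfl
  have k₂ : h.win a c (r + 1) ∘ₗ hproj (δ := δ) (O := lvl P Gt a) q₂ (r + 1) =
      hproj (δ := δ) (O := lvl P Gt (a + e)) q₂' (r + 1) ∘ₗ h.win a c' (r + 1) := by
    refine LinearMap.ext fun v => ?_
    obtain ⟨z, rfl⟩ := hmk_surjective δ (lvl P Gt a) (lvl P Gt c') (r + 1) v
    rfl
  exact ladder_le (exact_hproj_hconn q₂ q₁ hd (lvl_stable hdeg hlev c) (r + 1))
    (exact_hconn_hinc q₁' hd (lvl_stable hdeg hlev _) q₂' r)
    (exact_hinc_hproj q₂' q₁' hd (r + 1)) k₁ k₂

include hanti in
/-- The window has at least the ranks of the levels, minus the connecting ranks. -/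
theorem LevelShift.win_lower (h : LevelShift δ P Gt g e) {a c : ℤ} (hac : a ≤ c) (r : ℤ) :
    ∑ u ∈ Finset.Ico a c, Module.length R ↥(LinearMap.range (h.win u (u + 1) (r + 1))) ≤
      Module.length R ↥(LinearMap.range (h.win a c (r + 1))) +
        ∑ u ∈ Finset.Ico a c,
          (Module.length R ↥(LinearMap.range (winConn hd hdeg hlev a u (u + 1) (r + 1))) +
            Module.length R ↥(LinearMap.range
              (winConn hd hdeg hlev (a + e) (u + e) (u + 1 + e) r))) := by
  induction c, hac using Int.leInduction with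
  | base => simp
  | succ c hac ih =>
    have hs : Finset.Ico a (c + 1) = insert c (Finset.Ico a c) := by
      ext u; simp only [Finset.mem_insert, Finset.mem_Ico]; omega
    rw [hs, Finset.sum_insert (by simp), Finset.sum_insert (by simp)]
    refine le_trans (add_le_add le_rfl ih) ?_
    rw [← add_assoc, ← add_assoc]
    refine add_le_add (le_trans (h.win_step hanti hd hdeg hlev hac (c' := c + 1) (by omega) r)
      (le_of_eq ?_)) le_rfl
    ring

include hanti in
/-- The length of a window is at most that of its levels. -/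
theorem winH_length_le {a c : ℤ} (hd : δ ∘ₗ δ = 0) (hac : a ≤ c) (r : ℤ) :
    Module.length R (winH δ P Gt a c r) ≤
      ∑ u ∈ Finset.Ico a c, Module.length R (winH δ P Gt u (u + 1) r) := by
  induction c, hac using Int.leInduction with
  | base =>
    rw [Finset.Ico_self, Finset.sum_empty]
    rw [Module.length_eq_zero_iff.2 (hmod_subsingleton (inf_le_left.trans le_sup_right))]
  | succ c hac ih =>
    have hs : Finset.Ico a (c + 1) = insert c (Finset.Ico a c) := by
      ext u; simp only [Finset.mem_insert, Finset.mem_Ico]; omega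
    rw [hs, Finset.sum_insert (by simp)]
    refine le_trans ?_ (add_le_add le_rfl ih)
    have hex := exact_hinc_hproj (δ := δ) (lvl_anti (P := P) hanti (by omega : c ≤ c + 1))
      (lvl_anti hanti hac) hd r
    have h1 := ell_map_le_add (LinearMap.id : winH δ P Gt a (c + 1) r →ₗ[R] _)
      (hproj (δ := δ) (O := lvl P Gt a) (lvl_anti hanti (by omega : c ≤ c + 1)) r) ⊤
    rw [Submodule.map_id, top_inf_eq, Submodule.map_id, Module.length_top, Submodule.map_top,
      LinearMap.exact_iff.1 hex] at h1
    refine h1.trans (add_le_add ?_ ?_)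
    · exact Module.length_le_of_surjective _ (LinearMap.surjective_rangeRestrict _)
    · exact Module.length_le_of_injective _ (Submodule.injective_subtype _)

include hanti hd hdeg hlev in
/-- A shifted rank brought back to the window loses at most two windows of `e` levels. -/
theorem LevelShift.win_le_winMap (h : LevelShift δ P Gt g e) (hl : LevelEnd δ P Gt g) {a c : ℤ}
    (he : 0 ≤ e) (hec : a + e ≤ c) (r : ℤ) :
    Module.length R ↥(LinearMap.range (h.win a c (r + 1))) ≤
      Module.length R ↥(LinearMap.range (hl.winMap a c (r + 1))) +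
        Module.length R (winH δ P Gt c (c + e) (r + 1)) +
        Module.length R (winH δ P Gt a (a + e) r) := by
  have q₁ : ∀ r, lvl P Gt (c + e) r ≤ lvl P Gt c r := lvl_anti hanti (by omega)
  have q₂ : ∀ r, lvl P Gt c r ≤ lvl P Gt (a + e) r := lvl_anti hanti hec
  have q₃ : ∀ r, lvl P Gt (a + e) r ≤ lvl P Gt a r := lvl_anti hanti (by omega)
  set pr := hproj (δ := δ) (O := lvl P Gt (a + e)) q₁ (r + 1)
  set ic := hinc (δ := δ) (Q := lvl P Gt c) q₃ (r + 1)
  set U := LinearMap.range (h.win a c (r + 1))
  have hfac : hl.winMap a c (r + 1) = ic ∘ₗ pr ∘ₗ h.win a c (r + 1) := by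
    refine LinearMap.ext fun v => ?_
    obtain ⟨z, rfl⟩ := hmk_surjective δ (lvl P Gt a) (lvl P Gt c) (r + 1) v
    rfl
  have h1 := ell_map_le_add (LinearMap.id : winH δ P Gt (a + e) (c + e) (r + 1) →ₗ[R] _) pr U
  rw [Submodule.map_id, Submodule.map_id] at h1
  have h2 := ell_map_le_add (LinearMap.id : winH δ P Gt (a + e) c (r + 1) →ₗ[R] _) ic (U.map pr)
  rw [Submodule.map_id, Submodule.map_id] at h2
  have h3 : (U.map pr).map ic = LinearMap.range (hl.winMap a c (r + 1)) := by
    rw [hfac, LinearMap.range_comp, LinearMap.range_comp]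
  have h4 : Module.length R ↥(U ⊓ LinearMap.ker pr) ≤
      Module.length R (winH δ P Gt c (c + e) (r + 1)) := by
    refine (ell_mono (inf_le_right.trans_eq
      (LinearMap.exact_iff.1 (exact_hinc_hproj q₁ q₂ hd (r + 1))))).trans ?_
    exact Module.length_le_of_surjective _ (LinearMap.surjective_rangeRestrict _)
  have h5 : Module.length R ↥(U.map pr ⊓ LinearMap.ker ic) ≤
      Module.length R (winH δ P Gt a (a + e) r) := by
    refine (ell_mono (inf_le_right.trans_eq (LinearMap.exact_iff.1
      (exact_hconn_hinc q₃ hd (lvl_stable hdeg hlev _) q₂ r)))).trans ?_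
    exact Module.length_le_of_surjective _ (LinearMap.surjective_rangeRestrict _)
  rw [h3] at h2
  refine h1.trans (le_trans (add_le_add h4 (h2.trans (add_le_add h5 le_rfl))) (le_of_eq ?_))
  ring

end shift

end Vale.Agent.P202
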