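import Vale.Agent.P202.PhiTorCore

/-!
Module B, layer 8c: finitely generated pairs killed by a nonzero homogeneous polynomial have small
cohomology.
-/

universe u

namespace Vale.Agent.P202

open Finset

/-- The range of the exponent in a factor of degree `t`. -/
noncomputable def ivl (t : ℤ) : Finset ℤ := Finset.Icc (min 0 (t + 1)) (max t (-1))

section count

variable {m d D : ℕ} {a : Fin (d - 1) → ℤ} {g : Fin m → ℤ} {c : ℤ}

lemma mem_baseR_ivl {r : ℤ} {b : Fin m × (Fin (d - 1) → ℤ)} :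
    b ∈ baseR D a g c r ↔ ((D : ℤ) ∣ g b.1 - c ∧ (nNeg D a g c b.1 : ℤ) = r) ∧
      ∀ l, b.2 l ∈ ivl (tOf D a g c b.1 l) := by
  rw [mem_baseR]
  refine and_congr_right fun _ => forall_congr' fun l => ?_
  rw [ivl, Finset.mem_Icc]
  constructor
  · rintro ⟨h1, h2⟩
    rcases le_or_gt 0 (tOf D a g c b.1 l) with h | h
    · have := h1 h; omega
    · have := h2 h; omega
  · intro h
    exact ⟨fun h' => by omega, fun h' => by omega⟩

lemma card_baseR_le (r : ℤ) (L : ℕ) (hL : ∀ k l, (ivl (tOf D a g c k l)).card ≤ L) :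
    (baseR D a g c r).card ≤ m * L ^ (d - 1) := by
  have hsub : baseR D a g c r ⊆ (univ : Finset (Fin m)).biUnion fun k =>
      (Fintype.piFinset fun l => ivl (tOf D a g c k l)).image fun e => (k, e) := by
    intro b hb
    exact Finset.mem_biUnion.2 ⟨b.1, mem_univ _, Finset.mem_image.2
      ⟨b.2, Fintype.mem_piFinset.2 (mem_baseR_ivl.1 hb).2, rfl⟩⟩
  refine (Finset.card_le_card hsub).trans (Finset.card_biUnion_le.trans ?_)
  refine (Finset.sum_le_sum (g := fun _ => L ^ (d - 1)) fun k _ => ?_).trans (by simp)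
  refine Finset.card_image_le.trans ?_
  rw [Fintype.card_piFinset]
  exact (Finset.prod_le_prod' fun l _ => hL k l).trans (by simp)

/-- Points of boxes with one coordinate in a small set. -/
lemma card_boundary_le {n : ℕ} (T : Finset (Fin m × (Fin n → ℤ))) (I bad : Fin m → Fin n → Finset ℤ)
    (L Δ : ℕ) (hI : ∀ k j, (I k j).card ≤ L) (hb : ∀ k j, (bad k j).card ≤ Δ)
    (hT : ∀ b ∈ T, (∀ j, b.2 j ∈ I b.1 j) ∧ ∃ l, b.2 l ∈ bad b.1 l) :
    T.card * L ≤ m * n * Δ * L ^ n := by
  classical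
  have hsub : T ⊆ (univ : Finset (Fin m × Fin n)).biUnion fun kl =>
      (Fintype.piFinset (Function.update (I kl.1) kl.2 (bad kl.1 kl.2))).image fun e => (kl.1, e) := by
    intro b hb'
    obtain ⟨h1, l, hl⟩ := hT b hb'
    refine Finset.mem_biUnion.2 ⟨(b.1, l), mem_univ _, Finset.mem_image.2 ⟨b.2, ?_, rfl⟩⟩
    refine Fintype.mem_piFinset.2 fun j => ?_
    by_cases hj : j = l
    · subst hj; simpa using hl
    · simpa [Function.update_of_ne hj] using h1 j
  refine (Nat.mul_le_mul_right L ((Finset.card_le_card hsub).trans Finset.card_biUnion_le)).trans ?_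
  rw [Finset.sum_mul]
  refine (Finset.sum_le_sum (g := fun _ => Δ * L ^ n) fun kl _ => ?_).trans
    (le_of_eq (by simp; ring))
  refine (Nat.mul_le_mul_right L Finset.card_image_le).trans ?_
  rw [Fintype.card_piFinset, ← Finset.mul_prod_erase _ _ (mem_univ kl.2), Function.update_self]
  have hprod : (∏ j ∈ univ.erase kl.2, (Function.update (I kl.1) kl.2 (bad kl.1 kl.2) j).card) ≤
      L ^ (n - 1) := by
    refine (Finset.prod_le_prod' (g := fun _ => L) fun j hj => ?_).trans (by simp)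
    rw [Function.update_of_ne (Finset.ne_of_mem_erase hj)]
    exact hI _ _
  have hn : 0 < n := Fin.pos kl.2
  calc (bad kl.1 kl.2).card * _ * L ≤ Δ * L ^ (n - 1) * L := by
        gcongr
        exact hb _ _
    _ = Δ * L ^ n := by rw [mul_assoc, ← pow_succ, Nat.sub_add_cancel hn]

lemma tOf_sub (hD : 0 < D) (δ : ℕ) (k : Fin m) (l : Fin (d - 1)) :
    tOf D a g (c - D * δ) k l = tOf D a g c k l - δ := by
  rw [tOf, tOf, sigOf, sigOf, show g k - (c - D * δ) = g k - c + δ * D by ring,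
    Int.add_mul_ediv_right _ _ (by omega)]
  ring

lemma card_ivl_le (hD : 0 < D) (k : Fin m) (l : Fin (d - 1)) :
    (ivl (tOf D a g c k l)).card ≤ d + (g k).natAbs + c.natAbs + (a l).natAbs + 2 := by
  have h : (sigOf D g c k).natAbs ≤ (g k - c).natAbs := Int.natAbs_ediv_le_natAbs _ _
  have h2 : tOf D a g c k l = (d : ℤ) - sigOf D g c k - a l := rfl
  rw [ivl, Int.card_Icc]
  omega

variable {δ : ℕ} {η : Fin (d - 1) → ℤ}

lemma tgt_boundary (hD : 0 < D) (hη : ∀ l, 0 ≤ η l ∧ η l ≤ δ) (r : ℤ) (L : ℕ)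
    (hL : ∀ k l, (ivl (tOf D a g c k l)).card ≤ L) :
    (baseR D a g c r).card * L ≤
      (stayR D a g c δ η r).card * L + m * (d - 1) * (2 * (δ + 1)) * L ^ (d - 1) := by
  classical
  set S := stayR D a g c δ η r with hS
  let sh : Fin m × (Fin (d - 1) → ℤ) → Fin m × (Fin (d - 1) → ℤ) := fun b => (b.1, b.2 + η)
  let T := baseR D a g c r \ S.image sh
  let bad : Fin m → Fin (d - 1) → Finset ℤ := fun k l =>
    (ivl (tOf D a g c k l)).filter fun y => y - η l ∉ ivl (tOf D a g (c - D * δ) k l) ∨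
      ¬ (tOf D a g (c - D * δ) k l < 0 ↔ tOf D a g c k l < 0)
  have hbad : ∀ k l, (bad k l).card ≤ 2 * (δ + 1) := by
    intro k l
    have hsub : bad k l ⊆ Finset.Icc (min 0 (tOf D a g c k l + 1))
        (min 0 (tOf D a g c k l + 1) + δ) ∪
        Finset.Icc (max (tOf D a g c k l) (-1) - δ) (max (tOf D a g c k l) (-1)) := by
      intro y hy
      have := hη l
      simp only [bad, Finset.mem_filter, ivl, Finset.mem_Icc, tOf_sub hD] at hy
      simp only [Finset.mem_union, Finset.mem_Icc]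
      omega
    refine (Finset.card_le_card hsub).trans ((Finset.card_union_le _ _).trans ?_)
    simp only [Int.card_Icc]
    omega
  have hT : ∀ b ∈ T, (∀ j, b.2 j ∈ ivl (tOf D a g c b.1 j)) ∧ ∃ l, b.2 l ∈ bad b.1 l := by
    intro b hb
    obtain ⟨hb1, hb2⟩ := Finset.mem_sdiff.1 hb
    obtain ⟨⟨hdvd, hr⟩, hbox⟩ := mem_baseR_ivl.1 hb1
    refine ⟨hbox, by_contra fun hn => hb2 ?_⟩
    have hgood : ∀ l, b.2 l - η l ∈ ivl (tOf D a g (c - D * δ) b.1 l) ∧
        (tOf D a g (c - D * δ) b.1 l < 0 ↔ tOf D a g c b.1 l < 0) := by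
      intro l
      by_contra hl
      refine hn ⟨l, Finset.mem_filter.2 ⟨hbox l, ?_⟩⟩
      tauto
    refine Finset.mem_image.2 ⟨(b.1, b.2 - η), Finset.mem_filter.2 ⟨mem_baseR_ivl.2 ⟨⟨?_, ?_⟩,
      fun l => (hgood l).1⟩, by simpa [sh] using hb1, fun l => (hgood l).2⟩, by simp [sh]⟩
    · rw [show g b.1 - (c - (D : ℤ) * δ) = g b.1 - c + D * δ by ring]
      exact dvd_add hdvd (dvd_mul_right _ _)
    · rw [← hr, nNeg, nNeg, Finset.filter_congr fun l _ => (hgood l).2]
  have h1 := card_boundary_le T (fun k j => ivl (tOf D a g c k j)) bad L _ hL hbad hT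
  have h2 : (baseR D a g c r).card ≤ S.card + T.card := by
    refine le_trans (le_of_eq ?_) (Nat.add_le_add_right (Finset.card_image_le (f := sh)) _)
    rw [add_comm, Finset.card_sdiff_add_card_eq_card]
    intro b hb
    obtain ⟨b', hb', rfl⟩ := Finset.mem_image.1 hb
    exact (Finset.mem_filter.1 hb').2.1
  calc (baseR D a g c r).card * L ≤ (S.card + T.card) * L := Nat.mul_le_mul_right L h2
    _ = S.card * L + T.card * L := add_mul _ _ _
    _ ≤ _ := Nat.add_le_add_left h1 _

lemma src_boundary (hD : 0 < D) (hη : ∀ l, 0 ≤ η l ∧ η l ≤ δ) (r : ℤ) (L : ℕ)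
    (hL : ∀ k l, (ivl (tOf D a g (c - D * δ) k l)).card ≤ L) :
    (baseR D a g (c - D * δ) r).card * L ≤
      (stayR D a g c δ η r).card * L + m * (d - 1) * (2 * (δ + 1)) * L ^ (d - 1) := by
  classical
  set S := stayR D a g c δ η r with hS
  let T := baseR D a g (c - D * δ) r \ S
  let bad : Fin m → Fin (d - 1) → Finset ℤ := fun k l =>
    (ivl (tOf D a g (c - D * δ) k l)).filter fun y => y + η l ∉ ivl (tOf D a g c k l) ∨
      ¬ (tOf D a g (c - D * δ) k l < 0 ↔ tOf D a g c k l < 0)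
  have hbad : ∀ k l, (bad k l).card ≤ 2 * (δ + 1) := by
    intro k l
    have hsub : bad k l ⊆ Finset.Icc (min 0 (tOf D a g c k l - δ + 1))
        (min 0 (tOf D a g c k l - δ + 1) + δ) ∪
        Finset.Icc (max (tOf D a g c k l - δ) (-1) - δ) (max (tOf D a g c k l - δ) (-1)) := by
      intro y hy
      have := hη l
      simp only [bad, Finset.mem_filter, ivl, Finset.mem_Icc, tOf_sub hD] at hy
      simp only [Finset.mem_union, Finset.mem_Icc]
      omega
    refine (Finset.card_le_card hsub).trans ((Finset.card_union_le _ _).trans ?_)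
    simp only [Int.card_Icc]
    omega
  have hT : ∀ b ∈ T, (∀ j, b.2 j ∈ ivl (tOf D a g (c - D * δ) b.1 j)) ∧
      ∃ l, b.2 l ∈ bad b.1 l := by
    intro b hb
    obtain ⟨hb1, hb2⟩ := Finset.mem_sdiff.1 hb
    obtain ⟨⟨hdvd, hr⟩, hbox⟩ := mem_baseR_ivl.1 hb1
    refine ⟨hbox, by_contra fun hn => hb2 ?_⟩
    have hgood : ∀ l, b.2 l + η l ∈ ivl (tOf D a g c b.1 l) ∧
        (tOf D a g (c - D * δ) b.1 l < 0 ↔ tOf D a g c b.1 l < 0) := by
      intro l
      by_contra hl
      refine hn ⟨l, Finset.mem_filter.2 ⟨hbox l, ?_⟩⟩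
      tauto
    refine Finset.mem_filter.2 ⟨hb1, mem_baseR_ivl.2 ⟨⟨?_, ?_⟩, fun l => (hgood l).1⟩,
      fun l => (hgood l).2⟩
    · have := dvd_sub hdvd (dvd_mul_right (D : ℤ) (δ : ℤ))
      rwa [show g b.1 - (c - (D : ℤ) * δ) - D * δ = g b.1 - c by ring] at this
    · rw [← hr, nNeg, nNeg, Finset.filter_congr fun l _ => ((hgood l).2).symm]
  have h1 := card_boundary_le T (fun k j => ivl (tOf D a g (c - D * δ) k j)) bad L _ hL hbad hT
  have h2 : (baseR D a g (c - D * δ) r).card ≤ S.card + T.card := by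
    rw [add_comm, Finset.card_sdiff_add_card_eq_card (stayR_subset D a g c δ η r)]
  calc (baseR D a g (c - D * δ) r).card * L ≤ (S.card + T.card) * L := Nat.mul_le_mul_right L h2
    _ = S.card * L + T.card * L := add_mul _ _ _
    _ ≤ _ := Nat.add_le_add_left h1 _

end count

section bound

variable {k : Type u} [Field k] {d D : ℕ}

lemma finrank_le_of_exact {V₁ V₂ V₃ : Type*} [AddCommGroup V₁] [Module k V₁] [AddCommGroup V₂]
    [Module k V₂] [AddCommGroup V₃] [Module k V₃] [Module.Finite k V₁] [Module.Finite k V₂]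
    [Module.Finite k V₃] (f : V₁ →ₗ[k] V₂) (g : V₂ →ₗ[k] V₃) (h : Function.Exact f g) :
    Module.finrank k V₂ ≤ Module.finrank k V₁ + Module.finrank k V₃ := by
  have h1 := LinearMap.finrank_range_add_finrank_ker g
  rw [LinearMap.exact_iff.1 h] at h1
  have h2 := LinearMap.finrank_range_le f
  have h3 := Submodule.finrank_le (LinearMap.range g)
  omega

/-- The cohomology of a free family modulo `P` at parameters of size `q` is `O(q ^ (d - 2))`. -/
lemma free_mod_bound {m : ℕ} (g : Fin m → ℤ) (hd : 0 < d) (hD : 0 < D)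
    {P : MvPolynomial (Fin d) k} {δ : ℕ} (hP : ∀ β ∈ P.support, bdeg β = δ) (hne : P ≠ 0) (B : ℕ) :
    ∃ C : ℕ, ∀ q : ℕ, 0 < q → ∀ (a : Fin (d - 1) → ℤ) (c : ℤ),
      c.natAbs ≤ B * q → (∀ l, (a l).natAbs ≤ B * q) → ∀ r,
      Module.finrank k (HMod (phiDF k m d) (phiC D a (freeFam k (d := d) D g) c)
        (phiC D a (mulImg k D g P δ) c) r) * q ≤ C * q ^ (d - 1) := by
  obtain ⟨η, hη, hrank⟩ := finrank_free_mod (D := D) (g := g) hd hD hP hne
  set G := 2 * B + d + 2 + (∑ k, (g k).natAbs) + D * δ with hG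
  refine ⟨2 * (m * (d - 1) * (2 * (δ + 1)) * G ^ (d - 1)), fun q hq a c hc ha r => ?_⟩
  have hL : ∀ c' : ℤ, c'.natAbs ≤ B * q + D * δ → ∀ k l, (ivl (tOf D a g c' k l)).card ≤ G * q := by
    intro c' hc' k l
    refine (card_ivl_le hD k l).trans ?_
    have h1 : (g k).natAbs ≤ ∑ k, (g k).natAbs :=
      Finset.single_le_sum (f := fun k => (g k).natAbs) (fun _ _ => Nat.zero_le _) (mem_univ k)
    have h2 := ha l
    have h3 : (d + 2 + (∑ k, (g k).natAbs) + D * δ) * 1 ≤
        (d + 2 + (∑ k, (g k).natAbs) + D * δ) * q := Nat.mul_le_mul_left _ hq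
    have h4 : G * q = 2 * (B * q) + (d + 2 + (∑ k, (g k).natAbs) + D * δ) * q := by
      rw [hG]; ring
    omega
  have hc0 : c.natAbs ≤ B * q + D * δ := by omega
  have hc1 : (c - (D : ℤ) * δ).natAbs ≤ B * q + D * δ := by
    have h1 := Int.natAbs_sub_le c ((D : ℤ) * δ)
    rw [Int.natAbs_mul, Int.natAbs_natCast, Int.natAbs_natCast] at h1
    omega
  have h1 := tgt_boundary (a := a) (g := g) (c := c) (η := η) hD hη r (G * q) (hL c hc0)
  have h2 := src_boundary (a := a) (g := g) (c := c) (η := η) hD hη (r + 1) (G * q) (hL _ hc1)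
  set H := Module.finrank k (HMod (phiDF k m d) (phiC D a (freeFam k (d := d) D g) c)
    (phiC D a (mulImg k D g P δ) c) r) with hH
  have h3 : H + (stayR D a g c δ η r).card + (stayR D a g c δ η (r + 1)).card ≤
      (baseR D a g c r).card + (baseR D a g (c - D * δ) (r + 1)).card := hrank a c r
  have h4 := Nat.mul_le_mul_right (G * q) h3
  have h5 : H * (G * q) ≤ 2 * (m * (d - 1) * (2 * (δ + 1)) * (G * q) ^ (d - 1)) := by linarith
  have hG1 : 1 ≤ G := by omega
  calc H * q ≤ H * (G * q) := Nat.mul_le_mul_left _ (Nat.le_mul_of_pos_left q hG1)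
    _ ≤ _ := h5
    _ = _ := by rw [mul_pow]; ring

/-- Finitely generated pairs killed by `P` have cohomology `O(q ^ (d - 2))`. -/
theorem torsion_bound_aux (hd : 0 < d) (hD : 0 < D) {P : MvPolynomial (Fin d) k} {δ : ℕ}
    (hP : ∀ β ∈ P.support, bdeg β = δ) (hne : P ≠ 0) :
    ∀ (t : ℕ) (M : Type u) [AddCommGroup M] [Module k M] {X : Fin d → M →ₗ[k] M}
      (hX : ∀ a b, X a ∘ₗ X b = X b ∘ₗ X a) (W W' : ℤ → Submodule k M),
      FGPair D hX W W' → (∀ n, ∀ v ∈ W n, pAct hX P v ∈ W' (n + D * δ)) → ∀ B : ℕ, ∃ C : ℕ,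
      ∀ q : ℕ, 0 < q → ∀ (a : Fin (d - 1) → ℤ) (c : ℤ),
        c.natAbs ≤ B * q → (∀ l, (a l).natAbs ≤ B * q) → ∀ r : ℤ, (d : ℤ) - t ≤ r →
        Module.finrank k (HMod (phiD X) (phiC D a W c) (phiC D a W' c) r) * q ≤ C * q ^ (d - 1) := by
  intro t
  induction t with
  | zero =>
    intro M _ _ X hX W W' _ _ B
    refine ⟨0, fun q _ a c _ _ r hr => ?_⟩
    have : Subsingleton (HMod (phiD X) (phiC D a W c) (phiC D a W' c) r) :=
      hmod_subsingleton_of_bot (phiC_eq_bot hd (Or.inr (by omega)))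
    rw [Module.finrank_zero_of_subsingleton, zero_mul]
    exact Nat.zero_le _
  | succ t ih =>
    intro M _ _ X hX W W' hW hkill B
    obtain ⟨m, g, gen, hgen, hsur⟩ := hW.gens
    have hIK : ∀ n, mulImg k D g P δ n ≤ kerFam D hX W' g gen n := by
      rintro n _ ⟨v, hv, rfl⟩
      refine ⟨mulImg_le hP n ⟨v, hv, rfl⟩, ?_⟩
      change evFree hX gen _ ∈ W' n
      rw [evFree_pAct]
      have := hkill _ _ (evFree_mem hX gen hW.stable hgen hv)
      rwa [add_assoc, neg_add_cancel, add_zero] at this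
    have hKker : FGPair D (X := fun l => (xFree k l : FreeMod k m d →ₗ[k] _)) xFree_comm
        (kerFam D hX W' g gen) (mulImg k D g P δ) := by
      obtain ⟨m', g', gen', hgen', hsur'⟩ := (kerFam_fg hX hW.stable' g gen).gens
      exact ⟨kerFam_stable hX hW.stable' g gen, mulImg_stable, hIK, m', g', gen', hgen',
        fun n => (hsur' n).trans (sup_le_sup_left bot_le _)⟩
    obtain ⟨C₁, hC₁⟩ := free_mod_bound g hd hD hP hne B
    obtain ⟨C₂, hC₂⟩ := ih (FreeMod k m d) (X := fun l => (xFree k l : FreeMod k m d →ₗ[k] _))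
      xFree_comm (kerFam D hX W' g gen) (mulImg k D g P δ) hKker (fun n v hv => ⟨v, by
        change v ∈ freeFam k D g (n + D * δ + -((D : ℤ) * δ))
        rw [add_neg_cancel_right]
        exact hv.1, rfl⟩) B
    refine ⟨C₁ + C₂, fun q hq a c hc ha r hr => ?_⟩
    have hdd : phiDF k m d ∘ₗ phiDF k m d = 0 :=
      phiD_phiD (X := fun l => (xFree k l : FreeMod k m d →ₗ[k] _)) fun a b => xFree_comm a b
    let e := evEquiv a hX hW.stable hW.stable' hW.le g gen hgen c (fun σ => hsur _) r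
    have hfin : Module.Finite k (HMod (phiD X) (phiC D a W c) (phiC D a W' c) r) :=
      hW.finite hd hD a c r
    have hFfg : FGPair D (X := fun l => (xFree k l : FreeMod k m d →ₗ[k] _)) xFree_comm
        (freeFam k D g) (mulImg k D g P δ) := by
      refine ⟨freeFam_stable g, mulImg_stable, mulImg_le hP, m, g,
        fun j => Finsupp.single (j, 0) 1, fun j => mem_freeFam.2 fun p hp => ?_,
        fun n f hf => Submodule.mem_sup_left ⟨f, hf, ?_⟩⟩
      · rw [Finsupp.single_apply] at hp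
        split at hp
        · rename_i e'; subst e'; simp [bdeg]
        · exact absurd rfl hp
      · have key : ∀ (j : Fin m) (β : Fin d →₀ ℕ),
            xPow (X := fun l => (xFree k l : FreeMod k m d →ₗ[k] _)) xFree_comm β
              (Finsupp.single (j, 0) 1) = Finsupp.single (j, β) 1 := by
          intro j β
          refine xPow_induction (P := fun β => xPow (X := fun l =>
            (xFree k l : FreeMod k m d →ₗ[k] _)) xFree_comm β (Finsupp.single (j, 0) 1) =
              Finsupp.single (j, β) 1) ?_ ?_ β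
          · rw [xPow_zero]
          · intro β l ih'
            rw [xPow_add_single, ih', xFree_single]
        conv_rhs => rw [← Finsupp.sum_single f]
        rw [evFree, Finsupp.linearCombination_apply]
        refine Finset.sum_congr rfl fun p _ => ?_
        dsimp only
        rw [key, Finsupp.smul_single, smul_eq_mul, mul_one]
    have := hFfg.finite hd hD a c r
    have := hKker.finite hd hD a c (r + 1)
    have hPO : ∀ r, phiC D a (kerFam D hX W' g gen) c r ≤ phiC D a (freeFam k D g) c r :=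
      fun r => inf_le_inf_right _ (phiSub_mono fun σ => inf_le_left)
    have hQP : ∀ r, phiC D a (mulImg k D g P δ) c r ≤ phiC D a (kerFam D hX W' g gen) c r :=
      fun r => inf_le_inf_right _ (phiSub_mono fun σ => hIK _)
    have hst := phiC_stable (kerFam_stable hX hW.stable' g gen) a c
    have : Module.Finite k (HMod (phiDF k m d) (phiC D a (freeFam k D g) c)
        (phiC D a (kerFam D hX W' g gen) c) r) := Module.Finite.equiv e.symm
    have hle := finrank_le_of_exact _ _
      (exact_hproj_hconn (δ := phiDF k m d) (O := phiC D a (freeFam k D g) c)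
        (Q := phiC D a (mulImg k D g P δ) c) hQP hPO hdd hst r)
    rw [← e.finrank_eq]
    calc _ ≤ _ := Nat.mul_le_mul_right q hle
      _ ≤ C₁ * q ^ (d - 1) + C₂ * q ^ (d - 1) := by
        rw [add_mul]
        exact Nat.add_le_add (hC₁ q hq a c hc ha r)
          (hC₂ q hq a c hc ha (r + 1) (by push_cast at hr; omega))
      _ = _ := (add_mul _ _ _).symm

/-- Finitely generated pairs killed by `P` have cohomology `O(q ^ (d - 2))` in every degree. -/
theorem torsion_bound (hd : 0 < d) (hD : 0 < D) {P : MvPolynomial (Fin d) k} {δ : ℕ}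
    (hP : ∀ β ∈ P.support, bdeg β = δ) (hne : P ≠ 0) {M : Type u} [AddCommGroup M] [Module k M]
    {X : Fin d → M →ₗ[k] M} {hX : ∀ a b, X a ∘ₗ X b = X b ∘ₗ X a} {W W' : ℤ → Submodule k M}
    (hW : FGPair D hX W W') (hkill : ∀ n, ∀ v ∈ W n, pAct hX P v ∈ W' (n + D * δ)) (B : ℕ) :
    ∃ C : ℕ, ∀ q : ℕ, 0 < q → ∀ (a : Fin (d - 1) → ℤ) (c : ℤ),
      c.natAbs ≤ B * q → (∀ l, (a l).natAbs ≤ B * q) → ∀ r : ℤ,
      Module.finrank k (HMod (phiD X) (phiC D a W c) (phiC D a W' c) r) * q ≤ C * q ^ (d - 1) := by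
  obtain ⟨C, hC⟩ := torsion_bound_aux hd hD hP hne (2 * d) M hX W W' hW hkill B
  refine ⟨C, fun q hq a c hc ha r => ?_⟩
  by_cases hr : (d : ℤ) - (2 * d : ℕ) ≤ r
  · exact hC q hq a c hc ha r hr
  · have : Subsingleton (HMod (phiD X) (phiC D a W c) (phiC D a W' c) r) :=
      hmod_subsingleton_of_bot (phiC_eq_bot hd (Or.inl (by push_cast at hr; omega)))
    rw [Module.finrank_zero_of_subsingleton, zero_mul]
    exact Nat.zero_le _

end bound

end Vale.Agent.P202
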