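import Vale.Agent.P202.PhiGr
import Vale.Agent.P202.PhiTorsion

/-!
Module B, layer 9b: a finitely generated family over a field contains a free family whose quotient
is killed by a nonzero homogeneous polynomial.
-/

universe u

namespace Vale.Agent.P202

open Finset

lemma bdeg_eq_degree {d : ℕ} (β : Fin d →₀ ℕ) : bdeg β = Finsupp.degree β :=
  (Finsupp.degree_eq_sum β).symm

lemma isHomogeneous_iff_bdeg {A : Type*} [CommRing A] {d δ : ℕ} {P : MvPolynomial (Fin d) A} :
    P.IsHomogeneous δ ↔ ∀ β ∈ P.support, bdeg β = δ := by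
  constructor
  · intro h β hβ
    rw [bdeg_eq_degree]
    exact (h.degree_eq_sum_deg_support hβ).symm
  · intro h β hβ
    rw [Finsupp.weight_apply, Finsupp.sum_fintype _ _ (fun _ => by simp)]
    simpa [bdeg] using h β (MvPolynomial.mem_support_iff.2 hβ)

section general

variable {A : Type*} [CommRing A] {d m : ℕ} {M : Type*} [AddCommGroup M] [Module A M]
  {X : Fin d → M →ₗ[A] M} (hX : ∀ a b, X a ∘ₗ X b = X b ∘ₗ X a)

lemma coeff_polyEquiv (f : FreeMod A m d) (j : Fin m) (β : Fin d →₀ ℕ) :
    MvPolynomial.coeff β (polyEquiv A m d f j) = f (j, β) := by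
  classical
  induction f using Finsupp.induction_linear with
  | zero => simp
  | add f g hf hg => simp [hf, hg]
  | single p v =>
    obtain ⟨k, γ⟩ := p
    rw [polyEquiv_single]
    by_cases hk : j = k
    · subst hk
      simp [MvPolynomial.coeff_monomial, Finsupp.single_apply]
    · simp [hk]

lemma evFree_eq_sum (gen : Fin m → M) (f : FreeMod A m d) :
    evFree hX gen f = ∑ j, pAct hX (polyEquiv A m d f j) (gen j) := by
  classical
  induction f using Finsupp.induction_linear with
  | zero => simp
  | add f g hf hg => simp [map_add, hf, hg, Finset.sum_add_distrib]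
  | single p v =>
    rw [evFree_single, polyEquiv_single, Finset.sum_eq_single p.1]
    · rw [Pi.single_eq_same, ← LinearMap.smul_apply, xPow, ← map_smul,
        MvPolynomial.smul_monomial, smul_eq_mul, mul_one]
    · intro j _ hj
      rw [Pi.single_eq_of_ne hj, map_zero, LinearMap.zero_apply]
    · simp

end general

section field

variable {k : Type u} [Field k] {d D m : ℕ} {M : Type u} [AddCommGroup M] [Module k M]
  {X : Fin d → M →ₗ[k] M}

/-- A maximal free subfamily: the quotient by it is killed by a homogeneous polynomial. -/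
theorem free_part (hD : 0 < D) (hX : ∀ a b, X a ∘ₗ X b = X b ∘ₗ X a) {W : ℤ → Submodule k M}
    (g : Fin m → ℤ) (gen : Fin m → M) (hgen : ∀ i, gen i ∈ W (g i))
    (hsur : ∀ n, W n ≤ (freeFam k D g n).map (evFree hX gen)) :
    ∃ (s : ℕ) (h : Fin s → ℤ) (gen' : Fin s → M) (P : MvPolynomial (Fin d) k) (δ : ℕ),
      P ≠ 0 ∧ (∀ β ∈ P.support, bdeg β = δ) ∧ (∀ i, gen' i ∈ W (h i)) ∧
      (∀ n, ∀ f ∈ freeFam k (d := d) D h n, evFree hX gen' f = 0 → f = 0) ∧
      ∀ n, ∀ v ∈ W n, pAct hX P v ∈ (freeFam k D h (n + D * δ)).map (evFree hX gen') := by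
  classical
  let Ind : Finset (Fin m) → Prop := fun S => ∀ n, ∀ f ∈ freeFam k (d := d) D g n,
    (∀ p, f p ≠ 0 → p.1 ∈ S) → evFree hX gen f = 0 → f = 0
  have h0 : Ind ∅ := fun n f _ hs _ => Finsupp.ext fun p => by
    by_contra hp
    exact absurd (hs p hp) (Finset.notMem_empty _)
  obtain ⟨S, hS, hmax⟩ := Finset.exists_max_image (Finset.univ.filter Ind) Finset.card
    ⟨∅, Finset.mem_filter.2 ⟨mem_univ _, h0⟩⟩
  have hS' : Ind S := (Finset.mem_filter.1 hS).2
  let e : Fin S.card ≃ S := S.equivFin.symm
  let h : Fin S.card → ℤ := fun i => g (e i)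
  let gen' : Fin S.card → M := fun i => gen (e i)
  let φ : FIdx S.card d → FIdx m d := fun p => ((e p.1 : Fin m), p.2)
  have hφ : Function.Injective φ := fun p q hpq => by
    simp only [φ, Prod.mk.injEq] at hpq
    exact Prod.ext (e.injective (Subtype.ext hpq.1)) hpq.2
  have hev : ∀ f : FreeMod k S.card d,
      evFree hX gen (Finsupp.mapDomain φ f) = evFree hX gen' f := fun f => by
    rw [evFree, Finsupp.linearCombination_mapDomain]
    rfl
  let T : ℤ → Submodule k M := fun n => (freeFam k D h n).map (evFree hX gen')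
  have hT : FamStable D X T := by
    rintro l n _ ⟨f, hf, rfl⟩
    exact ⟨xFree k l f, freeFam_stable h l n f hf, evFree_xFree hX gen' l f⟩
  have hrel : ∀ j, ∃ (Pj : MvPolynomial (Fin d) k) (δj : ℕ), Pj ≠ 0 ∧ Pj.IsHomogeneous δj ∧
      pAct hX Pj (gen j) ∈ T (g j + D * δj) := by
    intro j
    by_cases hj : j ∈ S
    · refine ⟨1, 0, one_ne_zero, MvPolynomial.isHomogeneous_one _ _, ?_⟩
      rw [map_one, Module.End.one_apply, Nat.cast_zero, mul_zero, add_zero]
      refine ⟨Finsupp.single (S.equivFin ⟨j, hj⟩, 0) 1, mem_freeFam.2 fun p hp => ?_, ?_⟩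
      · rw [Finsupp.single_apply] at hp
        split at hp
        · rename_i e'; subst e'; simp [h, e, bdeg]
        · exact absurd rfl hp
      · rw [evFree_single, one_smul, xPow_zero]
        simp [gen', e]
    · have hn : ¬ Ind (insert j S) := fun hI => by
        have := hmax _ (Finset.mem_filter.2 ⟨mem_univ _, hI⟩)
        rw [Finset.card_insert_of_notMem hj] at this
        omega
      simp only [Ind, not_forall] at hn
      obtain ⟨n, f, hf, hsupp, hev0, hne⟩ := hn
      set f₂ := Finsupp.filter (fun p : FIdx m d => p.1 ≠ j) f with hf₂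
      have hsupp₂ : ∀ p, f₂ p ≠ 0 → p.1 ∈ S := fun p hp => by
        rw [hf₂, Finsupp.filter_apply] at hp
        split at hp
        · rename_i hpj
          exact (Finset.mem_insert.1 (hsupp p hp)).resolve_left hpj
        · exact absurd rfl hp
      have hj0 : ∃ β, f (j, β) ≠ 0 := by
        by_contra hall
        simp only [not_exists, not_ne_iff] at hall
        refine hne (hS' n f hf (fun p hp => ?_) hev0)
        refine (Finset.mem_insert.1 (hsupp p hp)).resolve_left fun hpj => hp ?_
        obtain ⟨p1, p2⟩ := p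
        subst hpj
        exact hall p2
      obtain ⟨β₀, hβ₀⟩ := hj0
      have hdeg0 := mem_freeFam.1 hf _ hβ₀
      refine ⟨polyEquiv k m d f j, bdeg β₀, fun h0' => hβ₀ ?_, isHomogeneous_iff_bdeg.2 fun β hβ => ?_, ?_⟩
      · rw [← coeff_polyEquiv, h0', MvPolynomial.coeff_zero]
      · rw [MvPolynomial.mem_support_iff, coeff_polyEquiv] at hβ
        have hdeg := mem_freeFam.1 hf _ hβ
        simp only at hdeg hdeg0
        have h1 : (D : ℤ) * bdeg β = D * bdeg β₀ := by omega
        exact_mod_cast mul_left_cancel₀ (by omega : (D : ℤ) ≠ 0) h1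
      · simp only at hdeg0
        rw [hdeg0]
        have hsplit : Finsupp.filter (fun p : FIdx m d => p.1 = j) f + f₂ = f :=
          Finsupp.filter_add_filter_not f _
        have hone : evFree hX gen (Finsupp.filter (fun p : FIdx m d => p.1 = j) f) =
            pAct hX (polyEquiv k m d f j) (gen j) := by
          rw [evFree_eq_sum, Finset.sum_eq_single j]
          · congr 2
            exact MvPolynomial.ext _ _ fun β => by simp [coeff_polyEquiv]
          · intro l _ hl
            have hz : polyEquiv k m d (Finsupp.filter (fun p : FIdx m d => p.1 = j) f) l = 0 :=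
              MvPolynomial.ext _ _ fun β => by simp [coeff_polyEquiv, hl]
            rw [hz, map_zero, LinearMap.zero_apply]
          · simp
        have hrange : ↑f₂.support ⊆ Set.range φ := fun p hp => by
          have hp' := hsupp₂ p (Finsupp.mem_support_iff.1 hp)
          exact ⟨(e.symm ⟨p.1, hp'⟩, p.2), by simp [φ]⟩
        have hmd := Finsupp.mapDomain_comapDomain φ hφ f₂ hrange
        rw [← hsplit, map_add, hone, ← hmd, hev] at hev0
        rw [eq_neg_of_add_eq_zero_left hev0]
        refine Submodule.neg_mem _ ⟨_, mem_freeFam.2 fun p hp => ?_, rfl⟩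
        rw [Finsupp.comapDomain_apply, hf₂, Finsupp.filter_apply] at hp
        split at hp
        · exact mem_freeFam.1 hf (φ p) hp
        · exact absurd rfl hp
  choose Pj δj hPne hPhom hPmem using hrel
  have hhom : ∀ s : Finset (Fin m), (∏ j ∈ s, Pj j).IsHomogeneous (∑ j ∈ s, δj j) :=
    fun s => MvPolynomial.IsHomogeneous.prod s _ _ fun j _ => hPhom j
  refine ⟨S.card, h, gen', ∏ j, Pj j, ∑ j, δj j, Finset.prod_ne_zero_iff.2 fun j _ => hPne j,
    isHomogeneous_iff_bdeg.1 (hhom _), fun i => hgen _, fun n f hf hf0 => ?_, fun n v hv => ?_⟩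
  · rw [← hev] at hf0
    refine Finsupp.mapDomain_injective hφ ?_
    rw [Finsupp.mapDomain_zero]
    refine hS' n _ ?_ (fun p hp => ?_) hf0
    · refine mem_freeFam.2 fun p hp => ?_
      obtain ⟨q, hq, rfl⟩ := Finset.mem_image.1
        (Finsupp.mapDomain_support (Finsupp.mem_support_iff.2 hp))
      exact mem_freeFam.1 hf q (Finsupp.mem_support_iff.1 hq)
    · obtain ⟨q, -, rfl⟩ := Finset.mem_image.1
        (Finsupp.mapDomain_support (Finsupp.mem_support_iff.2 hp))
      exact (e q.1).2
  · obtain ⟨f, hf, rfl⟩ := hsur n hv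
    rw [← LinearMap.comp_apply]
    refine finsupp_map_mem _ _ fun p hp => ?_
    have hcom : ∀ (Q : MvPolynomial (Fin d) k) (β : Fin d →₀ ℕ) (v : M),
        pAct hX Q (xPow hX β v) = xPow hX β (pAct hX Q v) := fun Q β v => by
      rw [xPow, ← Module.End.mul_apply, ← map_mul, mul_comm, map_mul, Module.End.mul_apply]
    rw [LinearMap.comp_apply, evFree_single, map_smul, hcom]
    refine Submodule.smul_mem _ _ ?_
    rw [← Finset.prod_erase_mul _ _ (mem_univ p.1), map_mul, Module.End.mul_apply]
    have h1 := xPow_mem hX hT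
      (pAct_mem hX hT (isHomogeneous_iff_bdeg.1 (hhom (univ.erase p.1))) (hPmem p.1)) p.2
    rw [← Finset.sum_erase_add _ _ (mem_univ p.1), ← mem_freeFam.1 hf p hp]
    rw [show g p.1 + (D : ℤ) * bdeg p.2 + D * ((∑ j ∈ univ.erase p.1, δj j + δj p.1 : ℕ) : ℤ) =
      g p.1 + D * (δj p.1 : ℤ) + D * ((∑ j ∈ univ.erase p.1, δj j : ℕ) : ℤ) + D * bdeg p.2 by
        push_cast; ring]
    exact h1

end field

end Vale.Agent.P202
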