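import Vale.Agent.P202.InterfacesBand3
import Vale.Agent.P202.MFMonicFree
import Vale.Agent.P202.PhiGrFree

/-!
Auxiliary facts for `GoalLWMinor`: coordinates in a graded complete intersection, maps of free
modules given by matrices of forms, degrees of minors.
-/

universe u

namespace Vale.Agent.P202

open MvPolynomial

variable {R : Type u} [CommRing R] {d n N : ℕ}

section coord

/-- The element with the coordinates `a` on the monomials `γ`. -/
noncomputable def lwT (γ : Fin N → Vr d n →₀ ℕ) :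
    (Fin N → MvPolynomial (Fin d) R) →ₗ[R] MvPolynomial (Vr d n) R :=
  ∑ t, (LinearMap.mulRight R (monomial (γ t) (1 : R))) ∘ₗ
    (rename fun l => (some (Sum.inl l) : Vr d n)).toLinearMap ∘ₗ LinearMap.proj t

lemma lwT_apply (γ : Fin N → Vr d n →₀ ℕ) (a : Fin N → MvPolynomial (Fin d) R) :
    lwT γ a = ∑ t, inX (a t) * monomial (γ t) 1 := by
  simp [lwT, inX, LinearMap.sum_apply]

lemma lwT_single (γ : Fin N → Vr d n →₀ ℕ) (t : Fin N) (P : MvPolynomial (Fin d) R) :
    lwT γ (Pi.single t P) = inX P * monomial (γ t) 1 := by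
  rw [lwT_apply, Finset.sum_eq_single t]
  · rw [Pi.single_eq_same]
  · intro u _ hu
    rw [Pi.single_eq_of_ne hu, inX, map_zero, zero_mul]
  · exact fun h => absurd (Finset.mem_univ t) h

lemma lwT_smul (γ : Fin N → Vr d n →₀ ℕ) (Q : MvPolynomial (Fin d) R)
    (a : Fin N → MvPolynomial (Fin d) R) : lwT γ (Q • a) = inX Q * lwT γ a := by
  simp [lwT_apply, Finset.mul_sum, inX, mul_assoc]

lemma lwT_map {S : Type u} [CommRing S] (f : R →+* S) (γ : Fin N → Vr d n →₀ ℕ)
    (a : Fin N → MvPolynomial (Fin d) R) :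
    MvPolynomial.map f (lwT γ a) = lwT γ fun t => MvPolynomial.map f (a t) := by
  simp [lwT_apply, inX, map_rename]

lemma lw_nfPoly (γ : Fin N → Vr d n →₀ ℕ) (f : FreeMod R N d) :
    nfPoly γ f = lwT γ (polyEquiv R N d f) := by
  induction f using Finsupp.induction_linear with
  | zero => simp
  | add f g hf hg => simp only [map_add, hf, hg]
  | single q v =>
    obtain ⟨t, β⟩ := q
    rw [nfPoly, Finsupp.linearCombination_single, polyEquiv_single, lwT_single, smul_eq_C_mul,
      ← mul_assoc, inX, inX, ← rename_C (fun l => (some (Sum.inl l) : Vr d n)), ← map_mul,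
      C_mul_monomial, mul_one]

lemma lw_inX_monomial (β : Fin d →₀ ℕ) (r : R) (δ : Vr d n →₀ ℕ) :
    inX (monomial β r) * monomial δ (1 : R) =
      monomial (Finsupp.mapDomain (fun l => (some (Sum.inl l) : Vr d n)) β + δ) r := by
  rw [inX, rename_monomial, monomial_mul, mul_one]

lemma lw_weight_inX {wt : Vr d n → ℕ} {b : ℕ} (hX : ∀ l, wt (some (Sum.inl l)) = b)
    (β : Fin d →₀ ℕ) :
    Finsupp.weight wt (Finsupp.mapDomain (fun l => (some (Sum.inl l) : Vr d n)) β) =
      b * bdeg β := by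
  classical
  rw [Finsupp.weight_apply, Finsupp.sum_mapDomain_index (by simp) (by intros; simp [add_mul]),
    Finsupp.sum_fintype _ _ (by simp), bdeg, Finset.mul_sum]
  exact Finset.sum_congr rfl fun l _ => by rw [hX, smul_eq_mul, mul_comm]

variable {wt : Vr d n → ℕ} {D : Hv n → ℕ} {G : Hv n → MvPolynomial (Vr d n) R}
  {γ : Fin N → Vr d n →₀ ℕ}

/-- The coordinates exist and are unique. -/
lemma lw_basis (hwt : ∀ v, 0 < wt v)
    (hG : ∀ v, IsWeightedHomogeneous wt (G v) (D v * wt (hVar v)))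
    (hG' : ∀ v, G v - X (hVar v) ^ D v ∈ Ideal.span (Set.range fun l : Fin d =>
      (X (some (Sum.inl l)) : MvPolynomial (Vr d n) R)))
    (hinj : Function.Injective γ) (hγ : ∀ v, (∃ t, γ t = v) ↔ IsStdExp (d := d) D v)
    (H : MvPolynomial (Vr d n) R) :
    ∃! a : Fin N → MvPolynomial (Fin d) R, H - lwT γ a ∈ Ideal.span (Set.range G) := by
  classical
  let e : Fin N ≃ {v // IsStdExp (d := d) D v} :=
    Equiv.ofBijective (fun t => ⟨γ t, (hγ _).1 ⟨t, rfl⟩⟩)
      ⟨fun t t' h => hinj (congrArg Subtype.val h),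
        fun v => by
          obtain ⟨t, ht⟩ := (hγ v.1).2 v.2
          exact ⟨t, Subtype.ext ht⟩⟩
  let A : (Fin N → MvPolynomial (Fin d) R) →
      ({v // IsStdExp (d := d) D v} →₀ MvPolynomial (Fin d) R) :=
    fun a => Finsupp.equivMapDomain e (Finsupp.equivFunOnFinite.symm a)
  have hA : ∀ a, ((A a).sum fun v P => inX P * monomial v.1 1) = lwT γ a := by
    intro a
    have h0 : ∀ v : {v // IsStdExp (d := d) D v},
        inX (0 : MvPolynomial (Fin d) R) * monomial v.1 (1 : R) = 0 := fun v => by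
      rw [inX, map_zero, zero_mul]
    simp only [A, Finsupp.equivMapDomain_eq_mapDomain]
    rw [Finsupp.sum_mapDomain_index
        (h := fun (v : {v // IsStdExp (d := d) D v}) (P : MvPolynomial (Fin d) R) =>
          inX P * monomial v.1 (1 : R)) h0
        (fun v P Q => by simp only [inX, map_add, add_mul]),
      Finsupp.sum_fintype _ (fun (t : Fin N) (P : MvPolynomial (Fin d) R) =>
          inX P * monomial (e t).1 (1 : R)) (fun t => h0 (e t)), lwT_apply]
    rfl
  obtain ⟨a', ha', huniq⟩ := (goalMonicFree R d n wt hwt D G hG hG').1 H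
  have hA' : A (fun t => a' (e t)) = a' := by
    refine Finsupp.ext fun v => ?_
    simp [A, Finsupp.equivMapDomain_apply]
  refine ⟨fun t => a' (e t), ?_, fun a ha => ?_⟩
  · show H - lwT γ _ ∈ _
    rw [← hA, hA']
    exact ha'
  · have h := huniq (A a) (show H - _ ∈ _ by rw [hA]; exact ha)
    funext t
    rw [← h]
    simp [A, Finsupp.equivMapDomain_apply]

/-- The coordinates of a form are forms. -/
lemma lw_coord_hom {b : ℕ} (hX : ∀ l, wt (some (Sum.inl l)) = b) (hwt : ∀ v, 0 < wt v)
    (hG : ∀ v, IsWeightedHomogeneous wt (G v) (D v * wt (hVar v)))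
    (hG' : ∀ v, G v - X (hVar v) ^ D v ∈ Ideal.span (Set.range fun l : Fin d =>
      (X (some (Sum.inl l)) : MvPolynomial (Vr d n) R)))
    (hinj : Function.Injective γ) (hγ : ∀ v, (∃ t, γ t = v) ↔ IsStdExp (d := d) D v)
    {H : MvPolynomial (Vr d n) R} {W : ℕ} (hH : IsWeightedHomogeneous wt H W)
    {a : Fin N → MvPolynomial (Fin d) R} (ha : H - lwT γ a ∈ Ideal.span (Set.range G))
    (t : Fin N) {β : Fin d →₀ ℕ} (hβ : coeff β (a t) ≠ 0) :
    b * bdeg β + Finsupp.weight wt (γ t) = W := by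
  classical
  have hcompI : ∀ x ∈ Ideal.span (Set.range G),
      weightedHomogeneousComponent wt W x ∈ Ideal.span (Set.range G) := by
    intro x hx
    obtain ⟨c, rfl⟩ := (Submodule.mem_span_range_iff_exists_fun _).1 hx
    rw [map_sum]
    refine sum_mem fun v _ => ?_
    rw [smul_eq_mul]
    induction c v using MvPolynomial.induction_on' with
    | monomial δ r =>
      rw [weightedHomogeneousComponent_of_mem
        (IsWeightedHomogeneous.mul (isWeightedHomogeneous_monomial wt δ r rfl) (hG v))]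
      split
      · exact Ideal.mul_mem_left _ _ (Ideal.subset_span ⟨v, rfl⟩)
      · exact zero_mem _
    | add P Q hP hQ => rw [add_mul, map_add]; exact add_mem hP hQ
  let a₀ : Fin N → MvPolynomial (Fin d) R := fun t => ∑ β ∈ (a t).support,
    if b * bdeg β + Finsupp.weight wt (γ t) = W then monomial β (coeff β (a t)) else 0
  have hcomp : weightedHomogeneousComponent wt W (lwT γ a) = lwT γ a₀ := by
    rw [lwT_apply, lwT_apply, map_sum]
    refine Finset.sum_congr rfl fun t _ => ?_
    conv_lhs => rw [inX, as_sum (a t), map_sum, Finset.sum_mul, map_sum]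
    simp only [a₀, inX, map_sum, Finset.sum_mul]
    refine Finset.sum_congr rfl fun β _ => ?_
    have hm : IsWeightedHomogeneous wt
        (inX (monomial β (coeff β (a t))) * monomial (γ t) (1 : R))
        (b * bdeg β + Finsupp.weight wt (γ t)) := by
      rw [lw_inX_monomial]
      exact isWeightedHomogeneous_monomial _ _ _ (by rw [map_add, lw_weight_inX hX])
    rw [← inX, weightedHomogeneousComponent_of_mem hm, apply_ite (rename _), map_zero,
      ite_mul, zero_mul, ← inX]
    by_cases h : b * bdeg β + Finsupp.weight wt (γ t) = W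
    · rw [if_pos h, if_pos h.symm]
    · rw [if_neg h, if_neg fun e => h e.symm]
  have ha₀ : H - lwT γ a₀ ∈ Ideal.span (Set.range G) := by
    have h := hcompI _ ha
    rwa [map_sub, hcomp, weightedHomogeneousComponent_eq_self hH] at h
  have heq : a = a₀ := (lw_basis hwt hG hG' hinj hγ H).unique ha ha₀
  rw [heq] at hβ
  simp only [a₀, coeff_sum] at hβ
  obtain ⟨β', -, hβ'⟩ := Finset.exists_ne_zero_of_sum_ne_zero hβ
  split at hβ'
  · rename_i h
    rw [coeff_monomial] at hβ'
    split at hβ'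
    · rename_i e
      rwa [← e]
    · exact absurd rfl hβ'
  · exact absurd (coeff_zero _) hβ'

end coord

section mat

/-- The weights on `κ[X]`. -/
def lwW (d b : ℕ) : Fin d → ℤ := fun _ => (b : ℤ)

lemma lwW_weight (b : ℕ) (β : Fin d →₀ ℕ) :
    Finsupp.weight (lwW d b) β = (b : ℤ) * bdeg β := by
  rw [Finsupp.weight_apply, Finsupp.sum_fintype _ _ (by simp), bdeg, Nat.cast_sum,
    Finset.mul_sum]
  exact Finset.sum_congr rfl fun l _ => by simp [lwW, mul_comm]

lemma lw_mem_freeFam {m b : ℕ} {g : Fin m → ℤ} {z : ℤ} {f : FreeMod R m d} :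
    f ∈ freeFam R b g z ↔
      ∀ i, IsWeightedHomogeneous (lwW d b) (polyEquiv R m d f i) (z - g i) := by
  rw [mem_freeFam]
  constructor
  · intro h i β hβ
    rw [coeff_polyEquiv] at hβ
    rw [lwW_weight, ← h (i, β) hβ]
    ring
  · rintro h ⟨i, β⟩ hp
    have := h i (d := β) (by rwa [coeff_polyEquiv])
    rw [lwW_weight] at this
    show g i + (b : ℤ) * bdeg β = z
    omega

/-- The map of free modules given by a matrix. -/
noncomputable def lwMap {m₁ m₂ : ℕ} (A : Matrix (Fin m₁) (Fin m₂) (MvPolynomial (Fin d) R)) :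
    FreeMod R m₁ d →ₗ[R] FreeMod R m₂ d :=
  (polyEquiv R m₂ d).symm.toLinearMap ∘ₗ
    ((Matrix.vecMulLinear A).restrictScalars R) ∘ₗ (polyEquiv R m₁ d).toLinearMap

variable {m₁ m₂ m₃ : ℕ}

lemma lwMap_poly (A : Matrix (Fin m₁) (Fin m₂) (MvPolynomial (Fin d) R)) (f : FreeMod R m₁ d) :
    polyEquiv R m₂ d (lwMap A f) = Matrix.vecMul (polyEquiv R m₁ d f) A := by
  simp [lwMap]

lemma lwMap_xFree (A : Matrix (Fin m₁) (Fin m₂) (MvPolynomial (Fin d) R)) (o : Fin d)
    (f : FreeMod R m₁ d) : lwMap A (xFree R o f) = xFree R o (lwMap A f) := by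
  apply (polyEquiv R m₂ d).injective
  rw [lwMap_poly, polyEquiv_xFree, polyEquiv_xFree, lwMap_poly, Matrix.smul_vecMul]

lemma lwMap_comp (A : Matrix (Fin m₁) (Fin m₂) (MvPolynomial (Fin d) R))
    (B : Matrix (Fin m₂) (Fin m₁) (MvPolynomial (Fin d) R)) {P : MvPolynomial (Fin d) R}
    (h : A * B = P • (1 : Matrix (Fin m₁) (Fin m₁) (MvPolynomial (Fin d) R)))
    (f : FreeMod R m₁ d) :
    lwMap B (lwMap A f) =
      pAct (X := fun o => (xFree R o : FreeMod R m₁ d →ₗ[R] _)) xFree_comm P f := by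
  apply (polyEquiv R m₁ d).injective
  rw [lwMap_poly, lwMap_poly, polyEquiv_pAct, Matrix.vecMul_vecMul, h, Matrix.vecMul_smul,
    Matrix.vecMul_one]

lemma lwMap_deg (A : Matrix (Fin m₁) (Fin m₂) (MvPolynomial (Fin d) R)) {b : ℕ}
    {g : Fin m₁ → ℤ} {h : Fin m₂ → ℤ} {sh : ℤ}
    (hA : ∀ i u, IsWeightedHomogeneous (lwW d b) (A i u) (g i + sh - h u)) {z : ℤ}
    {f : FreeMod R m₁ d} (hf : f ∈ freeFam R b g z) : lwMap A f ∈ freeFam R b h (z + sh) := by
  rw [lw_mem_freeFam] at hf ⊢
  intro u
  rw [lwMap_poly, Matrix.vecMul, dotProduct]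
  refine IsWeightedHomogeneous.sum _ _ _ fun i _ => ?_
  have := (hf i).mul (hA i u)
  rwa [show z - g i + (g i + sh - h u) = z + sh - h u by ring] at this

variable {ι : Type*} [Fintype ι] [DecidableEq ι]

/-- The degree of a determinant of forms. -/
lemma lw_det_hom {b : ℕ} {M : Matrix ι ι (MvPolynomial (Fin d) R)} {r c : ι → ℤ}
    (h : ∀ i j, IsWeightedHomogeneous (lwW d b) (M i j) (r i - c j)) :
    IsWeightedHomogeneous (lwW d b) M.det (∑ i, r i - ∑ j, c j) := by
  rw [Matrix.det_apply]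
  refine IsWeightedHomogeneous.sum _ _ _ fun σ _ => ?_
  have h1 := IsWeightedHomogeneous.prod (Finset.univ : Finset ι) (fun i => M (σ i) i)
    (fun i => r (σ i) - c i) fun i _ => h (σ i) i
  rw [Finset.sum_sub_distrib, Equiv.sum_comp σ r] at h1
  rw [Units.smul_def, zsmul_eq_mul, ← map_intCast (C (R := R) (σ := Fin d))]
  have h2 := (isWeightedHomogeneous_C (lwW d b)
    ((Equiv.Perm.sign σ : ℤ) : R)).mul h1
  rwa [zero_add] at h2

/-- The degrees of the cofactors. -/
lemma lw_adj_hom {b : ℕ} {M : Matrix ι ι (MvPolynomial (Fin d) R)} {r c : ι → ℤ}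
    (h : ∀ i j, IsWeightedHomogeneous (lwW d b) (M i j) (r i - c j)) (i j : ι) :
    IsWeightedHomogeneous (lwW d b) (M.adjugate i j)
      ((∑ l, r l - ∑ l, c l) - (r j - c i)) := by
  rw [Matrix.adjugate_apply]
  have h1 := lw_det_hom (M := M.updateRow j (Pi.single i 1)) (b := b)
    (r := Function.update r j (c i)) (c := c) (fun i' j' => ?_)
  · rw [Finset.sum_update_of_mem (Finset.mem_univ j), Finset.sdiff_singleton_eq_erase] at h1
    rw [← Finset.add_sum_erase _ r (Finset.mem_univ j)]
    convert h1 using 1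
    ring
  · by_cases hi : i' = j
    · subst hi
      rw [Matrix.updateRow_self, Function.update_self]
      by_cases hj : j' = i
      · subst hj
        rw [Pi.single_eq_same, sub_self]
        exact isWeightedHomogeneous_one _ _
      · rw [Pi.single_eq_of_ne hj]
        exact isWeightedHomogeneous_zero _ _ _
    · rw [Matrix.updateRow_ne hi, Function.update_of_ne hi]
      exact h i' j'

end mat

end Vale.Agent.P202
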