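import Vale.Agent.P202.PhiFreeHom

/-!
Module B, layer 4b: the cohomology of a free family at a level is free on the base monomials.
-/

universe u

namespace Vale.Agent.P202

open Finset

variable {A : Type*} [CommRing A] {m d : ℕ} (D : ℕ) (a : Fin (d - 1) → ℤ) (g : Fin m → ℤ) (c : ℤ)

/-- The shift of the base monomials of the generator `k`. -/
def sigOf (k : Fin m) : ℤ := (g k - c) / D

/-- The degree of the twist in factor `l`. -/
def tOf (k : Fin m) (l : Fin (d - 1)) : ℤ := (d : ℤ) - sigOf D g c k - a l

/-- The number of factors with negative degree. -/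
def nNeg (k : Fin m) : ℕ := (univ.filter fun l => tOf D a g c k l < 0).card

/-- The base monomials in degree `r`. -/
noncomputable def baseR (r : ℤ) : Finset (Fin m × (Fin (d - 1) → ℤ)) :=
  (univ.filter fun k : Fin m => (D : ℤ) ∣ g k - c ∧ (nNeg D a g c k : ℤ) = r).biUnion fun k =>
    (Fintype.piFinset fun l =>
      Finset.Icc (min 0 (tOf D a g c k l + 1)) (max (tOf D a g c k l) (-1))).image fun e => (k, e)

/-- The charts of the representative cycle. -/
def baseCharts (k : Fin m) : Finset (Fin (d - 1) → Fin 3) :=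
  Fintype.piFinset fun l => if tOf D a g c k l < 0 then {2} else {0, 1}

/-- The chart of the distinguished monomial. -/
def baseChart (k : Fin m) : Fin (d - 1) → Fin 3 := fun l => if tOf D a g c k l < 0 then 2 else 0

/-- The monomial over a base index in a given chart. -/
def baseCell (b : Fin m × (Fin (d - 1) → ℤ)) (C : Fin (d - 1) → Fin 3) : PIdx d :=
  ((univ, C), sigOf D g c b.1, b.2)

/-- The representative cycle. -/
noncomputable def kappa (A : Type*) [CommRing A] (b : Fin m × (Fin (d - 1) → ℤ)) :
    PIdx d →₀ FreeMod A m d :=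
  ∑ C ∈ baseCharts D a g c b.1, mono (baseCell D g c b C) (b.1, 0) 1

variable {D a g c}

lemma mem_baseR {r : ℤ} {b : Fin m × (Fin (d - 1) → ℤ)} :
    b ∈ baseR D a g c r ↔ ((D : ℤ) ∣ g b.1 - c ∧ (nNeg D a g c b.1 : ℤ) = r) ∧
      ∀ l, (0 ≤ tOf D a g c b.1 l → 0 ≤ b.2 l ∧ b.2 l ≤ tOf D a g c b.1 l) ∧
        (tOf D a g c b.1 l < 0 → tOf D a g c b.1 l < b.2 l ∧ b.2 l < 0) := by
  obtain ⟨k, e⟩ := b
  simp only [baseR, Finset.mem_biUnion, Finset.mem_filter, mem_univ, true_and, Finset.mem_image,
    Fintype.mem_piFinset, Finset.mem_Icc]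
  constructor
  · rintro ⟨k', hk, e', he, h⟩
    obtain ⟨rfl, rfl⟩ := Prod.mk.injEq .. ▸ h
    exact ⟨hk, fun l => ⟨fun h => by have := he l; omega, fun h => by have := he l; omega⟩⟩
  · rintro ⟨hk, he⟩
    refine ⟨k, hk, e, fun l => ?_, rfl⟩
    obtain ⟨h1, h2⟩ := he l
    rcases le_or_gt 0 (tOf D a g c k l) with h | h
    · have := h1 h
      omega
    · have := h2 h
      omega

lemma rest_baseCell (b : Fin m × (Fin (d - 1) → ℤ)) (C : Fin (d - 1) → Fin 3) (l : Fin (d - 1)) :
    (baseCell D g c b C).rest a l = tOf D a g c b.1 l - b.2 l := by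
  simp [PIdx.rest, baseCell, tOf]

lemma mem_baseCharts {k : Fin m} {C : Fin (d - 1) → Fin 3} :
    C ∈ baseCharts D a g c k ↔ ∀ l, (tOf D a g c k l < 0 → C l = 2) ∧
      (0 ≤ tOf D a g c k l → C l ≠ 2) := by
  rw [baseCharts, Fintype.mem_piFinset]
  refine forall_congr' fun l => ?_
  rcases lt_or_ge (tOf D a g c k l) 0 with h | h
  · simp [h, not_le.2 h]
  · simp [h, not_lt.2 h]
    generalize C l = x
    revert x
    decide

lemma baseChart_mem (k : Fin m) : baseChart D a g c k ∈ baseCharts D a g c k :=
  mem_baseCharts.2 fun l =>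
    ⟨fun h => by simp [baseChart, h], fun h => by simp [baseChart, not_lt.2 h]⟩

lemma freeCell_base (hD : 0 < D) {r : ℤ} {b : Fin m × (Fin (d - 1) → ℤ)}
    (hb : b ∈ baseR D a g c r) {C : Fin (d - 1) → Fin 3} (hC : C ∈ baseCharts D a g c b.1) :
    FreeCell D a g c r (baseCell D g c b C) (b.1, 0) := by
  obtain ⟨⟨hdvd, hr⟩, he⟩ := mem_baseR.1 hb
  have hC' := mem_baseCharts.1 hC
  refine ⟨?_, fun l => ?_, ?_⟩
  · have : (univ.filter fun l => C l = 2) = univ.filter fun l => tOf D a g c b.1 l < 0 := by
      refine Finset.filter_congr fun l _ => ?_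
      rcases lt_or_ge (tOf D a g c b.1 l) 0 with h | h
      · exact iff_of_true ((hC' l).1 h) h
      · exact iff_of_false ((hC' l).2 h) (not_lt.2 h)
    rw [← hr, nNeg, ← this]
    simp [PIdx.deg, PIdx.nBoth, baseCell]
    rfl
  · rw [rest_baseCell]
    obtain ⟨h1, h2⟩ := he l
    refine ⟨fun h => ?_, fun h => ?_⟩ <;>
    · have hpos : 0 ≤ tOf D a g c b.1 l := not_lt.1 fun hn => by
        have h2 : C l = 2 := (hC' l).1 hn
        change C l = _ at h
        rw [h2] at h
        exact absurd h (by decide)
      have := h1 hpos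
      simp only [baseCell] at *
      omega
  · simp only [baseCell, sigOf, bdeg, Finsupp.zero_apply, Finset.sum_const_zero, Nat.cast_zero,
      mul_zero, add_zero, Int.mul_ediv_cancel' hdvd]
    ring

section cech

/-- Coefficients of the Cech differential. -/
lemma chOp_apply {M : Type*} [AddCommGroup M] [Module A M] (f : PIdx d →₀ M) (T : PIdx d) :
    chOp A M d f T = ∑ l, if T.1.2 l = 2 then
      cechSign (Function.update T.1.2 l 0) l • f ((T.1.1, Function.update T.1.2 l 0), T.2) +
      cechSign (Function.update T.1.2 l 1) l • f ((T.1.1, Function.update T.1.2 l 1), T.2)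
    else 0 := by
  induction f using Finsupp.induction_linear with
  | zero => simp
  | add f f' hf hf' =>
    rw [map_add, Finsupp.add_apply, hf, hf', ← Finset.sum_add_distrib]
    refine Finset.sum_congr rfl fun l _ => ?_
    split
    · simp only [Finsupp.add_apply, smul_add]; abel
    · rw [add_zero]
  | single i v =>
    obtain ⟨⟨J, C⟩, q⟩ := i
    obtain ⟨⟨J', C'⟩, q'⟩ := T
    rw [chOp_single, Finsupp.finsetSum_apply, Finset.sum_filter]
    refine Finset.sum_congr rfl fun l _ => ?_
    simp only [Finsupp.smul_apply, Finsupp.single_apply, Prod.mk.injEq]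
    by_cases hJ : J = J' ∧ q = q'
    swap
    · have h1 : ∀ X Y : Fin (d - 1) → Fin 3, ¬ ((J = J' ∧ X = Y) ∧ q = q') :=
        fun X Y h => hJ ⟨h.1.1, h.2⟩
      simp [h1]
    obtain ⟨rfl, rfl⟩ := hJ
    simp only [true_and, and_true]
    by_cases hC' : C' l = 2
    swap
    · rw [if_neg hC']
      split
      · rw [if_neg (fun h => hC' (by rw [← h, Function.update_self])), smul_zero]
      · rfl
    rw [if_pos hC']
    have hiff : ∀ x : Fin 3, C = Function.update C' l x ↔ C l = x ∧ Function.update C l 2 = C' := by
      intro x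
      constructor
      · rintro rfl
        refine ⟨by simp, ?_⟩
        rw [Function.update_idem, ← hC', Function.update_eq_self]
      · rintro ⟨rfl, rfl⟩
        rw [Function.update_idem, Function.update_eq_self]
    simp only [hiff]
    by_cases hu : Function.update C l 2 = C'
    swap
    · simp [hu]
    simp only [hu, and_true, if_true]
    obtain h0 | h1 | h2 : C l = 0 ∨ C l = 1 ∨ C l = 2 := by
      generalize C l = x; revert x; decide
    · have : Function.update C' l 0 = C := ((hiff 0).2 ⟨h0, hu⟩).symm
      simp [h0, this]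
    · have : Function.update C' l 1 = C := ((hiff 1).2 ⟨h1, hu⟩).symm
      simp [h1, this]
    · simp [h2]

/-- The chart chosen by the homotopy of factor `l`, if any. -/
def hChart (a : Fin (d - 1) → ℤ) (i : PIdx d) (l : Fin (d - 1)) : Option (Fin 3) :=
  if 0 ≤ i.2.2 l then some 1 else if 0 ≤ i.rest a l then some 0 else none

/-- The Cech homotopy of the factor `l` on a monomial. -/
noncomputable def hcOne (A : Type*) [CommRing A] (a : Fin (d - 1) → ℤ) (l : Fin (d - 1))
    (i : PIdx d) (p : FIdx m d) : A →ₗ[A] (PIdx d →₀ FreeMod A m d) :=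
  if i.1.2 l = 2 then
    (hChart a i l).elim 0 fun x =>
      cechSign (Function.update i.1.2 l x) l •
        mono ((i.1.1, Function.update i.1.2 l x), i.2) p
  else 0

/-- The Cech homotopy of the factor `l`. -/
noncomputable def hcOp (A : Type*) [CommRing A] (m : ℕ) {d : ℕ} (a : Fin (d - 1) → ℤ)
    (l : Fin (d - 1)) : (PIdx d →₀ FreeMod A m d) →ₗ[A] (PIdx d →₀ FreeMod A m d) :=
  Finsupp.lsum A fun i => Finsupp.lsum A fun p => hcOne A a l i p

lemma hcOp_mono (l : Fin (d - 1)) (i : PIdx d) (p : FIdx m d) (v : A) :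
    hcOp A m a l (mono i p v) = hcOne A a l i p v := by
  rw [hcOp, mono_apply, Finsupp.lsum_single, Finsupp.lsum_single]

lemma cechSign_sq (C : Fin (d - 1) → Fin 3) (l : Fin (d - 1)) :
    cechSign C l * cechSign C l = 1 := by
  have h : (-1 : ℤ) ^ (univ.filter fun j => j < l ∧ C j = 2).card *
      (-1) ^ (univ.filter fun j => j < l ∧ C j = 2).card = 1 := by rw [← mul_pow]; simp
  rw [cechSign]
  split <;> linear_combination h

lemma cechSign_zero_one (C : Fin (d - 1) → Fin 3) (l : Fin (d - 1)) :
    cechSign (Function.update C l 1) l = -cechSign (Function.update C l 0) l := by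
  have : (univ.filter fun j => j < l ∧ Function.update C l 1 j = 2) =
      univ.filter fun j => j < l ∧ Function.update C l 0 j = 2 :=
    Finset.filter_congr fun j _ => by
      by_cases hj : j < l
      · simp [hj, Function.update_of_ne (ne_of_lt hj)]
      · simp [hj]
  simp [cechSign, this]

/-- The state of factor `l` after its homotopy has been applied. -/
def GoodAt (a : Fin (d - 1) → ℤ) (i : PIdx d) (l : Fin (d - 1)) : Prop :=
  (i.1.2 l = 2 ∧ i.2.2 l < 0 ∧ i.rest a l < 0) ∨ (i.1.2 l ≠ 2 ∧ 0 ≤ i.2.2 l ∧ 0 ≤ i.rest a l)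

/-- One Cech step on a monomial only changes factor `l`, into a good state. -/
lemma cech_step {i : PIdx d} (hA : i.Allowed a) (l : Fin (d - 1)) (p : FIdx m d) (v : A) :
    mono i p v - (chOp A _ d (hcOp A m a l (mono i p v)) + hcOp A m a l (chOp A _ d (mono i p v))) ∈
      supp2 A fun i' p' => p' = p ∧ i'.1.1 = i.1.1 ∧ i'.2 = i.2 ∧
        (∀ j, j ≠ l → i'.1.2 j = i.1.2 j) ∧ GoodAt a i' l ∧ (i'.1.2 l = 2 ↔ i.1.2 l = 2) := by
  obtain ⟨⟨J, C⟩, σ, e⟩ := i
  rw [hcOp_mono, chOp_mono, map_sum]
  simp only [map_zsmul, hcOp_mono]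
  have hch : ∀ C' : Fin (d - 1) → Fin 3, hChart a (((J, C'), σ, e) : PIdx d) l =
      hChart a (((J, C), σ, e) : PIdx d) l := fun C' => rfl
  by_cases h2 : C l = 2
  · have hsum : ∀ x ∈ univ.filter (fun j => C j ≠ 2), x ≠ l := by
      intro x hx hxl
      exact (Finset.mem_filter.1 hx).2 (hxl ▸ h2)
    rcases hx : hChart a (((J, C), σ, e) : PIdx d) l with _ | x
    · rw [Finset.sum_eq_zero fun j hj => by
        simp [hcOne, Function.update_of_ne (Ne.symm (hsum j hj)), h2, hch, hx]]
      simp only [hcOne, h2, if_true, hx, Option.elim, LinearMap.zero_apply, map_zero, add_zero,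
        sub_zero]
      refine mono_mem_supp2 _ ⟨rfl, rfl, rfl, fun j _ => rfl, Or.inl ⟨h2, ?_⟩, iff_of_true h2 trivial⟩
      simp only [hChart] at hx
      split at hx <;> [simp at hx; skip]
      split at hx <;> [simp at hx; skip]
      rename_i g1 g2
      dsimp only at g1 g2 ⊢
      omega
    · have hx2 : x ≠ 2 := by
        simp only [hChart] at hx
        split at hx
        · cases hx; decide
        · split at hx
          · cases hx; decide
          · cases hx
      simp only [hcOne, h2, if_true, hx, Option.elim, LinearMap.smul_apply, map_zsmul, chOp_mono]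
      set C0 := Function.update C l x with hC0
      have hC : Function.update C0 l 2 = C := by
        rw [hC0, Function.update_idem, ← h2, Function.update_eq_self]
      have hfil : univ.filter (fun j => C0 j ≠ 2) = insert l (univ.filter fun j => C j ≠ 2) := by
        ext j
        by_cases hj : j = l
        · subst hj; simp [hC0, hx2]
        · simp [hC0, Function.update_of_ne hj, hj]
      rw [hfil, Finset.sum_insert (by simp [h2]), smul_add, Finset.smul_sum, smul_smul,
        cechSign_sq, one_smul, hC, add_assoc, ← Finset.sum_add_distrib,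
        Finset.sum_eq_zero ?_, add_zero, sub_self]
      · exact zero_mem _
      intro j hj
      have hjl := hsum j hj
      have hjC : C j ≠ 2 := (Finset.mem_filter.1 hj).2
      have hj2 : Function.update C j 2 l = 2 := by rw [Function.update_of_ne (Ne.symm hjl)]; exact h2
      simp only [hj2, if_true, hch, hx, Option.elim, LinearMap.smul_apply, smul_smul]
      rw [show Function.update (Function.update C j 2) l x = Function.update C0 j 2 by
        rw [hC0, Function.update_comm hjl.symm], ← add_smul]
      convert zero_smul ℤ _ using 2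
      have h := cechSign_mul_cechSign (C := C0) (l := l) (m := j) hjl.symm
        (by simp [hC0, hx2]) (by rw [hC0, Function.update_of_ne hjl]; exact hjC)
      rw [hC] at h
      have s1 := cechSign_sq C0 l
      linear_combination (cechSign C0 l * cechSign (Function.update C0 j 2) l) * h
        - (cechSign C j * cechSign (Function.update C0 j 2) l) * s1
        - (cechSign C0 l * cechSign C0 j) * cechSign_sq (Function.update C0 j 2) l
  · have hzero : ∀ j ∈ univ.filter (fun j => C j ≠ 2), j ≠ l →
        cechSign C j • hcOne A a l (((J, Function.update C j 2), σ, e) : PIdx d) p v = 0 := by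
      intro j _ hj
      simp [hcOne, Function.update_of_ne (Ne.symm hj), h2]
    rw [Finset.sum_eq_single l (fun j hj hne => hzero j hj hne) (fun h => absurd (by simp [h2]) h)]
    have hone : hcOne A a l (((J, C), σ, e) : PIdx d) p v = 0 := by simp [hcOne, h2]
    rw [hone, map_zero, zero_add]
    simp only [hcOne, Function.update_self, if_true, hch]
    obtain ⟨a1, a2⟩ := hA l
    by_cases he : 0 ≤ e l
    · simp only [hChart, he, if_true, Option.elim, LinearMap.smul_apply, Function.update_idem,
        smul_smul]
      obtain h0 | h1 : C l = 0 ∨ C l = 1 := by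
        revert h2; generalize C l = x; revert x; decide
      · have hC : Function.update C l 0 = C := by rw [← h0, Function.update_eq_self]
        rw [cechSign_zero_one, hC, mul_neg, cechSign_sq, neg_smul, one_smul, sub_neg_eq_add]
        have hr := a1 h0
        refine Submodule.add_mem _ (mono_mem_supp2 _ ⟨rfl, rfl, rfl, fun j _ => rfl,
          Or.inr ⟨h2, he, hr⟩, Iff.rfl⟩) (mono_mem_supp2 _ ⟨rfl, rfl, rfl, fun j hj => ?_,
          Or.inr ⟨by simp, he, hr⟩, iff_of_false (by simp) h2⟩)
        exact Function.update_of_ne hj _ _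
      · have hC : Function.update C l 1 = C := by rw [← h1, Function.update_eq_self]
        rw [hC, cechSign_sq, one_smul, sub_self]
        exact zero_mem _
    · obtain h0 | h1 : C l = 0 ∨ C l = 1 := by
        revert h2; generalize C l = x; revert x; decide
      · have hC : Function.update C l 0 = C := by rw [← h0, Function.update_eq_self]
        have hr : 0 ≤ PIdx.rest a (((J, Function.update C l 2), σ, e) : PIdx d) l := a1 h0
        have hr' : 0 ≤ PIdx.rest a (((J, C), σ, e) : PIdx d) l := a1 h0
        simp only [hChart, he, if_false, hr, hr', if_true, Option.elim, LinearMap.smul_apply,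
          Function.update_idem, smul_smul, hC, cechSign_sq, one_smul, sub_self]
        exact zero_mem _
      · exact absurd (a2 h1) he

end cech

section classify

variable (D a g c)

/-- Critical monomials of level `c` and degree `r`, good in every factor of `S`. -/
def GoodCell (S : Finset (Fin (d - 1))) (r : ℤ) (i : PIdx d) (p : FIdx m d) : Prop :=
  Crit i p ∧ FreeCell D a g c r i p ∧ ∀ l ∈ S, GoodAt a i l

variable {D a g c}

lemma phiDF_crit {f : PIdx d →₀ FreeMod A m d} (hf : f ∈ supp2 A Crit) :
    phiDF A m d f = chOp A _ d f := by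
  have hk : kOp A (fun l => (xFree A l : FreeMod A m d →ₗ[A] _)) f = 0 := by
    refine (Submodule.mem_bot A).1 (supp2_map_le _ (fun i p v hip => ?_) hf)
    rw [Submodule.mem_bot, kOp, LinearMap.sum_apply]
    refine Finset.sum_eq_zero fun j _ => ?_
    rw [Module.End.mul_apply, mono_apply, insOp_single, if_pos (hip.1 ▸ mem_univ j), map_zero]
  rw [phiDF, phiD_eq_add, LinearMap.add_apply, hk, add_zero]

lemma hcOp_goodCell {S : Finset (Fin (d - 1))} {r : ℤ} {l : Fin (d - 1)}
    {f : PIdx d →₀ FreeMod A m d} (hf : f ∈ supp2 A (GoodCell D a g c S r)) :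
    hcOp A m a l f ∈ supp2 A (GoodCell D a g c ∅ (r - 1)) := by
  refine supp2_map_le _ (fun i p v hip => ?_) hf
  rw [hcOp_mono, hcOne]
  split
  swap
  · rw [LinearMap.zero_apply]; exact zero_mem _
  rename_i h2
  rcases hx : hChart a i l with _ | x
  · exact zero_mem _
  simp only [Option.elim, LinearMap.smul_apply]
  refine zsmul_mem (mono_mem_supp2 _ ⟨hip.1, ⟨?_, fun j => ?_, hip.2.1.2.2⟩, by simp⟩) _
  · have hx2 : x ≠ 2 ∧ True := by
      simp only [hChart] at hx
      split at hx
      · cases hx; decide
      · split at hx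
        · cases hx; decide
        · cases hx
    have h := deg_update (J := i.1.1) (C := Function.update i.1.2 l x) (l := l)
      (by simpa using hx2.1) i.2
    rw [Function.update_idem, ← h2, Function.update_eq_self] at h
    have hr : i.deg = r := hip.2.1.1
    change i.deg = _ at h
    omega
  · by_cases hj : j = l
    · subst hj
      simp only [hChart] at hx
      refine ⟨fun h => ?_, fun h => ?_⟩ <;> simp only [Function.update_self] at h <;> subst h
      · split at hx
        · simp at hx
        · split at hx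
          · assumption
          · simp at hx
      · split at hx
        · assumption
        · split at hx <;> simp at hx
    · simpa [Function.update_of_ne hj, PIdx.rest] using hip.2.1.2.1 j

lemma goodCell_le_phiC {S : Finset (Fin (d - 1))} {r : ℤ} :
    supp2 A (GoodCell D a g c S r) ≤ phiC D a (freeFam A D g) c r := by
  rw [phiC_free_eq]
  exact supp2_mono fun i p h => h.2.1

/-- A cycle is cohomologous to a critical cycle that is good in every factor. -/
lemma exists_good {r : ℤ} {z : PIdx d →₀ FreeMod A m d}
    (hz : z ∈ phiC D a (freeFam A D g) c r) (hzc : phiDF A m d z = 0) :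
    ∃ w, w ∈ supp2 A (GoodCell D a g c univ r) ∧ phiDF A m d w = 0 ∧
      z - w ∈ (phiC D a (freeFam A D g) c (r - 1)).map (phiDF A m d) := by
  have hdd : ∀ y, phiDF A m d (phiDF A m d y) = 0 := fun y => by
    have h2 : phiDF A m d ∘ₗ phiDF A m d = 0 :=
      phiD_phiD (X := fun l => (xFree A l : FreeMod A m d →ₗ[A] _)) fun a b => xFree_comm a b
    rw [← LinearMap.comp_apply, h2, LinearMap.zero_apply]
  -- first to critical monomials
  have h1 : ∀ n : ℕ, (stepOp A m d)^[n] z ∈ phiC D a (freeFam A D g) c r ∧
      phiDF A m d ((stepOp A m d)^[n] z) = 0 ∧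
      z - (stepOp A m d)^[n] z ∈ (phiC D a (freeFam A D g) c (r - 1)).map (phiDF A m d) := by
    intro n
    induction n with
    | zero => exact ⟨hz, hzc, by simp⟩
    | succ n ih =>
      rw [Function.iterate_succ_apply']
      obtain ⟨i1, i2, i3⟩ := ih
      refine ⟨stepOp_phiC i1, by rw [← stepOp_phiDF, i2, map_zero], ?_⟩
      rw [stepOp_apply, i2, map_zero, add_zero, ← sub_add]
      exact Submodule.add_mem _ i3 (Submodule.mem_map_of_mem (hOp_phiC i1))
  obtain ⟨n, hn⟩ := exists_iterate_crit z
  obtain ⟨hw0, hw0c, hw0z⟩ := h1 n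
  suffices key : ∀ S : Finset (Fin (d - 1)), ∃ w, w ∈ supp2 A (GoodCell D a g c S r) ∧
      phiDF A m d w = 0 ∧ z - w ∈ (phiC D a (freeFam A D g) c (r - 1)).map (phiDF A m d) from
    key univ
  intro S
  induction S using Finset.induction_on with
  | empty =>
    refine ⟨_, fun i p hne => ⟨hn i p hne, ?_, by simp⟩, hw0c, hw0z⟩
    rw [phiC_free_eq] at hw0
    exact hw0 i p hne
  | insert l S hl ih =>
    obtain ⟨w, hw, hwc, hwz⟩ := ih
    have hwC : w ∈ supp2 A Crit := supp2_mono (fun i p h => h.1) hw
    have hhC : hcOp A m a l w ∈ supp2 A Crit := supp2_mono (fun i p h => h.1) (hcOp_goodCell hw)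
    refine ⟨w - phiDF A m d (hcOp A m a l w), ?_, by rw [map_sub, hwc, hdd, sub_zero], ?_⟩
    · have hch : chOp A (FreeMod A m d) d w = 0 := by rw [← phiDF_crit hwC, hwc]
      rw [phiDF_crit hhC]
      have e : w - chOp A _ d (hcOp A m a l w) = (LinearMap.id -
          (chOp A (FreeMod A m d) d ∘ₗ hcOp A m a l + hcOp A m a l ∘ₗ chOp A _ d) :
            (PIdx d →₀ FreeMod A m d) →ₗ[A] _) w := by
        simp only [LinearMap.sub_apply, LinearMap.id_apply, LinearMap.add_apply,
          LinearMap.comp_apply, hch, map_zero, add_zero]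
      rw [e]
      refine supp2_map_le _ (fun i p v hip => ?_) hw
      rw [LinearMap.sub_apply, LinearMap.id_apply, LinearMap.add_apply, LinearMap.comp_apply,
        LinearMap.comp_apply]
      refine supp2_mono ?_ (cech_step hip.2.1.2.1 l p v)
      rintro ⟨⟨J', C'⟩, q'⟩ p' ⟨rfl, hJ, hq, hC, hgood, htwo⟩
      obtain ⟨hcrit, ⟨hdeg, hA, hlev⟩, hS⟩ := hip
      dsimp only at hJ hq hC htwo
      subst hJ hq
      have hAl : ∀ j, j ≠ l → ∀ x : Fin 3, C' j = x ↔ i.1.2 j = x := fun j hj x => by rw [hC j hj]
      have hn : (univ.filter fun j => C' j = 2) = univ.filter fun j => i.1.2 j = 2 :=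
        Finset.filter_congr fun j _ => by
          by_cases hj : j = l
          · subst hj; exact htwo
          · exact hAl j hj 2
      refine ⟨hcrit, ⟨?_, fun j => ?_, hlev⟩, fun j hj => ?_⟩
      · rw [← hdeg]
        simp only [PIdx.deg, PIdx.nBoth, hn]
      · by_cases hj : j = l
        · subst hj
          rcases hgood with ⟨g0, -⟩ | ⟨-, g1, g2⟩
          · refine ⟨fun h => ?_, fun h => ?_⟩ <;>
            · change C' j = _ at h
              rw [show C' j = 2 from g0] at h
              exact absurd h (by decide)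
          · exact ⟨fun _ => g2, fun _ => g1⟩
        · obtain ⟨a1, a2⟩ := hA j
          exact ⟨fun h => a1 ((hAl j hj 0).1 h), fun h => a2 ((hAl j hj 1).1 h)⟩
      · rcases Finset.mem_insert.1 hj with rfl | hj'
        · exact hgood
        · have hne : j ≠ l := fun h => hl (h ▸ hj')
          rcases hS j hj' with ⟨g0, g⟩ | ⟨g0, g⟩
          · exact Or.inl ⟨(hAl j hne 2).2 g0, g⟩
          · exact Or.inr ⟨fun h => g0 ((hAl j hne 2).1 h), g⟩
    · rw [← sub_add]
      exact Submodule.add_mem _ hwz (Submodule.mem_map_of_mem (goodCell_le_phiC (hcOp_goodCell hw)))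

end classify

section iso

lemma kappa_apply_base (b b' : Fin m × (Fin (d - 1) → ℤ)) (C : Fin (d - 1) → Fin 3) :
    kappa D a g c A b (baseCell D g c b' C) (b'.1, 0) =
      if b = b' ∧ C ∈ baseCharts D a g c b.1 then 1 else 0 := by
  rw [kappa, Finsupp.finsetSum_apply, Finsupp.finsetSum_apply]
  by_cases h : b = b' ∧ C ∈ baseCharts D a g c b.1
  · obtain ⟨rfl, hC⟩ := h
    rw [if_pos ⟨rfl, hC⟩, Finset.sum_eq_single C]
    · simp [mono_apply]
    · intro C' _ hne
      have : baseCell D g c b C' ≠ baseCell D g c b C := fun e => hne (by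
        simpa [baseCell] using e)
      simp [mono_apply, Finsupp.single_apply, this]
    · exact fun h => absurd hC h
  · rw [if_neg h]
    refine Finset.sum_eq_zero fun C' hC' => ?_
    rw [mono_apply, Finsupp.single_apply]
    split
    · rename_i e
      rw [Finsupp.single_apply, if_neg]
      intro hp
      refine h ⟨Prod.ext (by simpa using hp) ?_, ?_⟩
      · simp [baseCell] at e; exact e.2.2
      · simp [baseCell] at e
        rwa [← e.1]
    · rfl

lemma kappa_good (hD : 0 < D) {r : ℤ} {b : Fin m × (Fin (d - 1) → ℤ)}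
    (hb : b ∈ baseR D a g c r) : kappa D a g c A b ∈ supp2 A (GoodCell D a g c univ r) := by
  refine Submodule.sum_mem _ fun C hC => mono_mem_supp2 _
    ⟨⟨rfl, rfl⟩, freeCell_base hD hb hC, fun l _ => ?_⟩
  obtain ⟨h1, h2⟩ := (mem_baseR.1 hb).2 l
  rcases lt_or_ge (tOf D a g c b.1 l) 0 with h | h
  · refine Or.inl ⟨((mem_baseCharts.1 hC) l).1 h, (h2 h).2, ?_⟩
    rw [rest_baseCell]
    have := h2 h
    omega
  · refine Or.inr ⟨((mem_baseCharts.1 hC) l).2 h, (h1 h).1, ?_⟩
    rw [rest_baseCell]
    have := h1 h
    omega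

lemma kappa_cycle (b : Fin m × (Fin (d - 1) → ℤ)) :
    phiDF A m d (kappa D a g c A b) = 0 := by
  have hcrit : kappa D a g c A b ∈ supp2 A Crit :=
    Submodule.sum_mem _ fun C _ => mono_mem_supp2 _ ⟨rfl, rfl⟩
  rw [phiDF_crit hcrit]
  ext T p
  rw [chOp_apply, Finsupp.finsetSum_apply, Finsupp.zero_apply]
  refine Finset.sum_eq_zero fun l _ => ?_
  split
  swap
  · rfl
  rename_i hT
  rw [Finsupp.add_apply, Finsupp.smul_apply, Finsupp.smul_apply, cechSign_zero_one, neg_smul,
    ← sub_eq_add_neg, sub_eq_zero]
  congr 1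
  rw [kappa, Finsupp.finsetSum_apply, Finsupp.finsetSum_apply, Finsupp.finsetSum_apply,
    Finsupp.finsetSum_apply]
  by_cases hl : tOf D a g c b.1 l < 0
  · have hz : ∀ x : Fin 3, x ≠ 2 → ∀ C' ∈ baseCharts D a g c b.1,
        (mono (baseCell D g c b C') (b.1, 0) (1 : A))
          ((T.1.1, Function.update T.1.2 l x), T.2) p = 0 := by
      intro x hx C' hC'
      rw [mono_apply, Finsupp.single_apply, if_neg]
      · rfl
      · intro e
        have e' : C' = Function.update T.1.2 l x := congrArg (fun i : PIdx d => i.1.2) e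
        exact hx (by rw [← ((mem_baseCharts.1 hC') l).1 hl, e', Function.update_self])
    rw [Finset.sum_eq_zero (hz 0 (by decide)), Finset.sum_eq_zero (hz 1 (by decide))]
  · have key : ∀ x y : Fin 3, x ≠ 2 → ∀ C', C' ∈ baseCharts D a g c b.1 → y ≠ 2 → C' l = x →
        Function.update C' l y ∈ baseCharts D a g c b.1 := by
      intro x y _ C' hC' hy _
      refine mem_baseCharts.2 fun j => ?_
      by_cases hj : j = l
      · subst hj
        exact ⟨fun h => absurd h hl, fun _ => by rw [Function.update_self]; exact hy⟩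
      · rw [Function.update_of_ne hj]; exact mem_baseCharts.1 hC' j
    let flip : (Fin (d - 1) → Fin 3) → (Fin (d - 1) → Fin 3) :=
      fun C' => Function.update C' l (if C' l = 0 then 1 else 0)
    have hb2 : ∀ C' ∈ baseCharts D a g c b.1, C' l = 0 ∨ C' l = 1 := by
      intro C' hC'
      have := ((mem_baseCharts.1 hC') l).2 (not_lt.1 hl)
      revert this; generalize C' l = x; revert x; decide
    refine Finset.sum_bij' (fun C' _ => flip C') (fun C' _ => flip C') ?_ ?_ ?_ ?_ ?_
    · intro C' hC'
      rcases hb2 C' hC' with h | h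
      · exact key 0 _ (by decide) C' hC' (by simp [h]) h
      · exact key 1 _ (by decide) C' hC' (by simp [h]) h
    · intro C' hC'
      rcases hb2 C' hC' with h | h
      · exact key 0 _ (by decide) C' hC' (by simp [h]) h
      · exact key 1 _ (by decide) C' hC' (by simp [h]) h
    · intro C' hC'
      rcases hb2 C' hC' with h | h <;> simp [flip, h] <;> rw [← h, Function.update_eq_self]
    · intro C' hC'
      rcases hb2 C' hC' with h | h <;> simp [flip, h] <;> rw [← h, Function.update_eq_self]
    · intro C' hC'
      have hiff : baseCell D g c b C' = ((T.1.1, Function.update T.1.2 l 0), T.2) ↔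
          baseCell D g c b (flip C') = ((T.1.1, Function.update T.1.2 l 1), T.2) := by
        simp only [baseCell, Prod.mk.injEq, flip]
        constructor
        · rintro ⟨⟨h1, h2⟩, h3⟩
          subst h2
          simp [h1, h3]
        · rintro ⟨⟨h1, h2⟩, h3⟩
          have h4 := congrFun h2 l
          simp only [Function.update_self] at h4
          have h0 : C' l = 0 := by
            by_contra h0
            rw [if_neg h0] at h4
            exact absurd h4 (by decide)
          refine ⟨⟨h1, ?_⟩, h3⟩
          funext j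
          by_cases hj : j = l
          · subst hj; simpa using h0
          · have := congrFun h2 j
            simpa [Function.update_of_ne hj] using this
      simp only [mono_apply, Finsupp.single_apply]
      simp only [hiff]

/-- A good cycle without base coefficients vanishes. -/
lemma good_zero (hD : 0 < D) {r : ℤ} {w : PIdx d →₀ FreeMod A m d}
    (hw : w ∈ supp2 A (GoodCell D a g c univ r)) (hwc : phiDF A m d w = 0)
    (h0 : ∀ b ∈ baseR D a g c r, w (baseCell D g c b (baseChart D a g c b.1)) (b.1, 0) = 0) :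
    w = 0 := by
  have hch : chOp A (FreeMod A m d) d w = 0 := by
    rw [← phiDF_crit (supp2_mono (fun i p h => h.1) hw), hwc]
  suffices key : ∀ (n : ℕ) (i : PIdx d) (p : FIdx m d),
      (univ.filter fun l => i.1.2 l = 1).card = n → w i p = 0 by
    ext i p; exact key _ i p rfl
  intro n
  induction n with
  | zero =>
    intro i p hn
    by_contra hne
    obtain ⟨⟨hJ, hp⟩, ⟨hdeg, hA, hlev⟩, hgood⟩ := hw i p hne
    obtain ⟨⟨J, C⟩, σ, e⟩ := i
    obtain ⟨k, β⟩ := p
    dsimp only at hJ hp
    subst hJ hp
    simp only [bdeg, Finsupp.zero_apply, Finset.sum_const_zero, Nat.cast_zero, mul_zero,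
      add_zero] at hlev
    have hσ : sigOf D g c k = σ := by
      rw [sigOf, hlev, add_sub_cancel_left, Int.mul_ediv_cancel_left _ (by omega)]
    have hb : baseCell D g c (k, e) C = ((univ, C), σ, e) := by simp [baseCell, hσ]
    have ht : ∀ l, tOf D a g c k l = e l + PIdx.rest a (((univ, C), σ, e) : PIdx d) l := fun l => by
      rw [← hb, rest_baseCell]; ring
    have hsign : ∀ l, (C l = 2 ↔ tOf D a g c k l < 0) := fun l => by
      rw [ht]
      rcases hgood l (mem_univ l) with ⟨g0, g1, g2⟩ | ⟨g0, g1, g2⟩
      · exact iff_of_true g0 (by dsimp only at *; omega)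
      · exact iff_of_false g0 (by dsimp only at *; omega)
    have hbase : (k, e) ∈ baseR D a g c r := by
      refine mem_baseR.2 ⟨⟨⟨σ, by dsimp only at *; omega⟩, ?_⟩, fun l => ?_⟩
      · rw [← hdeg, nNeg, ← Finset.filter_congr fun l _ => hsign l]
        simp [PIdx.deg, PIdx.nBoth]
      · rw [ht]
        rcases hgood l (mem_univ l) with ⟨g0, g1, g2⟩ | ⟨g0, g1, g2⟩ <;>
          refine ⟨fun h => ?_, fun h => ?_⟩ <;> dsimp only at * <;> omega
    have hC : C = baseChart D a g c k := by
      funext l
      rw [baseChart]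
      split
      · rename_i h; exact (hsign l).2 h
      · rename_i h
        have h1 : C l ≠ 2 := fun e => h ((hsign l).1 e)
        have h2 : C l ≠ 1 := fun e => by
          rw [Finset.card_eq_zero, Finset.filter_eq_empty_iff] at hn
          exact hn (mem_univ l) e
        revert h1 h2; generalize C l = x; revert x; decide
    subst hC
    exact hne (by rw [← hb]; exact h0 _ hbase)
  | succ n ih =>
    intro i p hn
    obtain ⟨l, hl⟩ := Finset.card_pos.1 (by omega : 0 < (univ.filter fun l => i.1.2 l = 1).card)
    have hl1 : i.1.2 l = 1 := (Finset.mem_filter.1 hl).2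
    by_contra hne
    obtain ⟨-, ⟨-, -, -⟩, hgood⟩ := hw i p hne
    have hpos : 0 ≤ i.2.2 l ∧ 0 ≤ i.rest a l := by
      rcases hgood l (mem_univ l) with ⟨g0, -⟩ | ⟨-, g⟩
      · exact absurd (hl1.symm.trans g0) (by decide)
      · exact g
    have hT := chOp_apply (A := A) w ((i.1.1, Function.update i.1.2 l 2), i.2)
    rw [hch, Finsupp.zero_apply, Finset.sum_eq_single l] at hT
    rotate_left
    · intro j _ hj
      split
      swap
      · rfl
      have hz : ∀ x : Fin 3, w ((i.1.1, Function.update (Function.update i.1.2 l 2) j x), i.2) = 0 := by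
        intro x
        ext q
        by_contra hq
        obtain ⟨-, -, hg⟩ := hw _ q hq
        rcases hg l (mem_univ l) with ⟨-, g1, -⟩ | ⟨g0, -⟩
        · dsimp only at g1; omega
        · exact g0 (by simp [Function.update_of_ne (Ne.symm hj)])
      simp [hz]
    · exact fun h => absurd (mem_univ l) h
    simp only [Function.update_self, if_true, Function.update_idem, cechSign_zero_one] at hT
    have hi : ((i.1.1, Function.update i.1.2 l 1), i.2) = i := by
      rw [← hl1, Function.update_eq_self]
    rw [hi] at hT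
    have h00 : w ((i.1.1, Function.update i.1.2 l 0), i.2) p = 0 := by
      refine ih _ p ?_
      have : (univ.filter fun j => Function.update i.1.2 l 0 j = 1) =
          (univ.filter fun j => i.1.2 j = 1).erase l := by
        ext j
        by_cases hj : j = l
        · subst hj; simp
        · simp [Function.update_of_ne hj, hj]
      dsimp only
      rw [this, Finset.card_erase_of_mem hl, hn]
      rfl
    have hT' := congrArg (fun f : FreeMod A m d => f p) hT
    simp only [Finsupp.zero_apply, Finsupp.add_apply, Finsupp.smul_apply, h00, smul_zero,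
      zero_add, neg_smul, Finsupp.neg_apply] at hT'
    have := congrArg (fun v : A => cechSign (Function.update i.1.2 l 0) l • v) hT'
    simp only [smul_zero, smul_neg, smul_smul, cechSign_sq, one_smul] at this
    exact hne (neg_eq_zero.1 this.symm)

variable (D a g c)

/-- The class of the representative cycle. -/
noncomputable def kappaClass (A : Type*) [CommRing A] (hD : 0 < D) (r : ℤ)
    (b : ↥(baseR D a g c r)) :
    HMod (phiDF A m d) (phiC D a (freeFam A (d := d) D g) c) (fun _ => ⊥) r :=
  hmk _ _ _ r ⟨kappa D a g c A b.1, goodCell_le_phiC (kappa_good hD b.2), by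
    change phiDF A m d (kappa D a g c A b.1) ∈ (⊥ : Submodule A _)
    rw [kappa_cycle]; exact zero_mem _⟩

/-- The comparison map. -/
noncomputable def freeCohMap (A : Type*) [CommRing A] (hD : 0 < D) (r : ℤ) :
    (↥(baseR D a g c r) →₀ A) →ₗ[A]
      HMod (phiDF A m d) (phiC D a (freeFam A (d := d) D g) c) (fun _ => ⊥) r :=
  Finsupp.linearCombination A (kappaClass D a g c A hD r)

variable {D a g c}

lemma freeCohMap_eq (hD : 0 < D) {r : ℤ} (x : ↥(baseR D a g c r) →₀ A) :
    ∃ h, freeCohMap D a g c A hD r x =
      hmk _ _ _ r ⟨x.sum fun b v => v • kappa D a g c A b.1, h⟩ := by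
  refine ⟨Submodule.sum_mem _ fun b _ => Submodule.smul_mem _ _
    ⟨goodCell_le_phiC (kappa_good hD b.2), by
      change phiDF A m d (kappa D a g c A b.1) ∈ (⊥ : Submodule A _)
      rw [kappa_cycle]; exact zero_mem _⟩, ?_⟩
  rw [freeCohMap, Finsupp.linearCombination_apply]
  simp only [Finsupp.sum, kappaClass, ← map_smul, ← map_sum]
  congr 1
  apply Subtype.ext
  simp

lemma sum_kappa_apply {r : ℤ} (x : ↥(baseR D a g c r) →₀ A) (b : ↥(baseR D a g c r))
    {C : Fin (d - 1) → Fin 3} (hC : C ∈ baseCharts D a g c b.1.1) :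
    (x.sum fun b v => v • kappa D a g c A b.1) (baseCell D g c b.1 C) (b.1.1, 0) = x b := by
  rw [Finsupp.sum, Finsupp.finsetSum_apply, Finsupp.finsetSum_apply, Finset.sum_eq_single b]
  · rw [Finsupp.smul_apply, Finsupp.smul_apply, kappa_apply_base, if_pos ⟨rfl, hC⟩, smul_eq_mul,
      mul_one]
  · intro b' _ hne
    rw [Finsupp.smul_apply, Finsupp.smul_apply, kappa_apply_base,
      if_neg fun h => hne (Subtype.ext h.1), smul_zero]
  · intro h
    rw [Finsupp.notMem_support_iff.1 h, zero_smul, Finsupp.zero_apply, Finsupp.zero_apply]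

theorem freeCohMap_bijective (hD : 0 < D) (r : ℤ) :
    Function.Bijective (freeCohMap D a g c A hD r) := by
  constructor
  · rw [injective_iff_map_eq_zero]
    intro x hx
    obtain ⟨h, e⟩ := freeCohMap_eq hD x
    rw [e, hmk_eq_zero] at hx
    have hx' : (x.sum fun b v => v • kappa D a g c A b.1) ∈
        (phiC D a (freeFam A D g) c (r - 1)).map (phiDF A m d) := by
      simpa [hbd] using hx
    obtain ⟨y, hy, hyx⟩ := hx'
    set w := x.sum fun b v => v • kappa D a g c A b.1 with hw
    have hwC : w ∈ supp2 A Crit :=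
      Submodule.sum_mem _ fun b _ => Submodule.smul_mem _ _
        (supp2_mono (fun i p h => h.1) (kappa_good hD b.2))
    have hfix : ∀ n, (stepOp A m d)^[n] w = w := by
      intro n
      induction n with
      | zero => rfl
      | succ n ih =>
        rw [Function.iterate_succ_apply', ih]
        refine sub_eq_zero.1 ((Submodule.mem_bot A).1 ?_)
        exact supp2_map_le (stepOp A m d - LinearMap.id) (fun i p v hip => by
          rw [Submodule.mem_bot, LinearMap.sub_apply, LinearMap.id_apply, stepOp_crit hip,
            sub_self]) hwC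
    obtain ⟨n, hn⟩ := exists_iterate_crit y
    have hy' : ∀ n, (stepOp A m d)^[n] y ∈ phiC D a (freeFam A D g) c (r - 1) ∧
        phiDF A m d ((stepOp A m d)^[n] y) = (stepOp A m d)^[n] w := by
      intro n
      induction n with
      | zero => exact ⟨hy, hyx⟩
      | succ n ih =>
        rw [Function.iterate_succ_apply', Function.iterate_succ_apply', ← stepOp_phiDF, ih.2]
        exact ⟨stepOp_phiC ih.1, rfl⟩
    obtain ⟨hy1, hy2⟩ := hy' n
    rw [hfix, phiDF_crit hn] at hy2
    ext b
    have hb := b.2
    rw [Finsupp.zero_apply, ← sum_kappa_apply x b (baseChart_mem b.1.1), ← hw, ← hy2, chOp_apply,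
      Finsupp.finsetSum_apply]
    refine Finset.sum_eq_zero fun l _ => ?_
    split
    swap
    · rfl
    rename_i hl
    have hneg : tOf D a g c b.1.1 l < 0 := by
      by_contra hn'
      simp [baseCell, baseChart, hn'] at hl
    obtain ⟨-, he⟩ := mem_baseR.1 hb
    have he' := (he l).2 hneg
    rw [phiC_free_eq] at hy1
    have hz : ∀ x : Fin 3, x ≠ 2 → ((stepOp A m d)^[n] y)
        (((baseCell D g c b.1 (baseChart D a g c b.1.1)).1.1,
          Function.update (baseCell D g c b.1 (baseChart D a g c b.1.1)).1.2 l x),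
          (baseCell D g c b.1 (baseChart D a g c b.1.1)).2) (b.1.1, 0) = 0 := by
      intro x hx
      by_contra hne
      obtain ⟨-, hA, -⟩ := hy1 _ _ hne
      obtain ⟨a1, a2⟩ := hA l
      have hrest := rest_baseCell (D := D) (a := a) (g := g) (c := c) b.1
        (baseChart D a g c b.1.1) l
      have h3 : ∀ y : Fin 3, y ≠ 2 → y = 0 ∨ y = 1 := by decide
      rcases h3 x hx with h | h
      · have := a1 (by simp [h])
        simp only [PIdx.rest, baseCell] at this hrest
        omega
      · have := a2 (by simp [h])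
        simp only [baseCell] at this
        omega
    rw [Finsupp.add_apply, Finsupp.smul_apply, Finsupp.smul_apply, hz 0 (by decide),
      hz 1 (by decide), smul_zero, smul_zero, add_zero]
  · intro q
    obtain ⟨⟨z, hz⟩, rfl⟩ := hmk_surjective _ _ _ r q
    obtain ⟨w, hw, hwc, hwz⟩ := exists_good hz.1 ((Submodule.mem_bot A).1 hz.2)
    let x : ↥(baseR D a g c r) →₀ A := Finsupp.equivFunOnFinite.symm
      fun b => w (baseCell D g c b.1 (baseChart D a g c b.1.1)) (b.1.1, 0)
    refine ⟨x, ?_⟩
    obtain ⟨h, e⟩ := freeCohMap_eq hD x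
    have hxw : (x.sum fun b v => v • kappa D a g c A b.1) = w := by
      refine sub_eq_zero.1 (good_zero (a := a) (g := g) (c := c) (r := r) hD ?_ ?_ ?_)
      · exact Submodule.sub_mem _ (Submodule.sum_mem _ fun b _ =>
          Submodule.smul_mem _ _ (kappa_good hD b.2)) hw
      · rw [map_sub, hwc, sub_zero, Finsupp.sum, map_sum]
        exact Finset.sum_eq_zero fun b _ => by rw [map_smul, kappa_cycle, smul_zero]
      · intro b hb
        rw [Finsupp.sub_apply, Finsupp.sub_apply,
          sum_kappa_apply x ⟨b, hb⟩ (baseChart_mem b.1)]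
        simp [x]
    rw [e, ← sub_eq_zero, ← map_sub, hmk_eq_zero]
    change (x.sum fun b v => v • kappa D a g c A b.1) - z ∈ _
    rw [hxw, ← neg_sub z w]
    exact Submodule.neg_mem _ (Submodule.mem_sup_left hwz)

/-- The cohomology of a free family is free on the base monomials. -/
noncomputable def freeCohEquiv (hD : 0 < D) (r : ℤ) :
    (↥(baseR D a g c r) →₀ A) ≃ₗ[A]
      HMod (phiDF A m d) (phiC D a (freeFam A (d := d) D g) c) (fun _ => ⊥) r :=
  LinearEquiv.ofBijective _ (freeCohMap_bijective hD r)

end iso

end Vale.Agent.P202
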