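import Vale.Agent.P202.InterfacesBand3
import Vale.Agent.P202.PhiFreeCoh

/-!
The symbols of one level of `L`: normal forms as vectors of the free family on the normal monomials
over the residue field (BLUEPRINT_BAND, section 4a).
-/

universe u

namespace Vale.Agent.P202

open IsLocalRing MvPolynomial

namespace LevelIso

section poly

variable {κ : Type*} [CommRing κ] {d n N : ℕ} (γ : Fin N → Vr d n →₀ ℕ)

/-- The exponent in all variables of the vector of index `q`. -/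
noncomputable def expo (q : FIdx N d) : Vr d n →₀ ℕ :=
  q.2.mapDomain (fun l => some (Sum.inl l)) + γ q.1

lemma nfPoly_single (q : FIdx N d) (a : κ) :
    nfPoly γ (Finsupp.single q a) = monomial (expo γ q) a := by
  rw [nfPoly, Finsupp.linearCombination_single, inX, rename_monomial, monomial_mul,
    smul_monomial, one_mul, smul_eq_mul, mul_one]
  rfl

variable {γ}

lemma expo_inl (hγX : ∀ t l, γ t (some (Sum.inl l)) = 0) (q : FIdx N d) (l : Fin d) :
    expo γ q (some (Sum.inl l)) = q.2 l := by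
  rw [expo, Finsupp.add_apply, hγX, add_zero, Finsupp.mapDomain_apply]
  exact (Option.some_injective _).comp Sum.inl_injective

lemma expo_hVar (q : FIdx N d) (v : Hv n) : expo γ q (hVar v) = γ q.1 (hVar v) := by
  rw [expo, Finsupp.add_apply, Finsupp.mapDomain_of_notMem_range, zero_add]
  rintro ⟨l, hl⟩
  cases v <;> simp [hVar] at hl

lemma expo_injective (hγX : ∀ t l, γ t (some (Sum.inl l)) = 0) (hγ : Function.Injective γ) :
    Function.Injective (expo γ) := by
  intro q q' h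
  have h2 : q.2 = q'.2 := Finsupp.ext fun l => by rw [← expo_inl hγX q l, h, expo_inl hγX]
  refine Prod.ext (hγ ?_) h2
  rw [expo, expo, h2] at h
  exact add_left_cancel h

lemma weight_expo (wt : Vr d n → ℕ) (b : ℕ) (hb : ∀ l, wt (some (Sum.inl l)) = b) (q : FIdx N d) :
    Finsupp.weight wt (expo γ q) = Finsupp.weight wt (γ q.1) + b * bdeg q.2 := by
  rw [expo, map_add, add_comm, Finsupp.weight_apply, Finsupp.weight_apply,
    Finsupp.sum_mapDomain_index (h := fun i c => c • wt i) (fun _ => zero_smul _ _)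
      (fun _ _ _ => add_smul _ _ _)]
  congr 1
  rw [Finsupp.sum_fintype q.2 (fun a m => m • wt (some (Sum.inl a))) (fun _ => zero_smul _ _),
    bdeg, Finset.mul_sum]
  exact Finset.sum_congr rfl fun l _ => by rw [hb, smul_eq_mul, mul_comm]

lemma nfPoly_xFree (l : Fin d) (v : FreeMod κ N d) :
    nfPoly γ (xFree κ l v) = MvPolynomial.X (some (Sum.inl l)) * nfPoly γ v := by
  induction v using Finsupp.induction_linear with
  | zero => simp
  | add v w hv hw => simp only [map_add, hv, hw, mul_add]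
  | single q a =>
    rw [xFree_single, nfPoly_single, nfPoly_single, MvPolynomial.X, monomial_mul, one_mul]
    refine congrArg (fun e => monomial e a) ?_
    simp only [expo, Finsupp.mapDomain_add, Finsupp.mapDomain_single]
    abel

lemma coeff_nfPoly (hγX : ∀ t l, γ t (some (Sum.inl l)) = 0) (hγ : Function.Injective γ)
    (v : FreeMod κ N d) (q : FIdx N d) : coeff (expo γ q) (nfPoly γ v) = v q := by
  classical
  induction v using Finsupp.induction_linear with
  | zero => simp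
  | add v w hv hw => simp [hv, hw]
  | single q' a =>
    rw [nfPoly_single, coeff_monomial, Finsupp.single_apply]
    exact if_congr (expo_injective hγX hγ).eq_iff rfl rfl

lemma exists_of_coeff_nfPoly {v : FreeMod κ N d} {e : Vr d n →₀ ℕ}
    (h : coeff e (nfPoly γ v) ≠ 0) : ∃ q, v q ≠ 0 ∧ expo γ q = e := by
  classical
  by_contra! hne
  refine h ?_
  rw [← v.sum_single, Finsupp.sum, map_sum, coeff_sum]
  refine Finset.sum_eq_zero fun q hq => ?_
  rw [nfPoly_single, coeff_monomial, if_neg (hne q (Finsupp.mem_support_iff.1 hq))]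

end poly

section band

variable {p : ℕ} [Fact p.Prime] {R : Type u} [CommRing R] [IsLocalRing R] {k : Type u} [Field k]
  [CharP k p] [PerfectRing k p] {A : Type u} [CommRing A] [Algebra R A]
  [Algebra (WittVector p k) A] {d : ℕ} {x : Fin d → A} {b : ℕ} {G : ℕ → Ideal A}
  {CI : CIData p k A x b G} {ι : ResidueField R →+* k} {i j K N : ℕ}
  (B : Band p R CI ι i j K) (γ : Fin N → Vr d CI.n →₀ ℕ)

/-- The degrees of the generators. -/
noncomputable def gens (t : Fin N) : ℤ := (Finsupp.weight CI.wt (γ t) : ℤ)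

/-- The normal monomials. -/
def IsNormalBasis : Prop :=
  Function.Injective γ ∧
    ∀ v, (∃ t, γ t = v) ↔ IsStdExp (d := d) (fun w => B.mm * CI.deg w) v

variable {γ}

lemma gammaX (hγ : IsNormalBasis B γ) (t : Fin N) (l : Fin d) : γ t (some (Sum.inl l)) = 0 :=
  ((hγ.2 _).1 ⟨t, rfl⟩).1 l

lemma freeFam_eq_zero {n : ℤ} (hn : n < 0) {v : FreeMod B.κ N d}
    (hv : v ∈ freeFam B.κ b (gens γ) n) : v = 0 := by
  refine Finsupp.ext fun q => ?_
  by_contra h
  have h1 := mem_freeFam.1 hv q h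
  have h2 : (0 : ℤ) ≤ gens γ q.1 + (b : ℤ) * bdeg q.2 := by rw [gens]; positivity
  omega

lemma isHom_nfPoly {n : ℕ} {v : FreeMod B.κ N d} (hv : v ∈ freeFam B.κ b (gens γ) (n : ℤ)) :
    (nfPoly γ v).IsWeightedHomogeneous CI.wt n := by
  intro e he
  obtain ⟨q, hq, rfl⟩ := exists_of_coeff_nfPoly he
  rw [weight_expo CI.wt b CI.wt_X]
  have h := mem_freeFam.1 hv q hq
  rw [gens] at h
  exact_mod_cast h

lemma isNF_nfPoly (hγ : IsNormalBasis B γ) (v : FreeMod B.κ N d) : B.IsNF (nfPoly γ v) := by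
  intro e he w
  obtain ⟨q, -, rfl⟩ := exists_of_coeff_nfPoly (mem_support_iff.1 he)
  rw [expo_hVar]
  exact ((hγ.2 _).1 ⟨q.1, rfl⟩).2 w

lemma exists_nfPoly_eq (hγ : IsNormalBasis B γ) {n : ℕ} {P : MvPolynomial (Vr d CI.n) B.κ}
    (hP : P.IsWeightedHomogeneous CI.wt n) (hNF : B.IsNF P) :
    ∃ v ∈ freeFam B.κ b (gens γ) (n : ℤ), nfPoly γ v = P := by
  classical
  have hex : ∀ e ∈ P.support, ∃ q, expo γ q = e := by
    intro e he
    let e' : Vr d CI.n →₀ ℕ := Finsupp.equivFunOnFinite.symm fun v =>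
      match v with
      | some (Sum.inl _) => 0
      | none => e none
      | some (Sum.inr z) => e (some (Sum.inr z))
    obtain ⟨t, ht⟩ := (hγ.2 e').2 ⟨fun l => by simp [e'], fun w => by
      cases w with
      | none => simpa [e', hVar] using hNF e he none
      | some z => simpa [e', hVar] using hNF e he (some z)⟩
    refine ⟨(t, Finsupp.equivFunOnFinite.symm fun l => e (some (Sum.inl l))), ?_⟩
    ext v
    rcases v with _ | l | z
    · have := expo_hVar (γ := γ) (t, Finsupp.equivFunOnFinite.symm fun l => e (some (Sum.inl l)))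
        (none : Hv CI.n)
      simpa [hVar, ht, e'] using this
    · rw [expo_inl (gammaX B hγ)]; simp
    · have := expo_hVar (γ := γ) (t, Finsupp.equivFunOnFinite.symm fun l => e (some (Sum.inl l)))
        (some z : Hv CI.n)
      simpa [hVar, ht, e'] using this
  choose q hq using hex
  refine ⟨∑ e ∈ P.support.attach, Finsupp.single (q e.1 e.2) (P.coeff e.1),
    Submodule.sum_mem _ fun ⟨e, he⟩ _ => ?_, ?_⟩
  · refine mem_freeFam.2 fun q' hq' => ?_
    rw [Finsupp.single_apply] at hq'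
    split_ifs at hq' with h
    · subst h
      have h1 := hP (mem_support_iff.1 he)
      rw [← hq e he, weight_expo CI.wt b CI.wt_X] at h1
      rw [gens]
      exact_mod_cast h1
    · exact absurd rfl hq'
  · rw [map_sum]
    conv_rhs => rw [P.as_sum, ← Finset.sum_attach]
    exact Finset.sum_congr rfl fun e _ => by rw [nfPoly_single, hq e.1 e.2]

lemma lift_zero_mem (n : ℕ) : B.lift 0 ∈ B.Fil ((n : ℤ) + 1) :=
  (B.lift_ker n 0 (isWeightedHomogeneous_zero _ _ _)).2 (by rw [map_zero]; exact zero_mem _)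

lemma lift_zero_mem' (n : ℤ) : B.lift 0 ∈ B.Fil (n + 1) := by
  rcases lt_or_ge n 0 with hn | hn
  · rw [B.fil_top (n + 1) (by omega)]; trivial
  · obtain ⟨n', rfl⟩ := Int.eq_ofNat_of_zero_le hn
    exact lift_zero_mem B n'

variable (γ)

/-- `z` in `Fil n` has the normal form of `v`. -/
def Rel (n : ℤ) (z : B.L) (v : FreeMod B.κ N d) : Prop :=
  v ∈ freeFam B.κ b (gens γ) n ∧ z - B.lift (nfPoly γ v) ∈ B.Fil (n + 1)

variable {γ}

lemma rel_zero_iff {n : ℤ} {z : B.L} : Rel B γ n z 0 ↔ z ∈ B.Fil (n + 1) := by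
  rw [Rel, map_zero]
  exact ⟨fun h => by simpa using add_mem h.2 (lift_zero_mem' B n), fun h =>
    ⟨zero_mem _, sub_mem h (lift_zero_mem' B n)⟩⟩

lemma Rel.mem {n : ℤ} {z : B.L} {v : FreeMod B.κ N d} (h : Rel B γ n z v) : z ∈ B.Fil n := by
  rcases lt_or_ge n 0 with hn | hn
  · rw [B.fil_top n hn.le]; trivial
  obtain ⟨n', rfl⟩ := Int.eq_ofNat_of_zero_le hn
  simpa using add_mem (B.anti (Int.le_add_one le_rfl) h.2) (B.lift_mem n' _ (isHom_nfPoly B h.1))

lemma Rel.add {n : ℤ} {z z' : B.L} {v v' : FreeMod B.κ N d} (h : Rel B γ n z v)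
    (h' : Rel B γ n z' v') : Rel B γ n (z + z') (v + v') := by
  refine ⟨add_mem h.1 h'.1, ?_⟩
  rcases lt_or_ge n 0 with hn | hn
  · rw [B.fil_top (n + 1) (by omega)]; trivial
  obtain ⟨n', rfl⟩ := Int.eq_ofNat_of_zero_le hn
  have h1 := B.lift_add n' _ _ (isHom_nfPoly B h.1) (isHom_nfPoly B h'.1)
  rw [map_add]
  convert sub_mem (add_mem h.2 h'.2) h1 using 1
  ring

lemma Rel.sum {ι' : Type*} {n : ℤ} (s : Finset ι') {z : ι' → B.L} {v : ι' → FreeMod B.κ N d}
    (h : ∀ i ∈ s, Rel B γ n (z i) (v i)) : Rel B γ n (∑ i ∈ s, z i) (∑ i ∈ s, v i) := by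
  classical
  induction s using Finset.induction with
  | empty => simpa using (rel_zero_iff B).2 (zero_mem (B.Fil (n + 1)))
  | insert a s ha ih =>
    rw [Finset.sum_insert ha, Finset.sum_insert ha]
    exact (h a (Finset.mem_insert_self a s)).add B
      (ih fun i hi => h i (Finset.mem_insert_of_mem hi))

lemma Rel.mulX {n : ℤ} {z : B.L} {v : FreeMod B.κ N d} (h : Rel B γ n z v) (l : Fin d) :
    Rel B γ (n + b) (B.X l * z) (xFree B.κ l v) := by
  refine ⟨freeFam_stable _ l n v h.1, ?_⟩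
  rw [nfPoly_xFree]
  rcases lt_or_ge n 0 with hn | hn
  · have hv := freeFam_eq_zero B hn h.1
    subst hv
    rw [map_zero, mul_zero]
    refine sub_mem (B.anti (show n + (b : ℤ) + 1 ≤ b by omega) ?_) (lift_zero_mem' B _)
    exact Ideal.mul_mem_right _ _ (B.X_mem l)
  obtain ⟨n', rfl⟩ := Int.eq_ofNat_of_zero_le hn
  have hX : MvPolynomial.IsWeightedHomogeneous CI.wt
      (MvPolynomial.X (some (Sum.inl l)) : MvPolynomial (Vr d CI.n) B.κ) b := by
    have := isWeightedHomogeneous_X B.κ CI.wt (some (Sum.inl l))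
    rwa [CI.wt_X] at this
  have h1 := B.lift_mul b n' _ _ hX (isHom_nfPoly B h.1)
  have h2 := B.anti (show ((b : ℤ) + n' + 1) ≤ b + (n' + 1) by omega)
    (B.fil_mul _ _ (Ideal.mul_mem_mul (B.X_mem l) h.2))
  have h3 := B.anti (show ((b : ℤ) + n' + 1) ≤ (b + 1) + n' by omega)
    (B.fil_mul _ _ (Ideal.mul_mem_mul (B.X_init l) (B.lift_mem n' _ (isHom_nfPoly B h.1))))
  rw [show ((n' : ℤ) + (b : ℤ) + 1) = (b : ℤ) + n' + 1 by ring]
  convert sub_mem (add_mem h2 h3) h1 using 1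
  ring

variable {res : B.L →+* B.κ}

lemma Rel.smul (hres : ∀ z, res z = 0 ↔ z ∈ B.Fil 1) (hC : ∀ a : B.κ, res (B.lift (C a)) = a)
    {n : ℤ} {z : B.L} {v : FreeMod B.κ N d} (h : Rel B γ n z v) (w : B.L) :
    Rel B γ n (w * z) (res w • v) := by
  refine ⟨Submodule.smul_mem _ _ h.1, ?_⟩
  rcases lt_or_ge n 0 with hn | hn
  · rw [B.fil_top (n + 1) (by omega)]; trivial
  obtain ⟨n', rfl⟩ := Int.eq_ofNat_of_zero_le hn
  rw [map_smul, smul_eq_C_mul]
  have h0 : w - B.lift (C (res w)) ∈ B.Fil 1 := (hres _).1 (by rw [map_sub, hC, sub_self])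
  have h1 := B.lift_mul 0 n' _ _ (isWeightedHomogeneous_C CI.wt (res w)) (isHom_nfPoly B h.1)
  rw [Nat.cast_zero, zero_add] at h1
  have h2 := Ideal.mul_mem_left (B.Fil ((n' : ℤ) + 1)) w h.2
  have h3 := B.anti (show (n' : ℤ) + 1 ≤ 1 + n' by omega)
    (B.fil_mul _ _ (Ideal.mul_mem_mul h0 (B.lift_mem n' _ (isHom_nfPoly B h.1))))
  convert sub_mem (add_mem h2 h3) h1 using 1
  ring

/-- The normal forms of `GoalBandCoord`. -/
def NFProp : Prop :=
  ∀ (u : ℕ), ∀ z ∈ B.Fil u, ∃! P : MvPolynomial (Vr d CI.n) B.κ,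
    MvPolynomial.IsWeightedHomogeneous CI.wt P u ∧ B.IsNF P ∧ z - B.lift P ∈ B.Fil (u + 1)

lemma Rel.unique (hγ : IsNormalBasis B γ) (hNF : NFProp B) {n : ℤ} {z : B.L}
    {v v' : FreeMod B.κ N d} (h : Rel B γ n z v) (h' : Rel B γ n z v') : v = v' := by
  rcases lt_or_ge n 0 with hn | hn
  · rw [freeFam_eq_zero B hn h.1, freeFam_eq_zero B hn h'.1]
  obtain ⟨n', rfl⟩ := Int.eq_ofNat_of_zero_le hn
  have he : nfPoly γ v = nfPoly γ v' := (hNF n' z h.mem).unique
    ⟨isHom_nfPoly B h.1, isNF_nfPoly B hγ v, h.2⟩ ⟨isHom_nfPoly B h'.1, isNF_nfPoly B hγ v', h'.2⟩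
  refine Finsupp.ext fun q => ?_
  rw [← coeff_nfPoly (gammaX B hγ) hγ.1 v q, he, coeff_nfPoly (gammaX B hγ) hγ.1]

lemma exists_rel (hγ : IsNormalBasis B γ) (hNF : NFProp B) {n : ℤ} {z : B.L}
    (hz : z ∈ B.Fil n) : ∃ v, Rel B γ n z v := by
  rcases lt_or_ge n 0 with hn | hn
  · exact ⟨0, (rel_zero_iff B).2 (by rw [B.fil_top (n + 1) (by omega)]; trivial)⟩
  obtain ⟨n', rfl⟩ := Int.eq_ofNat_of_zero_le hn
  obtain ⟨P, ⟨hP, hPn, hPz⟩, -⟩ := hNF n' z hz
  obtain ⟨v, hv, hvP⟩ := exists_nfPoly_eq B hγ hP hPn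
  exact ⟨v, hv, by rw [hvP]; exact hPz⟩

lemma rel_neg {n : ℤ} {z : B.L} {v : FreeMod B.κ N d} (h : Rel B γ n z v) :
    Rel B γ n (-z) (-v) := by
  refine ⟨neg_mem h.1, ?_⟩
  rcases lt_or_ge n 0 with hn | hn
  · rw [B.fil_top (n + 1) (by omega)]; trivial
  obtain ⟨n', rfl⟩ := Int.eq_ofNat_of_zero_le hn
  have h1 := B.lift_add n' _ _ (isHom_nfPoly B h.1) (isHom_nfPoly B (neg_mem h.1))
  rw [map_neg, add_neg_cancel] at h1
  rw [map_neg]
  convert sub_mem (sub_mem h1 h.2) (lift_zero_mem B n') using 1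
  ring

lemma Rel.mem_free {n : ℤ} {z : B.L} {v : FreeMod B.κ N d} (h : Rel B γ n z v) :
    v ∈ freeFam B.κ b (gens γ) n := h.1

/-- Every vector of the free family is a normal form. -/
lemma rel_lift {n : ℤ} {v : FreeMod B.κ N d} (hv : v ∈ freeFam B.κ b (gens γ) n) :
    Rel B γ n (B.lift (nfPoly γ v)) v :=
  ⟨hv, by rw [sub_self]; exact zero_mem _⟩

/-- The symbol map of one level. -/
theorem exists_symbol (hγ : IsNormalBasis B γ) (hNF : NFProp B)
    (hres : ∀ z, res z = 0 ↔ z ∈ B.Fil 1) (hC : ∀ a : B.κ, res (B.lift (C a)) = a) :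
    ∃ s : ∀ n : ℤ, ↥(B.Fil n) →+ FreeMod B.κ N d,
      (∀ n (z : ↥(B.Fil n)), Rel B γ n (z : B.L) (s n z)) ∧
      (∀ n v, v ∈ freeFam B.κ b (gens γ) n → ∃ z, s n z = v) ∧
      (∀ n (z : ↥(B.Fil n)), s n z = 0 ↔ (z : B.L) ∈ B.Fil (n + 1)) ∧
      (∀ n (w : B.L) (z : ↥(B.Fil n)), s n (w • z) = res w • s n z) ∧
      ∀ n (l : Fin d) (z : ↥(B.Fil n)) (h : B.X l * z ∈ B.Fil (n + b)),
        s (n + b) ⟨B.X l * z, h⟩ = xFree B.κ l (s n z) := by
  have hex : ∀ (n : ℤ) (z : ↥(B.Fil n)), ∃ v : FreeMod B.κ N d, Rel B γ n (z : B.L) v :=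
    fun n z => exists_rel B hγ hNF z.2
  choose F hF using hex
  have hu : ∀ (n : ℤ) (z : ↥(B.Fil n)) v, Rel B γ n (z : B.L) v → F n z = v :=
    fun n z v h => Rel.unique B hγ hNF (hF n z) h
  refine ⟨fun n => AddMonoidHom.mk' (F n) fun z z' => hu n _ _ ((hF n z).add B (hF n z')),
    fun n z => hF n z, fun n v hv => ⟨⟨_, (rel_lift B hv).mem⟩, hu n _ _ (rel_lift B hv)⟩,
    fun n z => ⟨fun h => (rel_zero_iff B (γ := γ)).1 ?_, fun h => hu n z 0 ((rel_zero_iff B).2 h)⟩,
    fun n w z => hu n _ _ (Rel.smul B hres hC (hF n z) w),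
    fun n l z h => hu _ _ _ (Rel.mulX B (hF n z) l)⟩
  have := hF n z
  rwa [show F n z = 0 from h] at this

end band

end LevelIso

end Vale.Agent.P202
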