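import Vale.Agent.P202.PhiPolyFam

/-!
Module B, layer 7b: finiteness of the cohomology at level `0` and its class.
-/

universe u

namespace Vale.Agent.P202

open Finset

section general

variable {A : Type u} [CommRing A] {d D : ℕ} {M : Type u} [AddCommGroup M] [Module A M]

/-- Equal families have the same homology. -/
def hmodCast {δ : M →ₗ[A] M} {P P' Q Q' : ℤ → Submodule A M} (h₁ : P = P') (h₂ : Q = Q') (r : ℤ) :
    HMod δ P Q r ≃ₗ[A] HMod δ P' Q' r := by
  subst h₁; subst h₂; exact LinearEquiv.refl A _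

lemma phiC_shift (a : Fin (d - 1) → ℤ) (W : ℤ → Submodule A M) (c : ℤ) :
    phiC D a (fun n => W (n - D)) c = phiC D a W (c - D) := by
  funext r
  have e : ∀ σ : ℤ, c + D * σ - D = c - D + D * σ := fun σ => by ring
  refine le_antisymm (inf_le_inf_right _ (phiSub_mono fun σ => le_of_eq ?_))
    (inf_le_inf_right _ (phiSub_mono fun σ => le_of_eq ?_)) <;> simp only [e]

/-- The inclusion is bijective on homology when the quotient pair is acyclic. -/
lemma hinc_bijective {δ : M →ₗ[A] M} {O P Q : ℤ → Submodule A M} (hd : δ ∘ₗ δ = 0)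
    (hP : IsStable δ P) (hQP : ∀ r, Q r ≤ P r) (hPO : ∀ r, P r ≤ O r)
    (h0 : ∀ r, Subsingleton (HMod δ O P r)) (r : ℤ) :
    Function.Bijective (hinc (δ := δ) (Q := Q) hPO r) := by
  obtain ⟨r, rfl⟩ : ∃ r', r = r' + 1 := ⟨r - 1, by ring⟩
  refine ⟨?_, fun y => ?_⟩
  · rw [injective_iff_map_eq_zero]
    intro v hv
    obtain ⟨w, hw⟩ := (exact_hconn_hinc hPO hd hP hQP r v).1 hv
    have := h0 r
    rw [← hw, Subsingleton.elim w 0, map_zero]
  · have := h0 (r + 1)
    exact (exact_hinc_hproj hQP hPO hd (r + 1) y).1 (Subsingleton.elim _ _)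

lemma euPair_eq_zero_of_torsion [IsNoetherianRing A] {X : Fin d → M →ₗ[A] M}
    {W W' : ℤ → Submodule A M} (z : A) {η : ∀ (N : Type u) [AddCommGroup N] [Module A N], ℤ}
    (hη : IsAddKilling A z η) (a : Fin (d - 1) → ℤ) (c : ℤ)
    (hz : ∀ n, ∀ v ∈ W n, ∃ k : ℕ, z ^ k • v ∈ W' n)
    (hfin : ∀ r, Module.Finite A (HPair D a X W W' c r)) :
    euPair (AddInv.ofKilling z η hη) D a X W W' c = 0 :=
  Finset.sum_eq_zero fun r _ => by
    have := hfin r
    exact mul_eq_zero_of_right _ (val_hPair_torsion z η hη a c r hz)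

lemma FGPair.mono {X : Fin d → M →ₗ[A] M} {hX : ∀ a b, X a ∘ₗ X b = X b ∘ₗ X a}
    {W W₀ W' : ℤ → Submodule A M} (h : FGPair D hX W W₀) (hst : FamStable D X W')
    (h₀ : ∀ n, W₀ n ≤ W' n) (hle : ∀ n, W' n ≤ W n) : FGPair D hX W W' := by
  obtain ⟨m, g, gen, hgen, hsur⟩ := h.gens
  exact ⟨h.stable, hst, hle, m, g, gen, hgen, fun n => (hsur n).trans (sup_le_sup_left (h₀ n) _)⟩

lemma bot_stable (X : Fin d → M →ₗ[A] M) : FamStable D X (fun _ => (⊥ : Submodule A M)) :=
  fun l n v hv => by rw [(Submodule.mem_bot A).1 hv, map_zero]; exact zero_mem _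

end general

section base

variable {d : ℕ}

lemma sum_sign_card_baseR (hd : 0 < d) (D : ℕ) (a : Fin (d - 1) → ℤ) (g : Fin 1 → ℤ) (c : ℤ)
    (h : (D : ℤ) ∣ g 0 - c) :
    ∑ r ∈ Icc (-(d : ℤ)) d, ((Int.negOnePow r : ℤˣ) : ℤ) * ((baseR D a g c r).card : ℤ) =
      ∏ l, (tOf D a g c 0 l + 1) := by
  have hn : nNeg D a g c (0 : Fin 1) ≤ d - 1 := (Finset.card_filter_le _ _).trans (by simp)
  rw [Finset.sum_eq_single ((nNeg D a g c (0 : Fin 1) : ℤ))]
  · have hset : (univ.filter fun k : Fin 1 => (D : ℤ) ∣ g k - c ∧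
        (nNeg D a g c k : ℤ) = (nNeg D a g c (0 : Fin 1) : ℤ)) = {0} := by
      ext k
      obtain rfl : k = 0 := Subsingleton.elim _ _
      simp [h]
    rw [baseR, hset, Finset.singleton_biUnion,
      Finset.card_image_of_injective _ (fun e e' he => (Prod.mk.inj he).2), Fintype.card_piFinset,
      Int.coe_negOnePow_natCast, Nat.cast_prod]
    have hs : (-1 : ℤ) ^ nNeg D a g c (0 : Fin 1) =
        ∏ l, if tOf D a g c 0 l < 0 then (-1 : ℤ) else 1 := by
      rw [Finset.prod_ite, Finset.prod_const, Finset.prod_const_one, mul_one, nNeg]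
    rw [hs, ← Finset.prod_mul_distrib]
    refine Finset.prod_congr rfl fun l _ => ?_
    rw [Int.card_Icc]
    split <;> omega
  · intro r _ hr
    have : baseR D a g c r = ∅ := by
      rw [baseR, Finset.filter_false_of_mem, Finset.biUnion_empty]
      intro k _ hk
      obtain rfl : k = 0 := Subsingleton.elim _ _
      exact hr hk.2.symm
    rw [this]; simp
  · intro h'
    exact absurd (Finset.mem_Icc.2 ⟨by omega, by omega⟩) h'

end base

section chain

variable {R : Type u} [CommRing R] [IsNoetherianRing R] {d D : ℕ} (hd : 0 < d) (hD : 0 < D)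
  (x : Fin d → R) {η : ∀ (N : Type u) [AddCommGroup N] [Module R N], ℤ}
  (hη : IsAddKilling R (x (lastIdx hd)) η) (a : Fin (d - 1) → ℤ)

/-- The Euler characteristic of `R[X]` modulo the first `i` relations. -/
noncomputable def chainEu (i : ℕ) (c : ℤ) : ℤ :=
  euPair (AddInv.ofKilling (x (lastIdx hd)) η hη) D a (fun l => polX R l) (pFam R d D)
    (relFam hd x D i) c

include hD

lemma finite_pFam_rel (i : ℕ) (c r : ℤ) :
    Module.Finite R (HPair D a (fun l => polX R l) (pFam R d D) (relFam hd x D i) c r) :=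
  (pFam_fg (relFam_stable hd x D i) (relFam_le hd x D i)).finite hd hD a c r

omit hD in
lemma relPoly_mul_mem' {W : ℤ → Submodule R (MvPolynomial (Fin d) R)}
    (hW : FamStable D (fun l => polX R l) W) (i : ℕ) {n : ℤ} {v : MvPolynomial (Fin d) R}
    (hv : v ∈ W n) : relPoly hd x i * v ∈ W (n + D) := by
  unfold relPoly
  split
  · rw [sub_mul, mul_assoc, mul_assoc, MvPolynomial.C_mul', MvPolynomial.C_mul']
    exact Submodule.sub_mem _ (Submodule.smul_mem _ _ (hW _ _ _ hv))
      (Submodule.smul_mem _ _ (hW _ _ _ hv))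
  · rw [zero_mul]; exact zero_mem _

lemma chainEu_succ {i : ℕ} (hi : i < d - 1) (c : ℤ) :
    chainEu hd x hη a (D := D) (i + 1) c =
      chainEu hd x hη a (D := D) i c - chainEu hd x hη a (D := D) i (c - D) := by
  set P := pFam R d D with hP
  set K := relFam hd x D i with hK
  set K₁ := relFam hd x D (i + 1) with hK₁
  set X : Fin d → MvPolynomial (Fin d) R →ₗ[R] MvPolynomial (Fin d) R := fun l => polX R l with hX
  set ν := AddInv.ofKilling (x (lastIdx hd)) η hη with hν
  set G := LinearMap.mulLeft R (relPoly hd x i) with hG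
  have hKst : FamStable D X K := relFam_stable hd x D i
  have hK₁st : FamStable D X K₁ := relFam_stable hd x D (i + 1)
  have hKK₁ : ∀ n, K n ≤ K₁ n := relFam_mono_succ hd x D i
  have fB : ∀ r, Module.Finite R (HPair D a X P K c r) := finite_pFam_rel hd hD x a i c
  have fC : ∀ r, Module.Finite R (HPair D a X P K₁ c r) := finite_pFam_rel hd hD x a (i + 1) c
  have fA : ∀ r, Module.Finite R (HPair D a X K₁ K c r) :=
    finite_hPair_sub polX_comm a c hK₁st hKK₁ (relFam_le hd x D (i + 1)) fB fC
  have h1 := euPair_add ν hd polX_comm a c hK₁st hKK₁ (relFam_le hd x D (i + 1)) fA fB fC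
  -- the shifted pair
  let P₀ : ℤ → Submodule R (MvPolynomial (Fin d) R) := fun n => P (n - D)
  let K₀ : ℤ → Submodule R (MvPolynomial (Fin d) R) := fun n => K (n - D)
  let K' : ℤ → Submodule R (MvPolynomial (Fin d) R) := fun n => P (n - D) ⊓ (K n).comap G
  have shift : ∀ {W : ℤ → Submodule R (MvPolynomial (Fin d) R)}, FamStable D X W →
      FamStable D X (fun n => W (n - D)) := by
    intro W hW l n v hv
    have := hW l (n - D) v hv
    rwa [show n - (D : ℤ) + D = n + D - D by ring] at this
  have hGX : ∀ l v, G (X l v) = X l (G v) := fun l v => by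
    simp only [hG, hX, LinearMap.mulLeft_apply, polX_apply]; ring
  have hK'st : FamStable D X K' := fun l n v hv => ⟨shift pFam_stable l n v hv.1, by
    change G (X l v) ∈ K (n + D)
    rw [hGX]; exact hKst l n _ hv.2⟩
  have hK₀K' : ∀ n, K₀ n ≤ K' n := fun n v hv => ⟨relFam_le hd x D i _ hv, by
    have := relPoly_mul_mem' hd x hKst i hv
    rwa [sub_add_cancel] at this⟩
  let e : ∀ r, HPair D a X P₀ K' c r ≃ₗ[R] HPair D a X K₁ K c r := fun r =>
    pairEquiv a (W := P₀) (W' := K') (W₂ := K₁) (W₂' := K) G hGX (shift pFam_stable) hKst hKK₁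
      (fun n v hv => Submodule.mem_sup_right ⟨v, hv, rfl⟩) (fun n v hv => hv.2) c
      (fun σ => sup_le le_sup_right le_sup_left) (fun σ v hv hv' => ⟨hv, hv'⟩) r
  have fC' : ∀ r, Module.Finite R (HPair D a X P₀ K' c r) := fun r =>
    have := fA r
    Module.Finite.equiv (e r).symm
  have hcast : ∀ r, HPair D a X P₀ K₀ c r ≃ₗ[R] HPair D a X P K (c - D) r := fun r =>
    hmodCast (phiC_shift a P c) (phiC_shift a K c) r
  have fB' : ∀ r, Module.Finite R (HPair D a X P₀ K₀ c r) := fun r =>
    have := finite_pFam_rel hd hD x a i (c - D) r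
    Module.Finite.equiv (hcast r).symm
  have fA' : ∀ r, Module.Finite R (HPair D a X K' K₀ c r) :=
    finite_hPair_sub polX_comm a c hK'st hK₀K' (fun n => inf_le_left) fB' fC'
  have h2 := euPair_add ν hd polX_comm a c hK'st hK₀K' (fun n => inf_le_left) fA' fB' fC'
  have h3 : euPair ν D a X K' K₀ c = 0 :=
    euPair_eq_zero_of_torsion _ hη a c (fun n v hv => relPoly_torsion hd x hi hD hv.1 hv.2) fA'
  have h4 : euPair ν D a X P₀ K' c = euPair ν D a X K₁ K c :=
    euPair_congr ν (fun r => ⟨e r⟩) fC'
  have h5 : euPair ν D a X P₀ K₀ c = euPair ν D a X P K (c - D) :=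
    euPair_congr ν (fun r => ⟨hcast r⟩) fB'
  rw [h3, zero_add, h4, h5] at h2
  change euPair ν D a X P K₁ c = euPair ν D a X P K c - euPair ν D a X P K (c - D)
  linarith

/-- The Euler characteristic of the polynomial ring. -/
lemma chainEu_zero (s : ℤ) :
    chainEu hd x hη a (D := D) 0 (D * s) = (∏ l, (s + ((d : ℤ) + 1 - a l))) * η R := by
  set ν := AddInv.ofKilling (x (lastIdx hd)) η hη with hν
  let g0 : Fin 1 → ℤ := fun _ => 0
  have hbot : phiC D a (fun _ => (⊥ : Submodule R (FreeMod R 1 d))) (D * s) = fun _ => ⊥ :=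
    funext fun r => phiC_bot a _ r
  have hev := pairEquiv (D := D) a (X := fun l => (xFree R l : FreeMod R 1 d →ₗ[R] _))
    (X₂ := fun l => polX R l) (W := freeFam R D g0) (W' := fun _ => ⊥) (W₂ := pFam R d D)
    (W₂' := relFam hd x D 0) (evFree polX_comm (fun _ : Fin 1 => (1 : MvPolynomial (Fin d) R)))
    (evFree_xFree _ _) (freeFam_stable g0) (relFam_stable hd x D 0) (relFam_le hd x D 0)
    (fun n v hv => evFree_one_mem hv)
    (fun n v hv => by rw [(Submodule.mem_bot R).1 hv, map_zero]; exact zero_mem _) (D * s)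
    (fun σ => (pFam_le_map _).trans le_sup_left)
    (fun σ v _ hv => (Submodule.mem_bot R).2 (evFree_one_injective
      (((Submodule.mem_bot R).1 hv).trans (map_zero _).symm)))
  have hval : ∀ r, ν.val (HPair D a (fun l => polX R l) (pFam R d D) (relFam hd x D 0) (D * s) r) =
      (baseR D a g0 (D * s) r).card * η R := by
    intro r
    have e := ((freeCohEquiv (A := R) (a := a) (g := g0) (c := D * s) hD r).trans
      (hmodCast rfl hbot.symm r)).trans (hev r)
    have hfin : ν.ok (↥(baseR D a g0 (D * s) r) →₀ R) :=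
      (inferInstance : Module.Finite R (↥(baseR D a g0 (D * s) r) →₀ R))
    rw [← ν.val_congr e hfin, ν.val_finsupp (fun n => (inferInstance : Module.Finite R (Fin n → R)))
      (inferInstance : Module.Finite R R), Fintype.card_coe]
    rfl
  rw [chainEu, euPair, Finset.sum_congr rfl fun r _ => by rw [hval r, ← mul_assoc], ← Finset.sum_mul,
    sum_sign_card_baseR hd D a g0 _ ⟨-s, by simp [g0]⟩]
  congr 1
  refine Finset.prod_congr rfl fun l _ => ?_
  have : sigOf D g0 (D * s) 0 = -s := by
    rw [sigOf, show g0 0 - D * s = (D : ℤ) * -s by simp [g0],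
      Int.mul_ediv_cancel_left _ (by omega)]
  rw [tOf, this]
  ring

lemma chainEu_eq (i : ℕ) (hi : i ≤ d - 1) (s : ℤ) :
    chainEu hd x hη a (D := D) i (D * s) =
      (fwdDiff (1 : ℤ))^[i] (fun t : ℤ => ∏ l, (t + ((d : ℤ) + 1 - a l))) (s - i) * η R := by
  induction i generalizing s with
  | zero => simpa using chainEu_zero hd hD x hη a s
  | succ i ih =>
    rw [chainEu_succ hd hD x hη a (by omega), ih (by omega),
      show (D : ℤ) * s - D = D * (s - 1) by ring, ih (by omega), Function.iterate_succ_apply',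
      fwdDiff, ← sub_mul]
    congr 1
    push_cast
    congr 1 <;> congr 1 <;> ring

lemma chainEu_last : chainEu hd x hη a (D := D) (d - 1) 0 = ((d - 1).factorial : ℤ) * η R := by
  have h := chainEu_eq hd hD x hη a (d - 1) le_rfl 0
  rw [mul_zero] at h
  rw [h]
  congr 1
  let p : Polynomial ℤ := ∏ l : Fin (d - 1), (Polynomial.X + Polynomial.C ((d : ℤ) + 1 - a l))
  have hm : p.Monic := Polynomial.monic_prod_of_monic _ _ fun l _ => Polynomial.monic_X_add_C _
  have hdeg : p.natDegree = d - 1 := by
    rw [Polynomial.natDegree_prod_of_monic _ _ fun l _ => Polynomial.monic_X_add_C _,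
      Finset.sum_congr rfl fun l _ => Polynomial.natDegree_X_add_C _]
    simp
  have he : (fun t : ℤ => ∏ l, (t + ((d : ℤ) + 1 - a l))) = p.eval := by
    funext t
    simp [p, Polynomial.eval_prod]
  rw [he]
  conv_lhs => rw [← hdeg]
  rw [p.fwdDiff_iter_degree_eq_factorial, hm.leadingCoeff, one_smul, hdeg]
  simp

end chain

section rees

variable {R : Type u} [CommRing R] [IsLocalRing R] {d D : ℕ}

/-- The nonnegative part of the Rees family. -/
noncomputable def posFam (R : Type*) [CommRing R] [IsLocalRing R] (n : ℤ) : Submodule R R :=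
  if 0 ≤ n then reesFam R n else ⊥

/-- The part of the Rees family in degrees `0, D, 2D, ...`. -/
noncomputable def verFam (R : Type*) [CommRing R] [IsLocalRing R] (D : ℕ) (n : ℤ) : Submodule R R :=
  if (D : ℤ) ∣ n ∧ 0 ≤ n then reesFam R n else ⊥

lemma posFam_stable {x : Fin d → R} (hx : ∀ l, x l ∈ IsLocalRing.maximalIdeal R ^ D) :
    FamStable D (mulFam x) (posFam R) := by
  intro l n v hv
  by_cases hn : 0 ≤ n
  · rw [posFam, if_pos hn] at hv
    rw [posFam, if_pos (by omega)]
    exact reesFam_stable hx l n v hv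
  · rw [posFam, if_neg hn, Submodule.mem_bot] at hv
    rw [hv, map_zero]; exact zero_mem _

lemma verFam_stable {x : Fin d → R} (hx : ∀ l, x l ∈ IsLocalRing.maximalIdeal R ^ D) :
    FamStable D (mulFam x) (verFam R D) := by
  intro l n v hv
  by_cases hn : (D : ℤ) ∣ n ∧ 0 ≤ n
  · rw [verFam, if_pos hn] at hv
    rw [verFam, if_pos ⟨dvd_add hn.1 dvd_rfl, by omega⟩]
    exact reesFam_stable hx l n v hv
  · rw [verFam, if_neg hn, Submodule.mem_bot] at hv
    rw [hv, map_zero]; exact zero_mem _

/-- The negative part of the Rees family is acyclic. -/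
lemma rees_pos_acyclic (hd : 0 < d) (hD : 0 < D) {x : Fin d → R}
    (hx : ∀ l, x l ∈ IsLocalRing.maximalIdeal R ^ D) (a : Fin (d - 1) → ℤ) (c r : ℤ) :
    Subsingleton (HMod (phiD (mulFam x)) (phiC D a (reesFam R) c) (phiC D a (posFam R) c) r) := by
  let Wk : ℕ → ℤ → Submodule R R := fun k n => if -(k : ℤ) ≤ n then reesFam R n else ⊥
  have hle : ∀ k n, posFam R n ≤ Wk k n := by
    intro k n
    by_cases hn : 0 ≤ n
    · simp only [posFam, hn, if_true, Wk, show -(k : ℤ) ≤ n by omega]; exact le_rfl
    · simp only [posFam, hn, if_false]; exact bot_le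
  refine hmod_subsingleton_of_union Wk (fun k n => ?_) a c r (fun f hf => ?_) fun k => ?_
  · simp only [Wk]; split
    · exact le_rfl
    · exact bot_le
  · refine ⟨f.support.sup fun i => (c + D * i.2.1).natAbs, fun i => ⟨?_, (hf.1 i).2⟩, hf.2⟩
    by_cases hi : i ∈ f.support
    · have := Finset.le_sup (f := fun i : PIdx d => (c + D * i.2.1).natAbs) hi
      simp only [Wk]
      rw [if_pos (by omega)]
      exact (hf.1 i).1
    · rw [Finsupp.notMem_support_iff.1 hi]; exact zero_mem _
  have hst : FamStable D (mulFam x) (Wk k) := by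
    intro l n v hv
    by_cases hn : -(k : ℤ) ≤ n
    · simp only [Wk, hn, if_true] at hv
      simp only [Wk, show -(k : ℤ) ≤ n + D by omega, if_true]
      exact reesFam_stable hx l n v hv
    · simp only [Wk, hn, if_false, Submodule.mem_bot] at hv
      rw [hv, map_zero]; exact zero_mem _
  refine hmod_subsingleton_of_pow hd (mulFam_comm x) hst (posFam_stable hx) (hle k) k
    (fun l n v hv => ?_) a c r
  by_cases hn : -(k : ℤ) ≤ n
  · simp only [Wk, hn, if_true] at hv
    rw [posFam, if_pos (by
      have : (k : ℤ) * 1 ≤ k * D := by gcongr; omega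
      omega)]
    exact pow_mem_fam R (reesFam_stable hx) l k n v hv
  · simp only [Wk, hn, if_false, Submodule.mem_bot] at hv
    rw [hv, map_zero]; exact zero_mem _

lemma phiC_pos_eq_ver (a : Fin (d - 1) → ℤ) :
    phiC D a (posFam R) 0 = phiC D a (verFam R D) 0 := by
  have e : ∀ σ : ℤ, posFam R (0 + D * σ) = verFam R D (0 + D * σ) := by
    intro σ
    simp [posFam, verFam]
  funext r
  exact le_antisymm (inf_le_inf_right _ (phiSub_mono fun σ => (e σ).le))
    (inf_le_inf_right _ (phiSub_mono fun σ => (e σ).ge))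

/-- Evaluation at `x`. -/
noncomputable def evalAt (x : Fin d → R) : MvPolynomial (Fin d) R →ₗ[R] R :=
  (MvPolynomial.aeval x).toLinearMap

lemma evalAt_polX (x : Fin d → R) (l : Fin d) (v : MvPolynomial (Fin d) R) :
    evalAt x (polX R l v) = mulFam x l (evalAt x v) := by
  simp [evalAt, polX_apply, mulFam]

lemma evalAt_mem_verFam (hD : 0 < D) {x : Fin d → R}
    (hx : ∀ l, x l ∈ IsLocalRing.maximalIdeal R ^ D) (n : ℤ) :
    ∀ v ∈ pFam R d D n, evalAt x v ∈ verFam R D n := by
  refine pFam_map_le (evalAt x) fun β hβ => ?_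
  subst hβ
  refine xPow_induction (P := fun β : Fin d →₀ ℕ =>
    evalAt x (MvPolynomial.monomial β 1) ∈ verFam R D (D * bdeg β)) ?_ ?_ β
  · simp [verFam, bdeg, reesFam]
  · intro β l ih
    rw [monomial_add_single', ← polX_apply, evalAt_polX,
      show (D : ℤ) * bdeg (β + Finsupp.single l 1) = D * bdeg β + D by
        rw [bdeg_add_single]; push_cast; ring]
    exact verFam_stable hx l _ _ ih

lemma verFam_fg [IsNoetherianRing R] (hD : 0 < D) {x : Fin d → R}
    (hx : ∀ l, x l ∈ IsLocalRing.maximalIdeal R ^ D)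
    (hred : ∃ n₀ : ℕ, ∀ n, n₀ ≤ n → IsLocalRing.maximalIdeal R ^ (n + D) ≤
      Ideal.span (Set.range x) * IsLocalRing.maximalIdeal R ^ n) :
    FGPair D (mulFam_comm x) (verFam R D) (fun _ => ⊥) := by
  classical
  obtain ⟨n₀, hn₀⟩ := hred
  choose T hT using fun s : ℕ => (IsNoetherian.noetherian (verFam R D (D * s)) :
    (verFam R D (D * s)).FG)
  let G : Finset (ℤ × R) := (Finset.range (n₀ + 1)).biUnion fun s =>
    (T s).image fun w => (((D * s : ℕ) : ℤ), w)
  have hG : ∀ j : Fin G.card, (G.equivFin.symm j).1.2 ∈ verFam R D (G.equivFin.symm j).1.1 := by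
    intro j
    obtain ⟨s, -, hs⟩ := Finset.mem_biUnion.1 (G.equivFin.symm j).2
    obtain ⟨w, hw, he⟩ := Finset.mem_image.1 hs
    rw [← he]
    dsimp only
    rw [Nat.cast_mul, ← hT s]
    exact Submodule.subset_span hw
  let g : Fin G.card → ℤ := fun j => (G.equivFin.symm j).1.1
  let gen : Fin G.card → R := fun j => (G.equivFin.symm j).1.2
  refine ⟨verFam_stable hx, bot_stable _, fun n => bot_le, G.card, g, gen, hG, fun n => ?_⟩
  refine le_trans ?_ le_sup_left
  by_cases hn : (D : ℤ) ∣ n ∧ 0 ≤ n
  swap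
  · rw [verFam, if_neg hn]; exact bot_le
  obtain ⟨⟨k, rfl⟩, hpos⟩ := hn
  obtain ⟨s, rfl⟩ : ∃ s : ℕ, k = s := ⟨k.toNat, by
    have : 0 ≤ k := nonneg_of_mul_nonneg_right hpos (by omega)
    omega⟩
  clear hpos
  induction s using Nat.strong_induction_on with
  | _ s ih =>
  have hv : verFam R D ((D : ℤ) * s) = IsLocalRing.maximalIdeal R ^ (D * s) := by
    rw [verFam, if_pos ⟨dvd_mul_right _ _, by positivity⟩, reesFam, ← Nat.cast_mul, Int.toNat_natCast]
  by_cases hs : s ≤ n₀
  · rw [← hT s, Submodule.span_le]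
    intro w hw
    have hmem : (((D * s : ℕ) : ℤ), w) ∈ G :=
      Finset.mem_biUnion.2 ⟨s, Finset.mem_range.2 (by omega), Finset.mem_image.2 ⟨w, hw, rfl⟩⟩
    refine ⟨Finsupp.single (G.equivFin ⟨_, hmem⟩, (0 : Fin d →₀ ℕ)) 1, mem_freeFam.2 fun p hp => ?_,
      ?_⟩
    · rw [Finsupp.single_apply] at hp
      split at hp
      · rename_i e; subst e; simp [g, bdeg]
      · exact absurd rfl hp
    · rw [evFree_single, one_smul, xPow_zero]
      simp [gen]
  · obtain ⟨s', rfl⟩ : ∃ s', s = s' + 1 := ⟨s - 1, by omega⟩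
    have hv' : verFam R D ((D : ℤ) * s') = IsLocalRing.maximalIdeal R ^ (D * s') := by
      rw [verFam, if_pos ⟨dvd_mul_right _ _, by positivity⟩, reesFam, ← Nat.cast_mul,
        Int.toNat_natCast]
    have ih' := ih s' (by omega)
    rw [hv'] at ih'
    rw [hv]
    have hle : IsLocalRing.maximalIdeal R ^ (D * (s' + 1)) ≤
        Ideal.span (Set.range x) * IsLocalRing.maximalIdeal R ^ (D * s') := by
      rw [mul_add, mul_one]
      exact hn₀ _ (le_trans (by omega) (Nat.le_mul_of_pos_left s' hD))
    intro v hv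
    refine Submodule.mul_induction_on (hle hv) (fun r hr w hw => ?_) fun _ _ h h' =>
      Submodule.add_mem _ h h'
    obtain ⟨f, hf, rfl⟩ := ih' hw
    change r • evFree (mulFam_comm x) gen f ∈ _
    induction hr using Submodule.span_induction with
    | mem y hy =>
      obtain ⟨l, rfl⟩ := hy
      refine ⟨xFree R l f, ?_, ?_⟩
      · change xFree R l f ∈ freeFam R D g _
        have := freeFam_stable g l _ f hf
        convert this using 2
        push_cast; ring
      · rw [evFree_xFree]; rfl
    | zero => rw [zero_smul]; exact zero_mem _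
    | add y y' _ _ hy hy' => rw [add_smul]; exact Submodule.add_mem _ hy hy'
    | smul b y _ hy => rw [smul_assoc]; exact Submodule.smul_mem _ _ hy

end rees

theorem goalPhiClass : GoalPhiClass.{u} := by
  intro R _ _ _ d D x hR q hq a
  have hd := hR.dpos
  have hD := hR.Dpos
  have hxm := hR.mem
  have hX := mulFam_comm x
  have hlevel : phiGr R D q a 0 = phiC D a (reesFam R) 0 := by
    funext r
    simp [phiGr, phiG]
  have hbot : (fun _ => (⊥ : Submodule R (PIdx d →₀ R))) =
      phiC D a (fun _ => (⊥ : Submodule R R)) 0 := funext fun r => (phiC_bot a 0 r).symm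
  have hPO : ∀ r, phiC D a (posFam R) 0 r ≤ phiC D a (reesFam R) 0 r :=
    fun r => inf_le_inf_right _ (phiSub_mono fun σ => by
      unfold posFam
      split
      · exact le_rfl
      · exact bot_le)
  have e : ∀ r, HPair D a (mulFam x) (verFam R D) (fun _ => ⊥) 0 r ≃ₗ[R]
      HMod (phiD (mulFam x)) (phiGr R D q a 0) (fun _ => ⊥) r := fun r =>
    ((hmodCast (phiC_pos_eq_ver a).symm hbot.symm r).trans
      (LinearEquiv.ofBijective _ (hinc_bijective (δ := phiD (mulFam x))
        (O := phiC D a (reesFam R) 0) (Q := fun _ => ⊥) (phiD_phiD hX)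
        (phiC_stable (posFam_stable hxm) a 0) (fun r => bot_le) hPO
        (rees_pos_acyclic hd hD hxm a 0) r))).trans (hmodCast hlevel.symm rfl r)
  have hfg := verFam_fg hD hxm hR.red
  have fV : ∀ r, Module.Finite R (HPair D a (mulFam x) (verFam R D) (fun _ => ⊥) 0 r) :=
    hfg.finite hd hD a 0
  refine ⟨fun r => ?_, fun η hη => ?_⟩
  · have := fV r
    exact Module.Finite.equiv (e r)
  have hη' : IsAddKilling R (x (lastIdx hd)) η := hη
  set ν := AddInv.ofKilling (x (lastIdx hd)) η hη' with hν
  have hgoal : euPair ν D a (mulFam x) (verFam R D) (fun _ => ⊥) 0 =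
      ((d - 1).factorial : ℤ) * η R := by
    set X : Fin d → MvPolynomial (Fin d) R →ₗ[R] MvPolynomial (Fin d) R := fun l => polX R l
    set L := lastIdx hd with hL
    -- image and kernel of evaluation
    let T : ℤ → Submodule R R := fun n => (pFam R d D n).map (evalAt x)
    let Kv : ℤ → Submodule R (MvPolynomial (Fin d) R) :=
      fun n => pFam R d D n ⊓ LinearMap.ker (evalAt x)
    have hT : FamStable D (mulFam x) T := by
      rintro l n _ ⟨v, hv, rfl⟩
      exact ⟨polX R l v, pFam_stable l n v hv, evalAt_polX x l v⟩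
    have hTle : ∀ n, T n ≤ verFam R D n := by
      rintro n _ ⟨v, hv, rfl⟩
      exact evalAt_mem_verFam hD hxm n v hv
    have hKv : FamStable D X Kv := fun l n v hv => ⟨pFam_stable l n v hv.1, by
      change evalAt x (polX R l v) = 0
      rw [evalAt_polX, show evalAt x v = 0 from hv.2, map_zero]⟩
    have hrel0 : ∀ i n, ∀ v ∈ relFam hd x D i n, evalAt x v = 0 := by
      intro i
      induction i with
      | zero => intro n v hv; rw [(Submodule.mem_bot R).1 hv, map_zero]
      | succ i ih =>
        intro n v hv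
        obtain ⟨b, hb, _, ⟨w, -, rfl⟩, rfl⟩ := Submodule.mem_sup.1 hv
        rw [map_add, ih n b hb, zero_add]
        have : MvPolynomial.aeval x (relPoly hd x i) = (0 : R) := by
          unfold relPoly
          split
          · simp only [map_sub, map_mul, MvPolynomial.aeval_C, MvPolynomial.aeval_X,
              Algebra.algebraMap_self, RingHom.id_apply]
            ring
          · exact map_zero _
        simp only [evalAt, AlgHom.toLinearMap_apply, LinearMap.mulLeft_apply, map_mul, this, zero_mul]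
    have hrelKv : ∀ n, relFam hd x D (d - 1) n ≤ Kv n :=
      fun n v hv => ⟨relFam_le hd x D _ n hv, hrel0 _ n v hv⟩
    -- torsion of the kernel
    have hKtor : ∀ n, ∀ v ∈ Kv n, ∃ k : ℕ, x L ^ k • v ∈ relFam hd x D (d - 1) n := by
      intro n v hv
      refine ⟨(n / D).toNat, ?_⟩
      have hth : thetaHom hd x (d - 1) v = 0 := by
        have hco : ∀ l : Fin d, (if (l : ℕ) < d - 1 then x l else x L) = x l ∧
            (if (l : ℕ) < d - 1 then L else l) = L := by
          intro l
          by_cases hl : (l : ℕ) < d - 1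
          · simp [hl]
          · have : l = L := Fin.ext (by simp [hL, lastIdx]; omega)
            subst this
            simp
        have h1 : thetaHom hd x (d - 1) v =
            MvPolynomial.C (evalAt x v) * MvPolynomial.X L ^ (n / D).toNat := by
          have := pFam_map_le ((thetaHom hd x (d - 1)).toLinearMap -
            (LinearMap.mulRight R (MvPolynomial.X L ^ (n / D).toNat)).comp
              ((Algebra.linearMap R (MvPolynomial (Fin d) R)).comp (evalAt x)))
            (Q := ⊥) (n := n) (fun β hβ => by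
            rw [Submodule.mem_bot, LinearMap.sub_apply, sub_eq_zero]
            have hs : (n / D).toNat = bdeg β := by
              rw [← hβ, Int.mul_ediv_cancel_left _ (by omega), Int.toNat_natCast]
            rw [hs]
            change thetaHom hd x (d - 1) (MvPolynomial.monomial β 1) =
              MvPolynomial.C (evalAt x (MvPolynomial.monomial β 1)) * MvPolynomial.X L ^ bdeg β
            refine xPow_induction (P := fun β => thetaHom hd x (d - 1) (MvPolynomial.monomial β 1) =
              MvPolynomial.C (evalAt x (MvPolynomial.monomial β 1)) * MvPolynomial.X L ^ bdeg β)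
              ?_ ?_ β
            · simp [evalAt, bdeg]
            · intro β l ih
              rw [monomial_add_single', map_mul, ih, thetaHom_X, (hco l).1, (hco l).2,
                bdeg_add_single]
              simp only [evalAt, AlgHom.toLinearMap_apply, map_mul, MvPolynomial.aeval_X]
              ring) v hv.1
          rw [Submodule.mem_bot, LinearMap.sub_apply, sub_eq_zero] at this
          exact this
        rw [h1, show evalAt x v = 0 from hv.2, map_zero, zero_mul]
      have := (theta_key hd x le_rfl hD hv.1).1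
      rwa [hth, sub_zero] at this
    -- torsion of the cokernel
    have hTtor : ∀ n, ∀ w ∈ verFam R D n, ∃ k : ℕ, x L ^ k • w ∈ T n := by
      intro n w hw
      by_cases hn : (D : ℤ) ∣ n ∧ 0 ≤ n
      · refine ⟨(n / D).toNat, w • MvPolynomial.monomial (Finsupp.single L (n / D).toNat) 1,
          Submodule.smul_mem _ _ ?_, ?_⟩
        · have hmem := monomial_mem_pFam (R := R) (D := D)
            (Finsupp.single L (n / D).toNat : Fin d →₀ ℕ)
          have hb : bdeg (Finsupp.single L (n / D).toNat) = (n / D).toNat := by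
            simp [bdeg, Finsupp.single_apply]
          rw [hb, Int.toNat_of_nonneg (Int.ediv_nonneg hn.2 (by positivity)),
            Int.mul_ediv_cancel' hn.1] at hmem
          exact hmem
        · simp [evalAt, MvPolynomial.aeval_monomial, mul_comm]
      · rw [verFam, if_neg hn, Submodule.mem_bot] at hw
        exact ⟨0, by rw [hw, smul_zero]; exact zero_mem _⟩
    -- the comparison
    have fP : ∀ r, Module.Finite R (HPair D a X (pFam R d D) (relFam hd x D (d - 1)) 0 r) :=
      finite_pFam_rel hd hD x a (d - 1) 0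
    have fPK : ∀ r, Module.Finite R (HPair D a X (pFam R d D) Kv 0 r) :=
      (pFam_fg hKv fun n => inf_le_left).finite hd hD a 0
    have fK := finite_hPair_sub polX_comm a 0 hKv hrelKv (fun n => inf_le_left) fP fPK
    have h1 := euPair_add ν hd polX_comm a 0 hKv hrelKv (fun n => inf_le_left) fK fP fPK
    rw [euPair_eq_zero_of_torsion _ hη' a 0 hKtor fK, zero_add] at h1
    let eT : ∀ r, HPair D a X (pFam R d D) Kv 0 r ≃ₗ[R] HPair D a (mulFam x) T (fun _ => ⊥) 0 r :=
      fun r => pairEquiv a (W := pFam R d D) (W' := Kv) (W₂ := T) (W₂' := fun _ => ⊥) (evalAt x)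
        (evalAt_polX x) pFam_stable (bot_stable _) (fun n => bot_le)
        (fun n v hv => ⟨v, hv, rfl⟩) (fun n v hv => (Submodule.mem_bot R).2 hv.2) 0
        (fun σ => le_sup_left) (fun σ v hv hv' => ⟨hv, (Submodule.mem_bot R).1 hv'⟩) r
    have h2 := euPair_congr ν (fun r => ⟨eT r⟩) fPK
    have fT : ∀ r, Module.Finite R (HPair D a (mulFam x) T (fun _ => ⊥) 0 r) := fun r =>
      have := fPK r
      Module.Finite.equiv (eT r)
    have fVT : ∀ r, Module.Finite R (HPair D a (mulFam x) (verFam R D) T 0 r) :=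
      (hfg.mono hT (fun n => bot_le) hTle).finite hd hD a 0
    have h3 := euPair_add ν hd hX a 0 hT (fun n => bot_le) hTle fT fV fVT
    rw [euPair_eq_zero_of_torsion _ hη' a 0 hTtor fVT, add_zero] at h3
    rw [h3, ← h2, ← h1]
    exact chainEu_last hd hD x hη' a
  rw [← hgoal]
  exact Finset.sum_congr rfl fun r _ => by
    change _ * ν.val _ = _ * ν.val _
    rw [ν.val_congr (e r) (fV r)]

end Vale.Agent.P202
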