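import Vale.Agent.P202.InterfacesM0
import Vale.Agent.P202.GPrimesTop
import Vale.Agent.P202.GReduce
import Vale.Agent.P202.EqualChar
import Vale.Agent.P202.G4FrobLift
import Vale.Agent.P202.PhiClass
import Vale.Agent.P202.PhiWindow
import Vale.Agent.P202.EApprox
import Vale.Agent.P202.E2Model
import Vale.Agent.P202.E3Specialise
import Vale.Agent.P202.E4Realise

/-!
Reduction of Lech's conjecture to complete domains of mixed characteristic with infinite residue
field (the section 0 of `BLUEPRINT_M.md`).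
-/

universe u

namespace Vale.Agent.P202

open IsLocalRing TensorProduct Filter

attribute [local instance] Polynomial.algebra

/-- The inequality for rings containing a field, with all the modules filled in. -/
theorem mult_le_of_field' (K A B : Type u) [Field K] [CommRing A] [IsLocalRing A]
    [IsNoetherianRing A] [Algebra K A] [CommRing B] [IsLocalRing B] [IsNoetherianRing B]
    [Algebra A B] [IsLocalHom (algebraMap A B)] [Module.Flat A B] {eA eB : ℝ}
    (hA : HasMult A eA) (hB : HasMult B eB) : eA ≤ eB :=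
  mult_le_of_field goalPhiClass goalPhiWindow goalPhiClass goalPhiWindow goalFrobLift
    goalReduceGen goalModel (goalSpecialise goalApprox) goalRealise K A B hA hB

/-- A quotient of a complete Noetherian local ring is complete. -/
theorem isAdicComplete_quotient (R : Type u) [CommRing R] [IsLocalRing R] [IsNoetherianRing R]
    [IsAdicComplete (maximalIdeal R) R] (P : Ideal R) [IsLocalRing (R ⧸ P)] :
    IsAdicComplete (maximalIdeal (R ⧸ P)) (R ⧸ P) := by
  have hmap : (maximalIdeal R).map (algebraMap R (R ⧸ P)) = maximalIdeal (R ⧸ P) :=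
    IsLocalRing.map_maximalIdeal_of_surjective _ Ideal.Quotient.mk_surjective
  rw [← hmap, IsAdicComplete.map_algebraMap_iff, ← AdicCompletion.of_bijective_iff]
  refine ⟨AdicCompletion.of_injective _ _, fun y => ?_⟩
  let f : R →ₗ[R] R ⧸ P := Submodule.mkQ P
  obtain ⟨z, hz⟩ := AdicCompletion.map_surjective (maximalIdeal R)
    (f := f) (Submodule.mkQ_surjective P) y
  obtain ⟨w, rfl⟩ := AdicCompletion.of_surjective (maximalIdeal R) R z
  exact ⟨f w, by rw [← hz, AdicCompletion.map_of]⟩

instance gonf_isNoetherianRing (A : Type u) [CommRing A] [IsLocalRing A] [IsNoetherianRing A] :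
    IsNoetherianRing (Gonf A) := gonf_noetherian A

section primes

variable {R S : Type u} [CommRing R] [IsLocalRing R] [IsNoetherianRing R] [CommRing S]
  [IsLocalRing S] [IsNoetherianRing S] [Algebra R S] [IsLocalHom (algebraMap R S)]
  [Module.Flat R S]

/-- It is enough to compare the two functionals on the prime quotients of maximal dimension. -/
theorem psi_le_of_primes (G : KoszulGoals.{u}) {d : ℕ} (hd : ndim R = d) (hS : ndim R = ndim S)
    {x : Fin d → R} (hx : Par x) {y : Fin d → S} (hy : Par y)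
    (hprime : ∀ (P : Ideal R) [P.IsPrime], ndim (R ⧸ P) = d →
      psi R x (R ⧸ P) ≤ psi R y (R ⧸ P))
    (M : Type u) [AddCommGroup M] [Module R M] [Module.Finite R M] :
    psi R x M ≤ psi R y M := by
  haveI : IsLocalHom (algebraMap R R) := ⟨fun _ h => h⟩
  refine IsNoetherianRing.induction_on_isQuotientEquivQuotientPrime R (M := M) ‹_›
    (motive := fun N _ _ _ => psi R x N ≤ psi R y N) ?_ ?_ ?_
  · intro N _ _ _ hN
    rw [psi_subsingleton G hx, psi_subsingleton G hy]
  · intro N _ _ _ P e
    rw [psi_congr (y := x) e, psi_congr (y := y) e]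
    haveI : P.asIdeal.IsPrime := P.isPrime
    have hkill : KilledBy P.asIdeal (R ⧸ P.asIdeal) := by
      intro a ha v
      obtain ⟨v, rfl⟩ := Submodule.Quotient.mk_surjective _ v
      rw [← Submodule.Quotient.mk_smul, Submodule.Quotient.mk_eq_zero]
      exact P.asIdeal.mul_mem_right v ha
    have hle : ndim (R ⧸ P.asIdeal) ≤ d :=
      hd ▸ ndim_quotient_le P.asIdeal (Ideal.IsPrime.ne_top ‹_›)
    rcases hle.lt_or_eq with h | h
    · rw [psi_eq_zero G hx rfl P.asIdeal h _ hkill, psi_eq_zero G hy hS P.asIdeal h _ hkill]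
    · exact hprime P.asIdeal h
  · intro N₁ _ _ _ N₂ _ _ _ N₃ _ _ _ f g hf hg he h₁ h₃
    rw [psi_add G hx f g hf he hg, psi_add G hy f g hf he hg]
    exact add_le_add h₁ h₃

/-- The inequality for one prime quotient of a complete ring with infinite residue field. -/
theorem psi_prime_le_of_core (hC : GoalMixedCore.{u}) [IsAdicComplete (maximalIdeal R) R]
    [Infinite (ResidueField R)] {d : ℕ} (hd0 : 0 < d) {x : Fin d → R}
    (hx : ∀ l, x l ∈ maximalIdeal R) {n₀ : ℕ}
    (hxred : ∀ n, n₀ ≤ n → maximalIdeal R ^ (n + 1) ≤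
      Ideal.span (Set.range x) * maximalIdeal R ^ n)
    {y : Fin d → S} (hy : Par y) (P : Ideal R) [P.IsPrime] (hP : ndim (R ⧸ P) = d) :
    psi R x (R ⧸ P) ≤ psi R y (R ⧸ P) := by
  classical
  have G := koszulGoals.{u}
  haveI : IsLocalRing (R ⧸ P) := .of_surjective' _ Ideal.Quotient.mk_surjective
  haveI : IsLocalHom (Ideal.Quotient.mk P) :=
    IsLocalHom.of_surjective _ Ideal.Quotient.mk_surjective
  set J := P.map (algebraMap R S) with hJdef
  have hJ : J ≠ ⊤ := ne_top_of_le_ne_top (map_maximalIdeal_lt_top (algebraMap R S)).ne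
    (Ideal.map_mono (le_maximalIdeal (Ideal.IsPrime.ne_top ‹_›)))
  haveI : Nontrivial (S ⧸ J) := Ideal.Quotient.nontrivial_iff.2 hJ
  haveI : IsLocalRing (S ⧸ J) := .of_surjective' _ Ideal.Quotient.mk_surjective
  haveI : IsLocalHom (algebraMap (R ⧸ P) (S ⧸ J)) := by
    refine ⟨fun a ha => ?_⟩
    obtain ⟨a, rfl⟩ := Ideal.Quotient.mk_surjective a
    haveI : IsLocalHom (Ideal.Quotient.mk J) :=
      IsLocalHom.of_surjective _ Ideal.Quotient.mk_surjective
    exact ((isUnit_map_iff (algebraMap R S) a).1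
      ((isUnit_map_iff (Ideal.Quotient.mk J) _).1 ha)).map _
  haveI : Module.Flat (R ⧸ P) (S ⧸ J) := by
    haveI : Module.Flat (R ⧸ P) ((R ⧸ P) ⊗[R] S) := inferInstance
    let e' : ((R ⧸ P) ⊗[R] S) ≃ₗ[R] S ⧸ J :=
      (TensorProduct.comm R (R ⧸ P) S).trans
        ((Algebra.TensorProduct.quotIdealMapEquivTensorQuot S P).toLinearEquiv.symm.restrictScalars
          R)
    let e'' : ((R ⧸ P) ⊗[R] S) ≃ₗ[R ⧸ P] S ⧸ J :=
      { e' with
        map_smul' := fun a v => by
          obtain ⟨a, rfl⟩ := Ideal.Quotient.mk_surjective a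
          show e' (Ideal.Quotient.mk P a • v) = Ideal.Quotient.mk P a • e' v
          rw [← Ideal.Quotient.algebraMap_eq, algebraMap_smul, algebraMap_smul, map_smul] }
    exact Module.Flat.of_linearEquiv e''.symm
  have hdS : ndim (S ⧸ J) = d := ndim_eq_of_flat_par hP (par_quot J hy)
  obtain ⟨eA, -, heA⟩ := G.mult (R ⧸ P)
  have hmap : (maximalIdeal R).map (Ideal.Quotient.mk P) = maximalIdeal (R ⧸ P) :=
    IsLocalRing.map_maximalIdeal_of_surjective _ Ideal.Quotient.mk_surjective
  have hA : eA = (kchi (fun l => Ideal.Quotient.mk P (x l)) (R ⧸ P) : ℝ) := by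
    refine hasMult_eq_kchi G hP (fun l => hmap.le (Ideal.mem_map_of_mem _ (hx l)))
      (n₀ := n₀) (fun n hn => ?_) heA
    rw [← hmap, ← Ideal.map_pow, ← Ideal.map_pow]
    refine (Ideal.map_mono (hxred n hn)).trans ?_
    rw [Ideal.map_mul, Ideal.map_span, ← Set.range_comp]
    rfl
  have hB : eA ≤ (kchi (fun l => Ideal.Quotient.mk J (y l)) (S ⧸ J) : ℝ) := by
    have viaField : ∀ (K : Type u) [Field K], (K →+* R ⧸ P) →
        eA ≤ (kchi (fun l => Ideal.Quotient.mk J (y l)) (S ⧸ J) : ℝ) := by
      intro K _ g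
      letI : Algebra K (R ⧸ P) := g.toAlgebra
      obtain ⟨eB, -, heB⟩ := G.mult (S ⧸ J)
      exact (mult_le_of_field' K (R ⧸ P) (S ⧸ J) heA heB).trans
        (mult_le_kchi G hdS (par_quot J hy) heB)
    obtain ⟨l, hl⟩ := CharP.exists (R ⧸ P)
    rcases CharP.char_is_prime_or_zero (R ⧸ P) l with hlp | rfl
    · haveI : Fact l.Prime := ⟨hlp⟩
      exact viaField (ULift.{u} (ZMod l))
        ((ZMod.castHom dvd_rfl (R ⧸ P)).comp ULift.ringEquiv.toRingHom)
    haveI : CharZero (R ⧸ P) := CharP.charP_to_charZero _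
    obtain ⟨p, hp⟩ := CharP.exists (ResidueField (R ⧸ P))
    rcases CharP.char_is_prime_or_zero (ResidueField (R ⧸ P)) p with hpp | rfl
    · haveI : Fact p.Prime := ⟨hpp⟩
      haveI := isAdicComplete_quotient R P
      haveI : Infinite (ResidueField (R ⧸ P)) :=
        Infinite.of_injective (ResidueField.map (Ideal.Quotient.mk P)) (RingHom.injective _)
      exact hC p (R ⧸ P) (S ⧸ J) d hd0 hP hdS _ (par_quot J hy) eA heA
    · haveI : CharZero (ResidueField (R ⧸ P)) := CharP.charP_to_charZero _
      have hu : ∀ n : nonZeroDivisors ℤ, IsUnit (Int.castRingHom (R ⧸ P) (n : ℤ)) := by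
        intro n
        rw [← IsLocalRing.notMem_maximalIdeal, ← residue_eq_zero_iff]
        simp
      exact viaField (ULift.{u} ℚ)
        ((IsLocalization.lift (M := nonZeroDivisors ℤ) (S := ℚ) hu).comp ULift.ringEquiv.toRingHom)
  rw [kchi_quot_eq] at hA hB
  have h1 : psi R x (R ⧸ P) = kchi x (R ⧸ P) := kchi_congr x (TensorProduct.lid R (R ⧸ P))
  have h2 : psi R y (R ⧸ P) = kchi y (S ⧸ J) :=
    kchi_congr y (Algebra.TensorProduct.quotIdealMapEquivTensorQuot S P).toLinearEquiv.symm
  rw [h1, h2]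
  exact_mod_cast hA ▸ hB

/-- Complete rings with infinite residue fields and equal positive dimensions. -/
theorem mult_le_complete_of_core (hC : GoalMixedCore.{u}) [IsAdicComplete (maximalIdeal R) R]
    [Infinite (ResidueField R)] [Infinite (ResidueField S)] (h0 : 0 < ndim R)
    (hS : ndim R = ndim S) {eR eS : ℝ} (heR : HasMult R eR) (heS : HasMult S eS) : eR ≤ eS := by
  have G := koszulGoals.{u}
  obtain ⟨D, -, hD, x, hx, n₀, hxred⟩ := goalReduction R
  obtain rfl := hD ‹_›
  obtain ⟨D, -, hD, y, hy, n₁, hyred⟩ := goalReduction S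
  obtain rfl := hD ‹_›
  simp only [pow_one] at hx hy
  obtain ⟨y', hy', hy'red⟩ : ∃ y' : Fin (ndim R) → S, (∀ l, y' l ∈ maximalIdeal S) ∧
      ∀ n, n₁ ≤ n → maximalIdeal S ^ (n + 1) ≤
        Ideal.span (Set.range y') * maximalIdeal S ^ n := by
    rw [hS]
    exact ⟨y, hy, hyred⟩
  obtain ⟨c, -, hc⟩ := exists_pow_le_of_reduction (hy'red n₁ le_rfl)
  obtain ⟨c', -, hc'⟩ := exists_pow_le_of_reduction (hxred n₀ le_rfl)
  have hypar := par_of_pow_le hy' hc
  have h := psi_le_of_primes G rfl hS (par_of_pow_le hx hc') hypar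
    (fun P _ hP => psi_prime_le_of_core hC h0 hx hxred hypar P hP) R
  rw [hasMult_eq_kchi G rfl hx hxred heR, hasMult_eq_kchi G hS.symm hy' hy'red heS,
    ← psi_self (R := R) (S := R), ← psi_self (R := R) (S := S)]
  exact_mod_cast h

/-- Infinite residue fields and equal positive dimensions, by completion. -/
theorem mult_le_infinite_of_core (hC : GoalMixedCore.{u}) [Infinite (ResidueField R)]
    [Infinite (ResidueField S)] (h0 : 0 < ndim R) (hS : ndim R = ndim S) {eR eS : ℝ}
    (heR : HasMult R eR) (heS : HasMult S eS) : eR ≤ eS := by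
  classical
  let R' := AdicCompletion (maximalIdeal R) R
  let S' := AdicCompletion (maximalIdeal S) S
  have hg : (maximalIdeal R).map (algebraMap R S) ≤ maximalIdeal S := map_maximalIdeal_le _
  let ψ : R' →+* S' := completionMap (maximalIdeal R) (maximalIdeal S) (algebraMap R S) hg
  letI algHat : Algebra R' S' := ψ.toAlgebra
  have hψ : ψ.comp (algebraMap R R') = (algebraMap S S').comp (algebraMap R S) :=
    completionMap_comp_algebraMap _ _ _ hg
  have hloc : IsLocalHom ψ := by
    refine ((local_hom_TFAE ψ).out 0 2).mpr ?_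
    rw [AdicCompletion.maximalIdeal_eq_map, AdicCompletion.maximalIdeal_eq_map, Ideal.map_map,
      hψ, ← Ideal.map_map]
    exact Ideal.map_mono hg
  haveI : IsLocalHom (algebraMap R' S') := hloc
  haveI : Module.Flat R S' := Module.Flat.trans R S S'
  haveI : IsScalarTower R R' S' := IsScalarTower.of_algebraMap_eq' (by
    rw [RingHom.algebraMap_toAlgebra, hψ, IsScalarTower.algebraMap_eq R S S'])
  have hdense : ∀ (N : ℕ) (t : R'), ∃ a : R, t - algebraMap R R' a ∈ maximalIdeal R' ^ N := by
    intro N t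
    obtain ⟨a, ha⟩ := Submodule.Quotient.mk_surjective _ (AdicCompletion.eval _ R N t)
    refine ⟨a, ?_⟩
    rw [AdicCompletion.maximalIdeal_eq_map, ← Ideal.map_pow, ← Submodule.restrictScalars_mem R,
      ← Ideal.smul_top_eq_map, AdicCompletion.pow_smul_top_eq_ker_eval
        (maximalIdeal R).fg_of_isNoetherianRing, LinearMap.mem_ker, map_sub, ← ha, sub_eq_zero]
    rfl
  haveI : Module.Flat R' S' :=
    flat_of_flat_of_dense (maximalIdeal R) AdicCompletion.maximalIdeal_eq_map.symm hdense
  haveI : Infinite (ResidueField R') :=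
    Infinite.of_injective _ (AdicCompletion.residueField_map_bijective R).1
  haveI : Infinite (ResidueField S') :=
    Infinite.of_injective _ (AdicCompletion.residueField_map_bijective S).1
  have hR' : (maximalIdeal R).map (algebraMap R R') = maximalIdeal R' :=
    AdicCompletion.maximalIdeal_eq_map.symm
  have hS' : (maximalIdeal S).map (algebraMap S S') = maximalIdeal S' :=
    AdicCompletion.maximalIdeal_eq_map.symm
  haveI : IsAdicComplete (maximalIdeal R') R' :=
    inferInstanceAs (IsAdicComplete (maximalIdeal R') R')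
  have hdR : ndim R' = ndim R := ndim_eq_of_map_maximalIdeal hR'
  have hdS : ndim S' = ndim S := ndim_eq_of_map_maximalIdeal hS'
  exact mult_le_complete_of_core hC (hdR.symm ▸ h0) (hdR.trans (hS.trans hdS.symm))
    (hasMult_of_map_maximalIdeal hR' heR) (hasMult_of_map_maximalIdeal hS' heS)

end primes

/-- The reduction: Lech's conjecture follows from the mixed characteristic core. -/
theorem goalMixedWiring : GoalMixedWiring.{u} := by
  intro hC R S _ _ _ _ _ _ _ _ _ eR eS heR heS
  classical
  obtain ⟨S₁, _, _, _, _, _, _, hdim, hle⟩ := exists_equalDim R S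
  obtain ⟨e₁, -, he₁⟩ := (koszulGoals.{u}).mult S₁
  refine le_trans ?_ (hle eS e₁ heS he₁)
  rcases Nat.eq_zero_or_pos (ndim R) with h0 | h0
  · exact mult_le_of_dim_zero h0 (hdim ▸ h0) heR he₁
  haveI := gonf_infinite R
  haveI := gonf_infinite S₁
  haveI := gonf_local R
  haveI := gonf_local S₁
  haveI := gonf_flat R
  haveI := gonf_flat S₁
  have hq : qPoly R = (qPoly S₁).comap (Polynomial.mapRingHom (algebraMap R S₁)) := by
    ext f
    rw [Ideal.mem_comap, Ideal.mem_map_C_iff, Ideal.mem_map_C_iff]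
    refine forall_congr' fun i => ?_
    rw [Polynomial.coe_mapRingHom, Polynomial.coeff_map, mem_maximalIdeal, mem_maximalIdeal,
      mem_nonunits_iff, mem_nonunits_iff, isUnit_map_iff (algebraMap R S₁)]
  let φ : Gonf R →+* Gonf S₁ :=
    Localization.localRingHom (qPoly R) (qPoly S₁) (Polynomial.mapRingHom (algebraMap R S₁)) hq
  letI : Algebra (Gonf R) (Gonf S₁) := φ.toAlgebra
  haveI : IsLocalHom (algebraMap (Gonf R) (Gonf S₁)) :=
    Localization.isLocalHom_localRingHom _ _ _ hq
  haveI : Module.Flat (Gonf R) (Gonf S₁) := by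
    have hpoly : Module.Flat (Polynomial R) (Polynomial S₁) :=
      Module.Flat.isBaseChange R (Polynomial R) S₁ (Polynomial S₁)
        (Algebra.IsPushout.out (R := R) (S := Polynomial R) (R' := S₁) (S' := Polynomial S₁))
    have h : (Polynomial.mapRingHom (algebraMap R S₁)).Flat :=
      RingHom.flat_algebraMap_iff.2 hpoly
    exact RingHom.flat_algebraMap_iff.1 (RingHom.Flat.localRingHom h (qPoly S₁) (qPoly R) hq)
  have hdR : ndim (Gonf R) = ndim R := ndim_eq_of_map_maximalIdeal (gonf_map R)
  have hdS : ndim (Gonf S₁) = ndim S₁ := ndim_eq_of_map_maximalIdeal (gonf_map S₁)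
  exact mult_le_infinite_of_core hC (hdR.symm ▸ h0) (hdR.trans (hdim.trans hdS.symm))
    (hasMult_of_map_maximalIdeal (gonf_map R) heR) (hasMult_of_map_maximalIdeal (gonf_map S₁) he₁)

/-- Lech's conjecture in the form of the hand-in `LechFieldQuotients`, with no hypothesis on the
prime quotients, from the mixed characteristic core. -/
theorem lech_of_mixedCore (hC : GoalMixedCore.{u}) (R S : Type u) [CommRing R] [IsLocalRing R]
    [IsNoetherianRing R] [CommRing S] [IsLocalRing S] [IsNoetherianRing S] [Algebra R S]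
    [IsLocalHom (algebraMap R S)] [Module.Flat R S] (dR dS : ℕ)
    (hdR : ringKrullDim R = (dR : WithBot ℕ∞)) (hdS : ringKrullDim S = (dS : WithBot ℕ∞)) :
    ∃ eR eS : ℝ,
      Tendsto (fun n : ℕ => (dR.factorial : ℝ) *
          ((Module.length R (R ⧸ maximalIdeal R ^ n)).toNat : ℝ) / (n : ℝ) ^ dR)
        atTop (nhds eR) ∧
      Tendsto (fun n : ℕ => (dS.factorial : ℝ) *
          ((Module.length S (S ⧸ maximalIdeal S ^ n)).toNat : ℝ) / (n : ℝ) ^ dS)
        atTop (nhds eS) ∧
      0 < eR ∧ eR ≤ eS := by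
  have hR : ndim R = dR := by simp [ndim, hdR]
  have hS : ndim S = dS := by simp [ndim, hdS]
  obtain ⟨eR, hpos, heR⟩ := (koszulGoals.{u}).mult R
  obtain ⟨eS, -, heS⟩ := (koszulGoals.{u}).mult S
  refine ⟨eR, eS, ?_, ?_, hpos, goalMixedWiring hC R S eR eS heR heS⟩
  · simpa only [HasMult, hR] using heR
  · simpa only [HasMult, hS] using heS

end Vale.Agent.P202
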