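import Vale.Agent.P202.Res

/-!
The functional `psi y M = kchi y (S ⊗[R] M)` on finite `R`-modules: additivity, and vanishing on
modules of small support.
-/

universe u

namespace Vale.Agent.P202

open TensorProduct IsLocalRing Filter

/-- The facts on Koszul complexes that are used. -/
structure KoszulGoals : Prop where
  mult : GoalMultExists.{u}
  kfin : GoalKoszulFinite.{u}
  kmult : GoalKoszulMult.{u}
  kadd : GoalKoszulAdd.{u}

/-- `y` generates an ideal of finite colength. -/
structure Par {S : Type*} [CommRing S] [IsLocalRing S] {d : ℕ} (y : Fin d → S) : Prop where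
  mem : ∀ l, y l ∈ maximalIdeal S
  fin : Module.length S (S ⧸ Ideal.span (Set.range y)) ≠ ⊤

/-- The Koszul Euler characteristic of `S ⊗[R] M`. -/
noncomputable def psi (R : Type u) [CommRing R] {S : Type u} [CommRing S] [Algebra R S] {d : ℕ}
    (y : Fin d → S) (M : Type u) [AddCommGroup M] [Module R M] : ℤ :=
  kchi y (S ⊗[R] M)

variable {R S : Type u} [CommRing R] [CommRing S] [Algebra R S] {d : ℕ} {y : Fin d → S}

lemma psi_congr {M M' : Type u} [AddCommGroup M] [Module R M] [AddCommGroup M'] [Module R M']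
    (e : M ≃ₗ[R] M') : psi R y M = psi R y M' :=
  kchi_congr y (AlgebraTensorModule.congr (LinearEquiv.refl S S) e)

lemma psi_self : psi R y R = kchi y S :=
  kchi_congr y (AlgebraTensorModule.rid R S S)

variable [IsLocalRing R] [IsNoetherianRing R] [IsLocalRing S] [IsNoetherianRing S]

omit [IsLocalRing R] [IsNoetherianRing R] [IsNoetherianRing S] in
lemma Par.finiteLength (hy : Par y) (M : Type u) [AddCommGroup M] [Module R M]
    [Module.Finite R M] :
    IsFiniteLength S
      ((S ⊗[R] M) ⧸ Ideal.span (Set.range y) • (⊤ : Submodule S (S ⊗[R] M))) := by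
  obtain ⟨n, g, hg⟩ := Module.Finite.exists_fin' S (S ⊗[R] M)
  exact Module.length_ne_top_iff.1 (ne_top_of_le_ne_top
    (WithTop.mul_ne_top (ENat.coe_ne_top n) hy.fin) (length_quot_smul_le hg _))

lemma psi_add (G : KoszulGoals.{u}) (hy : Par y) [Module.Flat R S] {M₁ M₂ M₃ : Type u}
    [AddCommGroup M₁] [Module R M₁] [AddCommGroup M₂] [Module R M₂] [AddCommGroup M₃]
    [Module R M₃] [Module.Finite R M₁] [Module.Finite R M₂] [Module.Finite R M₃]
    (f : M₁ →ₗ[R] M₂) (g : M₂ →ₗ[R] M₃) (hf : Function.Injective f) (he : Function.Exact f g)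
    (hg : Function.Surjective g) : psi R y M₂ = psi R y M₁ + psi R y M₃ :=
  G.kadd S (S ⊗[R] M₁) (S ⊗[R] M₂) (S ⊗[R] M₃) (lT S S f) (lT S S g) d y (hy.finiteLength M₂)
    (lT_injective hf) (lT_exact he) (lT_surjective hg)

lemma psi_subsingleton (G : KoszulGoals.{u}) (hy : Par y) [Module.Flat R S] (M : Type u)
    [AddCommGroup M] [Module R M] [Subsingleton M] : psi R y M = 0 := by
  haveI : Module.Finite R M := Module.Finite.of_surjective (0 : R →ₗ[R] M)
    fun v => ⟨0, Subsingleton.elim _ _⟩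
  have h := psi_add G hy (0 : M →ₗ[R] M) (0 : M →ₗ[R] M)
    (fun _ _ _ => Subsingleton.elim _ _)
    (fun v => ⟨fun _ => ⟨0, Subsingleton.elim _ _⟩, fun _ => Subsingleton.elim _ _⟩)
    (fun v => ⟨0, Subsingleton.elim _ _⟩)
  omega

omit [IsLocalRing R] [IsNoetherianRing R] in
lemma length_quot_maxPow_ne_top (A : Type*) [CommRing A] [IsLocalRing A] [IsNoetherianRing A]
    (k : ℕ) : Module.length A (A ⧸ maximalIdeal A ^ k) ≠ ⊤ := by
  rcases Nat.eq_zero_or_pos k with rfl | hk
  · rw [pow_zero, Ideal.one_eq_top]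
    haveI : Subsingleton (A ⧸ (⊤ : Ideal A)) := Ideal.Quotient.subsingleton_iff.2 rfl
    simp
  have hne : maximalIdeal A ^ k ≠ ⊤ :=
    ((Ideal.pow_le_self hk.ne').trans_lt (maximalIdeal.isMaximal A).lt_top).ne
  haveI : Nontrivial (A ⧸ maximalIdeal A ^ k) := Ideal.Quotient.nontrivial_iff.2 hne
  haveI : IsLocalRing (A ⧸ maximalIdeal A ^ k) := .of_surjective' _ Ideal.Quotient.mk_surjective
  haveI : IsArtinianRing (A ⧸ maximalIdeal A ^ k) := by
    rw [isArtinianRing_iff_isNilpotent_maximalIdeal]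
    refine ⟨k, ?_⟩
    rw [← IsLocalRing.map_maximalIdeal_of_surjective _ Ideal.Quotient.mk_surjective,
      ← Ideal.map_pow, Ideal.zero_eq_bot, Ideal.map_quotient_self]
  rw [Module.length_eq_of_surjective (R := A ⧸ maximalIdeal A ^ k)
    (M := A ⧸ maximalIdeal A ^ k) Ideal.Quotient.mk_surjective]
  exact Module.length_ne_top

/-- The fibre has finite length when the dimensions agree. -/
lemma length_fiber_ne_top [IsLocalHom (algebraMap R S)] [Module.Flat R S]
    (h : ndim R = ndim S) :
    Module.length S (S ⧸ (maximalIdeal R).map (algebraMap R S)) ≠ ⊤ := by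
  set I := (maximalIdeal R).map (algebraMap R S) with hI
  have hne : I ≠ ⊤ := (map_maximalIdeal_lt_top (algebraMap R S)).ne
  haveI : Nontrivial (S ⧸ I) := Ideal.Quotient.nontrivial_iff.2 hne
  haveI : IsLocalRing (S ⧸ I) := .of_surjective' _ Ideal.Quotient.mk_surjective
  haveI : (maximalIdeal S).LiesOver (maximalIdeal R) :=
    ⟨(((local_hom_TFAE (algebraMap R S)).out 0 4 rfl rfl).1 ‹_›).symm⟩
  have hh := Ideal.height_eq_height_add_of_liesOver_of_hasGoingDown (maximalIdeal R)
    (maximalIdeal S)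
  have hmap : (maximalIdeal S).map (Ideal.Quotient.mk I) = maximalIdeal (S ⧸ I) :=
    IsLocalRing.map_maximalIdeal_of_surjective _ Ideal.Quotient.mk_surjective
  rw [hmap] at hh
  have h1 : ((maximalIdeal S).height : WithBot ℕ∞) = (ndim S : WithBot ℕ∞) := by
    rw [IsLocalRing.maximalIdeal_height_eq_ringKrullDim, ringKrullDim_eq_coe_ndim]
  have h2 : ((maximalIdeal R).height : WithBot ℕ∞) = (ndim R : WithBot ℕ∞) := by
    rw [IsLocalRing.maximalIdeal_height_eq_ringKrullDim, ringKrullDim_eq_coe_ndim]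
  have h3 : ((maximalIdeal (S ⧸ I)).height : WithBot ℕ∞) = (ndim (S ⧸ I) : WithBot ℕ∞) := by
    rw [IsLocalRing.maximalIdeal_height_eq_ringKrullDim, ringKrullDim_eq_coe_ndim]
  have h4 : (ndim S : WithBot ℕ∞) = (ndim R : WithBot ℕ∞) + (ndim (S ⧸ I) : WithBot ℕ∞) := by
    rw [← h1, ← h2, ← h3, ← WithBot.coe_add, hh]
  have h5 : ndim S = ndim R + ndim (S ⧸ I) := by exact_mod_cast h4
  haveI : Ring.KrullDimLE 0 (S ⧸ I) := by
    rw [Ring.krullDimLE_iff, ringKrullDim_eq_coe_ndim, show ndim (S ⧸ I) = 0 by omega]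
  haveI : IsArtinianRing (S ⧸ I) := isArtinianRing_iff_krullDimLE_zero.2 inferInstance
  rw [Module.length_eq_of_surjective (R := S ⧸ I) (M := S ⧸ I) Ideal.Quotient.mk_surjective]
  exact Module.length_ne_top

/-- `psi` kills modules whose support has dimension less than `d`. -/
lemma psi_eq_zero (G : KoszulGoals.{u}) (hy : Par y) [IsLocalHom (algebraMap R S)]
    [Module.Flat R S] (h : ndim R = ndim S) (J : Ideal R) (hJ : ndim (R ⧸ J) < d) (M : Type u)
    [AddCommGroup M] [Module R M] [Module.Finite R M] (hM : KilledBy J M) : psi R y M = 0 := by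
  by_cases hJt : J = ⊤
  · haveI : Subsingleton M := subsingleton_of_forall_eq 0 fun v => by
      simpa using hM 1 (by rw [hJt]; trivial) v
    exact psi_subsingleton G hy M
  haveI : Nontrivial (R ⧸ J) := Ideal.Quotient.nontrivial_iff.2 hJt
  haveI : IsLocalRing (R ⧸ J) := .of_surjective' _ Ideal.Quotient.mk_surjective
  set Q := Ideal.span (Set.range y) with hQ
  set φ := algebraMap R S with hφ
  haveI : IsArtinianRing (S ⧸ Q) := by
    have hfl := Module.length_ne_top_iff.1 hy.fin
    rw [isFiniteLength_iff_isNoetherian_isArtinian] at hfl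
    haveI := hfl.2
    exact isArtinian_of_tower S inferInstance
  obtain ⟨c, hc⟩ := IsLocalRing.exists_maximalIdeal_pow_le_of_isArtinianRing_quotient Q
  have hc' : (maximalIdeal R ^ (c + 1)).map φ ≤ Q := by
    rw [Ideal.map_pow]
    refine le_trans ?_ hc
    refine le_trans (pow_le_pow_left' ?_ _) (Ideal.pow_le_pow_right (Nat.le_succ c))
    exact ((local_hom_TFAE φ).out 0 2 rfl rfl).1 ‹_›
  obtain ⟨nM, g, hg⟩ := Module.Finite.exists_fin' S (S ⊗[R] M)
  set r := (Module.length S (S ⧸ (maximalIdeal R).map φ)).toNat with hr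
  set A := R ⧸ J
  set a : ℕ → ℕ := fun n =>
    (Module.length S ((S ⊗[R] M) ⧸ Q ^ n • (⊤ : Submodule S (S ⊗[R] M)))).toNat with ha
  set b : ℕ → ℕ := fun k => (Module.length A (A ⧸ maximalIdeal A ^ k)).toNat with hb
  have hJS : J.map φ • (⊤ : Submodule S (S ⊗[R] M)) = ⊥ := by
    rw [eq_bot_iff, Submodule.smul_le]
    intro s hs v _
    rw [Submodule.mem_bot]
    revert v
    induction hs using Submodule.span_induction with
    | mem s hs =>
      obtain ⟨j, hj, rfl⟩ := hs
      intro v _
      induction v using TensorProduct.induction_on with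
      | zero => rw [smul_zero]
      | tmul s m =>
        rw [algebraMap_smul, ← TensorProduct.tmul_smul, hM j hj m, TensorProduct.tmul_zero]
      | add v w hv hw => rw [smul_add, hv trivial, hw trivial, add_zero]
    | zero => intro v _; rw [zero_smul]
    | add s t _ _ hs ht => intro v hv; rw [add_smul, hs v hv, ht v hv, add_zero]
    | smul c s _ hs => intro v hv; rw [smul_assoc, hs v hv, smul_zero]
  have hbound : ∀ n, a n ≤ nM * (b ((c + 1) * n) * r) := by
    intro n
    have h1 : Module.length S ((S ⊗[R] M) ⧸ Q ^ n • (⊤ : Submodule S (S ⊗[R] M))) ≤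
        nM * Module.length S (S ⧸ (Q ^ n ⊔ J.map φ)) := by
      have := length_quot_smul_le hg (Q ^ n ⊔ J.map φ)
      rwa [Submodule.sup_smul, hJS, sup_bot_eq] at this
    have h2 : Module.length S (S ⧸ (Q ^ n ⊔ J.map φ)) ≤
        Module.length S (S ⧸ (J ⊔ maximalIdeal R ^ ((c + 1) * n)).map φ) := by
      refine Module.length_le_of_surjective (Submodule.factor ?_) (Submodule.factor_surjective _)
      rw [Ideal.map_sup, pow_mul, Ideal.map_pow]
      exact sup_le le_sup_right (le_sup_of_le_left (pow_le_pow_left' hc' n))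
    have h3 : Module.length S (S ⧸ (J ⊔ maximalIdeal R ^ ((c + 1) * n)).map φ) =
        (b ((c + 1) * n) : ℕ∞) * (r : ℕ∞) := by
      have hfl : Module.length A (A ⧸ maximalIdeal A ^ ((c + 1) * n)) ≠ ⊤ := by
        rw [Module.length_ne_top_iff]
        exact Module.length_ne_top_iff.1 (length_quot_maxPow_ne_top A _)
      rw [(Algebra.TensorProduct.quotIdealMapEquivTensorQuot S
        (J ⊔ maximalIdeal R ^ ((c + 1) * n))).toLinearEquiv.length_eq,
        IsLocalRing.length_baseChange R S, length_quot_sup_pow, hr,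
        ENat.coe_toNat (length_fiber_ne_top h), hb, ENat.coe_toNat hfl]
    have h4 := h1.trans (mul_le_mul_right (h2.trans h3.le) (nM : ℕ∞))
    have h5 := ENat.toNat_le_toNat h4
      (WithTop.mul_ne_top (ENat.coe_ne_top _) (WithTop.mul_ne_top (ENat.coe_ne_top _)
        (ENat.coe_ne_top _)))
    simpa [ha, ENat.toNat_mul] using h5
  obtain ⟨e, -, he⟩ := G.mult A
  set d' := ndim A with hd'
  have hlim : Tendsto (fun n : ℕ => (d.factorial : ℝ) *
      ((nM : ℝ) * ((b ((c + 1) * n) : ℝ) * r)) / (n : ℝ) ^ d) atTop (nhds 0) := by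
    have hmul : Tendsto (fun n : ℕ => (c + 1) * n) atTop atTop :=
      tendsto_atTop_atTop.2 fun m => ⟨m, fun n hn => hn.trans (Nat.le_mul_of_pos_left _ (by omega))⟩
    have h1 : Tendsto (fun n : ℕ => (d'.factorial : ℝ) * (b ((c + 1) * n) : ℝ) /
        (((c + 1) * n : ℕ) : ℝ) ^ d') atTop (nhds e) := he.comp hmul
    have h2 : Tendsto (fun n : ℕ => ((n : ℝ) ^ (d - d'))⁻¹) atTop (nhds 0) :=
      tendsto_inv_atTop_zero.comp
        ((tendsto_pow_atTop (by omega)).comp tendsto_natCast_atTop_atTop)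
    have h3 := (h1.mul h2).const_mul
      ((d.factorial : ℝ) * nM * r * ((c : ℝ) + 1) ^ d' / (d'.factorial : ℝ))
    rw [mul_zero, mul_zero] at h3
    refine h3.congr' ?_
    filter_upwards [eventually_gt_atTop 0] with n hn
    have hn' : (n : ℝ) ≠ 0 := by exact_mod_cast hn.ne'
    have hf : (d'.factorial : ℝ) ≠ 0 := by exact_mod_cast d'.factorial_ne_zero
    have hc0 : ((c : ℝ) + 1) ≠ 0 := by positivity
    have hsplit : (n : ℝ) ^ d = (n : ℝ) ^ d' * (n : ℝ) ^ (d - d') := by
      rw [← pow_add]; congr 1; omega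
    rw [hsplit]
    push_cast
    rw [mul_pow]
    field_simp
  have htend := G.kmult S (S ⊗[R] M) d y hy.mem (hy.finiteLength M)
  have hzero : Tendsto (fun n : ℕ => (d.factorial : ℝ) * (a n : ℝ) / (n : ℝ) ^ d) atTop
      (nhds 0) := by
    refine tendsto_of_tendsto_of_tendsto_of_le_of_le tendsto_const_nhds hlim
      (fun n => by positivity) (fun n => ?_)
    have : (a n : ℝ) ≤ (nM : ℝ) * ((b ((c + 1) * n) : ℝ) * r) := by exact_mod_cast hbound n
    exact div_le_div_of_nonneg_right (mul_le_mul_of_nonneg_left this (Nat.cast_nonneg _))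
      (by positivity)
  have := tendsto_nhds_unique htend hzero
  exact_mod_cast this

end Vale.Agent.P202
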