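import Vale.Agent.P202.KoszulMult
import Vale.Agent.P202.Psi

/-!
Deep cycles of the Koszul complex on `y ^ w`: if every cycle in a deep step of the adic filtration
bounds deeply for two exponents of `y j`, then so it does for their sum.
-/

universe u

namespace Vale.Agent.P202

open Finset

variable {S : Type u} [CommRing S] {d : ℕ}

/-- The weight of `s` for the exponents `w`. -/
def kwt (w : Fin d → ℕ) (s : Finset (Fin d)) : ℕ := ∑ l ∈ s, w l

/-- The components of `z` lie in the step `a` of the filtration of weight `w`. -/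
def InLevel (y : Fin d → S) (w : Fin d → ℕ) (a : ℕ) (z : Finset (Fin d) → S) : Prop :=
  ∀ s, z s ∈ Ideal.span (Set.range y) ^ (a - kwt w s)

/-- From the step `D` on, cycles are boundaries of chains of the same step. -/
def Deep (y : Fin d → S) (w : Fin d → ℕ) (D : ℕ) : Prop :=
  ∀ (p a : ℕ), D ≤ a → ∀ z ∈ kchain S d S p, kd (fun l => y l ^ w l) S z = 0 →
    InLevel y w a z →
    ∃ u ∈ kchain S d S (p + 1), InLevel y w a u ∧ kd (fun l => y l ^ w l) S u = z

lemma kwt_update (w : Fin d → ℕ) (j : Fin d) (b : ℕ) (s : Finset (Fin d)) :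
    kwt (Function.update w j b) s + (if j ∈ s then w j else 0) =
      kwt w s + if j ∈ s then b else 0 := by
  by_cases hj : j ∈ s
  · rw [if_pos hj, if_pos hj, kwt, kwt, ← add_sum_erase s _ hj, ← add_sum_erase s w hj,
      Function.update_self]
    rw [sum_congr rfl fun l hl => Function.update_of_ne (ne_of_mem_erase hl) b w]
    ring
  · rw [if_neg hj, if_neg hj, kwt, kwt]
    rw [sum_congr rfl fun l hl => Function.update_of_ne (a := l) (a' := j) (fun h => hj (h ▸ hl)) b w]

lemma kwt_insert {w : Fin d → ℕ} {l : Fin d} {s : Finset (Fin d)} (h : l ∉ s) :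
    kwt w (insert l s) = w l + kwt w s := by
  rw [kwt, sum_insert h, kwt]

lemma pow_mul_mem_span_pow (y : Fin d → S) (j : Fin d) (b : ℕ) {k : ℕ} {x : S}
    (hx : x ∈ Ideal.span (Set.range y) ^ k) :
    y j ^ b * x ∈ Ideal.span (Set.range y) ^ (b + k) := by
  rw [pow_add]
  exact Ideal.mul_mem_mul (Ideal.pow_mem_pow (Ideal.subset_span (Set.mem_range_self j)) b) hx

/-- Splitting the exponent of `y j`. -/
theorem Deep.split {y : Fin d → S} {w : Fin d → ℕ} {j : Fin d} {a₁ a₂ D₁ D₂ D : ℕ}
    (hw : w j = a₁ + a₂) (h₁ : Deep y (Function.update w j a₁) D₁)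
    (h₂ : Deep y (Function.update w j a₂) D₂) (hD₁ : D₁ ≤ D) (hD₂ : a₁ + D₂ ≤ D) :
    Deep y w D := by
  classical
  intro p a ha z hz hcyc hlev
  have k₁ := kwt_update w j a₁
  have k₂ := kwt_update w j a₂
  set w₁ := Function.update w j a₁ with hw₁
  set w₂ := Function.update w j a₂ with hw₂
  have hw1 : ∀ l, l ≠ j → y l ^ w₁ l = y l ^ w l := fun l hl => by
    rw [hw₁, Function.update_of_ne hl]
  have hw2 : ∀ l, l ≠ j → y l ^ w₂ l = y l ^ w l := fun l hl => by
    rw [hw₂, Function.update_of_ne hl]
  -- off `j` the differential does not see the exponent of `y j`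
  have hin : ∀ {s : Finset (Fin d)} {l : Fin d}, j ∈ s → l ∈ sᶜ → l ≠ j := fun hs hl h =>
    (mem_compl.1 hl) (h ▸ hs)
  have hcompl : ∀ {s : Finset (Fin d)}, j ∉ s → j ∈ sᶜ := fun hs => mem_compl.2 hs
  -- first cycle
  set z₁ : Finset (Fin d) → S := fun s => if j ∈ s then y j ^ a₂ * z s else z s with hz₁
  obtain ⟨x, hx, hxlev, hxz⟩ := h₁ p a (hD₁.trans ha) z₁ (fun s hs => by simp [hz₁, hz s hs])
    (by
      funext s
      have h0 := congrFun hcyc s
      rw [kd_apply] at h0 ⊢
      simp only [Pi.zero_apply, smul_eq_mul] at h0 ⊢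
      by_cases hs : j ∈ s
      · rw [← mul_zero (y j ^ a₂), ← h0, mul_sum]
        refine sum_congr rfl fun l hl => ?_
        simp only [hz₁, mem_insert, hs, or_true, if_true, hw1 l (hin hs hl), mul_smul_comm]
        congr 1; ring
      · rw [← h0]
        refine sum_congr rfl fun l hl => ?_
        by_cases hlj : l = j
        · subst hlj
          simp [hz₁, hw₁, hw, pow_add, mul_assoc]
        · simp [hz₁, hs, Ne.symm hlj, hw1 l hlj])
    (fun s => by
      have := k₁ s
      by_cases hs : j ∈ s
      · simp only [hs, if_true] at this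
        simp only [hz₁, hs, if_true]
        exact Ideal.pow_le_pow_right (by omega) (pow_mul_mem_span_pow y j a₂ (hlev s))
      · simp only [hs, if_false] at this
        simp only [hz₁, hs, if_false]
        rw [show kwt w₁ s = kwt w s by omega]
        exact hlev s)
  -- second cycle
  set ζ : Finset (Fin d) → S :=
    fun s => if j ∈ s then z s else ksign j s • x (insert j s) with hζ
  obtain ⟨η, hη, hηlev, hηz⟩ := h₂ p (a - a₁) (by omega) ζ
    (fun s hs => by
      by_cases h : j ∈ s
      · simp [hζ, h, hz s hs]
      · simp [hζ, h, hx (insert j s) (by rw [card_insert_of_notMem h]; omega)])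
    (by
      funext s
      rw [kd_apply, Pi.zero_apply]
      by_cases hs : j ∈ s
      · refine Eq.trans (sum_congr rfl fun l hl => ?_) (congrFun hcyc s)
        simp [hζ, hs, hw2 l (hin hs hl)]
      · have h1 := congrFun hxz (insert j s)
        rw [kd_apply, compl_insert] at h1
        simp only [hz₁, mem_insert_self, if_true] at h1
        rw [← add_sum_erase _ _ (hcompl hs)]
        have h2 : ∀ l ∈ sᶜ.erase j, ksign l s • (y l ^ w₂ l • ζ (insert l s)) =
            -(ksign j s • (ksign l (insert j s) • (y l ^ w₁ l • x (insert l (insert j s))))) := by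
          intro l hl
          have hlj := ne_of_mem_erase hl
          have hls := mem_compl.1 (mem_of_mem_erase hl)
          rw [show ζ (insert l s) = ksign j (insert l s) • x (insert l (insert j s)) by
              simp [hζ, hs, Ne.symm hlj, Finset.insert_comm j l],
            hw1 l hlj, hw2 l hlj, smul_comm (y l ^ w l) (ksign j (insert l s)), smul_smul,
            smul_smul, ← neg_smul]
          congr 1
          linear_combination ksign_insert_mul s hlj hls hs
        rw [sum_congr rfl h2, sum_neg_distrib, ← smul_sum, h1]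
        simp [hζ, hw₂])
    (fun s => by
      by_cases hs : j ∈ s
      · have := k₂ s
        simp only [hs, if_true] at this
        simp only [hζ, hs, if_true]
        exact Ideal.pow_le_pow_right (by omega) (hlev s)
      · have hk := k₂ s
        have hk' := k₁ (insert j s)
        simp only [hs, if_false] at hk
        simp only [mem_insert_self, if_true] at hk'
        rw [kwt_insert hs (w := w)] at hk'
        simp only [hζ, hs, if_false]
        exact zsmul_mem (Ideal.pow_le_pow_right (by omega) (hxlev (insert j s))) _)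
  -- the chain
  refine ⟨fun s => if j ∈ s then η s else x s + y j ^ a₁ * η s,
    fun s hs => by simp [hη s hs, hx s hs], fun s => ?_, funext fun s => ?_⟩
  · by_cases hs : j ∈ s
    · have := k₂ s
      simp only [hs, if_true] at this
      simp only [hs, if_true]
      exact Ideal.pow_le_pow_right (by omega) (hηlev s)
    · have h1 := k₁ s
      have h2 := k₂ s
      simp only [hs, if_false] at h1 h2
      simp only [hs, if_false]
      exact add_mem (Ideal.pow_le_pow_right (by omega) (hxlev s))
        (Ideal.pow_le_pow_right (by omega) (pow_mul_mem_span_pow y j a₁ (hηlev s)))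
  · rw [kd_apply]
    by_cases hs : j ∈ s
    · have h := congrFun hηz s
      rw [kd_apply] at h
      refine Eq.trans (sum_congr rfl fun l hl => ?_) (h.trans (if_pos hs))
      simp [hs, hw2 l (hin hs hl)]
    · have e₁ := congrFun hxz s
      have e₂ := congrFun hηz s
      rw [kd_apply, ← add_sum_erase _ _ (hcompl hs)] at e₁ e₂
      simp only [hz₁, hζ, hs, if_false, hw₁, hw₂, Function.update_self, smul_eq_mul] at e₁ e₂
      rw [← e₁, ← add_sum_erase _ _ (hcompl hs)]
      have h3 : ∀ l ∈ sᶜ.erase j,
          ksign l s • (y l ^ w l • (if j ∈ insert l s then η (insert l s)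
              else x (insert l s) + y j ^ a₁ * η (insert l s))) =
            ksign l s • (y l ^ Function.update w j a₁ l * x (insert l s)) +
            y j ^ a₁ * (ksign l s • (y l ^ Function.update w j a₂ l * η (insert l s))) := by
        intro l hl
        have hlj := ne_of_mem_erase hl
        rw [if_neg (by simp [hs, Ne.symm hlj]), Function.update_of_ne hlj,
          Function.update_of_ne hlj, smul_eq_mul, mul_add, smul_add, mul_smul_comm]
        congr 2; ring
      rw [sum_congr rfl h3, sum_add_distrib, ← mul_sum]
      simp only [mem_insert_self, if_true, hw, smul_eq_mul, pow_add]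
      have e3 : ksign j s • (y j ^ a₁ * x (insert j s)) =
          y j ^ a₁ * (ksign j s • x (insert j s)) := (mul_smul_comm _ _ _).symm
      rw [e3, ← e₂, mul_add, mul_smul_comm, ← mul_assoc]
      ring

lemma deep_one [IsNoetherianRing S] (y : Fin d → S) : ∃ c, Deep y (fun _ => 1) c := by
  obtain ⟨c, hc⟩ := exists_deep_cycle_all (M := S) y
  refine ⟨c, fun p a ha z hz hcyc hlev => ?_⟩
  have hy : (fun l => y l ^ 1) = y := by funext l; rw [pow_one]
  rw [hy] at hcyc ⊢
  obtain ⟨u, hu, huz⟩ := hc a ha p
    (show z ∈ kchain S d S p ⊓ LinearMap.ker (kd y S) ⊓ kfil y S a p from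
      ⟨⟨hz, LinearMap.mem_ker.2 hcyc⟩, hz, (mem_smul_top_pi _ z).2 fun s => by
        rw [smul_eq_mul, Ideal.mul_top]
        by_cases hs : s.card = p
        · have := hlev s
          rwa [kwt, sum_const, smul_eq_mul, mul_one, hs] at this
        · rw [hz s hs]; exact zero_mem _⟩)
  refine ⟨u, hu.1, fun s => ?_, huz⟩
  by_cases hs : s.card = p + 1
  · have := (mem_smul_top_pi _ u).1 hu.2 s
    rw [smul_eq_mul, Ideal.mul_top] at this
    rwa [kwt, sum_const, smul_eq_mul, mul_one, hs]
  · rw [hu.1 s hs]; exact zero_mem _

/-- The steps from which cycles bound grow linearly in the exponents. -/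
theorem exists_deep [IsNoetherianRing S] (y : Fin d → S) :
    ∃ c, ∀ w : Fin d → ℕ, (∀ l, 1 ≤ w l) → Deep y w (c + ∑ l, (w l - 1)) := by
  classical
  obtain ⟨c, hc⟩ := deep_one y
  refine ⟨c, fun w hw => ?_⟩
  induction hN : ∑ l, (w l - 1) using Nat.strong_induction_on generalizing w with
  | _ N ih =>
    by_cases h : ∀ l, w l = 1
    · rw [show w = fun _ => 1 from funext h] at hN ⊢
      simp only [Nat.sub_self, sum_const_zero] at hN
      subst hN
      exact hc
    obtain ⟨j, hj⟩ := not_forall.1 h
    have hj2 : 2 ≤ w j := by have := hw j; omega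
    have hsum : ∀ b, 1 ≤ b →
        (∑ l, (Function.update w j b l - 1)) + (w j - 1) = ∑ l, (w l - 1) + (b - 1) := by
      intro b _
      rw [← add_sum_erase _ _ (mem_univ j), ← add_sum_erase _ _ (mem_univ j),
        Function.update_self, sum_congr rfl fun l hl => by
          rw [Function.update_of_ne (ne_of_mem_erase hl)]]
      ring
    have hpos : ∀ b, 1 ≤ b → ∀ l, 1 ≤ Function.update w j b l := fun b hb l => by
      by_cases hl : l = j
      · rw [hl, Function.update_self]; exact hb
      · rw [Function.update_of_ne hl]; exact hw l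
    have e₁ := hsum 1 le_rfl
    have e₂ := hsum (w j - 1) (by omega)
    exact Deep.split (a₁ := 1) (a₂ := w j - 1) (by omega)
      (ih _ (by omega) _ (hpos 1 le_rfl) rfl) (ih _ (by omega) _ (hpos _ (by omega)) rfl)
      (by omega) (by omega)

end Vale.Agent.P202
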