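import Vale.Agent.P202.InterfacesM10
import Vale.Agent.P202.M10Deep

/-!
The adic levels compute the Koszul homology of `y ^ n` from a depth linear in `n` on, and the
Euler characteristic of `y ^ n` is `n ^ d` times that of `y`.
-/

universe u

namespace Vale.Agent.P202

open Finset IsLocalRing Filter
open scoped Pointwise

variable {S : Type u} [CommRing S] [IsLocalRing S] [IsNoetherianRing S] {d : ℕ} {y : Fin d → S}

lemma Par.exists_pow_le (hy : Par y) :
    ∃ c, 0 < c ∧ maximalIdeal S ^ c ≤ Ideal.span (Set.range y) := by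
  set Q := Ideal.span (Set.range y) with hQ
  haveI : IsArtinianRing (S ⧸ Q) := by
    have hfl := Module.length_ne_top_iff.1 hy.fin
    rw [isFiniteLength_iff_isNoetherian_isArtinian] at hfl
    haveI := hfl.2
    exact isArtinian_of_tower S inferInstance
  obtain ⟨c, hc⟩ := IsLocalRing.exists_maximalIdeal_pow_le_of_isArtinianRing_quotient Q
  exact ⟨c + 1, by omega, (Ideal.pow_le_pow_right (Nat.le_succ c)).trans hc⟩

lemma pow_le_pow_div {A : Type*} [CommRing A] {I J : Ideal A} {c : ℕ} (h : I ^ c ≤ J) (T : ℕ) :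
    I ^ T ≤ J ^ (T / c) :=
  (Ideal.pow_le_pow_right (Nat.mul_div_le T c)).trans
    (by rw [pow_mul]; exact Ideal.pow_right_mono h _)

theorem goalKoszulStable : GoalKoszulStable.{u} := by
  intro S _ _ _ d y hy I hI hex
  obtain ⟨c₀, hc₀⟩ := hex
  obtain ⟨c₁, hc₁pos, hc₁⟩ := hy.exists_pow_le
  obtain ⟨c, hc⟩ := exists_deep y
  set Q := Ideal.span (Set.range y) with hQ
  have hIQ : ∀ T, I ^ T ≤ Q ^ (T / c₁) := fun T =>
    (Ideal.pow_right_mono (le_maximalIdeal hI) T).trans (pow_le_pow_div hc₁ T)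
  have hQI : ∀ T, Q ^ (c₀ * T) ≤ I ^ T := fun T => by
    refine (Ideal.pow_right_mono (Ideal.span_le.2 ?_ : Q ≤ maximalIdeal S) _).trans ?_
    · rintro _ ⟨l, rfl⟩; exact hy.mem l
    · rw [pow_mul]; exact Ideal.pow_right_mono hc₀ T
  refine ⟨c₁ * (c + c₀ + 2 * d + 1), fun n T T' hn hT hT' p hp => ?_⟩
  set w : Fin d → ℕ := fun _ => n with hwdef
  have hwd : Deep y w (c + d * (n - 1)) := by
    have := hc w fun _ => hn
    simpa [hwdef] using this
  have hWp : ∀ s : Finset (Fin d), kwt w s ≤ d * n := fun s => by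
    rw [kwt, sum_const, smul_eq_mul]
    exact Nat.mul_le_mul_right _ (by simpa using s.card_le_univ)
  -- the two depths
  have hc₁' : 1 ≤ c₁ * (c + c₀ + 2 * d + 1) := by
    have := Nat.mul_pos hc₁pos (show 0 < c + c₀ + 2 * d + 1 by omega); omega
  have hnT : n ≤ T := (Nat.le_mul_of_pos_left n (by omega)).trans hT
  have hD : ∀ M, n ≤ M → c + d * (n - 1) ≤ (c + c₀ + 2 * d + 1) * M := fun M hM => by
    have h1 : d * (n - 1) ≤ d * M := Nat.mul_le_mul_left d (by omega)
    have h2 : c * 1 ≤ c * M := Nat.mul_le_mul_left c (by omega)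
    have h3 : (c + c₀ + 2 * d + 1) * M = c * M + c₀ * M + 2 * (d * M) + M := by ring
    omega
  have hA : c + d * (n - 1) ≤ T / c₁ := by
    refine (hD n le_rfl).trans ((Nat.le_div_iff_mul_le hc₁pos).2 ?_)
    rw [Nat.mul_right_comm, Nat.mul_comm _ c₁]; exact hT
  have hB : (c + c₀ + 2 * d + 1) * T ≤ T' / c₁ := by
    refine (Nat.le_div_iff_mul_le hc₁pos).2 ?_
    rw [Nat.mul_right_comm, Nat.mul_comm _ c₁]; exact hT'
  set yn : Fin d → S := fun l => y l ^ n with hyn
  set Z := kchain S d S p ⊓ LinearMap.ker (kd yn S) with hZ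
  set B := (kchain S d S (p + 1)).map (kd yn S) with hBdef
  set J : Submodule S (Finset (Fin d) → S) :=
    Submodule.pi Set.univ fun _ : Finset (Fin d) => I ^ T with hJdef
  set J' : Submodule S (Finset (Fin d) → S) :=
    Submodule.pi Set.univ fun _ : Finset (Fin d) => I ^ T' with hJ'def
  set N := kchain S d S p ⊓ J'.comap (kd yn S) with hNdef
  have hBZ : B ≤ Z := map_kd_kchain_le yn p
  have hZN : Z ≤ N := inf_le_inf_left _ fun z hz => by
    rw [Submodule.mem_comap, LinearMap.mem_ker.1 hz]; exact zero_mem _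
  have hsurj : N ≤ Z ⊔ (B ⊔ J) := by
    rintro z ⟨hz, hz'⟩
    rcases Nat.eq_zero_or_pos p with rfl | hp0
    · exact Submodule.mem_sup_left ⟨hz, LinearMap.mem_ker.2 (kd_kchain_zero yn hz)⟩
    obtain ⟨p, rfl⟩ := Nat.exists_eq_succ_of_ne_zero hp0.ne'
    obtain ⟨v, hv, hvlev, hvz⟩ := hwd p (T' / c₁)
      ((hD T hnT).trans hB) (kd yn S z) (kd_mem_kchain yn hz)
      (LinearMap.congr_fun (kd_kd yn) z)
      (fun s => Ideal.pow_le_pow_right (Nat.sub_le _ _) (hIQ T' (hz' s trivial)))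
    rw [← sub_add_cancel z v]
    refine Submodule.add_mem_sup ⟨Submodule.sub_mem _ hz hv, ?_⟩ (Submodule.mem_sup_right ?_)
    · rw [SetLike.mem_coe, LinearMap.mem_ker, map_sub, sub_eq_zero]; exact hvz.symm
    · intro s _
      refine hQI T (Ideal.pow_le_pow_right ?_ (hvlev s))
      have := hWp s
      have h1 : d * n ≤ d * T := Nat.mul_le_mul_left d hnT
      have h2 : c₀ * T + d * T ≤ (c + c₀ + 2 * d + 1) * T := by
        rw [← Nat.add_mul]; exact Nat.mul_le_mul_right T (by omega)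
      omega
  have hinj : Z ⊓ (B ⊔ J) = Z ⊓ B := by
    refine le_antisymm ?_ (inf_le_inf_left _ le_sup_left)
    rintro z ⟨hz, hz'⟩
    obtain ⟨b, hb, r, hr, rfl⟩ := Submodule.mem_sup.1 hz'
    refine ⟨hz, B.add_mem hb ?_⟩
    have hrZ : r ∈ Z := by simpa using Z.sub_mem hz (hBZ hb)
    obtain ⟨v, hv, -, hvr⟩ := hwd p (T / c₁) hA r hrZ.1 (LinearMap.mem_ker.1 hrZ.2)
      (fun s => Ideal.pow_le_pow_right (Nat.sub_le _ _) (hIQ T (hr s trivial)))
    exact ⟨v, hv, hvr⟩
  show sq S N (B ⊔ J) = sq S Z B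
  rw [sq_congr_sup (N' := Z) (le_antisymm (sup_le hsurj le_sup_right) (sup_le_sup_right hZN _)),
    sq_congr_inf hinj]

/-- A product of enough generators is a product of enough `n`-th powers. -/
lemma pow_add_le_span_pow {A : Type*} [CommRing A] {d : ℕ} (y : Fin d → A) {n : ℕ} (hn : 0 < n)
    (j : ℕ) :
    Ideal.span (Set.range y) ^ (n * j + d * (n - 1)) ≤
      Ideal.span (Set.range fun l => y l ^ n) ^ j := by
  classical
  have key : ∀ N, Set.range y ^ N ⊆ {x | ∃ e : Fin d → ℕ, ∑ l, e l = N ∧ x = ∏ l, y l ^ e l} := by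
    intro N
    induction N with
    | zero => rw [pow_zero]; rintro x rfl; exact ⟨0, by simp, by simp⟩
    | succ N ih =>
      rw [pow_succ]
      rintro _ ⟨x, hx, _, ⟨l, rfl⟩, rfl⟩
      obtain ⟨e, he, rfl⟩ := ih hx
      refine ⟨e + Pi.single l 1, by simp [sum_add_distrib, he], ?_⟩
      simp only [Pi.add_apply, pow_add, prod_mul_distrib]
      rw [Fintype.prod_eq_single (f := fun m => y m ^ (Pi.single l 1 : Fin d → ℕ) m) l
        fun m hm => by rw [Pi.single_eq_of_ne hm, pow_zero]]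
      simp
  rw [Ideal.span, Submodule.span_pow, Submodule.span_le]
  intro x hx
  obtain ⟨e, he, rfl⟩ := key _ hx
  rw [SetLike.mem_coe, show (∏ l, y l ^ e l) =
      (∏ l, (y l ^ n) ^ (e l / n)) * ∏ l, y l ^ (e l % n) by
    rw [← prod_mul_distrib]
    exact prod_congr rfl fun l _ => by rw [← pow_mul, ← pow_add, Nat.div_add_mod]]
  refine Ideal.mul_mem_right _ _ ?_
  have hj : j ≤ ∑ l, e l / n := by
    have h1 : ∑ l, e l ≤ ∑ l, (n * (e l / n) + (n - 1)) := sum_le_sum fun l _ => by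
      have h2 := Nat.div_add_mod (e l) n
      have h3 := Nat.mod_lt (e l) hn
      omega
    rw [sum_add_distrib, ← mul_sum, sum_const, smul_eq_mul, card_univ, Fintype.card_fin, he] at h1
    exact Nat.le_of_mul_le_mul_left (by omega) hn
  refine Ideal.pow_le_pow_right hj ?_
  rw [← prod_pow_eq_pow_sum]
  exact Ideal.prod_mem_prod fun l _ =>
    Ideal.pow_mem_pow (Ideal.subset_span (Set.mem_range_self l)) _

lemma Par.pow (hy : Par y) {n : ℕ} (hn : 0 < n) : Par fun l => y l ^ n := by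
  refine ⟨fun l => Ideal.pow_mem_of_mem _ (hy.mem l) n hn, ?_⟩
  obtain ⟨c, -, hc⟩ := hy.exists_pow_le
  have h := pow_add_le_span_pow y hn 1
  rw [pow_one] at h
  refine ne_top_of_le_ne_top (length_quot_maxPow_ne_top S (c * (n * 1 + d * (n - 1))))
    (Module.length_le_of_surjective _ (Submodule.factor_surjective
      ((le_of_eq (pow_mul _ _ _)).trans ((Ideal.pow_right_mono hc _).trans h))))

theorem goalKchiPow : GoalKchiPow.{u} := by
  intro S _ _ _ d y hy n hn
  set Q := Ideal.span (Set.range y) with hQ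
  set Qn := Ideal.span (Set.range fun l => y l ^ n) with hQn
  have hf : ∀ z : Fin d → S, Par z →
      IsFiniteLength S (S ⧸ Ideal.span (Set.range z) • (⊤ : Submodule S S)) := fun z hz => by
    rw [← Module.length_ne_top_iff, smul_eq_mul, Ideal.mul_top]; exact hz.fin
  set L : Ideal S → ℕ → ℝ := fun J m => (d.factorial : ℝ) *
    ((Module.length S (S ⧸ (J ^ m • (⊤ : Submodule S S)))).toNat : ℝ) with hL
  have hQlim : Tendsto (fun m : ℕ => L Q m / (m : ℝ) ^ d) atTop (nhds (kchi y S : ℝ)) :=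
    goalKoszulMult S S d y hy.mem (hf y hy)
  have hnlim : Tendsto (fun m : ℕ => L Qn m / (m : ℝ) ^ d) atTop
      (nhds (kchi (fun l => y l ^ n) S : ℝ)) :=
    goalKoszulMult S S d _ (hy.pow hn).mem (hf _ (hy.pow hn))
  have hmono : ∀ (J J' : Ideal S) (a b : ℕ),
      IsFiniteLength S (S ⧸ J • (⊤ : Submodule S S)) → J ^ a ≤ J' ^ b → L J' b ≤ L J a := by
    intro J J' a b hJ h
    refine mul_le_mul_of_nonneg_left (Nat.cast_le.2 (ENat.toNat_le_toNat ?_
      (length_quot_pow_ne_top J hJ a))) (Nat.cast_nonneg _)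
    rw [length_quot_eq_sq, length_quot_eq_sq]
    exact sq_mono_right (Submodule.smul_mono_left h)
  have hup : ∀ m, L Qn m ≤ L Q (n * (m + d)) := fun m => by
    refine hmono Q Qn _ m (hf y hy) ((Ideal.pow_le_pow_right ?_).trans (pow_add_le_span_pow y hn m))
    rw [Nat.mul_add, Nat.mul_comm d]
    exact Nat.add_le_add_left (Nat.mul_le_mul_right d (Nat.sub_le n 1)) _
  have hdown : ∀ m, L Q (n * m) ≤ L Qn m := fun m => by
    refine hmono Qn Q m _ (hf _ (hy.pow hn)) ?_
    rw [pow_mul]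
    refine Ideal.pow_right_mono (Ideal.span_le.2 ?_) m
    rintro _ ⟨l, rfl⟩
    exact Ideal.pow_mem_pow (Ideal.subset_span (Set.mem_range_self l)) n
  set χ : ℝ := (kchi y S : ℝ)
  have h1 : Tendsto (fun m : ℕ => L Q (n * m) / (m : ℝ) ^ d) atTop (nhds ((n : ℝ) ^ d * χ)) := by
    have h0 := (hQlim.comp (tendsto_id.const_mul_atTop' hn)).const_mul ((n : ℝ) ^ d)
    refine h0.congr' ?_
    filter_upwards [eventually_gt_atTop 0] with m hm
    have : (m : ℝ) ≠ 0 := Nat.cast_ne_zero.2 hm.ne'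
    have : (n : ℝ) ≠ 0 := Nat.cast_ne_zero.2 hn.ne'
    simp only [Function.comp_apply, id, Nat.cast_mul, mul_pow]
    field_simp
  have h2 : Tendsto (fun m : ℕ => L Q (n * (m + d)) / (m : ℝ) ^ d) atTop
      (nhds ((n : ℝ) ^ d * χ)) := by
    have hr : Tendsto (fun m : ℕ => (((m : ℝ) + d) / m) ^ d) atTop (nhds 1) := by
      have := ((tendsto_const_div_atTop_nhds_zero_nat (d : ℝ)).const_add 1).pow d
      rw [add_zero, one_pow] at this
      refine this.congr' ?_
      filter_upwards [eventually_gt_atTop 0] with m hm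
      have : (m : ℝ) ≠ 0 := Nat.cast_ne_zero.2 hm.ne'
      rw [add_div, div_self this]
    have h0 := (h1.comp (tendsto_add_atTop_nat d)).mul hr
    rw [mul_one] at h0
    refine h0.congr' ?_
    filter_upwards [eventually_gt_atTop 0] with m hm
    have h3 : ((m : ℝ) + d) ^ d ≠ 0 := pow_ne_zero _ (by positivity)
    simp only [Function.comp_apply, Nat.cast_add, div_pow]
    field_simp
  have key : (kchi (fun l => y l ^ n) S : ℝ) = (n : ℝ) ^ d * χ := by
    refine le_antisymm (le_of_tendsto_of_tendsto' hnlim h2 fun m => ?_)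
      (le_of_tendsto_of_tendsto' h1 hnlim fun m => ?_)
    · exact div_le_div_of_nonneg_right (hup m) (by positivity)
    · exact div_le_div_of_nonneg_right (hdown m) (by positivity)
  rw [show χ = (kchi y S : ℝ) from rfl] at key
  exact_mod_cast key

end Vale.Agent.P202
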