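import Vale.Agent.P202.M10Mult
import Vale.Agent.P202.M10Stable
import Vale.Agent.P202.G4Hom

/-!
Comparison of the Koszul image lengths at `S ⊗[R] V` with those of a free model `(R ⧸ m ^ T) ^ n₀`.
-/

universe u

namespace Vale.Agent.P202

open TensorProduct IsLocalRing Finset

variable {R S : Type u} [CommRing R] [IsLocalRing R] [CommRing S] [Algebra R S]

/-- The length of the closed fibre. -/
noncomputable def fibreLen (R S : Type u) [CommRing R] [IsLocalRing R] [CommRing S] [Algebra R S] :
    ℕ :=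
  (Module.length S (S ⊗[R] ResidueField R)).toNat

lemma length_tensor_residue_ne_top [Module.Flat R S]
    (h : Module.length S (S ⧸ (maximalIdeal R).map (algebraMap R S)) ≠ ⊤) :
    Module.length S (S ⊗[R] ResidueField R) ≠ ⊤ := by
  haveI : IsSimpleModule R (R ⧸ maximalIdeal R) :=
    isSimpleModule_iff_quot_maximal.2 ⟨_, maximalIdeal.isMaximal R, ⟨LinearEquiv.refl _ _⟩⟩
  have h1 : Module.length R (R ⧸ maximalIdeal R) = 1 := Module.length_eq_one _ _
  rw [length_quot_map R S _ (by rw [h1]; simp), h1, one_mul] at h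
  exact h

section Free

variable {V : Type u} [AddCommGroup V] [Module R V] {n₀ T : ℕ} (g : (Fin n₀ → R) →ₗ[R] V)
  (hg : ∀ v : Fin n₀ → R, (∀ t, v t ∈ maximalIdeal R ^ T) → g v = 0)

/-- The free model of `S ⊗ V`. -/
noncomputable def freeMap :
    (Fin n₀ → S ⧸ (maximalIdeal R).map (algebraMap R S) ^ T) →ₗ[S] S ⊗[R] V :=
  ∑ t, Submodule.liftQ ((maximalIdeal R).map (algebraMap R S) ^ T)
    (LinearMap.toSpanSingleton S _ ((1 : S) ⊗ₜ[R] g (Pi.single t 1))) (by
      rw [← Ideal.map_pow, Ideal.map, Ideal.span, Submodule.span_le]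
      rintro _ ⟨a, ha, rfl⟩
      rw [SetLike.mem_coe, LinearMap.mem_ker, LinearMap.toSpanSingleton_apply,
        ← algebra_compatible_smul, TensorProduct.smul_tmul', TensorProduct.smul_tmul, ← map_smul,
        hg _ (fun i => ?_), TensorProduct.tmul_zero]
      rw [Pi.smul_apply, smul_eq_mul]
      exact Ideal.mul_mem_right _ _ ha) ∘ₗ LinearMap.proj t

lemma freeMap_mk (w : Fin n₀ → S) :
    freeMap g hg (fun t => Submodule.Quotient.mk (w t)) =
      ∑ t, w t • ((1 : S) ⊗ₜ[R] g (Pi.single t 1)) := by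
  rw [freeMap, LinearMap.sum_apply]
  rfl

/-- The projection of `S ⊗ R ^ n₀` to the free model. -/
noncomputable def freeProj :
    (S ⊗[R] (Fin n₀ → R)) →ₗ[S] (Fin n₀ → S ⧸ (maximalIdeal R).map (algebraMap R S) ^ T) :=
  ((maximalIdeal R).map (algebraMap R S) ^ T).mkQ.compLeft (Fin n₀) ∘ₗ
    (TensorProduct.piScalarRight R S S (Fin n₀)).toLinearMap

lemma freeMap_freeProj (z : S ⊗[R] (Fin n₀ → R)) :
    freeMap g hg (freeProj z) = lT S S g z := by
  induction z using TensorProduct.induction_on with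
  | zero => simp
  | tmul b f =>
    have : freeProj (S := S) (T := T) (b ⊗ₜ[R] f) =
        fun t => Submodule.Quotient.mk (f t • b) := rfl
    rw [this, freeMap_mk, lT_tmul]
    conv_rhs => rw [pi_eq_sum_univ' f, map_sum, TensorProduct.tmul_sum]
    refine sum_congr rfl fun t _ => ?_
    rw [map_smul, TensorProduct.tmul_smul, smul_assoc, TensorProduct.smul_tmul', smul_eq_mul,
      mul_one]
  | add x x' hx hx' => rw [map_add, map_add, map_add, hx, hx']

lemma freeProj_surjective :
    Function.Surjective (freeProj (R := R) (S := S) (n₀ := n₀) (T := T)) := by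
  intro v
  choose w hw using fun t => Submodule.mkQ_surjective _ (v t)
  refine ⟨(TensorProduct.piScalarRight R S S (Fin n₀)).symm w, ?_⟩
  rw [freeProj, LinearMap.comp_apply, LinearEquiv.coe_coe, LinearEquiv.apply_symm_apply]
  exact funext hw

variable [Module.Flat R S]

lemma length_ker_freeMap (hs : Module.length S (S ⊗[R] ResidueField R) ≠ ⊤) {L : ℕ}
    (hL : sq R (LinearMap.ker g)
      (Submodule.pi Set.univ fun _ : Fin n₀ => maximalIdeal R ^ T) ≤ (L : ℕ∞)) :
    Module.length S ↥(LinearMap.ker (freeMap (S := S) g hg)) ≤ (L * fibreLen R S : ℕ) := by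
  set W : Submodule R (Fin n₀ → R) := Submodule.pi Set.univ fun _ => maximalIdeal R ^ T
  have hker : LinearMap.ker (freeMap (S := S) g hg) ≤
      (gbar S S (LinearMap.ker g)).map freeProj := by
    intro v hv
    obtain ⟨z, rfl⟩ := freeProj_surjective v
    refine Submodule.mem_map_of_mem ?_
    rw [LinearMap.mem_ker, freeMap_freeProj] at hv
    exact (lT_exact (LinearMap.exact_subtype_ker_map g) z).1 hv
  have hW : gbar S S W ≤ LinearMap.ker (freeProj (S := S) (T := T)) := by
    rintro _ ⟨z, rfl⟩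
    induction z using TensorProduct.induction_on with
    | zero => simp
    | tmul b f =>
      rw [lT_tmul, LinearMap.mem_ker]
      funext t
      show Submodule.Quotient.mk (f.1 t • b) = 0
      rw [Submodule.Quotient.mk_eq_zero, Algebra.smul_def, ← Ideal.map_pow]
      exact Ideal.mul_mem_right _ _ (Ideal.mem_map_of_mem _ (f.2 t trivial))
    | add x x' hx hx' => rw [map_add]; exact add_mem hx hx'
  rw [← sq_bot_right]
  refine (sq_mono_left hker).trans ?_
  rw [sq_map, Submodule.comap_bot]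
  refine (sq_mono_right hW).trans ?_
  rw [sq_gbar]
  have hfin : Module.length R (↥(LinearMap.ker g) ⧸ W.comap (LinearMap.ker g).subtype) ≠ ⊤ :=
    ne_top_of_le_ne_top (ENat.natCast_ne_top L) hL
  rw [length_tensor R S _ hfin, Nat.cast_mul, fibreLen, ENat.natCast_toNat hs]
  exact mul_le_mul' hL le_rfl

lemma length_coker_freeMap (hs : Module.length S (S ⊗[R] ResidueField R) ≠ ⊤) {L : ℕ}
    (hL : Module.length R (V ⧸ LinearMap.range g) ≤ (L : ℕ∞)) :
    Module.length S ((S ⊗[R] V) ⧸ LinearMap.range (freeMap (S := S) g hg)) ≤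
      (L * fibreLen R S : ℕ) := by
  have hr : LinearMap.range (freeMap (S := S) g hg) =
      LinearMap.ker (lT S S (LinearMap.range g).mkQ) := by
    rw [ker_lT_mkQ, LinearMap.range_eq_map g, gbar_map, gbar_top, Submodule.map_top]
    ext v
    constructor
    · rintro ⟨w, rfl⟩
      obtain ⟨z, rfl⟩ := freeProj_surjective w
      exact ⟨z, (freeMap_freeProj g hg z).symm⟩
    · rintro ⟨z, rfl⟩
      exact ⟨_, freeMap_freeProj g hg z⟩
  rw [hr, ((lT S S (LinearMap.range g).mkQ).quotKerEquivOfSurjective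
      (lT_surjective (Submodule.mkQ_surjective _))).length_eq,
    length_tensor R S _ (ne_top_of_le_ne_top (ENat.natCast_ne_top L) hL), Nat.cast_mul, fibreLen,
    ENat.natCast_toNat hs]
  exact mul_le_mul' hL le_rfl

end Free

variable [IsNoetherianRing R] [IsLocalRing S] [IsNoetherianRing S] [IsLocalHom (algebraMap R S)]
  [Module.Flat R S] {d : ℕ}

/-- Deep in `n`, the alternating image sum at `S ⊗ V` is `n₀ n ^ d` times the Euler
characteristic, up to the kernels and cokernels of the free models. -/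
theorem exists_kchiImg_free (hdim : ndim R = ndim S) (y : Fin d → S) (hy : Par y) :
    ∃ C : ℕ, ∀ (n T T' : ℕ), 0 < n → C * n ≤ T → C * T ≤ T' → T ≤ T' →
      ∀ (V' V : Type u) [AddCommGroup V'] [Module R V'] [AddCommGroup V] [Module R V]
        (tr : V' →ₗ[R] V) (n₀ L L' : ℕ) (g' : (Fin n₀ → R) →ₗ[R] V') (g : (Fin n₀ → R) →ₗ[R] V),
        tr ∘ₗ g' = g →
        (∀ v : Fin n₀ → R, (∀ t, v t ∈ maximalIdeal R ^ T') → g' v = 0) →
        (∀ v : Fin n₀ → R, (∀ t, v t ∈ maximalIdeal R ^ T) → g v = 0) →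
        sq R (LinearMap.ker g') (Submodule.pi Set.univ fun _ : Fin n₀ => maximalIdeal R ^ T') ≤
          (L' : ℕ∞) →
        Module.length R (V' ⧸ LinearMap.range g') ≤ (L' : ℕ∞) →
        sq R (LinearMap.ker g) (Submodule.pi Set.univ fun _ : Fin n₀ => maximalIdeal R ^ T) ≤
          (L : ℕ∞) →
        Module.length R (V ⧸ LinearMap.range g) ≤ (L : ℕ∞) →
        |kchiImg (fun l => y l ^ n) (lT S S tr) - (n₀ : ℤ) * ((n : ℤ) ^ d * kchi y S)| ≤
          ((d + 1) * (2 ^ d * (2 * fibreLen R S * (L + L'))) : ℕ) := by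
  set I := (maximalIdeal R).map (algebraMap R S) with hI
  have hfib := length_fiber_ne_top (R := R) (S := S) hdim
  have hs := length_tensor_residue_ne_top hfib
  have hIne : I ≠ ⊤ := (map_maximalIdeal_lt_top (algebraMap R S)).ne
  have hex : ∃ c, maximalIdeal S ^ c ≤ I := by
    haveI : IsArtinianRing (S ⧸ I) := by
      have hfl := Module.length_ne_top_iff.1 hfib
      rw [isFiniteLength_iff_isNoetherian_isArtinian] at hfl
      haveI := hfl.2
      exact isArtinian_of_tower S inferInstance
    exact IsLocalRing.exists_maximalIdeal_pow_le_of_isArtinianRing_quotient I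
  obtain ⟨C, hC⟩ := goalKoszulStable S d y hy I hIne hex
  refine ⟨C, fun n T T' hn hT hT' hTT' V' V _ _ _ _ tr n₀ L L' g' g hgg hg' hg hk' hc' hk hc => ?_⟩
  set z : Fin d → S := fun l => y l ^ n with hz
  set φ := (Submodule.factor (Ideal.pow_le_pow_right hTT' : I ^ T' ≤ I ^ T)).compLeft (Fin n₀)
  have hsq : freeMap (S := S) g hg ∘ₗ φ = lT S S tr ∘ₗ freeMap (S := S) g' hg' := by
    refine LinearMap.ext fun v => ?_
    obtain ⟨w, rfl⟩ := freeProj_surjective v
    simp only [LinearMap.comp_apply, freeMap_freeProj, lT_comp_apply, hgg]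
    refine Eq.trans (congrArg (freeMap g hg) ?_) (freeMap_freeProj g hg w)
    induction w using TensorProduct.induction_on with
    | zero => simp
    | tmul b f => rfl
    | add x x' hx hx' => rw [map_add, map_add, map_add, hx, hx']
  have hfinK : IsFiniteLength S (S ⧸ Ideal.span (Set.range z) • (⊤ : Submodule S S)) := by
    rw [← Module.length_ne_top_iff, smul_eq_mul, Ideal.mul_top]
    exact (hy.pow hn).fin
  have hφ : ∀ p, p ≤ d → kimgM z φ p = (n₀ : ℕ∞) * khlen z S p := fun p hp => by
    rw [kimgM_pi, Fintype.card_fin, kimgM_factor, hC n T T' hn hT hT' p hp]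
  have hK : ∀ p, khlen z S p ≠ ⊤ := fun p => goalKoszulFinite S S d z hfinK p
  set E := 2 ^ d * (2 * fibreLen R S * (L + L'))
  have hbd : ∀ p, p ≤ d → (kimgM z (lT S S tr) p).toNat ≤ n₀ * (khlen z S p).toNat + E ∧
      n₀ * (khlen z S p).toNat ≤ (kimgM z (lT S S tr) p).toNat + E := by
    intro p hp
    have h1 := kimgM_le_of_square z p hsq
    have h2 := kimgM_ge_of_square z p hsq
    rw [hφ p hp] at h1 h2
    have a1 := add_le_add (length_ker_freeMap g hg hs hk) (length_coker_freeMap g hg hs hc)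
    have a2 := add_le_add (length_ker_freeMap g' hg' hs hk') (length_coker_freeMap g' hg' hs hc')
    replace h1 := h1.trans (add_le_add le_rfl (mul_le_mul' le_rfl a1))
    replace h2 := h2.trans (add_le_add le_rfl (mul_le_mul' le_rfl a2))
    obtain ⟨k, hk⟩ := ENat.ne_top_iff_exists.1 (hK p)
    rw [← hk] at h1 h2 ⊢
    obtain ⟨m, hm⟩ : ∃ m : ℕ, (m : ℕ∞) = kimgM z (lT S S tr) p :=
      ENat.ne_top_iff_exists.1 (ne_top_of_le_ne_top (show ((n₀ * k +
        2 ^ d * (L' * fibreLen R S + L' * fibreLen R S) : ℕ) : ℕ∞) ≠ ⊤ from ENat.natCast_ne_top _)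
        (h2.trans (le_of_eq (by push_cast; ring))))
    rw [← hm] at h1 h2 ⊢
    norm_cast at h1 h2
    simp only [ENat.toNat_natCast]
    have l1 : 2 ^ d * (L * fibreLen R S + L * fibreLen R S) ≤ E := by
      refine Nat.mul_le_mul_left _ ?_
      rw [show 2 * fibreLen R S * (L + L') =
        (L * fibreLen R S + L * fibreLen R S) + (L' * fibreLen R S + L' * fibreLen R S) by ring]
      omega
    have l2 : 2 ^ d * (L' * fibreLen R S + L' * fibreLen R S) ≤ E := by
      refine Nat.mul_le_mul_left _ ?_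
      rw [show 2 * fibreLen R S * (L + L') =
        (L * fibreLen R S + L * fibreLen R S) + (L' * fibreLen R S + L' * fibreLen R S) by ring]
      omega
    omega
  rw [← goalKchiPow S d y hy n hn, kchiImg, kchi, mul_sum, ← sum_sub_distrib]
  refine (abs_sum_le_sum_abs _ _).trans ?_
  rw [show ((d + 1) * E : ℕ) = ∑ _p ∈ range (d + 1), E by simp, Nat.cast_sum]
  refine sum_le_sum fun p hp => ?_
  obtain ⟨b1, b2⟩ := hbd p (mem_range_succ_iff.1 hp)
  rw [mul_left_comm, ← mul_sub, abs_mul, abs_pow, abs_neg, abs_one, one_pow, one_mul, abs_le]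
  have c1 : ((kimgM z (lT S S tr) p).toNat : ℤ) ≤ n₀ * (khlen z S p).toNat + E := by
    exact_mod_cast b1
  have c2 : (n₀ : ℤ) * (khlen z S p).toNat ≤ (kimgM z (lT S S tr) p).toNat + E := by
    exact_mod_cast b2
  constructor <;> linarith

end Vale.Agent.P202
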