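import Vale.Agent.P202.InterfacesM7S

/-!
The long exact sequence of Koszul homology in the exponents of one element.

Every differential in sight is `kd y₀ + t • T` with `y₀` the sequence with `0` at `l` and
`T = kExpK l`; the proof is a computation with `kd y₀`, `T`, the homotopy `H = kap l` and the two
projections `P₁ = kExpA l 0`, `Q = kExpB l 0`.
-/

universe u

namespace Vale.Agent.P202

variable {S : Type*} [CommRing S] {M : Type*} [AddCommGroup M] [Module S M] {d : ℕ}
  (y : Fin d → S) (l : Fin d)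

@[simp] lemma kExpA_apply (c : S) (f : Finset (Fin d) → M) (s : Finset (Fin d)) :
    kExpA l c M f s = if l ∈ s then f s else c • f s := by
  simp only [kExpA, LinearMap.pi_apply]
  split <;> simp

@[simp] lemma kExpB_apply (c : S) (f : Finset (Fin d) → M) (s : Finset (Fin d)) :
    kExpB l c M f s = if l ∈ s then c • f s else f s := by
  simp only [kExpB, LinearMap.pi_apply]
  split <;> simp

@[simp] lemma kExpK_apply (f : Finset (Fin d) → M) (s : Finset (Fin d)) :
    kExpK (S := S) l M f s = if l ∈ s then 0 else ksign l s • f (insert l s) := by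
  simp only [kExpK, LinearMap.pi_apply]
  split <;> simp

lemma mk_kd_update (t : S) (f : Finset (Fin d) → M) :
    kd (Function.update y l t) M f =
      kd (Function.update y l 0) M f + t • kExpK (S := S) l M f := by
  funext s
  simp only [Pi.add_apply, Pi.smul_apply, kd_apply, kExpK_apply]
  by_cases hl : l ∈ s
  · rw [if_pos hl, smul_zero, add_zero]
    refine Finset.sum_congr rfl fun m hm => ?_
    have hne : m ≠ l := fun e => by simp [e, hl] at hm
    rw [Function.update_of_ne hne, Function.update_of_ne hne]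
  · rw [if_neg hl, ← Finset.add_sum_erase _ _ (Finset.mem_compl.2 hl),
      ← Finset.add_sum_erase sᶜ (fun m => ksign m s •
        (Function.update y l 0 m • f (insert m s))) (Finset.mem_compl.2 hl)]
    simp only [Function.update_self, zero_smul, smul_zero, zero_add]
    rw [smul_comm t (ksign l s), add_comm]
    congr 1
    refine Finset.sum_congr rfl fun m hm => ?_
    rw [Function.update_of_ne (Finset.ne_of_mem_erase hm),
      Function.update_of_ne (Finset.ne_of_mem_erase hm)]

lemma mk_kd0_smul (c c' : S) (f : Finset (Fin d) → M) :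
    kd (Function.update y l 0) M (fun s => (if l ∈ s then c else c') • f s) =
      fun s => (if l ∈ s then c else c') • kd (Function.update y l 0) M f s := by
  funext s
  simp only [kd_apply, Finset.smul_sum]
  refine Finset.sum_congr rfl fun m hm => ?_
  by_cases h : m = l
  · subst h
    simp
  · have hi : l ∈ insert m s ↔ l ∈ s := by simp [Ne.symm h]
    simp only [hi]
    rw [smul_comm (if l ∈ s then c else c') (ksign m s),
      smul_comm (if l ∈ s then c else c') (Function.update y l 0 m)]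

lemma mk_kd0_kExpA (c : S) (f : Finset (Fin d) → M) :
    kd (Function.update y l 0) M (kExpA l c M f) =
      kExpA l c M (kd (Function.update y l 0) M f) := by
  have h : ∀ g : Finset (Fin d) → M,
      kExpA l c M g = fun s => (if l ∈ s then (1 : S) else c) • g s := fun g => by
    funext s
    by_cases hl : l ∈ s <;> simp [hl]
  rw [h, h, mk_kd0_smul]

lemma mk_kd0_kExpB (c : S) (f : Finset (Fin d) → M) :
    kd (Function.update y l 0) M (kExpB l c M f) =
      kExpB l c M (kd (Function.update y l 0) M f) := by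
  have h : ∀ g : Finset (Fin d) → M,
      kExpB l c M g = fun s => (if l ∈ s then c else (1 : S)) • g s := fun g => by
    funext s
    by_cases hl : l ∈ s <;> simp [hl]
  rw [h, h, mk_kd0_smul]

lemma mk_kd0_kExpK (f : Finset (Fin d) → M) :
    kd (Function.update y l 0) M (kExpK (S := S) l M f) =
      -kExpK (S := S) l M (kd (Function.update y l 0) M f) := by
  funext s
  simp only [Pi.neg_apply, kd_apply, kExpK_apply]
  by_cases hl : l ∈ s
  · rw [if_pos hl, neg_zero]
    exact Finset.sum_eq_zero fun m _ => by simp [hl]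
  · rw [if_neg hl, Finset.smul_sum, ← Finset.sum_neg_distrib,
      show sᶜ = insert l (insert l s)ᶜ by ext m; by_cases hm : m = l <;> simp [hm, hl],
      Finset.sum_insert (by simp), Function.update_self, zero_smul, smul_zero, zero_add]
    refine Finset.sum_congr rfl fun m hm => ?_
    simp only [Finset.mem_compl, Finset.mem_insert, not_or] at hm
    rw [if_neg (by simp [hl, Ne.symm hm.1]), Finset.insert_comm l m s,
      smul_comm (Function.update y l 0 m) (ksign l (insert m s)), smul_smul, smul_smul,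
      ← neg_smul]
    congr 1
    linear_combination ksign_insert_mul s (Ne.symm hm.1) hl hm.2

lemma mk_kd0_kap (f : Finset (Fin d) → M) :
    kd (Function.update y l 0) M (kap S l f) = -kap S l (kd (Function.update y l 0) M f) := by
  have := kd_kap (Function.update y l 0) l f
  rw [Function.update_self, zero_smul] at this
  exact eq_neg_of_add_eq_zero_left this

section chains

variable {l}

lemma mk_kExpA_mem (c : S) {p : ℕ} {f : Finset (Fin d) → M} (hf : f ∈ kchain S d M p) :
    kExpA l c M f ∈ kchain S d M p := fun s hs => by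
  simp [hf s hs]

lemma mk_kExpB_mem (c : S) {p : ℕ} {f : Finset (Fin d) → M} (hf : f ∈ kchain S d M p) :
    kExpB l c M f ∈ kchain S d M p := fun s hs => by
  simp [hf s hs]

lemma mk_kExpK_mem {p : ℕ} {f : Finset (Fin d) → M} (hf : f ∈ kchain S d M (p + 1)) :
    kExpK (S := S) l M f ∈ kchain S d M p := fun s hs => by
  rw [kExpK_apply]
  split
  · rfl
  · rename_i hl
    rw [hf _ (by rw [Finset.card_insert_of_notMem hl]; omega), smul_zero]

lemma mk_kap_mem {p : ℕ} {f : Finset (Fin d) → M} (hf : f ∈ kchain S d M p) :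
    kap S l f ∈ kchain S d M (p + 1) := fun s hs => by
  rw [kap_apply]
  split
  · rename_i hl
    rw [hf _ (by rw [← Finset.card_erase_add_one hl] at hs; omega), smul_zero]
  · rfl

lemma mk_kd_zero {f : Finset (Fin d) → M} (hf : f ∈ kchain S d M 0) : kd y M f = 0 := by
  funext s
  rw [kd_apply]
  refine Finset.sum_eq_zero fun m hm => ?_
  rw [hf _ (by rw [Finset.card_insert_of_notMem (Finset.mem_compl.1 hm)]; omega), smul_zero,
    smul_zero]

end chains

/-- The long exact sequence of the Koszul homologies in the exponents. -/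
theorem goalKoszulPowExact : GoalKoszulPowExact.{u} := by
  intro S _ M _ _ d y l a b ya yc yb α β κ
  set e := y l ^ a with he
  set c := y l ^ b with hc
  set δ := kd (Function.update y l 0) M with hδ
  have hec : y l ^ (a + b) = e * c := pow_add _ _ _
  have hA : ∀ f, kd ya M f = δ f + e • κ f := mk_kd_update y l e
  have hB : ∀ f, kd yb M f = δ f + c • κ f := mk_kd_update y l c
  have hC : ∀ f, kd yc M f = δ f + (e * c) • κ f := fun f => by
    rw [← hec]; exact mk_kd_update y l _ f
  set P₁ := kExpA (S := S) l 0 M with hP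
  set Q := kExpB (S := S) l 0 M with hQ
  set H := kap (M := M) S l with hH
  -- the rules of the calculus
  have rα : ∀ f, α f = P₁ f + c • Q f := fun f => by
    funext s; by_cases h : l ∈ s <;> simp [α, P₁, Q, c, h]
  have rβ : ∀ f, β f = e • P₁ f + Q f := fun f => by
    funext s; by_cases h : l ∈ s <;> simp [β, P₁, Q, e, h]
  have r1 : ∀ f, f = P₁ f + Q f := fun f => by
    funext s; by_cases h : l ∈ s <;> simp [P₁, Q, h]
  have rδP : ∀ f, δ (P₁ f) = P₁ (δ f) := fun f => mk_kd0_kExpA y l 0 f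
  have rδQ : ∀ f, δ (Q f) = Q (δ f) := fun f => mk_kd0_kExpB y l 0 f
  have rδT : ∀ f, δ (κ f) = -κ (δ f) := fun f => mk_kd0_kExpK y l f
  have rδH : ∀ f, δ (H f) = -H (δ f) := fun f => mk_kd0_kap y l f
  have rTP : ∀ f, κ (P₁ f) = κ f := fun f => by
    funext s; by_cases h : l ∈ s <;> simp [κ, P₁, h]
  have rTQ : ∀ f, κ (Q f) = 0 := fun f => by
    funext s; by_cases h : l ∈ s <;> simp [κ, Q, h]
  have rPT : ∀ f, P₁ (κ f) = 0 := fun f => by
    funext s; by_cases h : l ∈ s <;> simp [κ, P₁, h]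
  have rQT : ∀ f, Q (κ f) = κ f := fun f => by
    funext s; by_cases h : l ∈ s <;> simp [κ, Q, h]
  have rTH : ∀ f, κ (H f) = Q f := fun f => by
    funext s
    by_cases h : l ∈ s
    · simp [κ, Q, h]
    · simp [κ, Q, H, h, kap_apply, smul_smul, ksign_sq_eq_one]
  have rHT : ∀ f, H (κ f) = P₁ f := fun f => by
    funext s
    by_cases h : l ∈ s
    · simp [κ, P₁, H, h, kap_apply, smul_smul, ksign_sq_eq_one]
    · simp [P₁, H, h, kap_apply]
  have cA : ∀ f, kd yc M (α f) = α (kd ya M f) := fun f => by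
    simp only [hA, hC, rα, map_add, map_smul, rδP, rδQ, rTP, rTQ, rPT, rQT]
    module
  have cB : ∀ f, kd yb M (β f) = β (kd yc M f) := fun f => by
    simp only [hB, hC, rβ, map_add, map_smul, rδP, rδQ, rTP, rTQ, rPT, rQT]
    module
  have cK : ∀ f, kd ya M (κ f) = -κ (kd yb M f) := fun f => by
    have h0 : κ (κ f) = 0 := by rw [← rQT f, rTQ]
    simp only [hA, hB, map_add, map_smul, rδT, h0]
    module
  refine ⟨⟨LinearMap.ext fun f => by simp [cA], LinearMap.ext fun f => by simp [cB],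
    LinearMap.ext fun f => by simp [cK]⟩, fun p => ⟨?_, ?_, ?_, ?_⟩, ?_, ?_, ?_, ?_⟩
  · rintro _ ⟨f, hf, rfl⟩; exact mk_kExpA_mem _ hf
  · rintro _ ⟨f, hf, rfl⟩; exact mk_kExpB_mem _ hf
  · rintro _ ⟨f, hf, rfl⟩; exact mk_kExpK_mem hf
  · rw [eq_bot_iff]
    rintro _ ⟨f, hf, rfl⟩
    rw [Submodule.mem_bot]
    funext s
    by_cases h : l ∈ s
    · simp [κ, h]
    · have := hf (insert l s) (by rw [Finset.card_insert_of_notMem h]; omega)
      simp [κ, h, this]
  · intro p z ⟨hz, hzc⟩
    rw [SetLike.mem_coe, LinearMap.mem_ker, hC] at hzc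
    constructor
    · rintro ⟨w, hw, hwz⟩
      rw [SetLike.mem_coe] at hw
      rw [rβ, hB] at hwz
      have h1 := congrArg P₁ hwz
      have h2 := congrArg Q hwz
      have h3 := congrArg P₁ hzc
      simp only [map_add, map_smul, map_zero, ← rδP, ← rδQ, rPT, rQT] at h1 h2 h3
      have hPP : P₁ (P₁ z) = P₁ z ∧ P₁ (Q z) = 0 ∧ Q (P₁ z) = 0 ∧ Q (Q z) = Q z := by
        refine ⟨?_, ?_, ?_, ?_⟩ <;> funext s <;> by_cases h : l ∈ s <;> simp [P₁, Q, h]
      simp only [hPP.1, hPP.2.1, hPP.2.2.1, hPP.2.2.2, smul_zero, add_zero, zero_add] at h1 h2 h3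
      refine Submodule.mem_sup.2 ⟨α (P₁ z + κ w), ⟨P₁ z + κ w,
        ⟨add_mem (mk_kExpA_mem 0 hz) (mk_kExpK_mem hw), ?_⟩, rfl⟩, kd yc M (Q w),
        ⟨Q w, mk_kExpB_mem 0 hw, rfl⟩, ?_⟩
      · rw [SetLike.mem_coe, LinearMap.mem_ker, hA]
        have h0 : κ (κ w) = 0 := by rw [← rQT w, rTQ]
        have h4 : κ (δ w) = e • κ z := by
          have h5 := congrArg κ h1
          simp only [map_smul, rTP] at h5
          rw [rδP, rTP] at h5
          exact h5
        simp only [map_add, rδT, rTP, h0, add_zero, h3, h4]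
        module
      · rw [rα, map_add, map_add, rPT, rQT, hPP.1, hPP.2.2.1, hC, rTQ, smul_zero]
        conv_rhs => rw [r1 z, ← h2]
        module
    · intro h
      obtain ⟨_, ⟨x, ⟨hx, hxc⟩, rfl⟩, _, ⟨v, hv, rfl⟩, rfl⟩ := Submodule.mem_sup.1 h
      rw [SetLike.mem_coe, LinearMap.mem_ker, hA] at hxc
      refine ⟨H x + β v, add_mem (mk_kap_mem hx) (mk_kExpB_mem _ hv), ?_⟩
      have h5 : H (δ x) = -(e • P₁ x) := by
        rw [← rHT x, ← map_smul, ← map_neg, eq_neg_of_add_eq_zero_left hxc]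
      have hPP : P₁ (P₁ x) = P₁ x ∧ P₁ (Q x) = 0 ∧ Q (P₁ x) = 0 ∧ Q (Q x) = Q x := by
        refine ⟨?_, ?_, ?_, ?_⟩ <;> funext s <;> by_cases h : l ∈ s <;> simp [P₁, Q, h]
      rw [map_add, map_add, cB, hB, rδH, rTH, h5]
      simp only [rα, rβ, map_add, map_smul, hPP.1, hPP.2.1, hPP.2.2.1, hPP.2.2.2]
      module
  · intro p z ⟨hz, hzc⟩
    rw [SetLike.mem_coe, LinearMap.mem_ker, hB] at hzc
    constructor
    · rintro ⟨w, hw, hwz⟩
      rw [hA] at hwz
      have hw' : δ w = κ z - e • κ w := eq_sub_of_add_eq hwz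
      have hPP : ∀ w, P₁ (P₁ w) = P₁ w ∧ P₁ (Q w) = 0 ∧ Q (P₁ w) = 0 ∧ Q (Q w) = Q w := fun w => by
        refine ⟨?_, ?_, ?_, ?_⟩ <;> funext s <;> by_cases h : l ∈ s <;> simp [P₁, Q, h]
      refine Submodule.mem_sup.2 ⟨β (Q z + c • Q w + P₁ w), ⟨Q z + c • Q w + P₁ w,
        ⟨add_mem (add_mem (mk_kExpB_mem 0 hz) (Submodule.smul_mem _ _ (mk_kExpB_mem 0 hw)))
          (mk_kExpA_mem 0 hw), ?_⟩, rfl⟩, kd yb M (-H w), ⟨-H w, neg_mem (mk_kap_mem hw), rfl⟩, ?_⟩
      · rw [SetLike.mem_coe, LinearMap.mem_ker, hC]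
        have h3 : δ z = -(c • κ z) := eq_neg_of_add_eq_zero_left hzc
        simp only [map_add, map_smul, map_neg, map_sub, rδQ, rδP, rTQ, rTP, h3, hw', rQT, rPT]
        module
      · rw [rβ, hB]
        simp only [map_add, map_smul, map_neg, map_sub, rδH, hw', rHT, rTH, (hPP z).2.1,
          (hPP z).2.2.2, (hPP w).1, (hPP w).2.1, (hPP w).2.2.1, (hPP w).2.2.2]
        conv_rhs => rw [r1 z]
        module
    · intro h
      obtain ⟨_, ⟨x, ⟨hx, hxc⟩, rfl⟩, _, ⟨v, hv, rfl⟩, rfl⟩ := Submodule.mem_sup.1 h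
      rw [SetLike.mem_coe, LinearMap.mem_ker, hC] at hxc
      refine ⟨P₁ x - κ v, sub_mem (mk_kExpA_mem 0 hx) (mk_kExpK_mem hv), ?_⟩
      have h3 : δ x = -((e * c) • κ x) := eq_neg_of_add_eq_zero_left hxc
      have h0 : κ (κ v) = 0 := by rw [← rQT v, rTQ]
      rw [map_sub, cK, map_add, hA, rδP, h3, map_neg, map_smul, rPT, rTP, rβ, map_add, map_smul,
        rTP, rTQ]
      module
  · intro z hz
    refine Submodule.mem_sup_left ⟨z, ⟨hz.1, ?_⟩, ?_⟩
    · rw [SetLike.mem_coe, LinearMap.mem_ker]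
      exact mk_kd_zero yc hz.1
    · funext s
      by_cases h : l ∈ s
      · have := hz.1 s (Finset.card_ne_zero.2 ⟨l, h⟩)
        simp [β, h, this]
      · simp [β, h]
  · intro p z ⟨hz, hzc⟩
    rw [SetLike.mem_coe, LinearMap.mem_ker, hA] at hzc
    constructor
    · rintro ⟨w, hw, hwz⟩
      rw [hC, rα] at hwz
      have hPP : ∀ w, P₁ (P₁ w) = P₁ w ∧ P₁ (Q w) = 0 ∧ Q (P₁ w) = 0 ∧ Q (Q w) = Q w := fun w => by
        refine ⟨?_, ?_, ?_, ?_⟩ <;> funext s <;> by_cases h : l ∈ s <;> simp [P₁, Q, h]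
      have h1 := congrArg P₁ hwz
      have h2 := congrArg Q hwz
      simp only [map_add, map_smul, rPT, rQT, (hPP z).1, (hPP z).2.1, (hPP z).2.2.1,
        (hPP z).2.2.2, smul_zero, add_zero, zero_add] at h1 h2
      refine Submodule.mem_sup.2 ⟨κ (H z - e • P₁ w - Q w), ⟨H z - e • P₁ w - Q w,
        ⟨sub_mem (sub_mem (mk_kap_mem hz) (Submodule.smul_mem _ _ (mk_kExpA_mem 0 hw)))
          (mk_kExpB_mem 0 hw), ?_⟩, rfl⟩, kd ya M (P₁ w), ⟨P₁ w, mk_kExpA_mem 0 hw, rfl⟩, ?_⟩
      · rw [SetLike.mem_coe, LinearMap.mem_ker, hB]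
        have h3 : δ z = -(e • κ z) := eq_neg_of_add_eq_zero_left hzc
        simp only [map_sub, map_smul, map_neg, rδH, rδP, rδQ, h3, rHT, rTH, rTP, rTQ, h1,
          eq_sub_of_add_eq h2]
        module
      · rw [hA]
        simp only [map_sub, map_smul, rTH, rTP, rTQ, rδP, h1]
        conv_rhs => rw [r1 z]
        module
    · intro h
      obtain ⟨_, ⟨x, ⟨hx, hxc⟩, rfl⟩, _, ⟨v, hv, rfl⟩, rfl⟩ := Submodule.mem_sup.1 h
      rw [SetLike.mem_coe, LinearMap.mem_ker, hB] at hxc
      refine ⟨α v - Q x, sub_mem (mk_kExpA_mem _ hv) (mk_kExpB_mem 0 hx), ?_⟩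
      have h3 : δ x = -(c • κ x) := eq_neg_of_add_eq_zero_left hxc
      rw [map_sub, cA, map_add, hC, rδQ, h3, map_neg, map_smul, rQT, rTQ, rα (κ x), rPT, rQT]
      module

end Vale.Agent.P202
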