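import Vale.Agent.P202.M10Img
import Vale.Agent.P202.M7Calc
import Vale.Agent.P202.MFKoszulPow

/-!
Multiplicativity in the exponents of the alternating sum of image lengths in Koszul homology, for
three stages `M₁ → M₂ → M₃` whose two steps have almost the image of the composite.
-/

universe u v

namespace Vale.Agent.P202

open Finset

section Gen

variable {P : Type u} [CommRing P] {U₁ U₂ U₃ V₁ V₂ V₃ W₁ W₂ W₃ : Type v}
  [AddCommGroup U₁] [Module P U₁] [AddCommGroup U₂] [Module P U₂]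
  [AddCommGroup U₃] [Module P U₃] [IsNoetherian P U₃] [IsArtinian P U₃]
  [AddCommGroup V₁] [Module P V₁]
  [AddCommGroup V₂] [Module P V₂] [IsNoetherian P V₂] [IsArtinian P V₂]
  [AddCommGroup V₃] [Module P V₃] [IsNoetherian P V₃] [IsArtinian P V₃]
  [AddCommGroup W₁] [Module P W₁]
  [AddCommGroup W₂] [Module P W₂] [IsNoetherian P W₂] [IsArtinian P W₂]
  [AddCommGroup W₃] [Module P W₃]

/-- At a place exact in the second stage, the image of the composite splits almost exactly. -/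
theorem img_split {f₁ : U₁ →ₗ[P] V₁} {f₂ : U₂ →ₗ[P] V₂} {f₃ : U₃ →ₗ[P] V₃}
    {g₁ : V₁ →ₗ[P] W₁} {g₂ : V₂ →ₗ[P] W₂} {g₃ : V₃ →ₗ[P] W₃}
    {tU : U₁ →ₗ[P] U₂} {sU : U₂ →ₗ[P] U₃} {tV : V₁ →ₗ[P] V₂} {sV : V₂ →ₗ[P] V₃}
    {tW : W₁ →ₗ[P] W₂} {sW : W₂ →ₗ[P] W₃}
    (h₁ : f₂ ∘ₗ tU = tV ∘ₗ f₁) (h₂ : f₃ ∘ₗ sU = sV ∘ₗ f₂) (h₃ : g₂ ∘ₗ tV = tW ∘ₗ g₁)
    (h₄ : g₃ ∘ₗ sV = sW ∘ₗ g₂) (hex : Function.Exact f₂ g₂) (hc : g₃ ∘ₗ f₃ = 0) {η : ℕ}
    (hU : len P ↥(LinearMap.range sU) ≤ len P ↥(LinearMap.range (sU ∘ₗ tU)) + η)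
    (hW : len P ↥(LinearMap.range tW) ≤ len P ↥(LinearMap.range (sW ∘ₗ tW)) + η) :
    len P ↥((LinearMap.range (sU ∘ₗ tU)).map f₃) + len P ↥((LinearMap.range (sV ∘ₗ tV)).map g₃) ≤
        len P ↥(LinearMap.range (sV ∘ₗ tV)) ∧
      len P ↥(LinearMap.range (sV ∘ₗ tV)) ≤
        len P ↥((LinearMap.range (sU ∘ₗ tU)).map f₃) +
          len P ↥((LinearMap.range (sV ∘ₗ tV)).map g₃) + 2 * η := by
  have e₁ := LinearMap.congr_fun h₁
  have e₂ := LinearMap.congr_fun h₂
  have e₃ := LinearMap.congr_fun h₃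
  have e₄ := LinearMap.congr_fun h₄
  simp only [LinearMap.comp_apply] at e₁ e₂ e₃ e₄
  have hsplit := M7.len_split g₃ (LinearMap.range (sV ∘ₗ tV))
  refine ⟨?_, ?_⟩
  · rw [hsplit, add_comm]
    refine Nat.add_le_add_left (M7.len_mono ?_) _
    rintro _ ⟨_, ⟨x, rfl⟩, rfl⟩
    refine ⟨⟨f₁ x, ?_⟩, ?_⟩
    · simp only [LinearMap.comp_apply]
      rw [e₂, e₁]
    · exact LinearMap.mem_ker.2 (LinearMap.congr_fun hc _)
  · -- classes killed by `g₃`
    set B := LinearMap.range tV ⊓ LinearMap.ker (g₃ ∘ₗ sV)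
    have hsub : LinearMap.range (sV ∘ₗ tV) ⊓ LinearMap.ker g₃ ≤ B.map sV := by
      rintro _ ⟨⟨x, rfl⟩, hx⟩
      exact ⟨tV x, ⟨⟨x, rfl⟩, hx⟩, rfl⟩
    have h5 := M7.len_mono hsub
    have h6 := M7.map_le_add sV g₂ B
    -- the image under `g₂` is small
    have h7 : B.map g₂ ≤ LinearMap.range tW ⊓ LinearMap.ker sW := by
      rintro _ ⟨_, ⟨⟨x, rfl⟩, hx⟩, rfl⟩
      exact ⟨⟨g₁ x, (e₃ x).symm⟩, LinearMap.mem_ker.2 ((e₄ _).symm.trans hx)⟩
    have h8 := M7.len_mono h7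
    have h9 := M7.len_split sW (LinearMap.range tW)
    rw [← LinearMap.range_comp] at h9
    -- the kernel of `g₂` comes from `f₂`
    have h10 : (B ⊓ LinearMap.ker g₂).map sV ≤ (LinearMap.range sU).map f₃ := by
      rintro _ ⟨b, ⟨-, hb⟩, rfl⟩
      obtain ⟨u, rfl⟩ := (hex b).1 (LinearMap.mem_ker.1 hb)
      exact ⟨sU u, ⟨u, rfl⟩, e₂ u⟩
    have h11 := M7.len_mono h10
    have h12 := M7.key f₃ (LinearMap.range_comp_le_range tU sU)
    omega

end Gen

section Hk

variable {S : Type u} [CommRing S] {d : ℕ}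

/-- The Koszul homology module. -/
abbrev Hk (z : Fin d → S) (M : Type u) [AddCommGroup M] [Module S M] (p : ℕ) : Type u :=
  ↥(kcyc z M p) ⧸ (kbd z M p).comap (kcyc z M p).subtype

variable {M N : Type u} [AddCommGroup M] [Module S M] [AddCommGroup N] [Module S N]

lemma sq_bot_right {A : Type u} [AddCommGroup A] [Module S A] (N : Submodule S A) :
    sq S N ⊥ = Module.length S ↥N := by
  rw [sq, Submodule.comap_bot, Submodule.ker_subtype]
  exact (Submodule.quotEquivOfEqBot ⊥ rfl).length_eq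

/-- A map of chains on homology. -/
def hkMap (z : Fin d → S) (z' : Fin d → S) (φ : (Finset (Fin d) → M) →ₗ[S] (Finset (Fin d) → N))
    (p q : ℕ) (hZ : (kcyc z M p).map φ ≤ kcyc z' N q) (hB : (kbd z M p).map φ ≤ kbd z' N q) :
    Hk z M p →ₗ[S] Hk z' N q :=
  Submodule.mapQ _ _ (φ.restrict fun _ hv => hZ (Submodule.mem_map_of_mem hv))
    fun _ hx => hB (Submodule.mem_map_of_mem hx)

/-- A map of modules on homology. -/
def hkF (z : Fin d → S) (φ : M →ₗ[S] N) (p : ℕ) : Hk z M p →ₗ[S] Hk z N p :=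
  hkMap z z (kmap d φ) p p (kmap_kcyc_le z φ p) (kmap_kbd_le z φ p)

lemma kimgM_eq_range (z : Fin d → S) (φ : M →ₗ[S] N) (p : ℕ) :
    kimgM z φ p = Module.length S ↥(LinearMap.range (hkF z φ p)) := by
  have h : (LinearMap.range (hkF z φ p)) = ((((kcyc z M p).map (kmap d φ)).comap
      (kcyc z N p).subtype)).map ((kbd z N p).comap (kcyc z N p).subtype).mkQ := by
    ext x
    constructor
    · rintro ⟨v, rfl⟩
      obtain ⟨v, rfl⟩ := Submodule.mkQ_surjective _ v
      exact ⟨⟨_, kmap_kcyc_le z φ p (Submodule.mem_map_of_mem v.2)⟩,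
        Submodule.mem_map_of_mem v.2, rfl⟩
    · rintro ⟨w, ⟨v, hv, hvw⟩, rfl⟩
      exact ⟨Submodule.Quotient.mk ⟨v, hv⟩, congrArg (Submodule.mkQ _) (Subtype.ext hvw)⟩
  rw [h, kimgM, ← sq_comap_subtype (kcyc z N p) _ _ (kmap_kcyc_le z φ p)]
  conv_lhs => rw [← Submodule.ker_mkQ ((kbd z N p).comap (kcyc z N p).subtype),
    ← Submodule.comap_bot, ← sq_map]
  exact sq_bot_right _

end Hk

section Mult

variable {S : Type u} [CommRing S] {d : ℕ}

/-- The sequence of powers. -/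
def powS (y : Fin d → S) (a : Fin d → ℕ) : Fin d → S := fun l => y l ^ a l

/-- The alternating sum of the image lengths. -/
noncomputable def kchiImg (y : Fin d → S) {M N : Type u} [AddCommGroup M] [Module S M]
    [AddCommGroup N] [Module S N] (φ : M →ₗ[S] N) : ℤ :=
  ∑ p ∈ Finset.range (d + 1), (-1 : ℤ) ^ p * ((kimgM y φ p).toNat : ℤ)

variable {M₁ M₂ M₃ : Type u} [AddCommGroup M₁] [Module S M₁] [AddCommGroup M₂] [Module S M₂]
  [IsNoetherian S M₂] [IsArtinian S M₂] [AddCommGroup M₃] [Module S M₃] [IsNoetherian S M₃]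
  [IsArtinian S M₃] (t : M₁ →ₗ[S] M₂) (s : M₂ →ₗ[S] M₃)

/-- Both steps have almost the image of the composite. -/
def ImgStable (z : Fin d → S) (η : ℕ) : Prop :=
  ∀ p, (kimgM z t p).toNat ≤ (kimgM z (s ∘ₗ t) p).toNat + η ∧
    (kimgM z s p).toNat ≤ (kimgM z (s ∘ₗ t) p).toNat + η

lemma len_range_hkF {A B : Type u} [AddCommGroup A] [Module S A] [AddCommGroup B] [Module S B]
    (z : Fin d → S) (φ : A →ₗ[S] B) (p : ℕ) :
    len S ↥(LinearMap.range (hkF z φ p)) = (kimgM z φ p).toNat := by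
  rw [len, kimgM_eq_range]

lemma hkF_comp (z : Fin d → S) (p : ℕ) :
    hkF z (s ∘ₗ t) p = hkF z s p ∘ₗ hkF z t p :=
  Submodule.linearMap_qext _ (LinearMap.ext fun _ => rfl)

variable {t s}

/-- One step of the multiplicativity. -/
theorem kchiImg_add (y : Fin d → S) (l : Fin d) (a b : ℕ) {η : ℕ}
    (ha : ImgStable t s (Function.update y l (y l ^ a)) η)
    (hc : ImgStable t s (Function.update y l (y l ^ (a + b))) η)
    (hb : ImgStable t s (Function.update y l (y l ^ b)) η) :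
    |kchiImg (Function.update y l (y l ^ (a + b))) (s ∘ₗ t) -
        kchiImg (Function.update y l (y l ^ a)) (s ∘ₗ t) -
        kchiImg (Function.update y l (y l ^ b)) (s ∘ₗ t)| ≤ ((d + 1) * (4 * η) : ℕ) := by
  set ya := Function.update y l (y l ^ a) with hya
  set yc := Function.update y l (y l ^ (a + b)) with hyc
  set yb := Function.update y l (y l ^ b) with hyb
  -- the three maps at any module
  have fα : ∀ (M : Type u) [AddCommGroup M] [Module S M] (p : ℕ),
      (kcyc ya M p).map (kExpA l (y l ^ b) M) ≤ kcyc yc M p ∧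
      (kbd ya M p).map (kExpA l (y l ^ b) M) ≤ kbd yc M p := by
    intro M _ _ p
    obtain ⟨⟨c₁, -, -⟩, hch, -⟩ := goalKoszulPowExact S M d y l a b
    refine ⟨?_, ?_⟩
    · rintro _ ⟨v, hv, rfl⟩
      refine ⟨(hch p).1 (Submodule.mem_map_of_mem hv.1), LinearMap.mem_ker.2 ?_⟩
      have := LinearMap.congr_fun c₁ v
      rw [LinearMap.comp_apply, LinearMap.comp_apply, LinearMap.mem_ker.1 hv.2, map_zero] at this
      exact this
    · rintro _ ⟨_, ⟨v, hv, rfl⟩, rfl⟩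
      exact ⟨_, (hch (p + 1)).1 (Submodule.mem_map_of_mem hv), LinearMap.congr_fun c₁ v⟩
  have fβ : ∀ (M : Type u) [AddCommGroup M] [Module S M] (p : ℕ),
      (kcyc yc M p).map (kExpB l (y l ^ a) M) ≤ kcyc yb M p ∧
      (kbd yc M p).map (kExpB l (y l ^ a) M) ≤ kbd yb M p := by
    intro M _ _ p
    obtain ⟨⟨-, c₂, -⟩, hch, -⟩ := goalKoszulPowExact S M d y l a b
    refine ⟨?_, ?_⟩
    · rintro _ ⟨v, hv, rfl⟩
      refine ⟨(hch p).2.1 (Submodule.mem_map_of_mem hv.1), LinearMap.mem_ker.2 ?_⟩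
      have := LinearMap.congr_fun c₂ v
      rw [LinearMap.comp_apply, LinearMap.comp_apply, LinearMap.mem_ker.1 hv.2, map_zero] at this
      exact this
    · rintro _ ⟨_, ⟨v, hv, rfl⟩, rfl⟩
      exact ⟨_, (hch (p + 1)).2.1 (Submodule.mem_map_of_mem hv), LinearMap.congr_fun c₂ v⟩
  have fκ : ∀ (M : Type u) [AddCommGroup M] [Module S M] (p : ℕ),
      (kcyc yb M (p + 1)).map (kExpK l M) ≤ kcyc ya M p ∧
      (kbd yb M (p + 1)).map (kExpK l M) ≤ kbd ya M p := by
    intro M _ _ p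
    obtain ⟨⟨-, -, c₃⟩, hch, -⟩ := goalKoszulPowExact S M d y l a b
    refine ⟨?_, ?_⟩
    · rintro _ ⟨v, hv, rfl⟩
      refine ⟨(hch p).2.2.1 (Submodule.mem_map_of_mem hv.1), LinearMap.mem_ker.2 ?_⟩
      have := LinearMap.congr_fun c₃ v
      rw [LinearMap.comp_apply, LinearMap.neg_apply, LinearMap.comp_apply,
        LinearMap.mem_ker.1 hv.2, map_zero, neg_zero] at this
      exact this
    · rintro _ ⟨_, ⟨v, hv, rfl⟩, rfl⟩
      refine ⟨-kExpK l M v, neg_mem ((hch (p + 1)).2.2.1 (Submodule.mem_map_of_mem hv)), ?_⟩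
      rw [map_neg, ← LinearMap.comp_apply, c₃, LinearMap.neg_apply, neg_neg]
      rfl
  let α : ∀ (M : Type u) [AddCommGroup M] [Module S M] (p : ℕ), Hk ya M p →ₗ[S] Hk yc M p :=
    fun M _ _ p => hkMap ya yc (kExpA l (y l ^ b) M) p p (fα M p).1 (fα M p).2
  let β : ∀ (M : Type u) [AddCommGroup M] [Module S M] (p : ℕ), Hk yc M p →ₗ[S] Hk yb M p :=
    fun M _ _ p => hkMap yc yb (kExpB l (y l ^ a) M) p p (fβ M p).1 (fβ M p).2
  let κ : ∀ (M : Type u) [AddCommGroup M] [Module S M] (p : ℕ),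
      Hk yb M (p + 1) →ₗ[S] Hk ya M p :=
    fun M _ _ p => hkMap yb ya (kExpK l M) (p + 1) p (fκ M p).1 (fκ M p).2
  -- naturality
  have natα : ∀ {A B : Type u} [AddCommGroup A] [Module S A] [AddCommGroup B] [Module S B]
      (φ : A →ₗ[S] B) p, α B p ∘ₗ hkF ya φ p = hkF yc φ p ∘ₗ α A p := fun φ p =>
    Submodule.linearMap_qext _ (LinearMap.ext fun v => congrArg (Submodule.Quotient.mk)
      (Subtype.ext (funext fun s => by
        show kExpA l (y l ^ b) _ (kmap d φ v.1) s = φ (kExpA l (y l ^ b) _ v.1 s)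
        simp only [kExpA_apply, kmap_apply]; split <;> simp)))
  have natβ : ∀ {A B : Type u} [AddCommGroup A] [Module S A] [AddCommGroup B] [Module S B]
      (φ : A →ₗ[S] B) p, β B p ∘ₗ hkF yc φ p = hkF yb φ p ∘ₗ β A p := fun φ p =>
    Submodule.linearMap_qext _ (LinearMap.ext fun v => congrArg (Submodule.Quotient.mk)
      (Subtype.ext (funext fun s => by
        show kExpB l (y l ^ a) _ (kmap d φ v.1) s = φ (kExpB l (y l ^ a) _ v.1 s)
        simp only [kExpB_apply, kmap_apply]; split <;> simp)))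
  have natκ : ∀ {A B : Type u} [AddCommGroup A] [Module S A] [AddCommGroup B] [Module S B]
      (φ : A →ₗ[S] B) p, κ B p ∘ₗ hkF yb φ (p + 1) = hkF ya φ p ∘ₗ κ A p := fun φ p =>
    Submodule.linearMap_qext _ (LinearMap.ext fun v => congrArg (Submodule.Quotient.mk)
      (Subtype.ext (funext fun s => by
        show kExpK l _ (kmap d φ v.1) s = φ (kExpK l _ v.1 s)
        simp only [kExpK_apply, kmap_apply]; split <;> simp)))
  -- exactness
  have exC : ∀ (M : Type u) [AddCommGroup M] [Module S M] p,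
      Function.Exact (α M p) (β M p) := by
    intro M _ _ p x
    obtain ⟨-, -, e, -⟩ := goalKoszulPowExact S M d y l a b
    obtain ⟨z, rfl⟩ := Submodule.mkQ_surjective _ x
    refine Iff.trans (Submodule.Quotient.mk_eq_zero _) ((e p z.1 z.2).trans ⟨?_, ?_⟩)
    · intro h
      obtain ⟨_, ⟨w, hw, rfl⟩, r, hr, hwr⟩ := Submodule.mem_sup.1 h
      refine ⟨Submodule.Quotient.mk ⟨w, hw⟩, (Submodule.Quotient.eq _).2 ?_⟩
      show kExpA l (y l ^ b) M w - z.1 ∈ kbd yc M p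
      rw [← hwr, sub_add_cancel_left]; exact neg_mem hr
    · rintro ⟨v, hv⟩
      obtain ⟨w, rfl⟩ := Submodule.mkQ_surjective _ v
      have hv' : kExpA l (y l ^ b) M w.1 - z.1 ∈ kbd yc M p :=
        (Submodule.Quotient.eq ((kbd yc M p).comap (kcyc yc M p).subtype)).1 hv
      rw [← sub_sub_cancel (kExpA l (y l ^ b) M w.1) z.1, sub_eq_add_neg]
      exact Submodule.add_mem_sup (Submodule.mem_map_of_mem w.2) (neg_mem hv')
  have exB : ∀ (M : Type u) [AddCommGroup M] [Module S M] p,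
      Function.Exact (β M (p + 1)) (κ M p) := by
    intro M _ _ p x
    obtain ⟨-, -, -, e, -⟩ := goalKoszulPowExact S M d y l a b
    obtain ⟨z, rfl⟩ := Submodule.mkQ_surjective _ x
    refine Iff.trans (Submodule.Quotient.mk_eq_zero _) ((e p z.1 z.2).trans ⟨?_, ?_⟩)
    · intro h
      obtain ⟨_, ⟨w, hw, rfl⟩, r, hr, hwr⟩ := Submodule.mem_sup.1 h
      refine ⟨Submodule.Quotient.mk ⟨w, hw⟩, (Submodule.Quotient.eq _).2 ?_⟩
      show kExpB l (y l ^ a) M w - z.1 ∈ kbd yb M (p + 1)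
      rw [← hwr, sub_add_cancel_left]; exact neg_mem hr
    · rintro ⟨v, hv⟩
      obtain ⟨w, rfl⟩ := Submodule.mkQ_surjective _ v
      have hv' : kExpB l (y l ^ a) M w.1 - z.1 ∈ kbd yb M (p + 1) :=
        (Submodule.Quotient.eq ((kbd yb M (p + 1)).comap (kcyc yb M (p + 1)).subtype)).1 hv
      rw [← sub_sub_cancel (kExpB l (y l ^ a) M w.1) z.1, sub_eq_add_neg]
      exact Submodule.add_mem_sup (Submodule.mem_map_of_mem w.2) (neg_mem hv')
  have exA : ∀ (M : Type u) [AddCommGroup M] [Module S M] p,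
      Function.Exact (κ M p) (α M p) := by
    intro M _ _ p x
    obtain ⟨-, -, -, -, -, e⟩ := goalKoszulPowExact S M d y l a b
    obtain ⟨z, rfl⟩ := Submodule.mkQ_surjective _ x
    refine Iff.trans (Submodule.Quotient.mk_eq_zero _) ((e p z.1 z.2).trans ⟨?_, ?_⟩)
    · intro h
      obtain ⟨_, ⟨w, hw, rfl⟩, r, hr, hwr⟩ := Submodule.mem_sup.1 h
      refine ⟨Submodule.Quotient.mk ⟨w, hw⟩, (Submodule.Quotient.eq _).2 ?_⟩
      show kExpK l M w - z.1 ∈ kbd ya M p
      rw [← hwr, sub_add_cancel_left]; exact neg_mem hr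
    · rintro ⟨v, hv⟩
      obtain ⟨w, rfl⟩ := Submodule.mkQ_surjective _ v
      have hv' : kExpK l M w.1 - z.1 ∈ kbd ya M p :=
        (Submodule.Quotient.eq ((kbd ya M p).comap (kcyc ya M p).subtype)).1 hv
      rw [← sub_sub_cancel (kExpK (S := S) l M w.1) z.1, sub_eq_add_neg]
      exact Submodule.add_mem_sup (Submodule.mem_map_of_mem w.2) (neg_mem hv')
  have exB0 : Function.Exact (β M₂ 0) (0 : Hk yb M₂ 0 →ₗ[S] Hk yb M₂ 0) := by
    obtain ⟨-, -, -, -, e, -⟩ := goalKoszulPowExact S M₂ d y l a b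
    refine fun x => ⟨fun _ => ?_, fun _ => rfl⟩
    obtain ⟨z, rfl⟩ := Submodule.mkQ_surjective _ x
    obtain ⟨_, ⟨w, hw, rfl⟩, r, hr, hwr⟩ := Submodule.mem_sup.1 (e z.1 z.2)
    refine ⟨Submodule.Quotient.mk ⟨w, hw⟩, (Submodule.Quotient.eq _).2 ?_⟩
    show kExpB l (y l ^ a) M₂ w - z.1 ∈ kbd yb M₂ 0
    rw [← hwr, sub_add_cancel_left]; exact neg_mem hr
  have cA : ∀ p, α M₃ p ∘ₗ κ M₃ p = 0 := fun p =>
    LinearMap.ext fun x => (exA M₃ p _).2 ⟨x, rfl⟩
  have cC : ∀ p, β M₃ p ∘ₗ α M₃ p = 0 := fun p =>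
    LinearMap.ext fun x => (exC M₃ p _).2 ⟨x, rfl⟩
  have cB : ∀ p, κ M₃ p ∘ₗ β M₃ (p + 1) = 0 := fun p =>
    LinearMap.ext fun x => (exB M₃ p _).2 ⟨x, rfl⟩
  -- the stability in the form of `img_split`
  have st : ∀ {z : Fin d → S}, ImgStable t s z η → ∀ p,
      len S ↥(LinearMap.range (hkF z t p)) ≤
          len S ↥(LinearMap.range (hkF z s p ∘ₗ hkF z t p)) + η ∧
        len S ↥(LinearMap.range (hkF z s p)) ≤
          len S ↥(LinearMap.range (hkF z s p ∘ₗ hkF z t p)) + η := by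
    intro z hz p
    rw [← hkF_comp, len_range_hkF, len_range_hkF, len_range_hkF]
    exact hz p
  -- the ranks of the three maps on the images
  let Ia : ∀ p, Submodule S (Hk ya M₃ p) := fun p =>
    LinearMap.range (hkF ya s p ∘ₗ hkF ya t p)
  let Ic : ∀ p, Submodule S (Hk yc M₃ p) := fun p =>
    LinearMap.range (hkF yc s p ∘ₗ hkF yc t p)
  let Ib : ∀ p, Submodule S (Hk yb M₃ p) := fun p =>
    LinearMap.range (hkF yb s p ∘ₗ hkF yb t p)
  let rα : ℕ → ℕ := fun p => len S ↥((Ia p).map (α M₃ p))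
  let rβ : ℕ → ℕ := fun p => len S ↥((Ic p).map (β M₃ p))
  let rκ : ℕ → ℕ := fun p => len S ↥((Ib (p + 1)).map (κ M₃ p))
  have pC : ∀ p, rα p + rβ p ≤ len S ↥(Ic p) ∧ len S ↥(Ic p) ≤ rα p + rβ p + 2 * η := fun p =>
    img_split (natα t p) (natα s p) (natβ t p) (natβ s p) (exC M₂ p) (cC p)
      (st ha p).2 (st hb p).1
  have pB : ∀ p, rβ (p + 1) + rκ p ≤ len S ↥(Ib (p + 1)) ∧
      len S ↥(Ib (p + 1)) ≤ rβ (p + 1) + rκ p + 2 * η := fun p =>
    img_split (natβ t (p + 1)) (natβ s (p + 1)) (natκ t p) (natκ s p) (exB M₂ p) (cB p)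
      (st hc (p + 1)).2 (st ha p).1
  have pA : ∀ p, rκ p + rα p ≤ len S ↥(Ia p) ∧ len S ↥(Ia p) ≤ rκ p + rα p + 2 * η := fun p =>
    img_split (natκ t p) (natκ s p) (natα t p) (natα s p) (exA M₂ p) (cA p)
      (st hb (p + 1)).2 (st hc p).1
  have pB0 : rβ 0 ≤ len S ↥(Ib 0) ∧ len S ↥(Ib 0) ≤ rβ 0 + 2 * η := by
    have h := img_split (g₁ := (0 : Hk yb M₁ 0 →ₗ[S] Hk yb M₁ 0))
      (g₃ := (0 : Hk yb M₃ 0 →ₗ[S] Hk yb M₃ 0)) (tW := hkF yb t 0) (sW := hkF yb s 0)
      (natβ t 0) (natβ s 0) (by simp) (by simp) exB0 (by simp) (st hc 0).2 (st hb 0).1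
    have hz : len S ↥((Ib 0).map (0 : Hk yb M₃ 0 →ₗ[S] Hk yb M₃ 0)) = 0 := by
      rw [Submodule.map_zero, len, Module.length_eq_zero]; rfl
    simp only [rβ, Ic, Ib] at hz ⊢
    omega
  have hκd : rκ d = 0 := by
    have : Subsingleton (Hk yb M₃ (d + 1)) := by
      have hbot : kcyc yb M₃ (d + 1) = ⊥ := by
        rw [eq_bot_iff, ← kchain_eq_bot (A := S) (M := M₃) (show d < d + 1 by omega)]
        exact inf_le_left
      haveI : Subsingleton ↥(kcyc yb M₃ (d + 1)) := by rw [hbot]; infer_instance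
      exact (Submodule.mkQ_surjective _).subsingleton
    have he : (Ib (d + 1)).map (κ M₃ d) = ⊥ := by
      rw [eq_bot_iff]
      rintro _ ⟨x, -, rfl⟩
      rw [Subsingleton.elim x 0, map_zero]
      exact zero_mem _
    simp only [rκ]
    rw [he, len, Module.length_eq_zero]; rfl
  -- telescope
  have hI : ∀ (z : Fin d → S), kchiImg z (s ∘ₗ t) = ∑ p ∈ Finset.range (d + 1),
      (-1 : ℤ) ^ p * (len S ↥(LinearMap.range (hkF z s p ∘ₗ hkF z t p)) : ℤ) := fun z => by
    refine Finset.sum_congr rfl fun p _ => ?_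
    rw [← hkF_comp, len_range_hkF]
  rw [hI, hI, hI]
  have key : ∀ k, |∑ p ∈ Finset.range (k + 1), ((-1 : ℤ) ^ p * (len S ↥(Ic p) : ℤ) -
      (-1 : ℤ) ^ p * (len S ↥(Ia p) : ℤ) - (-1 : ℤ) ^ p * (len S ↥(Ib p) : ℤ)) +
        (-1 : ℤ) ^ k * rκ k| ≤ ((k + 1) * (4 * η) : ℕ) := by
    intro k
    induction k with
    | zero =>
      obtain ⟨c1, c2⟩ := pC 0
      obtain ⟨a1, a2⟩ := pA 0
      obtain ⟨b1, b2⟩ := pB0
      simp only [zero_add, Finset.sum_range_one, pow_zero, one_mul]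
      rw [abs_le]
      omega
    | succ k ih =>
      obtain ⟨c1, c2⟩ := pC (k + 1)
      obtain ⟨a1, a2⟩ := pA (k + 1)
      obtain ⟨b1, b2⟩ := pB k
      rw [Finset.sum_range_succ]
      rw [abs_le] at ih ⊢
      rcases neg_one_pow_eq_or ℤ k with h | h <;>
        · simp only [pow_succ, h] at ih ⊢
          push_cast at ih ⊢
          constructor <;> linarith
  have h := key d
  rw [hκd, Nat.cast_zero, mul_zero, add_zero, Finset.sum_sub_distrib, Finset.sum_sub_distrib] at h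
  exact h

/-- The alternating sum of the image lengths is almost multiplicative in the exponents. -/
theorem kchiImg_pow (y : Fin d → S) {η : ℕ} {n : ℕ}
    (h : ∀ a : Fin d → ℕ, (∀ l, 1 ≤ a l ∧ a l ≤ n) → ImgStable t s (powS y a) η)
    (a : Fin d → ℕ) (ha : ∀ l, 1 ≤ a l ∧ a l ≤ n) :
    |kchiImg (powS y a) (s ∘ₗ t) - (∏ l, (a l : ℤ)) * kchiImg y (s ∘ₗ t)| ≤
      ((d + 1) * (4 * η) : ℕ) * ((∏ l, (a l : ℤ)) - 1) := by
  induction hN : ∑ l, a l using Nat.strong_induction_on generalizing a with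
  | _ N ih =>
    by_cases h1 : ∀ l, a l = 1
    · have he : powS y a = y := funext fun l => by simp [powS, h1 l]
      simp [he, h1]
    obtain ⟨l, hl⟩ := not_forall.1 h1
    have hl2 : 2 ≤ a l := by have := (ha l).1; omega
    set a' := Function.update a l 1 with ha'
    set a'' := Function.update a l (a l - 1) with ha''
    have hrange : ∀ b, 1 ≤ b → b ≤ a l → ∀ i,
        1 ≤ Function.update a l b i ∧ Function.update a l b i ≤ n := fun b hb hb' i => by
      by_cases hi : i = l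
      · rw [hi, Function.update_self]; exact ⟨hb, hb'.trans (ha l).2⟩
      · rw [Function.update_of_ne hi]; exact ha i
    have hlt : ∀ b, b < a l → ∑ i, Function.update a l b i < N := fun b hb => by
      rw [← hN]
      refine Finset.sum_lt_sum (fun i _ => ?_) ⟨l, mem_univ _, by rwa [Function.update_self]⟩
      by_cases hi : i = l
      · rw [hi, Function.update_self]; exact hb.le
      · rw [Function.update_of_ne hi]
    set y₀ := Function.update (powS y a) l (y l) with hy₀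
    have hup : ∀ b, Function.update y₀ l (y₀ l ^ b) = powS y (Function.update a l b) := fun b => by
      funext i
      by_cases hi : i = l
      · subst hi; simp [powS, hy₀]
      · simp [powS, hy₀, Function.update_of_ne hi]
    have hadd := kchiImg_add (t := t) (s := s) y₀ l 1 (a l - 1) (η := η)
      (by rw [hup]; exact h _ (hrange 1 le_rfl (by omega)))
      (by rw [hup]; exact h _ (hrange _ (by omega) (by omega)))
      (by rw [hup]; exact h _ (hrange _ (by omega) (by omega)))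
    rw [hup, hup, hup, show 1 + (a l - 1) = a l by omega, Function.update_eq_self] at hadd
    have i1 := ih _ (hlt 1 (by omega)) a' (hrange 1 le_rfl (by omega)) rfl
    have i2 := ih _ (hlt (a l - 1) (by omega)) a'' (hrange _ (by omega) (by omega)) rfl
    have hp : (∏ i, (a i : ℤ)) = (∏ i, (a' i : ℤ)) + ∏ i, (a'' i : ℤ) := by
      rw [← mul_prod_erase _ _ (mem_univ l), ← mul_prod_erase _ _ (mem_univ l),
        ← mul_prod_erase _ _ (mem_univ l),
        prod_congr rfl (fun i hi => show (a' i : ℤ) = a i by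
          rw [ha', Function.update_of_ne (ne_of_mem_erase hi)]),
        prod_congr rfl (fun i hi => show (a'' i : ℤ) = a i by
          rw [ha'', Function.update_of_ne (ne_of_mem_erase hi)]), ← add_mul, ha', ha'',
        Function.update_self, Function.update_self]
      congr 1
      rw [Nat.cast_sub (by omega)]; ring
    rw [hp]
    rw [abs_le] at i1 i2 hadd ⊢
    constructor <;> linarith

end Mult

end Vale.Agent.P202
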