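import Vale.Agent.P202.KoszulMult

/-!
M1: completion of a ring at a finitely generated maximal ideal, lengths along surjections onto
quotients, and completeness of quotients.
-/

universe u

namespace Vale.Agent.P202.Coef

open IsLocalRing

section Completion

variable {Q : Type u} [CommRing Q] (m : Ideal Q)

lemma mem_map_pow_iff (fg : m.FG) (n : ℕ) (s : AdicCompletion m Q) :
    s ∈ (m.map (algebraMap Q (AdicCompletion m Q))) ^ n ↔ AdicCompletion.eval m Q n s = 0 := by
  rw [← Ideal.map_pow, ← Submodule.restrictScalars_mem Q, ← Ideal.smul_top_eq_map,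
    AdicCompletion.pow_smul_top_eq_ker_eval fg, LinearMap.mem_ker]

lemma exists_sub_mem_pow (fg : m.FG) (n : ℕ) (s : AdicCompletion m Q) :
    ∃ q : Q, s - algebraMap Q _ q ∈ (m.map (algebraMap Q (AdicCompletion m Q))) ^ n := by
  obtain ⟨q, hq⟩ := Submodule.Quotient.mk_surjective _ (AdicCompletion.eval m Q n s)
  refine ⟨q, ?_⟩
  rw [mem_map_pow_iff m fg, map_sub, ← hq, sub_eq_zero]
  rfl

lemma comap_map_pow (fg : m.FG) (n : ℕ) :
    ((m.map (algebraMap Q (AdicCompletion m Q))) ^ n).comap (algebraMap Q (AdicCompletion m Q)) =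
      m ^ n := by
  ext q
  rw [Ideal.mem_comap, mem_map_pow_iff m fg]
  show Submodule.Quotient.mk q = 0 ↔ _
  rw [Submodule.Quotient.mk_eq_zero, smul_eq_mul, Ideal.mul_top]

lemma isLocalRing_completion [m.IsMaximal] (fg : m.FG) : IsLocalRing (AdicCompletion m Q) := by
  have := AdicCompletion.isMaximal_map_of_le m m le_rfl fg
  have := AdicCompletion.isAdicComplete_self m fg
  exact isLocalRing_of_isAdicComplete_maximal (m.map (algebraMap Q (AdicCompletion m Q)))

lemma maximalIdeal_completion [m.IsMaximal] (fg : m.FG) [IsLocalRing (AdicCompletion m Q)] :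
    maximalIdeal (AdicCompletion m Q) = m.map (algebraMap Q (AdicCompletion m Q)) :=
  (IsLocalRing.eq_maximalIdeal (AdicCompletion.isMaximal_map_of_le m m le_rfl fg)).symm

lemma isAdicComplete_completion [m.IsMaximal] (fg : m.FG) [IsLocalRing (AdicCompletion m Q)] :
    IsAdicComplete (maximalIdeal (AdicCompletion m Q)) (AdicCompletion m Q) := by
  rw [maximalIdeal_completion m fg]
  exact AdicCompletion.isAdicComplete_self m fg

end Completion

section Length

/-- Lengths of quotient rings along a map which is surjective onto the quotient. -/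
lemma length_quot_comap {A B : Type u} [CommRing A] [CommRing B] (f : A →+* B) (I : Ideal B)
    (hf : ∀ b, ∃ a, b - f a ∈ I) :
    Module.length A (A ⧸ I.comap f) = Module.length B (B ⧸ I) := by
  let _ : Algebra A B := f.toAlgebra
  have hs : Function.Surjective (algebraMap A (B ⧸ I)) := fun b => by
    obtain ⟨b, rfl⟩ := Ideal.Quotient.mk_surjective b
    obtain ⟨a, ha⟩ := hf b
    exact ⟨a, (Ideal.Quotient.eq.2 ha).symm⟩
  have hk : LinearMap.ker (Algebra.linearMap A (B ⧸ I)) = I.comap f := by
    ext a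
    rw [LinearMap.mem_ker, Algebra.linearMap_apply, Ideal.mem_comap]
    exact Ideal.Quotient.eq_zero_iff_mem
  rw [Module.length_eq_of_surjective (R := B ⧸ I) (M := B ⧸ I) Ideal.Quotient.mk_surjective,
    ← Module.length_eq_of_surjective (R := B ⧸ I) (M := B ⧸ I) hs, ← hk]
  exact ((Algebra.linearMap A (B ⧸ I)).quotKerEquivOfSurjective hs).length_eq

end Length

section Quotient

variable {S : Type u} [CommRing S] [IsLocalRing S] (J : Ideal S) [IsLocalRing (S ⧸ J)]

lemma maximalIdeal_quotient :
    maximalIdeal (S ⧸ J) = (maximalIdeal S).map (Ideal.Quotient.mk J) := by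
  rcases Ideal.map_eq_top_or_isMaximal_of_surjective _
    (Ideal.Quotient.mk_surjective (I := J)) (maximalIdeal.isMaximal S) with h | h
  · exfalso
    have hle : J ≤ maximalIdeal S := le_maximalIdeal fun hJ => by
      subst hJ
      exact not_subsingleton (S ⧸ (⊤ : Ideal S)) inferInstance
    have h2 := congrArg (Ideal.comap (Ideal.Quotient.mk J)) h
    rw [Ideal.comap_map_of_surjective _ Ideal.Quotient.mk_surjective, Ideal.comap_top,
      ← RingHom.ker_eq_comap_bot, Ideal.mk_ker, sup_eq_left.2 hle] at h2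
    exact (maximalIdeal.isMaximal S).ne_top h2
  · exact (IsLocalRing.eq_maximalIdeal h).symm

/-- A quotient of a complete Noetherian local ring is complete. -/
lemma isAdicComplete_quotient [IsNoetherianRing S] [IsAdicComplete (maximalIdeal S) S] :
    IsAdicComplete (maximalIdeal (S ⧸ J)) (S ⧸ J) := by
  have hH : IsHausdorff (maximalIdeal (S ⧸ J)) (S ⧸ J) :=
    IsHausdorff.of_le_jacobson _ _ (maximalIdeal_le_jacobson _)
  refine { toIsHausdorff := hH, prec' := fun f hf => ?_ }
  have hmap : ∀ n, maximalIdeal (S ⧸ J) ^ n = (maximalIdeal S ^ n).map (Ideal.Quotient.mk J) :=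
    fun n => by rw [maximalIdeal_quotient, Ideal.map_pow]
  have hd : ∀ n, ∃ x ∈ maximalIdeal S ^ n, Ideal.Quotient.mk J x = f (n + 1) - f n := by
    intro n
    refine (Ideal.mem_map_iff_of_surjective _ Ideal.Quotient.mk_surjective).1 ?_
    rw [← hmap]
    have := (hf n.le_succ).symm
    rwa [SModEq.sub_mem, smul_eq_mul, Ideal.mul_top] at this
  choose δ hδm hδ using hd
  obtain ⟨a, ha⟩ := Ideal.Quotient.mk_surjective (f 0)
  let g : ℕ → S := fun n => a + ∑ j ∈ Finset.range n, δ j
  have hg : ∀ n, Ideal.Quotient.mk J (g n) = f n := by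
    intro n
    induction n with
    | zero => simp [g, ha]
    | succ n ih =>
      have e : g (n + 1) = g n + δ n := by simp [g, Finset.sum_range_succ, add_assoc]
      rw [e, map_add, ih, hδ, add_sub_cancel]
  obtain ⟨L, hL⟩ := IsPrecomplete.prec (I := maximalIdeal S) inferInstance (f := g) fun {m n} h => by
    rw [SModEq.sub_mem, smul_eq_mul, Ideal.mul_top]
    have e : g m - g n = -∑ j ∈ Finset.Ico m n, δ j := by
      rw [Finset.sum_Ico_eq_sub _ h]; simp [g]
    rw [e]
    exact neg_mem (Ideal.sum_mem _ fun j hj =>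
      Ideal.pow_le_pow_right (Finset.mem_Ico.1 hj).1 (hδm j))
  refine ⟨Ideal.Quotient.mk J L, fun n => ?_⟩
  have := hL n
  rw [SModEq.sub_mem, smul_eq_mul, Ideal.mul_top] at this ⊢
  rw [hmap, ← hg n, ← map_sub]
  exact Ideal.mem_map_of_mem _ this

end Quotient

end Vale.Agent.P202.Coef
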