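import Mathlib

/-!
M1: the map from the Witt vectors of a perfect ring to a complete local ring whose residue field it
maps to, through the ghost components.
-/

universe u

namespace Vale.Agent.P202.Coef

open IsLocalRing WittVector

section Ghost

variable {p : ℕ} [Fact p.Prime] {S : Type u} [CommRing S] [IsLocalRing S]

lemma ghost_mem_pow (hp : (p : S) ∈ maximalIdeal S) (N : ℕ) {x : WittVector p S}
    (hx : WittVector.map (residue S) x = 0) :
    ghostComponent N x ∈ maximalIdeal S ^ (N + 1) := by
  rw [ghostComponent_apply, wittPolynomial_eq_sum_C_mul_X_pow, map_sum]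
  refine Ideal.sum_mem _ fun i hi => ?_
  have hxi : x.coeff i ∈ maximalIdeal S := by
    have := congrArg (fun z => z.coeff i) hx
    simpa [map_coeff, residue_eq_zero_iff] using this
  have hiN : i ≤ N := Nat.lt_succ_iff.1 (Finset.mem_range.1 hi)
  rw [map_mul, MvPolynomial.aeval_C, map_pow, map_pow, MvPolynomial.aeval_X]
  have h1 : N - i + 1 ≤ p ^ (N - i) := Nat.lt_pow_self (Fact.out : p.Prime).one_lt
  have h2 : ((algebraMap ℤ S) (p : ℤ)) ∈ maximalIdeal S := by simpa using hp
  exact Ideal.pow_le_pow_right (show N + 1 ≤ i + (N - i + 1) by omega) (by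
    rw [pow_add]
    exact Ideal.mul_mem_mul (Ideal.pow_mem_pow h2 i)
      (Ideal.pow_le_pow_right h1 (Ideal.pow_mem_pow hxi _)))

lemma map_residue_surjective :
    Function.Surjective (WittVector.map (residue S) : WittVector p S → WittVector p (ResidueField S)) :=
  WittVector.map_surjective _ residue_surjective

/-- The ghost component modulo a power of the maximal ideal, on Witt vectors of the residue field. -/
noncomputable def ghostRes (hp : (p : S) ∈ maximalIdeal S) (N : ℕ) :
    WittVector p (ResidueField S) →+* S ⧸ maximalIdeal S ^ (N + 1) :=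
  RingHom.liftOfSurjective (WittVector.map (residue S)) map_residue_surjective
    ⟨(Ideal.Quotient.mk _).comp (ghostComponent N), fun x hx => by
      rw [RingHom.mem_ker, RingHom.comp_apply, Ideal.Quotient.eq_zero_iff_mem]
      exact ghost_mem_pow hp N hx⟩

lemma ghostRes_map (hp : (p : S) ∈ maximalIdeal S) (N : ℕ) (x : WittVector p S) :
    ghostRes hp N (WittVector.map (residue S) x) =
      Ideal.Quotient.mk _ (ghostComponent N x) :=
  RingHom.liftOfSurjective_comp_apply _ _ _ x

lemma pow_sub_pow_mem {a b : S} (hp : (p : S) ∈ maximalIdeal S) (h : a - b ∈ maximalIdeal S)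
    (N : ℕ) : a ^ p ^ N - b ^ p ^ N ∈ maximalIdeal S ^ (N + 1) := by
  have h1 : WittVector.map (residue S) (teichmuller p a - teichmuller p b) = 0 := by
    rw [map_sub, map_teichmuller, map_teichmuller,
      show residue S a = residue S b by rwa [← sub_eq_zero, ← map_sub, residue_eq_zero_iff],
      sub_self]
  have := ghost_mem_pow hp N h1
  rwa [map_sub, ghostComponent_teichmuller, ghostComponent_teichmuller] at this

end Ghost

variable {p : ℕ} [Fact p.Prime] {k : Type u} [CommRing k] [CharP k p] [PerfectRing k p]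
  {S : Type u} [CommRing S] [IsLocalRing S]

/-- The truncated map at level `N`. -/
noncomputable def fN (hp : (p : S) ∈ maximalIdeal S) (ρ : k →+* ResidueField S) (N : ℕ) :
    WittVector p k →+* S ⧸ maximalIdeal S ^ (N + 1) :=
  (ghostRes hp N).comp ((WittVector.map ρ).comp
    (WittVector.map ((iterateFrobeniusEquiv k p N).symm : k →+* k)))

lemma fN_teichmuller (hp : (p : S) ∈ maximalIdeal S) (ρ : k →+* ResidueField S) (N : ℕ) (x : k)
    (a : S) (ha : residue S a = ρ ((iterateFrobeniusEquiv k p N).symm x)) :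
    fN hp ρ N (teichmuller p x) = Ideal.Quotient.mk _ (a ^ p ^ N) := by
  rw [fN, RingHom.comp_apply, RingHom.comp_apply, map_teichmuller, map_teichmuller,
    RingHom.coe_coe, ← ha, ← map_teichmuller p (residue S), ghostRes_map,
    ghostComponent_teichmuller]

lemma fN_compat (hp : (p : S) ∈ maximalIdeal S) (ρ : k →+* ResidueField S) (N : ℕ) :
    (Ideal.Quotient.factorPow (maximalIdeal S) (N + 1).le_succ).comp (fN hp ρ (N + 1)) =
      fN hp ρ N := by
  refine WittVector.eq_of_apply_teichmuller_eq _ _ ⟨N + 1, ?_⟩ fun x => ?_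
  · rw [← map_natCast (Ideal.Quotient.mk (maximalIdeal S ^ (N + 1))), ← map_pow,
      Ideal.Quotient.eq_zero_iff_mem]
    exact Ideal.pow_mem_pow hp _
  obtain ⟨a, ha⟩ := residue_surjective (ρ ((iterateFrobeniusEquiv k p N).symm x))
  obtain ⟨b, hb⟩ := residue_surjective (ρ ((iterateFrobeniusEquiv k p (N + 1)).symm x))
  rw [RingHom.comp_apply, fN_teichmuller hp ρ (N + 1) x b hb, fN_teichmuller hp ρ N x a ha,
    Ideal.Quotient.factor_mk, Ideal.Quotient.eq, show p ^ (N + 1) = p * p ^ N from pow_succ' p N,
    pow_mul]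
  refine pow_sub_pow_mem hp ?_ N
  rw [← residue_eq_zero_iff, map_sub, sub_eq_zero, map_pow, ha, hb, ← map_pow]
  congr 1
  apply (iterateFrobeniusEquiv k p N).injective
  rw [RingEquiv.apply_symm_apply, iterateFrobeniusEquiv_def, ← pow_mul, ← pow_succ',
    ← iterateFrobeniusEquiv_def (R := k) p (N + 1), RingEquiv.apply_symm_apply]

variable [IsAdicComplete (maximalIdeal S) S]

/-- The map from Witt vectors. -/
noncomputable def teich (hp : (p : S) ∈ maximalIdeal S) (ρ : k →+* ResidueField S) :
    WittVector p k →+* S :=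
  IsAdicComplete.StrictMono.liftRingHom (maximalIdeal S) (a := fun n => n + 1)
    (fun _ _ h => Nat.add_lt_add_right h 1) (fN hp ρ) (fun {m} => fN_compat hp ρ m)

lemma mk_teich (hp : (p : S) ∈ maximalIdeal S) (ρ : k →+* ResidueField S) (N : ℕ)
    (w : WittVector p k) :
    Ideal.Quotient.mk (maximalIdeal S ^ (N + 1)) (teich hp ρ w) = fN hp ρ N w :=
  IsAdicComplete.StrictMono.mk_liftRingHom (maximalIdeal S) (a := fun n => n + 1)
    (fun _ _ h => Nat.add_lt_add_right h 1) (fN hp ρ) (fun {m} => fN_compat hp ρ m) (n := N) w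

lemma teich_eq_of_roots (hp : (p : S) ∈ maximalIdeal S) (ρ : k →+* ResidueField S) (x : k) (y : S)
    (h : ∀ N, ∃ a, residue S a = ρ ((iterateFrobeniusEquiv k p N).symm x) ∧ a ^ p ^ N = y) :
    teich hp ρ (teichmuller p x) = y := by
  rw [← sub_eq_zero]
  refine IsHausdorff.haus (I := maximalIdeal S) inferInstance _ fun n => ?_
  obtain ⟨a, ha, hy⟩ := h n
  have := mk_teich hp ρ n (teichmuller p x)
  rw [fN_teichmuller hp ρ n x a ha, hy, Ideal.Quotient.eq] at this
  rw [SModEq.sub_mem, sub_zero, smul_eq_mul, Ideal.mul_top]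
  exact Ideal.pow_le_pow_right n.le_succ this

lemma teich_iterate_frobenius (hp : (p : S) ∈ maximalIdeal S) (ρ : k →+* ResidueField S) (N : ℕ)
    (u : WittVector p k) (x : WittVector p S)
    (hx : WittVector.map (residue S) x = WittVector.map ρ u) :
    teich hp ρ (WittVector.frobenius^[N] u) - ghostComponent N x ∈
      maximalIdeal S ^ (N + 1) := by
  rw [← Ideal.Quotient.eq, mk_teich, fN, RingHom.comp_apply, RingHom.comp_apply, ← ghostRes_map hp,
    hx]
  congr 2
  refine WittVector.ext fun n => ?_
  rw [map_coeff, RingHom.coe_coe]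
  apply (iterateFrobeniusEquiv k p N).injective
  rw [RingEquiv.apply_symm_apply, iterateFrobeniusEquiv_def]
  clear hx
  induction N generalizing u with
  | zero => simp
  | succ N ih => rw [Function.iterate_succ_apply, ih, coeff_frobenius_charP, ← pow_mul, ← pow_succ']

lemma residue_teich (hp : (p : S) ∈ maximalIdeal S) (ρ : k →+* ResidueField S)
    (w : WittVector p k) : residue S (teich hp ρ w) = ρ (w.coeff 0) := by
  obtain ⟨x, hx⟩ := map_residue_surjective (p := p) (S := S) (WittVector.map ρ w)
  have h := teich_iterate_frobenius hp ρ 0 w x hx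
  rw [Function.iterate_zero_apply, zero_add, pow_one, ← residue_eq_zero_iff, map_sub,
    sub_eq_zero] at h
  rw [h]
  have h0 : ghostComponent 0 x = x.coeff 0 := by
    simp [ghostComponent_apply, wittPolynomial_zero]
  rw [h0, ← map_coeff (residue S) x 0, hx, map_coeff]

end Vale.Agent.P202.Coef
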