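import Vale.Agent.P202.M1Omega
import Vale.Agent.P202.M1Comp
import Vale.Agent.P202.M1Teich

/-!
M1: the Teichmüller map into a completed root ring, on monomials and on the Cohen subring.
-/

universe u

namespace Vale.Agent.P202.Coef

open IsLocalRing WittVector

variable {p : ℕ} [Fact p.Prime] {B : Type u} {R : Type u} [CommRing R] [IsLocalRing R]
  (bh : B → R)

/-- The base stage is `R` itself. -/
lemma length_rootRing_quot [CharP (ResidueField R) p] [IsNoetherianRing R]
    (hb : IsPB p fun b => residue R (bh b)) (T : ℕ) :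
    Module.length (RootRing p bh) (RootRing p bh ⧸ maxR bh ^ T) =
      Module.length R (R ⧸ maximalIdeal R ^ T) := by
  have h0 : ∀ g : Ex p B, InSt (∅ : Finset B) 0 g → g = 0 := fun g hg =>
    Subtype.ext (Finsupp.ext fun b => (hg b).1 (Finset.notMem_empty b))
  have hc : csize p (∅ : Finset B) 0 = 1 := by
    have : Subsingleton (Red p (∅ : Finset B) 0) :=
      ⟨fun g h => Subtype.ext ((h0 _ g.2.1).trans (h0 _ h.2.1).symm)⟩
    exact Nat.card_of_subsingleton ⟨0, InSt.zero (∅ : Finset B) 0, fr_zero⟩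
  have hSt : Subalgebra.toSubmodule (St (p := p) bh ∅ 0) =
      (⊤ : Submodule R R).map (Algebra.linearMap R (RootRing p bh)) := by
    refine le_antisymm (fun x hx => ?_) ?_
    · rw [← sum_coord bh x]
      refine Submodule.sum_mem _ fun g hg => ?_
      rw [h0 g ((mem_St_iff bh).1 hx g (Finsupp.mem_support_iff.1 hg))]
      refine Submodule.smul_mem _ _ ⟨1, trivial, ?_⟩
      rw [mon_zero, Algebra.linearMap_apply, map_one]
    · rintro _ ⟨r, -, rfl⟩
      exact Subalgebra.algebraMap_mem _ r
  obtain ⟨L, hL, hsq⟩ := exists_length_stage bh hb (∅ : Finset B) 0 T (maxR bh ^ T) le_rfl (by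
    refine le_antisymm ?_ (Ideal.span_le.2 fun y hy => hy.1)
    rw [maxR, ← Ideal.map_pow, Ideal.map_le_iff_le_comap]
    intro r hr
    exact Ideal.subset_span ⟨Ideal.mem_map_of_mem _ hr, Subalgebra.algebraMap_mem _ r⟩)
  rw [hc, one_mul, hSt, sq_map] at hsq
  rw [hL, ← hsq, length_quot_eq_sq]
  congr 1
  ext r
  rw [Submodule.mem_comap, Algebra.linearMap_apply, Submodule.restrictScalars_mem, maxR,
    ← Ideal.map_pow, mem_comap_map_iff]

variable [CharP (ResidueField R) p] {S : Type u} [CommRing S] [IsLocalRing S]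
  (ψ : RootRing p bh →+* S) (hψ : (maxR bh).map ψ ≤ maximalIdeal S)

/-- The induced map on residue fields. -/
noncomputable def rho : KK (p := p) bh →+* ResidueField S :=
  Ideal.Quotient.lift (maxR bh) ((residue S).comp ψ) fun q hq => by
    rw [RingHom.comp_apply, residue_eq_zero_iff]
    exact hψ (Ideal.mem_map_of_mem ψ hq)

lemma rho_kmk (q : RootRing p bh) : rho bh ψ hψ (kmk bh q) = residue S (ψ q) := rfl

include hψ in
lemma natCast_mem_maximal : (p : S) ∈ maximalIdeal S := by
  rw [← map_natCast (ψ.comp (algebraMap R (RootRing p bh)))]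
  refine hψ (Ideal.mem_map_of_mem ψ (Ideal.mem_map_of_mem _ ?_))
  rw [← residue_eq_zero_iff, map_natCast, CharP.cast_eq_zero]

variable [PerfectRing (KK (p := p) bh) p] [IsAdicComplete (maximalIdeal S) S]

/-- The Teichmüller map. -/
noncomputable def theta : WittVector p (KK (p := p) bh) →+* S :=
  teich (natCast_mem_maximal bh ψ hψ) (rho bh ψ hψ)

lemma theta_res {w : WittVector p (KK (p := p) bh)} {q : RootRing p bh}
    (h : kmk bh q = w.coeff 0) : theta bh ψ hψ w - ψ q ∈ maximalIdeal S := by
  rw [← residue_eq_zero_iff, map_sub, theta, residue_teich, ← h, rho_kmk, sub_self]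

lemma theta_tau (g : Ex p B) :
    theta bh ψ hψ (teichmuller p (tau bh g)) = ψ (mon bh g) := by
  refine teich_eq_of_roots _ _ _ _ fun N => ?_
  have hp : (p : ℚ) ^ N ≠ 0 := pow_ne_zero N (Nat.cast_ne_zero.2 (Fact.out : p.Prime).ne_zero)
  let g' : Ex p B := ⟨g.1.mapRange (fun q => q / (p : ℚ) ^ N) (zero_div _), fun b => by
    obtain ⟨j, m, h⟩ := g.2 b
    exact ⟨j + N, m, by
      rw [Finsupp.mapRange_apply, pow_add, mul_comm ((p : ℚ) ^ j), ← mul_assoc,
        div_mul_cancel₀ _ hp, h]⟩⟩
  have hg : p ^ N • g' = g := by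
    refine Subtype.ext (Finsupp.ext fun b => ?_)
    show ((p ^ N) • g'.1) b = _
    rw [Finsupp.smul_apply, nsmul_eq_mul, Nat.cast_pow,
      show g'.1 b = g.1 b / (p : ℚ) ^ N from rfl, mul_div_cancel₀ _ hp]
  refine ⟨ψ (mon bh g'), ?_, by rw [← map_pow, mon_pow, hg]⟩
  rw [← rho_kmk bh ψ hψ]
  congr 1
  apply (iterateFrobeniusEquiv (KK (p := p) bh) p N).injective
  rw [RingEquiv.apply_symm_apply, iterateFrobeniusEquiv_def, ← map_pow, mon_pow, hg]
  rfl

lemma frI_eq_iterate [IsDomain (KK (p := p) bh)] (n : ℕ) (v : WittVector p (ResidueField R)) :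
    frI (iotaK (p := p) bh) n v = WittVector.frobenius^[n] (WittVector.map (iotaK bh) v) := by
  induction n with
  | zero => rfl
  | succ n ih => rw [Function.iterate_succ_apply', ← ih]; rfl

variable [IsDomain (KK (p := p) bh)] [IsAdicComplete (maximalIdeal R) R]

/-- The Cohen subring maps into `R`. -/
lemma theta_Lam (hcontr : ∀ T, (maximalIdeal S ^ T).comap (ψ.comp (algebraMap R (RootRing p bh))) =
      maximalIdeal R ^ T)
    {w : WittVector p (KK (p := p) bh)}
    (hw : w ∈ Lam (iotaK bh) (fun b => residue R (bh b))) :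
    ∃ r, theta bh ψ hψ w = ψ (algebraMap R (RootRing p bh) r) := by
  set φ := ψ.comp (algebraMap R (RootRing p bh)) with hφ
  have hp := natCast_mem_maximal bh ψ hψ
  have happ : ∀ T, ∃ r, theta bh ψ hψ w - φ r ∈ maximalIdeal S ^ (T + 1) := by
    intro T
    obtain ⟨v, hv, hd⟩ := hw T
    set f := (Ideal.Quotient.mk (maximalIdeal S ^ (T + 1))).comp (theta bh ψ hψ)
    have hmem : f v ∈ ((Ideal.Quotient.mk (maximalIdeal S ^ (T + 1))).comp φ).range := by
      suffices XN (iotaK bh) (fun b => residue R (bh b)) T ≤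
          ((Ideal.Quotient.mk (maximalIdeal S ^ (T + 1))).comp φ).range.comap f from this hv
      refine Subring.closure_le.2 ?_
      rintro x (⟨u, rfl⟩ | ⟨b, rfl⟩)
      · obtain ⟨x, rfl⟩ := map_residue_surjective (p := p) (S := R) u
        refine ⟨ghostComponent T x, ?_⟩
        rw [RingHom.comp_apply, RingHom.comp_apply, frI_eq_iterate]
        refine (Ideal.Quotient.eq.2 ?_).symm
        have hgh : φ (ghostComponent T x) = ghostComponent T (WittVector.map φ x) := by
          rw [ghostComponent_apply, ghostComponent_apply,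
            show φ (MvPolynomial.aeval x.coeff (wittPolynomial p ℤ T)) =
              φ.toIntAlgHom (MvPolynomial.aeval x.coeff (wittPolynomial p ℤ T)) from rfl,
            MvPolynomial.comp_aeval_apply]
          rfl
        show theta bh ψ hψ _ - φ (ghostComponent T x) ∈ _
        rw [hgh]
        refine teich_iterate_frobenius hp _ T _ _ (WittVector.ext fun n => ?_)
        simp only [map_coeff, iotaK_residue, rho_kmk]
        rfl
      · refine ⟨bh b, ?_⟩
        show _ = Ideal.Quotient.mk _ (theta bh ψ hψ (teichmuller p (iotaK bh (residue R (bh b)))))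
        rw [← tau_single, theta_tau, RingHom.comp_apply, mon_natEx]
        simp [bprod, hφ]
    obtain ⟨r, hr⟩ := hmem
    refine ⟨r, ?_⟩
    have h1 : theta bh ψ hψ v - φ r ∈ maximalIdeal S ^ (T + 1) :=
      Ideal.Quotient.eq.1 hr.symm
    have h2 : theta bh ψ hψ w - theta bh ψ hψ v ∈ maximalIdeal S ^ (T + 1) := by
      obtain ⟨c, hc⟩ := hd
      rw [← map_sub, hc, map_mul, map_pow, map_natCast]
      exact Ideal.mul_mem_right _ _ (Ideal.pow_mem_pow hp _)
    rw [← sub_add_sub_cancel (theta bh ψ hψ w) (theta bh ψ hψ v) (φ r)]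
    exact add_mem h2 h1
  choose r hr using happ
  obtain ⟨L, hL⟩ := IsPrecomplete.prec (I := maximalIdeal R) inferInstance (f := r) fun {m n} hmn => by
    rw [SModEq.sub_mem, smul_eq_mul, Ideal.mul_top, ← hcontr, Ideal.mem_comap, map_sub]
    have := sub_mem (Ideal.pow_le_pow_right (show m ≤ n + 1 by omega) (hr n))
      (Ideal.pow_le_pow_right (show m ≤ m + 1 by omega) (hr m))
    rwa [sub_sub_sub_cancel_left] at this
  refine ⟨L, sub_eq_zero.1 (IsHausdorff.haus (I := maximalIdeal S) inferInstance _ fun n => ?_)⟩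
  rw [SModEq.sub_mem, sub_zero, smul_eq_mul, Ideal.mul_top]
  have h1 := hL n
  rw [SModEq.sub_mem, smul_eq_mul, Ideal.mul_top, ← hcontr, Ideal.mem_comap, map_sub] at h1
  have := add_mem (Ideal.pow_le_pow_right (show n ≤ n + 1 by omega) (hr n)) h1
  rwa [sub_add_sub_cancel] at this

end Vale.Agent.P202.Coef
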