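import Vale.Agent.P202.M1Omega
import Vale.Agent.P202.M1Comp
import Vale.Agent.P202.InterfacesM1

/-!
M1: the finite stages of the coefficients in a quotient of the completed root ring.
-/

universe u

namespace Vale.Agent.P202.Coef

open IsLocalRing WittVector

variable {p : ℕ} [Fact p.Prime] {B : Type u} {R : Type u} [CommRing R] [IsLocalRing R]
  [CharP (ResidueField R) p] {bh : B → R} [IsDomain (KK (p := p) bh)]
  [PerfectRing (KK (p := p) bh) p] {A : Type u} [CommRing A] [IsLocalRing A] [Algebra R A]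

/-- The image of a stage, thickened to depth `T`. -/
noncomputable def asub (χ : RootRing p bh →ₐ[R] A) (s : Finset B) (i T : ℕ) : Subalgebra R A where
  carrier := {a | ∃ u ∈ St (p := p) bh s i, a - χ u ∈ maximalIdeal A ^ T}
  mul_mem' {a b} ha hb := by
    obtain ⟨u, hu, hau⟩ := ha
    obtain ⟨v, hv, hbv⟩ := hb
    refine ⟨u * v, mul_mem hu hv, ?_⟩
    rw [map_mul, show a * b - χ u * χ v = (a - χ u) * b + χ u * (b - χ v) by ring]
    exact add_mem (Ideal.mul_mem_right _ _ hau) (Ideal.mul_mem_left _ _ hbv)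
  add_mem' {a b} ha hb := by
    obtain ⟨u, hu, hau⟩ := ha
    obtain ⟨v, hv, hbv⟩ := hb
    exact ⟨u + v, add_mem hu hv, by rw [map_add, add_sub_add_comm]; exact add_mem hau hbv⟩
  algebraMap_mem' r := ⟨algebraMap R _ r, Subalgebra.algebraMap_mem _ r, by simp⟩

omit [CharP (ResidueField R) p] [IsDomain (KK (p := p) bh)] [PerfectRing (KK (p := p) bh) p] in
lemma mem_asub {χ : RootRing p bh →ₐ[R] A} {s : Finset B} {i T : ℕ} {a : A} :
    a ∈ asub χ s i T ↔ ∃ u ∈ St (p := p) bh s i, a - χ u ∈ maximalIdeal A ^ T := Iff.rfl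

/-- The residue field of a stage. -/
noncomputable def kap (hb : IsPB p fun b => residue R (bh b)) (s : Finset B) (i : ℕ) :
    letI := fieldKK (p := p) bh hb
    Subfield (KK (p := p) bh) :=
  letI := fieldKK (p := p) bh hb
  { (St (p := p) bh s i).toSubring.map (kmk bh) with
    inv_mem' := by
      rintro _ ⟨x, hx, rfl⟩
      by_cases h : x ∈ maxR bh
      · exact ⟨0, (St (p := p) bh s i).zero_mem, by rw [(kmk_eq_zero bh).2 h, inv_zero, map_zero]⟩
      · obtain ⟨y, hy, hxy⟩ := exists_inverse hb hx h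
        refine ⟨y, hy, eq_inv_of_mul_eq_one_right ?_⟩
        rw [← map_mul, ← map_one (kmk (p := p) bh), ← sub_eq_zero, ← map_sub, kmk_eq_zero]
        exact hxy }

omit [CharP (ResidueField R) p] [IsDomain (KK (p := p) bh)] [PerfectRing (KK (p := p) bh) p] in
lemma exists_le_ideal_of_span {χ : RootRing p bh →ₐ[R] A} {s : Finset B} {i T : ℕ}
    (hχ : ∀ a, ∃ q, a - χ q ∈ maximalIdeal A ^ T) (I : Ideal A) (hI : maximalIdeal A ^ T ≤ I)
    (hspan : I = Ideal.span ((I : Set A) ∩ (asub χ s i T : Set A))) {x : RootRing p bh}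
    (hx : χ x ∈ I) : ∃ b ∈ Ideal.span ((I.comap χ : Set (RootRing p bh)) ∩
      (St (p := p) bh s i : Set (RootRing p bh))), χ x - χ b ∈ maximalIdeal A ^ T := by
  set f : RootRing p bh →+* A ⧸ maximalIdeal A ^ T := (Ideal.Quotient.mk _).comp χ.toRingHom
  set 𝔅 := Ideal.span ((I.comap χ : Set (RootRing p bh)) ∩
    (St (p := p) bh s i : Set (RootRing p bh)))
  have hf : Function.Surjective f := fun a => by
    obtain ⟨a, rfl⟩ := Ideal.Quotient.mk_surjective a
    obtain ⟨q, hq⟩ := hχ a
    exact ⟨q, (Ideal.Quotient.eq.2 hq).symm⟩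
  have hle : I.map (Ideal.Quotient.mk (maximalIdeal A ^ T)) ≤ 𝔅.map f := by
    rw [hspan, Ideal.map_span, Ideal.span_le]
    rintro _ ⟨g, ⟨hgI, u, hu, hgu⟩, rfl⟩
    rw [show Ideal.Quotient.mk (maximalIdeal A ^ T) g = f u from Ideal.Quotient.eq.2 hgu]
    refine Ideal.mem_map_of_mem f (Ideal.subset_span ⟨?_, hu⟩)
    show χ u ∈ I
    have := I.sub_mem hgI (hI hgu)
    rwa [sub_sub_cancel] at this
  obtain ⟨b, hb, hbe⟩ := (Ideal.mem_map_iff_of_surjective f hf).1
    (hle (Ideal.mem_map_of_mem _ hx))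
  exact ⟨b, hb, Ideal.Quotient.eq.1 hbe.symm⟩

variable [IsNoetherianRing R]

omit [IsDomain (KK (p := p) bh)] [PerfectRing (KK (p := p) bh) p] in
/-- Lengths over a stage scale by its degree. -/
lemma sq_asub (hb : IsPB p fun b => residue R (bh b)) (χ : RootRing p bh →ₐ[R] A)
    (s : Finset B) (i T : ℕ) (hχ : ∀ a, ∃ q, a - χ q ∈ maximalIdeal A ^ T)
    (hχR : (maximalIdeal R).map (algebraMap R A) ≤ maximalIdeal A)
    (Y : Finset (RootRing p bh))
    (hYle : (maximalIdeal A ^ T).comap χ ≤ Ideal.span (Y : Set (RootRing p bh)) ⊔ maxR bh ^ T)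
    (hY : ∀ y ∈ Y, y ∈ St (p := p) bh s i ∧ χ y ∈ maximalIdeal A ^ T)
    (I : Ideal A) (hI : maximalIdeal A ^ T ≤ I)
    (hspan : I = Ideal.span ((I : Set A) ∩ (asub χ s i T : Set A))) :
    sq R (Subalgebra.toSubmodule (asub χ s i T)) (I.restrictScalars R) =
      (csize p s i : ℕ∞) * Module.length A (A ⧸ I) := by
  set 𝔄 : Ideal (RootRing p bh) := I.comap χ with h𝔄
  have hmax : maxR bh ^ T ≤ (maximalIdeal A ^ T).comap χ := by
    rw [← Ideal.map_le_iff_le_comap, Ideal.map_pow]
    refine Ideal.pow_right_mono (Ideal.map_le_iff_le_comap.2 (Ideal.map_le_iff_le_comap.2 ?_)) T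
    intro r hr
    rw [Ideal.mem_comap, Ideal.mem_comap, AlgHom.commutes]
    exact hχR (Ideal.mem_map_of_mem _ hr)
  have hT : maxR bh ^ T ≤ 𝔄 := hmax.trans (Ideal.comap_mono hI)
  have hspan𝔄 : 𝔄 = Ideal.span ((𝔄 : Set (RootRing p bh)) ∩
      (St (p := p) bh s i : Set (RootRing p bh))) := by
    refine le_antisymm (fun x hx => ?_) (Ideal.span_le.2 fun y hy => hy.1)
    obtain ⟨b, hb', hxb⟩ := exists_le_ideal_of_span hχ I hI hspan hx
    have h1 : x - b ∈ Ideal.span (Y : Set (RootRing p bh)) ⊔ maxR bh ^ T :=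
      hYle (by rw [Ideal.mem_comap, map_sub]; exact hxb)
    rw [← sub_add_cancel x b]
    refine add_mem ((sup_le (Ideal.span_le.2 fun y hy => ?_) ?_ :
      Ideal.span (Y : Set (RootRing p bh)) ⊔ maxR bh ^ T ≤ Ideal.span _) h1) hb'
    · exact Ideal.subset_span ⟨hI (hY y hy).2, (hY y hy).1⟩
    · rw [maxR, ← Ideal.map_pow, Ideal.map]
      refine Ideal.span_le.2 ?_
      rintro _ ⟨r, hr, rfl⟩
      refine Ideal.subset_span ⟨hT ?_, Subalgebra.algebraMap_mem _ r⟩
      rw [maxR, ← Ideal.map_pow]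
      exact Ideal.mem_map_of_mem _ hr
  obtain ⟨L, hL, hsq⟩ := exists_length_stage bh hb s i T 𝔄 hT hspan𝔄
  have hlen : Module.length (RootRing p bh) (RootRing p bh ⧸ 𝔄) = Module.length A (A ⧸ I) :=
    length_quot_comap χ.toRingHom I fun a => (hχ a).imp fun q hq => hI hq
  rw [← hlen, hL, ← Nat.cast_mul, ← hsq]
  have hsup : Subalgebra.toSubmodule (asub χ s i T) ⊔ I.restrictScalars R =
      (Subalgebra.toSubmodule (St (p := p) bh s i)).map χ.toLinearMap ⊔ I.restrictScalars R := by
    refine le_antisymm (sup_le ?_ le_sup_right) (sup_le ?_ le_sup_right)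
    · rintro a ⟨u, hu, hau⟩
      rw [← add_sub_cancel (χ u) a]
      exact Submodule.add_mem_sup ⟨u, hu, rfl⟩ (hI hau)
    · rintro _ ⟨u, hu, rfl⟩
      exact Submodule.mem_sup_left ⟨u, hu, by simp⟩
  rw [sq_congr_sup hsup, sq_map]
  rfl

variable [Algebra (WittVector p (KK (p := p) bh)) A]

omit [PerfectRing (KK (p := p) bh) p] [IsNoetherianRing R] in
/-- Elements of a stage are generated modulo depth `T` by the coefficient ring and generators of
the maximal ideal. -/
lemma exists_closure_approx (hb : IsPB p fun b => residue R (bh b))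
    [PerfectRing (KK (p := p) bh) p] (χ : RootRing p bh →ₐ[R] A) (s : Finset B) (i T : ℕ)
    (G : Finset R) (hG : Ideal.span (G : Set R) = maximalIdeal R)
    (hχR : (maximalIdeal R).map (algebraMap R A) ≤ maximalIdeal A)
    (hθres : ∀ w q, kmk bh q = w.coeff 0 →
      algebraMap (WittVector p (KK (p := p) bh)) A w - χ q ∈ maximalIdeal A)
    (hΩ : ∀ w ∈ Om bh s i, algebraMap (WittVector p (KK (p := p) bh)) A w ∈ asub χ s i T)
    (cl : Subring A) (hcl : ∀ w ∈ Om bh s i, algebraMap (WittVector p (KK (p := p) bh)) A w ∈ cl)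
    (hclG : ∀ g ∈ G, algebraMap R A g ∈ cl) :
    ∀ u ∈ St (p := p) bh s i, ∃ a' ∈ cl, χ u - a' ∈ maximalIdeal A ^ T := by
  classical
  rcases Nat.eq_zero_or_pos T with rfl | hT
  · exact fun u _ => ⟨0, zero_mem _, by simp⟩
  suffices H : ∀ j, ∀ u ∈ St (p := p) bh s i, ∃ a' ∈ cl,
      χ u - a' ∈ maximalIdeal A ^ j ⊔ maximalIdeal A ^ T by
    intro u hu
    obtain ⟨a', ha', h⟩ := H T u hu
    exact ⟨a', ha', by rwa [sup_idem] at h⟩
  intro j
  induction j with
  | zero => exact fun u _ => ⟨0, zero_mem _, by simp⟩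
  | succ j ih =>
    intro u hu
    obtain ⟨w, hw, hw0⟩ := Om_residue_surj hb (a := kmk bh u) ⟨u, hu, rfl⟩
    obtain ⟨v, hv, hwv⟩ := hΩ w hw
    have hmem : u - v ∈ maxR bh := by
      have h1 := hθres w u hw0.symm
      have h2 : χ (u - v) ∈ maximalIdeal A := by
        rw [map_sub]
        have h3 := sub_mem (Ideal.pow_le_self hT.ne' hwv) h1
        rwa [sub_sub_sub_cancel_left] at h3
      by_contra hn
      obtain ⟨y, -, hy⟩ := exists_inverse hb (sub_mem hu hv) hn
      have h4 : χ ((u - v) * y - 1) ∈ maximalIdeal A := by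
        have : maxR bh ≤ (maximalIdeal A).comap χ := by
          refine Ideal.map_le_iff_le_comap.2 fun r hr => ?_
          rw [Ideal.mem_comap, Ideal.mem_comap, AlgHom.commutes]
          exact hχR (Ideal.mem_map_of_mem _ hr)
        exact this hy
      rw [map_sub, map_one, map_mul] at h4
      have h5 := sub_mem ((maximalIdeal A).mul_mem_right (χ y) h2) h4
      rw [sub_sub_cancel] at h5
      exact (maximalIdeal.isMaximal A).ne_top ((Ideal.eq_top_iff_one _).2 h5)
    have hr : ∀ l, coord bh (u - v) (redEx p s i l) ∈ Ideal.span (G : Set R) := fun l => by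
      rw [hG, ← residue_eq_zero_iff]
      exact (mem_maxR_iff bh).1 hmem _
    choose c hc using fun l => (Submodule.mem_span_finset).1 (hr l)
    choose a' ha' hd using fun z => ih _ (stElem_mem bh s i fun l => c l z)
    refine ⟨algebraMap (WittVector p (KK (p := p) bh)) A w + ∑ z ∈ G, algebraMap R A z * a' z,
      add_mem (hcl w hw) (sum_mem fun z hz => mul_mem (hclG z hz) (ha' z)), ?_⟩
    have huv : u - v = ∑ z ∈ G, algebraMap R (RootRing p bh) z * stElem bh s i (fun l => c l z) := by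
      have he : (fun l => coord bh (u - v) (redEx p s i l)) = ∑ z ∈ G, z • fun l => c l z := by
        funext l
        rw [Finset.sum_apply, ← (hc l).2]
        exact Finset.sum_congr rfl fun z _ => mul_comm _ _
      conv_lhs => rw [eq_stElem bh (sub_mem hu hv), he, map_sum]
      refine Finset.sum_congr rfl fun z _ => ?_
      rw [map_smul, Algebra.algebraMap_eq_smul_one, smul_mul_assoc, one_mul]
    have hkey : χ u - (algebraMap (WittVector p (KK (p := p) bh)) A w +
        ∑ z ∈ G, algebraMap R A z * a' z) =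
        ∑ z ∈ G, algebraMap R A z * (χ (stElem bh s i fun l => c l z) - a' z) -
          (algebraMap (WittVector p (KK (p := p) bh)) A w - χ v) := by
      have : χ u = χ v + ∑ z ∈ G, algebraMap R A z * χ (stElem bh s i fun l => c l z) := by
        rw [← add_sub_cancel v u, huv, map_add, map_sum]
        simp only [map_mul, AlgHom.commutes]
      rw [this]
      simp only [mul_sub, Finset.sum_sub_distrib]
      ring
    rw [hkey]
    refine sub_mem (Ideal.sum_mem _ fun z hz => ?_) (Ideal.mem_sup_right hwv)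
    have hz' : algebraMap R A z ∈ maximalIdeal A :=
      hχR (Ideal.mem_map_of_mem _ (hG ▸ Ideal.subset_span hz))
    have h6 := Ideal.mul_mem_mul hz' (hd z)
    rw [Ideal.mul_sup, ← pow_succ'] at h6
    have h7 : maximalIdeal A ^ (j + 1) ⊔ maximalIdeal A * maximalIdeal A ^ T ≤
        maximalIdeal A ^ (j + 1) ⊔ maximalIdeal A ^ T := sup_le_sup le_rfl Ideal.mul_le_right
    exact h7 h6

/-- The stage at given generators. -/
theorem exists_stage (hb : IsPB p fun b => residue R (bh b)) (χ : RootRing p bh →ₐ[R] A)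
    (G : Finset R) (hG : Ideal.span (G : Set R) = maximalIdeal R)
    (Z₀ : Finset A) (hZ₀ : ∀ g ∈ G, algebraMap R A g ∈ Z₀)
    (hχR : (maximalIdeal R).map (algebraMap R A) ≤ maximalIdeal A)
    (hχ : ∀ T a, ∃ q, a - χ q ∈ maximalIdeal A ^ T)
    (hY : ∀ T, ∃ Y : Finset (RootRing p bh),
      (maximalIdeal A ^ T).comap χ ≤ Ideal.span (Y : Set (RootRing p bh)) ⊔ maxR bh ^ T ∧
      ∀ y ∈ Y, χ y ∈ maximalIdeal A ^ T)
    (hθres : ∀ w q, kmk bh q = w.coeff 0 →
      algebraMap (WittVector p (KK (p := p) bh)) A w - χ q ∈ maximalIdeal A)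
    (hθΛ : ∀ w ∈ Lam (iotaK bh) (fun b => residue R (bh b)),
      ∃ r, algebraMap (WittVector p (KK (p := p) bh)) A w = algebraMap R A r)
    (hθτ : ∀ g, algebraMap (WittVector p (KK (p := p) bh)) A (teichmuller p (tau bh g)) =
      χ (mon bh g))
    (T : ℕ) (Sw : Finset (WittVector p (KK (p := p) bh))) (Sa : Finset A) :
    letI := fieldKK (p := p) bh hb
    Nonempty (CoefStage p R (KK (p := p) bh) A (iotaK bh) Z₀ T Sw Sa) := by
  classical
  letI := fieldKK (p := p) bh hb
  obtain ⟨Y, hYle, hY⟩ := hY T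
  choose qa hqa using hχ T
  choose sw iw hw using exists_approx hb T
  obtain ⟨s₁, i₁, h₁⟩ := exists_St_finset bh (Y ∪ Sa.image qa)
  let s := s₁ ∪ Sw.biUnion sw
  let i := max i₁ (Sw.sup iw)
  have hs₁ : s₁ ⊆ s := Finset.subset_union_left
  have hi₁ : i₁ ≤ i := le_max_left _ _
  have hX : ∀ x ∈ Y ∪ Sa.image qa, x ∈ St (p := p) bh s i := fun x hx =>
    St_mono bh hs₁ hi₁ (h₁ x hx)
  have hΩ : ∀ w ∈ Om bh s i, algebraMap (WittVector p (KK (p := p) bh)) A w ∈ asub χ s i T := by
    intro w hw'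
    suffices Om bh s i ≤ ((asub χ s i T).toSubring).comap
        (algebraMap (WittVector p (KK (p := p) bh)) A) from this hw'
    refine Subring.closure_le.2 ?_
    rintro x (hx | ⟨j, rfl⟩)
    · obtain ⟨r, hr⟩ := hθΛ x hx
      show algebraMap (WittVector p (KK (p := p) bh)) A x ∈ asub χ s i T
      rw [hr]
      exact Subalgebra.algebraMap_mem _ r
    · show algebraMap (WittVector p (KK (p := p) bh)) A
        (teichmuller p (tau bh (redEx p s i j))) ∈ asub χ s i T
      rw [hθτ]
      exact ⟨_, mon_mem_St bh (redEx_mem s i j).1, by simp⟩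
  refine ⟨{
    Ω := Om bh s i
    κ := kap hb s i
    c := csize p s i
    bas := stT bh s i
    bas_mem := fun j => tau_redEx_mem bh s i j
    bas_span := fun a ha => existsUnique_coords bh s i ha
    c_pos := csize_pos s i
    ι_mem := fun r => iotaK_mem bh s i r
    residue_mem := fun w hw' => Om_residue_mem hw'
    residue_surj := fun a ha => Om_residue_surj hb ha
    saturated := fun w hw' hd => Om_saturated hb hw' hd
    Sw_mem := fun w hw' => hw w s i
      ((Finset.subset_biUnion_of_mem sw hw').trans Finset.subset_union_right)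
      ((Finset.le_sup hw').trans (le_max_right _ _))
    As := asub χ s i T
    Ω_As := hΩ
    Sa_As := fun a ha => ⟨qa a, hX _ (Finset.mem_union_right _ (Finset.mem_image_of_mem _ ha)),
      hqa a⟩
    deep_As := fun a ha => ⟨0, zero_mem _, by simpa using ha⟩
    As_le := ?_
    length_eq := fun I hI hspan => sq_asub hb χ s i T (fun a => ⟨qa a, hqa a⟩) hχR Y hYle
      (fun y hy => ⟨hX y (Finset.mem_union_left _ hy), hY y hy⟩) I hI hspan
    basA := fun j => ⟨χ (mon bh (redEx p s i j)),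
      ⟨_, mon_mem_St bh (redEx_mem s i j).1, by simp⟩⟩
    basA_residue := fun j => ⟨teichmuller p (stT bh s i j), teich_mem_Omega j,
      teichmuller_coeff_zero p _,
      (congrArg (residue A) (hθτ (redEx p s i j))).symm⟩
    basA_span := ?_ }⟩
  · rintro a ⟨u, hu, hau⟩
    obtain ⟨a', ha', h⟩ := exists_closure_approx hb χ s i T G hG hχR hθres hΩ
      (Subring.closure ((algebraMap (WittVector p (KK (p := p) bh)) A) ''
        (SetLike.coe (Om bh s i)) ∪ ↑Sa ∪ ↑Z₀))
      (fun w hw' => Subring.subset_closure (Or.inl (Or.inl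
        (Set.mem_image_of_mem _ (SetLike.mem_coe.2 hw')))))
      (fun g hg => Subring.subset_closure (Or.inr (hZ₀ g hg))) u hu
    refine ⟨a', ha', ?_⟩
    rw [← sub_add_sub_cancel a (χ u) a']
    exact add_mem hau h
  · rintro a ⟨u, hu, hau⟩
    refine ⟨fun j => coord bh u (redEx p s i j), ?_⟩
    convert hau using 2
    conv_rhs => rw [eq_stElem bh hu, stElem, Fintype.linearCombination_apply, map_sum]
    refine Finset.sum_congr rfl fun j _ => ?_
    rw [map_smul, Algebra.smul_def]

end Vale.Agent.P202.Coef
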