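import Vale.Agent.P202.M1Top
import Vale.Agent.P202.M1Lift
import Vale.Agent.P202.M1StageData

/-!
M1: the coefficient datum of a complete local domain of mixed characteristic.
-/

universe u

namespace Vale.Agent.P202.Coef

open IsLocalRing WittVector MvPowerSeries

variable {p : ℕ} [Fact p.Prime] {B : Type u} {R : Type u} [CommRing R] [IsLocalRing R]
  [CharP (ResidueField R) p] [IsNoetherianRing R]

lemma maxR_fg (bh : B → R) : (maxR (p := p) bh).FG :=
  Ideal.FG.map (maximalIdeal R).fg_of_isNoetherianRing _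

variable {bh : B → R} {S : Type u} [CommRing S] [IsLocalRing S]

/-- The completed root ring is Noetherian. -/
lemma isNoetherianRing_target (hb : IsPB p fun b => residue R (bh b))
    [PerfectRing (KK (p := p) bh) p] [IsAdicComplete (maximalIdeal S) S]
    (ψ : RootRing p bh →+* S) (hψ : (maxR bh).map ψ = maximalIdeal S)
    (hd : ∀ t, ∃ q, t - ψ q ∈ maximalIdeal S) : IsNoetherianRing S := by
  letI := fieldKK (p := p) bh hb
  have hN : IsNoetherianRing (WittVector p (KK (p := p) bh)) := inferInstance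
  obtain ⟨G, hG⟩ := (maximalIdeal R).fg_of_isNoetherianRing
  let x : Fin G.card → S := fun l => ψ (algebraMap R _ (G.equivFin.symm l : R))
  have hx : ∀ l, x l ∈ maximalIdeal S := fun l => hψ ▸ Ideal.mem_map_of_mem ψ
    (Ideal.mem_map_of_mem _ (hG ▸ Ideal.subset_span (G.equivFin.symm l).2))
  obtain ⟨F, hFC, hFX⟩ := exists_series (theta bh ψ hψ.le) x hx
  refine isNoetherianRing_of_surjective _ _ F
    (surjective_series (theta bh ψ hψ.le) (fun t => ?_) F hFC ?_)
  · obtain ⟨q, hq⟩ := hd t
    refine ⟨teichmuller p (kmk bh q), ?_⟩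
    have h := theta_res bh ψ hψ.le (w := teichmuller p (kmk bh q)) (q := q)
      (teichmuller_coeff_zero p _).symm
    have h2 := sub_mem hq h
    rwa [sub_sub_sub_cancel_right] at h2
  · rw [← hψ, maxR, ← hG, Ideal.map_span, Ideal.map_span, ← Set.image_comp]
    congr 1
    ext y
    simp only [hFX, x, Set.mem_image, Finset.mem_coe, Set.mem_range, Function.comp_apply]
    constructor
    · rintro ⟨g, hg, rfl⟩
      exact ⟨G.equivFin ⟨g, hg⟩, by simp⟩
    · rintro ⟨l, rfl⟩
      exact ⟨_, (G.equivFin.symm l).2, rfl⟩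

/-- Finitely many elements of the root ring generate the preimage of a power. -/
lemma exists_preimage_generators [IsNoetherianRing S] (ψ : RootRing p bh →+* S) (I : Ideal S)
    (T : ℕ) (hI : maximalIdeal S ^ T ≤ I)
    (hd : ∀ t, ∃ q, t - ψ q ∈ maximalIdeal S ^ T)
    (hc : (maximalIdeal S ^ T).comap ψ = maxR bh ^ T) :
    ∃ Y : Finset (RootRing p bh),
      I.comap ψ ≤ Ideal.span (Y : Set (RootRing p bh)) ⊔ maxR bh ^ T ∧ ∀ y ∈ Y, ψ y ∈ I := by
  classical
  choose q hq using hd
  obtain ⟨H, hH⟩ := (IsNoetherian.noetherian I : I.FG)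
  refine ⟨H.image q, fun x hx => ?_, fun y hy => ?_⟩
  · have hx' : ψ x ∈ Submodule.span S (H : Set S) := hH.symm ▸ hx
    obtain ⟨c, -, hcx⟩ := Submodule.mem_span_finset.1 hx'
    have h1 : x - ∑ a ∈ H, q (c a) * q a ∈ maxR bh ^ T := by
      rw [← hc, Ideal.mem_comap, map_sub, map_sum, ← hcx, ← Finset.sum_sub_distrib]
      refine Ideal.sum_mem _ fun a _ => ?_
      rw [smul_eq_mul, map_mul,
        show c a * a - ψ (q (c a)) * ψ (q a) = (c a - ψ (q (c a))) * a + ψ (q (c a)) * (a - ψ (q a))
          by ring]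
      exact add_mem (Ideal.mul_mem_right _ _ (hq _)) (Ideal.mul_mem_left _ _ (hq _))
    rw [← add_sub_cancel (∑ a ∈ H, q (c a) * q a) x]
    refine Submodule.add_mem_sup (Ideal.sum_mem _ fun a ha => Ideal.mul_mem_left _ _ ?_) h1
    exact Ideal.subset_span (Finset.mem_coe.2 (Finset.mem_image_of_mem _ ha))
  · obtain ⟨a, ha, rfl⟩ := Finset.mem_image.1 hy
    have := I.sub_mem (hH ▸ Submodule.subset_span ha : a ∈ I) (hI (hq a))
    rwa [sub_sub_cancel] at this

/-- The datum, given the completed root ring. -/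
theorem exists_coefData [IsAdicComplete (maximalIdeal R) R] [IsDomain R] [CharZero R]
    [Infinite (ResidueField R)] {d : ℕ} (hd : 0 < d) (hR : ndim R = d)
    (hb : IsPB p fun b => residue R (bh b))
    [IsDomain (KK (p := p) bh)] [PerfectRing (KK (p := p) bh) p]
    [IsNoetherianRing S] [IsAdicComplete (maximalIdeal S) S]
    (ψ : RootRing p bh →+* S) (hψ : (maxR bh).map ψ = maximalIdeal S)
    (hψd : ∀ T t, ∃ q, t - ψ q ∈ maximalIdeal S ^ T)
    (hψc : ∀ T, (maximalIdeal S ^ T).comap ψ = maxR bh ^ T) :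
    ∃ (k : Type u) (_ : Field k) (_ : CharP k p) (_ : PerfectRing k p) (_ : Infinite k)
      (A : Type u) (_ : CommRing A) (_ : IsLocalRing A) (_ : IsNoetherianRing A)
      (_ : IsAdicComplete (maximalIdeal A) A) (_ : IsReduced A) (_ : Algebra R A)
      (_ : Algebra (WittVector p k) A), CoefData p R d k A := by
  classical
  letI := fieldKK (p := p) bh hb
  set θ := theta bh ψ hψ.le with hθ
  set φ : R →+* S := ψ.comp (algebraMap R (RootRing p bh)) with hφdef
  have hmax : (maximalIdeal R).map φ = maximalIdeal S := by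
    rw [hφdef, ← Ideal.map_map]
    exact hψ
  have hcontr : ∀ T, (maximalIdeal S ^ T).comap φ = maximalIdeal R ^ T := fun T => by
    rw [hφdef, ← Ideal.comap_comap, hψc]
    ext r
    rw [Ideal.mem_comap, maxR, ← Ideal.map_pow, mem_comap_map_iff]
  have hlen : ∀ T, Module.length S (S ⧸ maximalIdeal S ^ T) =
      Module.length R (R ⧸ maximalIdeal R ^ T) := fun T => by
    rw [← length_rootRing_quot bh hb T, ← hψc, length_quot_comap ψ _ (hψd T)]
  have hθres : ∀ t, ∃ w, t - θ w ∈ maximalIdeal S := fun t => by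
    obtain ⟨q, hq⟩ := hψd 1 t
    rw [pow_one] at hq
    refine ⟨teichmuller p (kmk bh q), ?_⟩
    have h := theta_res bh ψ hψ.le (w := teichmuller p (kmk bh q)) (q := q)
      (teichmuller_coeff_zero p _).symm
    have h2 := sub_mem hq h
    rwa [sub_sub_sub_cancel_right] at h2
  have := isPrecomplete_Lam (ι := iotaK (p := p) bh) hb
  obtain ⟨J, hJm, hJred, hJmin, hJdim, C, hC⟩ := exists_reduced_top hd hR φ hmax hcontr hlen θ
    hθres (Lam (iotaK bh) fun b => residue R (bh b))
    (fun w hw => (theta_Lam bh ψ hψ.le hcontr hw).elim fun r hr => ⟨r, hr.symm⟩)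
    (fun r => by
      obtain ⟨w, hw, hw0⟩ := exists_residue (p := p) (ι := iotaK (p := p) bh) hb (residue R r)
      refine ⟨w, hw, ?_⟩
      have h := theta_res bh ψ hψ.le (w := w) (q := algebraMap R _ r)
        (by rw [hw0, iotaK_residue])
      rw [← neg_mem_iff, neg_sub]
      exact h)
  have : Nontrivial (S ⧸ J) := Ideal.Quotient.nontrivial_iff.2
    (ne_top_of_le_ne_top (maximalIdeal.isMaximal S).ne_top hJm)
  have : IsLocalRing (S ⧸ J) := .of_surjective' _ Ideal.Quotient.mk_surjective
  have := isAdicComplete_quotient J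
  have hmA := maximalIdeal_quotient J
  have hmk : ∀ n, maximalIdeal (S ⧸ J) ^ n = (maximalIdeal S ^ n).map (Ideal.Quotient.mk J) :=
    fun n => by rw [hmA, Ideal.map_pow]
  let iRA : Algebra R (S ⧸ J) := ((Ideal.Quotient.mk J).comp φ).toAlgebra
  let iWA : Algebra (WittVector p (KK (p := p) bh)) (S ⧸ J) :=
    ((Ideal.Quotient.mk J).comp θ).toAlgebra
  let χ : RootRing p bh →ₐ[R] S ⧸ J :=
    { (Ideal.Quotient.mk J).comp ψ with commutes' := fun r => rfl }
  have hmapA : (maximalIdeal R).map (algebraMap R (S ⧸ J)) = maximalIdeal (S ⧸ J) := by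
    rw [hmA, ← hmax, Ideal.map_map]
    rfl
  have hθA : ∀ w q, kmk bh q = w.coeff 0 →
      algebraMap (WittVector p (KK (p := p) bh)) (S ⧸ J) w - χ q ∈ maximalIdeal (S ⧸ J) := by
    intro w q h
    rw [hmA]
    have h2 := Ideal.mem_map_of_mem (Ideal.Quotient.mk J) (theta_res bh ψ hψ.le h)
    rwa [map_sub] at h2
  have hχ : ∀ T a, ∃ q, a - χ q ∈ maximalIdeal (S ⧸ J) ^ T := by
    intro T a
    obtain ⟨t, rfl⟩ := Ideal.Quotient.mk_surjective a
    obtain ⟨q, hq⟩ := hψd T t
    refine ⟨q, ?_⟩
    rw [hmk]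
    have h2 := Ideal.mem_map_of_mem (Ideal.Quotient.mk J) hq
    rwa [map_sub] at h2
  obtain ⟨G, hG⟩ := (maximalIdeal R).fg_of_isNoetherianRing
  refine ⟨KK (p := p) bh, fieldKK bh hb, charP_KK bh, ‹_›, infinite_KK bh, S ⧸ J,
    inferInstance, inferInstance, inferInstance, inferInstance, hJred, iRA, iWA, ?_⟩
  refine
    { residue_surj := ?_
      map_max := hmapA
      min_primes := hJmin
      dim_eq := hJdim
      hilbert := ⟨C, fun T => ?_⟩
      stages := ⟨iotaK bh, G.image (algebraMap R (S ⧸ J)), ?_, ?_⟩ }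
  · intro a
    obtain ⟨b, rfl⟩ := residue_surjective a
    obtain ⟨t, rfl⟩ := Ideal.Quotient.mk_surjective b
    obtain ⟨w, hw⟩ := hθres t
    refine ⟨w, ?_⟩
    rw [RingHom.comp_apply, ← sub_eq_zero, ← map_sub, residue_eq_zero_iff, hmA,
      show algebraMap (WittVector p (KK (p := p) bh)) (S ⧸ J) w = Ideal.Quotient.mk J (θ w) from rfl,
      ← map_sub]
    exact Ideal.mem_map_of_mem _ (by rw [← neg_mem_iff, neg_sub]; exact hw)
  · have e : Module.length (S ⧸ J) ((S ⧸ J) ⧸ maximalIdeal (S ⧸ J) ^ T) =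
        Module.length S (S ⧸ (J ⊔ maximalIdeal S ^ T)) := by
      rw [← length_quot_comap (Ideal.Quotient.mk J) (maximalIdeal (S ⧸ J) ^ T)
        (fun b => by
          obtain ⟨t, rfl⟩ := Ideal.Quotient.mk_surjective b
          exact ⟨t, by rw [sub_self]; exact zero_mem _⟩), hmk,
        Ideal.comap_map_of_surjective _ Ideal.Quotient.mk_surjective, ← RingHom.ker_eq_comap_bot,
        Ideal.mk_ker, sup_comm]
    rw [e]
    refine ⟨?_, hC T⟩
    rw [← hlen, length_quot_eq_sq, length_quot_eq_sq (maximalIdeal S ^ T)]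
    exact sq_mono_right le_sup_right
  · intro r a h
    rw [← sub_eq_zero, ← map_sub, residue_eq_zero_iff] at h
    obtain ⟨q, hq⟩ := kmk_surjective bh (a.coeff 0)
    have h1 := hθA a q hq
    have h2 : χ (q - algebraMap R _ r) ∈ maximalIdeal (S ⧸ J) := by
      rw [map_sub, AlgHom.commutes]
      have := sub_mem h h1
      rwa [sub_sub_sub_cancel_left] at this
    have h3 : q - algebraMap R _ r ∈ maxR bh := by
      have h4 : ψ (q - algebraMap R _ r) ∈ maximalIdeal S := by
        rw [hmA] at h2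
        obtain ⟨y, hy, hye⟩ := (Ideal.mem_map_iff_of_surjective _ Ideal.Quotient.mk_surjective).1 h2
        have h5 : y - ψ (q - algebraMap R _ r) ∈ maximalIdeal S :=
          hJm (Ideal.Quotient.eq.1 hye)
        have := sub_mem hy h5
        rwa [sub_sub_cancel] at this
      rw [← pow_one (maxR bh), ← hψc, Ideal.mem_comap, pow_one]
      exact h4
    rw [← hq, iotaK_residue, ← sub_eq_zero, ← map_sub, kmk_eq_zero]
    exact h3
  · intro T Sw Sa
    refine exists_stage hb χ G hG (G.image (algebraMap R (S ⧸ J)))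
      (fun g hg => Finset.mem_image_of_mem _ hg) hmapA.le hχ (fun T => ?_) hθA ?_ ?_ T Sw Sa
    · refine exists_preimage_generators ψ ((maximalIdeal (S ⧸ J) ^ T).comap (Ideal.Quotient.mk J))
        T (fun t ht => ?_) (hψd T) (hψc T)
      rw [Ideal.mem_comap, hmk]
      exact Ideal.mem_map_of_mem _ ht
    · intro w hw
      obtain ⟨r, hr⟩ := theta_Lam bh ψ hψ.le hcontr hw
      exact ⟨r, congrArg (Ideal.Quotient.mk J) hr⟩
    · intro g
      exact congrArg (Ideal.Quotient.mk J) (theta_tau bh ψ hψ.le g)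

end Vale.Agent.P202.Coef

namespace Vale.Agent.P202

open IsLocalRing Coef

/-- M1. -/
theorem goalCoef : GoalCoef.{u} := by
  intro p _ R _ _ _ _ _ _ _ _ d hd hR
  obtain ⟨S₀, hS₀⟩ := exists_isPB (ResidueField R) p
  let bh : S₀ → R := fun b => Function.surjInv residue_surjective (b : ResidueField R)
  have hb : IsPB p fun b => residue R (bh b) := by
    convert hS₀ using 1
    exact funext fun b => Function.surjInv_eq residue_surjective _
  have hmax := isMaximal_maxR (p := p) bh hb
  let := fieldKK (p := p) bh hb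
  have : IsDomain (KK (p := p) bh) := inferInstance
  have : PerfectRing (KK (p := p) bh) p := PerfectRing.ofSurjective _ p (frobenius_surjective bh hb)
  have hfg := maxR_fg (p := p) bh
  have : IsLocalRing (AdicCompletion (maxR (p := p) bh) (RootRing p bh)) :=
    isLocalRing_completion _ hfg
  have := isAdicComplete_completion (maxR (p := p) bh) hfg
  have hmS := maximalIdeal_completion (maxR (p := p) bh) hfg
  let ψ := algebraMap (RootRing p bh) (AdicCompletion (maxR (p := p) bh) (RootRing p bh))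
  have hψd : ∀ T t, ∃ q, t - ψ q ∈
      maximalIdeal (AdicCompletion (maxR (p := p) bh) (RootRing p bh)) ^ T := fun T t => by
    rw [hmS]
    exact exists_sub_mem_pow _ hfg T t
  have := isNoetherianRing_target hb ψ hmS.symm fun t => by
    simpa using hψd 1 t
  exact exists_coefData hd hR hb ψ hmS.symm hψd fun T => by rw [hmS]; exact comap_map_pow _ hfg T

end Vale.Agent.P202
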