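import Vale.Agent.P202.M1PBasis

/-!
M1: a Cohen subring of the Witt vectors of a perfect extension, cut out by a `p`-basis, and its
saturated finite extensions by Teichmüller representatives.
-/

universe u

namespace Vale.Agent.P202.Coef

open WittVector

variable {p : ℕ} [Fact p.Prime] {K : Type u} [Field K] [CharP K p] {k : Type u} [CommRing k]
  [IsDomain k] [CharP k p] [PerfectRing k p] (ι : K →+* k) {B : Type u} (bb : B → K)

omit [PerfectRing k p] in
lemma dvd_coeff_zero {x : WittVector p k} (h : (p : WittVector p k) ∣ x) : x.coeff 0 = 0 := by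
  obtain ⟨y, rfl⟩ := h
  rw [← constantCoeff_apply, map_mul, map_natCast, CharP.cast_eq_zero, zero_mul]

lemma dvd_verschiebung (y : WittVector p k) : (p : WittVector p k) ∣ verschiebung y := by
  obtain ⟨z, rfl⟩ := (frobenius_bijective p k).2 y
  exact ⟨z, by rw [verschiebung_frobenius, mul_comm]⟩

lemma exists_verschiebung {R : Type u} [CommRing R] {x : WittVector p R} (h : x.coeff 0 = 0) :
    ∃ y, x = verschiebung y := by
  refine ⟨x.shift 1, WittVector.ext fun n => ?_⟩
  cases n with
  | zero => rw [verschiebung_coeff_zero, h]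
  | succ n => rw [verschiebung_coeff_succ, shift_coeff, Nat.add_comm]

lemma dvd_of_coeff_zero {x : WittVector p k} (h : x.coeff 0 = 0) : (p : WittVector p k) ∣ x := by
  obtain ⟨y, rfl⟩ := exists_verschiebung h
  exact dvd_verschiebung y

/-- The `n`-th Frobenius twist of the map induced by `ι`. -/
noncomputable def frI : ℕ → (WittVector p K →+* WittVector p k)
  | 0 => WittVector.map ι
  | n + 1 => WittVector.frobenius.comp (frI n)

omit [PerfectRing k p] in
lemma frI_succ (n : ℕ) (v : WittVector p K) :
    frI ι (n + 1) v = frI ι n (WittVector.frobenius v) := by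
  induction n with
  | zero =>
    refine WittVector.ext fun m => ?_
    show (WittVector.frobenius (WittVector.map ι v)).coeff m = _
    simp only [frI, coeff_frobenius_charP, map_coeff, map_pow]
  | succ n ih =>
    show WittVector.frobenius (frI ι (n + 1) v) = WittVector.frobenius (frI ι n _)
    rw [ih]

omit [PerfectRing k p] in
lemma coeff_zero_frI (n : ℕ) (v : WittVector p K) :
    (frI ι n v).coeff 0 = ι (v.coeff 0) ^ p ^ n := by
  induction n generalizing v with
  | zero => simp [frI, map_coeff]
  | succ n ih => rw [frI_succ, ih, coeff_frobenius_charP, map_pow, ← pow_mul, ← pow_succ']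

omit [PerfectRing k p] in
lemma frI_teichmuller (n : ℕ) (a : K) :
    frI ι n (teichmuller p a) = teichmuller p (ι a) ^ p ^ n := by
  induction n generalizing a with
  | zero => simp [frI, map_teichmuller]
  | succ n ih =>
    rw [frI_succ, frobenius_eq_map_frobenius, map_teichmuller, frobenius_def, ih, map_pow,
      map_pow, ← pow_mul, ← pow_succ']

omit [PerfectRing k p] in
lemma frI_verschiebung (n : ℕ) (v : WittVector p K) :
    frI ι (n + 1) (verschiebung v) = (p : WittVector p k) * frI ι n v := by
  rw [frI_succ, frobenius_verschiebung, map_mul, map_natCast, mul_comm]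

/-- The approximating subrings. -/
noncomputable def XN (N : ℕ) : Subring (WittVector p k) :=
  Subring.closure (Set.range (frI ι N) ∪ Set.range fun b => teichmuller p (ι (bb b)))

variable {ι bb}

omit [PerfectRing k p] in
lemma frI_mem_XN (N : ℕ) (v : WittVector p K) : frI ι N v ∈ XN ι bb N :=
  Subring.subset_closure (Or.inl ⟨v, rfl⟩)

omit [PerfectRing k p] in
lemma teich_bmon_mem_XN (N : ℕ) (e : B →₀ ℕ) :
    teichmuller p (ι (bmon bb e)) ∈ XN ι bb N := by
  rw [bmon, map_finsuppProd, map_finsuppProd]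
  refine Subring.prod_mem _ fun b _ => ?_
  beta_reduce
  rw [map_pow, map_pow]
  exact pow_mem (show teichmuller p (ι (bb b)) ∈ XN ι bb N from
    Subring.subset_closure (Or.inr ⟨b, rfl⟩)) _

omit [PerfectRing k p] in
lemma frI_mem_XN_of_le {M n : ℕ} (h : M ≤ n) (v : WittVector p K) :
    frI ι n v ∈ XN ι bb M := by
  induction n, h using Nat.le_induction generalizing v with
  | base => exact frI_mem_XN M v
  | succ n _ ih => rw [frI_succ]; exact ih _

omit [PerfectRing k p] in
lemma XN_antitone {M n : ℕ} (h : M ≤ n) : XN (p := p) ι bb n ≤ XN ι bb M := by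
  refine Subring.closure_le.2 ?_
  rintro x (⟨v, rfl⟩ | hx)
  · exact frI_mem_XN_of_le h v
  · exact Subring.subset_closure (Or.inr hx)

/-- Every twist is approximated from every level, to the depth of the twist. -/
lemma approx (hb : IsPB p bb) : ∀ (r n M : ℕ), r ≤ n + 1 → ∀ v : WittVector p K,
    ∃ x ∈ XN ι bb M, (p : WittVector p k) ^ r ∣ frI ι n v - x := by
  classical
  intro r
  induction r with
  | zero => exact fun n M _ v => ⟨0, zero_mem _, by simp⟩
  | succ r ih =>
    intro n M hr v
    suffices H : ∀ (j n : ℕ), M ≤ n + j → r + 1 ≤ n + 1 → ∀ v : WittVector p K,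
        ∃ x ∈ XN ι bb M, (p : WittVector p k) ^ (r + 1) ∣ frI ι n v - x from
      H M n (Nat.le_add_left _ _) hr v
    clear hr v n
    intro j
    induction j with
    | zero => exact fun n hn _ v => ⟨_, frI_mem_XN_of_le hn v, by simp⟩
    | succ j ihj =>
      intro n hn hr v
      obtain ⟨c, -, hv0⟩ := hb.span (v.coeff 0)
      set z : WittVector p K := ∑ e ∈ c.support,
        WittVector.frobenius (teichmuller p (c e)) * teichmuller p (bmon bb e) with hz
      obtain ⟨t, ht⟩ := exists_verschiebung (x := v - z) (by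
        rw [hz, ← constantCoeff_apply, map_sub, map_sum, constantCoeff_apply, hv0, sub_eq_zero]
        refine Finset.sum_congr rfl fun e _ => ?_
        rw [map_mul, constantCoeff_apply, constantCoeff_apply, coeff_frobenius_charP,
          teichmuller_coeff_zero, teichmuller_coeff_zero])
      obtain ⟨xz, hxz, hdz⟩ : ∃ x ∈ XN ι bb M, (p : WittVector p k) ^ (r + 1) ∣ frI ι n z - x := by
        choose y hy hdy using fun e => ihj (n + 1) (by omega) (by omega) (teichmuller p (c e))
        refine ⟨∑ e ∈ c.support, y e * teichmuller p (ι (bmon bb e)) ^ p ^ n,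
          sum_mem fun e _ => mul_mem (hy e) (pow_mem (teich_bmon_mem_XN M e) _), ?_⟩
        rw [hz, map_sum, ← Finset.sum_sub_distrib]
        refine Finset.dvd_sum fun e _ => ?_
        rw [map_mul, ← frI_succ, frI_teichmuller ι n (bmon bb e), ← sub_mul]
        exact dvd_mul_of_dvd_left (hdy e) _
      rw [sub_eq_iff_eq_add'] at ht
      cases n with
      | zero =>
        obtain rfl : r = 0 := by omega
        refine ⟨xz, hxz, ?_⟩
        rw [ht, map_add, add_sub_right_comm]
        refine dvd_add hdz ?_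
        rw [pow_one, show frI ι 0 (verschiebung t) = verschiebung (WittVector.map ι t) from
          map_verschiebung ι t]
        exact dvd_verschiebung _
      | succ m =>
        obtain ⟨x, hx, hdx⟩ := ih m M (by omega) t
        refine ⟨xz + (p : WittVector p k) * x, add_mem hxz (mul_mem (natCast_mem _ p) hx), ?_⟩
        rw [ht, map_add, frI_verschiebung, add_sub_add_comm, ← mul_sub]
        refine dvd_add hdz ?_
        rw [pow_succ']
        exact mul_dvd_mul_left _ hdx

lemma exists_step (hb : IsPB p bb) (N : ℕ) {x : WittVector p k} (hx : x ∈ XN ι bb N) :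
    ∃ y ∈ XN ι bb (N + 1), (p : WittVector p k) ^ (N + 1) ∣ y - x := by
  induction hx using Subring.closure_induction with
  | mem x hx =>
    rcases hx with ⟨v, rfl⟩ | hx
    · obtain ⟨y, hy, hd⟩ := approx (ι := ι) hb (N + 1) N (N + 1) le_rfl v
      exact ⟨y, hy, by rwa [dvd_sub_comm]⟩
    · exact ⟨x, Subring.subset_closure (Or.inr hx), by simp⟩
  | zero => exact ⟨0, zero_mem _, by simp⟩
  | one => exact ⟨1, one_mem _, by simp⟩
  | add a b _ _ ha hb =>
    obtain ⟨a', ha', hda⟩ := ha
    obtain ⟨b', hb', hdb⟩ := hb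
    exact ⟨a' + b', add_mem ha' hb', by rw [add_sub_add_comm]; exact dvd_add hda hdb⟩
  | neg a _ ha =>
    obtain ⟨a', ha', hda⟩ := ha
    exact ⟨-a', neg_mem ha', by rw [← neg_sub_neg, neg_neg, neg_neg, dvd_sub_comm]; exact hda⟩
  | mul a b _ _ ha hb =>
    obtain ⟨a', ha', hda⟩ := ha
    obtain ⟨b', hb', hdb⟩ := hb
    refine ⟨a' * b', mul_mem ha' hb', ?_⟩
    rw [show a' * b' - a * b = (a' - a) * b' + a * (b' - b) by ring]
    exact dvd_add (dvd_mul_of_dvd_left hda _) (dvd_mul_of_dvd_right hdb _)

variable (ι bb)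

/-- The Cohen subring. -/
noncomputable def Lam : Subring (WittVector p k) where
  carrier := {w | ∀ N, ∃ v ∈ XN ι bb N, (p : WittVector p k) ^ (N + 1) ∣ w - v}
  zero_mem' N := ⟨0, zero_mem _, by simp⟩
  one_mem' N := ⟨1, one_mem _, by simp⟩
  add_mem' {a b} ha hb N := by
    obtain ⟨a', ha', hda⟩ := ha N
    obtain ⟨b', hb', hdb⟩ := hb N
    exact ⟨a' + b', add_mem ha' hb', by rw [add_sub_add_comm]; exact dvd_add hda hdb⟩
  neg_mem' {a} ha N := by
    obtain ⟨a', ha', hda⟩ := ha N
    exact ⟨-a', neg_mem ha', by rw [← neg_sub', dvd_neg]; exact hda⟩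
  mul_mem' {a b} ha hb N := by
    obtain ⟨a', ha', hda⟩ := ha N
    obtain ⟨b', hb', hdb⟩ := hb N
    refine ⟨a' * b', mul_mem ha' hb', ?_⟩
    rw [show a * b - a' * b' = (a - a') * b' + a * (b - b') by ring]
    exact dvd_add (dvd_mul_of_dvd_left hda _) (dvd_mul_of_dvd_right hdb _)

variable {ι bb}

omit [PerfectRing k p] in
lemma mem_Lam {w : WittVector p k} :
    w ∈ Lam ι bb ↔ ∀ N, ∃ v ∈ XN ι bb N, (p : WittVector p k) ^ (N + 1) ∣ w - v := Iff.rfl

omit [PerfectRing k p] in
lemma teich_bmon_mem_Lam (e : B →₀ ℕ) : teichmuller p (ι (bmon bb e)) ∈ Lam ι bb :=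
  fun N => ⟨_, teich_bmon_mem_XN N e, by simp⟩

lemma exists_limit (f : ℕ → WittVector p k)
    (hf : ∀ m n, m ≤ n → (p : WittVector p k) ^ m ∣ f n - f m) :
    ∃ L, ∀ n, (p : WittVector p k) ^ n ∣ L - f n := by
  obtain ⟨L, hL⟩ := IsPrecomplete.prec (I := Ideal.span {(p : WittVector p k)}) inferInstance
    (f := f) fun {m n} hmn => by
      rw [SModEq.sub_mem, smul_eq_mul, Ideal.mul_top, Ideal.span_singleton_pow,
        Ideal.mem_span_singleton, dvd_sub_comm]
      exact hf m n hmn
  refine ⟨L, fun n => ?_⟩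
  have := hL n
  rwa [SModEq.sub_mem, smul_eq_mul, Ideal.mul_top, Ideal.span_singleton_pow,
    Ideal.mem_span_singleton, dvd_sub_comm] at this

/-- An element of a level extends to an element of the Cohen subring. -/
lemma exists_extend (hb : IsPB p bb) (N : ℕ) {x : WittVector p k} (hx : x ∈ XN ι bb N) :
    ∃ w ∈ Lam ι bb, (p : WittVector p k) ^ (N + 1) ∣ w - x := by
  choose g hg hgd using fun (M : ℕ) (z : XN ι bb M) => exists_step hb M z.2
  let s : ∀ n, XN (p := p) ι bb (N + n) :=
    fun n => Nat.rec (motive := fun n => XN (p := p) ι bb (N + n)) ⟨x, hx⟩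
      (fun n z => ⟨g (N + n) z, hg (N + n) z⟩) n
  have hstep : ∀ m n, m ≤ n →
      (p : WittVector p k) ^ (N + m + 1) ∣ (s n : WittVector p k) - (s m : WittVector p k) := by
    intro m n h
    induction n, h using Nat.le_induction with
    | base => simp
    | succ n hmn ihn =>
      rw [← sub_add_sub_cancel _ (s n : WittVector p k)]
      refine dvd_add ((pow_dvd_pow _ ?_).trans (hgd (N + n) (s n))) ihn
      omega
  obtain ⟨L, hL⟩ := exists_limit (fun n => (s n : WittVector p k)) fun m n h =>
    (pow_dvd_pow _ (by omega : m ≤ N + m + 1)).trans (hstep m n h)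
  have hLs : ∀ n, (p : WittVector p k) ^ (N + n + 1) ∣ L - (s n : WittVector p k) := by
    intro n
    rw [← sub_add_sub_cancel L (s (N + n + 1) : WittVector p k)]
    exact dvd_add (hL _) (hstep n _ (by omega))
  refine ⟨L, fun M => ?_, by simpa [s] using hLs 0⟩
  rcases le_total N M with h | h
  · obtain ⟨n, rfl⟩ := Nat.exists_eq_add_of_le h
    exact ⟨_, (s n).2, hLs n⟩
  · exact ⟨x, XN_antitone h hx, (pow_dvd_pow _ (by omega : M + 1 ≤ N + 1)).trans
      (by simpa [s] using hLs 0)⟩

/-- The residue map of the Cohen subring is onto the image of `K`. -/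
lemma exists_residue (hb : IsPB p bb) (a : K) : ∃ w ∈ Lam (p := p) ι bb, w.coeff 0 = ι a := by
  obtain ⟨w, hw, hd⟩ := exists_extend hb 0 (frI_mem_XN (ι := ι) (bb := bb) 0 (teichmuller p a))
  refine ⟨w, hw, ?_⟩
  have h := dvd_coeff_zero (by simpa using hd : (p : WittVector p k) ∣ _)
  rw [← constantCoeff_apply, map_sub, constantCoeff_apply, constantCoeff_apply, sub_eq_zero,
    coeff_zero_frI, teichmuller_coeff_zero, pow_zero, pow_one] at h
  exact h

omit [PerfectRing k p] in
lemma coeff_zero_mem_range {w : WittVector p k} (hw : w ∈ Lam ι bb) : w.coeff 0 ∈ ι.range := by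
  obtain ⟨v, hv, hd⟩ := hw 0
  rw [zero_add, pow_one] at hd
  have h := dvd_coeff_zero hd
  rw [← constantCoeff_apply, map_sub, sub_eq_zero, constantCoeff_apply] at h
  rw [h]
  suffices XN ι bb 0 ≤ ι.range.comap WittVector.constantCoeff from this hv
  refine Subring.closure_le.2 ?_
  rintro _ (⟨u, rfl⟩ | ⟨b, rfl⟩)
  · exact ⟨u.coeff 0, by rw [constantCoeff_apply, coeff_zero_frI, pow_zero, pow_one]⟩
  · exact ⟨bb b, by rw [constantCoeff_apply, teichmuller_coeff_zero]⟩

omit [PerfectRing k p] in
lemma exists_sum_XN {M : ℕ} {x : WittVector p k} (hx : x ∈ XN ι bb M) :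
    ∃ c : (B →₀ ℕ) →₀ WittVector p K, (∀ e ∈ c.support, ∀ b, e b < p ^ M) ∧
      x = c.sum fun e v => frI ι M v * teichmuller p (ι (bmon bb e)) := by
  classical
  set Y : Set (WittVector p k) :=
    {y | ∃ (v : WittVector p K) (e : B →₀ ℕ), y = frI ι M v * teichmuller p (ι (bmon bb e))}
  have hY : ∀ a ∈ AddSubgroup.closure Y, ∀ b ∈ AddSubgroup.closure Y,
      a * b ∈ AddSubgroup.closure Y := by
    intro a ha b hb
    induction ha using AddSubgroup.closure_induction with
    | mem a ha =>
      obtain ⟨v, e, rfl⟩ := ha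
      induction hb using AddSubgroup.closure_induction with
      | mem b hb =>
        obtain ⟨v', e', rfl⟩ := hb
        refine AddSubgroup.subset_closure ⟨v * v', e + e', ?_⟩
        rw [map_mul, bmon_add, map_mul, map_mul]
        ring
      | zero => rw [mul_zero]; exact zero_mem _
      | add u w _ _ hu hw => rw [mul_add]; exact add_mem hu hw
      | neg u _ hu => rw [mul_neg]; exact neg_mem hu
    | zero => rw [zero_mul]; exact zero_mem _
    | add u w _ _ hu hw => rw [add_mul]; exact add_mem hu hw
    | neg u _ hu => rw [neg_mul]; exact neg_mem hu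
  have hmem : x ∈ AddSubgroup.closure Y := by
    induction hx using Subring.closure_induction with
    | mem x hx =>
      rcases hx with ⟨v, rfl⟩ | ⟨b, rfl⟩
      · exact AddSubgroup.subset_closure ⟨v, 0, by simp⟩
      · exact AddSubgroup.subset_closure ⟨1, Finsupp.single b 1, by simp [bmon]⟩
    | zero => exact zero_mem _
    | one => exact AddSubgroup.subset_closure ⟨1, 0, by simp⟩
    | add a b _ _ ha hb => exact add_mem ha hb
    | neg a _ ha => exact neg_mem ha
    | mul a b _ _ ha hb => exact hY a ha b hb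
  clear hx hY
  induction hmem using AddSubgroup.closure_induction with
  | mem y hy =>
    obtain ⟨v, e, rfl⟩ := hy
    refine ⟨Finsupp.single (eMod (p ^ M) e)
      (v * teichmuller p (bmon bb (eDiv (p ^ M) e))), fun e' he' b => ?_, ?_⟩
    · rw [Finset.mem_singleton.1 (Finsupp.support_single_subset he'), eMod_apply]
      exact Nat.mod_lt _ (pow_pos (Fact.out : p.Prime).pos M)
    · rw [Finsupp.sum_single_index (by simp), map_mul, frI_teichmuller, bmon_split bb (p ^ M) e,
        map_mul, map_mul, map_pow, map_pow]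
      ring
  | zero => exact ⟨0, by simp, by simp⟩
  | add a b _ _ ha hb =>
    obtain ⟨c, hc, rfl⟩ := ha
    obtain ⟨c', hc', rfl⟩ := hb
    refine ⟨c + c', fun e he => ?_, ?_⟩
    · rcases Finset.mem_union.1 (Finsupp.support_add he) with h | h
      · exact hc e h
      · exact hc' e h
    · rw [Finsupp.sum_add_index' (fun e => by simp) (fun e u v => by rw [map_add, add_mul])]
  | neg a _ ha =>
    obtain ⟨c, hc, rfl⟩ := ha
    refine ⟨-c, fun e he => hc e (by simpa using he), ?_⟩
    rw [Finsupp.sum_neg_index (fun e => by simp), ← Finsupp.sum_neg]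
    exact Finset.sum_congr rfl fun e _ => by simp

/-- The Cohen subring is saturated. -/
lemma Lam_saturated (hb : IsPB p bb) {w : WittVector p k}
    (hw : (p : WittVector p k) * w ∈ Lam ι bb) : w ∈ Lam ι bb := by
  classical
  intro N
  obtain ⟨x, hx, hd⟩ := hw (N + 1)
  obtain ⟨c, hc, hxc⟩ := exists_sum_XN hx
  have h0 : x.coeff 0 = 0 := by
    have := dvd_coeff_zero (x := (p : WittVector p k) * w - x)
      ((dvd_pow_self _ (Nat.succ_ne_zero _)).trans hd)
    rw [← constantCoeff_apply, map_sub, constantCoeff_apply,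
      dvd_coeff_zero (dvd_mul_right _ w), zero_sub, neg_eq_zero] at this
    exact this
  have hc0 : c.mapRange (fun v => v.coeff 0) (by simp) = 0 := by
    refine hb.free (N + 1) _ (fun e he => hc e (Finsupp.support_mapRange he)) (ι.injective ?_)
    rw [map_zero, ← h0, hxc, Finsupp.sum_mapRange_index (fun e => by
      simp [(Fact.out : p.Prime).ne_zero]), ← constantCoeff_apply, map_finsuppSum, map_finsuppSum]
    refine Finsupp.sum_congr fun e _ => ?_
    rw [map_mul, map_mul, map_pow, constantCoeff_apply, constantCoeff_apply, coeff_zero_frI,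
      teichmuller_coeff_zero]
  choose t ht using fun e => exists_verschiebung (x := c e) (by
    simpa using DFunLike.congr_fun hc0 e)
  refine ⟨∑ e ∈ c.support, frI ι N (t e) * teichmuller p (ι (bmon bb e)),
    sum_mem fun e _ => mul_mem (frI_mem_XN N _) (teich_bmon_mem_XN N e), ?_⟩
  have hxp : x = (p : WittVector p k) *
      ∑ e ∈ c.support, frI ι N (t e) * teichmuller p (ι (bmon bb e)) := by
    rw [hxc, Finsupp.sum, Finset.mul_sum]
    refine Finset.sum_congr rfl fun e _ => ?_
    rw [ht e, frI_verschiebung, mul_assoc]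
  rw [hxp, ← mul_sub, pow_succ'] at hd
  exact (mul_dvd_mul_iff_left (p_nonzero p k)).1 hd

lemma Lam_saturated_pow (hb : IsPB p bb) (n : ℕ) {w : WittVector p k}
    (hw : (p : WittVector p k) ^ n * w ∈ Lam ι bb) : w ∈ Lam ι bb := by
  induction n with
  | zero => simpa using hw
  | succ n ih => exact ih (Lam_saturated hb (by rwa [← mul_assoc, ← pow_succ']))

/-- The Cohen subring is complete. -/
lemma isPrecomplete_Lam (hb : IsPB p bb) :
    IsPrecomplete (Ideal.span {(p : Lam (p := p) ι bb)}) (Lam (p := p) ι bb) := by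
  refine ⟨fun f hf => ?_⟩
  have hf' : ∀ m n, m ≤ n →
      (p : WittVector p k) ^ m ∣ (f n : WittVector p k) - (f m : WittVector p k) := by
    intro m n h
    have := hf h
    rw [SModEq.sub_mem, smul_eq_mul, Ideal.mul_top, Ideal.span_singleton_pow,
      Ideal.mem_span_singleton, dvd_sub_comm] at this
    obtain ⟨u, hu⟩ := this
    exact ⟨u, by simpa using congrArg Subtype.val hu⟩
  obtain ⟨L, hL⟩ := exists_limit (fun n => (f n : WittVector p k)) hf'
  have hLm : L ∈ Lam ι bb := fun N => by
    obtain ⟨v, hv, hd⟩ := (f (N + 1)).2 N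
    refine ⟨v, hv, ?_⟩
    rw [← sub_add_sub_cancel L (f (N + 1) : WittVector p k)]
    exact dvd_add (hL _) hd
  refine ⟨⟨L, hLm⟩, fun n => ?_⟩
  rw [SModEq.sub_mem, smul_eq_mul, Ideal.mul_top, Ideal.span_singleton_pow,
    Ideal.mem_span_singleton, dvd_sub_comm]
  obtain ⟨u, hu⟩ := hL n
  exact ⟨⟨u, Lam_saturated_pow hb n (hu ▸ sub_mem hLm (f n).2)⟩, Subtype.ext (by simpa using hu)⟩

section Omega

variable (ι bb) {c : ℕ} (t : Fin c → k)

/-- The extension of the Cohen subring by Teichmüller representatives. -/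
noncomputable def Omega : Subring (WittVector p k) :=
  Subring.closure ((Lam (p := p) ι bb : Set (WittVector p k)) ∪
    Set.range fun j => teichmuller p (t j))

variable {ι bb t}

omit [PerfectRing k p] in
lemma Lam_le_Omega : Lam (p := p) ι bb ≤ Omega ι bb t :=
  fun _ hw => Subring.subset_closure (Or.inl hw)

omit [PerfectRing k p] in
lemma teich_mem_Omega (j : Fin c) : teichmuller p (t j) ∈ Omega ι bb t :=
  Subring.subset_closure (Or.inr ⟨j, rfl⟩)

omit [PerfectRing k p] in
lemma exists_sum_Omega (h1 : ∃ j, t j = 1)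
    (hmul : ∀ i j, ∃ e l, t i * t j = ι (bmon bb e) * t l) {w : WittVector p k}
    (hw : w ∈ Omega ι bb t) :
    ∃ a : Fin c → Lam (p := p) ι bb, w = ∑ j, (a j : WittVector p k) * teichmuller p (t j) := by
  classical
  let V : Submodule (Lam (p := p) ι bb) (WittVector p k) :=
    Submodule.span _ (Set.range fun j => teichmuller p (t j))
  have hone : (1 : WittVector p k) ∈ V := by
    obtain ⟨j, hj⟩ := h1
    exact Submodule.subset_span ⟨j, by simp [hj]⟩
  suffices hV : w ∈ V by
    obtain ⟨a, ha⟩ := (Submodule.mem_span_range_iff_exists_fun _).1 hV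
    exact ⟨a, ha.symm⟩
  have hmulV : ∀ a ∈ V, ∀ b ∈ V, a * b ∈ V := by
    intro a ha b hb
    refine Submodule.span_induction₂ (p := fun x y _ _ => x * y ∈ V) ?_ (by simp) (by simp)
      (fun x y z _ _ _ hx hy => by rw [add_mul]; exact add_mem hx hy)
      (fun x y z _ _ _ hy hz => by rw [mul_add]; exact add_mem hy hz)
      (fun r x y _ _ h => by rw [smul_mul_assoc]; exact V.smul_mem r h)
      (fun r x y _ _ h => by rw [mul_smul_comm]; exact V.smul_mem r h) ha hb
    rintro _ _ ⟨i, rfl⟩ ⟨j, rfl⟩
    obtain ⟨e, l, hel⟩ := hmul i j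
    have h2 : teichmuller p (t i) * teichmuller p (t j) =
        (⟨_, teich_bmon_mem_Lam (ι := ι) (bb := bb) e⟩ : Lam (p := p) ι bb) •
          teichmuller p (t l) := by
      rw [Subring.smul_def, smul_eq_mul, ← map_mul, ← map_mul, hel]
    rw [h2]
    exact V.smul_mem _ (Submodule.subset_span ⟨l, rfl⟩)
  induction hw using Subring.closure_induction with
  | mem x hx =>
    rcases hx with hx | hx
    · have : x = (⟨x, hx⟩ : Lam (p := p) ι bb) • (1 : WittVector p k) := by
        rw [Subring.smul_def, smul_eq_mul, mul_one]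
      rw [this]
      exact V.smul_mem _ hone
    · exact Submodule.subset_span hx
  | zero => exact zero_mem _
  | one => exact hone
  | add a b _ _ ha hb => exact add_mem ha hb
  | neg a _ ha => exact neg_mem ha
  | mul a b _ _ ha hb => exact hmulV a ha b hb

/-- The extensions are saturated. -/
lemma Omega_saturated (hb : IsPB p bb) (h1 : ∃ j, t j = 1)
    (hmul : ∀ i j, ∃ e l, t i * t j = ι (bmon bb e) * t l)
    (hind : ∀ r : Fin c → K, ∑ j, ι (r j) * t j = 0 → r = 0) {w : WittVector p k}
    (hw : w ∈ Omega ι bb t) (hd : (p : WittVector p k) ∣ w) :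
    ∃ w' ∈ Omega ι bb t, w = (p : WittVector p k) * w' := by
  classical
  obtain ⟨a, rfl⟩ := exists_sum_Omega h1 hmul hw
  choose r hr using fun j => coeff_zero_mem_range (a j).2
  have hr0 : r = 0 := by
    refine hind r ?_
    rw [← dvd_coeff_zero hd, ← constantCoeff_apply, map_sum]
    exact Finset.sum_congr rfl fun j _ => by
      rw [map_mul, constantCoeff_apply, constantCoeff_apply, teichmuller_coeff_zero, hr]
  choose u hu using fun j => dvd_of_coeff_zero (x := (a j : WittVector p k))
    (by rw [← hr j, hr0, Pi.zero_apply, map_zero])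
  refine ⟨∑ j, u j * teichmuller p (t j), sum_mem fun j _ => mul_mem
    (Lam_le_Omega (Lam_saturated hb (hu j ▸ (a j).2))) (teich_mem_Omega j), ?_⟩
  rw [Finset.mul_sum]
  exact Finset.sum_congr rfl fun j _ => by rw [hu j, mul_assoc]

end Omega

end Vale.Agent.P202.Coef
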