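import Vale.Agent.P202.M1Stage
import Vale.Agent.P202.M1Cohen

/-!
M1: the saturated coefficient rings attached to the finite stages, their residue fields, and
approximation of Witt vectors by them.
-/

universe u

namespace Vale.Agent.P202.Coef

open IsLocalRing WittVector

variable {p : ℕ} [Fact p.Prime] {B : Type u} {R : Type u} [CommRing R] [IsLocalRing R]
  [CharP (ResidueField R) p] (bh : B → R)

/-- The special fibre, as a field. -/
@[reducible] noncomputable def fieldKK (hb : IsPB p fun b => residue R (bh b)) :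
    Field (KK (p := p) bh) :=
  IsField.toField (show IsField (KK (p := p) bh) from
    (Ideal.Quotient.maximal_ideal_iff_isField_quotient (maxR bh)).1 (isMaximal_maxR bh hb))

lemma tau_zero : tau (p := p) bh 0 = 1 := by rw [tau, mon_zero, map_one]

lemma tau_single (b : B) :
    tau (p := p) bh (natEx p (Finsupp.single b 1)) = iotaK bh (residue R (bh b)) := by
  rw [tau_natEx]; simp [bmon]

lemma teich_coords (s : Finset B) (i : ℕ) (r : Fin (csize p s i) → ResidueField R) :
    (∑ j, iotaK bh (r j) * tau bh (redEx p s i j)) ∈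
      (St (p := p) bh s i).toSubring.map (kmk bh) :=
  Subring.sum_mem _ fun j _ => mul_mem (iotaK_mem bh s i _) (tau_redEx_mem bh s i j)

/-- The Teichmüller generators of a stage. -/
noncomputable def stT (s : Finset B) (i : ℕ) (j : Fin (csize p s i)) : KK (p := p) bh :=
  tau bh (redEx p s i j)

lemma stT_one (s : Finset B) (i : ℕ) : ∃ j, stT (p := p) bh s i j = 1 := by
  obtain ⟨j, hj⟩ := exists_redEx (InSt.zero (p := p) s i) fr_zero
  exact ⟨j, by rw [stT, hj, tau_zero]⟩

lemma stT_mul (s : Finset B) (i : ℕ) (j l : Fin (csize p s i)) :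
    ∃ e m, stT bh s i j * stT bh s i l =
      iotaK bh (bmon (fun b => residue R (bh b)) e) * stT bh s i m := by
  set g := redEx p s i j + redEx p s i l with hg
  obtain ⟨m, hm⟩ := exists_redEx ((InSt.add (redEx_mem s i j).1 (redEx_mem s i l).1).fr) (fr_fr g)
  refine ⟨flN g, m, ?_⟩
  rw [stT, stT, stT, hm, ← tau_add, ← tau_natEx, ← tau_add, add_comm (natEx p (flN g)),
    fr_add_flN]

lemma stT_ind (s : Finset B) (i : ℕ) (r : Fin (csize p s i) → ResidueField R)
    (h : ∑ j, iotaK bh (r j) * stT bh s i j = 0) : r = 0 :=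
  (existsUnique_coords bh s i (a := 0) (zero_mem _)).unique h.symm (by simp)

variable [IsDomain (KK (p := p) bh)] [PerfectRing (KK (p := p) bh) p]

/-- The coefficient ring of a stage. -/
noncomputable def Om (s : Finset B) (i : ℕ) : Subring (WittVector p (KK (p := p) bh)) :=
  Omega (iotaK bh) (fun b => residue R (bh b)) (stT bh s i)

variable {bh}

omit [PerfectRing (KK (p := p) bh) p] in
lemma Om_residue_mem {s : Finset B} {i : ℕ} {w : WittVector p (KK (p := p) bh)}
    (hw : w ∈ Om bh s i) : w.coeff 0 ∈ (St (p := p) bh s i).toSubring.map (kmk bh) := by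
  suffices Om bh s i ≤ ((St (p := p) bh s i).toSubring.map (kmk bh)).comap
      WittVector.constantCoeff from this hw
  refine Subring.closure_le.2 ?_
  rintro x (hx | ⟨j, rfl⟩)
  · obtain ⟨a, ha⟩ := coeff_zero_mem_range hx
    rw [SetLike.mem_coe, Subring.mem_comap, WittVector.constantCoeff_apply, ← ha]
    exact iotaK_mem bh s i a
  · rw [SetLike.mem_coe, Subring.mem_comap, WittVector.constantCoeff_apply, teichmuller_coeff_zero]
    exact tau_redEx_mem bh s i j

lemma Om_residue_surj (hb : IsPB p fun b => residue R (bh b)) {s : Finset B} {i : ℕ}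
    {a : KK (p := p) bh} (ha : a ∈ (St (p := p) bh s i).toSubring.map (kmk bh)) :
    ∃ w ∈ Om bh s i, w.coeff 0 = a := by
  obtain ⟨r, hr, -⟩ := existsUnique_coords bh s i ha
  choose l hl hl0 using fun j => exists_residue (p := p) (ι := iotaK (p := p) bh) hb (r j)
  refine ⟨∑ j, l j * teichmuller p (stT bh s i j),
    sum_mem fun j _ => mul_mem (Lam_le_Omega (hl j)) (teich_mem_Omega j), ?_⟩
  rw [← WittVector.constantCoeff_apply, map_sum, hr]
  exact Finset.sum_congr rfl fun j _ => by
    rw [map_mul, WittVector.constantCoeff_apply, WittVector.constantCoeff_apply,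
      teichmuller_coeff_zero, hl0, stT]

lemma Om_saturated (hb : IsPB p fun b => residue R (bh b)) {s : Finset B} {i : ℕ}
    {w : WittVector p (KK (p := p) bh)} (hw : w ∈ Om bh s i)
    (hd : (p : WittVector p (KK (p := p) bh)) ∣ w) :
    ∃ w' ∈ Om bh s i, w = (p : WittVector p (KK (p := p) bh)) * w' :=
  Omega_saturated hb (stT_one bh s i) (stT_mul bh s i) (stT_ind bh s i) hw hd

omit [PerfectRing (KK (p := p) bh) p] in
lemma Om_mono {s s' : Finset B} {i i' : ℕ} (hs : s ⊆ s') (hi : i ≤ i') :
    Om (p := p) bh s i ≤ Om bh s' i' := by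
  refine Subring.closure_le.2 ?_
  rintro x (hx | ⟨j, rfl⟩)
  · exact Lam_le_Omega hx
  · obtain ⟨j', hj'⟩ := exists_redEx ((redEx_mem s i j).1.mono hs hi) (redEx_mem s i j).2
    show teichmuller p (tau bh (redEx p s i j)) ∈ Om bh s' i'
    rw [← hj']
    exact teich_mem_Omega j'

/-- Every Witt vector is approximated from the large stages. -/
lemma exists_approx (hb : IsPB p fun b => residue R (bh b)) :
    ∀ (T : ℕ) (w : WittVector p (KK (p := p) bh)), ∃ s i, ∀ s' i', s ⊆ s' → i ≤ i' →
      ∃ w' ∈ Om bh s' i', (p : WittVector p (KK (p := p) bh)) ^ T ∣ w - w' := by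
  classical
  intro T
  induction T with
  | zero => exact fun w => ⟨∅, 0, fun _ _ _ _ => ⟨0, zero_mem _, by simp⟩⟩
  | succ T ih =>
    intro w
    obtain ⟨s₁, i₁, h₁⟩ := exists_mem_map_kmk bh (w.coeff 0)
    obtain ⟨w₁, hw₁, hw₁0⟩ := Om_residue_surj hb (h₁ s₁ i₁ subset_rfl le_rfl)
    obtain ⟨u, hu⟩ := dvd_of_coeff_zero (x := w - w₁) (by
      rw [← WittVector.constantCoeff_apply, map_sub, WittVector.constantCoeff_apply,
        WittVector.constantCoeff_apply, hw₁0, sub_self])
    obtain ⟨s₂, i₂, h₂⟩ := ih u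
    refine ⟨s₁ ∪ s₂, max i₁ i₂, fun s' i' hs hi => ?_⟩
    obtain ⟨hs₁, hs₂⟩ := Finset.union_subset_iff.1 hs
    obtain ⟨hi₁, hi₂⟩ := max_le_iff.1 hi
    obtain ⟨u', hu', hd⟩ := h₂ s' i' hs₂ hi₂
    refine ⟨w₁ + (p : WittVector p (KK (p := p) bh)) * u',
      add_mem (Om_mono hs₁ hi₁ hw₁) (mul_mem (natCast_mem _ p) hu'), ?_⟩
    rw [← sub_sub, hu, ← mul_sub, pow_succ']
    exact mul_dvd_mul_left _ hd

end Vale.Agent.P202.Coef
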