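import Mathlib

/-!
M1: every field of characteristic `p` has a `p`-basis: monomials with exponents below `p` span over
the subfield of `p`-th powers, and monomials with exponents below `p ^ M` are independent over the
subfield of `p ^ M`-th powers.
-/

universe u

namespace Vale.Agent.P202.Coef

variable {K : Type u} [Field K] (p : ℕ) [Fact p.Prime] [CharP K p] {B : Type u}

/-- The monomial of exponent `e` in the family `bb`. -/
noncomputable def bmon (bb : B → K) (e : B →₀ ℕ) : K := e.prod fun b n => bb b ^ n

lemma bmon_add (bb : B → K) (e e' : B →₀ ℕ) : bmon bb (e + e') = bmon bb e * bmon bb e' :=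
  Finsupp.prod_add_index' (fun _ => pow_zero _) fun _ _ _ => pow_add _ _ _

lemma bmon_smul (bb : B → K) (n : ℕ) (e : B →₀ ℕ) : bmon bb (n • e) = bmon bb e ^ n := by
  induction n with
  | zero => simp [bmon]
  | succ n ih => rw [succ_nsmul, bmon_add, ih, pow_succ]

@[simp] lemma bmon_zero (bb : B → K) : bmon bb 0 = 1 := by simp [bmon]

/-- The quotient of an exponent by `q`. -/
noncomputable def eDiv (q : ℕ) (e : B →₀ ℕ) : B →₀ ℕ := e.mapRange (· / q) (Nat.zero_div q)

/-- The remainder of an exponent by `q`. -/
noncomputable def eMod (q : ℕ) (e : B →₀ ℕ) : B →₀ ℕ := e.mapRange (· % q) (Nat.zero_mod q)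

@[simp] lemma eDiv_apply (q : ℕ) (e : B →₀ ℕ) (b : B) : eDiv q e b = e b / q := rfl

@[simp] lemma eMod_apply (q : ℕ) (e : B →₀ ℕ) (b : B) : eMod q e b = e b % q := rfl

lemma eMod_add_eDiv (q : ℕ) (e : B →₀ ℕ) : eMod q e + q • eDiv q e = e := by
  ext b
  simp [Nat.mod_add_div]

lemma bmon_split (bb : B → K) (q : ℕ) (e : B →₀ ℕ) :
    bmon bb e = bmon bb (eMod q e) * bmon bb (eDiv q e) ^ q := by
  rw [← bmon_smul, ← bmon_add, eMod_add_eDiv]

/-- Independence of the monomials with exponents below `p` over the `p`-th powers. -/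
def Free1 (bb : B → K) : Prop :=
  ∀ c : (B →₀ ℕ) →₀ K, (∀ e ∈ c.support, ∀ b, e b < p) →
    c.sum (fun e a => a ^ p * bmon bb e) = 0 → c = 0

/-- A `p`-basis. -/
structure IsPB (bb : B → K) : Prop where
  free : ∀ (M : ℕ) (c : (B →₀ ℕ) →₀ K), (∀ e ∈ c.support, ∀ b, e b < p ^ M) →
    c.sum (fun e a => a ^ p ^ M * bmon bb e) = 0 → c = 0
  span : ∀ x : K, ∃ c : (B →₀ ℕ) →₀ K, (∀ e ∈ c.support, ∀ b, e b < p) ∧
    x = c.sum fun e a => a ^ p * bmon bb e

variable {p}

lemma free_all {bb : B → K} (h : Free1 p bb) :
    ∀ (M : ℕ) (c : (B →₀ ℕ) →₀ K), (∀ e ∈ c.support, ∀ b, e b < p ^ M) →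
      c.sum (fun e a => a ^ p ^ M * bmon bb e) = 0 → c = 0 := by
  classical
  intro M
  induction M with
  | zero =>
    intro c hc hsum
    have h0 : c = Finsupp.single 0 (c 0) := by
      refine Finsupp.support_subset_singleton.1 fun e he => Finset.mem_singleton.2 ?_
      ext b
      have := hc e he b
      simp at this ⊢
      omega
    rw [h0] at hsum ⊢
    rw [Finsupp.sum_single_index (by simp)] at hsum
    simp only [pow_zero, pow_one, bmon_zero, mul_one] at hsum
    rw [hsum, Finsupp.single_zero]
  | succ M ih =>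
    intro c hc hsum
    set g : (B →₀ ℕ) → (B →₀ ℕ) →₀ K := fun e =>
      Finsupp.single (eMod p e) (c e ^ p ^ M * bmon bb (eDiv p e)) with hg
    set D := ∑ e ∈ c.support, g e with hD
    have hp : 0 < p := (Fact.out : p.Prime).pos
    have hDsupp : ∀ r ∈ D.support, ∀ b, r b < p := by
      intro r hr b
      obtain ⟨e, -, hre⟩ := Finset.mem_biUnion.1 (Finsupp.support_finsetSum hr)
      rw [Finset.mem_singleton.1 (Finsupp.support_single_subset hre)]
      exact Nat.mod_lt _ hp
    have hDsum : D.sum (fun e a => a ^ p * bmon bb e) = 0 := by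
      rw [← hsum, hD, ← Finsupp.sum_finsetSum_index (fun e => by simp [zero_pow hp.ne'])
        (fun e a a' => by rw [add_pow_char, add_mul])]
      refine Finset.sum_congr rfl fun e _ => ?_
      rw [Finsupp.sum_single_index (by simp [zero_pow hp.ne']), mul_pow, ← pow_mul, ← pow_succ,
        mul_assoc, mul_comm (bmon bb (eDiv p e) ^ p), ← bmon_split]
    have hD0 := h D hDsupp hDsum
    refine Finsupp.ext fun e₀ => ?_
    set r := eMod p e₀ with hr
    set S := c.support.filter fun e => eMod p e = r with hS
    let c' : (B →₀ ℕ) →₀ K := ∑ e ∈ S, Finsupp.single (eDiv p e) (c e)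
    have hinj : ∀ e ∈ S, ∀ e' ∈ S, eDiv p e = eDiv p e' → e = e' := by
      intro e he e' he' hee
      rw [← eMod_add_eDiv p e, ← eMod_add_eDiv p e', hee, (Finset.mem_filter.1 he).2,
        (Finset.mem_filter.1 he').2]
    have hc' : c' = 0 := by
      refine ih c' (fun q hq b => ?_) ?_
      · obtain ⟨e, he, hqe⟩ := Finset.mem_biUnion.1 (Finsupp.support_finsetSum hq)
        rw [Finset.mem_singleton.1 (Finsupp.support_single_subset hqe)]
        have := hc e (Finset.mem_filter.1 he).1 b
        rw [eDiv_apply]
        exact Nat.div_lt_of_lt_mul (by rwa [← pow_succ'])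
      · have hM0 : p ^ M ≠ 0 := (pow_pos hp M).ne'
        rw [← Finsupp.sum_finsetSum_index (fun e => by simp [zero_pow hM0])
          (fun e a a' => by rw [add_pow_char_pow, add_mul])]
        have := DFunLike.congr_fun hD0 r
        rw [hD, Finsupp.finsetSum_apply, Finsupp.zero_apply] at this
        rw [← this, hS, Finset.sum_filter]
        refine Finset.sum_congr rfl fun e _ => ?_
        rw [hg]
        simp only [Finsupp.single_apply]
        split_ifs
        · rw [Finsupp.sum_single_index (by simp [zero_pow hM0])]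
        · rfl
    by_contra hne
    rw [Finsupp.zero_apply] at hne
    have he₀ : e₀ ∈ S := Finset.mem_filter.2 ⟨Finsupp.mem_support_iff.2 hne, rfl⟩
    have := DFunLike.congr_fun hc' (eDiv p e₀)
    rw [Finsupp.finsetSum_apply, Finset.sum_eq_single e₀] at this
    · rw [Finsupp.single_eq_same, Finsupp.zero_apply] at this
      exact hne this
    · intro e he hee
      exact Finsupp.single_eq_of_ne fun h' => hee (hinj e he e₀ he₀ h'.symm)
    · exact fun h' => absurd he₀ h'

/-- The elements spanned by monomials with exponents below `p` over the `p`-th powers. -/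
def spanB (bb : B → K) : AddSubgroup K :=
  AddSubgroup.closure {x | ∃ (a : K) (e : B →₀ ℕ), (∀ b, e b < p) ∧ x = a ^ p * bmon bb e}

omit [CharP K p] in
lemma mul_bmon_mem (bb : B → K) (a : K) (e : B →₀ ℕ) :
    a ^ p * bmon bb e ∈ spanB (p := p) bb :=
  AddSubgroup.subset_closure ⟨a * bmon bb (eDiv p e), eMod p e,
    fun b => Nat.mod_lt _ (Fact.out : p.Prime).pos, by rw [bmon_split bb p e, mul_pow]; ring⟩

lemma spanB_mul (bb : B → K) {x y : K} (hx : x ∈ spanB (p := p) bb) (hy : y ∈ spanB (p := p) bb) :
    x * y ∈ spanB (p := p) bb := by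
  induction hx using AddSubgroup.closure_induction with
  | mem x hx =>
    obtain ⟨a, e, -, rfl⟩ := hx
    induction hy using AddSubgroup.closure_induction with
    | mem y hy =>
      obtain ⟨a', e', -, rfl⟩ := hy
      rw [show a ^ p * bmon bb e * (a' ^ p * bmon bb e') = (a * a') ^ p * bmon bb (e + e') by
        rw [bmon_add, mul_pow]; ring]
      exact mul_bmon_mem bb _ _
    | zero => rw [mul_zero]; exact zero_mem _
    | add u v _ _ hu hv => rw [mul_add]; exact add_mem hu hv
    | neg u _ hu => rw [mul_neg]; exact neg_mem hu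
  | zero => rw [zero_mul]; exact zero_mem _
  | add u v _ _ hu hv => rw [add_mul]; exact add_mem hu hv
  | neg u _ hu => rw [neg_mul]; exact neg_mem hu

/-- The spanned elements form a subfield. -/
def spanField (bb : B → K) : Subfield K where
  toSubring :=
    { spanB (p := p) bb with
      one_mem' := by
        have := mul_bmon_mem (p := p) bb 1 0
        rwa [one_pow, bmon_zero, one_mul] at this
      mul_mem' := spanB_mul bb }
  inv_mem' x hx := by
    by_cases h : x = 0
    · subst h; rw [inv_zero]; exact zero_mem (spanB (p := p) bb)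
    have h1 : x⁻¹ = x ^ (p - 1) * ((x⁻¹) ^ p * bmon bb 0) := by
      have hp := (Fact.out : p.Prime).pos
      rw [bmon_zero, mul_one]
      obtain ⟨n, hn⟩ : ∃ n, p = n + 1 := ⟨p - 1, by omega⟩
      rw [hn, Nat.add_sub_cancel, pow_succ (x⁻¹), ← mul_assoc, ← mul_pow]
      simp [h]
    rw [h1]
    refine spanB_mul bb ?_ (mul_bmon_mem bb _ _)
    generalize p - 1 = n
    induction n with
    | zero =>
      rw [pow_zero]
      have := mul_bmon_mem (p := p) bb 1 0
      rwa [one_pow, bmon_zero, one_mul] at this
    | succ n ih => rw [pow_succ]; exact spanB_mul bb ih hx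

lemma mem_spanField {bb : B → K} {x : K} :
    x ∈ spanField (p := p) bb ↔ x ∈ spanB (p := p) bb := Iff.rfl

lemma exists_sum_of_mem {bb : B → K} {x : K} (hx : x ∈ spanB (p := p) bb) :
    ∃ c : (B →₀ ℕ) →₀ K, (∀ e ∈ c.support, ∀ b, e b < p) ∧
      x = c.sum fun e a => a ^ p * bmon bb e := by
  classical
  have hp : p ≠ 0 := (Fact.out : p.Prime).ne_zero
  induction hx using AddSubgroup.closure_induction with
  | mem x hx =>
    obtain ⟨a, e, he, rfl⟩ := hx
    refine ⟨Finsupp.single e a, fun e' he' => ?_, ?_⟩
    · rw [Finset.mem_singleton.1 (Finsupp.support_single_subset he')]; exact he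
    · rw [Finsupp.sum_single_index (by simp [zero_pow hp])]
  | zero => exact ⟨0, by simp, by simp⟩
  | add u v _ _ hu hv =>
    obtain ⟨c, hc, rfl⟩ := hu
    obtain ⟨c', hc', rfl⟩ := hv
    refine ⟨c + c', fun e he => ?_, ?_⟩
    · rcases Finset.mem_union.1 (Finsupp.support_add he) with h | h
      · exact hc e h
      · exact hc' e h
    · rw [Finsupp.sum_add_index' (fun e => by simp [zero_pow hp])
        (fun e a a' => by rw [add_pow_char, add_mul])]
  | neg u _ hu =>
    obtain ⟨c, hc, rfl⟩ := hu
    refine ⟨-c, fun e he => hc e (by simpa using he), ?_⟩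
    rw [Finsupp.sum_neg_index (fun e => by simp [zero_pow hp]), ← Finsupp.sum_neg]
    refine Finset.sum_congr rfl fun e _ => ?_
    show -(c e ^ p * bmon bb e) = (-c e) ^ p * bmon bb e
    rw [show (-c e) ^ p = -(c e ^ p) from map_neg (frobenius K p) (c e), neg_mul]

variable (p) (K)

/-- Every field of characteristic `p` has a `p`-basis. -/
theorem exists_isPB : ∃ S : Set K, IsPB p (fun b : S => (b : K)) := by
  classical
  let F : Set (Set K) := {S | Free1 p (fun b : S => (b : K))}
  obtain ⟨S, hS⟩ : ∃ S, Maximal (· ∈ F) S := by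
    refine zorn_subset F fun C hC hchain => ⟨⋃₀ C, ?_, fun s hs => Set.subset_sUnion_of_mem hs⟩
    intro c hc hsum
    rcases C.eq_empty_or_nonempty with rfl | hne
    · have h0 : c = Finsupp.single 0 (c 0) := by
        refine Finsupp.support_subset_singleton.1 fun e _ => Finset.mem_singleton.2 ?_
        ext ⟨b, hb⟩
        simp at hb
      rw [h0] at hsum ⊢
      rw [Finsupp.sum_single_index (by simp [(Fact.out : p.Prime).ne_zero]), bmon_zero, mul_one,
        pow_eq_zero_iff (Fact.out : p.Prime).ne_zero] at hsum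
      rw [hsum, Finsupp.single_zero]
    set W : Finset (⋃₀ C : Set K) := c.support.biUnion fun e => e.support with hW
    obtain ⟨S, hSC, hWS⟩ : ∃ S ∈ C, ((W.image Subtype.val : Finset K) : Set K) ⊆ S :=
      hchain.directedOn.exists_mem_subset_of_finset_subset_biUnion hne
        (by
          intro x hx
          simp only [Finset.coe_image, Set.mem_image, Finset.mem_coe] at hx
          obtain ⟨⟨y, s, hs, hy⟩, -, rfl⟩ := hx
          exact Set.mem_biUnion hs hy)
    let i : S → (⋃₀ C : Set K) := fun b => ⟨b.1, Set.subset_sUnion_of_mem hSC b.2⟩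
    have hi : Function.Injective i := fun a b h => Subtype.ext (congrArg (fun z => z.1) h)
    let f : (S →₀ ℕ) → ((⋃₀ C : Set K) →₀ ℕ) := Finsupp.mapDomain i
    have hf : Function.Injective f := Finsupp.mapDomain_injective hi
    have hrange : (c.support : Set ((⋃₀ C : Set K) →₀ ℕ)) ⊆ Set.range f := by
      intro e he
      refine ⟨e.comapDomain i hi.injOn, Finsupp.mapDomain_comapDomain i hi e fun b hb => ?_⟩
      exact ⟨⟨b.1, hWS (Finset.mem_coe.2 (Finset.mem_image_of_mem _
        (Finset.mem_biUnion.2 ⟨e, he, hb⟩)))⟩, rfl⟩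
    have hcc : Finsupp.mapDomain f (c.comapDomain f hf.injOn) = c :=
      Finsupp.mapDomain_comapDomain f hf c hrange
    have := hC hSC (c.comapDomain f hf.injOn) (fun e he b => ?_) ?_
    · rw [← hcc, this, Finsupp.mapDomain_zero]
    · have h1 := hc (f e) (by simpa [Finsupp.mem_support_iff] using he) (i b)
      simpa [f, Finsupp.mapDomain_apply hi] using h1
    · rw [← hsum]
      conv_rhs => rw [← hcc]
      rw [Finsupp.sum_mapDomain_index_inj hf]
      refine Finsupp.sum_congr fun e _ => ?_
      congr 1
      simp only [bmon, f]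
      rw [Finsupp.prod_mapDomain_index_inj hi]
  refine ⟨S, free_all hS.prop, fun x => exists_sum_of_mem ?_⟩
  set bb := fun b : S => (b : K)
  by_contra hx
  set V := spanField (p := p) bb with hV
  have hxV : x ∉ V := fun h => hx (mem_spanField.1 h)
  have hS' : insert x S ∈ F := by
    intro c hc hsum
    set x₀ : (insert x S : Set K) := ⟨x, Set.mem_insert x S⟩
    have hxS : x ∉ S := fun h => hxV (mem_spanField.2 (by
      have := mul_bmon_mem (p := p) bb 1 (Finsupp.single (⟨x, h⟩ : S) 1)
      simpa [bmon, bb] using this))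
    let i : S → (insert x S : Set K) := fun b => ⟨b.1, Set.mem_insert_of_mem x b.2⟩
    have hi : Function.Injective i := fun a b h => Subtype.ext (congrArg (fun z => z.1) h)
    let rest : ((insert x S : Set K) →₀ ℕ) → (S →₀ ℕ) := fun e => e.comapDomain i hi.injOn
    have hsplit : ∀ e : (insert x S : Set K) →₀ ℕ,
        Finsupp.single x₀ (e x₀) + Finsupp.mapDomain i (rest e) = e := by
      intro e
      ext ⟨b, hb⟩
      rcases Set.mem_insert_iff.1 hb with hb' | hb'
      · subst hb'
        rw [Finsupp.add_apply, Finsupp.single_eq_same, Finsupp.mapDomain_of_notMem_range, add_zero]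
        rintro ⟨⟨y, hy⟩, hyx⟩
        exact hxS ((congrArg (fun z => z.1) hyx : y = b) ▸ hy)
      · have hne : (⟨b, hb⟩ : (insert x S : Set K)) ≠ x₀ := fun h =>
          hxS ((congrArg (fun z => z.1) h : b = x) ▸ hb')
        rw [Finsupp.add_apply, Finsupp.single_eq_of_ne hne, zero_add,
          show (⟨b, hb⟩ : (insert x S : Set K)) = i ⟨b, hb'⟩ from rfl, Finsupp.mapDomain_apply hi,
          Finsupp.comapDomain_apply]
    have hmon : ∀ e, bmon (fun b : (insert x S : Set K) => (b : K)) e =
        x ^ e x₀ * bmon bb (rest e) := by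
      intro e
      conv_lhs => rw [← hsplit e]
      rw [bmon_add]
      congr 1
      · simp [bmon, x₀]
      · simp only [bmon]; rw [Finsupp.prod_mapDomain_index_inj hi]
    set a : ℕ → (S →₀ ℕ) →₀ K := fun j =>
      ∑ e ∈ c.support.filter (fun e => e x₀ = j), Finsupp.single (rest e) (c e) with ha
    set A : ℕ → K := fun j => (a j).sum fun q z => z ^ p * bmon bb q with hA
    have hp : p ≠ 0 := (Fact.out : p.Prime).ne_zero
    have hAV : ∀ j, A j ∈ V := fun j => sum_mem fun q _ => mem_spanField.2 (mul_bmon_mem bb _ _)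
    have hzero : ∑ j ∈ Finset.range p, A j * x ^ j = 0 := by
      rw [← hsum, Finsupp.sum, ← Finset.sum_fiberwise_of_maps_to
        (g := fun e => e x₀) (t := Finset.range p) fun e he => Finset.mem_range.2 (hc e he x₀)]
      refine Finset.sum_congr rfl fun j _ => ?_
      rw [hA, ha]
      simp only
      rw [← Finsupp.sum_finsetSum_index (fun e => by simp [zero_pow hp])
        (fun e u u' => by rw [add_pow_char, add_mul]), Finset.sum_mul]
      refine Finset.sum_congr rfl fun e he => ?_
      rw [Finsupp.sum_single_index (by simp [zero_pow hp]), hmon, (Finset.mem_filter.1 he).2]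
      ring
    have hA0 : ∀ j, j < p → A j = 0 := by
      intro j hj
      have hirr : Irreducible (Polynomial.X ^ p - Polynomial.C (⟨x ^ p, mem_spanField.2 (by
          simpa using mul_bmon_mem (p := p) bb x 0)⟩ : V)) := by
        refine X_pow_sub_C_irreducible_of_prime Fact.out fun v hv => hxV ?_
        have h1 : (v : K) ^ p = x ^ p := congrArg Subtype.val hv
        rw [show x = (v : K) from ((frobenius K p).injective h1).symm]
        exact v.2
      set P : Polynomial V :=
        ∑ i ∈ Finset.range p, Polynomial.C ⟨A i, hAV i⟩ * Polynomial.X ^ i with hP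
      have hmin : minpoly V x = Polynomial.X ^ p - Polynomial.C (⟨x ^ p, mem_spanField.2 (by
          simpa using mul_bmon_mem (p := p) bb x 0)⟩ : V) := by
        refine (minpoly.eq_of_irreducible_of_monic hirr ?_ (Polynomial.monic_X_pow_sub_C _ hp)).symm
        simp only [Polynomial.aeval_sub, map_pow, Polynomial.aeval_X, Polynomial.aeval_C]
        exact sub_self _
      have hPx : Polynomial.aeval x P = 0 := by
        rw [hP, map_sum, ← hzero]
        refine Finset.sum_congr rfl fun i _ => ?_
        rw [map_mul, map_pow, Polynomial.aeval_C, Polynomial.aeval_X]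
        rfl
      have hP0 : P = 0 := by
        by_contra hne
        have := minpoly.degree_le_of_ne_zero V x hne hPx
        rw [hmin, Polynomial.degree_X_pow_sub_C (Nat.pos_of_ne_zero hp)] at this
        exact absurd (lt_of_le_of_lt this (Polynomial.degree_sum_fin_lt (n := p)
          (fun i : Fin p => (⟨A i, hAV i⟩ : V)) |> fun h => by
            rwa [hP, ← Fin.sum_univ_eq_sum_range
              (fun i => Polynomial.C (⟨A i, hAV i⟩ : V) * Polynomial.X ^ i) p])) (lt_irrefl _)
      have := congrArg (fun P : Polynomial V => ((P.coeff j : V) : K)) hP0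
      simp only [hP, Polynomial.finsetSum_coeff, Polynomial.coeff_C_mul, Polynomial.coeff_X_pow,
        mul_ite, mul_one, mul_zero, Finset.sum_ite_eq, Finset.mem_range, hj, if_true,
        Polynomial.coeff_zero] at this
      simpa using this
    refine Finsupp.ext fun e₀ => ?_
    by_contra hne
    rw [Finsupp.zero_apply] at hne
    have hmem := Finsupp.mem_support_iff.2 hne
    have h1 : a (e₀ x₀) = 0 := by
      refine hS.prop _ (fun q hq b => ?_) (hA0 _ (hc e₀ hmem x₀))
      obtain ⟨e, he, hqe⟩ := Finset.mem_biUnion.1 (Finsupp.support_finsetSum hq)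
      rw [Finset.mem_singleton.1 (Finsupp.support_single_subset hqe)]
      simpa [rest] using hc e (Finset.mem_filter.1 he).1 (i b)
    have h2 := DFunLike.congr_fun h1 (rest e₀)
    rw [ha, Finsupp.finsetSum_apply, Finset.sum_eq_single e₀, Finsupp.single_eq_same,
      Finsupp.zero_apply] at h2
    · exact hne h2
    · intro e he hee
      refine Finsupp.single_eq_of_ne fun h => hee ?_
      rw [← hsplit e, ← hsplit e₀, h, (Finset.mem_filter.1 he).2]
    · exact fun h => absurd (show e₀ ∈ c.support.filter fun e => e x₀ = e₀ x₀ from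
        Finset.mem_filter.2 ⟨hmem, rfl⟩) h
  exact hxV (mem_spanField.2 (by
    have hxS : x ∈ S := hS.2 hS' (Set.subset_insert x S) (Set.mem_insert x S)
    have := mul_bmon_mem (p := p) bb 1 (Finsupp.single (⟨x, hxS⟩ : S) 1)
    simpa [bmon, bb] using this))

end Vale.Agent.P202.Coef
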