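import Vale.Agent.P202.M1PBasis

/-!
M1: adjoining compatible `p`-power roots of units lifting a `p`-basis of the residue field.  The
result is free over `R`, its special fibre is the perfect closure of the residue field, and it is
the union of finite free stages to which ideals contract back.
-/

universe u

namespace Vale.Agent.P202.Coef

open IsLocalRing

variable (p : ℕ) (B : Type u)

/-- Exponents: nonnegative rationals with `p`-power denominators, finitely supported. -/
def PExp : AddSubmonoid (B →₀ ℚ) where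
  carrier := {g | ∀ b, ∃ i m : ℕ, g b * (p : ℚ) ^ i = m}
  zero_mem' := fun b => ⟨0, 0, by simp⟩
  add_mem' := by
    intro g h hg hh b
    obtain ⟨i, m, hi⟩ := hg b
    obtain ⟨j, n, hj⟩ := hh b
    refine ⟨i + j, m * p ^ j + n * p ^ i, ?_⟩
    rw [Finsupp.add_apply, pow_add]
    push_cast
    rw [← hi, ← hj]
    ring

/-- The type of exponents. -/
abbrev Ex : Type u := ↥(PExp p B)

variable {p B}

lemma ex_nonneg [Fact p.Prime] (g : Ex p B) (b : B) : 0 ≤ g.1 b := by
  obtain ⟨i, m, h⟩ := g.2 b
  have hp : (0 : ℚ) < (p : ℚ) ^ i := pow_pos (Nat.cast_pos.2 (Fact.out : p.Prime).pos) i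
  by_contra hlt
  push Not at hlt
  have := mul_neg_of_neg_of_pos hlt hp
  rw [h] at this
  exact absurd (Nat.cast_nonneg (α := ℚ) m) (not_le.2 this)

/-- Integral exponents. -/
noncomputable def natEx (p : ℕ) (n : B →₀ ℕ) : Ex p B :=
  ⟨n.mapRange (Nat.cast : ℕ → ℚ) Nat.cast_zero, fun b => ⟨0, n b, by simp⟩⟩

@[simp] lemma natEx_apply (n : B →₀ ℕ) (b : B) : (natEx p n).1 b = n b := rfl

@[simp] lemma natEx_zero : natEx p (0 : B →₀ ℕ) = 0 := by
  refine Subtype.ext (Finsupp.ext fun b => ?_)
  simp

lemma natEx_add (n n' : B →₀ ℕ) : natEx p (n + n') = natEx p n + natEx p n' := by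
  refine Subtype.ext (Finsupp.ext fun b => ?_)
  simp

/-- The integral part. -/
noncomputable def flN (g : Ex p B) : B →₀ ℕ := g.1.mapRange Nat.floor Nat.floor_zero

@[simp] lemma flN_apply (g : Ex p B) (b : B) : flN g b = ⌊g.1 b⌋₊ := rfl

variable [Fact p.Prime]

/-- The fractional part. -/
noncomputable def fr (g : Ex p B) : Ex p B :=
  ⟨g.1.mapRange Int.fract Int.fract_zero, fun b => by
    obtain ⟨i, m, h⟩ := g.2 b
    have hfl : ⌊g.1 b⌋₊ * p ^ i ≤ m := by
      have h1 : ((⌊g.1 b⌋₊ : ℚ)) * (p : ℚ) ^ i ≤ m := by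
        rw [← h]
        exact mul_le_mul_of_nonneg_right (Nat.floor_le (ex_nonneg g b)) (pow_nonneg
          (Nat.cast_nonneg p) i)
      exact_mod_cast h1
    refine ⟨i, m - ⌊g.1 b⌋₊ * p ^ i, ?_⟩
    rw [Finsupp.mapRange_apply, Nat.cast_sub hfl, ← h, Int.fract,
      ← natCast_floor_eq_intCast_floor (ex_nonneg g b)]
    push_cast
    ring⟩

@[simp] lemma fr_apply (g : Ex p B) (b : B) : (fr g).1 b = Int.fract (g.1 b) := rfl

lemma fr_add_flN (g : Ex p B) : fr g + natEx p (flN g) = g := by
  refine Subtype.ext (Finsupp.ext fun b => ?_)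
  simp only [AddSubmonoid.coe_add, Finsupp.add_apply, fr_apply, natEx_apply, flN_apply]
  rw [Int.fract, natCast_floor_eq_intCast_floor (ex_nonneg g b)]
  ring

lemma fr_add_natEx (g : Ex p B) (n : B →₀ ℕ) : fr (g + natEx p n) = fr g := by
  refine Subtype.ext (Finsupp.ext fun b => ?_)
  simp

lemma flN_add_natEx (g : Ex p B) (n : B →₀ ℕ) : flN (g + natEx p n) = flN g + n := by
  refine Finsupp.ext fun b => ?_
  simp only [flN_apply, Finsupp.add_apply, AddSubmonoid.coe_add, natEx_apply]
  exact Nat.floor_add_natCast (ex_nonneg g b) _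

lemma fr_fr (g : Ex p B) : fr (fr g) = fr g := by
  refine Subtype.ext (Finsupp.ext fun b => ?_)
  simp

lemma flN_fr (g : Ex p B) : flN (fr g) = 0 := by
  refine Finsupp.ext fun b => ?_
  simp only [flN_apply, fr_apply, Finsupp.zero_apply]
  exact Nat.floor_eq_zero.2 (Int.fract_lt_one _)

variable {R : Type u} [CommRing R]

/-- The products of the units `bh`. -/
noncomputable def bprod (bh : B → R) (n : B →₀ ℕ) : R := n.prod fun b j => bh b ^ j

@[simp] lemma bprod_zero (bh : B → R) : bprod bh 0 = 1 := by simp [bprod]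

lemma bprod_add (bh : B → R) (n n' : B →₀ ℕ) :
    bprod bh (n + n') = bprod bh n * bprod bh n' :=
  Finsupp.prod_add_index' (fun _ => pow_zero _) fun _ _ _ => pow_add _ _ _

variable (p) (bh : B → R)

/-- The relations identifying the first powers with the units `bh`. -/
noncomputable def rootIdeal : Ideal (AddMonoidAlgebra R (Ex p B)) :=
  Ideal.span (Set.range fun b => AddMonoidAlgebra.single (natEx p (Finsupp.single b 1)) 1 -
    AddMonoidAlgebra.single 0 (bh b))

/-- `R` with all `p`-power roots of the `bh b` adjoined. -/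
def RootRing : Type u := AddMonoidAlgebra R (Ex p B) ⧸ rootIdeal p bh

noncomputable instance commRingRootRing : CommRing (RootRing p bh) :=
  inferInstanceAs (CommRing (AddMonoidAlgebra R (Ex p B) ⧸ rootIdeal p bh))

noncomputable instance algebraRootRing : Algebra R (RootRing p bh) :=
  inferInstanceAs (Algebra R (AddMonoidAlgebra R (Ex p B) ⧸ rootIdeal p bh))

/-- The defining projection. -/
noncomputable def rmk : AddMonoidAlgebra R (Ex p B) →ₐ[R] RootRing p bh :=
  Ideal.Quotient.mkₐ R (rootIdeal p bh)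

variable {p}

/-- A monomial. -/
noncomputable def mon (g : Ex p B) : RootRing p bh :=
  rmk p bh (AddMonoidAlgebra.single g 1)

lemma rmk_surjective : Function.Surjective (rmk p bh) := Ideal.Quotient.mk_surjective

lemma rmk_eq_zero {x : AddMonoidAlgebra R (Ex p B)} : rmk p bh x = 0 ↔ x ∈ rootIdeal p bh :=
  Ideal.Quotient.eq_zero_iff_mem

lemma mk_single (g : Ex p B) (r : R) :
    rmk p bh (AddMonoidAlgebra.single g r) = r • mon bh g := by
  rw [mon, ← map_smul, AddMonoidAlgebra.smul_single, smul_eq_mul, mul_one]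

lemma mon_add (g h : Ex p B) : mon bh (g + h) = mon bh g * mon bh h := by
  rw [mon, mon, mon, ← map_mul, AddMonoidAlgebra.single_mul_single, one_mul]

@[simp] lemma mon_zero : mon bh (0 : Ex p B) = 1 := by
  rw [mon, ← AddMonoidAlgebra.one_def, map_one]

lemma mon_natEx (n : B →₀ ℕ) : mon (p := p) bh (natEx p n) = algebraMap R _ (bprod bh n) := by
  have h1 : ∀ b, mon (p := p) bh (natEx p (Finsupp.single b 1)) = algebraMap R _ (bh b) := by
    intro b
    have : AddMonoidAlgebra.single (natEx p (Finsupp.single b 1)) (1 : R) -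
        AddMonoidAlgebra.single 0 (bh b) ∈ rootIdeal p bh := Ideal.subset_span ⟨b, rfl⟩
    rw [← rmk_eq_zero, map_sub, sub_eq_zero] at this
    rw [mon, this, mk_single, mon_zero, Algebra.algebraMap_eq_smul_one]
  induction n using Finsupp.induction with
  | zero => simp
  | single_add b j n _ _ ih =>
    rw [natEx_add, mon_add, ih, bprod_add, map_mul]
    congr 1
    suffices ∀ j, mon (p := p) bh (natEx p (Finsupp.single b j)) =
        algebraMap R _ (bprod bh (Finsupp.single b j)) from this j
    intro j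
    induction j with
    | zero => simp
    | succ j ihj =>
      rw [Finsupp.single_add, natEx_add, mon_add, ihj, h1, bprod_add, map_mul]
      congr 2
      simp [bprod]

lemma mon_eq (g : Ex p B) : mon bh g = bprod bh (flN g) • mon bh (fr g) := by
  conv_lhs => rw [← fr_add_flN g]
  rw [mon_add, mon_natEx, mul_comm, ← Algebra.smul_def]

/-- The reduced coordinates. -/
noncomputable def coordAux : AddMonoidAlgebra R (Ex p B) →ₗ[R] Ex p B →₀ R :=
  (Finsupp.lsum R fun g : Ex p B => (Finsupp.lsingle (fr g)).comp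
    (LinearMap.mulRight R (bprod bh (flN g)))).comp
    (AddMonoidAlgebra.coeffLinearEquiv R).toLinearMap

lemma coordAux_single (g : Ex p B) (r : R) :
    coordAux bh (AddMonoidAlgebra.single g r) = Finsupp.single (fr g) (r * bprod bh (flN g)) := by
  simp [coordAux]

lemma coordAux_rel {x : AddMonoidAlgebra R (Ex p B)} (hx : x ∈ rootIdeal p bh) :
    coordAux bh x = 0 := by
  suffices h : ∀ y, coordAux bh (y * x) = 0 by simpa using h 1
  induction hx using Submodule.span_induction with
  | mem x hx =>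
    obtain ⟨b, rfl⟩ := hx
    intro y
    induction y using AddMonoidAlgebra.induction_linear with
    | zero => simp
    | add u v hu hv => rw [add_mul, map_add, hu, hv, add_zero]
    | single g r =>
      rw [mul_sub, AddMonoidAlgebra.single_mul_single, AddMonoidAlgebra.single_mul_single, map_sub,
        coordAux_single, coordAux_single, fr_add_natEx, flN_add_natEx, bprod_add, add_zero,
        sub_eq_zero, show bprod bh (Finsupp.single b 1) = bh b by simp [bprod]]
      congr 1
      ring
  | zero => intro y; simp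
  | add u v _ _ hu hv => intro y; rw [mul_add, map_add, hu, hv, add_zero]
  | smul c u _ hu => intro y; rw [smul_eq_mul, ← mul_assoc]; exact hu _

/-- The coordinates of an element of the root ring. -/
noncomputable def coord : RootRing p bh →ₗ[R] Ex p B →₀ R :=
  (Submodule.liftQ (LinearMap.ker (rmk p bh).toLinearMap)
    (coordAux bh) fun _ hx => coordAux_rel bh ((rmk_eq_zero bh).1 hx)).comp
    (LinearMap.quotKerEquivOfSurjective (rmk p bh).toLinearMap
      (rmk_surjective bh)).symm.toLinearMap

lemma coord_mk (x : AddMonoidAlgebra R (Ex p B)) :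
    coord bh (rmk p bh x) = coordAux bh x := by
  have h : (LinearMap.quotKerEquivOfSurjective (rmk p bh).toLinearMap
      (rmk_surjective bh)).symm (rmk p bh x) = Submodule.Quotient.mk x := by
    rw [LinearEquiv.symm_apply_eq]
    rfl
  rw [coord, LinearMap.comp_apply, LinearEquiv.coe_coe, h]
  rfl

lemma coord_mon (g : Ex p B) : coord bh (mon bh g) = Finsupp.single (fr g) (bprod bh (flN g)) := by
  rw [mon, coord_mk, coordAux_single, one_mul]

lemma sum_coord (x : RootRing p bh) :
    (coord bh x).sum (fun g r => r • mon bh g) = x := by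
  obtain ⟨x, rfl⟩ := rmk_surjective bh x
  induction x using AddMonoidAlgebra.induction_linear with
  | zero => simp
  | add u v hu hv =>
    rw [map_add, map_add, Finsupp.sum_add_index' (fun g => zero_smul R (mon bh g))
      (fun g a b => add_smul a b (mon bh g)), hu, hv]
  | single g r =>
    rw [coord_mk, coordAux_single, Finsupp.sum_single_index (zero_smul R (mon bh (fr g))),
      mk_single, mon_eq bh g, mul_smul]

lemma coord_injective : Function.Injective (coord (p := p) bh) := fun x y h => by
  rw [← sum_coord bh x, h, sum_coord]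

lemma fr_of_mem_coord {x : RootRing p bh} {g : Ex p B} (hg : g ∈ (coord bh x).support) :
    fr g = g := by
  obtain ⟨x, rfl⟩ := rmk_surjective bh x
  rw [coord_mk] at hg
  induction x using AddMonoidAlgebra.induction_linear with
  | zero => simp at hg
  | add u v hu hv =>
    rw [map_add] at hg
    classical
    rcases Finset.mem_union.1 (Finsupp.support_add hg) with h | h
    · exact hu h
    · exact hv h
  | single g' r =>
    rw [coordAux_single] at hg
    rw [Finset.mem_singleton.1 (Finsupp.support_single_subset hg), fr_fr]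

lemma coord_one : coord (p := p) bh 1 = Finsupp.single 0 1 := by
  rw [← mon_zero bh, coord_mon]
  have h1 : fr (0 : Ex p B) = 0 := Subtype.ext (Finsupp.ext fun b => by simp)
  have h2 : flN (0 : Ex p B) = 0 := Finsupp.ext fun b => by simp
  rw [h1, h2, bprod_zero]

/-- Exponents living in the stage `(s, i)`. -/
def InSt (s : Finset B) (i : ℕ) (g : Ex p B) : Prop :=
  ∀ b, (b ∉ s → g.1 b = 0) ∧ ∃ m : ℕ, g.1 b * (p : ℚ) ^ i = m

lemma InSt.add {s : Finset B} {i : ℕ} {g h : Ex p B} (hg : InSt s i g) (hh : InSt s i h) :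
    InSt s i (g + h) := fun b => by
  refine ⟨fun hb => ?_, ?_⟩
  · simp [(hg b).1 hb, (hh b).1 hb]
  · obtain ⟨m, hm⟩ := (hg b).2
    obtain ⟨n, hn⟩ := (hh b).2
    exact ⟨m + n, by rw [AddSubmonoid.coe_add, Finsupp.add_apply, add_mul, hm, hn, Nat.cast_add]⟩

lemma InSt.zero (s : Finset B) (i : ℕ) : InSt s i (0 : Ex p B) := fun b =>
  ⟨fun _ => rfl, 0, by simp⟩

lemma InSt.fr {s : Finset B} {i : ℕ} {g : Ex p B} (hg : InSt s i g) : InSt s i (fr g) := fun b => by
  refine ⟨fun hb => by simp [(hg b).1 hb], ?_⟩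
  obtain ⟨m, hm⟩ := (hg b).2
  have hfl : ⌊g.1 b⌋₊ * p ^ i ≤ m := by
    have h1 : ((⌊g.1 b⌋₊ : ℚ)) * (p : ℚ) ^ i ≤ m := by
      rw [← hm]
      exact mul_le_mul_of_nonneg_right (Nat.floor_le (ex_nonneg g b)) (pow_nonneg
        (Nat.cast_nonneg p) i)
    exact_mod_cast h1
  refine ⟨m - ⌊g.1 b⌋₊ * p ^ i, ?_⟩
  rw [fr_apply, Nat.cast_sub hfl, ← hm, Int.fract,
    ← natCast_floor_eq_intCast_floor (ex_nonneg g b)]
  push_cast
  ring

lemma InSt.mono {s s' : Finset B} {i i' : ℕ} (hs : s ⊆ s') (hi : i ≤ i') {g : Ex p B}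
    (hg : InSt s i g) : InSt s' i' g := fun b => by
  refine ⟨fun hb => (hg b).1 fun h => hb (hs h), ?_⟩
  obtain ⟨m, hm⟩ := (hg b).2
  obtain ⟨j, rfl⟩ := Nat.exists_eq_add_of_le hi
  exact ⟨m * p ^ j, by rw [pow_add, ← mul_assoc, hm]; push_cast; ring⟩

lemma exists_inSt (g : Ex p B) : ∃ s i, InSt s i g := by
  classical
  choose i m hi using g.2
  refine ⟨g.1.support, g.1.support.sup i, fun b => ⟨fun hb => by simpa using hb, ?_⟩⟩
  by_cases hb : b ∈ g.1.support
  · obtain ⟨j, hj⟩ := Nat.exists_eq_add_of_le (Finset.le_sup (f := i) hb)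
    exact ⟨m b * p ^ j, by rw [hj, pow_add, ← mul_assoc, hi]; push_cast; ring⟩
  · exact ⟨0, by simp [Finsupp.notMem_support_iff.1 hb]⟩

/-- Adding an element of a stage to a reduced exponent outside stays outside. -/
lemma not_inSt_add {s : Finset B} {i : ℕ} {g h : Ex p B} (hh : InSt s i h) (hgf : fr g = g)
    (hg : ¬InSt s i g) : ¬InSt s i (fr (g + h)) := by
  refine fun hc => hg fun b => ?_
  obtain ⟨h0, m, hm⟩ := hh b
  obtain ⟨c0, n, hn⟩ := hc b
  have hgb := ex_nonneg g b
  have key : (g.1 b + h.1 b) = (fr (g + h)).1 b + (⌊g.1 b + h.1 b⌋₊ : ℕ) := by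
    rw [fr_apply, AddSubmonoid.coe_add, Finsupp.add_apply, Int.fract,
      natCast_floor_eq_intCast_floor (add_nonneg hgb (ex_nonneg h b))]
    ring
  constructor
  · intro hb
    have h1 : (fr g).1 b = g.1 b := by rw [hgf]
    have h2 := c0 hb
    rw [fr_apply, AddSubmonoid.coe_add, Finsupp.add_apply, h0 hb, add_zero] at h2
    rw [fr_apply] at h1
    rw [← h1, h2]
  · have hle : m ≤ n + ⌊g.1 b + h.1 b⌋₊ * p ^ i := by
      have h1 : (m : ℚ) ≤ (n : ℚ) + (⌊g.1 b + h.1 b⌋₊ : ℕ) * (p : ℚ) ^ i := by
        rw [← hm, ← hn, ← add_mul, ← key]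
        exact mul_le_mul_of_nonneg_right (by linarith) (pow_nonneg (Nat.cast_nonneg p) i)
      exact_mod_cast h1
    refine ⟨n + ⌊g.1 b + h.1 b⌋₊ * p ^ i - m, ?_⟩
    rw [Nat.cast_sub hle]
    push_cast
    rw [← hm, ← hn, ← add_mul, ← sub_mul, ← key]
    ring

lemma mon_pow (g : Ex p B) (n : ℕ) : mon bh g ^ n = mon bh (n • g) := by
  induction n with
  | zero => simp
  | succ n ih => rw [pow_succ, ih, succ_nsmul, mon_add]

/-- A natural exponent scaled up from the stage `i`. -/
noncomputable def num (i : ℕ) (g : Ex p B) : B →₀ ℕ :=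
  g.1.mapRange (fun q => ⌊q * (p : ℚ) ^ i⌋₊) (by simp)

@[simp] lemma num_apply (i : ℕ) (g : Ex p B) (b : B) : num i g b = ⌊g.1 b * (p : ℚ) ^ i⌋₊ := rfl

lemma InSt.num_eq {s : Finset B} {i : ℕ} {g : Ex p B} (hg : InSt s i g) (b : B) :
    (num i g b : ℚ) = g.1 b * (p : ℚ) ^ i := by
  obtain ⟨m, hm⟩ := (hg b).2
  rw [num_apply, hm, Nat.floor_natCast]

lemma InSt.smul_eq {s : Finset B} {i : ℕ} {g : Ex p B} (hg : InSt s i g) :
    (p ^ i) • g = natEx p (num i g) := by
  refine Subtype.ext (Finsupp.ext fun b => ?_)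
  show ((p ^ i) • g.1) b = _
  rw [Finsupp.smul_apply, natEx_apply, hg.num_eq, nsmul_eq_mul]
  push_cast
  ring

lemma InSt.num_lt {s : Finset B} {i : ℕ} {g : Ex p B} (hg : InSt s i g) (hf : Coef.fr g = g)
    (b : B) : num i g b < p ^ i := by
  have h1 : g.1 b < 1 := by
    rw [← hf, fr_apply]
    exact Int.fract_lt_one _
  have hp : (0 : ℚ) < (p : ℚ) ^ i := pow_pos (Nat.cast_pos.2 (Fact.out : p.Prime).pos) i
  have h2 : (num i g b : ℚ) < ((p ^ i : ℕ) : ℚ) := by
    rw [hg.num_eq, Nat.cast_pow]
    exact (mul_lt_iff_lt_one_left hp).2 h1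
  exact_mod_cast h2

lemma InSt.num_inj {s : Finset B} {i : ℕ} {g h : Ex p B} (hg : InSt s i g) (hh : InSt s i h)
    (he : num i g = num i h) : g = h := by
  have hp : (p : ℚ) ^ i ≠ 0 := pow_ne_zero i (Nat.cast_ne_zero.2 (Fact.out : p.Prime).ne_zero)
  refine Subtype.ext (Finsupp.ext fun b => mul_right_cancel₀ hp ?_)
  rw [← hg.num_eq, ← hh.num_eq, he]

lemma coord_smul_mon {g : Ex p B} (hf : fr g = g) (r : R) :
    coord bh (r • mon bh g) = Finsupp.single g r := by
  have h : flN g = 0 := by rw [← hf, flN_fr]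
  rw [map_smul, coord_mon, hf, h, bprod_zero, Finsupp.smul_single_one]

lemma fr_zero : fr (0 : Ex p B) = 0 := Subtype.ext (Finsupp.ext fun b => by simp)

lemma coord_algebraMap (r : R) :
    coord (p := p) bh (algebraMap R _ r) = Finsupp.single 0 r := by
  rw [Algebra.algebraMap_eq_smul_one, ← mon_zero bh, coord_smul_mon bh fr_zero]

/-- Extended ideals are read off the coordinates. -/
lemma mem_map_iff (a : Ideal R) {x : RootRing p bh} :
    x ∈ a.map (algebraMap R (RootRing p bh)) ↔ ∀ g, coord bh x g ∈ a := by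
  rw [← Submodule.restrictScalars_mem R, ← Ideal.smul_top_eq_map]
  constructor
  · intro h
    refine Submodule.smul_induction_on (p := fun y => ∀ g, coord bh y g ∈ a) h
      (fun r hr y _ g => ?_) (fun u v hu hv g => ?_)
    · rw [map_smul, Finsupp.smul_apply, smul_eq_mul]
      exact a.mul_mem_right _ hr
    · rw [map_add, Finsupp.add_apply]
      exact add_mem (hu g) (hv g)
  · intro h
    rw [← sum_coord bh x]
    exact Submodule.sum_mem _ fun g _ => Submodule.smul_mem_smul (h g) trivial

lemma mem_comap_map_iff (a : Ideal R) {r : R} :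
    algebraMap R (RootRing p bh) r ∈ a.map (algebraMap R (RootRing p bh)) ↔ r ∈ a := by
  refine ⟨fun h => ?_, Ideal.mem_map_of_mem _⟩
  have := (mem_map_iff bh a).1 h 0
  rwa [coord_algebraMap, Finsupp.single_eq_same] at this

/-- The finite stages. -/
noncomputable def St (s : Finset B) (i : ℕ) : Subalgebra R (RootRing p bh) :=
  ((Finsupp.supported R R {g : Ex p B | InSt s i g}).comap (coord bh)).toSubalgebra
    (by
      rw [Submodule.mem_comap, coord_one]
      exact Finsupp.single_mem_supported R 1 (InSt.zero s i))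
    (by
      classical
      intro x y hx hy
      rw [← sum_coord bh x, ← sum_coord bh y, Finsupp.sum, Finsupp.sum, Finset.sum_mul_sum]
      refine Submodule.sum_mem _ fun g hg => Submodule.sum_mem _ fun h hh => ?_
      rw [smul_mul_smul_comm, ← mon_add]
      refine Submodule.smul_mem _ _ ?_
      rw [Submodule.mem_comap, coord_mon]
      exact Finsupp.single_mem_supported R _ ((InSt.add (hx hg) (hy hh)).fr))

lemma mem_St_iff {s : Finset B} {i : ℕ} {x : RootRing p bh} :
    x ∈ St bh s i ↔ ∀ g, coord bh x g ≠ 0 → InSt s i g := by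
  simp [St, Finsupp.mem_supported, Set.subset_def]

lemma mon_mem_St {s : Finset B} {i : ℕ} {g : Ex p B} (hg : InSt s i g) :
    mon bh g ∈ St bh s i := by
  rw [mem_St_iff, coord_mon]
  intro h hh
  by_cases e : fr g = h
  · exact e ▸ hg.fr
  · exact absurd (Finsupp.single_eq_of_ne (Ne.symm e)) hh

lemma St_mono {s s' : Finset B} {i i' : ℕ} (hs : s ⊆ s') (hi : i ≤ i') :
    St (p := p) bh s i ≤ St bh s' i' := fun _ hx =>
  (mem_St_iff bh).2 fun g hg => ((mem_St_iff bh).1 hx g hg).mono hs hi

lemma exists_mem_St (x : RootRing p bh) : ∃ s i, x ∈ St bh s i := by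
  classical
  choose s i h using exists_inSt (p := p) (B := B)
  refine ⟨(coord bh x).support.biUnion s, (coord bh x).support.sup i, (mem_St_iff bh).2 fun g hg => ?_⟩
  exact (h g).mono (Finset.subset_biUnion_of_mem s (Finsupp.mem_support_iff.2 hg))
    (Finset.le_sup (f := i) (Finsupp.mem_support_iff.2 hg))

lemma exists_St_finset (X : Finset (RootRing p bh)) :
    ∃ s i, ∀ x ∈ X, x ∈ St bh s i := by
  classical
  choose s i h using exists_mem_St (p := p) bh
  exact ⟨X.biUnion s, X.sup i, fun x hx =>
    St_mono bh (Finset.subset_biUnion_of_mem s hx) (Finset.le_sup hx) (h x)⟩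

section Residue

variable [IsLocalRing R]

/-- The extension of the maximal ideal of `R`. -/
noncomputable def maxR : Ideal (RootRing p bh) := (maximalIdeal R).map (algebraMap R _)

lemma mem_maxR_iff {x : RootRing p bh} :
    x ∈ maxR bh ↔ ∀ g, residue R (coord bh x g) = 0 := by
  rw [maxR, mem_map_iff]
  exact forall_congr' fun g => (residue_eq_zero_iff _).symm

lemma one_notMem_maxR : (1 : RootRing p bh) ∉ maxR bh := by
  intro h
  have := (mem_maxR_iff bh).1 h 0
  rw [coord_one, Finsupp.single_eq_same, map_one] at this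
  exact one_ne_zero this

/-- The special fibre. -/
def KK : Type u := RootRing p bh ⧸ maxR bh

noncomputable instance commRingKK : CommRing (KK (p := p) bh) :=
  inferInstanceAs (CommRing (RootRing p bh ⧸ maxR bh))

/-- The projection to the special fibre. -/
noncomputable def kmk : RootRing p bh →+* KK (p := p) bh := Ideal.Quotient.mk (maxR bh)

lemma kmk_surjective : Function.Surjective (kmk (p := p) bh) := Ideal.Quotient.mk_surjective

lemma kmk_eq_zero {x : RootRing p bh} : kmk bh x = 0 ↔ x ∈ maxR bh := Ideal.Quotient.eq_zero_iff_mem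

instance nontrivial_KK : Nontrivial (KK (p := p) bh) :=
  Ideal.Quotient.nontrivial_iff.2 fun h => one_notMem_maxR bh (h ▸ Submodule.mem_top)

/-- The residue field of `R` inside the special fibre. -/
noncomputable def iotaK : ResidueField R →+* KK (p := p) bh :=
  Ideal.Quotient.lift (maximalIdeal R) ((kmk bh).comp (algebraMap R _))
    fun _ hr => (kmk_eq_zero bh).2 (Ideal.mem_map_of_mem _ hr)

@[simp] lemma iotaK_residue (r : R) :
    iotaK (p := p) bh (residue R r) = kmk bh (algebraMap R _ r) := rfl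

/-- The residues of the monomials. -/
noncomputable def tau (g : Ex p B) : KK (p := p) bh := kmk bh (mon bh g)

lemma tau_add (g h : Ex p B) : tau bh (g + h) = tau bh g * tau bh h := by
  rw [tau, tau, tau, mon_add, map_mul]

lemma tau_natEx (n : B →₀ ℕ) :
    tau bh (natEx p n) = iotaK bh (bmon (fun b => residue R (bh b)) n) := by
  rw [tau, mon_natEx, ← iotaK_residue]
  congr 1
  simp [bprod, bmon, Finsupp.prod]

lemma mk_eq_sum (x : RootRing p bh) :
    kmk bh x =
      ∑ g ∈ (coord bh x).support, iotaK bh (residue R (coord bh x g)) * tau bh g := by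
  conv_lhs => rw [← sum_coord bh x]
  rw [Finsupp.sum, map_sum]
  refine Finset.sum_congr rfl fun g _ => ?_
  rw [show coord bh x g • mon bh g = algebraMap R _ (coord bh x g) * mon bh g by
    rw [Algebra.algebraMap_eq_smul_one, smul_mul_assoc, one_mul], map_mul]
  rfl

variable [CharP (ResidueField R) p]

instance charP_KK : CharP (KK (p := p) bh) p := by
  refine (CharP.charP_iff_prime_eq_zero (R := KK (p := p) bh) (p := p) Fact.out).mpr ?_
  rw [← map_natCast (iotaK bh), CharP.cast_eq_zero, map_zero]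

variable {bh}

/-- An element of a stage outside the maximal ideal has a power congruent to a unit scalar. -/
lemma exists_unit_pow (hb : IsPB p fun b => residue R (bh b)) {s : Finset B} {i : ℕ}
    {x : RootRing p bh} (hx : x ∈ St bh s i) (hxm : x ∉ maxR bh) :
    ∃ a : ResidueField R, a ≠ 0 ∧ kmk bh x ^ p ^ i = iotaK bh a := by
  classical
  set S := (coord bh x).support
  have hS : ∀ g ∈ S, InSt s i g := fun g hg => (mem_St_iff bh).1 hx g (Finsupp.mem_support_iff.1 hg)
  let bb := fun b => residue R (bh b)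
  refine ⟨∑ g ∈ S, residue R (coord bh x g) ^ p ^ i * bmon bb (num i g), fun h0 => ?_, ?_⟩
  · let c : (B →₀ ℕ) →₀ ResidueField R :=
      ∑ g ∈ S, Finsupp.single (num i g) (residue R (coord bh x g))
    have hne : p ^ i ≠ 0 := (pow_pos (Fact.out : p.Prime).pos i).ne'
    have hc : c = 0 := by
      refine hb.free i c (fun e he b => ?_) ?_
      · obtain ⟨g, hg, heg⟩ := Finset.mem_biUnion.1 (Finsupp.support_finsetSum he)
        rw [Finset.mem_singleton.1 (Finsupp.support_single_subset heg)]
        exact (hS g hg).num_lt (fr_of_mem_coord bh hg) b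
      · rw [← Finsupp.sum_finsetSum_index (fun e => by simp [zero_pow hne])
          (fun e u u' => by rw [add_pow_char_pow, add_mul]), ← h0]
        exact Finset.sum_congr rfl fun g _ => Finsupp.sum_single_index (by simp [zero_pow hne])
    refine hxm ((mem_maxR_iff bh).2 fun g => ?_)
    by_cases hg : g ∈ S
    · have := DFunLike.congr_fun hc (num i g)
      rw [Finsupp.finsetSum_apply, Finset.sum_eq_single g, Finsupp.single_eq_same,
        Finsupp.zero_apply] at this
      · exact this
      · exact fun h hh hne' => Finsupp.single_eq_of_ne fun e =>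
          hne' ((hS h hh).num_inj (hS g hg) e.symm)
      · exact fun h => absurd hg h
    · rw [Finsupp.notMem_support_iff.1 hg, map_zero]
  · rw [mk_eq_sum, map_sum]
    rw [sum_pow_char_pow]
    refine Finset.sum_congr rfl fun g hg => ?_
    rw [mul_pow, map_mul, map_pow, ← tau_natEx]
    congr 1
    rw [tau, tau, ← map_pow, mon_pow, (hS g hg).smul_eq]

/-- An element of a stage outside the maximal ideal has an inverse in that stage modulo the
maximal ideal. -/
lemma exists_inverse (hb : IsPB p fun b => residue R (bh b)) {s : Finset B} {i : ℕ}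
    {x : RootRing p bh} (hx : x ∈ St bh s i) (hxm : x ∉ maxR bh) :
    ∃ y ∈ St bh s i, x * y - 1 ∈ maxR bh := by
  obtain ⟨a, ha, hpow⟩ := exists_unit_pow hb hx hxm
  obtain ⟨r, hr⟩ := residue_surjective a⁻¹
  refine ⟨x ^ (p ^ i - 1) * algebraMap R _ r,
    mul_mem (pow_mem hx _) (Subalgebra.algebraMap_mem _ r), ?_⟩
  rw [← kmk_eq_zero, map_sub, ← mul_assoc, ← pow_succ',
    Nat.sub_add_cancel (Nat.one_le_pow _ _ (Fact.out : p.Prime).pos), map_mul, map_pow, hpow,
    map_one, ← iotaK_residue, hr, ← map_mul, mul_inv_cancel₀ ha, map_one, sub_self]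

variable (bh)

/-- The special fibre is a field. -/
theorem isMaximal_maxR (hb : IsPB p fun b => residue R (bh b)) : (maxR (p := p) bh).IsMaximal := by
  rw [Ideal.isMaximal_iff]
  refine ⟨one_notMem_maxR bh, fun J x hJ hxm hxJ => ?_⟩
  obtain ⟨s, i, hx⟩ := exists_mem_St bh x
  obtain ⟨y, -, hy⟩ := exists_inverse hb hx hxm
  have h := J.sub_mem (J.mul_mem_right y hxJ) (hJ hy)
  rwa [sub_sub_cancel] at h

/-- The special fibre is perfect. -/
theorem frobenius_surjective (hb : IsPB p fun b => residue R (bh b)) :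
    Function.Surjective (frobenius (KK (p := p) bh) p) := by
  have hp : (p : ℚ) ≠ 0 := Nat.cast_ne_zero.2 (Fact.out : p.Prime).ne_zero
  have htau : ∀ g, tau bh g ∈ (frobenius (KK (p := p) bh) p).range := by
    intro g
    refine ⟨tau bh ⟨g.1.mapRange (fun q => q / p) (zero_div _), fun b => ?_⟩, ?_⟩
    · obtain ⟨j, m, h⟩ := g.2 b
      exact ⟨j + 1, m, by
        rw [Finsupp.mapRange_apply, pow_succ', ← mul_assoc, div_mul_cancel₀ _ hp, h]⟩
    · rw [frobenius_def, tau, ← map_pow, mon_pow]
      congr 2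
      refine Subtype.ext (Finsupp.ext fun b => ?_)
      show (p • g.1.mapRange (fun q => q / (p : ℚ)) (zero_div _)) b = _
      rw [Finsupp.smul_apply, Finsupp.mapRange_apply, nsmul_eq_mul,
        mul_div_cancel₀ _ hp]
  have hiota : ∀ a, iotaK bh a ∈ (frobenius (KK (p := p) bh) p).range := by
    intro a
    obtain ⟨c, -, rfl⟩ := hb.span a
    rw [map_finsuppSum]
    refine Subring.sum_mem _ fun e _ => ?_
    beta_reduce
    rw [map_mul, map_pow, ← tau_natEx]
    exact mul_mem ⟨iotaK bh (c e), frobenius_def _ _⟩ (htau _)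
  intro z
  obtain ⟨x, rfl⟩ := kmk_surjective bh z
  rw [← RingHom.mem_range, mk_eq_sum]
  exact Subring.sum_mem _ fun g _ => mul_mem (hiota _) (htau g)

theorem infinite_KK [Infinite (ResidueField R)] : Infinite (KK (p := p) bh) :=
  Infinite.of_injective (iotaK bh) (RingHom.injective _)

end Residue

end Vale.Agent.P202.Coef
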