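import Vale.Agent.P202.EPowerSeries
import Vale.Agent.P202.Reduce

/-!
M1: evaluation of power series over a complete coefficient ring in a complete local ring, and
generators of the target as a module over the image.
-/

universe u

namespace Vale.Agent.P202.Coef

open IsLocalRing MvPowerSeries

section Span

variable {A B : Type u} [CommRing A] [CommRing B]

/-- A set spanning modulo the extended ideal of a complete ring spans. -/
theorem span_of_complete (f : A →+* B) (I : Ideal A) [IsPrecomplete I A]
    [IsHausdorff (I.map f) B] (s : Finset B)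
    (hs : ∀ b, ∃ w ∈ Submodule.span f.range (s : Set B), b - w ∈ I.map f) (b : B) :
    b ∈ Submodule.span f.range (s : Set B) := by
  classical
  let _ := f.toAlgebra
  have hspan : ∀ w ∈ Submodule.span f.range (s : Set B), w ∈ Submodule.span A (s : Set B) := by
    intro w hw
    induction hw using Submodule.span_induction with
    | mem y hy => exact Submodule.subset_span hy
    | zero => exact zero_mem _
    | add y z _ _ hy hz => exact add_mem hy hz
    | smul c y _ hy =>
      obtain ⟨_, a, rfl⟩ := c
      exact Submodule.smul_mem _ a hy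
  have : IsHausdorff (I.map (algebraMap A B)) B := ‹IsHausdorff (I.map f) B›
  have : IsHausdorff I B := IsHausdorff.map_algebraMap_iff.mp this
  have := isPrecomplete_pi I (↥s)
  let F : ((↥s) → A) →ₗ[A] B := Fintype.linearCombination A (fun i : ↥s => (i : B))
  have hF : Function.Surjective F := by
    refine surjective_of_mkQ_comp_surjective (I := I) fun y => ?_
    obtain ⟨y, rfl⟩ := Submodule.mkQ_surjective _ y
    obtain ⟨w, hw, hy⟩ := hs y
    have hw' : w ∈ LinearMap.range F := by
      rw [Fintype.range_linearCombination]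
      convert hspan w hw using 2
      simp
    obtain ⟨c, rfl⟩ := hw'
    refine ⟨c, ?_⟩
    rw [LinearMap.comp_apply, Submodule.mkQ_apply, Submodule.mkQ_apply, eq_comm,
      Submodule.Quotient.eq, Ideal.smul_top_eq_map, Submodule.restrictScalars_mem]
    exact hy
  obtain ⟨c, rfl⟩ := hF b
  rw [Fintype.linearCombination_apply]
  refine Submodule.sum_mem _ fun i _ => ?_
  exact Submodule.smul_mem _ (⟨f (c i), c i, rfl⟩ : f.range) (Submodule.subset_span i.2)

end Span

variable {τ : Type} [Finite τ] {L S : Type u} [CommRing L] [CommRing S] [IsLocalRing S]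

omit [Finite τ] in
lemma map_X_le (f : MvPowerSeries τ L →+* S) (hf : ∀ i, f (X i) ∈ maximalIdeal S) :
    (Ideal.span (Set.range (X : τ → MvPowerSeries τ L))).map f ≤ maximalIdeal S := by
  rw [Ideal.map_span, Ideal.span_le]
  rintro _ ⟨_, ⟨i, rfl⟩, rfl⟩
  exact hf i

/-- Maps out of power series are determined by constants and variables. -/
lemma series_hom_ext [IsHausdorff (maximalIdeal S) S] {f g : MvPowerSeries τ L →+* S}
    (hC : ∀ c, f (C c) = g (C c)) (hX : ∀ i, f (X i) = g (X i))
    (hm : ∀ i, f (X i) ∈ maximalIdeal S) : f = g := by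
  refine RingHom.ext fun q => sub_eq_zero.1 (IsHausdorff.haus (I := maximalIdeal S) inferInstance _
    fun n => ?_)
  rw [SModEq.sub_mem, sub_zero, smul_eq_mul, Ideal.mul_top]
  set t : MvPolynomial τ L := truncTotal n q
  have hp : q - (t : MvPowerSeries τ L) ∈
      Ideal.span (Set.range (X : τ → MvPowerSeries τ L)) ^ n := by
    rw [mem_span_X_pow_iff]
    intro e he
    rw [map_sub, MvPolynomial.coeff_coe, coeff_truncTotal _ he, sub_self]
  have hq : ∀ r : MvPolynomial τ L, f (r : MvPowerSeries τ L) = g r := by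
    intro r
    induction r using MvPolynomial.induction_on with
    | C c => rw [MvPolynomial.coe_C, hC]
    | add a b ha hb => rw [MvPolynomial.coe_add, map_add, map_add, ha, hb]
    | mul_X a i ha => rw [MvPolynomial.coe_mul, MvPolynomial.coe_X, map_mul, map_mul, ha, hX]
  have key : ∀ (h : MvPowerSeries τ L →+* S), (∀ i, h (X i) ∈ maximalIdeal S) →
      h (q - (t : MvPowerSeries τ L)) ∈ maximalIdeal S ^ n := fun h hh => by
    have := Ideal.mem_map_of_mem h hp
    rw [Ideal.map_pow] at this
    exact Ideal.pow_right_mono (map_X_le h hh) n this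
  have h1 := key f hm
  have h2 := key g fun i => hX i ▸ hm i
  rw [map_sub] at h1 h2
  rw [hq] at h1
  have := sub_mem h1 h2
  rwa [sub_sub_sub_cancel_right] at this

/-- Evaluation of power series along a map of coefficient rings. -/
lemma exists_series [IsAdicComplete (maximalIdeal S) S] (σ : L →+* S) (x : τ → S)
    (hx : ∀ i, x i ∈ maximalIdeal S) :
    ∃ f : MvPowerSeries τ L →+* S, (∀ c, f (C c) = σ c) ∧ ∀ i, f (X i) = x i := by
  let g : MvPolynomial τ L →+* S := MvPolynomial.eval₂Hom σ x
  have hg : (MvPolynomial.idealOfVars τ L).map g ≤ maximalIdeal S := by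
    rw [MvPolynomial.idealOfVars, Ideal.map_span, Ideal.span_le]
    rintro _ ⟨_, ⟨i, rfl⟩, rfl⟩
    simpa [g] using hx i
  let f : MvPowerSeries τ L →+* S :=
    (AdicCompletion.ofAlgEquiv (maximalIdeal S)).symm.toRingHom.comp
      ((completionMap _ (maximalIdeal S) g hg).comp (toAdicCompletionAlgEquiv τ L).toRingHom)
  have key : ∀ q : MvPolynomial τ L,
      f (algebraMap (MvPolynomial τ L) (MvPowerSeries τ L) q) = g q := by
    intro q
    show (AdicCompletion.ofAlgEquiv (maximalIdeal S)).symm
      (completionMap _ (maximalIdeal S) g hg (toAdicCompletionAlgEquiv τ L (algebraMap _ _ q))) = g q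
    rw [AlgEquiv.commutes, completionMap_algebraMap, AlgEquiv.commutes]
    rfl
  refine ⟨f, fun c => ?_, fun i => ?_⟩
  · have := key (MvPolynomial.C c)
    rw [MvPowerSeries.algebraMap_apply', show g (MvPolynomial.C c) = σ c from
      MvPolynomial.eval₂Hom_C _ _ _] at this
    simpa using this
  · have := key (MvPolynomial.X i)
    rw [MvPowerSeries.algebraMap_apply', show g (MvPolynomial.X i) = x i from
      MvPolynomial.eval₂Hom_X' _ _ _] at this
    simpa using this

lemma hausdorff_map_X [IsHausdorff (maximalIdeal S) S] (f : MvPowerSeries τ L →+* S)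
    (hf : ∀ i, f (X i) ∈ maximalIdeal S) :
    IsHausdorff ((Ideal.span (Set.range (X : τ → MvPowerSeries τ L))).map f) S :=
  ⟨fun x hx => IsHausdorff.haus (I := maximalIdeal S) inferInstance x fun n =>
    (hx n).mono (Submodule.smul_mono_left (Ideal.pow_right_mono (map_X_le f hf) n))⟩

/-- Evaluation at generators of the maximal ideal is surjective. -/
theorem surjective_series [IsHausdorff (maximalIdeal S) S] (σ : L →+* S)
    (hres : ∀ t : S, ∃ c, t - σ c ∈ maximalIdeal S) (f : MvPowerSeries τ L →+* S)
    (hC : ∀ c, f (C c) = σ c)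
    (hgen : maximalIdeal S = Ideal.span (Set.range fun i => f (X i))) : Function.Surjective f := by
  classical
  have hf : ∀ i, f (X i) ∈ maximalIdeal S := fun i => hgen ▸ Ideal.subset_span ⟨i, rfl⟩
  have := hausdorff_map_X f hf
  have hs : ∀ t : S, ∃ w ∈ Submodule.span f.range (({1} : Finset S) : Set S),
      t - w ∈ (Ideal.span (Set.range (X : τ → MvPowerSeries τ L))).map f := by
    intro t
    obtain ⟨c, hc⟩ := hres t
    refine ⟨σ c, ?_, ?_⟩
    · have h1 : σ c = (⟨f (C c), _, rfl⟩ : f.range) • (1 : S) := by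
        show σ c = f (C c) * 1
        rw [mul_one, hC]
      rw [h1]
      exact Submodule.smul_mem _ _ (Submodule.subset_span (by simp))
    · rw [Ideal.map_span, ← Set.range_comp]
      exact hgen ▸ hc
  intro t
  have ht := span_of_complete f _ {1} hs t
  rw [Finset.coe_singleton, Submodule.mem_span_singleton] at ht
  obtain ⟨⟨_, q, rfl⟩, hq⟩ := ht
  exact ⟨q, by rw [← hq, Subring.smul_def, smul_eq_mul, mul_one]⟩

lemma exists_pow_generators (M : Submonoid S) (G : Finset S) (hG : (G : Set S) ⊆ M) (j : ℕ) :
    ∃ H : Finset S, (H : Set S) ⊆ M ∧ Ideal.span (H : Set S) = Ideal.span (G : Set S) ^ j := by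
  classical
  induction j with
  | zero => exact ⟨{1}, by simp, by simp⟩
  | succ j ih =>
    obtain ⟨H, hH, hHs⟩ := ih
    refine ⟨Finset.image₂ (· * ·) H G, ?_, ?_⟩
    · rw [Finset.coe_image₂]
      rintro _ ⟨a, ha, b, hb, rfl⟩
      exact M.mul_mem (hH ha) (hG hb)
    · rw [pow_succ, ← hHs, Ideal.span_mul_span', Finset.coe_image₂]
      rfl

/-- Finiteness: if the variables together with an ideal of the coefficients generate an ideal
primary to the maximal ideal, finitely many products of given generators of the maximal ideal span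
the target over the image. -/
theorem finite_series [IsNoetherianRing S] (P : Ideal L) [IsPrecomplete P L] (σ : L →+* S)
    (hP : P.map σ ≤ maximalIdeal S) (hres : ∀ t : S, ∃ c, t - σ c ∈ maximalIdeal S)
    (f : MvPowerSeries τ L →+* S) (hC : ∀ c, f (C c) = σ c)
    (hf : ∀ i, f (X i) ∈ maximalIdeal S) (M : Submonoid S) (G : Finset S) (hG : (G : Set S) ⊆ M)
    (hGm : Ideal.span (G : Set S) = maximalIdeal S) {c : ℕ}
    (hc : maximalIdeal S ^ c ≤ P.map σ ⊔ Ideal.span (Set.range fun i => f (X i))) :
    ∃ s : Finset S, (s : Set S) ⊆ M ∧ ∀ t, t ∈ Submodule.span f.range (s : Set S) := by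
  classical
  set J := Ideal.span (Set.range fun i => f (X i)) with hJ
  have hJm : J ≤ maximalIdeal S := Ideal.span_le.2 (by rintro _ ⟨i, rfl⟩; exact hf i)
  have hstep : ∀ j, ∃ s : Finset S, (s : Set S) ⊆ M ∧
      ∀ t, ∃ w ∈ Submodule.span σ.range (s : Set S), t - w ∈ maximalIdeal S ^ j := by
    intro j
    induction j with
    | zero => exact ⟨∅, by simp, fun t => ⟨0, zero_mem _, by simp⟩⟩
    | succ j ih =>
      obtain ⟨s, hsM, hs⟩ := ih
      obtain ⟨H, hHM, hH⟩ := exists_pow_generators M G hG j
      rw [hGm] at hH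
      refine ⟨s ∪ H, by rw [Finset.coe_union]; exact Set.union_subset hsM hHM, fun t => ?_⟩
      obtain ⟨w, hw, htw⟩ := hs t
      rw [← hH, Submodule.mem_span_finset] at htw
      obtain ⟨φ, -, hφ⟩ := htw
      choose a ha using hres
      refine ⟨w + ∑ g ∈ H, σ (a (φ g)) * g, add_mem (Submodule.span_mono (by simp) hw)
        (Submodule.sum_mem _ fun g hg => Submodule.smul_mem _ (⟨σ (a (φ g)), _, rfl⟩ : σ.range)
          (Submodule.subset_span (Finset.mem_coe.2 (Finset.mem_union_right _ hg)))), ?_⟩
      rw [← sub_sub, ← hφ, ← Finset.sum_sub_distrib]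
      refine Submodule.sum_mem _ fun g hg => ?_
      have hg' : g ∈ maximalIdeal S ^ j := hH ▸ Ideal.subset_span hg
      rw [smul_eq_mul, ← sub_mul, pow_succ']
      exact Ideal.mul_mem_mul (ha _) hg'
  obtain ⟨s, hsM, hs⟩ := hstep c
  set q : L →+* S ⧸ J := (Ideal.Quotient.mk J).comp σ with hq
  have : Nontrivial (S ⧸ J) := Ideal.Quotient.nontrivial_iff.2
    fun h => (maximalIdeal.isMaximal S).ne_top (top_le_iff.1 (h ▸ hJm))
  have : IsLocalRing (S ⧸ J) := .of_surjective' _ Ideal.Quotient.mk_surjective
  have hPq : P.map q = (P.map σ).map (Ideal.Quotient.mk J) := (Ideal.map_map _ _).symm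
  have : IsHausdorff (P.map q) (S ⧸ J) := by
    refine IsHausdorff.of_le_jacobson _ _ (le_trans ?_ (maximalIdeal_le_jacobson _))
    refine le_maximalIdeal fun h => ?_
    rw [hPq] at h
    have h2 := congrArg (Ideal.comap (Ideal.Quotient.mk J)) h
    rw [Ideal.comap_map_of_surjective _ Ideal.Quotient.mk_surjective, Ideal.comap_top,
      ← RingHom.ker_eq_comap_bot, Ideal.mk_ker] at h2
    exact (maximalIdeal.isMaximal S).ne_top (top_le_iff.1 (h2 ▸ sup_le hP hJm))
  have himage : ∀ w ∈ Submodule.span σ.range (s : Set S),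
      Ideal.Quotient.mk J w ∈ Submodule.span q.range ((s.image (Ideal.Quotient.mk J) : Finset _) :
        Set (S ⧸ J)) := by
    intro w hw
    induction hw using Submodule.span_induction with
    | mem y hy => exact Submodule.subset_span (Finset.mem_coe.2 (Finset.mem_image_of_mem _ hy))
    | zero => rw [map_zero]; exact zero_mem _
    | add y z _ _ hy hz => rw [map_add]; exact add_mem hy hz
    | smul a y _ hy =>
      obtain ⟨_, l, rfl⟩ := a
      rw [Subring.smul_def, smul_eq_mul, map_mul]
      exact Submodule.smul_mem _ (⟨q l, l, rfl⟩ : q.range) hy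
  have h1 : ∀ t : S, ∃ w ∈ Submodule.span σ.range (s : Set S), t - w ∈ J := by
    intro t
    have ht := span_of_complete q P (s.image (Ideal.Quotient.mk J)) (fun b => by
      obtain ⟨b, rfl⟩ := Ideal.Quotient.mk_surjective b
      obtain ⟨w, hw, hbw⟩ := hs b
      refine ⟨_, himage w hw, ?_⟩
      rw [← map_sub, hPq]
      have := Ideal.mem_map_of_mem (Ideal.Quotient.mk J) (hc hbw)
      rwa [Ideal.map_sup, Ideal.map_quotient_self, sup_bot_eq] at this) (Ideal.Quotient.mk J t)
    rw [Submodule.mem_span_finset] at ht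
    obtain ⟨φ, -, hφ⟩ := ht
    choose a ha using fun b => (φ b).2
    rw [Finset.sum_congr rfl fun b _ => Subring.smul_def (φ b) b] at hφ
    let pre : S ⧸ J → S := fun b => if h : ∃ g ∈ s, Ideal.Quotient.mk J g = b then h.choose else 0
    have hpre : ∀ b ∈ s.image (Ideal.Quotient.mk J), pre b ∈ s ∧ Ideal.Quotient.mk J (pre b) = b := by
      intro b hb
      obtain ⟨g, hg, rfl⟩ := Finset.mem_image.1 hb
      have h : ∃ g' ∈ s, Ideal.Quotient.mk J g' = Ideal.Quotient.mk J g := ⟨g, hg, rfl⟩
      simp only [pre, dif_pos h]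
      exact h.choose_spec
    refine ⟨∑ b ∈ s.image (Ideal.Quotient.mk J), σ (a b) * pre b,
      Submodule.sum_mem _ fun b hb => Submodule.smul_mem _ (⟨σ (a b), _, rfl⟩ : σ.range)
        (Submodule.subset_span (Finset.mem_coe.2 (hpre b hb).1)), ?_⟩
    rw [← Ideal.Quotient.eq, ← hφ, map_sum]
    refine Finset.sum_congr rfl fun b hb => ?_
    rw [map_mul, (hpre b hb).2, smul_eq_mul, ← ha b]
    rfl
  have := hausdorff_map_X f hf
  refine ⟨s, hsM, span_of_complete f (Ideal.span (Set.range X)) s fun t => ?_⟩
  obtain ⟨w, hw, htw⟩ := h1 t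
  refine ⟨w, ?_, by rwa [Ideal.map_span, ← Set.range_comp]⟩
  clear htw
  induction hw using Submodule.span_induction with
  | mem y hy => exact Submodule.subset_span hy
  | zero => exact zero_mem _
  | add y z _ _ hy hz => exact add_mem hy hz
  | smul a y _ hy =>
    obtain ⟨_, l, rfl⟩ := a
    have : (⟨σ l, l, rfl⟩ : σ.range) • y = (⟨f (C l), _, rfl⟩ : f.range) • y := by
      show σ l * y = f (C l) * y
      rw [hC]
    rw [this]
    exact Submodule.smul_mem _ _ hy

end Vale.Agent.P202.Coef
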