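import Vale.Agent.P202.M1Root
import Vale.Agent.P202.DLength
import Vale.Agent.P202.Hom

/-!
M1: the finite stages of the root ring.  Ideals spanned by their trace on a stage contract back to
it, and the lengths over `R` scale by the degree of the residue field of the stage.
-/

universe u

namespace Vale.Agent.P202.Coef

open IsLocalRing

variable {p : ℕ} [Fact p.Prime] {B : Type u} {R : Type u} [CommRing R] (bh : B → R)

/-- The reduced exponents of a stage. -/
def Red (p : ℕ) [Fact p.Prime] {B : Type u} (s : Finset B) (i : ℕ) : Type u :=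
  {g : Ex p B // InSt s i g ∧ fr g = g}

instance finite_Red (s : Finset B) (i : ℕ) : Finite (Red p s i) := by
  refine Finite.of_injective
    (fun (g : Red p s i) (b : s) => (⟨num i g.1 b, g.2.1.num_lt g.2.2 b⟩ : Fin (p ^ i)))
    fun g h e => Subtype.ext (g.2.1.num_inj h.2.1 (Finsupp.ext fun b => ?_))
  by_cases hb : b ∈ s
  · exact congrArg Fin.val (congrFun e ⟨b, hb⟩)
  · simp [num_apply, (g.2.1 b).1 hb, (h.2.1 b).1 hb]

instance nonempty_Red (s : Finset B) (i : ℕ) : Nonempty (Red p s i) :=
  ⟨⟨0, InSt.zero s i, fr_zero⟩⟩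

/-- The degree of a stage. -/
noncomputable def csize (p : ℕ) [Fact p.Prime] {B : Type u} (s : Finset B) (i : ℕ) : ℕ :=
  Nat.card (Red p s i)

lemma csize_pos (s : Finset B) (i : ℕ) : 0 < csize p s i := Nat.card_pos

/-- The enumeration of the reduced exponents. -/
noncomputable def redEx (p : ℕ) [Fact p.Prime] {B : Type u} (s : Finset B) (i : ℕ)
    (j : Fin (csize p s i)) : Ex p B :=
  ((Finite.equivFin (Red p s i)).symm j).1

lemma redEx_mem (s : Finset B) (i : ℕ) (j : Fin (csize p s i)) :
    InSt s i (redEx p s i j) ∧ fr (redEx p s i j) = redEx p s i j :=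
  ((Finite.equivFin (Red p s i)).symm j).2

lemma redEx_injective (s : Finset B) (i : ℕ) : Function.Injective (redEx p s i) := fun _ _ h =>
  (Finite.equivFin (Red p s i)).symm.injective (Subtype.ext h)

lemma exists_redEx {s : Finset B} {i : ℕ} {g : Ex p B} (hg : InSt s i g) (hf : fr g = g) :
    ∃ j, redEx p s i j = g :=
  ⟨Finite.equivFin (Red p s i) ⟨g, hg, hf⟩, congrArg Subtype.val (Equiv.symm_apply_apply _ _)⟩

/-- The element of a stage with prescribed coordinates. -/
noncomputable def stElem (s : Finset B) (i : ℕ) :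
    (Fin (csize p s i) → R) →ₗ[R] RootRing p bh :=
  Fintype.linearCombination R fun j => mon bh (redEx p s i j)

lemma stElem_mem (s : Finset B) (i : ℕ) (r : Fin (csize p s i) → R) :
    stElem bh s i r ∈ St bh s i := by
  rw [stElem, Fintype.linearCombination_apply]
  exact Subalgebra.sum_mem _ fun j _ =>
    Subalgebra.smul_mem _ (mon_mem_St bh (redEx_mem s i j).1) _

lemma coord_stElem (s : Finset B) (i : ℕ) (r : Fin (csize p s i) → R) (j : Fin (csize p s i)) :
    coord bh (stElem bh s i r) (redEx p s i j) = r j := by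
  classical
  rw [stElem, Fintype.linearCombination_apply, map_sum, Finsupp.finsetSum_apply,
    Finset.sum_eq_single j]
  · rw [coord_smul_mon bh (redEx_mem s i j).2, Finsupp.single_eq_same]
  · intro k _ hk
    rw [coord_smul_mon bh (redEx_mem s i k).2]
    exact Finsupp.single_eq_of_ne fun e => hk (redEx_injective s i e.symm)
  · exact fun h => absurd (Finset.mem_univ j) h

lemma eq_stElem {s : Finset B} {i : ℕ} {x : RootRing p bh} (hx : x ∈ St bh s i) :
    x = stElem bh s i fun j => coord bh x (redEx p s i j) := by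
  classical
  refine coord_injective bh (Finsupp.ext fun g => ?_)
  by_cases hg : InSt s i g ∧ fr g = g
  · obtain ⟨j, rfl⟩ := exists_redEx hg.1 hg.2
    rw [coord_stElem]
  · have h : ∀ y ∈ St bh s i, coord bh y g = 0 := fun y hy => by
      by_contra h
      exact hg ⟨(mem_St_iff bh).1 hy g h, fr_of_mem_coord bh (Finsupp.mem_support_iff.2 h)⟩
    rw [h x hx, h _ (stElem_mem bh s i _)]

lemma St_toSubmodule_eq (s : Finset B) (i : ℕ) :
    Subalgebra.toSubmodule (St (p := p) bh s i) = LinearMap.range (stElem (p := p) bh s i) := by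
  ext x
  rw [Subalgebra.mem_toSubmodule, LinearMap.mem_range]
  exact ⟨fun hx => ⟨_, (eq_stElem bh hx).symm⟩, fun ⟨r, hr⟩ => hr ▸ stElem_mem bh s i r⟩

/-- The projection to a stage. -/
noncomputable def proj (s : Finset B) (i : ℕ) : RootRing p bh →ₗ[R] RootRing p bh := by
  classical
  exact (Finsupp.lsum R fun g => if InSt s i g then
    LinearMap.toSpanSingleton R (RootRing p bh) (mon bh g) else 0).comp (coord bh)

lemma proj_mon_of_not {s : Finset B} {i : ℕ} {g : Ex p B} (hg : ¬InSt s i (fr g)) :
    proj bh s i (mon bh g) = 0 := by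
  classical
  simp [proj, coord_mon, hg]

lemma proj_mem (s : Finset B) (i : ℕ) (x : RootRing p bh) : proj bh s i x ∈ St bh s i := by
  classical
  rw [proj, LinearMap.comp_apply, Finsupp.lsum_apply, Finsupp.sum]
  refine Subalgebra.sum_mem _ fun g _ => ?_
  by_cases hg : InSt s i g
  · rw [if_pos hg, LinearMap.toSpanSingleton_apply]
    exact Subalgebra.smul_mem _ (mon_mem_St bh hg) _
  · rw [if_neg hg, LinearMap.zero_apply]
    exact zero_mem _

lemma proj_eq_self {s : Finset B} {i : ℕ} {x : RootRing p bh} (hx : x ∈ St bh s i) :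
    proj bh s i x = x := by
  classical
  rw [proj, LinearMap.comp_apply, Finsupp.lsum_apply]
  conv_rhs => rw [← sum_coord bh x]
  refine Finset.sum_congr rfl fun g hg => ?_
  beta_reduce
  rw [if_pos ((mem_St_iff bh).1 hx g (Finsupp.mem_support_iff.1 hg)),
    LinearMap.toSpanSingleton_apply]

lemma proj_mul {s : Finset B} {i : ℕ} (x : RootRing p bh) {u : RootRing p bh}
    (hu : u ∈ St bh s i) : proj bh s i (x * u) = proj bh s i x * u := by
  rw [← sum_coord bh x, Finsupp.sum, Finset.sum_mul, map_sum, map_sum, Finset.sum_mul]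
  refine Finset.sum_congr rfl fun g hg => ?_
  rw [smul_mul_assoc, map_smul, map_smul, smul_mul_assoc]
  congr 1
  by_cases hgs : InSt s i g
  · rw [proj_eq_self bh (mon_mem_St bh hgs),
      proj_eq_self bh (mul_mem (mon_mem_St bh hgs) hu)]
  · rw [proj_mon_of_not bh (by rwa [fr_of_mem_coord bh hg]), zero_mul]
    conv_lhs => rw [← sum_coord bh u, Finsupp.sum, Finset.mul_sum, map_sum]
    refine Finset.sum_eq_zero fun h hh => ?_
    rw [mul_smul_comm, ← mon_add, map_smul, proj_mon_of_not bh
      (not_inSt_add ((mem_St_iff bh).1 hu h (Finsupp.mem_support_iff.1 hh))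
        (fr_of_mem_coord bh hg) hgs), smul_zero]

lemma proj_mem_span {s : Finset B} {i : ℕ} {X : Set (RootRing p bh)}
    (hX : X ⊆ (St (p := p) bh s i : Set (RootRing p bh))) {x : RootRing p bh} (hx : x ∈ Ideal.span X) :
    proj bh s i x ∈ Ideal.span X := by
  obtain ⟨n, t, w, rfl⟩ := Submodule.mem_span_set'.1 hx
  rw [map_sum]
  refine Ideal.sum_mem _ fun k _ => ?_
  rw [smul_eq_mul, proj_mul bh _ (hX (w k).2)]
  exact Ideal.mul_mem_left _ _ (Ideal.subset_span (w k).2)

section Residue

variable [IsLocalRing R]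

lemma kmk_stElem (s : Finset B) (i : ℕ) (r : Fin (csize p s i) → R) :
    kmk bh (stElem bh s i r) =
      ∑ j, iotaK bh (residue R (r j)) * tau bh (redEx p s i j) := by
  rw [stElem, Fintype.linearCombination_apply, map_sum]
  refine Finset.sum_congr rfl fun j _ => ?_
  rw [show r j • mon bh (redEx p s i j) = algebraMap R _ (r j) * mon bh (redEx p s i j) by
    rw [Algebra.algebraMap_eq_smul_one, smul_mul_assoc, one_mul], map_mul]
  rfl

lemma residue_eq_of_kmk_stElem {s : Finset B} {i : ℕ} {r r' : Fin (csize p s i) → R}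
    (h : kmk bh (stElem bh s i r) = kmk bh (stElem bh s i r')) (j : Fin (csize p s i)) :
    residue R (r j) = residue R (r' j) := by
  have h0 : stElem bh s i r - stElem bh s i r' ∈ maxR bh := by
    rw [← kmk_eq_zero, map_sub, h, sub_self]
  have := (mem_maxR_iff bh).1 h0 (redEx p s i j)
  rwa [map_sub, Finsupp.sub_apply, coord_stElem, coord_stElem, map_sub, sub_eq_zero] at this

/-- The residue classes of a stage have unique coordinates over the residue field. -/
lemma existsUnique_coords (s : Finset B) (i : ℕ) {a : KK (p := p) bh}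
    (ha : a ∈ (St bh s i).toSubring.map (kmk bh)) :
    ∃! r : Fin (csize p s i) → ResidueField R,
      a = ∑ j, iotaK bh (r j) * tau bh (redEx p s i j) := by
  obtain ⟨x, hx, rfl⟩ := ha
  refine ⟨fun j => residue R (coord bh x (redEx p s i j)), ?_, fun r hr => funext fun j => ?_⟩
  · beta_reduce
    rw [← kmk_stElem, ← eq_stElem bh hx]
  · choose l hl using fun j => residue_surjective (R := R) (r j)
    rw [← hl j]
    refine residue_eq_of_kmk_stElem bh (s := s) (i := i) (r := l)
      (r' := fun j => coord bh x (redEx p s i j)) ?_ j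
    rw [← eq_stElem bh hx, kmk_stElem, hr]
    simp only [hl]

lemma tau_redEx_mem (s : Finset B) (i : ℕ) (j : Fin (csize p s i)) :
    tau bh (redEx p s i j) ∈ (St bh s i).toSubring.map (kmk bh) :=
  ⟨_, mon_mem_St bh (redEx_mem s i j).1, rfl⟩

lemma iotaK_mem (s : Finset B) (i : ℕ) (a : ResidueField R) :
    iotaK bh a ∈ (St (p := p) bh s i).toSubring.map (kmk bh) := by
  obtain ⟨r, rfl⟩ := residue_surjective a
  exact ⟨_, Subalgebra.algebraMap_mem _ r, rfl⟩

lemma exists_mem_map_kmk (a : KK (p := p) bh) :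
    ∃ s i, ∀ s' i', s ⊆ s' → i ≤ i' → a ∈ (St bh s' i').toSubring.map (kmk bh) := by
  obtain ⟨x, rfl⟩ := kmk_surjective bh a
  obtain ⟨s, i, hx⟩ := exists_mem_St bh x
  exact ⟨s, i, fun s' i' hs hi => ⟨x, St_mono bh hs hi hx, rfl⟩⟩

lemma length_residueField : Module.length R (ResidueField R) = 1 := by
  have : IsSimpleModule R (ResidueField R) :=
    isSimpleModule_iff_quot_maximal.mpr ⟨maximalIdeal R, inferInstance, ⟨LinearEquiv.refl _ _⟩⟩
  exact Module.length_eq_one R _

lemma sq_St_maxR (s : Finset B) (i : ℕ) :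
    sq R (Subalgebra.toSubmodule (St (p := p) bh s i)) ((maxR bh).restrictScalars R) =
      csize p s i := by
  let ev : ↥(Subalgebra.toSubmodule (St (p := p) bh s i)) →ₗ[R]
      (Fin (csize p s i) → ResidueField R) :=
    LinearMap.pi fun j => (Submodule.mkQ (maximalIdeal R)).comp
      (((Finsupp.lapply (redEx p s i j)).comp (coord bh)).comp (Submodule.subtype _))
  have hs : Function.Surjective ev := by
    intro r
    choose l hl using fun j => residue_surjective (R := R) (r j)
    exact ⟨⟨stElem bh s i l, stElem_mem bh s i l⟩, funext fun j => by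
      show residue R (coord bh (stElem bh s i l) (redEx p s i j)) = r j
      rw [coord_stElem, hl]⟩
  have hk : LinearMap.ker ev = ((maxR bh).restrictScalars R).comap (Submodule.subtype _) := by
    ext ⟨x, hx⟩
    rw [LinearMap.mem_ker, Submodule.mem_comap, Submodule.subtype_apply,
      Submodule.restrictScalars_mem, mem_maxR_iff]
    constructor
    · intro h g
      by_cases hg : coord bh x g = 0
      · rw [hg, map_zero]
      · obtain ⟨j, rfl⟩ := exists_redEx ((mem_St_iff bh).1 hx g hg)
          (fr_of_mem_coord bh (Finsupp.mem_support_iff.2 hg))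
        exact congrFun h j
    · exact fun h => funext fun j => h _
  rw [sq, ← hk, (ev.quotKerEquivOfSurjective hs).length_eq, Module.length_pi_of_fintype,
    Finset.sum_const, Finset.card_univ, Fintype.card_fin, length_residueField, nsmul_eq_mul,
    mul_one]

/-- An element of `R` outside an ideal that the maximal ideal moves inside. -/
lemma exists_socle {𝔄 : Ideal (RootRing p bh)} (j : ℕ) (hj : maxR bh ^ j ≤ 𝔄) (h1 : 1 ∉ 𝔄) :
    ∃ r : R, algebraMap R (RootRing p bh) r ∉ 𝔄 ∧
      ∀ z ∈ maxR bh, z * algebraMap R _ r ∈ 𝔄 := by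
  induction j with
  | zero => rw [pow_zero, Ideal.one_eq_top, top_le_iff] at hj; exact absurd (hj ▸ trivial) h1
  | succ j ih =>
    by_cases h : maxR bh ^ j ≤ 𝔄
    · exact ih h
    rw [maxR, ← Ideal.map_pow, Ideal.map_le_iff_le_comap, SetLike.not_le_iff_exists] at h
    obtain ⟨r, hr, hr'⟩ := h
    refine ⟨r, hr', fun z hz => hj ?_⟩
    rw [pow_succ']
    refine Ideal.mul_mem_mul hz ?_
    rw [maxR, ← Ideal.map_pow]
    exact Ideal.mem_map_of_mem _ hr

variable [CharP (ResidueField R) p] [IsNoetherianRing R]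

/-- Ideals spanned by their trace on a stage: lengths over `R` scale by the degree. -/
theorem exists_length_stage (hb : IsPB p fun b => residue R (bh b)) (s : Finset B) (i T : ℕ)
    (𝔄 : Ideal (RootRing p bh)) (hT : maxR bh ^ T ≤ 𝔄)
    (hspan : 𝔄 = Ideal.span ((𝔄 : Set (RootRing p bh)) ∩ (St (p := p) bh s i : Set (RootRing p bh)))) :
    ∃ L : ℕ, Module.length (RootRing p bh) (RootRing p bh ⧸ 𝔄) = L ∧
      sq R (Subalgebra.toSubmodule (St bh s i)) (𝔄.restrictScalars R) =
        ((csize p s i * L : ℕ) : ℕ∞) := by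
  set SM := Subalgebra.toSubmodule (St (p := p) bh s i) with hSM
  have : Module.Finite R SM := by
    rw [hSM, St_toSubmodule_eq]
    exact Module.Finite.range _
  suffices key : ∀ (N : Submodule R SM) (𝔄 : Ideal (RootRing p bh)),
      N = (𝔄.restrictScalars R).comap SM.subtype → maxR bh ^ T ≤ 𝔄 →
      𝔄 = Ideal.span ((𝔄 : Set (RootRing p bh)) ∩ (St (p := p) bh s i : Set (RootRing p bh))) →
      ∃ L : ℕ, Module.length (RootRing p bh) (RootRing p bh ⧸ 𝔄) = L ∧
        sq R SM (𝔄.restrictScalars R) = ((csize p s i * L : ℕ) : ℕ∞) from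
    key _ 𝔄 rfl hT hspan
  intro N
  induction N using IsNoetherian.induction with
  | hgt N ih =>
    intro 𝔄 hN hT hspan
    by_cases h1 : (1 : RootRing p bh) ∈ 𝔄
    · refine ⟨0, ?_, ?_⟩
      · rw [Nat.cast_zero, Module.length_eq_zero_iff, Submodule.Quotient.subsingleton_iff]
        exact (Ideal.eq_top_iff_one _).2 h1
      · rw [mul_zero, Nat.cast_zero, sq_eq_zero_iff, (Ideal.eq_top_iff_one _).2 h1]
        exact le_top
    obtain ⟨r, hr, hrm⟩ := exists_socle bh T hT h1
    set x := algebraMap R (RootRing p bh) r with hx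
    have hxSt : x ∈ St bh s i := Subalgebra.algebraMap_mem _ r
    have hmax := isMaximal_maxR bh hb
    set 𝔅 := Ideal.span {x} ⊔ 𝔄 with h𝔅
    have h𝔅span : 𝔅 = Ideal.span
        ((𝔅 : Set (RootRing p bh)) ∩ (St (p := p) bh s i : Set (RootRing p bh))) := by
      refine le_antisymm (sup_le ?_ ?_) (Ideal.span_le.2 fun y hy => hy.1)
      · exact Ideal.span_le.2 (Set.singleton_subset_iff.2
          (Ideal.subset_span ⟨Ideal.mem_sup_left (Ideal.mem_span_singleton_self x), hxSt⟩))
      · refine hspan.le.trans (Ideal.span_mono fun y hy => ⟨?_, hy.2⟩)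
        exact Ideal.mem_sup_right hy.1
    have hlt : N < (𝔅.restrictScalars R).comap SM.subtype := by
      rw [hN]
      refine lt_of_le_of_ne (Submodule.comap_mono fun y hy => Ideal.mem_sup_right hy) fun e => hr ?_
      have : (⟨x, hxSt⟩ : SM) ∈ (𝔅.restrictScalars R).comap SM.subtype :=
        Ideal.mem_sup_left (Ideal.mem_span_singleton_self x)
      rw [← e] at this
      exact this
    obtain ⟨L, hL, hsq⟩ := ih _ hlt 𝔅 rfl (hT.trans le_sup_right) h𝔅span
    have e1 : sq (RootRing p bh) 𝔅 𝔄 = 1 := by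
      rw [h𝔅, sq_sup_left]
      exact le_antisymm (sq_span_singleton_le_one (maxR bh) x 𝔄 fun z hz => hrm z hz)
        (one_le_sq fun h => hr (h (Ideal.mem_span_singleton_self x)))
    refine ⟨L + 1, ?_, ?_⟩
    · rw [length_quot_eq_sq, sq_add (M := 𝔅) le_sup_right le_top, ← length_quot_eq_sq, hL, e1,
        Nat.cast_succ]
    let f : RootRing p bh →ₗ[R] RootRing p bh := LinearMap.mulLeft R x
    have hM : SM ⊓ 𝔅.restrictScalars R = SM.map f ⊔ SM ⊓ 𝔄.restrictScalars R := by
      refine le_antisymm ?_ (sup_le ?_ (inf_le_inf_left _ fun y hy => Ideal.mem_sup_right hy))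
      · rintro y ⟨hy, hy'⟩
        obtain ⟨u, hu, v, hv, rfl⟩ := Submodule.mem_sup.1 hy'
        obtain ⟨t, rfl⟩ := Ideal.mem_span_singleton'.1 hu
        rw [← proj_eq_self bh (show t * x + v ∈ St bh s i from hy), map_add,
          proj_mul bh t hxSt]
        refine Submodule.add_mem_sup ⟨proj bh s i t, proj_mem bh s i t, mul_comm _ _⟩
          ⟨proj_mem bh s i v, ?_⟩
        show proj bh s i v ∈ 𝔄
        rw [hspan] at hv ⊢
        exact proj_mem_span bh Set.inter_subset_right hv
      · rintro _ ⟨t, ht, rfl⟩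
        exact ⟨(St bh s i).mul_mem hxSt ht, Ideal.mem_sup_left (Ideal.mul_mem_right t _
          (Ideal.mem_span_singleton_self x))⟩
    have e2 : SM ⊓ (SM ⊓ 𝔄.restrictScalars R).comap f = SM ⊓ (maxR bh).restrictScalars R := by
      refine le_antisymm ?_ ?_
      · rintro t ⟨ht, -, htA⟩
        refine ⟨ht, ?_⟩
        by_contra htm
        obtain ⟨y, -, hy⟩ := exists_inverse hb ht htm
        refine hr ?_
        have h3 : x = x * t * y - (t * y - 1) * x := by ring
        rw [h3]
        exact 𝔄.sub_mem (𝔄.mul_mem_right y htA) (hrm _ hy)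
      · rintro t ⟨ht, htm⟩
        refine ⟨ht, (St bh s i).mul_mem hxSt ht, ?_⟩
        show x * t ∈ 𝔄
        rw [mul_comm]
        exact hrm t htm
    rw [← sq_inf_self, sq_add (M := SM ⊓ 𝔅.restrictScalars R)
        (inf_le_inf_left _ fun y hy => Ideal.mem_sup_right hy) inf_le_left,
      sq_inf_self, hsq, hM, sq_sup_left, sq_map, sq_congr_inf e2, sq_St_maxR, ← Nat.cast_add,
      Nat.mul_succ]

end Residue

end Vale.Agent.P202.Coef
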