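import Mathlib

/-!
M1: a generically étale criterion.  If a finite algebra over a domain is spanned by separable
elements at a minimal prime lying over zero, the prime is killed by an element outside it.
-/

universe u v

namespace Vale.Agent.P202.Coef

open Polynomial

lemma derivation_eval₂ {F : Type u} [CommRing F] {Q : Type u} [CommRing Q] [Algebra F Q]
    {M : Type u} [AddCommGroup M] [Module Q M] [Module F M] (D : Derivation F Q M)
    {C : Type v} [CommRing C] (η : C →+* Q) (hη : ∀ c, D (η c) = 0) (y : Q) (g : C[X]) :
    D (g.eval₂ η y) = g.derivative.eval₂ η y • D y := by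
  induction g using Polynomial.induction_on' with
  | add a b ha hb => rw [eval₂_add, map_add, ha, hb, derivative_add, eval₂_add, add_smul]
  | monomial n a =>
    rw [eval₂_monomial, Derivation.leibniz, hη, smul_zero, add_zero, Derivation.leibniz_pow,
      derivative_monomial, eval₂_monomial, map_mul, map_natCast,
      ← Nat.cast_smul_eq_nsmul Q, smul_smul, smul_smul, mul_assoc]

/-- Separable spanning elements at a minimal prime over zero: the prime is killed outside itself. -/
theorem exists_annihilator {C S : Type u} [CommRing C] [IsDomain C] [CommRing S] [Algebra C S]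
    [Module.Finite C S] (P : Ideal S) [P.IsPrime] (hmin : ∀ P' : Ideal S, P'.IsPrime → P' ≤ P → P' = P)
    (hC : ∀ c : C, c ≠ 0 → algebraMap C S c ∉ P) (Y : Set S)
    (hY : Submodule.span C Y = ⊤)
    (hsep : ∀ y ∈ Y, y = 0 ∨ ∃ g : C[X], g.eval₂ (algebraMap C S) y = 0 ∧
      g.derivative.eval₂ (algebraMap C S) y ∉ P) :
    ∀ x ∈ P, ∃ s ∉ P, s * x = 0 := by
  let F := FractionRing C
  let Q := Localization.AtPrime P
  have hu : ∀ z : nonZeroDivisors C, IsUnit (algebraMap C Q z) := fun z => by
    rw [IsScalarTower.algebraMap_apply C S Q]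
    exact IsLocalization.map_units Q
      (⟨_, hC z (nonZeroDivisors.ne_zero z.2)⟩ : P.primeCompl)
  let _ : Algebra F Q := (IsLocalization.lift (S := F) hu).toAlgebra
  have : IsScalarTower C F Q := IsScalarTower.of_algebraMap_eq fun c => by
    rw [RingHom.algebraMap_toAlgebra, IsLocalization.lift_eq]
  have : Algebra.EssFiniteType S Q := Algebra.EssFiniteType.of_isLocalization Q P.primeCompl
  have : Algebra.EssFiniteType C Q := Algebra.EssFiniteType.comp C S Q
  have : Algebra.EssFiniteType F Q := Algebra.EssFiniteType.of_comp C F Q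
  let D := KaehlerDifferential.D F Q
  have hDC : ∀ c : C, D (algebraMap C Q c) = 0 := fun c => by
    rw [IsScalarTower.algebraMap_apply C F Q]
    exact D.map_algebraMap _
  have hDS : ∀ a : S, D (algebraMap S Q a) = 0 := by
    intro a
    have ha : a ∈ Submodule.span C Y := hY ▸ Submodule.mem_top
    induction ha using Submodule.span_induction with
    | mem y hy =>
      rcases hsep y hy with rfl | ⟨g, hg, hg'⟩
      · rw [map_zero, map_zero]
      have hη : ∀ c, D (((algebraMap S Q).comp (algebraMap C S)) c) = 0 := fun c => by
        rw [RingHom.comp_apply, ← IsScalarTower.algebraMap_apply C S Q]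
        exact hDC c
      have := derivation_eval₂ D _ hη (algebraMap S Q y) g
      rw [← hom_eval₂, hg, map_zero, map_zero, ← hom_eval₂] at this
      exact (IsLocalization.map_units Q (⟨_, hg'⟩ : P.primeCompl)).smul_eq_zero.1 this.symm
    | zero => rw [map_zero, map_zero]
    | add u v _ _ hu' hv => rw [map_add, map_add, hu', hv, add_zero]
    | smul c u _ hu' =>
      rw [Algebra.smul_def, map_mul, Derivation.leibniz, ← IsScalarTower.algebraMap_apply C S Q,
        hu', hDC, smul_zero, smul_zero, add_zero]
  have hD : ∀ q : Q, D q = 0 := by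
    intro q
    obtain ⟨a, s, rfl⟩ := IsLocalization.exists_mk'_eq P.primeCompl q
    have h : D (IsLocalization.mk' Q a s * algebraMap S Q s) = 0 := by
      rw [IsLocalization.mk'_spec, hDS]
    rw [Derivation.leibniz, hDS, smul_zero, zero_add] at h
    exact (IsLocalization.map_units Q s).smul_eq_zero.1 h
  have : Algebra.FormallyUnramified F Q := by
    refine ⟨subsingleton_of_forall_eq 0 fun w => ?_⟩
    have hw : w ∈ Submodule.span Q (Set.range (KaehlerDifferential.D F Q)) := by
      rw [KaehlerDifferential.span_range_derivation]; trivial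
    induction hw using Submodule.span_induction with
    | mem z hz => obtain ⟨q, rfl⟩ := hz; exact hD q
    | zero => rfl
    | add z z' _ _ h h' => rw [h, h', add_zero]
    | smul c z _ h => rw [h, smul_zero]
  have : IsReduced Q := Algebra.FormallyUnramified.isReduced_of_field F Q
  intro x hx
  have h0 : algebraMap S Q x = 0 := by
    refine IsNilpotent.eq_zero (nilpotent_iff_mem_prime.2 fun q hq => ?_)
    have h1 : (q.comap (algebraMap S Q)).IsPrime ∧
        Disjoint (P.primeCompl : Set S) (q.comap (algebraMap S Q) : Set S) :=
      (IsLocalization.isPrime_iff_isPrime_disjoint P.primeCompl Q q).1 hq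
    have h2 : q.comap (algebraMap S Q) ≤ P := fun z hz => by
      by_contra h
      exact Set.disjoint_left.1 h1.2 h hz
    have h3 := hmin _ h1.1 h2
    show x ∈ q.comap (algebraMap S Q)
    rw [h3]
    exact hx
  obtain ⟨m, hm⟩ := (IsLocalization.map_eq_zero_iff P.primeCompl Q x).1 h0
  exact ⟨m, m.2, hm⟩

end Vale.Agent.P202.Coef
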