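import Vale.Agent.P202.M1Series
import Vale.Agent.P202.M1Unram
import Vale.Agent.P202.PsiBasic
import Vale.Agent.P202.Growth
import Vale.Agent.P202.KoszulMult

/-!
M1: the top dimensional part of a completed root extension is reduced, and killing the rest costs
one power in the Hilbert function.
-/

universe u

namespace Vale.Agent.P202.Coef

open IsLocalRing MvPowerSeries

section Dim

variable {A : Type u} [CommRing A] [IsLocalRing A] [IsNoetherianRing A]

lemma exists_lift_parameters (I : Ideal A) (hI : I ≠ ⊤) :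
    ∃ (s : List A) (c : ℕ), s.length ≤ ndim (A ⧸ I) ∧ (∀ a ∈ s, a ∈ maximalIdeal A) ∧
      maximalIdeal A ^ c ≤ I ⊔ Ideal.span {a | a ∈ s} := by
  have : Nontrivial (A ⧸ I) := Ideal.Quotient.nontrivial_iff.2 hI
  have : IsLocalRing (A ⧸ I) := .of_surjective' _ Ideal.Quotient.mk_surjective
  obtain ⟨ys, hlen, hy, c, hc⟩ := exists_parameters (A := A ⧸ I)
  have hsurj := Ideal.Quotient.mk_surjective (I := I)
  refine ⟨ys.map (Function.surjInv hsurj), c, by simpa using hlen, fun a ha => ?_, ?_⟩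
  · obtain ⟨y, hyy, rfl⟩ := List.mem_map.1 ha
    intro hu
    have := hu.map (Ideal.Quotient.mk I)
    rw [Function.surjInv_eq hsurj] at this
    exact hy y hyy this
  · have hcm := Ideal.comap_map_of_surjective _ hsurj
      (Ideal.span {a | a ∈ ys.map (Function.surjInv hsurj)})
    rw [← RingHom.ker_eq_comap_bot, Ideal.mk_ker, sup_comm] at hcm
    rw [← hcm, ← Ideal.map_le_iff_le_comap, Ideal.map_pow, Ideal.map_span]
    refine le_trans ?_ (le_trans hc (Ideal.span_mono fun y hy => ?_))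
    · refine Ideal.pow_right_mono (Ideal.map_le_iff_le_comap.2 ?_) c
      intro a ha hu
      have : IsLocalHom (Ideal.Quotient.mk I) := IsLocalHom.of_surjective _ hsurj
      exact ha (IsUnit.of_map (Ideal.Quotient.mk I) a hu)
    · exact ⟨_, List.mem_map.2 ⟨y, hy, rfl⟩, Function.surjInv_eq hsurj y⟩

lemma ndim_quotient_span_lt [IsDomain A] {q : A} (hq : q ≠ 0) (hqm : q ∈ maximalIdeal A) :
    ndim (A ⧸ Ideal.span {q}) < ndim A := by
  have h := ndim_quotient_lt (⊥ : Ideal A) (by rwa [Ideal.mem_bot]) hqm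
  rwa [bot_sup_eq, ndim_congr (RingEquiv.quotientBot A)] at h

/-- A quotient of dimension at least `d` has a prime quotient of dimension at least `d`. -/
lemma exists_prime_of_le_ndim (I : Ideal A) (hI : I ≠ ⊤) {d : ℕ} (h : d ≤ ndim (A ⧸ I)) :
    ∃ P : Ideal A, P.IsPrime ∧ I ≤ P ∧ d ≤ ndim (A ⧸ P) := by
  have : Nontrivial (A ⧸ I) := Ideal.Quotient.nontrivial_iff.2 hI
  have : IsLocalRing (A ⧸ I) := .of_surjective' _ Ideal.Quotient.mk_surjective
  have h1 : (d : WithBot ℕ∞) ≤ ringKrullDim (A ⧸ I) := by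
    rw [ringKrullDim_eq_coe_ndim]; exact_mod_cast h
  rw [ringKrullDim_quotient, Order.le_krullDim_iff] at h1
  obtain ⟨l, rfl⟩ := h1
  set P := l.head.1.asIdeal with hP
  have hIP : I ≤ P := (PrimeSpectrum.mem_zeroLocus _ _).1 l.head.2
  have : Nontrivial (A ⧸ P) := Ideal.Quotient.nontrivial_iff.2 l.head.1.isPrime.ne_top
  have : IsLocalRing (A ⧸ P) := .of_surjective' _ Ideal.Quotient.mk_surjective
  refine ⟨P, l.head.1.isPrime, hIP, ?_⟩
  have h2 : (l.length : WithBot ℕ∞) ≤ ringKrullDim (A ⧸ P) := by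
    rw [ringKrullDim_quotient, Order.le_krullDim_iff]
    exact ⟨⟨l.length, fun j => ⟨(l j).1, (PrimeSpectrum.mem_zeroLocus _ _).2
      (l.monotone (Fin.zero_le j))⟩, fun j => l.step j⟩, rfl⟩
  rw [ringKrullDim_eq_coe_ndim] at h2
  exact_mod_cast h2

end Dim

/-- A nonzero element of the image of a finite extension satisfies a relation with nonzero constant
term and nonvanishing derivative. -/
lemma exists_minimal_relation {C R : Type u} [CommRing C] [CommRing R] [IsDomain R] [CharZero R]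
    (f : C →+* R) (hf : ∀ r : R, ∃ g : Polynomial C, g.map f ≠ 0 ∧ g.eval₂ f r = 0) {r : R}
    (hr : r ≠ 0) :
    ∃ g : Polynomial C, g.eval₂ f r = 0 ∧ f (g.coeff 0) ≠ 0 ∧
      g.derivative.eval₂ f r ≠ 0 := by
  classical
  have hex : ∃ n, ∃ g : Polynomial C, g.map f ≠ 0 ∧ g.eval₂ f r = 0 ∧ (g.map f).natDegree = n :=
    (hf r).elim fun g hg => ⟨_, g, hg.1, hg.2, rfl⟩
  obtain ⟨g, hg0, hg, hn⟩ := Nat.find_spec hex
  have hmin : ∀ g' : Polynomial C, g'.map f ≠ 0 → g'.eval₂ f r = 0 →
      (g.map f).natDegree ≤ (g'.map f).natDegree := fun g' h h' => by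
    rw [hn]; exact Nat.find_min' hex ⟨g', h, h', rfl⟩
  have hpos : (g.map f).natDegree ≠ 0 := by
    intro h0
    obtain ⟨a, ha⟩ := Polynomial.natDegree_eq_zero.1 h0
    rw [Polynomial.eval₂_eq_eval_map, ← ha, Polynomial.eval_C] at hg
    exact hg0 (by rw [← ha, hg, map_zero])
  refine ⟨g, hg, fun hc => ?_, fun hd => ?_⟩
  · have e : g.map f = g.divX.map f * Polynomial.X := by
      conv_lhs => rw [← Polynomial.divX_mul_X_add g]
      rw [Polynomial.map_add, Polynomial.map_mul, Polynomial.map_X, Polynomial.map_C, hc, map_zero,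
        add_zero]
    have h0 : g.divX.map f ≠ 0 := fun h => hg0 (by rw [e, h, zero_mul])
    have h1 : g.divX.eval₂ f r = 0 := by
      have := hg
      rw [Polynomial.eval₂_eq_eval_map, e, Polynomial.eval_mul, Polynomial.eval_X,
        mul_eq_zero] at this
      rw [Polynomial.eval₂_eq_eval_map]
      exact this.resolve_right hr
    have := hmin _ h0 h1
    rw [e, Polynomial.natDegree_mul_X h0] at this
    omega
  · have h0 : g.derivative.map f ≠ 0 := by
      rw [← Polynomial.derivative_map]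
      exact fun h => hpos (Polynomial.natDegree_eq_zero_of_derivative_eq_zero h)
    have := hmin _ h0 hd
    rw [← Polynomial.derivative_map] at this
    exact absurd this (not_le.2 (Polynomial.natDegree_derivative_lt hpos))

lemma mem_span_C_sup_span_X {L : Type u} [CommRing L] {n : ℕ} (a : L)
    (q : MvPowerSeries (Fin n) L) (hq : a ∣ constantCoeff q) :
    q ∈ Ideal.span {C a} ⊔ Ideal.span (Set.range (X : Fin n → MvPowerSeries (Fin n) L)) := by
  obtain ⟨b, hb⟩ := hq
  have h : q - C (constantCoeff q) ∈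
      Ideal.span (Set.range (X : Fin n → MvPowerSeries (Fin n) L)) ^ 1 := by
    rw [mem_span_X_pow_iff]
    intro e he
    have : e = 0 := by
      rw [Nat.lt_one_iff, Finsupp.degree_eq_zero_iff] at he
      exact he
    subst this
    rw [map_sub, coeff_zero_eq_constantCoeff_apply, coeff_zero_eq_constantCoeff_apply,
      constantCoeff_C, sub_self]
  rw [pow_one] at h
  have e : q = C a * C b + (q - C (constantCoeff q)) := by
    rw [← map_mul, ← hb]; ring
  rw [e]
  exact add_mem (Ideal.mem_sup_left (Ideal.mul_mem_right _ _ (Ideal.mem_span_singleton_self _)))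
    (Ideal.mem_sup_right h)

section Series

variable {L : Type u} [CommRing L] [IsLocalRing L] {n : ℕ}

lemma C_mem_maximal {a : L} (ha : a ∈ maximalIdeal L) :
    (C a : MvPowerSeries (Fin n) L) ∈ maximalIdeal (MvPowerSeries (Fin n) L) := fun hu => by
  rw [MvPowerSeries.isUnit_iff_constantCoeff, constantCoeff_C] at hu
  exact ha hu

lemma X_mem_maximal (j : Fin n) :
    (X j : MvPowerSeries (Fin n) L) ∈ maximalIdeal (MvPowerSeries (Fin n) L) := fun hu => by
  rw [MvPowerSeries.isUnit_iff_constantCoeff, constantCoeff_X] at hu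
  exact not_isUnit_zero hu

lemma maximalIdeal_series_le {a : L} (ha : maximalIdeal L = Ideal.span {a}) :
    maximalIdeal (MvPowerSeries (Fin n) L) ≤
      Ideal.span {C a} ⊔ Ideal.span (Set.range X) := fun q hq => by
  refine mem_span_C_sup_span_X _ q (Ideal.mem_span_singleton.1 ?_)
  rw [← ha]
  exact fun hu => hq (MvPowerSeries.isUnit_iff_constantCoeff.2 hu)

lemma ndim_series_le [IsNoetherianRing L] {a : L} (ha : maximalIdeal L = Ideal.span {a}) :
    ndim (MvPowerSeries (Fin n) L) ≤ n + 1 := by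
  classical
  rw [← ndim_congr (RingEquiv.quotientBot _)]
  refine (ndim_quotient_le_card ⊥ bot_ne_top (insert (C a) (Finset.univ.image X)) ?_ 1 ?_).trans
    ((Finset.card_insert_le _ _).trans ?_)
  · intro b hb
    rcases Finset.mem_insert.1 hb with rfl | hb
    · exact C_mem_maximal (ha ▸ Ideal.mem_span_singleton_self a)
    · obtain ⟨j, -, rfl⟩ := Finset.mem_image.1 hb
      exact X_mem_maximal j
  · rw [pow_one, bot_sup_eq, Finset.coe_insert, Ideal.span_insert, Finset.coe_image,
      Finset.coe_univ, Set.image_univ]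
    exact maximalIdeal_series_le ha
  · have h2 := Finset.card_image_le (s := Finset.univ)
      (f := (X : Fin n → MvPowerSeries (Fin n) L))
    rw [Finset.card_univ, Fintype.card_fin] at h2
    omega

lemma map_mem_maximal {a : L} (ha : maximalIdeal L = Ideal.span {a}) {S : Type u} [CommRing S]
    [IsLocalRing S] (F : MvPowerSeries (Fin n) L →+* S) (hFa : F (C a) ∈ maximalIdeal S)
    (hFX : ∀ j, F (X j) ∈ maximalIdeal S) {b : MvPowerSeries (Fin n) L}
    (hb : b ∈ maximalIdeal (MvPowerSeries (Fin n) L)) : F b ∈ maximalIdeal S := by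
  have h := Ideal.mem_map_of_mem F (maximalIdeal_series_le ha hb)
  refine Ideal.map_le_iff_le_comap.2 (sup_le ?_ ?_) h
  · exact (Ideal.span_singleton_le_iff_mem _).2 hFa
  · exact Ideal.span_le.2 (Set.range_subset_iff.2 hFX)

lemma pow_le_sup_span {A S : Type u} [CommRing A] [CommRing S] [DecidableEq S] [DecidableEq A]
    (F : A →+* S) {M : Ideal S} {N : Ideal A} {c E : ℕ} (hmap : M ^ c ≤ N.map F) {q : A}
    {zs : List A} (hzE : N ^ E ≤ Ideal.span {q} ⊔ Ideal.span {a | a ∈ zs}) (P : Ideal S)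
    (hqP : F q ∈ P) : M ^ (c * E) ≤ P ⊔ Ideal.span ((zs.toFinset.image F : Finset S) : Set S) := by
  rw [pow_mul]
  refine (Ideal.pow_right_mono hmap E).trans ?_
  rw [← Ideal.map_pow]
  refine (Ideal.map_mono hzE).trans ?_
  rw [Ideal.map_sup, Ideal.map_span, Ideal.map_span, Set.image_singleton, Finset.coe_image]
  exact sup_le_sup ((Ideal.span_singleton_le_iff_mem _).2 hqP)
    (le_of_eq (by congr 2; ext; simp))

/-- A prime of big coheight contains no nonzero element of a small power series ring. -/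
lemma notMem_of_ndim_le [IsDomain (MvPowerSeries (Fin n) L)] [IsNoetherianRing L] {a : L}
    (ha : maximalIdeal L = Ideal.span {a}) {S : Type u} [CommRing S] [IsLocalRing S]
    [IsNoetherianRing S] (F : MvPowerSeries (Fin n) L →+* S)
    (hFa : F (C a) ∈ maximalIdeal S) (hFX : ∀ j, F (X j) ∈ maximalIdeal S) {c : ℕ}
    (hc : maximalIdeal S ^ c ≤ Ideal.span {F (C a)} ⊔ Ideal.span (Set.range fun j => F (X j)))
    (P : Ideal S) [P.IsPrime] (hP : n + 1 ≤ ndim (S ⧸ P)) {q : MvPowerSeries (Fin n) L}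
    (hq : q ≠ 0) : F q ∉ P := by
  classical
  intro hqP
  have hFm := fun b hb => map_mem_maximal ha F hFa hFX (b := b) hb
  have hqm : q ∈ maximalIdeal (MvPowerSeries (Fin n) L) := fun hu =>
    Ideal.IsPrime.ne_top ‹_› (Ideal.eq_top_of_isUnit_mem _ hqP (hu.map F))
  have h1 := ndim_quotient_span_lt hq hqm
  obtain ⟨zs, E, hzl, hzm, hzE⟩ := exists_lift_parameters (Ideal.span {q})
    (ne_top_of_le_ne_top (maximalIdeal.isMaximal _).ne_top
      ((Ideal.span_singleton_le_iff_mem _).2 hqm))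
  have hmap : maximalIdeal S ^ c ≤ (maximalIdeal (MvPowerSeries (Fin n) L)).map F := by
    refine hc.trans (sup_le ((Ideal.span_singleton_le_iff_mem _).2
      (Ideal.mem_map_of_mem F (C_mem_maximal (ha ▸ Ideal.mem_span_singleton_self a)))) ?_)
    exact Ideal.span_le.2 (Set.range_subset_iff.2 fun j =>
      Ideal.mem_map_of_mem F (X_mem_maximal j))
  have hzS := pow_le_sup_span F hmap hzE P hqP
  have h5 := ndim_quotient_le_card P (Ideal.IsPrime.ne_top ‹_›) _ (fun b hb => by
    obtain ⟨z, hz, rfl⟩ := Finset.mem_image.1 hb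
    exact hFm z (hzm z (List.mem_toFinset.1 hz))) (c * E) hzS
  have h6 := (Finset.card_image_le (s := zs.toFinset) (f := F)).trans (List.toFinset_card_le zs)
  have h7 := ndim_series_le (n := n) ha
  omega

end Series

/-- In a ring of dimension `d`, the intersection of the primes of coheight `d` differs from zero by
a lower dimensional piece, when each of them is killed from outside. -/
theorem exists_reduced_part {S : Type u} [CommRing S] [IsLocalRing S] [IsNoetherianRing S]
    {d : ℕ} (hS : ndim S = d) (q : S)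
    (hq : ∀ P : Ideal S, P.IsPrime → d ≤ ndim (S ⧸ P) → q ∉ P)
    (hann : ∀ P : Ideal S, P.IsPrime → d ≤ ndim (S ⧸ P) →
      (∀ P' : Ideal S, P'.IsPrime → P' ≤ P → P' = P) → ∀ z ∈ P, ∃ s ∉ P, s * z = 0) :
    ∃ J : Ideal S, J ≤ maximalIdeal S ∧ IsReduced (S ⧸ J) ∧
      (∀ P ∈ minimalPrimes (S ⧸ J), Ideal.Quotient.mk J q ∉ P ∧ ndim ((S ⧸ J) ⧸ P) = d) ∧
      ndim (S ⧸ J) = d ∧
      ∃ C : ℕ, ∀ T : ℕ, Module.length S (S ⧸ maximalIdeal S ^ T) ≤
        Module.length S (S ⧸ (J ⊔ maximalIdeal S ^ T)) + (C * T ^ (d - 1) : ℕ) := by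
  classical
  -- top primes
  let top : Set (Ideal S) := {P | P.IsPrime ∧ d ≤ ndim (S ⧸ P)}
  have htop : ∀ P ∈ top, ndim (S ⧸ P) = d := fun P hP =>
    le_antisymm ((ndim_quotient_le P hP.1.ne_top).trans hS.le) hP.2
  have hmin : ∀ P ∈ top, ∀ P' : Ideal S, P'.IsPrime → P' ≤ P → P' = P := by
    intro P hP P' hP' hle
    by_contra hne
    obtain ⟨z, hz, hz'⟩ := SetLike.exists_of_lt (lt_of_le_of_ne hle hne)
    have hzm : z ∈ maximalIdeal S := le_maximalIdeal hP.1.ne_top hz
    have h1 := ndim_quotient_lt P' hz' hzm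
    have hle' : P' ⊔ Ideal.span {z} ≤ P := sup_le hle ((Ideal.span_singleton_le_iff_mem _).2 hz)
    have : Nontrivial (S ⧸ (P' ⊔ Ideal.span {z})) :=
      Ideal.Quotient.nontrivial_iff.2 (ne_top_of_le_ne_top hP.1.ne_top hle')
    have : IsLocalRing (S ⧸ (P' ⊔ Ideal.span {z})) :=
      .of_surjective' _ Ideal.Quotient.mk_surjective
    have : Nontrivial (S ⧸ P) := Ideal.Quotient.nontrivial_iff.2 hP.1.ne_top
    have : IsLocalRing (S ⧸ P) := .of_surjective' _ Ideal.Quotient.mk_surjective
    have h2 : (ndim (S ⧸ P) : WithBot ℕ∞) ≤ ndim (S ⧸ (P' ⊔ Ideal.span {z})) := by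
      rw [← ringKrullDim_eq_coe_ndim, ← ringKrullDim_eq_coe_ndim]
      exact ringKrullDim_le_of_surjective _ (Ideal.Quotient.factor_surjective hle')
    have h3 := (ndim_quotient_le P' hP'.ne_top).trans hS.le
    have h4 : ndim (S ⧸ P) ≤ ndim (S ⧸ (P' ⊔ Ideal.span {z})) := by exact_mod_cast h2
    have := hP.2
    omega
  -- the ideal
  obtain ⟨P₀, hP₀, -, hP₀d⟩ := exists_prime_of_le_ndim (⊥ : Ideal S) bot_ne_top
    (d := d) (by rw [ndim_congr (RingEquiv.quotientBot S)]; exact hS.ge)
  have hP₀t : P₀ ∈ top := ⟨hP₀, hP₀d⟩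
  have hfin : top.Finite := (minimalPrimes.finite_of_isNoetherianRing S).subset fun P hP => by
    refine ⟨⟨hP.1, bot_le⟩, fun Q hQ hle => ?_⟩
    rw [hmin P hP Q hQ.1 hle]
  let J : Ideal S := hfin.toFinset.inf id
  have hJle : ∀ P ∈ top, J ≤ P := fun P hP => Finset.inf_le (hfin.mem_toFinset.2 hP)
  have hJ : J ≠ ⊤ := ne_top_of_le_ne_top hP₀.ne_top (hJle P₀ hP₀t)
  have hJrad : J.IsRadical := by
    intro z hz
    rw [show J = hfin.toFinset.inf id from rfl, Submodule.mem_finsetInf]
    intro P hP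
    obtain ⟨n, hn⟩ := hz
    exact (hfin.mem_toFinset.1 hP).1.mem_of_pow_mem n
      (Finset.inf_le (f := id) hP hn)
  have hover : ∀ Q : Ideal S, Q.IsPrime → J ≤ Q → ∃ P ∈ top, P ≤ Q := fun Q hQ hle => by
    obtain ⟨P, hP, hPQ⟩ := (Ideal.IsPrime.inf_le' hQ).1 hle
    exact ⟨P, hfin.mem_toFinset.1 hP, hPQ⟩
  have : Nontrivial (S ⧸ J) := Ideal.Quotient.nontrivial_iff.2 hJ
  have : IsLocalRing (S ⧸ J) := .of_surjective' _ Ideal.Quotient.mk_surjective
  refine ⟨J, le_maximalIdeal hJ, (Ideal.isRadical_iff_quotient_reduced J).1 hJrad, ?_, ?_, ?_⟩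
  · intro P hP
    have hPp : P.IsPrime := hP.1.1
    obtain ⟨Q, hQt, hQP⟩ := hover (P.comap (Ideal.Quotient.mk J)) inferInstance
      (by rw [← Ideal.map_le_iff_le_comap, Ideal.map_quotient_self]; exact bot_le)
    have hsup : Q ⊔ J = Q := sup_eq_left.2 (hJle Q hQt)
    have hmapQ : (Q.map (Ideal.Quotient.mk J)).IsPrime := by
      have := hQt.1
      exact Ideal.map_isPrime_of_surjective Ideal.Quotient.mk_surjective
        (by rw [Ideal.mk_ker]; exact hJle Q hQt)
    have hle : Q.map (Ideal.Quotient.mk J) ≤ P := Ideal.map_le_iff_le_comap.2 hQP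
    have heq : P = Q.map (Ideal.Quotient.mk J) := le_antisymm (hP.2 ⟨hmapQ, bot_le⟩ hle) hle
    constructor
    · intro h
      rw [heq, ← Ideal.mem_comap,
        Ideal.comap_map_of_surjective _ Ideal.Quotient.mk_surjective, ← RingHom.ker_eq_comap_bot,
        Ideal.mk_ker, hsup] at h
      exact hq Q hQt.1 hQt.2 h
    · rw [heq, ndim_congr ((DoubleQuot.quotQuotEquivQuotSup J Q).trans
        (Ideal.quotEquivOfEq (show J ⊔ Q = Q by rw [sup_comm]; exact hsup)))]
      exact htop Q hQt
  · refine le_antisymm ((ndim_quotient_le J hJ).trans hS.le) ?_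
    have hle := hJle P₀ hP₀t
    have : Nontrivial (S ⧸ P₀) := Ideal.Quotient.nontrivial_iff.2 hP₀.ne_top
    have : IsLocalRing (S ⧸ P₀) := .of_surjective' _ Ideal.Quotient.mk_surjective
    have h2 : (ndim (S ⧸ P₀) : WithBot ℕ∞) ≤ ndim (S ⧸ J) := by
      rw [← ringKrullDim_eq_coe_ndim, ← ringKrullDim_eq_coe_ndim]
      exact ringKrullDim_le_of_surjective _ (Ideal.Quotient.factor_surjective hle)
    exact hP₀d.trans (by exact_mod_cast h2)
  · obtain ⟨gens, hgens⟩ := (IsNoetherian.noetherian J : J.FG)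
    have hs : ∀ P ∈ top, ¬ Submodule.annihilator J ≤ P := by
      intro P hP hle
      choose s hsP hs0 using hann P hP.1 hP.2 (hmin P hP)
      have hg : ∀ a ∈ gens, a ∈ P := fun a ha =>
        hJle P hP (hgens ▸ Submodule.subset_span ha)
      refine (hP.1.prod_mem_iff.not.2 ?_ : (∏ a ∈ gens.attach, s a.1 (hg a.1 a.2)) ∉ P) (hle ?_)
      · exact fun ⟨a, _, ha⟩ => hsP a.1 (hg a.1 a.2) ha
      · rw [← hgens, Submodule.mem_annihilator_span]
        intro a
        rw [smul_eq_mul]
        rw [← Finset.prod_erase_mul _ _ (Finset.mem_attach gens ⟨a.1, a.2⟩), mul_assoc, hs0, mul_zero]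
    obtain ⟨z, hzJ, hz⟩ : ∃ z ∈ Submodule.annihilator J, ∀ P ∈ top, z ∉ P := by
      by_contra h
      push Not at h
      obtain ⟨P, hP, hle⟩ := (Ideal.subset_union_prime (s := hfin.toFinset) (f := id) P₀ P₀
        (fun P hP _ _ => (hfin.mem_toFinset.1 hP).1)).1 fun w hw => by
          obtain ⟨P, hP, hwP⟩ := h w hw
          exact Set.mem_biUnion (Finset.mem_coe.2 (hfin.mem_toFinset.2 hP)) hwP
      exact hs P (hfin.mem_toFinset.1 hP) hle
    have hdim : ringKrullDim (S ⧸ Ideal.span {z}) < ringKrullDim S := by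
      rcases subsingleton_or_nontrivial (S ⧸ Ideal.span {z}) with h | h
      · rw [ringKrullDim_eq_bot_of_subsingleton, ringKrullDim_eq_coe_ndim]
        exact WithBot.bot_lt_coe _
      have : IsLocalRing (S ⧸ Ideal.span {z}) := .of_surjective' _ Ideal.Quotient.mk_surjective
      rw [ringKrullDim_eq_coe_ndim, ringKrullDim_eq_coe_ndim, hS]
      suffices ndim (S ⧸ Ideal.span {z}) < d by exact_mod_cast this
      by_contra hle
      push Not at hle
      obtain ⟨P, hP, hIP, hPd⟩ := exists_prime_of_le_ndim (Ideal.span {z})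
        (Ideal.Quotient.nontrivial_iff.1 h) hle
      exact hz P ⟨hP, hPd⟩ (hIP (Ideal.mem_span_singleton_self z))
    obtain ⟨C, hC⟩ := exists_length_quot_pow_le_of_killed (A := S) ↥J z
      (fun w => Subtype.ext (Submodule.mem_annihilator.1 hzJ w.1 w.2)) hdim
    refine ⟨C * 2 ^ (d - 1), fun T => ?_⟩
    rcases Nat.eq_zero_or_pos T with rfl | hT
    · rw [pow_zero, Ideal.one_eq_top]
      simp [Module.length_eq_zero_iff, Submodule.Quotient.subsingleton_iff]
    rw [length_quot_eq_sq, length_quot_eq_sq (J ⊔ maximalIdeal S ^ T),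
      sq_add (M := J ⊔ maximalIdeal S ^ T) le_sup_right le_top, sq_sup_left]
    refine add_le_add le_rfl ?_
    refine le_trans (le_trans (sq_mono_right (L' := maximalIdeal S ^ T • J)
      (by rw [smul_eq_mul]; exact Ideal.mul_le_left)) ?_) (Nat.cast_le.2 (?_ : C * (T + 1) ^ (ndim S - 1) ≤ _))
    · refine le_of_eq_of_le ?_ (hC T)
      refine (Submodule.quotEquivOfEq _ _ ?_).length_eq
      refine Submodule.map_injective_of_injective J.injective_subtype ?_
      rw [Submodule.map_smul'', Submodule.map_subtype_top, Submodule.map_comap_subtype,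
        inf_eq_right]
      exact Submodule.smul_le_right
    · rw [hS, mul_assoc, ← mul_pow]
      exact Nat.mul_le_mul_left C (Nat.pow_le_pow_left (by omega) _)


/-- Transport of separability relations to the completed extension. -/
lemma annihilator_of_series {Λ' W' R' S' : Type u} [CommRing Λ'] [CommRing W'] [CommRing R']
    [IsDomain R'] [CharZero R'] [CommRing S'] {n : ℕ} [IsDomain (MvPowerSeries (Fin n) W')]
    {j : Λ' →+* W'} (φ : R' →+* S') (f : MvPowerSeries (Fin n) Λ' →+* R')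
    (F : MvPowerSeries (Fin n) W' →+* S') (hfF : F.comp (MvPowerSeries.map j) = φ.comp f)
    (s : Finset S') (hs : (s : Set S') ⊆ φ.range)
    (hspan : ∀ t, t ∈ Submodule.span F.range (s : Set S')) (P : Ideal S') [P.IsPrime]
    (hmin : ∀ P' : Ideal S', P'.IsPrime → P' ≤ P → P' = P) (hC : ∀ q, q ≠ 0 → F q ∉ P)
    (hint : ∀ r : R', ∃ g : Polynomial (MvPowerSeries (Fin n) Λ'), g.map f ≠ 0 ∧ g.eval₂ f r = 0)
    (hnot : ∀ r : R', r ≠ 0 → φ r ∉ P) : ∀ z ∈ P, ∃ u ∉ P, u * z = 0 := by
  let _ : Algebra (MvPowerSeries (Fin n) W') S' := F.toAlgebra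
  have hsp : Submodule.span (MvPowerSeries (Fin n) W') (s : Set S') = ⊤ := by
    refine eq_top_iff.2 fun t ht0 => ?_
    clear ht0
    have ht := hspan t
    induction ht using Submodule.span_induction with
    | mem y hy => exact Submodule.subset_span hy
    | zero => exact zero_mem _
    | add y z _ _ hy hz => exact add_mem hy hz
    | smul a y _ hy =>
      obtain ⟨_, q, rfl⟩ := a
      exact Submodule.smul_mem _ q hy
  have : Module.Finite (MvPowerSeries (Fin n) W') S' := ⟨⟨s, hsp⟩⟩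
  refine exists_annihilator P hmin hC (s : Set S') hsp fun y hy => ?_
  obtain ⟨r, rfl⟩ := hs hy
  rcases eq_or_ne r 0 with rfl | hr
  · exact Or.inl (map_zero φ)
  refine Or.inr ?_
  obtain ⟨g, hg, -, hg'⟩ := exists_minimal_relation f hint hr
  have key : ∀ q : Polynomial (MvPowerSeries (Fin n) Λ'),
      (q.map (MvPowerSeries.map j)).eval₂ (algebraMap (MvPowerSeries (Fin n) W') S') (φ r) =
        φ (q.eval₂ f r) := fun q => by
    rw [RingHom.algebraMap_toAlgebra, Polynomial.eval₂_map, hfF, Polynomial.hom_eval₂]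
  refine ⟨g.map (MvPowerSeries.map j), by rw [key, hg, map_zero], ?_⟩
  rw [Polynomial.derivative_map, key]
  exact hnot _ hg'

variable {p : ℕ} [Fact p.Prime] {R : Type u} [CommRing R] [IsLocalRing R] [IsNoetherianRing R]
  [IsAdicComplete (maximalIdeal R) R] [IsDomain R] [CharZero R] [CharP (ResidueField R) p]
  {k : Type u} [Field k] [CharP k p] [PerfectRing k p]
  {S : Type u} [CommRing S] [IsLocalRing S] [IsNoetherianRing S]
  [IsAdicComplete (maximalIdeal S) S]

omit [IsAdicComplete (maximalIdeal R) R] [IsAdicComplete (maximalIdeal S) S] [CharZero R] in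
lemma le_ndim_of_length_eq {d : ℕ} (hR : ndim R = d)
    (hlen : ∀ T, Module.length S (S ⧸ maximalIdeal S ^ T) =
      Module.length R (R ⧸ maximalIdeal R ^ T)) : d ≤ ndim S := by
  obtain ⟨e, he, hlim⟩ := goalMultExists goalKoszulMult R
  rw [HasMult, hR] at hlim
  by_contra hlt
  push Not at hlt
  obtain ⟨C, hC⟩ := exists_length_quot_pow_le (A := S)
  have h0 : Filter.Tendsto (fun n : ℕ => (d.factorial : ℝ) *
      ((Module.length R (R ⧸ maximalIdeal R ^ n)).toNat : ℝ) / (n : ℝ) ^ d) Filter.atTop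
      (nhds 0) := by
    refine tendsto_of_tendsto_of_tendsto_of_le_of_le' tendsto_const_nhds
      (tendsto_const_div_atTop_nhds_zero_nat ((d.factorial : ℝ) * C * 2 ^ (d - 1)))
      (Filter.Eventually.of_forall fun n => by positivity) ?_
    filter_upwards [Filter.eventually_gt_atTop 0] with n hn
    have h1 : (Module.length R (R ⧸ maximalIdeal R ^ n)).toNat ≤ C * (n + 1) ^ (d - 1) := by
      rw [← hlen]
      exact ENat.toNat_le_of_le_natCast ((hC n).trans (Nat.cast_le.2
        (Nat.mul_le_mul_left C (Nat.pow_le_pow_right n.succ_pos (by omega)))))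
    have h2 : (n + 1) ^ (d - 1) ≤ 2 ^ (d - 1) * n ^ (d - 1) := by
      rw [← mul_pow]; exact Nat.pow_le_pow_left (by omega) _
    have h3 : ((Module.length R (R ⧸ maximalIdeal R ^ n)).toNat : ℝ) ≤
        (C : ℝ) * 2 ^ (d - 1) * (n : ℝ) ^ (d - 1) := by
      have : (Module.length R (R ⧸ maximalIdeal R ^ n)).toNat ≤ C * 2 ^ (d - 1) * n ^ (d - 1) := by
        rw [mul_assoc]; exact h1.trans (Nat.mul_le_mul_left C h2)
      exact_mod_cast this
    have hn' : (0 : ℝ) < n := by exact_mod_cast hn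
    have h4 : (n : ℝ) ^ d = (n : ℝ) ^ (d - 1) * n := by
      rw [← pow_succ, Nat.sub_add_cancel (by omega)]
    rw [h4, div_le_div_iff₀ (by positivity) hn']
    calc (d.factorial : ℝ) * _ * n ≤
        (d.factorial : ℝ) * ((C : ℝ) * 2 ^ (d - 1) * (n : ℝ) ^ (d - 1)) * n := by gcongr
      _ = _ := by ring
  exact he.ne' (tendsto_nhds_unique hlim h0)

/-- The top dimensional part of a completed root extension. -/
theorem exists_reduced_top {d : ℕ} (hd : 0 < d) (hR : ndim R = d) (φ : R →+* S)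
    (hmax : (maximalIdeal R).map φ = maximalIdeal S)
    (hcontr : ∀ T, (maximalIdeal S ^ T).comap φ = maximalIdeal R ^ T)
    (hlen : ∀ T, Module.length S (S ⧸ maximalIdeal S ^ T) =
      Module.length R (R ⧸ maximalIdeal R ^ T))
    (θ : WittVector p k →+* S) (hθ : ∀ t, ∃ w, t - θ w ∈ maximalIdeal S)
    (Λ : Subring (WittVector p k)) [IsPrecomplete (Ideal.span {(p : Λ)}) Λ]
    (hΛφ : ∀ w ∈ Λ, θ w ∈ φ.range) (hΛres : ∀ r, ∃ w ∈ Λ, φ r - θ w ∈ maximalIdeal S) :
    ∃ J : Ideal S, J ≤ maximalIdeal S ∧ IsReduced (S ⧸ J) ∧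
      (∀ P ∈ minimalPrimes (S ⧸ J), (p : S ⧸ J) ∉ P ∧ ndim ((S ⧸ J) ⧸ P) = d) ∧
      ndim (S ⧸ J) = d ∧
      ∃ C : ℕ, ∀ T : ℕ, Module.length R (R ⧸ maximalIdeal R ^ T) ≤
        Module.length S (S ⧸ (J ⊔ maximalIdeal S ^ T)) + (C * T ^ (d - 1) : ℕ) := by
  classical
  have hinj : Function.Injective φ := by
    refine (injective_iff_map_eq_zero φ).2 fun r hr => IsHausdorff.haus (I := maximalIdeal R)
      inferInstance r fun n => ?_
    rw [SModEq.sub_mem, sub_zero, smul_eq_mul, Ideal.mul_top, ← hcontr, Ideal.mem_comap, hr]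
    exact zero_mem _
  have hpR : (p : R) ∈ maximalIdeal R := by
    rw [← residue_eq_zero_iff, map_natCast, CharP.cast_eq_zero]
  have hpR0 : (p : R) ∉ (⊥ : Ideal R) := by
    rw [Ideal.mem_bot]; exact Nat.cast_ne_zero.2 (Fact.out : p.Prime).ne_zero
  have hφm : ∀ a ∈ maximalIdeal R, φ a ∈ maximalIdeal S := fun a ha =>
    hmax ▸ Ideal.mem_map_of_mem φ ha
  -- parameters of `R / (p)`
  have hd1 : ndim (R ⧸ Ideal.span {(p : R)}) ≤ d - 1 := by
    have := ndim_quotient_lt (⊥ : Ideal R) hpR0 hpR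
    rw [bot_sup_eq, ndim_congr (RingEquiv.quotientBot R), hR] at this
    omega
  obtain ⟨ys, c, hlys, hys, hc⟩ := exists_lift_parameters (Ideal.span {(p : R)})
    (ne_top_of_le_ne_top (maximalIdeal.isMaximal R).ne_top
      ((Ideal.span_singleton_le_iff_mem _).2 hpR))
  let x : Fin (d - 1) → R := fun j => ys.getD j 0
  have hx : ∀ j, x j ∈ maximalIdeal R := fun j => by
    show ys.getD j 0 ∈ _
    rcases lt_or_ge (j : ℕ) ys.length with h | h
    · rw [List.getD_eq_getElem _ _ h]; exact hys _ (List.getElem_mem h)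
    · rw [List.getD_eq_default _ _ h]; exact zero_mem _
  have hys' : ∀ a ∈ ys, a ∈ Set.range x := by
    intro a ha
    obtain ⟨i, hi, rfl⟩ := List.mem_iff_getElem.1 ha
    exact ⟨⟨i, by omega⟩, List.getD_eq_getElem _ _ hi⟩
  have hc' : maximalIdeal R ^ c ≤ Ideal.span {(p : R)} ⊔ Ideal.span (Set.range x) :=
    hc.trans (sup_le_sup_left (Ideal.span_mono hys') _)
  -- evaluation maps
  let e : R ≃+* φ.range := RingEquiv.ofBijective φ.rangeRestrict
    ⟨fun a b h => hinj (congrArg Subtype.val h), φ.rangeRestrict_surjective⟩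
  let σR : Λ →+* R := e.symm.toRingHom.comp
    ((θ.comp Λ.subtype).codRestrict φ.range fun w => hΛφ w w.2)
  have hσ : ∀ w : Λ, φ (σR w) = θ w := fun w => congrArg Subtype.val (e.apply_symm_apply
    ((θ.comp Λ.subtype).codRestrict φ.range (fun w => hΛφ w w.2) w))
  obtain ⟨f, hfC, hfX⟩ := exists_series σR x hx
  obtain ⟨F, hFC, hFX⟩ := exists_series θ (fun j => φ (x j)) fun j => hφm _ (hx j)
  have hfF : F.comp (MvPowerSeries.map Λ.subtype) = φ.comp f := by
    refine series_hom_ext (fun a => ?_) (fun j => ?_) fun j => ?_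
    · rw [RingHom.comp_apply, RingHom.comp_apply, MvPowerSeries.map_C, hFC, hfC, hσ]; rfl
    · rw [RingHom.comp_apply, RingHom.comp_apply, MvPowerSeries.map_X, hFX, hfX]
    · rw [RingHom.comp_apply, MvPowerSeries.map_X, hFX]; exact hφm _ (hx j)
  have hfFx : ∀ q, F (MvPowerSeries.map Λ.subtype q) = φ (f q) := RingHom.congr_fun hfF
  have hσres : ∀ r : R, ∃ w : Λ, r - σR w ∈ maximalIdeal R := fun r => by
    obtain ⟨w, hw, h⟩ := hΛres r
    refine ⟨⟨w, hw⟩, ?_⟩
    rw [← pow_one (maximalIdeal R), ← hcontr, Ideal.mem_comap, pow_one, map_sub, hσ]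
    exact h
  -- finiteness
  obtain ⟨G, hG⟩ := (maximalIdeal R).fg_of_isNoetherianRing
  have hpmap : ∀ {L A : Type u} [CommRing L] [CommRing A] (σ : L →+* A),
      (Ideal.span {(p : L)}).map σ = Ideal.span {(p : A)} := fun σ => by
    rw [Ideal.map_span, Set.image_singleton, map_natCast]
  obtain ⟨sR, -, hsR⟩ := finite_series (Ideal.span {(p : Λ)}) σR
    (by rw [hpmap]; exact (Ideal.span_singleton_le_iff_mem _).2 hpR) hσres f hfC
    (fun j => (hfX j).symm ▸ hx j) ⊤ G (fun _ _ => trivial) hG (c := c) (by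
      rw [hpmap]; simpa only [hfX] using hc')
  have hcS : maximalIdeal S ^ c ≤
      Ideal.span {(p : S)} ⊔ Ideal.span (Set.range fun j => F (X j)) := by
    have := Ideal.map_mono (f := φ) hc'
    rw [Ideal.map_pow, hmax, Ideal.map_sup, hpmap, Ideal.map_span, ← Set.range_comp] at this
    simpa only [hFX, Function.comp_def] using this
  obtain ⟨sS, hsSφ, hsS⟩ := finite_series (Ideal.span {(p : WittVector p k)}) θ
    (by rw [hpmap]; exact (Ideal.span_singleton_le_iff_mem _).2 (by simpa using hφm _ hpR)) hθ F hFC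
    (fun j => (hFX j).symm ▸ hφm _ (hx j)) φ.range.toSubmonoid (G.image φ)
    (by rw [Finset.coe_image]; rintro _ ⟨a, -, rfl⟩; exact ⟨a, rfl⟩)
    (by rw [Finset.coe_image, ← Ideal.map_span, ← hmax, ← hG])
    (c := c) (by rw [hpmap]; exact hcS)
  -- the power series ring
  have : IsDomain (MvPowerSeries (Fin (d - 1)) (WittVector p k)) := NoZeroDivisors.to_isDomain _
  have hW : maximalIdeal (WittVector p k) = Ideal.span {(p : WittVector p k)} :=
    (WittVector.irreducible p).maximalIdeal_eq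
  have hpS : F (C (p : WittVector p k)) = (p : S) := by rw [map_natCast, map_natCast]
  have hpSm : (p : S) ∈ maximalIdeal S := by simpa using hφm _ hpR
  have hC0 : ∀ P : Ideal S, P.IsPrime → d ≤ ndim (S ⧸ P) →
      ∀ q : MvPowerSeries (Fin (d - 1)) (WittVector p k), q ≠ 0 → F q ∉ P := by
    intro P hP hPd q hq
    exact notMem_of_ndim_le hW F (hpS ▸ hpSm) (fun j => (hFX j).symm ▸ hφm _ (hx j))
      (c := c) (hpS ▸ hcS) P (by omega) hq
  -- the target has dimension `d`
  have hSd : ndim S ≤ d := by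
    rw [← ndim_congr (RingEquiv.quotientBot _)]
    refine (ndim_quotient_le_card ⊥ (bot_ne_top) (insert (p : S) (Finset.univ.image fun j => φ (x j)))
      ?_ c ?_).trans ((Finset.card_insert_le _ _).trans ?_)
    · intro a ha
      rcases Finset.mem_insert.1 ha with rfl | ha
      · exact hpSm
      · obtain ⟨j, -, rfl⟩ := Finset.mem_image.1 ha
        exact hφm _ (hx j)
    · rw [bot_sup_eq, Finset.coe_insert, Ideal.span_insert, Finset.coe_image, Finset.coe_univ,
        Set.image_univ]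
      simpa only [hFX] using hcS
    · have h2 := Finset.card_image_le (s := Finset.univ) (f := fun j => φ (x j))
      rw [Finset.card_univ, Fintype.card_fin] at h2
      omega
  -- separability of the elements of `R`
  have hint : ∀ r : R, ∃ g : Polynomial (MvPowerSeries (Fin (d - 1)) Λ),
      g.map f ≠ 0 ∧ g.eval₂ f r = 0 := by
    intro r
    let _ : Algebra (MvPowerSeries (Fin (d - 1)) Λ) R := f.toAlgebra
    have : Module.Finite (MvPowerSeries (Fin (d - 1)) Λ) R := by
      refine ⟨⟨sR, eq_top_iff.2 fun t ht0 => ?_⟩⟩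
      clear ht0
      have ht := hsR t
      induction ht using Submodule.span_induction with
      | mem y hy => exact Submodule.subset_span hy
      | zero => exact zero_mem _
      | add y z _ _ hy hz => exact add_mem hy hz
      | smul a y _ hy =>
        obtain ⟨_, q, rfl⟩ := a
        exact Submodule.smul_mem _ q hy
    obtain ⟨g, hg, hg0⟩ := (Algebra.IsIntegral.isIntegral
      (R := MvPowerSeries (Fin (d - 1)) Λ) r : _)
    exact ⟨g, (hg.map f).ne_zero, hg0⟩
  have hmapinj : Function.Injective (MvPowerSeries.map (σ := Fin (d - 1)) Λ.subtype) :=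
    fun a b h => MvPowerSeries.ext fun n => Subtype.ext (by
      have := congrArg (MvPowerSeries.coeff n) h
      rwa [MvPowerSeries.coeff_map, MvPowerSeries.coeff_map] at this)
  have hnot : ∀ r : R, r ≠ 0 → ∀ P : Ideal S, P.IsPrime → d ≤ ndim (S ⧸ P) → φ r ∉ P := by
    intro r hr P hP hPd hrP
    obtain ⟨g, hg, hg0, -⟩ := exists_minimal_relation f hint hr
    have : φ (f (g.coeff 0)) ∈ P := by
      have h := hg
      rw [← Polynomial.divX_mul_X_add g, Polynomial.eval₂_add, Polynomial.eval₂_mul,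
        Polynomial.eval₂_X, Polynomial.eval₂_C, add_comm, add_eq_zero_iff_eq_neg] at h
      rw [h, map_neg, map_mul]
      exact neg_mem (P.mul_mem_left _ hrP)
    rw [← hfFx] at this
    refine hg0 ?_
    have h0 : MvPowerSeries.map Λ.subtype (g.coeff 0) = 0 := by
      by_contra hne
      exact hC0 P hP hPd _ hne this
    rw [hmapinj (h0.trans (map_zero _).symm), map_zero]
  have hpP : ∀ P : Ideal S, P.IsPrime → d ≤ ndim (S ⧸ P) → (p : S) ∉ P := by
    intro P hP hPd
    rw [← hpS]
    refine hC0 P hP hPd _ fun h0 => WittVector.p_nonzero p k ?_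
    have := congrArg constantCoeff h0
    rwa [constantCoeff_C, map_zero] at this
  obtain ⟨J, hJm, hJred, hJmin, hJdim, C', hC'⟩ := exists_reduced_part
    (le_antisymm hSd (le_ndim_of_length_eq hR hlen)) (p : S) hpP
    (fun P hP hPd hmin => annihilator_of_series φ f F hfF sS hsSφ hsS P hmin (hC0 P hP hPd) hint
      (fun r hr => hnot r hr P hP hPd))
  exact ⟨J, hJm, hJred, fun P hP => by simpa using hJmin P hP, hJdim, C', fun T => by
    rw [← hlen]; exact hC' T⟩

end Vale.Agent.P202.Coef
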