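import Vale.Agent.P202.M4Level

/-!
# P202, mixed characteristic: Lemma A for power series
-/

set_option linter.style.header false
set_option linter.unusedSectionVars false

universe u

namespace Vale.Agent.P202

open P202.Mixed

variable {p : ℕ} [Fact p.Prime] {k : Type u} [Field k] [CharP k p] [PerfectRing k p] {d n : ℕ}
  {wt : Vr d n → ℕ} {T : ℚ}

lemma monPT_mem_closure (hwt : ∀ v, 0 < wt v) {t : ℚ} {g : Ex p d n} (hg : t ≤ exWt p wt g)
    (w : WittVector p k) : monPT p wt T g w ∈ AddSubmonoid.closure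
      ((ptData p wt hwt T (k := k)).tei '' ((ptData p wt hwt T (k := k)).Fil t : Set _)) := by
  set D := ptData p wt hwt T (k := k) with hD
  have e : monPT p wt T g w = monPT p wt T 0 w * D.tei (AddMonoidAlgebra.single g 1) := by
    rw [show D.tei (AddMonoidAlgebra.single g (1 : k)) = monPT p wt T g 1 from
      (teiPT_single p hwt T g 1).trans (by rw [map_one]), monPT_mul, zero_add, mul_one]
  rw [e]
  obtain ⟨x, hx⟩ : ∃ x, x = monPT p wt T 0 w := ⟨_, rfl⟩
  rw [← hx]
  clear hx e
  induction D.gen x using AddSubmonoid.closure_induction with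
  | mem y hy =>
    obtain ⟨c, rfl⟩ := hy
    rw [← map_mul]
    refine AddSubmonoid.subset_closure ⟨_, ?_, rfl⟩
    have := D.fil_mul (D.fil_zero c)
      (show AddMonoidAlgebra.single g (1 : k) ∈ D.Fil t from single_mem_FilK hg 1)
    rwa [zero_add] at this
  | zero => rw [zero_mul]; exact zero_mem _
  | add y y' _ _ hy hy' => rw [add_mul]; exact add_mem hy hy'

lemma piPT_monomial (hwt : ∀ v, 0 < wt v) (δ : Fin d ⊕ Fin n →₀ ℕ) (c : WittVector p k) :
    piPT p wt T (MvPowerSeries.monomial δ c) =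
      monPT p wt T (exDiv p 0 (δ.mapDomain some)) c := by
  classical
  by_cases hd : δ.degree < ⌈T⌉₊ + 1
  · have e : MvPowerSeries.truncTotal (⌈T⌉₊ + 1) (MvPowerSeries.monomial δ c) =
        MvPolynomial.monomial δ c := by
      refine MvPolynomial.ext _ _ fun γ => ?_
      rw [MvPowerSeries.coeff_truncTotal_eq_ite, MvPowerSeries.coeff_monomial,
        MvPolynomial.coeff_monomial]
      by_cases h : γ = δ
      · subst h; rw [if_pos hd, if_pos rfl]
      · rw [if_neg h, if_neg (Ne.symm h), ite_self]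
    rw [piPT, e, MvPolynomial.rename_monomial, levelPT_monomial]
  · have e : MvPowerSeries.truncTotal (⌈T⌉₊ + 1) (MvPowerSeries.monomial δ c) = 0 := by
      refine MvPolynomial.ext _ _ fun γ => ?_
      rw [MvPowerSeries.coeff_truncTotal_eq_ite, MvPowerSeries.coeff_monomial]
      by_cases h : γ = δ
      · subst h; rw [if_neg hd, MvPolynomial.coeff_zero]
      · rw [if_neg h, ite_self, MvPolynomial.coeff_zero]
    rw [piPT, e, map_zero, map_zero, monPT_eq_zero]
    rw [exWt_exDiv, pow_zero, div_one, exDiv_zero_mapDomain_weight]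
    have h1 := (Nat.le_of_not_lt hd).trans (degree_le_weight hwt δ)
    have h2 := Nat.le_ceil T
    have h3 : ((⌈T⌉₊ + 1 : ℕ) : ℚ) ≤ (Finsupp.weight (fun v => wt (some v)) δ : ℕ) := by
      exact_mod_cast h1
    push_cast at h3
    linarith

lemma piPT_mem_closure (hwt : ∀ v, 0 < wt v) {N : ℕ}
    (f : MvPowerSeries (Fin d ⊕ Fin n) (WittVector p k)) (hf : MemW p wt N f) :
    piPT p wt T f ∈ AddSubmonoid.closure
      ((ptData p wt hwt T (k := k)).tei '' ((ptData p wt hwt T (k := k)).Fil (N : ℚ) : Set _)) := by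
  classical
  rw [piPT, MvPolynomial.as_sum (MvPowerSeries.truncTotal (⌈T⌉₊ + 1) f), map_sum, map_sum]
  refine AddSubmonoid.sum_mem _ fun γ _ => ?_
  rw [MvPolynomial.rename_monomial, levelPT_monomial, MvPowerSeries.coeff_truncTotal_eq_ite]
  split_ifs with hd
  · obtain ⟨i, hi, c, hc⟩ := hf γ
    rw [hc, monPT_p_pow]
    refine monPT_mem_closure hwt ?_ c
    rw [map_add, map_nsmul, exWt_exDiv, exWt_exY, exDiv_zero_mapDomain_weight, pow_zero, div_one,
      nsmul_eq_mul]
    exact_mod_cast (add_comm (i * wt none) _).symm ▸ hi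
  · have : monPT p wt T (exDiv p 0 (γ.mapDomain some)) (0 : WittVector p k) = 0 := by
      rw [monPT, AddMonoidAlgebra.single_zero, map_zero]
    rw [this]
    exact zero_mem _

lemma mapDomain_some_add (γ : Vr d n →₀ ℕ) :
    γ.some.mapDomain some + Finsupp.single none (γ none) = γ := by
  ext v
  cases v with
  | none => simp [Finsupp.mapDomain_of_notMem_range]
  | some i => simp [Finsupp.mapDomain_apply (Option.some_injective _)]

lemma piPT_liftPi (hwt : ∀ v, 0 < wt v) (F : MvPolynomial (Vr d n) k) :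
    piPT p wt T (liftPi p F) = levelPT p wt T 0 (liftL p F) := by
  let φ : MvPowerSeries (Fin d ⊕ Fin n) (WittVector p k) →+ PT p k wt T :=
    AddMonoidHom.mk' (piPT p wt T) (piPT_add T)
  change φ (liftPi p F) = _
  rw [liftPi, liftL, map_sum, map_sum]
  refine Finset.sum_congr rfl fun γ _ => ?_
  change piPT p wt T _ = _
  rw [piPT_monomial hwt, levelPT_monomial, mul_comm, monPT_p_pow]
  congr 1
  conv_rhs => rw [← mapDomain_some_add γ, map_add]
  congr 1
  rw [← exDiv_single_none 0, pow_zero, ← map_nsmul, Finsupp.smul_single, smul_eq_mul, mul_one]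

theorem goalLemmaA : GoalLemmaA.{u} := by
  intro p _ k _ _ _ d n wt hwt f F N₀ hf T N
  obtain ⟨hF, hrest⟩ := hf
  set D := ptData p wt hwt T (k := k) with hD
  obtain ⟨h1, h2⟩ := sum_toList_tei (T := T) hwt 0 F
  obtain ⟨l, hl, hfl⟩ : ∃ l : List (KG p k d n), (∀ z ∈ l, z ∈ D.Fil ((N₀ : ℚ) + 1)) ∧
      piPT p wt T (f - liftPi p F) = (l.map D.tei).sum := by
    have := piPT_mem_closure (T := T) hwt _ hrest
    rw [show ((N₀ + 1 : ℕ) : ℚ) = (N₀ : ℚ) + 1 by push_cast; rfl] at this
    generalize piPT p wt T (f - liftPi p F) = y₀ at this ⊢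
    induction this using AddSubmonoid.closure_induction with
    | mem y hy =>
      obtain ⟨z, hz, rfl⟩ := hy
      exact ⟨[z], by simpa using hz, by rw [List.map_singleton, List.sum_singleton]⟩
    | zero => exact ⟨[], by simp, by simp⟩
    | add y y' _ _ hy hy' =>
      obtain ⟨l, hl, rfl⟩ := hy
      obtain ⟨m, hm, rfl⟩ := hy'
      exact ⟨l ++ m, fun z hz => (List.mem_append.mp hz).elim (hl z) (hm z), by simp⟩
  set l₀ := F.support.toList.map fun γ => AddMonoidAlgebra.single (exDiv p 0 γ)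
    (MvPolynomial.coeff γ F)
  have hl₀ : ∀ z ∈ l₀, z ∈ D.Fil (N₀ : ℚ) := by
    intro z hz
    obtain ⟨γ, hγ, rfl⟩ := List.mem_map.mp hz
    refine single_mem_FilK ?_ _
    rw [exWt_exDiv, pow_zero, div_one,
      hF (MvPolynomial.mem_support_iff.mp (Finset.mem_toList.mp hγ))]
  obtain ⟨G, hG, hGn, x, hx, he⟩ := D.lemmaA (n := (N₀ : ℚ)) (l₀ ++ l) (fun z hz =>
    (List.mem_append.mp hz).elim (hl₀ z) fun h => D.fil_anti (le_add_of_nonneg_right zero_le_one)
      (hl z h)) N
  refine ⟨G, ?_, hGn, x, hx, ?_⟩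
  · rw [List.sum_append, h2] at hG
    have h3 : (N₀ : ℚ) + 1 ≤ (N₀ : ℚ) + D.wp := by linarith [D.one_le_wp]
    have := add_mem (D.fil_anti h3 hG) (AddSubgroup.list_sum_mem _ hl)
    rwa [show G - (levelKG p 0 F + l.sum) + l.sum = G - levelKG p 0 F by ring] at this
  · have hsum : piPT p wt T f = piPT p wt T (f - liftPi p F) + piPT p wt T (liftPi p F) := by
      rw [← piPT_add, sub_add_cancel]
    rw [hsum, hfl, piPT_liftPi hwt, ← h1, add_comm]
    rw [List.map_append, List.sum_append] at he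
    exact he

end Vale.Agent.P202
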