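import Vale.Agent.P202.M4Sharp
import Vale.Agent.P202.InterfacesM

/-!
# P202, mixed characteristic: the exponents with `p`-power denominators
-/

set_option linter.style.header false
set_option linter.unusedSectionVars false

universe u

open scoped NNRat

namespace P202.Mixed

/-- Exponents with `p`-power denominators. -/
def pExp (p : ℕ) : AddSubmonoid ℚ≥0 where
  carrier := {x | ∃ m n : ℕ, x * (p : ℚ≥0) ^ m = n}
  zero_mem' := ⟨0, 0, by simp⟩
  add_mem' := by
    rintro x y ⟨m, a, ha⟩ ⟨m', b, hb⟩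
    refine ⟨m + m', a * p ^ m' + b * p ^ m, ?_⟩
    push_cast
    rw [← ha, ← hb, pow_add]
    ring

variable {p : ℕ} [Fact p.Prime]

lemma p_ne_zero_nnrat : (p : ℚ≥0) ≠ 0 := Nat.cast_ne_zero.mpr (Fact.out : p.Prime).ne_zero

lemma natCast_mem_pExp (n : ℕ) : (n : ℚ≥0) ∈ pExp p := ⟨0, n, by simp⟩

/-- The exponent `n / p ^ j`. -/
def pDiv (p : ℕ) [Fact p.Prime] (n j : ℕ) : ↥(pExp p) :=
  ⟨(n : ℚ≥0) / (p : ℚ≥0) ^ j, j, n, div_mul_cancel₀ _ (pow_ne_zero j p_ne_zero_nnrat)⟩

lemma div_mem_pExp {x : ℚ≥0} (hx : x ∈ pExp p) : x / p ∈ pExp p := by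
  obtain ⟨m, n, h⟩ := hx
  exact ⟨m + 1, n, by rw [pow_succ, ← h, ← mul_assoc, div_mul_eq_mul_div, div_mul_cancel₀ _ p_ne_zero_nnrat]⟩

lemma sub_natCast_mem_pExp {x : ℚ≥0} (hx : x ∈ pExp p) {k : ℕ} (hk : (k : ℚ≥0) ≤ x) :
    x - k ∈ pExp p := by
  obtain ⟨m, n, h⟩ := hx
  refine ⟨m, n - k * p ^ m, ?_⟩
  rw [tsub_mul, h, Nat.cast_tsub, Nat.cast_mul, Nat.cast_pow]

variable {σ : Type*}

lemma bijective_nsmul_expo : Function.Bijective fun g : σ →₀ ↥(pExp p) => p • g := by
  refine ⟨fun a b h => ?_, fun a => ⟨a.mapRange (fun x : ↥(pExp p) => (⟨(x : ℚ≥0) / p, div_mem_pExp x.2⟩ : ↥(pExp p)))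
    (Subtype.ext (by simp)), ?_⟩⟩
  · ext i
    have := congrArg Subtype.val (DFunLike.congr_fun h i)
    simpa [p_ne_zero_nnrat, (Fact.out : p.Prime).ne_zero] using this
  · ext i
    simp [mul_div_cancel₀ _ p_ne_zero_nnrat]

instance perfectRing_expo {k : Type*} [CommRing k] [CharP k p] [PerfectRing k p] :
    PerfectRing (AddMonoidAlgebra k (σ →₀ ↥(pExp p))) p :=
  perfectRing_addMonoidAlgebra p k _ bijective_nsmul_expo

end P202.Mixed

namespace Vale.Agent.P202

open P202.Mixed

variable (p : ℕ) [Fact p.Prime] {d n : ℕ}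

/-- Exponent vectors with `p`-power denominators. -/
abbrev Ex (p d n : ℕ) : Type := Vr d n →₀ ↥(pExp p)

/-- The exponent of the variable `Y`. -/
noncomputable def exY (p d n : ℕ) [Fact p.Prime] : Ex p d n :=
  Finsupp.single none ⟨1, 0, 1, by simp⟩

/-- The real weight of an exponent vector. -/
noncomputable def exWt (wt : Vr d n → ℕ) : Ex p d n →+ ℚ :=
  Finsupp.liftAddHom fun v =>
    (AddMonoidHom.mulRight (wt v : ℚ)).comp ((NNRat.coeHom.toAddMonoidHom).comp (pExp p).subtype)

lemma exWt_single (wt : Vr d n → ℕ) (v : Vr d n) (a : ↥(pExp p)) :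
    exWt p wt (Finsupp.single v a) = ((a : ℚ≥0) : ℚ) * wt v := by
  rw [exWt, Finsupp.liftAddHom_apply_single]
  rfl

lemma exWt_exY (wt : Vr d n → ℕ) : exWt p wt (exY p d n) = wt none := by
  simp [exY, exWt_single]

lemma exWt_nonneg (wt : Vr d n → ℕ) (g : Ex p d n) : 0 ≤ exWt p wt g := by
  induction g using Finsupp.induction with
  | zero => simp
  | single_add v a g _ _ ih =>
    rw [map_add, exWt_single]
    exact add_nonneg (mul_nonneg (NNRat.coe_nonneg _) (Nat.cast_nonneg _)) ih

/-- The integral part of the `Y` exponent. -/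
noncomputable def exSplit : YSplit (exY p d n) where
  whole g := ⌊((g none : ↥(pExp p)) : ℚ≥0)⌋₊
  rest g := g.update none ⟨_, sub_natCast_mem_pExp (g none).2 (Nat.floor_le zero_le)⟩
  eq g := by
    classical
    ext v
    cases v with
    | none =>
      simp [exY, add_tsub_cancel_of_le (Nat.floor_le (zero_le : (0 : ℚ≥0) ≤ (g none : ℚ≥0)))]
    | some i => simp [exY]
  whole_add g := by simp [exY, Nat.floor_add_one]
  rest_add g := by
    classical
    ext v
    cases v with
    | none => simp [exY, Nat.floor_add_one, add_tsub_add_eq_tsub_right]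
    | some i => simp [exY]

/-- The exponent vector `γ / p ^ jq`. -/
noncomputable def exDiv (jq : ℕ) : (Vr d n →₀ ℕ) →+ Ex p d n where
  toFun γ := γ.mapRange (fun a => pDiv p a jq) (Subtype.ext (by simp [pDiv]))
  map_zero' := by simp
  map_add' a b := by
    ext v
    simp [pDiv, add_div]

/-- The exponent vector of an `X, Z` monomial. -/
noncomputable def exSome : (Fin d ⊕ Fin n →₀ ℕ) →+ Ex p d n :=
  (exDiv p 0).comp (Finsupp.mapDomain.addMonoidHom some)

variable (k : Type u) [Field k] [CharP k p] [PerfectRing k p]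

/-- The perfect graded ring `k[Y, X, Z]` with `p`-power denominators in the exponents. -/
abbrev KG (d n : ℕ) : Type u := AddMonoidAlgebra k (Ex p d n)

/-- The truncation at weight `T` of the perfect ring `W[Y, X, Z] / (Y - p)`. -/
noncomputable abbrev PT (wt : Vr d n → ℕ) (T : ℚ) : Type u := TRing p k (exY p d n) (exWt p wt) T

variable {k} (wt : Vr d n → ℕ) (T : ℚ)
noncomputable example : CommRing (PT p k wt T) := inferInstance

/-- The Teichmuller map (only used when `0 < wt Y`). -/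
noncomputable def teiPT : KG p k d n → PT p k wt T := teiT (exWt p wt) T

/-- A monomial of the truncated ring. -/
noncomputable def monPT (g : Ex p d n) (w : WittVector p k) : PT p k wt T :=
  toT (exWt p wt) T (AddMonoidAlgebra.single g w)

/-- Level `p ^ jq`: the variables are `p ^ jq`-th roots. -/
noncomputable def levelPT (jq : ℕ) : MvPolynomial (Vr d n) (WittVector p k) →+* PT p k wt T :=
  (toT (exWt p wt) T).comp (AddMonoidAlgebra.mapDomainRingHom (WittVector p k) (exDiv p jq))

/-- Level `p ^ jq` in the graded ring. -/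
noncomputable def levelKG (jq : ℕ) : MvPolynomial (Vr d n) k →+* KG p k d n :=
  AddMonoidAlgebra.mapDomainRingHom k (exDiv p jq)

/-- Elements of weight at least `t` of the graded ring. -/
noncomputable def FilKG (t : ℚ) : AddSubgroup (KG p k d n) := FilK k (exWt p wt) t

/-- The error terms of Lemma A at weight `N`: `[G ^ a φ]` with `a ≤ 1` and `wt φ ≥ N (1 - a)`. -/
noncomputable def JPT (G : KG p k d n) (N : ℚ) : AddSubmonoid (PT p k wt T) :=
  AddSubmonoid.closure (teiPT p wt T '' {x | ∃ a w : ℚ, ∃ g φ : KG p k d n, x = g * φ ∧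
    IsPow p G a g ∧ φ ∈ FilKG p wt w ∧ a ≤ 1 ∧ N * (1 - a) ≤ w})

/-- The truncated image of a power series in `X` and `Z`. -/
noncomputable def piPT [Fintype (Fin d ⊕ Fin n)]
    (f : MvPowerSeries (Fin d ⊕ Fin n) (WittVector p k)) : PT p k wt T :=
  levelPT p wt T 0 (MvPolynomial.rename some (MvPowerSeries.truncTotal (⌈T⌉₊ + 1) f))

end Vale.Agent.P202
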