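import Mathlib

set_option linter.style.header false
namespace P202.Mixed

variable {p : ℕ} [Fact p.Prime] {A B : Type*} [CommRing A] [CommRing B] [CharP B p]
  [PerfectRing B p]

/-- `y` is the power `x ^ a` for an exponent `a` with `p`-power denominator. -/
def IsPow (p : ℕ) (x : B) (a : ℚ) (y : B) : Prop :=
  ∃ m j : ℕ, a = j / (p : ℚ) ^ m ∧ ∃ r : B, r ^ p ^ m = x ∧ y = r ^ j

lemma exists_root (x : B) (m : ℕ) : ∃ r : B, r ^ p ^ m = x :=
  ⟨(iterateFrobeniusEquiv B p m).symm x, by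
    rw [← iterateFrobeniusEquiv_def, RingEquiv.apply_symm_apply]⟩

lemma root_unique {r r' : B} {m : ℕ} (h : r ^ p ^ m = r' ^ p ^ m) : r = r' :=
  (iterateFrobeniusEquiv B p m).injective (by rw [iterateFrobeniusEquiv_def, iterateFrobeniusEquiv_def]; exact h)

lemma p_pow_pos (m : ℕ) : (0 : ℚ) < (p : ℚ) ^ m :=
  pow_pos (Nat.cast_pos.mpr (Fact.out : p.Prime).pos) m

namespace IsPow

variable {x : B} {a b : ℚ} {y z : B}

omit [CharP B p] [PerfectRing B p] in
lemma nonneg (h : IsPow p x a y) : 0 ≤ a := by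
  obtain ⟨m, j, rfl, -⟩ := h
  exact div_nonneg (Nat.cast_nonneg j) (p_pow_pos m).le

omit [Fact p.Prime] [CharP B p] [PerfectRing B p] in
lemma zero : IsPow p x 0 1 := ⟨0, 0, by simp, x, by simp, by simp⟩

omit [Fact p.Prime] [CharP B p] [PerfectRing B p] in
lemma one : IsPow p x 1 x := ⟨0, 1, by simp, x, by simp, by simp⟩

lemma raise (h : IsPow p x a y) (k : ℕ) :
    ∃ m j : ℕ, k ≤ m ∧ a = j / (p : ℚ) ^ m ∧ ∃ r : B, r ^ p ^ m = x ∧ y = r ^ j := by
  obtain ⟨m, j, ha, r, hr, hy⟩ := h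
  obtain ⟨r', hr'⟩ := exists_root (p := p) r k
  refine ⟨m + k, j * p ^ k, Nat.le_add_left k m, ?_, r', ?_, ?_⟩
  · rw [ha, Nat.cast_mul, Nat.cast_pow, pow_add, mul_div_mul_right _ _ (p_pow_pos k).ne']
  · rw [pow_add, mul_comm, pow_mul, hr', hr]
  · rw [mul_comm, pow_mul, hr', hy]

lemma mul (h : IsPow p x a y) (h' : IsPow p x b z) : IsPow p x (a + b) (y * z) := by
  obtain ⟨m, j, ha, r, hr, hy⟩ := h
  obtain ⟨n, i, hb, s, hs, hz⟩ := h'
  obtain ⟨t, ht⟩ := exists_root (p := p) x (m + n)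
  have e1 : r = t ^ p ^ n := root_unique (m := m) (by
    rw [hr, ← pow_mul, ← pow_add, add_comm, ht])
  have e2 : s = t ^ p ^ m := root_unique (m := n) (by rw [hs, ← pow_mul, ← pow_add, ht])
  refine ⟨m + n, j * p ^ n + i * p ^ m, ?_, t, ht, ?_⟩
  · have hm := (p_pow_pos (p := p) m).ne'
    have hn := (p_pow_pos (p := p) n).ne'
    rw [ha, hb, Nat.cast_add, Nat.cast_mul, Nat.cast_mul, Nat.cast_pow, Nat.cast_pow, pow_add]
    field_simp
  · rw [hy, hz, e1, e2, ← pow_mul, ← pow_mul, ← pow_add, mul_comm (p ^ n), mul_comm (p ^ m)]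

lemma rpow (h : IsPow p x a y) (T e : ℕ) {r : B} (hr : r ^ p ^ T = y) :
    IsPow p x ((e / (p : ℚ) ^ T) * a) (r ^ e) := by
  obtain ⟨m, j, ha, s, hs, hy⟩ := h
  obtain ⟨t, ht⟩ := exists_root (p := p) s T
  refine ⟨T + m, e * j, ?_, t, ?_, ?_⟩
  · rw [ha, Nat.cast_mul, pow_add, div_mul_div_comm]
  · rw [pow_add, pow_mul, ht, hs]
  · have : r = t ^ j := root_unique (m := T) (by
      rw [hr, hy, ← ht, ← pow_mul, ← pow_mul, mul_comm])
    rw [this, ← pow_mul, mul_comm]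

end IsPow

/-- The data used by Lemma A. -/
structure TeiData (p : ℕ) (A B : Type*) [CommRing A] [CommRing B] where
  /-- Teichmuller map -/
  tei : B →* A
  /-- the variable representing `p` -/
  Y : B
  tei_Y : tei Y = (p : A)
  /-- every element is a sum of Teichmuller elements -/
  gen : ∀ x : A, x ∈ AddSubmonoid.closure (Set.range tei)
  /-- weight filtration -/
  Fil : ℚ → AddSubgroup B
  fil_anti : Antitone Fil
  fil_zero : ∀ x, x ∈ Fil 0
  fil_mul : ∀ {a b x y}, x ∈ Fil a → y ∈ Fil b → x * y ∈ Fil (a + b)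
  fil_root : ∀ {a r} {m : ℕ}, r ^ p ^ m ∈ Fil a → r ∈ Fil (a / (p : ℚ) ^ m)
  /-- weight of `p` -/
  wp : ℚ
  one_le_wp : 1 ≤ wp
  Y_mem : Y ∈ Fil wp
  /-- the exponent of the truncation -/
  T : ℕ
  mix : ∀ s : List B, ∃ c : List (ℕ × (Fin s.length → ℕ)),
    (∀ ce ∈ c, (∑ k, ce.2 k) = p ^ T ∧ ∀ k, ce.2 k < p ^ T) ∧
    ∀ r : Fin s.length → B, (∀ k, r k ^ p ^ T = s.get k) →
      tei s.sum = (s.map tei).sum + (p : A) * (c.map fun ce => (ce.1 : A) * tei (∏ k, r k ^ ce.2 k)).sum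

namespace TeiData

set_option linter.unusedSectionVars false

variable (D : TeiData p A B)

lemma pow_mem {x : B} {a : ℚ} (hx : x ∈ D.Fil a) : ∀ n : ℕ, x ^ n ∈ D.Fil (n * a)
  | 0 => by simpa using D.fil_zero 1
  | n + 1 => by
    rw [pow_succ, Nat.cast_add, Nat.cast_one, add_mul, one_mul]
    exact D.fil_mul (pow_mem hx n) hx

lemma isPow_mem {x y : B} {a n : ℚ} (h : IsPow p x a y) (hx : x ∈ D.Fil n) :
    y ∈ D.Fil (a * n) := by
  obtain ⟨m, j, rfl, r, hr, rfl⟩ := h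
  have := D.pow_mem (D.fil_root (a := n) (m := m) (hr ▸ hx)) j
  rw [div_mul_eq_mul_div]
  rwa [mul_div_assoc]

/-- Teichmullers of a set which is stable under mixed products span the Teichmullers of its
sums. -/
lemma tei_closure_mem {S : Set B} (hmul : ∀ c : B, ∀ x ∈ S, c * x ∈ S)
    (hconv : ∀ l : List B, (∀ x ∈ l, x ∈ S) → ∀ (e : Fin l.length → ℕ) (r : Fin l.length → B),
      ∑ i, e i = p ^ D.T → (∀ i, r i ^ p ^ D.T = l.get i) → ∏ i, r i ^ e i ∈ S)
    {x : B} (hx : x ∈ AddSubmonoid.closure S) : D.tei x ∈ AddSubmonoid.closure (D.tei '' S) := by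
  obtain ⟨l, hl, rfl⟩ := AddSubmonoid.exists_list_of_mem_closure hx
  obtain ⟨c, hc, hmix⟩ := D.mix l
  choose r hr using fun k => exists_root (p := p) (l.get k) D.T
  have hA : ∀ a : A, ∀ y ∈ AddSubmonoid.closure (D.tei '' S),
      a * y ∈ AddSubmonoid.closure (D.tei '' S) := by
    intro a y hy
    induction hy using AddSubmonoid.closure_induction with
    | mem y hy =>
      obtain ⟨z, hz, rfl⟩ := hy
      induction D.gen a using AddSubmonoid.closure_induction with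
      | mem b hb =>
        obtain ⟨b', rfl⟩ := hb
        exact AddSubmonoid.subset_closure ⟨b' * z, hmul b' z hz, map_mul _ _ _⟩
      | zero => simp
      | add u v _ _ hu hv => rw [add_mul]; exact add_mem hu hv
    | zero => simp
    | add u v _ _ hu hv => rw [mul_add]; exact add_mem hu hv
  rw [hmix r hr]
  refine add_mem (AddSubmonoid.list_sum_mem _ fun y hy => ?_)
    (hA _ _ (AddSubmonoid.list_sum_mem _ fun y hy => ?_))
  · obtain ⟨x, hx, rfl⟩ := List.mem_map.mp hy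
    exact AddSubmonoid.subset_closure ⟨x, hl x hx, rfl⟩
  · obtain ⟨ce, hce, rfl⟩ := List.mem_map.mp hy
    exact hA _ _ (AddSubmonoid.subset_closure ⟨_, hconv l hl _ r (hc ce hce).1 hr, rfl⟩)

/-- Products of roots of elements with exponents of total `p ^ T`. -/
lemma isPow_prod {m : ℕ} {x : B} (e : Fin m → ℕ) (a : Fin m → ℚ) (g rg : Fin m → B)
    (hg : ∀ i, IsPow p x (a i) (g i)) (hrg : ∀ i, rg i ^ p ^ D.T = g i) :
    IsPow p x (∑ i, (e i / (p : ℚ) ^ D.T) * a i) (∏ i, rg i ^ e i) := by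
  classical
  refine Finset.induction_on (motive := fun S => IsPow p x (∑ i ∈ S, (e i / (p : ℚ) ^ D.T) * a i)
    (∏ i ∈ S, rg i ^ e i)) Finset.univ (by simpa using IsPow.zero) fun i S hi ih => ?_
  rw [Finset.sum_insert hi, Finset.prod_insert hi]
  exact ((hg i).rpow D.T (e i) (hrg i)).mul ih

lemma prod_mem_fil {m : ℕ} (e : Fin m → ℕ) (w : Fin m → ℚ) (φ rφ : Fin m → B)
    (hφ : ∀ i, φ i ∈ D.Fil (w i)) (hr : ∀ i, rφ i ^ p ^ D.T = φ i) :
    (∏ i, rφ i ^ e i) ∈ D.Fil (∑ i, (e i / (p : ℚ) ^ D.T) * w i) := by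
  classical
  refine Finset.induction_on (motive := fun S => (∏ i ∈ S, rφ i ^ e i) ∈
    D.Fil (∑ i ∈ S, (e i / (p : ℚ) ^ D.T) * w i)) Finset.univ (by simpa using D.fil_zero 1)
    fun i S hi ih => ?_
  rw [Finset.sum_insert hi, Finset.prod_insert hi]
  refine D.fil_mul ?_ ih
  have := D.pow_mem (D.fil_root (a := w i) (m := D.T) ((hr i).symm ▸ hφ i)) (e i)
  simpa [div_mul_eq_mul_div, mul_div_assoc] using this

lemma sum_weights {m : ℕ} (e : Fin m → ℕ) (h : ∑ i, e i = p ^ D.T) :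
    ∑ i, (e i / (p : ℚ) ^ D.T) = 1 := by
  rw [← Finset.sum_div, ← Nat.cast_sum, h, Nat.cast_pow, div_self (p_pow_pos D.T).ne']

/-- Monomials `G' ^ b * G ^ α * φ` of degree `u` above the line, with gain in `α`. -/
def Term (G' G : B) (σ u : ℚ) : Set B :=
  {x | ∃ b α w : ℚ, ∃ g g' φ : B, x = g' * g * φ ∧ IsPow p G' b g' ∧ IsPow p G α g ∧
    φ ∈ D.Fil w ∧ b + α ≤ u ∧ σ * u + D.wp * α ≤ w + σ * (b + α)}

variable {G' G : B} {σ u u' : ℚ}

lemma term_mul {x y : B} (hx : x ∈ D.Term G' G σ u) (hy : y ∈ D.Term G' G σ u') :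
    x * y ∈ D.Term G' G σ (u + u') := by
  obtain ⟨b, α, w, g, g', φ, rfl, hb, ha, hφ, h1, h3⟩ := hx
  obtain ⟨b', α', w', k, k', ψ, rfl, hb', ha', hψ, h1', h3'⟩ := hy
  exact ⟨b + b', α + α', w + w', g * k, g' * k', φ * ψ, by ring, hb.mul hb', ha.mul ha',
    D.fil_mul hφ hψ, by linarith, by linarith⟩

lemma term_one : (1 : B) ∈ D.Term G' G σ 0 :=
  ⟨0, 0, 0, 1, 1, 1, by simp, IsPow.zero, IsPow.zero, D.fil_zero 1, by simp, by simp⟩

lemma closure_mul {x y : B} (hx : x ∈ AddSubmonoid.closure (D.Term G' G σ u))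
    (hy : y ∈ AddSubmonoid.closure (D.Term G' G σ u')) :
    x * y ∈ AddSubmonoid.closure (D.Term G' G σ (u + u')) := by
  induction hx using AddSubmonoid.closure_induction with
  | mem a ha =>
    induction hy using AddSubmonoid.closure_induction with
    | mem b hb => exact AddSubmonoid.subset_closure (D.term_mul ha hb)
    | zero => simp
    | add b c _ _ hb hc => rw [mul_add]; exact add_mem hb hc
  | zero => simp
  | add a b _ _ ha hb => rw [add_mul]; exact add_mem ha hb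

lemma closure_pow {x : B} (hx : x ∈ AddSubmonoid.closure (D.Term G' G σ u)) :
    ∀ n : ℕ, x ^ n ∈ AddSubmonoid.closure (D.Term G' G σ (n * u))
  | 0 => by simpa using AddSubmonoid.subset_closure D.term_one
  | n + 1 => by
    rw [pow_succ, Nat.cast_add, Nat.cast_one, add_mul, one_mul]
    exact D.closure_mul (closure_pow hx n) hx

/-- The monomials after `R` rounds of substitution. -/
def Rnd (G' G : B) (σ : ℚ) (R : ℕ) : Set B :=
  {x | ∃ b α w : ℚ, ∃ g g' φ : B, x = g' * g * φ ∧ IsPow p G' b g' ∧ IsPow p G α g ∧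
    φ ∈ D.Fil w ∧ b + α ≤ 1 ∧ σ + R * D.wp * α ≤ w + σ * (b + α)}

lemma rnd_mul {R : ℕ} (c : B) {x : B} (hx : x ∈ D.Rnd G' G σ R) : c * x ∈ D.Rnd G' G σ R := by
  obtain ⟨b, α, w, g, g', φ, rfl, hb, ha, hφ, h1, h3⟩ := hx
  refine ⟨b, α, w, g, g', c * φ, by ring, hb, ha, ?_, h1, h3⟩
  have := D.fil_mul (D.fil_zero c) hφ
  rwa [zero_add] at this

lemma rnd_conv {R : ℕ} (l : List B) (hl : ∀ x ∈ l, x ∈ D.Rnd G' G σ R) (e : Fin l.length → ℕ)
    (r : Fin l.length → B) (he : ∑ i, e i = p ^ D.T) (hr : ∀ i, r i ^ p ^ D.T = l.get i) :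
    ∏ i, r i ^ e i ∈ D.Rnd G' G σ R := by
  choose b α w g g' φ hx hb ha hφ h1 h3 using fun k => hl (l.get k) (List.get_mem l k)
  choose rg hrg using fun k => exists_root (p := p) (g k) D.T
  choose rg' hrg' using fun k => exists_root (p := p) (g' k) D.T
  choose rφ hrφ using fun k => exists_root (p := p) (φ k) D.T
  have hrk : ∀ k, r k = rg' k * rg k * rφ k := fun k => root_unique (p := p) (m := D.T) (by
    rw [hr, hx, mul_pow, mul_pow, hrg, hrg', hrφ])
  set β : Fin l.length → ℚ := fun k => e k / (p : ℚ) ^ D.T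
  have hsum : ∑ k, β k = 1 := D.sum_weights e he
  have hβ0 : ∀ k, 0 ≤ β k := fun k => div_nonneg (Nat.cast_nonneg _) (p_pow_pos _).le
  refine ⟨∑ k, β k * b k, ∑ k, β k * α k, ∑ k, β k * w k, ∏ k, rg k ^ e k, ∏ k, rg' k ^ e k,
    ∏ k, rφ k ^ e k, by simp only [hrk, mul_pow, Finset.prod_mul_distrib],
    D.isPow_prod e b g' rg' hb hrg', D.isPow_prod e α g rg ha hrg,
    D.prod_mem_fil e w φ rφ hφ hrφ, ?_, ?_⟩
  · rw [← hsum, ← Finset.sum_add_distrib]
    refine Finset.sum_le_sum fun i _ => ?_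
    rw [← mul_add]
    exact mul_le_of_le_one_right (hβ0 i) (h1 i)
  · calc σ + R * D.wp * ∑ k, β k * α k
        = ∑ k, β k * (σ + R * D.wp * α k) := by
          simp only [mul_add, Finset.sum_add_distrib, ← Finset.sum_mul, hsum, one_mul,
            Finset.mul_sum, mul_left_comm]
      _ ≤ ∑ k, β k * (w k + σ * (b k + α k)) := Finset.sum_le_sum fun k _ =>
          mul_le_mul_of_nonneg_left (h3 k) (hβ0 k)
      _ = ∑ k, β k * w k + σ * (∑ k, β k * b k + ∑ k, β k * α k) := by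
          simp only [mul_add, Finset.sum_add_distrib, Finset.mul_sum, mul_left_comm]

/-- The error terms: `[G ^ a φ]` with `a ≤ 1` and `wt φ ≥ s (1 - a)`. -/
def J (G : B) (s : ℚ) : AddSubmonoid A :=
  AddSubmonoid.closure (D.tei '' {x | ∃ a w : ℚ, ∃ g φ : B, x = g * φ ∧ IsPow p G a g ∧
    φ ∈ D.Fil w ∧ a ≤ 1 ∧ s * (1 - a) ≤ w})

lemma J_mul_mem (a : A) {G : B} {s : ℚ} {x : A} (hx : x ∈ D.J G s) : a * x ∈ D.J G s := by
  induction hx using AddSubmonoid.closure_induction with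
  | mem y hy =>
    obtain ⟨_, ⟨α, w, g, φ, rfl, ha, hφ, h1, h2⟩, rfl⟩ := hy
    induction D.gen a using AddSubmonoid.closure_induction with
    | mem z hz =>
      obtain ⟨c, rfl⟩ := hz
      refine AddSubmonoid.subset_closure ⟨g * (c * φ), ⟨α, w, g, c * φ, rfl, ha, ?_, h1, h2⟩,
        by rw [← map_mul]; congr 1; ring⟩
      have := D.fil_mul (D.fil_zero c) hφ
      rwa [zero_add] at this
    | zero => simp
    | add z z' _ _ hz hz' => rw [add_mul]; exact add_mem hz hz'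
  | zero => simp
  | add y y' _ _ hy hy' => rw [mul_add]; exact add_mem hy hy'

lemma J_mono {G : B} {s s' : ℚ} (hs : s' ≤ s) : D.J G s ≤ D.J G s' := by
  refine AddSubmonoid.closure_mono (Set.image_mono ?_)
  rintro x ⟨α, w, g, φ, rfl, ha, hφ, h1, h2⟩
  exact ⟨α, w, g, φ, rfl, ha, hφ, h1,
    le_trans (mul_le_mul_of_nonneg_right hs (sub_nonneg.mpr h1)) h2⟩

/-- One round of substitution gains `wp` in front of the old exponent. -/
lemma subst_step {G G' : B} {σ : ℚ} {R : ℕ} (l : List B) (hG : G' = G + l.sum)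
    (hl : ∀ z ∈ l, ∃ α w : ℚ, ∃ g φ : B, z = g * φ ∧ IsPow p G α g ∧ φ ∈ D.Fil w ∧
      α ≤ 1 ∧ σ + D.wp * α ≤ w + σ * α) :
    AddSubmonoid.closure (D.tei '' D.Rnd G' G σ R) ≤
      AddSubmonoid.closure (D.tei '' D.Rnd G' G σ (R + 1)) := by
  refine AddSubmonoid.closure_le.mpr ?_
  rintro _ ⟨_, ⟨b, α, w, g, g', φ, rfl, hb, ha, hφ, h1, h3⟩, rfl⟩
  obtain ⟨m, j, rfl, r, hr, rfl⟩ := ha
  set u : ℚ := 1 / (p : ℚ) ^ m with hu
  have hu0 : 0 ≤ u := (div_pos one_pos (p_pow_pos m)).le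
  have hr_mem : r ∈ AddSubmonoid.closure (D.Term G' G σ u) := by
    obtain ⟨r', hr'⟩ := exists_root (p := p) G' m
    choose rz hrz using fun z : B => exists_root (p := p) z m
    have hsum : r = r' + (l.map fun z => -rz z).sum := by
      apply root_unique (p := p) (m := m)
      rw [← iterateFrobenius_def, ← iterateFrobenius_def p m (r' + _), map_add, map_list_sum,
        List.map_map, iterateFrobenius_def, iterateFrobenius_def, hr, hr']
      have : (l.map (⇑(iterateFrobenius B p m) ∘ fun z => -rz z)).sum = -l.sum := by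
        clear hG hl
        induction l with
        | nil => simp
        | cons z l ih =>
          simp only [List.map_cons, List.sum_cons, Function.comp_apply, map_neg,
            iterateFrobenius_def, hrz] at ih ⊢
          rw [ih]; ring
      rw [this, hG]; ring
    rw [hsum]
    refine add_mem (AddSubmonoid.subset_closure ⟨u, 0, 0, 1, r', 1, by ring,
      ⟨m, 1, by simp [hu], r', hr', by simp⟩, IsPow.zero, D.fil_zero 1, by linarith,
      by linarith⟩) (AddSubmonoid.list_sum_mem _ fun y hy => ?_)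
    obtain ⟨z, hz, rfl⟩ := List.mem_map.mp hy
    obtain ⟨α', w', gz, φz, rfl, hgz, hφz, hα', hw'⟩ := hl z hz
    obtain ⟨rg, hrg⟩ := exists_root (p := p) gz m
    obtain ⟨rφ, hrφ⟩ := exists_root (p := p) φz m
    have e : rz (gz * φz) = rg * rφ :=
      root_unique (p := p) (m := m) (by rw [hrz, mul_pow, hrg, hrφ])
    refine AddSubmonoid.subset_closure ⟨0, u * α', u * w', rg, 1, -rφ, by rw [e]; ring,
      IsPow.zero, ?_, neg_mem ?_, ?_, ?_⟩
    · have := hgz.rpow m 1 hrg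
      simpa [hu] using this
    · have := D.fil_root (a := w') (m := m) (hrφ.symm ▸ hφz)
      rwa [hu, one_div_mul_eq_div]
    · rw [zero_add]; exact mul_le_of_le_one_right hu0 hα'
    · nlinarith [mul_le_mul_of_nonneg_left hw' hu0]
  have hj := D.closure_pow hr_mem j
  have hju : (j : ℚ) * u = j / (p : ℚ) ^ m := by rw [hu, mul_one_div]
  rw [hju] at hj
  obtain ⟨ys, hys, hsum⟩ := AddSubmonoid.exists_list_of_mem_closure hj
  have e : g' * r ^ j * φ = (ys.map fun y => g' * y * φ).sum := by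
    rw [List.sum_map_mul_right, List.sum_map_mul_left, List.map_id', hsum]
  rw [e]
  refine D.tei_closure_mem (fun c x hx => D.rnd_mul c hx) D.rnd_conv
    (AddSubmonoid.list_sum_mem _ fun x hx => AddSubmonoid.subset_closure ?_)
  obtain ⟨y, hy, rfl⟩ := List.mem_map.mp hx
  obtain ⟨b', α', w', k, k', ψ, rfl, hb', ha', hψ, h1', h3'⟩ := hys y hy
  refine ⟨b + b', α', w + w', k, g' * k', φ * ψ, by ring, hb.mul hb', ha', D.fil_mul hφ hψ,
    by linarith, ?_⟩
  have hle : α' ≤ j / (p : ℚ) ^ m := by linarith [hb'.nonneg]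
  push_cast
  nlinarith [mul_le_mul_of_nonneg_left hle
    (mul_nonneg (Nat.cast_nonneg R) (zero_le_one.trans D.one_le_wp) : (0 : ℚ) ≤ R * D.wp)]

/-- After enough rounds the old element is absorbed. -/
lemma rnd_le_J {G G' : B} {σ : ℚ} {R : ℕ} (hR : σ ≤ R * D.wp) :
    AddSubmonoid.closure (D.tei '' D.Rnd G' G σ R) ≤ D.J G' σ := by
  refine AddSubmonoid.closure_mono (Set.image_mono ?_)
  rintro x ⟨b, α, w, g, g', φ, rfl, hb, ha, hφ, h1, h3⟩
  refine ⟨b, w, g', g * φ, by ring, hb, ?_, by linarith [ha.nonneg], ?_⟩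
  · have := D.fil_mul (D.fil_zero g) hφ
    rwa [zero_add] at this
  · nlinarith [mul_le_mul_of_nonneg_right hR ha.nonneg]

/-- One improvement step of Lemma A. -/
lemma improve {f : A} {G : B} {n s : ℚ} (hG : G ∈ D.Fil n) (hns : n ≤ s)
    (hf : ∃ x ∈ D.J G s, f - D.tei G = p * x) :
    ∃ G' : B, G' - G ∈ D.Fil (n + D.wp) ∧
      ∃ x ∈ D.J G' (s + D.wp), f - D.tei G' = p * x := by
  classical
  obtain ⟨x, hx, hfx⟩ := hf
  set σ := s + D.wp with hσ
  have hx' : ∃ l : List B, (p : A) * x = (l.map D.tei).sum ∧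
      ∀ z ∈ l, ∃ α w : ℚ, ∃ g φ : B, z = g * φ ∧ IsPow p G α g ∧ φ ∈ D.Fil w ∧
        α ≤ 1 ∧ σ + D.wp * α ≤ w + σ * α := by
    clear hfx
    induction hx using AddSubmonoid.closure_induction with
    | mem y hy =>
      obtain ⟨_, ⟨α, w, g, φ, rfl, ha, hφ, h1, h2⟩, rfl⟩ := hy
      refine ⟨[g * (D.Y * φ)], ?_, fun z hz => ?_⟩
      · rw [List.map_singleton, List.sum_singleton, ← D.tei_Y, ← map_mul]
        congr 1; ring
      · rw [List.mem_singleton] at hz
        exact ⟨α, D.wp + w, g, D.Y * φ, hz, ha, D.fil_mul D.Y_mem hφ, h1, by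
          rw [hσ]; linarith⟩
    | zero => exact ⟨[], by simp, by simp⟩
    | add y y' _ _ hy hy' =>
      obtain ⟨l, hl, hl'⟩ := hy
      obtain ⟨m, hm, hm'⟩ := hy'
      exact ⟨l ++ m, by simp [mul_add, hl, hm], fun z hz =>
        (List.mem_append.mp hz).elim (hl' z) (hm' z)⟩
  obtain ⟨l, hl, hlp⟩ := hx'
  refine ⟨G + l.sum, ?_, ?_⟩
  · rw [add_sub_cancel_left]
    refine AddSubgroup.list_sum_mem _ fun z hzl => ?_
    obtain ⟨α, w, g, φ, rfl, hgp, hφ, h1, h2⟩ := hlp z hzl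
    refine D.fil_anti ?_ (D.fil_mul (D.isPow_mem hgp hG) hφ)
    rw [hσ] at h2
    nlinarith [mul_nonneg (sub_nonneg.mpr hns) (sub_nonneg.mpr h1)]
  set G' := G + l.sum with hG'
  obtain ⟨c, hc, hmix⟩ := D.mix (G :: l)
  choose r hr using fun k => exists_root (p := p) ((G :: l).get k) D.T
  have hmix' := hmix r hr
  rw [List.sum_cons, List.map_cons, List.sum_cons, ← hG'] at hmix'
  set M := (c.map fun ce => (ce.1 : A) * D.tei (∏ k, r k ^ ce.2 k)).sum with hM
  have hfG : f - D.tei G' = (p : A) * (-1 * M) := by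
    rw [hmix', ← hl, eq_add_of_sub_eq hfx]; ring
  have hall : ∀ z ∈ G :: l, z ∈ D.Rnd G' G σ 0 := by
    intro z hz
    rcases List.mem_cons.mp hz with rfl | hz
    · exact ⟨0, 1, 0, z, 1, 1, by simp, IsPow.zero, IsPow.one, D.fil_zero 1, by simp, by simp⟩
    · obtain ⟨α, w, g, φ, rfl, hgp, hφ, h1, h2⟩ := hlp z hz
      refine ⟨0, α, w, g, 1, φ, by simp, IsPow.zero, hgp, hφ, by linarith, ?_⟩
      simp only [Nat.cast_zero, zero_mul, add_zero, zero_add]
      nlinarith [mul_nonneg (zero_le_one.trans D.one_le_wp) hgp.nonneg]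
  have hMmem : M ∈ AddSubmonoid.closure (D.tei '' D.Rnd G' G σ 0) := by
    refine AddSubmonoid.list_sum_mem _ fun y hy => ?_
    obtain ⟨ce, hce, rfl⟩ := List.mem_map.mp hy
    rw [← nsmul_eq_mul]
    refine AddSubmonoid.nsmul_mem _ ?_ _
    exact AddSubmonoid.subset_closure (Set.mem_image_of_mem D.tei
      (D.rnd_conv (G :: l) hall _ r (hc ce hce).1 hr))
  have hstep : ∀ R : ℕ, M ∈ AddSubmonoid.closure (D.tei '' D.Rnd G' G σ R) := by
    intro R
    induction R with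
    | zero => exact hMmem
    | succ R ih => exact D.subst_step l hG' hlp ih
  obtain ⟨R, hR⟩ := exists_nat_ge σ
  have hR' : σ ≤ R * D.wp := hR.trans (le_mul_of_one_le_right (Nat.cast_nonneg R) D.one_le_wp)
  exact ⟨-1 * M, D.J_mul_mem _ (D.rnd_le_J hR' (hstep R)), hfG⟩

/-- The starting point: a sum of Teichmullers is the Teichmuller of the sum up to `p J`. -/
lemma start {n : ℚ} (l : List B) (hl : ∀ z ∈ l, z ∈ D.Fil n) :
    ∃ x ∈ D.J l.sum n, (l.map D.tei).sum - D.tei l.sum = p * x := by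
  obtain ⟨c, hc, hmix⟩ := D.mix l
  choose r hr using fun k => exists_root (p := p) (l.get k) D.T
  refine ⟨-1 * (c.map fun ce => (ce.1 : A) * D.tei (∏ k, r k ^ ce.2 k)).sum,
    D.J_mul_mem _ (AddSubmonoid.list_sum_mem _ fun y hy => ?_), by rw [hmix r hr]; ring⟩
  obtain ⟨ce, hce, rfl⟩ := List.mem_map.mp hy
  refine D.J_mul_mem _ (AddSubmonoid.subset_closure ⟨_, ⟨0, n, 1, _, (one_mul _).symm,
    IsPow.zero, ?_, zero_le_one, by simp⟩, rfl⟩)
  have := D.prod_mem_fil ce.2 (fun _ => n) l.get r (fun i => hl _ (List.get_mem l i)) hr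
  rwa [← Finset.sum_mul, D.sum_weights _ (hc ce hce).1, one_mul] at this

/-- **Lemma A**: a sum of Teichmullers of weight at least `n` is one Teichmuller up to `p J_N`. -/
theorem lemmaA {n : ℚ} (l : List B) (hl : ∀ z ∈ l, z ∈ D.Fil n) (N : ℚ) :
    ∃ G : B, G - l.sum ∈ D.Fil (n + D.wp) ∧ G ∈ D.Fil n ∧
      ∃ x ∈ D.J G N, (l.map D.tei).sum - D.tei G = p * x := by
  obtain ⟨K, hK⟩ := exists_nat_ge (N - n)
  have hw := D.one_le_wp
  have key : ∀ i : ℕ, ∃ G : B, G - l.sum ∈ D.Fil (n + D.wp) ∧ G ∈ D.Fil n ∧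
      ∃ x ∈ D.J G (n + i * D.wp), (l.map D.tei).sum - D.tei G = p * x := by
    intro i
    induction i with
    | zero =>
      obtain ⟨x, hx, hfx⟩ := D.start l hl
      exact ⟨l.sum, by simp, AddSubgroup.list_sum_mem _ hl, x, by simpa using hx, hfx⟩
    | succ i ih =>
      obtain ⟨G, hG, hGn, hx⟩ := ih
      obtain ⟨G', hG', x, hx', hfx⟩ := D.improve hGn
        (le_add_of_nonneg_right (mul_nonneg (Nat.cast_nonneg i) (zero_le_one.trans hw))) hx
      refine ⟨G', ?_, ?_, x, D.J_mono (le_of_eq (by push_cast; ring)) hx', hfx⟩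
      · have := add_mem hG' hG
        rwa [sub_add_sub_cancel] at this
      · have := add_mem (D.fil_anti (show n ≤ n + D.wp by linarith) hG') hGn
        rwa [sub_add_cancel] at this
  obtain ⟨G, hG, hGn, x, hx, hfx⟩ := key K
  refine ⟨G, hG, hGn, x, D.J_mono ?_ hx, hfx⟩
  nlinarith [le_mul_of_one_le_right (Nat.cast_nonneg K : (0 : ℚ) ≤ K) hw]

end TeiData
end P202.Mixed
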