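import Vale.Agent.P202.M4Tei

/-!
# P202, mixed characteristic: the levels of `PT` and the truncation of power series
-/

set_option linter.style.header false
set_option linter.unusedSectionVars false

universe u

namespace Vale.Agent.P202

open P202.Mixed

variable {p : ℕ} [Fact p.Prime] {k : Type u} [Field k] [CharP k p] [PerfectRing k p] {d n : ℕ}
  {wt : Vr d n → ℕ} {T : ℚ}

lemma exDiv_apply (jq : ℕ) (γ : Vr d n →₀ ℕ) (v : Vr d n) :
    ((exDiv p jq γ v : ↥(pExp p)) : ℚ≥0) = (γ v : ℚ≥0) / (p : ℚ≥0) ^ jq := by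
  simp [exDiv, pDiv]

lemma exDiv_injective (jq : ℕ) : Function.Injective (exDiv p jq : (Vr d n →₀ ℕ) → Ex p d n) := by
  intro a b h
  ext v
  have := congrArg Subtype.val (DFunLike.congr_fun h v)
  rw [exDiv_apply, exDiv_apply, div_left_inj' (pow_ne_zero _ p_ne_zero_nnrat)] at this
  exact_mod_cast this

lemma exWt_exDiv (jq : ℕ) (γ : Vr d n →₀ ℕ) :
    exWt p wt (exDiv p jq γ) = (Finsupp.weight wt γ : ℕ) / (p : ℚ) ^ jq := by
  induction γ using Finsupp.induction with
  | zero => simp
  | single_add v a γ _ _ ih =>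
    rw [map_add, map_add, map_add, ih, Finsupp.weight_single, Nat.cast_add, add_div]
    congr 1
    rw [show exDiv p jq (Finsupp.single v a) = Finsupp.single v (pDiv p a jq) by
      simp [exDiv], exWt_single]
    simp [pDiv, div_mul_eq_mul_div]

lemma exDiv_expand (jq m : ℕ) (γ : Vr d n →₀ ℕ) :
    exDiv p (jq + m) (p ^ m • γ) = exDiv p jq γ := by
  ext v
  rw [exDiv_apply, exDiv_apply, Finsupp.smul_apply, smul_eq_mul, Nat.cast_mul, Nat.cast_pow,
    pow_add, mul_comm ((p : ℚ≥0) ^ jq), mul_div_mul_left _ _ (pow_ne_zero m p_ne_zero_nnrat)]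

lemma exDiv_single_none (jq : ℕ) :
    exDiv p jq (Finsupp.single none (p ^ jq) : Vr d n →₀ ℕ) = exY p d n := by
  ext v
  rw [exDiv_apply]
  rcases eq_or_ne v none with rfl | hv
  · simp [exY, (Fact.out : p.Prime).ne_zero]
  · simp [exY, Finsupp.single_eq_of_ne hv]

variable (k) in
/-- The relation `Y ^ q = p`. -/
noncomputable def qRel (p : ℕ) [Fact p.Prime] (d n jq : ℕ) :
    Ideal (MvPolynomial (Vr d n) (WittVector p k)) :=
  Ideal.span {MvPolynomial.X none ^ p ^ jq - MvPolynomial.C (p : WittVector p k)}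

lemma levelPT_monomial (jq : ℕ) (γ : Vr d n →₀ ℕ) (c : WittVector p k) :
    levelPT p wt T jq (MvPolynomial.monomial γ c) = monPT p wt T (exDiv p jq γ) c := by
  simp [levelPT, monPT, MvPolynomial.monomial]

lemma monPT_mul (g h : Ex p d n) (a b : WittVector p k) :
    monPT p wt T g a * monPT p wt T h b = monPT p wt T (g + h) (a * b) := by
  rw [monPT, monPT, monPT, ← map_mul, AddMonoidAlgebra.single_mul_single]

lemma monPT_eq_zero {g : Ex p d n} (hg : T ≤ exWt p wt g) (c : WittVector p k) :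
    monPT p wt T g c = 0 :=
  toT_single_eq_zero _ T hg c

lemma monPT_exY : monPT p wt T (exY p d n) (1 : WittVector p k) = (p : PT p k wt T) :=
  (natCast_toT (exWt p wt) T).symm

lemma monPT_p_pow (g : Ex p d n) (c : WittVector p k) (m : ℕ) :
    monPT p wt T g ((p : WittVector p k) ^ m * c) = monPT p wt T (g + m • exY p d n) c := by
  induction m generalizing g with
  | zero => simp
  | succ m ih =>
    rw [pow_succ', mul_assoc, monPT, toT_single_mul_p, ← monPT, ih, succ_nsmul', add_assoc]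

lemma levelPT_qRel (jq : ℕ) {h : MvPolynomial (Vr d n) (WittVector p k)}
    (hh : h ∈ qRel k p d n jq) : levelPT p wt T jq h = 0 := by
  obtain ⟨a, rfl⟩ := Ideal.mem_span_singleton'.mp hh
  have e1 : levelPT p wt T jq (MvPolynomial.X none ^ p ^ jq) = (p : PT p k wt T) := by
    rw [MvPolynomial.X, MvPolynomial.monomial_pow, one_pow, Finsupp.smul_single, smul_eq_mul,
      mul_one, levelPT_monomial, exDiv_single_none, monPT_exY]
  rw [map_mul, map_sub, e1, map_natCast MvPolynomial.C, map_natCast, sub_self, mul_zero]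

lemma levelPT_wIdeal (T : ℕ) (jq : ℕ) {h : MvPolynomial (Vr d n) (WittVector p k)}
    (hh : h ∈ wIdeal (WittVector p k) wt (p ^ jq * T)) : levelPT p wt (T : ℚ) jq h = 0 := by
  refine (Ideal.span_le (I := RingHom.ker (levelPT p wt (T : ℚ) jq)).mpr ?_) hh
  rintro _ ⟨γ, hγ, rfl⟩
  rw [SetLike.mem_coe, RingHom.mem_ker, levelPT_monomial]
  refine monPT_eq_zero ?_ _
  rw [exWt_exDiv, le_div_iff₀ (p_pow_pos jq), mul_comm]
  exact_mod_cast hγ

lemma monomial_sub_mem_qRel (jq m : ℕ) (γ : Vr d n →₀ ℕ) (c : WittVector p k) :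
    MvPolynomial.monomial (γ + Finsupp.single none (p ^ jq * m)) c -
      MvPolynomial.monomial γ ((p : WittVector p k) ^ m * c) ∈ qRel k p d n jq := by
  have e1 : MvPolynomial.monomial (γ + Finsupp.single none (p ^ jq * m)) c =
      MvPolynomial.monomial γ c * (MvPolynomial.X none ^ p ^ jq) ^ m := by
    rw [← pow_mul, MvPolynomial.X_pow_eq_monomial, MvPolynomial.monomial_mul, mul_one]
  have e2 : MvPolynomial.monomial γ ((p : WittVector p k) ^ m * c) =
      MvPolynomial.monomial γ c * (MvPolynomial.C (p : WittVector p k) :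
        MvPolynomial (Vr d n) (WittVector p k)) ^ m := by
    rw [← map_pow, mul_comm (MvPolynomial.monomial γ c), MvPolynomial.C_mul_monomial]
  rw [e1, e2, ← mul_sub]
  exact Ideal.mul_mem_left _ _
    (Ideal.mem_of_dvd _ (sub_dvd_pow_sub_pow _ _ m) (Ideal.subset_span rfl))

lemma exists_reduced (jq : ℕ) (h : MvPolynomial (Vr d n) (WittVector p k)) :
    ∃ h₀ : MvPolynomial (Vr d n) (WittVector p k),
      (∀ γ ∈ h₀.support, γ none < p ^ jq) ∧ h - h₀ ∈ qRel k p d n jq := by
  classical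
  induction h using MvPolynomial.induction_on' with
  | add a b ha hb =>
    obtain ⟨a₀, ha0, ha1⟩ := ha
    obtain ⟨b₀, hb0, hb1⟩ := hb
    refine ⟨a₀ + b₀, fun γ hγ => ?_, by rw [add_sub_add_comm]; exact add_mem ha1 hb1⟩
    rcases Finset.mem_union.mp (MvPolynomial.support_add hγ) with h | h
    · exact ha0 γ h
    · exact hb0 γ h
  | monomial γ c =>
    have hq : 0 < p ^ jq := pow_pos (Fact.out : p.Prime).pos jq
    set γ' : Vr d n →₀ ℕ := γ.update none (γ none % p ^ jq)
    have hsplit : γ = γ' + Finsupp.single none (p ^ jq * (γ none / p ^ jq)) := by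
      ext v
      rcases eq_or_ne v none with rfl | hv
      · simp [γ', Nat.mod_add_div]
      · simp [γ', Finsupp.update, hv, Finsupp.single_eq_of_ne hv]
    refine ⟨MvPolynomial.monomial γ' ((p : WittVector p k) ^ (γ none / p ^ jq) * c),
      fun δ hδ => ?_, ?_⟩
    · rw [Finset.mem_singleton.mp (MvPolynomial.support_monomial_subset hδ)]
      simp [γ', Nat.mod_lt _ hq]
    · conv => enter [2, 1]; rw [hsplit]
      exact monomial_sub_mem_qRel jq _ γ' c

lemma coord_level (jq : ℕ) {h₀ : MvPolynomial (Vr d n) (WittVector p k)}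
    (h0 : ∀ γ ∈ h₀.support, γ none < p ^ jq) (γ : Vr d n →₀ ℕ) :
    coord (exSplit p) (Ideal.Quotient.mk (relIdeal (p : WittVector p k) (exY p d n))
      (AddMonoidAlgebra.mapDomainRingHom (WittVector p k) (exDiv p jq) h₀)) (exDiv p jq γ) =
      MvPolynomial.coeff γ h₀ := by
  classical
  rw [coord_mk]
  conv_lhs => rw [h₀.as_sum]
  rw [map_sum, map_sum, Finsupp.finsetSum_apply]
  conv_rhs => rw [h₀.as_sum, MvPolynomial.coeff_sum]
  refine Finset.sum_congr rfl fun δ hδ => ?_
  have h1 : AddMonoidAlgebra.mapDomainRingHom (WittVector p k) (exDiv p jq)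
      (MvPolynomial.monomial δ (MvPolynomial.coeff δ h₀)) =
      AddMonoidAlgebra.single (exDiv p jq δ) (MvPolynomial.coeff δ h₀) := by
    simp [MvPolynomial.monomial]
  have hwhole : (exSplit p).whole (exDiv p jq δ) = 0 := by
    change ⌊((exDiv p jq δ none : ↥(pExp p)) : ℚ≥0)⌋₊ = 0
    rw [Nat.floor_eq_zero, exDiv_apply, div_lt_one (pow_pos (by
      exact_mod_cast (Fact.out : p.Prime).pos) jq)]
    exact_mod_cast h0 δ hδ
  have hrest : (exSplit p).rest (exDiv p jq δ) = exDiv p jq δ := by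
    have := (exSplit p).eq (exDiv p jq δ)
    rw [hwhole, zero_smul, zero_add] at this
    exact this.symm
  rw [h1, red_single, hwhole, hrest, pow_zero, mul_one, Finsupp.single_apply,
    MvPolynomial.coeff_monomial]
  simp only [(exDiv_injective jq).eq_iff]

lemma levelPT_eq_zero_iff (hwt : ∀ v, 0 < wt v) (T : ℕ) (jq : ℕ)
    (h : MvPolynomial (Vr d n) (WittVector p k)) :
    levelPT p wt (T : ℚ) jq h = 0 ↔
      h ∈ wIdeal (WittVector p k) wt (p ^ jq * T) ⊔ qRel k p d n jq := by
  classical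
  constructor
  · intro hh
    obtain ⟨h₀, h0, h1⟩ := exists_reduced jq h
    have hh₀ : levelPT p wt (T : ℚ) jq h₀ = 0 := by
      have := levelPT_qRel (wt := wt) (T := (T : ℚ)) jq h1
      rw [map_sub, hh, zero_sub, neg_eq_zero] at this
      exact this
    have hmem : Ideal.Quotient.mk (relIdeal (p : WittVector p k) (exY p d n))
        (AddMonoidAlgebra.mapDomainRingHom (WittVector p k) (exDiv p jq) h₀) ∈
        P202.Mixed.wIdeal (p : WittVector p k) (exY p d n) (exWt p wt) (T : ℚ) :=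
      (toT_eq_zero_iff (exWt p wt) (T : ℚ) _).mp hh₀
    suffices hs : h₀ ∈ wIdeal (WittVector p k) wt (p ^ jq * T) ⊔ qRel k p d n jq by
      rw [← sub_add_cancel h h₀]
      exact add_mem (Ideal.mem_sup_right h1) hs
    rw [h₀.as_sum]
    refine Ideal.sum_mem _ fun γ hγ => ?_
    have hy : (0 : ℚ) < exWt p wt (exY p d n) :=
      lt_of_lt_of_le one_pos (one_le_exWt_exY p hwt)
    obtain ⟨m, ⟨c, hc⟩, hm⟩ :=
      (mem_wIdeal_iff (exSplit p) (exWt p wt) (exWt_nonneg p wt) hy _ _).mp hmem (exDiv p jq γ)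
    rw [coord_level jq h0] at hc hm
    rcases hm with hm | hm
    · exact absurd hm (MvPolynomial.mem_support_iff.mp hγ)
    have e := monomial_sub_mem_qRel (p := p) (k := k) jq m γ c
    rw [← hc] at e
    rw [show MvPolynomial.monomial γ (MvPolynomial.coeff γ h₀) =
        MvPolynomial.monomial (γ + Finsupp.single none (p ^ jq * m)) c -
          (MvPolynomial.monomial (γ + Finsupp.single none (p ^ jq * m)) c -
            MvPolynomial.monomial γ (MvPolynomial.coeff γ h₀)) by ring]
    refine sub_mem (Ideal.mem_sup_left ?_) (Ideal.mem_sup_right e)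
    rw [show MvPolynomial.monomial (γ + Finsupp.single none (p ^ jq * m)) c =
        MvPolynomial.C c * MvPolynomial.monomial (γ + Finsupp.single none (p ^ jq * m)) 1 by
      rw [MvPolynomial.C_mul_monomial, mul_one]]
    refine Ideal.mul_mem_left _ _ (Ideal.subset_span ⟨_, ?_, rfl⟩)
    rw [exWt_exDiv, exWt_exY, ← div_le_div_iff_of_pos_right (p_pow_pos (p := p) jq)] at hm
    have hp := p_pow_pos (p := p) jq
    have h2 : ((p ^ jq * T : ℕ) : ℚ) ≤
        ((Finsupp.weight wt (γ + Finsupp.single none (p ^ jq * m)) : ℕ) : ℚ) := by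
      rw [map_add, Finsupp.weight_single, smul_eq_mul]
      push_cast
      rw [div_le_div_iff_of_pos_right hp] at hm
      have := mul_le_mul_of_nonneg_right hm hp.le
      rw [add_mul, div_mul_cancel₀ _ hp.ne'] at this
      linarith
    exact_mod_cast h2
  · intro hh
    obtain ⟨a, ha, b, hb, rfl⟩ := Submodule.mem_sup.mp hh
    rw [map_add, levelPT_wIdeal T jq ha, levelPT_qRel jq hb, add_zero]

lemma levelPT_expand (jq m : ℕ) (h : MvPolynomial (Vr d n) (WittVector p k)) :
    levelPT p wt T (jq + m) (MvPolynomial.expand (p ^ m) h) = levelPT p wt T jq h := by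
  induction h using MvPolynomial.induction_on' with
  | monomial γ c =>
    rw [MvPolynomial.expand_monomial]
    rw [levelPT_monomial, levelPT_monomial, exDiv_expand]
  | add a b ha hb => rw [map_add, map_add, map_add, ha, hb]

lemma exists_exDiv (g : Ex p d n) : ∃ jq γ, exDiv p jq γ = g := by
  induction g using Finsupp.induction with
  | zero => exact ⟨0, 0, map_zero _⟩
  | single_add v a g _ _ ih =>
    obtain ⟨jq, γ, rfl⟩ := ih
    obtain ⟨m, c, hc⟩ := a.2
    refine ⟨jq + m, p ^ m • γ + Finsupp.single v (p ^ jq * c), ?_⟩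
    rw [map_add, exDiv_expand, add_comm]
    congr 1
    ext w
    rw [exDiv_apply]
    rcases eq_or_ne w v with rfl | hw
    · rw [Finsupp.single_eq_same, Finsupp.single_eq_same, Nat.cast_mul, ← hc, Nat.cast_pow,
        pow_add, mul_comm (a : ℚ≥0), ← mul_assoc, mul_div_cancel_left₀ _
          (mul_ne_zero (pow_ne_zero _ p_ne_zero_nnrat) (pow_ne_zero _ p_ne_zero_nnrat))]
    · simp [Finsupp.single_eq_of_ne hw]

lemma exists_level_sum (T : ℚ) (f : AddMonoidAlgebra (WittVector p k) (Ex p d n)) :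
    ∃ jq h, levelPT p wt T jq h = toT (exWt p wt) T f := by
  induction f using AddMonoidAlgebra.induction_linear with
  | zero => exact ⟨0, 0, by rw [map_zero, map_zero]⟩
  | add a b ha hb =>
    obtain ⟨i, f, hf⟩ := ha
    obtain ⟨j, g, hg⟩ := hb
    refine ⟨i + j, MvPolynomial.expand (p ^ j) f + MvPolynomial.expand (p ^ i) g, ?_⟩
    rw [map_add, map_add, levelPT_expand, add_comm i j, levelPT_expand, hf, hg]
  | single g w =>
    obtain ⟨jq, γ, rfl⟩ := exists_exDiv g
    exact ⟨jq, MvPolynomial.monomial γ w, levelPT_monomial jq γ w⟩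

lemma exists_level (x : PT p k wt T) : ∃ jq h, levelPT p wt T jq h = x := by
  obtain ⟨f, rfl⟩ := toT_surjective (exWt p wt) T x
  exact exists_level_sum T f

lemma exDiv_zero_mapDomain_weight (γ : Fin d ⊕ Fin n →₀ ℕ) :
    Finsupp.weight wt (γ.mapDomain some) = Finsupp.weight (fun v => wt (some v)) γ := by
  induction γ using Finsupp.induction with
  | zero => simp
  | single_add v a γ _ _ ih =>
    rw [Finsupp.mapDomain_add, map_add, map_add, ih, Finsupp.mapDomain_single,
      Finsupp.weight_single, Finsupp.weight_single]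

lemma degree_le_weight (hwt : ∀ v, 0 < wt v) (γ : Fin d ⊕ Fin n →₀ ℕ) :
    γ.degree ≤ Finsupp.weight (fun v => wt (some v)) γ := by
  induction γ using Finsupp.induction with
  | zero => simp
  | single_add v a γ _ _ ih =>
    rw [map_add, map_add, Finsupp.degree_single, Finsupp.weight_single]
    exact add_le_add (Nat.le_mul_of_pos_right a (hwt _)) ih

lemma polyPT_eq_zero (hwt : ∀ v, 0 < wt v) (T : ℕ)
    (h : MvPolynomial (Fin d ⊕ Fin n) (WittVector p k))
    (hh : ∀ γ, γ.degree < T + 1 → ∃ i, T ≤ i * wt none + Finsupp.weight (fun v => wt (some v)) γ ∧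
      (p : WittVector p k) ^ i ∣ MvPolynomial.coeff γ h) :
    levelPT p wt (T : ℚ) 0 (MvPolynomial.rename some h) = 0 := by
  rw [h.as_sum, map_sum, map_sum]
  refine Finset.sum_eq_zero fun γ _ => ?_
  rw [MvPolynomial.rename_monomial, levelPT_monomial]
  obtain ⟨i, hi, c, hc⟩ : ∃ i, T ≤ i * wt none + Finsupp.weight (fun v => wt (some v)) γ ∧
      (p : WittVector p k) ^ i ∣ MvPolynomial.coeff γ h := by
    by_cases hd : γ.degree < T + 1
    · exact hh γ hd
    · exact ⟨0, by have := degree_le_weight hwt γ; omega, by simp⟩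
  rw [hc, monPT_p_pow]
  refine monPT_eq_zero ?_ c
  rw [map_add, map_nsmul, exWt_exDiv, exWt_exY, exDiv_zero_mapDomain_weight, pow_zero, div_one,
    nsmul_eq_mul]
  exact_mod_cast (add_comm (i * wt none) _).symm ▸ hi

lemma piPT_eq (T : ℕ) (f : MvPowerSeries (Fin d ⊕ Fin n) (WittVector p k)) :
    piPT p wt (T : ℚ) f =
      levelPT p wt (T : ℚ) 0 (MvPolynomial.rename some (MvPowerSeries.truncTotal (T + 1) f)) := by
  rw [piPT, Nat.ceil_natCast]

lemma piPT_add (T : ℚ) (f g : MvPowerSeries (Fin d ⊕ Fin n) (WittVector p k)) :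
    piPT p wt T (f + g) = piPT p wt T f + piPT p wt T g := by
  simp only [piPT, map_add]

lemma piPT_coe (hwt : ∀ v, 0 < wt v) (T : ℕ) (h : MvPolynomial (Fin d ⊕ Fin n) (WittVector p k)) :
    piPT p wt (T : ℚ) (h : MvPowerSeries (Fin d ⊕ Fin n) (WittVector p k)) =
      levelPT p wt (T : ℚ) 0 (MvPolynomial.rename some h) := by
  rw [piPT_eq, ← sub_eq_zero, ← map_sub, ← map_sub]
  refine polyPT_eq_zero hwt T _ fun γ hγ => ⟨T, ?_, ?_⟩
  · have := hwt none
    nlinarith
  · rw [MvPolynomial.coeff_sub, MvPowerSeries.coeff_truncTotal _ hγ, MvPolynomial.coeff_coe, sub_self]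
    exact dvd_zero _

lemma piPT_mul (hwt : ∀ v, 0 < wt v) (T : ℕ)
    (f g : MvPowerSeries (Fin d ⊕ Fin n) (WittVector p k)) :
    piPT p wt (T : ℚ) (f * g) = piPT p wt (T : ℚ) f * piPT p wt (T : ℚ) g := by
  rw [piPT_eq, piPT_eq, piPT_eq, ← map_mul, ← map_mul, ← sub_eq_zero, ← map_sub, ← map_sub]
  refine polyPT_eq_zero hwt T _ fun γ hγ => ⟨T, ?_, ?_⟩
  · have := hwt none
    nlinarith
  · rw [MvPolynomial.coeff_sub, MvPowerSeries.coeff_truncTotal _ hγ,
      MvPowerSeries.coeff_truncTotal_mul_truncTotal_eq_coeff_mul _ _ hγ, sub_self]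
    exact dvd_zero _

lemma piPT_memW (hwt : ∀ v, 0 < wt v) (T : ℕ)
    (f : MvPowerSeries (Fin d ⊕ Fin n) (WittVector p k)) (hf : MemW p wt T f) :
    piPT p wt (T : ℚ) f = 0 := by
  rw [piPT_eq]
  refine polyPT_eq_zero hwt T _ fun γ hγ => ?_
  obtain ⟨i, hi, hd⟩ := hf γ
  exact ⟨i, hi, by rwa [MvPowerSeries.coeff_truncTotal _ hγ]⟩

lemma levelPT_piQ (hwt : ∀ v, 0 < wt v) (T : ℕ) (jq : ℕ)
    (h' : MvPolynomial (Fin d ⊕ Fin n) (WittVector p k)) :
    levelPT p wt (T : ℚ) jq (piQ (p ^ jq) h') =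
      piPT p wt (T : ℚ) (h' : MvPowerSeries (Fin d ⊕ Fin n) (WittVector p k)) := by
  rw [piPT_coe hwt, piQ, MvPolynomial.rename_expand]
  have := levelPT_expand (wt := wt) (T := (T : ℚ)) 0 jq (MvPolynomial.rename some h')
  rwa [zero_add] at this

lemma levelKG_monomial (jq : ℕ) (γ : Vr d n →₀ ℕ) (c : k) :
    levelKG p jq (MvPolynomial.monomial γ c) = AddMonoidAlgebra.single (exDiv p jq γ) c := by
  simp [levelKG, MvPolynomial.monomial]

lemma coeff_levelKG (jq : ℕ) (F : MvPolynomial (Vr d n) k) (γ : Vr d n →₀ ℕ) :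
    (levelKG p jq F).coeff (exDiv p jq γ) = MvPolynomial.coeff γ F := by
  classical
  conv_lhs => rw [F.as_sum]
  conv_rhs => rw [F.as_sum, MvPolynomial.coeff_sum]
  rw [map_sum, AddMonoidAlgebra.coeff_sum, Finsupp.finsetSum_apply]
  refine Finset.sum_congr rfl fun δ _ => ?_
  rw [levelKG_monomial, AddMonoidAlgebra.coeff_single, Finsupp.single_apply,
    MvPolynomial.coeff_monomial]
  simp only [(exDiv_injective jq).eq_iff]

lemma sum_toList_tei (hwt : ∀ v, 0 < wt v) (jq : ℕ) (F : MvPolynomial (Vr d n) k) :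
    ((F.support.toList.map fun γ => AddMonoidAlgebra.single (exDiv p jq γ)
      (MvPolynomial.coeff γ F)).map (teiPT p wt T)).sum = levelPT p wt T jq (liftL p F) ∧
    (F.support.toList.map fun γ => AddMonoidAlgebra.single (exDiv p jq γ)
      (MvPolynomial.coeff γ F)).sum = levelKG p jq F := by
  constructor
  · rw [List.map_map, Finset.sum_map_toList, liftL, map_sum]
    refine Finset.sum_congr rfl fun γ _ => ?_
    rw [Function.comp_apply, teiPT_single p hwt, levelPT_monomial]
  · rw [Finset.sum_map_toList]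
    conv_rhs => rw [F.as_sum, map_sum]
    simp only [levelKG_monomial]

lemma tei_lead (hwt : ∀ v, 0 < wt v) (T : ℚ) (jq : ℕ) {t : ℚ} (F : MvPolynomial (Vr d n) k)
    (hF : levelKG p jq F ∈ FilKG p wt t) :
    teiPT p wt T (levelKG p jq F) - levelPT p wt T jq (liftL p F) ∈
      AddSubmonoid.closure (teiPT p wt T ''
        ((FilKG (k := k) p wt (t + wt none) : AddSubgroup (KG p k d n)) : Set (KG p k d n))) := by
  obtain ⟨h1, h2⟩ := sum_toList_tei (T := T) hwt jq F
  let D := ptData p wt hwt T (k := k)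
  have hl : ∀ z ∈ F.support.toList.map (fun γ => AddMonoidAlgebra.single (exDiv p jq γ)
      (MvPolynomial.coeff γ F)), z ∈ D.Fil t := by
    intro z hz
    obtain ⟨γ, hγ, rfl⟩ := List.mem_map.mp hz
    refine single_mem_FilK (hF _ ?_) _
    rw [coeff_levelKG]
    exact MvPolynomial.mem_support_iff.mp (Finset.mem_toList.mp hγ)
  obtain ⟨x, hx, he⟩ := D.start _ hl
  rw [h2] at hx he
  have he' : levelPT p wt T jq (liftL p F) - teiPT p wt T (levelKG p jq F) =
      (p : PT p k wt T) * x := by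
    rw [← h1]; exact he
  rw [← neg_sub, he', ← mul_neg, ← neg_one_mul]
  have hx' := D.J_mul_mem (-1) hx
  generalize (-1) * x = y at hx'
  clear he he' hx
  induction hx' using AddSubmonoid.closure_induction with
  | mem y hy =>
    obtain ⟨_, ⟨a, w, g, φ, rfl, ha, hφ, h1', h2'⟩, rfl⟩ := hy
    refine AddSubmonoid.subset_closure ⟨D.Y * (g * φ), ?_, ?_⟩
    · have := D.fil_mul D.Y_mem (D.fil_mul (D.isPow_mem ha hF) hφ)
      refine D.fil_anti ?_ this
      change t + (wt none : ℚ) ≤ exWt p wt (exY p d n) + (a * t + w)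
      rw [exWt_exY]
      linarith
    · change D.tei (D.Y * (g * φ)) = _
      rw [map_mul, D.tei_Y]
  | zero => simp
  | add y y' _ _ hy hy' => rw [mul_add]; exact add_mem hy hy'

theorem goalLevel : GoalLevel.{u} := by
  intro p _ k _ _ _ d n wt hwt T
  exact ⟨levelPT_eq_zero_iff hwt T, exists_level, fun jq m h => levelPT_expand jq m h,
    fun f g => ⟨piPT_add _ f g, piPT_mul hwt T f g⟩, piPT_memW hwt T, levelPT_piQ hwt T,
    fun jq t F hF => tei_lead hwt _ jq F hF⟩

end Vale.Agent.P202
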