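import Mathlib

set_option linter.style.header false
namespace P202.Mixed

open AddMonoidAlgebra

variable {W : Type*} [CommRing W] {Γ : Type*} [AddCommMonoid Γ]

/-- A splitting of exponents into an integral multiple of `y` and a reduced rest. -/
structure YSplit (y : Γ) where
  /-- the integral part -/
  whole : Γ → ℕ
  /-- the reduced part -/
  rest : Γ → Γ
  eq : ∀ g, g = whole g • y + rest g
  whole_add : ∀ g, whole (g + y) = whole g + 1
  rest_add : ∀ g, rest (g + y) = rest g

namespace YSplit

variable {y : Γ} (S : YSplit y)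

lemma whole_nsmul_add (n : ℕ) (g : Γ) : S.whole (n • y + g) = n + S.whole g := by
  induction n with
  | zero => simp
  | succ n ih =>
    rw [succ_nsmul, add_right_comm, S.whole_add, ih]; omega

lemma rest_nsmul_add (n : ℕ) (g : Γ) : S.rest (n • y + g) = S.rest g := by
  induction n with
  | zero => simp
  | succ n ih => rw [succ_nsmul, add_right_comm, S.rest_add, ih]

lemma rest_rest (g : Γ) : S.rest (S.rest g) = S.rest g := by
  conv_rhs => rw [S.eq g, S.rest_nsmul_add]

lemma whole_rest (g : Γ) : S.whole (S.rest g) = 0 := by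
  have h := congrArg S.whole (S.eq g)
  rw [S.whole_nsmul_add] at h
  omega

end YSplit

variable (π : W) (y : Γ)

/-- The ideal identifying the exponent `y` with the scalar `π`. -/
noncomputable def relIdeal : Ideal (AddMonoidAlgebra W Γ) :=
  Ideal.span {single y 1 - single 0 π}

/-- The quotient ring: coefficients are absorbed along `y`. -/
abbrev PPq := AddMonoidAlgebra W Γ ⧸ relIdeal π y

variable {π : W} {y : Γ} (S : YSplit y)

/-- Reduction to normal form. -/
noncomputable def red (π : W) (S : YSplit y) : AddMonoidAlgebra W Γ →ₗ[W] (Γ →₀ W) :=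
  (Finsupp.linearCombination W fun g => Finsupp.single (S.rest g) (π ^ S.whole g)).comp
    (AddMonoidAlgebra.coeffLinearEquiv W).toLinearMap

lemma red_single (g : Γ) (w : W) :
    red π S (single g w) = Finsupp.single (S.rest g) (w * π ^ S.whole g) := by
  simp [red, Finsupp.linearCombination_single]

lemma red_mul_rel (f : AddMonoidAlgebra W Γ) :
    red π S (f * (single y 1 - single 0 π)) = 0 := by
  induction f using AddMonoidAlgebra.induction_linear with
  | zero => simp
  | add a b ha hb => rw [add_mul, map_add, ha, hb, add_zero]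
  | single g w =>
    rw [mul_sub, single_mul_single, single_mul_single, mul_one, add_zero, map_sub, red_single,
      red_single, S.rest_add, S.whole_add, pow_succ, sub_eq_zero]
    congr 1; ring

lemma red_eq_zero {f : AddMonoidAlgebra W Γ} (hf : f ∈ relIdeal π y) :
    red π S f = 0 := by
  obtain ⟨g, rfl⟩ := Ideal.mem_span_singleton'.mp hf
  exact red_mul_rel S g

lemma mk_single_nsmul_add (n : ℕ) (g : Γ) (w : W) :
    Ideal.Quotient.mk (relIdeal π y) (single (n • y + g) w) =
      Ideal.Quotient.mk (relIdeal π y) (single g (w * π ^ n)) := by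
  induction n generalizing w with
  | zero => simp
  | succ n ih =>
    have h : Ideal.Quotient.mk (relIdeal π y) (single y 1) =
        Ideal.Quotient.mk (relIdeal π y) (single 0 π) :=
      Ideal.Quotient.eq.mpr (Ideal.subset_span rfl)
    have e1 : single ((n + 1) • y + g) w = single (n • y + g) w * single y (1 : W) := by
      rw [single_mul_single, mul_one, succ_nsmul, add_right_comm]
    rw [e1, map_mul, h, ← map_mul, single_mul_single, add_zero, ih, pow_succ]
    congr 2; ring

/-- Coordinates on the quotient with respect to reduced monomials. -/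
noncomputable def coord : PPq π y →ₗ[W] (Γ →₀ W) :=
  ((relIdeal π y).restrictScalars W).liftQ (red π S) (fun _ hf => red_eq_zero S hf) ∘ₗ
    (Submodule.Quotient.restrictScalarsEquiv W (relIdeal π y)).symm.toLinearMap

lemma coord_mk (f : AddMonoidAlgebra W Γ) :
    coord (π := π) S (Ideal.Quotient.mk (relIdeal π y) f) = red π S f := by
  rfl

/-- Reduced monomial expansion. -/
noncomputable def expand : (Γ →₀ W) →ₗ[W] PPq π y :=
  (Ideal.Quotient.mkₐ W (relIdeal π y)).toLinearMap.comp
    (AddMonoidAlgebra.coeffLinearEquiv W).symm.toLinearMap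

lemma expand_single (g : Γ) (w : W) :
    expand (π := π) (y := y) (Finsupp.single g w) = Ideal.Quotient.mk _ (single g w) := by
  simp [expand]

lemma expand_coord (x : PPq π y) : expand (coord S x) = x := by
  obtain ⟨f, rfl⟩ := Ideal.Quotient.mk_surjective x
  rw [coord_mk]
  induction f using AddMonoidAlgebra.induction_linear with
  | zero => simp
  | add a b ha hb => simp only [map_add, ha, hb]
  | single g w =>
    rw [red_single, expand_single]
    conv_rhs => rw [S.eq g]
    rw [mk_single_nsmul_add]

lemma coord_injective : Function.Injective (coord (π := π) S) := fun a b h => by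
  rw [← expand_coord S a, h, expand_coord]

lemma coord_expand {c : Γ →₀ W} (hc : ∀ g ∈ c.support, S.rest g = g) :
    coord (π := π) S (expand c) = c := by
  conv_rhs => rw [← c.sum_single]
  conv_lhs => rw [← c.sum_single]
  simp only [Finsupp.sum, map_sum]
  refine Finset.sum_congr rfl fun g hg => ?_
  have h0 : S.whole g = 0 := by rw [← hc g hg, S.whole_rest]
  rw [expand_single, coord_mk, red_single, hc g hg, h0, pow_zero, mul_one]

lemma rest_of_mem_support_coord (x : PPq π y) {g : Γ} (hg : g ∈ (coord S x).support) :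
    S.rest g = g := by
  classical
  obtain ⟨f, rfl⟩ := Ideal.Quotient.mk_surjective x
  rw [coord_mk] at hg
  induction f using AddMonoidAlgebra.induction_linear generalizing g with
  | zero => simp at hg
  | add a b ha hb =>
    rw [map_add] at hg
    rcases Finset.mem_union.mp (Finsupp.support_add hg) with h | h
    · exact ha h
    · exact hb h
  | single g' w =>
    rw [red_single] at hg
    rw [Finset.mem_singleton.mp (Finsupp.support_single_subset hg), S.rest_rest]

end P202.Mixed

namespace P202.Mixed

open scoped NNRat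

/-- The splitting by integral part of the `Y`-exponent. -/
noncomputable def ratSplit (ι : Type*) : YSplit (Γ := Option ι →₀ ℚ≥0) (Finsupp.single none 1) where
  whole g := ⌊g none⌋₊
  rest g := g.update none (g none - ⌊g none⌋₊)
  eq g := by
    classical
    ext a
    cases a with
    | none => simp [add_tsub_cancel_of_le (Nat.floor_le (zero_le : (0 : ℚ≥0) ≤ g none))]
    | some i => simp
  whole_add g := by simp [Nat.floor_add_one]
  rest_add g := by
    classical
    ext a
    cases a with
    | none =>
      simp [Nat.floor_add_one, add_tsub_add_eq_tsub_right]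
    | some i => simp

end P202.Mixed

namespace P202.Mixed

open AddMonoidAlgebra

variable {W : Type*} [CommRing W] {Γ : Type*} [AddCommMonoid Γ] {π : W} {y : Γ}

/-- The ideal of elements of weight at least `T`. -/
noncomputable def wIdeal (π : W) (y : Γ) (wt : Γ →+ ℚ) (T : ℚ) : Ideal (PPq π y) :=
  Ideal.span (Set.range fun g : {g : Γ // T ≤ wt g} =>
    Ideal.Quotient.mk (relIdeal π y) (single g.1 1))

lemma mk_single_mem_wIdeal {wt : Γ →+ ℚ} {T : ℚ} {g : Γ} (hg : T ≤ wt g) (w : W) :
    Ideal.Quotient.mk (relIdeal π y) (single g w) ∈ wIdeal π y wt T := by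
  have : single g w = single 0 w * single g (1 : W) := by simp [single_mul_single]
  rw [this, map_mul]
  exact Ideal.mul_mem_left _ _ (Ideal.subset_span ⟨⟨g, hg⟩, rfl⟩)

lemma wIdeal_antitone (wt : Γ →+ ℚ) {T T' : ℚ} (h : T ≤ T') :
    wIdeal π y wt T' ≤ wIdeal π y wt T := by
  refine Ideal.span_le.mpr ?_
  rintro _ ⟨g, rfl⟩
  exact Ideal.subset_span ⟨⟨g.1, h.trans g.2⟩, rfl⟩

lemma mul_mem_wIdeal {wt : Γ →+ ℚ} {a b : ℚ} {x z : PPq π y} (hx : x ∈ wIdeal π y wt a)
    (hz : z ∈ wIdeal π y wt b) : x * z ∈ wIdeal π y wt (a + b) := by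

  refine Ideal.mul_le.mp ?_ x hx z hz
  rw [wIdeal, wIdeal, Ideal.span_mul_span', Ideal.span_le]
  rintro _ ⟨_, ⟨g, rfl⟩, _, ⟨g', rfl⟩, rfl⟩
  simp only [← map_mul, single_mul_single, one_mul]
  exact mk_single_mem_wIdeal (by rw [map_add]; exact add_le_add g.2 g'.2) 1

/-- Membership in a weight ideal is divisibility of the coordinates. -/
lemma mem_wIdeal_iff (S : YSplit y) (wt : Γ →+ ℚ) (hmono : ∀ g, 0 ≤ wt g) (hy : 0 < wt y) (T : ℚ)
    (x : PPq π y) : x ∈ wIdeal π y wt T ↔
      ∀ g, ∃ n : ℕ, π ^ n ∣ coord S x g ∧ (coord S x g = 0 ∨ T ≤ wt g + n * wt y) := by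
  classical
  constructor
  · intro hx
    suffices H : ∀ g, S.rest g = g → π ^ ⌈(T - wt g) / wt y⌉₊ ∣ coord S x g by
      intro g
      refine ⟨⌈(T - wt g) / wt y⌉₊, ?_, Or.inr ?_⟩
      · by_cases hg : S.rest g = g
        · exact H g hg
        · have : coord S x g = 0 := by
            by_contra h
            exact hg (rest_of_mem_support_coord S x (Finsupp.mem_support_iff.mpr h))
          rw [this]; exact dvd_zero _
      · have := Nat.le_ceil ((T - wt g) / wt y)
        rw [div_le_iff₀ hy] at this
        linarith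
    intro g _
    have hx' : x ∈ Submodule.span (PPq π y) (Set.range fun g : {g : Γ // T ≤ wt g} =>
      Ideal.Quotient.mk (relIdeal π y) (single g.1 1)) := hx
    rw [Finsupp.mem_span_range_iff_exists_finsupp] at hx'
    obtain ⟨c, rfl⟩ := hx'
    simp only [Finsupp.sum, smul_eq_mul, map_sum, Finsupp.finsetSum_apply]
    refine Finset.dvd_sum fun g' _ => ?_
    obtain ⟨f, hf⟩ := Ideal.Quotient.mk_surjective (c g')
    rw [← hf, ← map_mul, coord_mk]
    clear hf
    induction f using AddMonoidAlgebra.induction_linear with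
    | zero => simp
    | add a b ha hb => rw [add_mul, map_add, Finsupp.add_apply]; exact dvd_add ha hb
    | single h w =>
      rw [single_mul_single, mul_one, red_single]
      by_cases hg : S.rest (h + g'.1) = g
      · rw [hg, Finsupp.single_eq_same]
        refine dvd_mul_of_dvd_right (pow_dvd_pow _ (Nat.ceil_le.mpr ?_)) w
        rw [div_le_iff₀ hy]
        have e := congrArg wt (S.eq (h + g'.1))
        rw [map_add, map_add, map_nsmul, hg, nsmul_eq_mul] at e
        have := hmono h; have := g'.2
        linarith
      · simp [Finsupp.single_eq_of_ne (Ne.symm hg)]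
  · intro h
    rw [← expand_coord S x, ← (coord S x).sum_single, Finsupp.sum, map_sum]
    refine Ideal.sum_mem _ fun g _ => ?_
    obtain ⟨n, ⟨w, hw⟩, hn⟩ := h g
    rcases hn with h0 | hn
    · simp [h0]
    · rw [expand_single, hw, mul_comm, ← mk_single_nsmul_add]
      refine mk_single_mem_wIdeal ?_ w
      rw [map_add, map_nsmul, nsmul_eq_mul]
      linarith

lemma pow_mem_wIdeal (wt : Γ →+ ℚ) (hw : 1 ≤ wt y) {T : ℚ} {n : ℕ} (hn : T ≤ n) :
    algebraMap W (PPq π y) (π ^ n) ∈ wIdeal π y wt T := by
  have h : algebraMap W (PPq π y) (π ^ n) =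
      Ideal.Quotient.mk (relIdeal π y) (single (n • y + 0) (1 : W)) := by
    rw [mk_single_nsmul_add, one_mul]; rfl
  rw [h]
  refine mk_single_mem_wIdeal ?_ 1
  rw [map_add, map_zero, add_zero, map_nsmul, nsmul_eq_mul]
  nlinarith [(Nat.cast_nonneg n : (0 : ℚ) ≤ n)]

end P202.Mixed
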