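import Mathlib

set_option linter.style.header false
namespace P202.Mixed

open AddMonoidAlgebra

variable (p : ℕ) [Fact p.Prime] (k : Type*) [CommRing k] [CharP k p] [PerfectRing k p]
  (Γ : Type*) [AddCommMonoid Γ]

instance charP_addMonoidAlgebra : CharP (AddMonoidAlgebra k Γ) p :=
  charP_of_injective_ringHom (f := AddMonoidAlgebra.singleZeroRingHom)
    (fun a b h => by simpa using congrArg (fun f => f.coeff 0) h) p

lemma frobenius_eq : ∀ f : AddMonoidAlgebra k Γ, frobenius (AddMonoidAlgebra k Γ) p f =
    AddMonoidAlgebra.mapRingHom Γ (frobenius k p)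
      (AddMonoidAlgebra.mapDomainRingHom k (nsmulAddMonoidHom (α := Γ) p) f) := by
  intro f
  induction f using AddMonoidAlgebra.induction_linear with
  | zero => simp
  | add a b ha hb => simp only [map_add, ha, hb]
  | single g w =>
    rw [frobenius_def, single_pow]
    simp [frobenius_def]

theorem perfectRing_addMonoidAlgebra (hΓ : Function.Bijective fun g : Γ => p • g) :
    PerfectRing (AddMonoidAlgebra k Γ) p := by
  constructor
  change Function.Bijective ⇑(frobenius (AddMonoidAlgebra k Γ) p)
  rw [show ⇑(frobenius (AddMonoidAlgebra k Γ) p) = _ from funext (frobenius_eq p k Γ)]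
  refine Function.Bijective.comp (g := AddMonoidAlgebra.mapRingHom Γ (frobenius k p))
    (f := AddMonoidAlgebra.mapDomainRingHom k (nsmulAddMonoidHom (α := Γ) p)) ?_ ?_
  · refine ⟨AddMonoidAlgebra.map_injective (frobenius k p).toAddMonoidHom (bijective_frobenius k p).1, fun f => ?_⟩
    induction f using AddMonoidAlgebra.induction_linear with
    | zero => exact ⟨0, map_zero _⟩
    | add a b ha hb =>
      obtain ⟨a', rfl⟩ := ha
      obtain ⟨b', rfl⟩ := hb
      exact ⟨a' + b', map_add _ _ _⟩
    | single g w =>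
      obtain ⟨v, rfl⟩ := (bijective_frobenius k p).2 w
      exact ⟨single g v, by simp⟩
  · refine ⟨AddMonoidAlgebra.mapDomain_injective hΓ.1, fun f => ?_⟩
    induction f using AddMonoidAlgebra.induction_linear with
    | zero => exact ⟨0, map_zero _⟩
    | add a b ha hb =>
      obtain ⟨a', rfl⟩ := ha
      obtain ⟨b', rfl⟩ := hb
      exact ⟨a' + b', map_add _ _ _⟩
    | single g w =>
      obtain ⟨h, rfl⟩ := hΓ.2 g
      exact ⟨single h w, by simp⟩

lemma bijective_nsmul_nnrat (σ : Type*) :
    Function.Bijective fun g : σ →₀ ℚ≥0 => p • g := by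
  have hp : (p : ℚ≥0) ≠ 0 := Nat.cast_ne_zero.mpr (Fact.out : p.Prime).ne_zero
  refine ⟨fun a b h => ?_, fun a => ⟨a.mapRange (fun x => x / p) (zero_div _), ?_⟩⟩
  · ext i
    have := DFunLike.congr_fun h i
    simpa [hp] using this
  · ext i
    simp [mul_div_cancel₀ _ hp]

instance perfectRing_nnrat (σ : Type*) : PerfectRing (AddMonoidAlgebra k (σ →₀ ℚ≥0)) p :=
  perfectRing_addMonoidAlgebra p k _ (bijective_nsmul_nnrat p σ)

end P202.Mixed
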