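import Mathlib

set_option linter.style.header false
namespace P202.Mixed

open Finset

lemma dvd_multinomial_of_pow {ι : Type*} [DecidableEq ι] {p T : ℕ} (hp : p.Prime)
    {s : Finset ι} {e : ι → ℕ} (he : ∑ i ∈ s, e i = p ^ T) (hlt : ∀ i ∈ s, e i ≠ p ^ T) :
    p ∣ Nat.multinomial s e := by
  obtain ⟨a, ha, ha0⟩ : ∃ a ∈ s, e a ≠ 0 := by
    by_contra h
    push Not at h
    rw [Finset.sum_eq_zero h] at he
    exact (pow_pos hp.pos T).ne he
  have hs : insert a (s.erase a) = s := Finset.insert_erase ha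
  rw [← hs, Nat.multinomial_insert (Finset.notMem_erase a s)]
  refine dvd_mul_of_dvd_left ?_ _
  rw [Finset.add_sum_erase s e ha, he]
  exact hp.dvd_choose_pow ha0 (hlt a ha)

section
variable {p : ℕ} [Fact p.Prime] {L A B : Type*} [CommRing L] [CommRing A] [CommRing B]
  [CharP B p] [PerfectRing B p] (r : L →+* A) (q : L →+* B) (T : ℕ)
  (hq : Function.Surjective q) (hker : ∀ x, q x = 0 → (p : L) ∣ x)
  (hT : (p : A) ^ (T + 1) = 0)

/-- The `n`-th iterated `p`-th root. -/
noncomputable def rt (n : ℕ) : B →+* B := ((iterateFrobeniusEquiv B p n).symm : B →+* B)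

lemma rt_pow (n : ℕ) (x : B) : rt (p := p) n x ^ p ^ n = x := by
  change (iterateFrobeniusEquiv B p n).symm x ^ p ^ n = x
  rw [← iterateFrobeniusEquiv_def, RingEquiv.apply_symm_apply]

lemma rt_add (m n : ℕ) (x : B) : rt (p := p) n x = rt (m + n) x ^ p ^ m := by
  apply (iterateFrobeniusEquiv B p n).injective
  simp only [iterateFrobeniusEquiv_def]
  rw [rt_pow, ← pow_mul, ← pow_add, rt_pow]

include hker hT in
lemma map_pow_eq_of_eq {a b : L} (h : q a = q b) : r a ^ p ^ T = r b ^ p ^ T := by
  have hd := dvd_sub_pow_of_dvd_sub (hker (a - b) (by rw [map_sub, h, sub_self])) T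
  obtain ⟨c, hc⟩ := hd
  have := congrArg r hc
  rw [map_sub, map_pow, map_pow, map_mul, map_pow, map_natCast, hT, zero_mul, sub_eq_zero] at this
  exact this

/-- The Teichmuller map: lift a `p ^ T`-th root and raise it to the power `p ^ T`. -/
noncomputable def tei (x : B) : A := r (hq (rt (p := p) T x)).choose ^ p ^ T

include hker hT in
lemma tei_eq {x : B} {a : L} (h : q a = rt (p := p) T x) : tei r q T hq x = r a ^ p ^ T :=
  map_pow_eq_of_eq r q T hker hT ((hq _).choose_spec.trans h.symm)

include hker hT in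
lemma tei_mul (x y : B) : tei r q T hq (x * y) = tei r q T hq x * tei r q T hq y := by
  obtain ⟨a, ha⟩ := hq (rt (p := p) T x)
  obtain ⟨b, hb⟩ := hq (rt (p := p) T y)
  rw [tei_eq r q T hq hker hT ha, tei_eq r q T hq hker hT hb,
    tei_eq r q T hq hker hT (a := a * b) (by rw [map_mul, map_mul, ha, hb]), map_mul, mul_pow]

include hker hT in
lemma tei_one : tei r q T hq (1 : B) = 1 := by
  rw [tei_eq r q T hq hker hT (a := 1) (by simp), map_one, one_pow]

include hker hT in
/-- MIX: the Teichmuller of a sum, up to `p` times Teichmullers of mixed products. -/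
lemma tei_sum {ι : Type*} [DecidableEq ι] (s : Finset ι) (z : ι → B) :
    ∃ c : (ι → ℕ) → ℕ, tei r q T hq (∑ k ∈ s, z k) = ∑ k ∈ s, tei r q T hq (z k) +
      (p : A) * ∑ e ∈ (s.piAntidiag (p ^ T)).filter (fun e => ∀ k ∈ s, e k ≠ p ^ T),
        (c e : A) * tei r q T hq (∏ k ∈ s, rt (p := p) T (z k) ^ e k) := by
  classical
  choose l hl using fun k => hq (rt (p := p) (T + T) (z k))
  let ℓ : ι → L := fun k => l k ^ p ^ T
  have hℓ : ∀ k, q (ℓ k) = rt (p := p) T (z k) := fun k => by
    rw [map_pow, hl, ← rt_add]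
  have hterm : ∀ e : ι → ℕ, tei r q T hq (∏ k ∈ s, rt (p := p) T (z k) ^ e k) =
      r (∏ k ∈ s, ℓ k ^ e k) := fun e => by
    have h1 : q (∏ k ∈ s, l k ^ e k) = rt (p := p) T (∏ k ∈ s, rt (p := p) T (z k) ^ e k) := by
      simp only [map_prod, map_pow]
      refine Finset.prod_congr rfl fun k _ => ?_
      rw [hl]
      congr 1
      apply (iterateFrobeniusEquiv B p T).injective
      simp only [iterateFrobeniusEquiv_def, rt_pow, ← rt_add]
    rw [tei_eq r q T hq hker hT h1, ← map_pow, ← Finset.prod_pow]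
    refine congrArg r (Finset.prod_congr rfl fun k _ => ?_)
    simp only [ℓ, ← pow_mul, mul_comm]
  refine ⟨fun e => Nat.multinomial s e / p, ?_⟩
  rw [tei_eq r q T hq hker hT (a := ∑ k ∈ s, ℓ k) (by simp only [map_sum, hℓ]), ← map_pow,
    Finset.sum_pow_eq_sum_piAntidiag, map_sum,
    ← Finset.sum_filter_not_add_sum_filter _ (fun e => ∀ k ∈ s, e k ≠ p ^ T), Finset.mul_sum]
  congr 1
  · have hset : ((s.piAntidiag (p ^ T)).filter fun e => ¬ ∀ k ∈ s, e k ≠ p ^ T) =
        s.image (fun k => Pi.single k (p ^ T)) := by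
      ext e
      simp only [Finset.mem_filter, Finset.mem_piAntidiag, not_forall, not_not, exists_prop,
        Finset.mem_image]
      constructor
      · rintro ⟨⟨hsum, hsupp⟩, k, hk, hek⟩
        refine ⟨k, hk, funext fun j => ?_⟩
        rcases eq_or_ne j k with rfl | hjk
        · simp [hek]
        · rw [Pi.single_eq_of_ne hjk]
          by_cases hj : j ∈ s
          · have hsub : ∑ i ∈ ({k, j} : Finset ι), e i ≤ s.sum e :=
              Finset.sum_le_sum_of_subset (by simp [Finset.insert_subset_iff, hk, hj])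
            rw [Finset.sum_pair (Ne.symm hjk), hsum] at hsub
            omega
          · by_contra h
            exact hj (hsupp j (Ne.symm h))
      · rintro ⟨k, hk, rfl⟩
        refine ⟨⟨?_, fun j hj => ?_⟩, k, hk, Pi.single_eq_same _ _⟩
        · simp [hk]
        · rcases eq_or_ne j k with rfl | hjk
          · exact hk
          · exact absurd (Pi.single_eq_of_ne hjk _) hj
    rw [hset, Finset.sum_image]
    · refine Finset.sum_congr rfl fun k hk => ?_
      have h2 : ∏ i ∈ s, ℓ i ^ (Pi.single k (p ^ T) : ι → ℕ) i = ℓ k ^ p ^ T := by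
        rw [Finset.prod_eq_single_of_mem k hk (fun i _ hik => by simp [Pi.single_eq_of_ne hik])]
        simp
      have h3 : Nat.multinomial s (Pi.single k (p ^ T)) = 1 := by
        rw [Nat.multinomial, Finset.prod_eq_single_of_mem k hk
          (fun i _ hik => by simp [Pi.single_eq_of_ne hik])]
        simp [hk, Nat.div_self (Nat.factorial_pos _)]
      rw [h2, h3, Nat.cast_one, one_mul, map_pow, tei_eq r q T hq hker hT (hℓ k)]
    · intro a ha b hb h
      by_contra hab
      have := congrFun h a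
      simp [Pi.single_eq_of_ne hab, (Fact.out : p.Prime).ne_zero] at this
  · refine Finset.sum_congr (by congr) fun e he => ?_
    obtain ⟨he1, he2⟩ := Finset.mem_filter.mp he
    have hd := dvd_multinomial_of_pow (Fact.out : p.Prime) (Finset.mem_piAntidiag.mp he1).1 he2
    rw [hterm, map_mul, map_natCast, ← mul_assoc, ← Nat.cast_mul, Nat.mul_div_cancel' hd]

end
end P202.Mixed
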