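import Vale.Agent.P202.M4Normal
import Vale.Agent.P202.M4Perf
import Vale.Agent.P202.M4Teich
import Vale.Agent.P202.M4LemmaA

/-!
# P202, mixed characteristic: Teichmuller elements in truncated perfect rings
-/

set_option linter.style.header false
set_option linter.unusedSectionVars false
namespace P202.Mixed

open AddMonoidAlgebra

variable {p : ℕ} [Fact p.Prime] {k : Type*} [Field k] [CharP k p] [PerfectRing k p]
  {Γ : Type*} [AddCommMonoid Γ] [PerfectRing (AddMonoidAlgebra k Γ) p] {y : Γ}

/-- Reduction modulo `p` of coefficients. -/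
noncomputable def qMap (p : ℕ) [Fact p.Prime] (k : Type*) [CommRing k] (Γ : Type*)
    [AddCommMonoid Γ] : AddMonoidAlgebra (WittVector p k) Γ →+* AddMonoidAlgebra k Γ :=
  AddMonoidAlgebra.mapRingHom Γ WittVector.constantCoeff

lemma qMap_single (g : Γ) (w : WittVector p k) :
    qMap p k Γ (single g w) = single g (w.coeff 0) := by
  simp [qMap, WittVector.constantCoeff_apply]

lemma qMap_surjective : Function.Surjective (qMap p k Γ) := fun f => by
  induction f using AddMonoidAlgebra.induction_linear with
  | zero => exact ⟨0, map_zero _⟩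
  | add a b ha hb =>
    obtain ⟨a', rfl⟩ := ha
    obtain ⟨b', rfl⟩ := hb
    exact ⟨a' + b', map_add _ _ _⟩
  | single g w => exact ⟨single g (WittVector.teichmuller p w), by simp [qMap_single]⟩

lemma dvd_of_coeff_zero (w : WittVector p k) (h : w.coeff 0 = 0) : (p : WittVector p k) ∣ w := by
  have := (WittVector.mem_span_p_pow_iff_le_coeff_eq_zero w 1).mpr fun m hm => by
    obtain rfl : m = 0 := by omega
    exact h
  simpa [Ideal.mem_span_singleton] using this

lemma dvd_of_qMap_eq_zero (x : AddMonoidAlgebra (WittVector p k) Γ) (hx : qMap p k Γ x = 0) :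
    (p : AddMonoidAlgebra (WittVector p k) Γ) ∣ x := by
  rw [← AddMonoidAlgebra.sum_coeff_single x, Finsupp.sum]
  refine Finset.dvd_sum fun g _ => ?_
  have : (x.coeff g).coeff 0 = 0 := by
    have := congrArg (fun f => f.coeff g) hx
    simpa [qMap, WittVector.constantCoeff_apply] using this
  obtain ⟨w, hw⟩ := dvd_of_coeff_zero _ this
  exact ⟨single g w, by rw [hw, natCast_def, single_mul_single, zero_add]⟩

variable (S : YSplit y) (wt : Γ →+ ℚ) (T : ℚ)

/-- The truncated ring. -/
def TRing (p : ℕ) [Fact p.Prime] (k : Type*) [CommRing k] (y : Γ) (wt : Γ →+ ℚ) (T : ℚ) :=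
  PPq (p : WittVector p k) y ⧸ wIdeal (p : WittVector p k) y wt T

noncomputable instance instCommRingTRing (p : ℕ) [Fact p.Prime] (k : Type*) [CommRing k] (y : Γ)
    (wt : Γ →+ ℚ) (T : ℚ) : CommRing (TRing p k y wt T) :=
  inferInstanceAs (CommRing (PPq (p : WittVector p k) y ⧸ wIdeal (p : WittVector p k) y wt T))

/-- The quotient map. -/
noncomputable def tMk (p : ℕ) [Fact p.Prime] (k : Type*) [CommRing k] (y : Γ)
    (wt : Γ →+ ℚ) (T : ℚ) : PPq (p : WittVector p k) y →+* TRing p k y wt T :=
  Ideal.Quotient.mk (wIdeal (p : WittVector p k) y wt T)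

/-- The projection to the truncated ring. -/
noncomputable def toT : AddMonoidAlgebra (WittVector p k) Γ →+* TRing p k y wt T :=
  (tMk p k y wt T).comp (Ideal.Quotient.mk (relIdeal (p : WittVector p k) y))

lemma toT_single_eq_zero {g : Γ} (hg : T ≤ wt g) (w : WittVector p k) :
    toT (y := y) wt T (single g w) = 0 :=
  Ideal.Quotient.eq_zero_iff_mem.mpr (mk_single_mem_wIdeal hg w)

lemma toT_eq_zero_iff (f : AddMonoidAlgebra (WittVector p k) Γ) :
    toT (y := y) wt T f = 0 ↔ Ideal.Quotient.mk (relIdeal (p : WittVector p k) y) f ∈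
      wIdeal (p : WittVector p k) y wt T :=
  Ideal.Quotient.eq_zero_iff_mem

lemma toT_surjective : Function.Surjective (toT (p := p) (k := k) (y := y) wt T) :=
  Ideal.Quotient.mk_surjective.comp Ideal.Quotient.mk_surjective

lemma toT_single_mul_p (g : Γ) (w : WittVector p k) :
    toT (y := y) wt T (single g ((p : WittVector p k) * w)) =
      toT (y := y) wt T (single (g + y) w) := by
  refine congrArg (tMk p k y wt T) ?_
  have := mk_single_nsmul_add (π := (p : WittVector p k)) (y := y) 1 g w
  rw [one_nsmul, pow_one, add_comm, mul_comm] at this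
  exact this.symm

lemma natCast_toT : ((p : ℕ) : TRing p k y wt T) = toT (y := y) wt T (single y 1) := by
  have h := toT_single_mul_p (p := p) (k := k) (y := y) wt T 0 1
  rw [zero_add, mul_one] at h
  rw [← h, ← natCast_def, map_natCast]

variable {wt} (hy : 1 ≤ wt y)

include hy in
lemma natCast_pow_eq_zero {n : ℕ} (hn : T ≤ n) : (p : TRing p k y wt T) ^ n = 0 := by
  rw [natCast_toT, ← map_pow, single_pow, one_pow]
  refine toT_single_eq_zero wt T ?_ 1
  rw [map_nsmul, nsmul_eq_mul]
  nlinarith [(Nat.cast_nonneg n : (0 : ℚ) ≤ n)]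

/-- Depth needed for the Teichmuller map. -/
noncomputable def depth (T : ℚ) : ℕ := ⌈T⌉₊

/-- The Teichmuller map of the truncated ring, as a function. -/
noncomputable def teiT (wt : Γ →+ ℚ) (T : ℚ) : AddMonoidAlgebra k Γ → TRing p k y wt T :=
  tei (toT wt T) (qMap p k Γ) (depth T) qMap_surjective

include hy in
lemma depth_spec : (p : TRing p k y wt T) ^ (depth T + 1) = 0 :=
  natCast_pow_eq_zero T hy (by push_cast; linarith [Nat.le_ceil T, show (depth T : ℚ) = ⌈T⌉₊ from rfl])

include hy in
lemma teiT_single {m : ℕ} (hm : m = p ^ depth T) {g h : Γ} (hh : m • h = g) (w : k) :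
    teiT (y := y) wt T (single g w) =
      toT (y := y) wt T (single g (WittVector.teichmuller p w)) := by
  obtain ⟨v, hv⟩ := exists_root (p := p) w (depth T)
  have h1 : qMap p k Γ (single h (WittVector.teichmuller p v)) =
      rt (p := p) (depth T) (single g w) := by
    apply root_unique (p := p) (m := depth T)
    rw [rt_pow, qMap_single, WittVector.teichmuller_coeff_zero, single_pow, ← hm, hh, hm, hv]
  refine (tei_eq (A := TRing p k y wt T) (toT (p := p) (k := k) (y := y) wt T) (qMap p k Γ) (depth T) qMap_surjective dvd_of_qMap_eq_zero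
    (depth_spec T hy) h1).trans ?_
  rw [← map_pow, single_pow, ← map_pow, hv, ← hm, hh]

lemma frobenius_coeff (hΓ : Function.Injective fun g : Γ => p • g) (x : AddMonoidAlgebra k Γ)
    (g : Γ) : (x ^ p).coeff (p • g) = x.coeff g ^ p := by
  rw [← frobenius_def (R := AddMonoidAlgebra k Γ), frobenius_eq]
  simp [frobenius_def]
  have : (Finsupp.mapDomain (⇑(nsmulAddMonoidHom (α := Γ) p)) x.coeff) (p • g) = x.coeff g :=
    Finsupp.mapDomain_apply (f := ⇑(nsmulAddMonoidHom (α := Γ) p)) hΓ x.coeff g
  rw [this]

lemma pow_coeff (hΓ : Function.Injective fun g : Γ => p • g) (x : AddMonoidAlgebra k Γ)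
    (g : Γ) : ∀ m : ℕ, (x ^ p ^ m).coeff (p ^ m • g) = x.coeff g ^ p ^ m
  | 0 => by simp
  | m + 1 => by
    rw [pow_succ, pow_mul, mul_comm, mul_nsmul', frobenius_coeff hΓ, pow_coeff hΓ x g m, pow_mul']

/-- Weight filtration on the graded ring. -/
def FilK (k : Type*) [CommRing k] (wt : Γ →+ ℚ) (t : ℚ) : AddSubgroup (AddMonoidAlgebra k Γ) where
  carrier := {f | ∀ g, f.coeff g ≠ 0 → t ≤ wt g}
  add_mem' {a b} ha hb g hg := by
    by_cases h : a.coeff g = 0
    · exact hb g (by simpa [h] using hg)
    · exact ha g h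
  zero_mem' g hg := (hg (by simp)).elim
  neg_mem' {a} ha g hg := ha g (by simpa using hg)

lemma single_mem_FilK {g : Γ} {t : ℚ} (h : t ≤ wt g) (w : k) : single g w ∈ FilK k wt t := by
  intro g' hg'
  classical
  rw [coeff_single, Finsupp.single_apply] at hg'
  split at hg'
  · next e => exact e ▸ h
  · exact absurd rfl hg'

/-- The Teichmuller data of the truncated ring. -/
noncomputable def teiData (hmono : ∀ g, 0 ≤ wt g)
    (hΓ : Function.Bijective fun g : Γ => p • g) :
    TeiData p (TRing p k y wt T) (AddMonoidAlgebra k Γ) where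
  tei :=
    { toFun := teiT wt T
      map_one' := tei_one _ _ _ _ dvd_of_qMap_eq_zero (depth_spec T hy)
      map_mul' := tei_mul _ _ _ _ dvd_of_qMap_eq_zero (depth_spec T hy) }
  Y := single y 1
  tei_Y := by
    obtain ⟨h, hh⟩ := (show Function.Surjective fun g : Γ => p ^ depth T • g from by
      induction depth T with
      | zero => exact fun g => ⟨g, by simp⟩
      | succ n ih =>
        intro g
        obtain ⟨a, ha⟩ := hΓ.2 g
        obtain ⟨b, hb⟩ := ih a
        exact ⟨b, by dsimp only at *; rw [pow_succ, mul_comm, mul_nsmul', hb, ha]⟩) y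
    change teiT wt T (single y 1) = _
    rw [teiT_single T hy rfl hh, map_one, ← natCast_toT]
  gen x := by
    obtain ⟨x, rfl⟩ := Ideal.Quotient.mk_surjective x
    obtain ⟨f, rfl⟩ := Ideal.Quotient.mk_surjective x
    change toT wt T f ∈ _
    induction f using AddMonoidAlgebra.induction_linear with
    | zero => simp
    | add a b ha hb => rw [map_add]; exact add_mem ha hb
    | single g w =>
      obtain ⟨n, hn⟩ := exists_nat_ge (T - wt g)
      induction n generalizing g w with
      | zero => rw [toT_single_eq_zero wt T (by simpa using hn)]; simp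
      | succ n ih =>
        obtain ⟨w', hw'⟩ := dvd_of_coeff_zero (w - WittVector.teichmuller p (w.coeff 0))
          (by rw [← WittVector.constantCoeff_apply, map_sub, WittVector.constantCoeff_apply,
            WittVector.constantCoeff_apply, WittVector.teichmuller_coeff_zero, sub_self])
        obtain ⟨h, hh⟩ := (show Function.Surjective fun g : Γ => p ^ depth T • g from by
          induction depth T with
          | zero => exact fun g => ⟨g, by simp⟩
          | succ n ih =>
            intro g
            obtain ⟨a, ha⟩ := hΓ.2 g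
            obtain ⟨b, hb⟩ := ih a
            exact ⟨b, by dsimp only at *; rw [pow_succ, mul_comm, mul_nsmul', hb, ha]⟩) g
        rw [show w = WittVector.teichmuller p (w.coeff 0) + (p : WittVector p k) * w' by
          rw [← hw']; ring, single_add, map_add, toT_single_mul_p]
        refine add_mem (AddSubmonoid.subset_closure ⟨single g (w.coeff 0), ?_⟩) (ih _ _ ?_)
        · exact teiT_single T hy rfl hh _
        · rw [map_add]; push_cast at hn ⊢; linarith
  Fil := FilK k wt
  fil_anti := fun a b h f hf g hg => h.trans (hf g hg)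
  fil_zero := fun f g _ => hmono g
  fil_mul := fun {a b x z} hx hz => by
    classical
    rw [← AddMonoidAlgebra.sum_coeff_single x, ← AddMonoidAlgebra.sum_coeff_single z, Finsupp.sum,
      Finsupp.sum, Finset.sum_mul_sum]
    refine AddSubgroup.sum_mem _ fun g hg => AddSubgroup.sum_mem _ fun g' hg' => ?_
    rw [single_mul_single]
    refine single_mem_FilK ?_ _
    rw [map_add]
    exact add_le_add (hx g (Finsupp.mem_support_iff.mp hg)) (hz g' (Finsupp.mem_support_iff.mp hg'))
  fil_root := fun {a x m} hx g hg => by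
    have := hx (p ^ m • g) (by rw [pow_coeff hΓ.1]; exact pow_ne_zero _ hg)
    rw [map_nsmul, nsmul_eq_mul, Nat.cast_pow] at this
    rw [div_le_iff₀ (p_pow_pos m), mul_comm]
    exact this
  wp := wt y
  one_le_wp := hy
  Y_mem := single_mem_FilK le_rfl 1
  T := depth T
  mix l := by
    classical
    obtain ⟨c, hc⟩ := tei_sum (A := TRing p k y wt T) (toT (p := p) (k := k) (y := y) wt T) (qMap p k Γ) (depth T) qMap_surjective
      dvd_of_qMap_eq_zero (depth_spec (p := p) (k := k) T hy) Finset.univ l.get
    refine ⟨((Finset.univ.piAntidiag (p ^ depth T)).filter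
      fun e : Fin l.length → ℕ => ∀ i ∈ Finset.univ, e i ≠ p ^ depth T).toList.map
        fun e => (c e, e), fun ce hce => ?_, fun r hr => ?_⟩
    · obtain ⟨e, he, rfl⟩ := List.mem_map.mp hce
      obtain ⟨h1, h2⟩ := Finset.mem_filter.mp (Finset.mem_toList.mp he)
      have h3 := (Finset.mem_piAntidiag.mp h1).1
      exact ⟨h3, fun i => lt_of_le_of_ne (h3 ▸ Finset.single_le_sum (fun j _ => Nat.zero_le (e j))
        (Finset.mem_univ i)) (h2 i (Finset.mem_univ i))⟩
    · have hrt : ∀ i, rt (p := p) (depth T) (l.get i) = r i := fun i =>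
        root_unique (p := p) (m := depth T) (by rw [rt_pow, hr i])
      have hsum : ∑ i, l.get i = l.sum := by
        rw [← List.sum_ofFn, List.ofFn_get]
      have hsum' : ∑ i, teiT (y := y) wt T (l.get i) = (l.map (teiT (y := y) wt T)).sum := by
        rw [← List.sum_ofFn]
        congr 1
        exact List.ext_get (by simp) (by simp)
      rw [hsum] at hc
      simp only [hrt] at hc
      change teiT (y := y) wt T l.sum = (l.map (teiT (y := y) wt T)).sum + _
      rw [← hsum']
      refine hc.trans ?_
      rw [List.map_map, Finset.sum_map_toList]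
      exact congrArg₂ (· + ·) rfl (congrArg _ (Finset.sum_congr (by congr) fun _ _ => rfl))

end P202.Mixed
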