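import Vale.Agent.P202.InterfacesM4

/-!
# P202, mixed characteristic: proof of `GoalTei`
-/

set_option linter.style.header false

universe u

namespace Vale.Agent.P202

open P202.Mixed

variable (p : ℕ) [Fact p.Prime] {k : Type u} [Field k] [CharP k p] [PerfectRing k p] {d n : ℕ}

lemma one_le_exWt_exY {wt : Vr d n → ℕ} (hwt : ∀ v, 0 < wt v) :
    1 ≤ exWt p wt (exY p d n) := by
  rw [exWt_exY]
  exact_mod_cast hwt none

/-- The Teichmuller data of `PT`. -/
noncomputable def ptData (wt : Vr d n → ℕ) (hwt : ∀ v, 0 < wt v) (T : ℚ) :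
    TeiData p (PT p k wt T) (KG p k d n) :=
  teiData (y := exY p d n) (wt := exWt p wt) T (one_le_exWt_exY p hwt) (exWt_nonneg p wt)
    bijective_nsmul_expo

lemma exists_pow_smul_eq (m : ℕ) (g : Ex p d n) : ∃ h : Ex p d n, p ^ m • h = g := by
  induction m generalizing g with
  | zero => exact ⟨g, by simp⟩
  | succ m ih =>
    obtain ⟨a, ha⟩ := (bijective_nsmul_expo (p := p) (σ := Vr d n)).2 g
    obtain ⟨b, hb⟩ := ih a
    exact ⟨b, by dsimp only at ha; rw [pow_succ, mul_comm, mul_nsmul', hb, ha]⟩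

lemma teiPT_single {wt : Vr d n → ℕ} (hwt : ∀ v, 0 < wt v) (T : ℚ) (g : Ex p d n) (w : k) :
    teiPT p wt T (AddMonoidAlgebra.single g w) =
      monPT p wt T g (WittVector.teichmuller p w) := by
  obtain ⟨h, hh⟩ := exists_pow_smul_eq p (depth T) g
  exact teiT_single T (one_le_exWt_exY p hwt) rfl hh w

theorem goalTei : GoalTei.{u} := by
  intro p _ k _ _ _ d n wt hwt T
  refine ⟨⟨ptData p wt hwt T, rfl, rfl, rfl, exWt_exY p wt, rfl⟩,
    teiPT_single p hwt T, fun S hS hconv x hx => ?_⟩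
  exact (ptData p wt hwt T).tei_closure_mem hS hconv hx

end Vale.Agent.P202
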