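import Vale.Agent.P202.M5Init

/-!
M5 (helper10): auxiliary lemmas for the assembly of `goalE`.
-/

universe u

namespace Vale.Agent.P202

open MvPolynomial P202.Mixed

variable {p : ℕ} [hp : Fact p.Prime] {k : Type u} [Field k] [CharP k p] [PerfectRing k p] {d n : ℕ}
  {wt : Vr d n → ℕ} {T : ℕ}

omit [PerfectRing k p] in
lemma mk_mem_lfil {q t : ℕ} {g : Hv n → MvPolynomial (Vr d n) (WittVector p k)} {x : MvPolynomial (Vr d n) (WittVector p k)}
    (hx : x ∈ lIdeal p q g ⊔ wIdeal (WittVector p k) wt t) :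
    Ideal.Quotient.mk (lIdeal p q g) x ∈ lfil p wt q g t := by
  obtain ⟨l, hl, y, hy, rfl⟩ := Submodule.mem_sup.1 hx
  rw [map_add, Ideal.Quotient.eq_zero_iff_mem.2 hl, zero_add]
  exact Ideal.mem_map_of_mem _ hy

omit [PerfectRing k p] in
lemma mem_J_of {q t : ℕ} {g : Hv n → MvPolynomial (Vr d n) (WittVector p k)} {x : MvPolynomial (Vr d n) (WittVector p k)}
    (hx : x ∈ wIdeal (WittVector p k) wt t ⊔ Ideal.span {yRel p k d n q}) :
    x ∈ lIdeal p q g ⊔ wIdeal (WittVector p k) wt t := by
  have h : wIdeal (WittVector p k) wt t ⊔ Ideal.span {yRel p k d n q} ≤ lIdeal p q g ⊔ wIdeal (WittVector p k) wt t := by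
    refine sup_le le_sup_right (le_sup_of_le_left ?_)
    rw [Ideal.span_le, Set.singleton_subset_iff]
    exact Ideal.subset_span (Set.mem_insert _ _)
  exact h hx

omit [PerfectRing k p] in
lemma J_mul_left {q s t : ℕ} {g : Hv n → MvPolynomial (Vr d n) (WittVector p k)}
    {x y : MvPolynomial (Vr d n) (WittVector p k)} (hx : x ∈ wIdeal (WittVector p k) wt s)
    (hy : y ∈ lIdeal p q g ⊔ wIdeal (WittVector p k) wt t) : x * y ∈ lIdeal p q g ⊔ wIdeal (WittVector p k) wt (s + t) := by
  obtain ⟨l, hl, z, hz, rfl⟩ := Submodule.mem_sup.1 hy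
  rw [mul_add]
  exact Submodule.add_mem_sup (Ideal.mul_mem_left _ _ hl) (m5_wIdeal_mul hx hz)

omit [PerfectRing k p] in
lemma lIdeal_eq (q : ℕ) (g : Hv n → MvPolynomial (Vr d n) (WittVector p k)) :
    lIdeal p q g = Ideal.span {yRel p k d n q} ⊔ Ideal.span (Set.range g) :=
  Ideal.span_insert _ _

/-- An element whose initial form is in the ideal of the initial forms has higher weight. -/
lemma LevData.lift_mem {q : ℕ} {g : Hv n → MvPolynomial (Vr d n) (WittVector p k)} (L : LevData p k wt q g)
    {t : ℕ} {x : MvPolynomial (Vr d n) (WittVector p k)} (hx : x ∈ wIdeal (WittVector p k) wt t)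
    (h : inp wt t x ∈ Ideal.span (Set.range L.F)) :
    x ∈ lIdeal p q g ⊔ wIdeal (WittVector p k) wt (t + 1) := by
  classical
  obtain ⟨a, ha⟩ := (Submodule.mem_span_range_iff_exists_fun _).1 h
  simp only [smul_eq_mul] at ha
  obtain ⟨g', hg, hF, hI⟩ := L.normalize
  set a' : Hv n → MvPolynomial (Vr d n) k := fun v =>
    weightedHomogeneousComponent wt (t - L.deg v * wt (hVar v)) (a v) with ha'
  have hA : ∀ v, IsWeightedHomogeneous wt (a' v) (t - L.deg v * wt (hVar v)) := fun v =>
    weightedHomogeneousComponent_isWeightedHomogeneous _ _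
  set A : Hv n → MvPolynomial (Vr d n) (WittVector p k) :=
    fun v => if L.deg v * wt (hVar v) ≤ t then liftL p (a' v) else 0 with hA'
  have hAw : ∀ v, A v ∈ wIdeal (WittVector p k) wt (t - L.deg v * wt (hVar v)) := fun v => by
    rw [hA']; dsimp only
    split_ifs
    · exact m5_mem_wIdeal_of_hom (exists_lift_hom (hA v)).1
    · exact zero_mem _
  have hAg : ∑ v, A v * g' v ∈ wIdeal (WittVector p k) wt t :=
    sum_mem fun v _ => m5_wIdeal_anti le_tsub_add (m5_wIdeal_mul (hAw v) (hg v))
  have h0 : inp wt t (x - ∑ v, A v * g' v) = 0 := by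
    rw [map_sub, map_sum, sub_eq_zero,
      ← (inp_isHom t x).weightedHomogeneousComponent_same, ← ha, map_sum]
    refine Finset.sum_congr rfl fun v _ => ?_
    rw [m5_comp_mul_hom _ (L.hom v), m5_inp_mul_gen (hAw v) (hg v), hF, hA']
    dsimp only
    split_ifs with hv
    · rw [(exists_lift_hom (hA v)).2]
    · rfl
  rw [show x = ∑ v, A v * g' v + (x - ∑ v, A v * g' v) by ring]
  refine add_mem (Ideal.mem_sup_left ?_)
    (mem_J_of (mem_of_inp_eq_zero L.q_pos (L.wt_pos none) (sub_mem hx hAg) h0))
  rw [hI]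
  exact Ideal.mem_sup_right (sum_mem fun v _ =>
    Ideal.mul_mem_left _ _ (Ideal.subset_span ⟨v, rfl⟩))

/-- An element of weight `C₀ q` with the expanded initial form, congruent to the truncation. -/
lemma exists_hat {q C₀ : ℕ} (hq : 0 < q) {f : MvPowerSeries (Fin d ⊕ Fin n) (WittVector p k)}
    {F : MvPolynomial (Vr d n) k} (hF : HasInit p wt C₀ f F)
    {f' : MvPolynomial (Fin d ⊕ Fin n) (WittVector p k)}
    (hf : MemW p wt (C₀ + 1) (f - (f' : MvPowerSeries (Fin d ⊕ Fin n) (WittVector p k)))) :
    ∃ fh ∈ wIdeal (WittVector p k) wt (q * C₀), inp wt (q * C₀) fh = expand q F ∧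
      piQ q f' - fh ∈ Ideal.span {yRel p k d n q} := by
  obtain ⟨y, hy, w, hw, hyw⟩ := Submodule.mem_sup.1 (piQ_init hq hF hf)
  obtain ⟨hh, hl⟩ := exists_lift_hom (p := p) (expand_hom q hF.1)
  have hy' : y ∈ wIdeal (WittVector p k) wt (q * C₀ + 1) :=
    m5_wIdeal_anti (by rw [mul_add, mul_one]; omega) hy
  refine ⟨liftL p (expand q F) + y,
    add_mem (m5_mem_wIdeal_of_hom hh) (m5_wIdeal_anti (Nat.le_succ _) hy'), ?_, ?_⟩
  · rw [map_add, hl, inp_eq_zero_of_mem hy', add_zero]
  · rwa [show piQ q f' - (liftL p (expand q F) + y) = w by rw [← sub_sub, ← hyw]; ring]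

/-- The initial form of a difference. -/
lemma hinit_sub (hY : 0 < wt none) {C₀ : ℕ} {f f₁ : MvPowerSeries (Fin d ⊕ Fin n) (WittVector p k)} {F F₁ : MvPolynomial (Vr d n) k}
    (h : HasInit p wt C₀ f F) (h₁ : HasInit p wt C₀ f₁ F₁) :
    MemW p wt (C₀ + 1) (f - f₁ - liftPi p (F - F₁)) := by
  classical
  have key : MemW p wt (C₀ + 1) (liftPi p F - liftPi p F₁ - liftPi p (F - F₁)) := by
    set S := F.support ∪ F₁.support ∪ (F - F₁).support with hS
    have hext : ∀ H : MvPolynomial (Vr d n) k, H.support ⊆ S → liftPi p H =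
        ∑ γ ∈ S, MvPowerSeries.monomial γ.some
          (WittVector.teichmuller p (coeff γ H) * (p : (WittVector p k)) ^ γ none) := fun H hH =>
      Finset.sum_subset hH fun γ _ hγ => by
        rw [notMem_support_iff.1 hγ, WittVector.teichmuller_zero, zero_mul, map_zero]
    rw [hext F (Finset.subset_union_left.trans Finset.subset_union_left),
      hext F₁ (Finset.subset_union_right.trans Finset.subset_union_left),
      hext (F - F₁) Finset.subset_union_right, ← Finset.sum_sub_distrib, ← Finset.sum_sub_distrib]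
    intro δ
    refine ⟨?_, ?_⟩
    · exact if hd : C₀ + 1 ≤ Finsupp.weight (fun v => wt (some v)) δ then 0
        else (C₀ - Finsupp.weight (fun v => wt (some v)) δ) / wt none + 1
    · refine ⟨?_, ?_⟩
      · split_ifs with hd
        · simpa using hd
        · rcases Nat.eq_zero_or_pos (wt none) with h0 | h0
          · omega
          · have := Nat.lt_mul_div_succ (C₀ - Finsupp.weight (fun v => wt (some v)) δ) h0
            rw [mul_comm] at this
            omega
      · rw [map_sum]
        refine Finset.dvd_sum fun γ _ => ?_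
        rw [← map_sub, ← map_sub, MvPowerSeries.coeff_monomial]
        by_cases hδ : δ = γ.some
        swap
        · rw [if_neg hδ]; exact dvd_zero _
        rw [if_pos hδ, ← sub_mul, ← sub_mul]
        by_cases hne : coeff γ F = 0 ∧ coeff γ F₁ = 0
        · rw [coeff_sub, hne.1, hne.2, sub_zero]
          simp
        have hγ : Finsupp.weight wt γ = C₀ := by
          rcases not_and_or.1 hne with h0 | h0
          exacts [h.1 h0, h₁.1 h0]
        have hw : Finsupp.weight wt γ = γ none * wt none +
            Finsupp.weight (fun v => wt (some v)) δ := by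
          have e1 : γ = Finsupp.single none (γ none) + δ.mapDomain some := by
            subst hδ
            ext v
            cases v with
            | none => simp [Finsupp.mapDomain_of_notMem_range]
            | some i => simp [Finsupp.mapDomain_apply (Option.some_injective _)]
          conv_lhs => rw [e1]
          rw [map_add, Finsupp.weight_single, exDiv_zero_mapDomain_weight, smul_eq_mul]
        obtain ⟨z, hz⟩ := m5_dvd_of_constantCoeff (p := p) (a := WittVector.teichmuller p (coeff γ F) -
          WittVector.teichmuller p (coeff γ F₁) - WittVector.teichmuller p (coeff γ (F - F₁))) (by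
            simp [WittVector.constantCoeff_apply, WittVector.teichmuller_coeff_zero, map_sub])
        rw [hz, show (p : (WittVector p k)) * z * (p : (WittVector p k)) ^ γ none = (p : (WittVector p k)) ^ (γ none + 1) * z by ring]
        refine Dvd.dvd.mul_right (pow_dvd_pow _ ?_) _
        split_ifs with hd
        · exact Nat.zero_le _
        · refine Nat.add_le_add_right ?_ 1
          rw [hw] at hγ
          rcases Nat.eq_zero_or_pos (wt none) with h0 | h0
          · simp [h0]
          · rw [show C₀ - Finsupp.weight (fun v => wt (some v)) δ = γ none * wt none by omega,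
              Nat.mul_div_cancel _ h0]
  rw [show f - f₁ - liftPi p (F - F₁) = (f - liftPi p F) - (f₁ - liftPi p F₁) +
    (liftPi p F - liftPi p F₁ - liftPi p (F - F₁)) by ring, ← sub_neg_eq_add]
  refine memW_sub (memW_sub h.2 h₁.2) fun γ => ?_
  obtain ⟨a, ha, hd⟩ := key γ
  exact ⟨a, ha, by rw [map_neg]; exact dvd_neg.2 hd⟩

/-- The identity between the initial forms. -/
lemma init_identity {R : Type*} [CommRing R] {I : Ideal R} {U D : R} (h : U * (U - D) ∈ I)
    {Q e : ℕ} (hQ : 1 ≤ Q) (he : 1 ≤ e) : U ^ Q * D ^ e - D ^ Q * (U * D ^ (e - 1)) ∈ I := by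
  obtain ⟨Q', rfl⟩ := Nat.exists_eq_add_of_le hQ
  obtain ⟨e', rfl⟩ := Nat.exists_eq_add_of_le he
  obtain ⟨c, hc⟩ := sub_dvd_pow_sub_pow U D Q'
  rw [show U ^ (1 + Q') * D ^ (1 + e') - D ^ (1 + Q') * (U * D ^ (1 + e' - 1)) =
      U * (U ^ Q' - D ^ Q') * D ^ (e' + 1) by rw [Nat.add_sub_cancel_left]; ring, hc,
    show U * ((U - D) * c) * D ^ (e' + 1) = U * (U - D) * (c * D ^ (e' + 1)) by ring]
  exact Ideal.mul_mem_right _ _ h

end Vale.Agent.P202
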