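import Mathlib

/-!
Section 5b: the valuative closure of a finitely generated ideal in a perfect domain.
If `v x ≥ min v (a k)` (additive convention) at every valuation ring over the domain, then `x` lies
in the ideal of the products of roots of the `a k` of total exponent almost one.
-/

universe u v w

namespace Vale.Agent.P202

open Finset

section closure

variable {B : Type u} [CommRing B] {K : Type v} [Field K] [Algebra B K]
  [FaithfulSMul B K] {κ : Type w}

/-- The valuative criterion: a power of `x` is in the ideal times the remaining powers. -/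
lemma exists_pow_mem_of_valuation (a : κ → B) (x : B)
    (h : ∀ O : ValuationSubring K, (∀ r : B, algebraMap B K r ∈ O) →
      ∃ k, O.valuation (algebraMap B K x) ≤ O.valuation (algebraMap B K (a k))) :
    ∃ n : ℕ, x ^ (n + 1) ∈
      Ideal.span (Set.range a) * (Ideal.span (Set.range a) ⊔ Ideal.span {x}) ^ n := by
  classical
  rcases eq_or_ne x 0 with rfl | hx
  · exact ⟨0, by simp⟩
  have hinj : Function.Injective (algebraMap B K) := FaithfulSMul.algebraMap_injective B K
  set x' := algebraMap B K x with hx'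
  have hx0 : x' ≠ 0 := fun h0 => hx (hinj (by rw [map_zero]; exact h0))
  set I := Ideal.span (Set.range a) with hI
  set J := I ⊔ Ideal.span {x} with hJ
  have hxJ : x ∈ J := le_sup_right (α := Ideal B) (Ideal.subset_span rfl)
  let R : Subring K := Subring.closure
    (Set.range (algebraMap B K) ∪ Set.range fun k => algebraMap B K (a k) / x')
  have hP : ∀ y ∈ R, ∃ (n : ℕ) (c : B), c ∈ J ^ n ∧ y * x' ^ n = algebraMap B K c := by
    intro y hy
    induction hy using Subring.closure_induction with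
    | mem y hy =>
      rcases hy with ⟨r, rfl⟩ | ⟨k, rfl⟩
      · exact ⟨0, r, by simp, by simp⟩
      · exact ⟨1, a k, by rw [pow_one]; exact le_sup_left (α := Ideal B) (Ideal.subset_span ⟨k, rfl⟩),
          by rw [pow_one, div_mul_cancel₀ _ hx0]⟩
    | zero => exact ⟨0, 0, by simp, by simp⟩
    | one => exact ⟨0, 1, by simp, by simp⟩
    | add y z _ _ iy iz =>
      obtain ⟨n, c, hc, hy⟩ := iy
      obtain ⟨m, d, hd, hz⟩ := iz
      refine ⟨n + m, c * x ^ m + d * x ^ n, add_mem ?_ ?_, ?_⟩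
      · rw [pow_add]; exact Ideal.mul_mem_mul hc (Ideal.pow_mem_pow hxJ m)
      · rw [pow_add, mul_comm (J ^ n)]; exact Ideal.mul_mem_mul hd (Ideal.pow_mem_pow hxJ n)
      · simp only [map_add, map_mul, map_pow, ← hx', ← hy, ← hz]; ring
    | neg y _ iy =>
      obtain ⟨n, c, hc, hy⟩ := iy
      exact ⟨n, -c, neg_mem hc, by rw [map_neg, ← hy, neg_mul]⟩
    | mul y z _ _ iy iz =>
      obtain ⟨n, c, hc, hy⟩ := iy
      obtain ⟨m, d, hd, hz⟩ := iz
      refine ⟨n + m, c * d, by rw [pow_add]; exact Ideal.mul_mem_mul hc hd, ?_⟩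
      simp only [map_mul, ← hy, ← hz]; ring
  let gen : κ → R := fun k =>
    ⟨algebraMap B K (a k) / x', Subring.subset_closure (Or.inr ⟨k, rfl⟩)⟩
  have hQ : ∀ y ∈ Ideal.span (Set.range gen), ∃ (n : ℕ) (c : B),
      c ∈ I * J ^ n ∧ (y : K) * x' ^ (n + 1) = algebraMap B K c := by
    intro y hy
    induction hy using Submodule.span_induction with
    | mem y hy =>
      obtain ⟨k, rfl⟩ := hy
      exact ⟨0, a k, by simp only [pow_zero, Ideal.one_eq_top, Ideal.mul_top]; exact Ideal.subset_span ⟨k, rfl⟩,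
        by simp only [gen, zero_add, pow_one]; rw [div_mul_cancel₀ _ hx0]⟩
    | zero => exact ⟨0, 0, zero_mem _, by simp⟩
    | add y z _ _ iy iz =>
      obtain ⟨n, c, hc, hy⟩ := iy
      obtain ⟨m, d, hd, hz⟩ := iz
      refine ⟨n + m, c * x ^ m + d * x ^ n, add_mem ?_ ?_, ?_⟩
      · rw [pow_add, ← mul_assoc]; exact Ideal.mul_mem_mul hc (Ideal.pow_mem_pow hxJ m)
      · rw [pow_add, mul_comm (J ^ n), ← mul_assoc]
        exact Ideal.mul_mem_mul hd (Ideal.pow_mem_pow hxJ n)
      · simp only [Subring.coe_add, map_add, map_mul, map_pow, ← hx', ← hy, ← hz]; ring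
    | smul r y _ iy =>
      obtain ⟨n, c, hc, hy⟩ := iy
      obtain ⟨m, d, hd, hr⟩ := hP r r.2
      refine ⟨n + m, c * d, by rw [pow_add, ← mul_assoc]; exact Ideal.mul_mem_mul hc hd, ?_⟩
      simp only [smul_eq_mul, Subring.coe_mul, map_mul, ← hy, ← hr]; ring
  by_cases htop : Ideal.span (Set.range gen) = ⊤
  · obtain ⟨n, c, hc, h1⟩ := hQ 1 (htop ▸ Submodule.mem_top)
    rw [Subring.coe_one, one_mul, hx', ← map_pow] at h1
    exact ⟨n, hinj h1 ▸ hc⟩
  exfalso
  obtain ⟨O, hRO, hO⟩ := Ideal.image_subset_nonunits_valuationSubring _ htop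
  obtain ⟨k, hk⟩ := h O fun r => hRO (Subring.subset_closure (Or.inl ⟨r, rfl⟩))
  have hlt := (ValuationSubring.mem_nonunits_iff O).1
    (hO ⟨gen k, Ideal.subset_span ⟨k, rfl⟩, rfl⟩)
  change O.valuation (algebraMap B K (a k) / x') < 1 at hlt
  rw [map_div₀, div_lt_one₀ (zero_lt_iff.2 ((O.valuation).ne_zero_iff.2 hx0))] at hlt
  exact absurd hk (not_le.2 hlt)

/-- Absorbing the other powers. -/
lemma pow_mem_pow_of_mem_mul {I : Ideal B} {x : B} {n : ℕ}
    (h : x ^ (n + 1) ∈ I * (I ⊔ Ideal.span {x}) ^ n) (m : ℕ) : x ^ m ∈ I ^ (m - n) := by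
  set J := I ⊔ Ideal.span {x} with hJ
  have hstep : ∀ j, J ^ (j + 1) ≤ I * J ^ j ⊔ Ideal.span {x ^ (j + 1)} := by
    intro j
    induction j with
    | zero => simp [J]
    | succ j ih =>
      calc J ^ (j + 1 + 1) = J ^ (j + 1) * I ⊔ J ^ (j + 1) * Ideal.span {x} := by
            rw [pow_succ _ (j + 1), hJ, Ideal.mul_sup]
        _ ≤ I * J ^ (j + 1) ⊔ (I * J ^ j ⊔ Ideal.span {x ^ (j + 1)}) * Ideal.span {x} :=
            sup_le_sup (le_of_eq (mul_comm _ _)) (Ideal.mul_mono_left ih)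
        _ ≤ I * J ^ (j + 1) ⊔ Ideal.span {x ^ (j + 1 + 1)} := by
            rw [Ideal.sup_mul, Ideal.span_singleton_mul_span_singleton, ← pow_succ, ← sup_assoc]
            refine sup_le_sup_right (sup_le le_rfl ?_) _
            rw [mul_assoc]
            exact Ideal.mul_mono_right (by
              rw [pow_succ]; exact Ideal.mul_mono_right le_sup_right)
  have hJn : J ^ (n + 1) ≤ I * J ^ n :=
    (hstep n).trans (sup_le le_rfl ((Ideal.span_singleton_le_iff_mem _).2 h))
  have hind : ∀ t, J ^ (n + t) ≤ I ^ t * J ^ n := by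
    intro t
    induction t with
    | zero => simp
    | succ t ih =>
      calc J ^ (n + (t + 1)) = J ^ (n + t) * J := by rw [← pow_succ]; rfl
        _ ≤ I ^ t * J ^ n * J := Ideal.mul_mono_left ih
        _ = I ^ t * J ^ (n + 1) := by rw [mul_assoc, ← pow_succ]
        _ ≤ I ^ t * (I * J ^ n) := Ideal.mul_mono_right hJn
        _ = I ^ (t + 1) * J ^ n := by rw [← mul_assoc, ← pow_succ]
  rcases le_total m n with hmn | hmn
  · simp [Nat.sub_eq_zero_of_le hmn]
  · obtain ⟨t, rfl⟩ := Nat.exists_eq_add_of_le hmn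
    rw [Nat.add_sub_cancel_left]
    have hxJ : x ∈ J := Ideal.mem_sup_right (Ideal.mem_span_singleton_self x)
    exact (Ideal.mul_le_left : I ^ t * J ^ n ≤ I ^ t) (hind t (Ideal.pow_mem_pow hxJ (n + t)))

/-- Powers of a span are spanned by monomials. -/
lemma closure_span_pow_le [Fintype κ] (b : κ → B) (M : ℕ) :
    Ideal.span (Set.range b) ^ M ≤
      Ideal.span {z | ∃ e : κ → ℕ, ∑ k, e k = M ∧ z = ∏ k, b k ^ e k} := by
  classical
  induction M with
  | zero =>
    rw [pow_zero, Ideal.one_eq_top]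
    refine le_of_eq (((Ideal.eq_top_iff_one _).2 ?_).symm)
    exact Ideal.subset_span ⟨fun _ => 0, by simp, by simp⟩
  | succ M ih =>
    rw [pow_succ]
    refine (Ideal.mul_mono_left ih).trans ?_
    rw [Ideal.span_mul_span']
    refine Ideal.span_mono ?_
    rintro _ ⟨_, ⟨e, he, rfl⟩, _, ⟨j, rfl⟩, rfl⟩
    refine ⟨e + Pi.single j 1, ?_, ?_⟩
    · simp [Finset.sum_add_distrib, he]
    · simp only [Pi.add_apply, pow_add, Finset.prod_mul_distrib]
      congr 1
      rw [Finset.prod_eq_single j (fun k _ hk => by simp [hk]) (by simp)]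
      simp

/-- Lemma 5b, integral form: `x ^ m` is in the `(m - N)`-th power of the ideal. -/
theorem closure_pow (a : κ → B) (x : B)
    (h : ∀ O : ValuationSubring K, (∀ r : B, algebraMap B K r ∈ O) →
      ∃ k, O.valuation (algebraMap B K x) ≤ O.valuation (algebraMap B K (a k))) :
    ∃ N : ℕ, ∀ m, x ^ m ∈ Ideal.span (Set.range a) ^ (m - N) := by
  obtain ⟨n, hn⟩ := exists_pow_mem_of_valuation a x h
  exact ⟨n, pow_mem_pow_of_mem_mul hn⟩

/-- Lemma 5b. -/
theorem closure_root [Fintype κ] (p : ℕ) [Fact p.Prime] [CharP B p] [PerfectRing B p]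
    (a : κ → B) (x : B)
    (h : ∀ O : ValuationSubring K, (∀ r : B, algebraMap B K r ∈ O) →
      ∃ k, O.valuation (algebraMap B K x) ≤ O.valuation (algebraMap B K (a k)))
    {η : ℝ} (hη : 0 < η) :
    ∃ l₀ : ℕ, ∀ l, l₀ ≤ l → x ∈ Ideal.span {z | ∃ e : κ → ℕ,
      (1 - η) * (p : ℝ) ^ l ≤ ((∑ k, e k : ℕ) : ℝ) ∧
      z = ∏ k, ((iterateFrobeniusEquiv B p l).symm (a k)) ^ e k} := by
  obtain ⟨N, hN⟩ := closure_pow a x h
  have hp1 : (1 : ℝ) < p := by exact_mod_cast (Fact.out : p.Prime).one_lt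
  obtain ⟨l₀, hl₀⟩ := pow_unbounded_of_one_lt ((N : ℝ) / η) hp1
  refine ⟨l₀, fun l hl => ?_⟩
  set φ : B →+* B := (iterateFrobeniusEquiv B p l).symm.toRingHom with hφ
  have hx : x = φ (x ^ p ^ l) := by
    show x = (iterateFrobeniusEquiv B p l).symm (x ^ p ^ l)
    rw [← iterateFrobeniusEquiv_def B p l x, RingEquiv.symm_apply_apply]
  have hmem : x ∈ Ideal.span (Set.range fun k => φ (a k)) ^ (p ^ l - N) := by
    have h1 := Ideal.mem_map_of_mem φ (hN (p ^ l))
    rw [← hx, Ideal.map_pow, Ideal.map_span, ← Set.range_comp] at h1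
    exact h1
  refine (closure_span_pow_le _ _).trans (Ideal.span_mono ?_) hmem
  rintro _ ⟨e, he, rfl⟩
  refine ⟨e, ?_, rfl⟩
  rw [he]
  have h2 : (N : ℝ) ≤ η * (p : ℝ) ^ l := by
    have h3 := hl₀.le.trans (pow_le_pow_right₀ hp1.le hl)
    rw [div_le_iff₀ hη] at h3
    linarith
  have h4 : ((p ^ l : ℕ) : ℝ) ≤ ((p ^ l - N : ℕ) : ℝ) + (N : ℝ) := by
    exact_mod_cast (le_tsub_add : p ^ l ≤ p ^ l - N + N)
  push_cast at h4
  linarith

end closure

end Vale.Agent.P202
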