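import Vale.Agent.P202.M5Level
import Vale.Agent.P202.M4Approx
import Vale.Agent.P202.M4Tei

/-!
M5 (helper10): descent of memberships from the perfect ring to a finite level.
-/

universe u

namespace Vale.Agent.P202

open MvPolynomial P202.Mixed

section contract

variable {Ω : Type u} [CommRing Ω] {d n : ℕ}

lemma m5_smul_injective {M : ℕ} (hM : 0 < M) :
    Function.Injective fun γ : Vr d n →₀ ℕ => M • γ := fun a b h => by
  ext v
  have := DFunLike.congr_fun h v
  simpa [hM.ne'] using this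

/-- Keep the monomials whose exponents are divisible by `M`, and divide them. -/
noncomputable def contract (M : ℕ) (hM : 0 < M) (b : MvPolynomial (Vr d n) Ω) :
    MvPolynomial (Vr d n) Ω :=
  ∑ γ ∈ b.support.preimage _ (m5_smul_injective hM).injOn, monomial γ (coeff (M • γ) b)

lemma coeff_contract (M : ℕ) (hM : 0 < M) (b : MvPolynomial (Vr d n) Ω) (γ : Vr d n →₀ ℕ) :
    coeff γ (contract M hM b) = coeff (M • γ) b := by
  classical
  rw [contract, coeff_sum]
  simp only [coeff_monomial]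
  rw [Finset.sum_ite_eq']
  split_ifs with h
  · rfl
  · symm
    simpa using h

lemma contract_add (M : ℕ) (hM : 0 < M) (a b : MvPolynomial (Vr d n) Ω) :
    contract M hM (a + b) = contract M hM a + contract M hM b :=
  MvPolynomial.ext _ _ fun γ => by simp [coeff_contract]

lemma contract_expand_mul (M : ℕ) (hM : 0 < M) (a b : MvPolynomial (Vr d n) Ω) :
    contract M hM (expand M a * b) = a * contract M hM b := by
  classical
  induction a using MvPolynomial.induction_on' with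
  | monomial α c =>
    ext γ
    rw [coeff_contract, expand_monomial, coeff_monomial_mul', coeff_monomial_mul']
    have h : M • α ≤ M • γ ↔ α ≤ γ := by
      constructor <;> intro h v
      · exact Nat.le_of_mul_le_mul_left (by simpa using h v) hM
      · simpa using Nat.mul_le_mul_left M (h v)
    by_cases hαγ : α ≤ γ
    · rw [if_pos hαγ, if_pos (h.2 hαγ), coeff_contract]
      congr 2
      ext v
      simp [Nat.mul_sub]
    · rw [if_neg hαγ, if_neg (mt h.1 hαγ)]
  | add x y hx hy => rw [map_add, add_mul, contract_add, hx, hy, add_mul]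

lemma contract_expand (M : ℕ) (hM : 0 < M) (a : MvPolynomial (Vr d n) Ω) :
    contract M hM (expand M a) = a :=
  MvPolynomial.ext _ _ fun γ => by rw [coeff_contract, coeff_expand_smul _ hM.ne']

lemma contract_mem_wIdeal {wt : Vr d n → ℕ} (M : ℕ) (hM : 0 < M) {t : ℕ}
    {b : MvPolynomial (Vr d n) Ω} (hb : b ∈ wIdeal Ω wt (M * t)) :
    contract M hM b ∈ wIdeal Ω wt t :=
  m5_mem_wIdeal_iff.2 fun γ hγ => by
    rw [coeff_contract] at hγ
    have := m5_mem_wIdeal_iff.1 hb _ hγ
    rw [map_nsmul, smul_eq_mul] at this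
    exact Nat.le_of_mul_le_mul_left this hM

lemma expand_mem_wIdeal {wt : Vr d n → ℕ} (M : ℕ) {t : ℕ}
    {b : MvPolynomial (Vr d n) Ω} (hb : b ∈ wIdeal Ω wt t) :
    expand M b ∈ wIdeal Ω wt (M * t) := by
  rw [b.as_sum, map_sum]
  refine sum_mem fun γ hγ => ?_
  rw [expand_monomial]
  refine m5_mem_wIdeal_of_hom ?_ |> m5_wIdeal_anti (Nat.mul_le_mul_left M
    (m5_mem_wIdeal_iff.1 hb γ (mem_support_iff.1 hγ)))
  exact isWeightedHomogeneous_monomial _ _ _ (by rw [map_nsmul, smul_eq_mul])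

lemma expand_hom {R : Type*} [CommRing R] {wt : Vr d n → ℕ} (M : ℕ) {t : ℕ}
    {F : MvPolynomial (Vr d n) R} (hF : IsWeightedHomogeneous wt F t) :
    IsWeightedHomogeneous wt (expand M F) (M * t) := by
  rw [F.as_sum, map_sum]
  refine IsWeightedHomogeneous.sum _ _ _ fun γ hγ => ?_
  rw [expand_monomial]
  exact isWeightedHomogeneous_monomial _ _ _
    (by rw [map_nsmul, smul_eq_mul, hF (mem_support_iff.1 hγ)])

end contract

variable {p : ℕ} [hp : Fact p.Prime] {k : Type u} [Field k] [CharP k p] [PerfectRing k p] {d n : ℕ}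
  {wt : Vr d n → ℕ} {T : ℕ}

/-- The elements of weight at least `s` of the truncated ring. -/
noncomputable def fI (wt : Vr d n → ℕ) (T : ℚ) (s : ℚ) : Ideal (PT p k wt T) :=
  Ideal.span {x | ∃ g : Ex p d n, s ≤ exWt p wt g ∧ x = monPT p wt T g 1}

lemma monPT_mem_fI {s : ℚ} {T : ℚ} {g : Ex p d n} (hg : s ≤ exWt p wt g) (w : (WittVector p k)) :
    monPT p wt T g w ∈ fI wt T s := by
  have h : monPT (k := k) p wt T g w = monPT p wt T 0 w * monPT p wt T g 1 := by
    rw [monPT, monPT, monPT, ← map_mul, AddMonoidAlgebra.single_mul_single, zero_add, mul_one]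
  rw [h]
  exact Ideal.mul_mem_left _ _ (Ideal.subset_span ⟨g, hg, rfl⟩)

lemma fI_anti {s t : ℚ} {T : ℚ} (h : s ≤ t) :
    fI (p := p) (k := k) wt T t ≤ fI wt T s := by
  rw [fI, Ideal.span_le]
  rintro _ ⟨g, hg, rfl⟩
  exact monPT_mem_fI (h.trans hg) 1

lemma fI_mul {s t : ℚ} {T : ℚ} {x y : PT p k wt T} (hx : x ∈ fI wt T s) (hy : y ∈ fI wt T t) :
    x * y ∈ fI wt T (s + t) := by
  refine Ideal.mul_le.1 ?_ x hx y hy
  rw [fI, fI, Ideal.span_mul_span', Ideal.span_le]
  rintro _ ⟨_, ⟨g, hg, rfl⟩, _, ⟨g', hg', rfl⟩, rfl⟩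
  simp only [monPT, ← map_mul, AddMonoidAlgebra.single_mul_single, mul_one]
  exact monPT_mem_fI (by rw [map_add]; exact add_le_add hg hg') 1

lemma pDiv_mul_pow (a j m : ℕ) : pDiv p (a * p ^ m) (j + m) = pDiv p a j := by
  refine Subtype.ext ?_
  simp only [pDiv]
  push_cast
  rw [pow_add, mul_div_mul_right _ _ (pow_ne_zero m p_ne_zero_nnrat)]

lemma exDiv_pow (j m : ℕ) (γ : Vr d n →₀ ℕ) :
    exDiv p (j + m) (p ^ m • γ) = (exDiv p j γ : Ex p d n) := by
  ext v
  simp only [exDiv, AddMonoidHom.coe_mk, ZeroHom.coe_mk, Finsupp.mapRange_apply,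
    Finsupp.smul_apply, smul_eq_mul]
  rw [mul_comm (p ^ m), pDiv_mul_pow]

lemma exDiv_single (j : ℕ) (v : Vr d n) (a : ℕ) :
    (exDiv p j (Finsupp.single v a) : Ex p d n) = Finsupp.single v (pDiv p a j) := by
  simp only [exDiv, AddMonoidHom.coe_mk, ZeroHom.coe_mk, Finsupp.mapRange_single]

variable (hL : GoalLevel.{u}) (hwt : ∀ v, 0 < wt v)

include hL hwt

lemma levelPT_raise {j J : ℕ} (hj : j ≤ J) (h : MvPolynomial (Vr d n) (WittVector p k)) :
    levelPT p wt (T : ℚ) J (expand (p ^ (J - j)) h) = levelPT p wt (T : ℚ) j h := by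
  obtain ⟨m, rfl⟩ := Nat.exists_eq_add_of_le hj
  rw [Nat.add_sub_cancel_left]
  exact (hL p k d n wt hwt T).2.2.1 j m h

/-- An element of the filtration is, at all fine levels, a polynomial of that weight. -/
lemma fI_level {s : ℚ} {x : PT p k wt (T : ℚ)} (hx : x ∈ fI wt (T : ℚ) s) :
    ∃ J₀, ∀ J, J₀ ≤ J → ∀ t : ℕ, (t : ℚ) ≤ (p : ℚ) ^ J * s →
      ∃ h ∈ wIdeal (WittVector p k) wt t, levelPT p wt (T : ℚ) J h = x := by
  unfold fI at hx
  induction hx using Submodule.span_induction with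
  | mem x hx =>
    obtain ⟨g, hg, rfl⟩ := hx
    obtain ⟨j, γ, rfl⟩ := exists_exDiv g
    refine ⟨j, fun J hJ t ht => ⟨expand (p ^ (J - j)) (monomial γ 1), ?_, ?_⟩⟩
    · refine m5_wIdeal_anti ?_ (expand_mem_wIdeal _
        (m5_mem_wIdeal_of_hom (isWeightedHomogeneous_monomial wt γ 1 rfl)))
      rw [exWt_exDiv] at hg
      obtain ⟨m, rfl⟩ := Nat.exists_eq_add_of_le hJ
      rw [Nat.add_sub_cancel_left]
      have hpj : (0 : ℚ) < (p : ℚ) ^ j := p_pow_pos j
      rw [le_div_iff₀ hpj] at hg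
      have : (t : ℚ) ≤ ((p ^ m * Finsupp.weight wt γ : ℕ) : ℚ) := by
        push_cast
        rw [pow_add] at ht
        nlinarith [mul_le_mul_of_nonneg_left hg (p_pow_pos (p := p) m).le]
      exact_mod_cast this
    · rw [levelPT_raise hL hwt hJ, levelPT_monomial]
  | zero => exact ⟨0, fun J _ t _ => ⟨0, zero_mem _, map_zero _⟩⟩
  | add x y _ _ hx hy =>
    obtain ⟨a, ha⟩ := hx
    obtain ⟨b, hb⟩ := hy
    refine ⟨max a b, fun J hJ t ht => ?_⟩
    obtain ⟨h₁, m₁, e₁⟩ := ha J (le_trans (le_max_left _ _) hJ) t ht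
    obtain ⟨h₂, m₂, e₂⟩ := hb J (le_trans (le_max_right _ _) hJ) t ht
    exact ⟨h₁ + h₂, add_mem m₁ m₂, by rw [map_add, e₁, e₂]⟩
  | smul r x _ hx =>
    obtain ⟨a, ha⟩ := hx
    obtain ⟨b, r', hr⟩ := (hL p k d n wt hwt T).2.1 r
    refine ⟨max a b, fun J hJ t ht => ?_⟩
    obtain ⟨h₁, m₁, e₁⟩ := ha J (le_trans (le_max_left _ _) hJ) t ht
    exact ⟨expand (p ^ (J - b)) r' * h₁, Ideal.mul_mem_left _ _ m₁, by
      rw [map_mul, e₁, levelPT_raise hL hwt (le_trans (le_max_right _ _) hJ), hr, smul_eq_mul]⟩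

/-- Membership descends to any level containing the elements. -/
theorem descend {ι : Type*} [Fintype ι] (jq : ℕ) (g : ι → MvPolynomial (Vr d n) (WittVector p k))
    (x : MvPolynomial (Vr d n) (WittVector p k)) {s : ℚ} {t : ℕ} (hts : (t : ℚ) ≤ (p : ℚ) ^ jq * s)
    (htT : t ≤ p ^ jq * T)
    (h : levelPT p wt (T : ℚ) jq x ∈
      fI wt (T : ℚ) s ⊔ Ideal.span (Set.range fun v => levelPT p wt (T : ℚ) jq (g v))) :
    x ∈ wIdeal (WittVector p k) wt t ⊔ Ideal.span {yRel p k d n (p ^ jq)} ⊔ Ideal.span (Set.range g) := by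
  classical
  obtain ⟨y, hy, z, hz, hyz⟩ := Submodule.mem_sup.1 h
  obtain ⟨a, ha⟩ := (Submodule.mem_span_range_iff_exists_fun _).1 hz
  simp only [smul_eq_mul] at ha
  choose la ra hra using fun v => (hL p k d n wt hwt T).2.1 (a v)
  obtain ⟨J₀, hJ₀⟩ := fI_level hL hwt hy
  set J := max (max J₀ jq) (Finset.univ.sup la) with hJ
  have hJq : jq ≤ J := le_trans (le_max_right _ _) (le_max_left _ _)
  obtain ⟨M, hM⟩ := Nat.exists_eq_add_of_le hJq
  obtain ⟨y', hy', hyy⟩ := hJ₀ J (le_trans (le_max_left _ _) (le_max_left _ _)) (p ^ M * t) (by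
    rw [hM, pow_add]
    push_cast
    nlinarith [p_pow_pos (p := p) M])
  set A : ι → MvPolynomial (Vr d n) (WittVector p k) := fun v => expand (p ^ (J - la v)) (ra v) with hA
  have hAl : ∀ v, levelPT p wt (T : ℚ) J (A v) = a v := fun v => by
    rw [hA, levelPT_raise hL hwt
      (le_trans (Finset.le_sup (Finset.mem_univ v)) (le_max_right _ _)), hra]
  set D := expand (p ^ M) x - y' - ∑ v, expand (p ^ M) (g v) * A v with hD
  have hD0 : levelPT p wt (T : ℚ) J D = 0 := by
    simp only [hD, map_sub, map_sum, map_mul, hyy, hAl]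
    rw [hM]
    simp only [(hL p k d n wt hwt T).2.2.1]
    rw [← hyz, ← ha]
    simp only [mul_comm]
    ring
  have hD1 := ((hL p k d n wt hwt T).1 J D).1 hD0
  obtain ⟨D₁, hD₁, D₂, hD₂, hDD⟩ := Submodule.mem_sup.1 hD1
  obtain ⟨e, rfl⟩ := Ideal.mem_span_singleton'.1 hD₂
  have hpM : 0 < p ^ M := pow_pos (Fact.out : p.Prime).pos M
  have hx : x = contract (p ^ M) hpM (y' + D₁) +
      yRel p k d n (p ^ jq) * contract (p ^ M) hpM e +
      ∑ v, g v * contract (p ^ M) hpM (A v) := by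
    have e1 : expand (p ^ M) x = y' + D₁ + expand (p ^ M) (yRel p k d n (p ^ jq)) * e +
        ∑ v, expand (p ^ M) (g v) * A v := by
      have hY : expand (p ^ M) (yRel p k d n (p ^ jq)) = X none ^ p ^ J - C (p : (WittVector p k)) := by
        rw [yRel, map_sub, map_pow, expand_X, expand_C, ← pow_mul, hM, pow_add, mul_comm]
      rw [hY, mul_comm, add_assoc y', hDD, hD]
      ring
    have hsum : ∀ S : Finset ι, contract (p ^ M) hpM (∑ v ∈ S, expand (p ^ M) (g v) * A v) =
        ∑ v ∈ S, g v * contract (p ^ M) hpM (A v) := fun S => by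
      induction S using Finset.induction_on with
      | empty => exact MvPolynomial.ext _ _ fun γ => by simp [coeff_contract]
      | insert v S hv ih =>
        rw [Finset.sum_insert hv, Finset.sum_insert hv, contract_add, contract_expand_mul, ih]
    have e2 := congrArg (contract (p ^ M) hpM) e1
    rwa [contract_expand, contract_add, contract_add (a := y' + D₁), contract_expand_mul,
      hsum] at e2
  rw [hx]
  refine add_mem (add_mem (Ideal.mem_sup_left (Ideal.mem_sup_left ?_))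
    (Ideal.mem_sup_left (Ideal.mem_sup_right ?_))) (Ideal.mem_sup_right ?_)
  · refine contract_mem_wIdeal _ _ (add_mem hy' (m5_wIdeal_anti ?_ hD₁))
    calc p ^ M * t ≤ p ^ M * (p ^ jq * T) := Nat.mul_le_mul_left _ htT
      _ = p ^ J * T := by rw [hM, pow_add]; ring
  · exact Ideal.mul_mem_right _ _ (Ideal.mem_span_singleton_self _)
  · exact sum_mem fun v _ => Ideal.mul_mem_right _ _ (Ideal.subset_span ⟨v, rfl⟩)

end Vale.Agent.P202
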