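import Vale.Agent.P202.M5Val
import Vale.Agent.P202.M5Desc
import Vale.Agent.P202.M5Closure

/-!
M5 (helper10): the element `E` in the truncated perfect ring (section 6 of the blueprint).
-/

universe u

namespace Vale.Agent.P202

open P202.Mixed

variable {p : ℕ} [hp : Fact p.Prime] {k : Type u} [Field k] [CharP k p] [PerfectRing k p] {d n : ℕ}
  {wt : Vr d n → ℕ} {T : ℕ}

lemma rt_rt (a b : ℕ) (x : KG p k d n) : rt (p := p) a (rt (p := p) b x) = rt (p := p) (a + b) x :=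
  root_unique (m := a + b) (by rw [rt_pow, pow_add, pow_mul, rt_pow, rt_pow])

lemma rt_eq_pow {a b : ℕ} (h : a ≤ b) (x : KG p k d n) :
    rt (p := p) a x = rt (p := p) b x ^ p ^ (b - a) := by
  conv_lhs => rw [rt_add (p := p) (b - a) a x, Nat.sub_add_cancel h]

/-- Comparison of powers of roots. -/
lemma rt_pow_dvd {m l E e : ℕ} (x : KG p k d n) (h : E * p ^ l ≤ e * p ^ m) :
    rt (p := p) m x ^ E ∣ rt (p := p) l x ^ e := by
  rw [rt_eq_pow (Nat.le_add_right m l) x, rt_eq_pow (Nat.le_add_left l m) x, ← pow_mul, ← pow_mul,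
    Nat.add_sub_cancel_left, Nat.add_sub_cancel]
  exact pow_dvd_pow _ (by rw [mul_comm, mul_comm (p ^ m)]; exact h)

variable (hwt : ∀ v, 0 < wt v)

/-- The Teichmuller data of `PT`. -/
noncomputable def tD (hwt : ∀ v, 0 < wt v) (T : ℕ) :
    TeiData p (PT p k wt (T : ℚ)) (KG p k d n) :=
  ptData p wt hwt (T : ℚ)

include hwt in
lemma teiPT_mul (x y : KG p k d n) :
    teiPT p wt (T : ℚ) (x * y) = teiPT p wt (T : ℚ) x * teiPT p wt (T : ℚ) y :=
  map_mul (tD hwt T).tei x y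

include hwt in
lemma teiPT_one : teiPT p wt (T : ℚ) (1 : KG p k d n) = 1 := map_one (tD hwt T).tei

include hwt in
lemma teiPT_pow (x : KG p k d n) (m : ℕ) :
    teiPT p wt (T : ℚ) (x ^ m) = teiPT p wt (T : ℚ) x ^ m := map_pow (tD hwt T).tei x m

include hwt in
lemma teiPT_dvd {x y : KG p k d n} (h : x ∣ y) {I : Ideal (PT p k wt (T : ℚ))}
    (hx : teiPT p wt (T : ℚ) x ∈ I) : teiPT p wt (T : ℚ) y ∈ I := by
  obtain ⟨c, rfl⟩ := h
  rw [teiPT_mul hwt]
  exact Ideal.mul_mem_right _ _ hx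

include hwt in
lemma teiPT_fil_mem (hT : GoalTei.{u}) {s : ℚ} {x : KG p k d n} (hx : x ∈ FilKG p wt s) :
    teiPT p wt (T : ℚ) x ∈ fI wt (T : ℚ) s := by
  classical
  set S : Set (KG p k d n) :=
    {y | ∃ g c, s ≤ exWt p wt g ∧ y = c * AddMonoidAlgebra.single g 1} with hS
  have hmem : x ∈ AddSubmonoid.closure S := by
    rw [← AddMonoidAlgebra.sum_coeff_single x]
    refine AddSubmonoid.sum_mem _ fun g hg => AddSubmonoid.subset_closure
      ⟨g, AddMonoidAlgebra.single 0 (x.coeff g), hx g (Finsupp.mem_support_iff.1 hg), ?_⟩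
    rw [AddMonoidAlgebra.single_mul_single, zero_add, mul_one]
  have h := (hT p k d n wt hwt (T : ℚ)).2.2 S
    (fun c y ⟨g, c', hg, hy⟩ => ⟨g, c * c', hg, by rw [hy, mul_assoc]⟩) ?_ x hmem
  · refine (AddSubmonoid.closure_le (S := (fI wt (T : ℚ) s).toAddSubmonoid)).2 ?_ h
    rintro _ ⟨_, ⟨g, c, hg, rfl⟩, rfl⟩
    show teiPT p wt (T : ℚ) (c * AddMonoidAlgebra.single g 1) ∈ fI wt (T : ℚ) s
    rw [teiPT_mul hwt, (hT p k d n wt hwt (T : ℚ)).2.1, map_one]
    exact Ideal.mul_mem_left _ _ (monPT_mem_fI hg 1)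
  · intro l hl e r he hr
    choose g c hg hc using fun i => hl (l.get i) (List.get_mem l i)
    set D := ⌈(T : ℚ)⌉₊ with hD
    have hroot : ∀ i, ∃ g', p ^ D • g' = g i := fun i => by
      have hsurj : ∀ m, Function.Surjective fun a : Ex p d n => p ^ m • a := fun m => by
        induction m with
        | zero => exact fun a => ⟨a, by simp⟩
        | succ m ih =>
          intro a
          obtain ⟨b, hb⟩ := bijective_nsmul_expo.2 a
          obtain ⟨b', hb'⟩ := ih b
          exact ⟨b', by dsimp only at *; rw [pow_succ, mul_comm, mul_nsmul', hb', hb]⟩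
      exact hsurj D (g i)
    choose g' hg' using hroot
    have hri : ∀ i, r i = rt (p := p) D (c i) * AddMonoidAlgebra.single (g' i) 1 := fun i =>
      root_unique (m := D) (by
        rw [hr, hc, mul_pow, rt_pow, AddMonoidAlgebra.single_pow, one_pow, hg'])
    refine ⟨∑ i, e i • g' i, ∏ i, rt (p := p) D (c i) ^ e i, ?_, ?_⟩
    · have hpD : (0 : ℚ) < (p : ℚ) ^ D := p_pow_pos D
      rw [map_sum]
      refine le_of_mul_le_mul_left ?_ hpD
      have hep : ((∑ i, e i : ℕ) : ℚ) = (p : ℚ) ^ D := by rw [he]; push_cast; rfl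
      calc (p : ℚ) ^ D * s = ∑ i, (e i : ℚ) * s := by rw [← hep, ← Finset.sum_mul, Nat.cast_sum]
        _ ≤ ∑ i, (e i : ℚ) * ((p : ℚ) ^ D * exWt p wt (g' i)) := by
            refine Finset.sum_le_sum fun i _ => mul_le_mul_of_nonneg_left ?_ (Nat.cast_nonneg _)
            have := congrArg (exWt p wt) (hg' i)
            rw [map_nsmul, nsmul_eq_mul] at this
            push_cast at this
            rw [this]
            exact hg i
        _ = _ := by
            rw [Finset.mul_sum]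
            exact Finset.sum_congr rfl fun i _ => by rw [map_nsmul, nsmul_eq_mul]; ring
    · have hprod : ∀ s : Finset (Fin l.length),
          ∏ i ∈ s, AddMonoidAlgebra.single (g' i) (1 : k) ^ e i =
            AddMonoidAlgebra.single (∑ i ∈ s, e i • g' i) (1 : k) := fun s => by
        induction s using Finset.induction_on with
        | empty => rfl
        | insert i s hi ih =>
          rw [Finset.prod_insert hi, Finset.sum_insert hi, ih, AddMonoidAlgebra.single_pow,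
            AddMonoidAlgebra.single_mul_single, one_pow, one_mul]
      simp only [hri, mul_pow, Finset.prod_mul_distrib, hprod]

/-- A product of roots of the family `a` of total exponent at least `1 - 1 / p ^ h`. -/
def RootSet {κ : Type*} [Fintype κ] (a : κ → KG p k d n) (h : ℕ) : Set (KG p k d n) :=
  {x | ∃ (l : ℕ) (e : κ → ℕ) (c : KG p k d n),
    (p ^ h - 1) * p ^ l ≤ (∑ j, e j) * p ^ h ∧ x = c * ∏ j, rt (p := p) l (a j) ^ e j}

include hwt in
lemma teiPT_rootSet (hT : GoalTei.{u}) {κ : Type} [Fintype κ] (a : κ → KG p k d n) (h : ℕ)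
    {I : Ideal (PT p k wt (T : ℚ))} (hI : ∀ x ∈ RootSet a h, teiPT p wt (T : ℚ) x ∈ I)
    {x : KG p k d n} (hx : x ∈ Ideal.span (RootSet a h)) : teiPT p wt (T : ℚ) x ∈ I := by
  classical
  have hsmul : ∀ c, ∀ y ∈ RootSet a h, c * y ∈ RootSet a h := fun c y ⟨l, e, c', hl, hy⟩ =>
    ⟨l, e, c * c', hl, by rw [hy, mul_assoc]⟩
  have hmem : x ∈ AddSubmonoid.closure (RootSet a h) := by
    induction hx using Submodule.span_induction with
    | mem y hy => exact AddSubmonoid.subset_closure hy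
    | zero => exact zero_mem _
    | add y z _ _ hy hz => exact add_mem hy hz
    | smul r y hy' hy =>
      clear hy'
      rw [smul_eq_mul]
      induction hy using AddSubmonoid.closure_induction with
      | mem y hy => exact AddSubmonoid.subset_closure (hsmul r y hy)
      | zero => rw [mul_zero]; exact zero_mem _
      | add y z _ _ hy hz => rw [mul_add]; exact add_mem hy hz
  have hcl := (hT p k d n wt hwt (T : ℚ)).2.2 (RootSet a h) hsmul ?_ x hmem
  · refine (AddSubmonoid.closure_le (S := I.toAddSubmonoid)).2 ?_ hcl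
    rintro _ ⟨y, hy, rfl⟩
    exact hI y hy
  · intro l hl m r hm hr
    choose L e c hL hc using fun i => hl (l.get i) (List.get_mem l i)
    set D := ⌈(T : ℚ)⌉₊
    obtain ⟨M, hM⟩ : ∃ M, ∀ i, L i ≤ M :=
      ⟨Finset.univ.sup L, fun i => Finset.le_sup (Finset.mem_univ i)⟩
    have hri : ∀ i, r i = rt (p := p) D (c i) *
        ∏ j, rt (p := p) (D + M) (a j) ^ (p ^ (M - L i) * e i j) := fun i =>
      root_unique (m := D) (by
        rw [hr, hc, mul_pow, rt_pow, ← Finset.prod_pow]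
        congr 1
        refine Finset.prod_congr rfl fun j _ => ?_
        rw [← pow_mul, rt_eq_pow (hM i) (a j), ← pow_mul,
          rt_eq_pow (Nat.le_add_left M D) (a j), ← pow_mul, Nat.add_sub_cancel]
        congr 1
        ring)
    refine ⟨D + M, fun j => ∑ i, m i * (p ^ (M - L i) * e i j),
      ∏ i, rt (p := p) D (c i) ^ m i, ?_, ?_⟩
    · calc (p ^ h - 1) * p ^ (D + M)
          = ∑ i, m i * ((p ^ h - 1) * p ^ M) := by rw [← Finset.sum_mul, hm, pow_add]; ring
        _ ≤ ∑ i, m i * (p ^ (M - L i) * ((∑ j, e i j) * p ^ h)) := by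
            refine Finset.sum_le_sum fun i _ => Nat.mul_le_mul_left _ ?_
            calc (p ^ h - 1) * p ^ M = p ^ (M - L i) * ((p ^ h - 1) * p ^ L i) := by
                  conv_lhs => rw [← Nat.sub_add_cancel (hM i), pow_add]
                  ring
              _ ≤ _ := Nat.mul_le_mul_left _ (hL i)
        _ = _ := by
            rw [Finset.sum_comm (f := fun j i => m i * (p ^ (M - L i) * e i j)), Finset.sum_mul]
            refine Finset.sum_congr rfl fun i _ => ?_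
            rw [← Finset.mul_sum, ← Finset.mul_sum]
            ring
    · simp only [hri, mul_pow, Finset.prod_mul_distrib, ← Finset.prod_pow, ← pow_mul]
      congr 1
      rw [Finset.prod_comm]
      refine Finset.prod_congr rfl fun j _ => ?_
      rw [← Finset.prod_pow_eq_pow_sum]
      exact Finset.prod_congr rfl fun i _ => by rw [mul_comm (m i)]

lemma exWt_mVar {N : ℕ} {i : Vr d n} (h : wt i ∣ N) :
    exWt p wt (Finsupp.single i (pDiv p (N / wt i) 0)) = N := by
  rw [exWt_single]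
  simp only [pDiv, pow_zero, div_one, NNRat.cast_natCast]
  rw [← Nat.cast_mul, Nat.div_mul_cancel h]

lemma isPow_rt (x : KG p k d n) {m j : ℕ} {r : KG p k d n} (hr : r ^ p ^ m = x) :
    r = rt (p := p) m x := by
  subst hr
  exact root_unique (m := m) (by rw [rt_pow])

/-- The ideal of the roots of the `G` and of the weights at least `K`. -/
noncomputable def rootI (G : Hv n → KG p k d n) (j K : ℕ) : Ideal (PT p k wt (T : ℚ)) :=
  Ideal.span (Set.range fun v => teiPT p wt (T : ℚ) (rt (p := p) j (G v))) ⊔ fI wt (T : ℚ) (K : ℚ)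

/-- The error terms of Lemma A lie in the ideal, or are multiples of a power of `G` near one. -/
lemma jpt_mem (hT : GoalTei.{u}) (hwt : ∀ v, 0 < wt v) {N K s : ℕ} (hNK : p ^ s * K ≤ N)
    {G : KG p k d n} {I : Ideal (PT p k wt (T : ℚ))} (hF : fI wt (T : ℚ) (K : ℚ) ≤ I)
    (hG : teiPT p wt (T : ℚ) (rt (p := p) s G ^ (p ^ s - 1)) ∈ I) {x : PT p k wt (T : ℚ)}
    (hx : x ∈ JPT p wt (T : ℚ) G N) : x ∈ I := by
  refine (AddSubmonoid.closure_le (S := I.toAddSubmonoid)).2 ?_ hx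
  rintro _ ⟨_, ⟨a, w, g, φ, rfl, hg, hφ, ha, haw⟩, rfl⟩
  show teiPT p wt (T : ℚ) (g * φ) ∈ I
  obtain ⟨m, j, rfl, r, hr, rfl⟩ := hg
  rw [isPow_rt (j := j) G hr]
  by_cases hj : (p ^ s - 1) * p ^ m ≤ j * p ^ s
  · exact teiPT_dvd hwt ((rt_pow_dvd G hj).trans (dvd_mul_right _ _)) hG
  · refine hF (teiPT_dvd hwt (dvd_mul_left φ _) (fI_anti ?_ (teiPT_fil_mem hwt hT hφ)))
    refine le_trans ?_ haw
    push Not at hj
    have hj' : ((j * p ^ s + p ^ m : ℕ) : ℚ) ≤ ((p ^ m * p ^ s : ℕ) : ℚ) + 0 := by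
      rw [add_zero]; refine Nat.cast_le.2 ?_
      rw [Nat.sub_mul, one_mul] at hj
      rw [mul_comm (p ^ m) (p ^ s)]
      omega
    push_cast at hj'
    have hm : (0 : ℚ) < (p : ℚ) ^ m := p_pow_pos m
    have hs : (0 : ℚ) < (p : ℚ) ^ s := p_pow_pos s
    have hN : ((p ^ s * K : ℕ) : ℚ) ≤ (N : ℚ) := Nat.cast_le.2 hNK
    push_cast at hN
    rw [show (N : ℚ) * (1 - (j : ℚ) / (p : ℚ) ^ m) = (N : ℚ) * ((p : ℚ) ^ m - j) / (p : ℚ) ^ m by
      field_simp]
    rw [le_div_iff₀ hm]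
    nlinarith [Nat.cast_nonneg (α := ℚ) N, Nat.cast_nonneg (α := ℚ) K, Nat.cast_nonneg (α := ℚ) j]

/-- The exponent of `D` is nearly full. -/
lemma tau_arith {N K i j l : ℕ} (hj : 8 * p ^ (i + 2) * (n + 1) ≤ p ^ j)
    (hNK : 8 * p ^ (i + 2) * Fintype.card (Vr d n) * K ≤ N)
    (e₀ : ℕ) (eG : Hv n → ℕ) (eM : Vr d n → ℕ)
    (he : (p ^ (i + 4) - 1) * p ^ l ≤ (e₀ + (∑ v, eG v + ∑ v, eM v)) * p ^ (i + 4))
    (hGb : ∀ v, eG v * p ^ j < p ^ (l + 1)) (hMb : ∀ v, eM v * N < K * p ^ (l + 1)) :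
    (p ^ (i + 1) + 1) * p ^ (l + i) ≤ (p ^ i + 1) * e₀ * p ^ (i + 1) := by
  have hK : 0 < K := by
    by_contra h
    have := hMb none
    simp [Nat.eq_zero_of_not_pos h] at this
  have hp2 := hp.out.two_le
  set P := p ^ (i + 1) with hP
  set SG := ∑ v, eG v with hSG
  set SM := ∑ v, eM v with hSM
  have hG' : SG * p ^ j ≤ (n + 1) * p ^ (l + 1) := by
    rw [hSG, Finset.sum_mul]
    refine (Finset.sum_le_sum fun v _ => (hGb v).le).trans ?_
    simp
  have hM' : SM * N ≤ Fintype.card (Vr d n) * (K * p ^ (l + 1)) := by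
    rw [hSM, Finset.sum_mul]
    refine (Finset.sum_le_sum fun v _ => (hMb v).le).trans ?_
    simp
  have hSG' : SG * (8 * P) ≤ p ^ l := by
    refine (mul_le_mul_iff_of_pos_right (Nat.mul_pos (Nat.succ_pos n) hp.out.pos)).1 ?_
    calc SG * (8 * P) * ((n + 1) * p) = SG * (8 * p ^ (i + 2) * (n + 1)) := by rw [hP]; ring
      _ ≤ SG * p ^ j := Nat.mul_le_mul_left _ hj
      _ ≤ (n + 1) * p ^ (l + 1) := hG'
      _ = _ := by rw [Nat.succ_eq_add_one]; ring
  have hSM' : SM * (8 * P) ≤ p ^ l := by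
    refine (mul_le_mul_iff_of_pos_right (Nat.mul_pos (Nat.mul_pos (Fintype.card_pos (α := Vr d n)) hK) hp.out.pos)).1 ?_
    calc SM * (8 * P) * (Fintype.card (Vr d n) * K * p)
        = SM * (8 * p ^ (i + 2) * Fintype.card (Vr d n) * K) := by rw [hP]; ring
      _ ≤ SM * N := Nat.mul_le_mul_left _ hNK
      _ ≤ _ := hM'
      _ = _ := by ring
  set S := e₀ + (SG + SM) with hSdef
  have hH : 8 * P ≤ p ^ (i + 4) := by
    calc 8 * P = 2 ^ 3 * P := by norm_num
      _ ≤ p ^ 3 * P := Nat.mul_le_mul_right _ (Nat.pow_le_pow_left hp2 3)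
      _ = _ := by rw [hP]; ring
  have hH0 : 0 < p ^ (i + 4) := pow_pos hp.out.pos _
  have he' : p ^ (i + 4) * p ^ l ≤ S * p ^ (i + 4) + p ^ l := by
    rw [Nat.sub_mul, one_mul] at he
    omega
  have hS8 : 8 * P * p ^ l ≤ S * (8 * P) + p ^ l := by
    refine Nat.le_of_mul_le_mul_right ?_ hH0
    calc 8 * P * p ^ l * p ^ (i + 4) = 8 * P * (p ^ (i + 4) * p ^ l) := by ring
      _ ≤ 8 * P * (S * p ^ (i + 4) + p ^ l) := Nat.mul_le_mul_left _ he'
      _ = S * (8 * P) * p ^ (i + 4) + p ^ l * (8 * P) := by ring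
      _ ≤ S * (8 * P) * p ^ (i + 4) + p ^ l * p ^ (i + 4) :=
          Nat.add_le_add_left (Nat.mul_le_mul_left _ hH) _
      _ = _ := by ring
  have hD8 : 8 * P * p ^ l ≤ e₀ * (8 * P) + 3 * p ^ l := by
    calc 8 * P * p ^ l ≤ S * (8 * P) + p ^ l := hS8
      _ = e₀ * (8 * P) + SG * (8 * P) + SM * (8 * P) + p ^ l := by rw [hSdef]; ring
      _ ≤ _ := by omega
  have hPp : p ≤ P := by
    rw [hP]; exact Nat.le_self_pow (Nat.succ_ne_zero i) p
  have key : (P + 1) * p ^ l ≤ (P + p) * e₀ := by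
    refine Nat.le_of_mul_le_mul_right ?_ (show 0 < 8 * P by omega)
    have h5 : (P + 1) * (8 * P) + 3 * (P + p) ≤ (P + p) * (8 * P) := by nlinarith
    have h6 := Nat.mul_le_mul_left (P + p) hD8
    have h7 := Nat.mul_le_mul_right (p ^ l) h5
    nlinarith
  calc (P + 1) * p ^ (l + i) = (P + 1) * p ^ l * p ^ i := by rw [pow_add]; ring
    _ ≤ (P + p) * e₀ * p ^ i := Nat.mul_le_mul_right _ key
    _ = _ := by rw [hP]; ring

/-- The terms `[U ^ a φ] [D ^ eps]` are multiples of `[D ^ (1 + eps / p)]` modulo the ideal. -/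
lemma tau_mem (hT : GoalTei.{u}) (hwt : ∀ v, 0 < wt v) {N K i j : ℕ} (hN : 0 < N) (hTN : N ≤ T)
    (hdvd : ∀ v, wt v ∣ N) (hj : 8 * p ^ (i + 2) * (n + 1) ≤ p ^ j)
    (hNK : 8 * p ^ (i + 2) * Fintype.card (Vr d n) * K ≤ N)
    (G : Hv n → KG p k d n) (U D : KG p k d n)
    (pf : Hv n → PT p k wt (T : ℚ)) (pu pd : PT p k wt (T : ℚ))
    (hf : ∀ v, ∃ x ∈ JPT p wt (T : ℚ) (G v) N,
      pf v - teiPT p wt (T : ℚ) (G v) = (p : PT p k wt _) * x)
    (hu : ∃ x ∈ JPT p wt (T : ℚ) U N, pu - teiPT p wt (T : ℚ) U = (p : PT p k wt _) * x)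
    (hd : ∃ x ∈ JPT p wt (T : ℚ) D N, pd - teiPT p wt (T : ℚ) D = (p : PT p k wt _) * x)
    (hrel : pu * (pd - pu) ∈ Ideal.span (Set.range pf))
    {g φ : KG p k d n} {a w : ℚ} (hg : IsPow p U a g) (hφ : φ ∈ FilKG p wt w) (ha : a ≤ 1)
    (haw : (N : ℚ) * (1 - a) ≤ w) :
    teiPT p wt (T : ℚ) (g * φ * rt (p := p) i D) ∈ rootI (wt := wt) G j K ⊔
      Ideal.span {teiPT p wt (T : ℚ) (D * rt (p := p) (i + 1) D)} := by
  classical
  set I := rootI (T := T) (wt := wt) G j K ⊔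
    Ideal.span {teiPT p wt (T : ℚ) (D * rt (p := p) (i + 1) D)} with hI
  set A : Option (Hv n ⊕ Vr d n) → KG p k d n := fun o =>
    o.elim (D * rt (p := p) i D)
      (Sum.elim (fun v => rt (p := p) 1 (G v)) (fun v => rt (p := p) 1 (mVar p k wt N v))) with hA
  let K' := FractionRing (KG p k d n)
  set x := g * φ * rt (p := p) i D with hx
  have hval : ∀ O : ValuationSubring K', (∀ r, algebraMap (KG p k d n) K' r ∈ O) →
      ∃ o, O.valuation (algebraMap _ K' x) ≤ O.valuation (algebraMap _ K' (A o)) := by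
    intro O hO
    haveI := charP_O O hO
    haveI := perfect_O O hO
    set f : Hv n ⊕ Vr d n → O.ValueGroup :=
      Sum.elim (fun v => valO O (G v)) (fun v => valO O (mVar p k wt N v)) with hfdef
    obtain ⟨z, -, hz⟩ := Finset.exists_max_image Finset.univ f ⟨Sum.inr none, Finset.mem_univ _⟩
    have hle : f z ≤ 1 := by
      rcases z with v | v <;> exact valO_le_one O hO _
    have hzroot : ∀ {y : KG p k d n}, valO O y ^ p ≤ f z →
        ∃ o, O.valuation (algebraMap _ K' y) ≤ O.valuation (algebraMap _ K' (A o)) := by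
      intro y hy
      refine ⟨some z, val_le_of_pow hp.out.ne_zero ?_⟩
      refine hy.trans (le_of_eq ?_)
      have h1 : ∀ y : KG p k d n, rt (p := p) 1 y ^ p = y := fun y => by simpa using rt_pow 1 y
      rcases z with v | v <;>
      · simp only [hA, hfdef, valO, Option.elim_some, Sum.elim_inl, Sum.elim_inr,
          Valuation.comap_apply, ← map_pow, h1]
    rcases eq_or_lt_of_le hle with hμ | hμ
    · exact hzroot (hμ.symm ▸ pow_le_one₀ zero_le (valO_le_one O hO x))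
    have hμM : ∀ v, valO O (mVar p k wt N v) ≤ f z := fun v => hz (Sum.inr v) (Finset.mem_univ _)
    have hD1 : valO O (rt (p := p) i D) ≤ 1 := valO_le_one O hO _
    rcases val_dichotomy O hO hwt hN hTN hdvd hμ hμM G
      (fun v => hz (Sum.inl v) (Finset.mem_univ _)) U D pf pu pd hf hu hd hrel with hUD | hUμ
    · have hgφ : valO O (g * φ) ≤ max (valO O D) (f z) :=
        val_term_le (valO O) hμ.le hμM hdvd (valO_le_one O hO) hg hφ ha haw hN
          (hUD.trans (le_max_left _ _)) (le_max_right _ _)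
      rcases max_choice (valO O D) (f z) with e | e <;> rw [e] at hgφ
      · refine ⟨none, ?_⟩
        simp only [hA, Option.elim_none, hx, map_mul]
        simp only [valO, Valuation.comap_apply, map_mul] at hgφ
        exact mul_le_mul' hgφ le_rfl
      · refine hzroot ((pow_le_of_le_one zero_le (valO_le_one O hO x) hp.out.ne_zero).trans ?_)
        rw [hx, map_mul]
        exact (mul_le_of_le_one_right zero_le hD1).trans hgφ
    · obtain ⟨m, j', hj', hm⟩ :=
        val_term (valO O) hμ.le hμM hdvd (valO_le_one O hO) hg hφ ha haw hN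
      have h2 : valO O (g * φ) ^ 2 ≤ f z := by
        refine val_le_of_pow (pow_ne_zero m hp.out.ne_zero) ?_
        rw [← pow_mul, mul_comm 2, pow_mul]
        refine (pow_le_pow_left₀ zero_le hm 2).trans ?_
        rw [mul_pow, ← pow_mul, mul_comm j', pow_mul]
        refine (mul_le_mul' (pow_le_pow_left₀ zero_le hUμ j')
          (pow_le_of_le_one zero_le (pow_le_one₀ zero_le hμ.le) two_ne_zero)).trans ?_
        rw [← pow_add, Nat.add_sub_cancel' hj']
      refine hzroot ((pow_le_pow_of_le_one zero_le (valO_le_one O hO x) hp.out.two_le).trans ?_)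
      refine (pow_le_pow_left₀ zero_le ?_ 2).trans h2
      rw [hx, map_mul]
      exact mul_le_of_le_one_right zero_le hD1
  have hη : (0 : ℝ) < ((p : ℝ) ^ (i + 4))⁻¹ := inv_pos.2 (pow_pos (Nat.cast_pos.2 hp.out.pos) _)
  obtain ⟨l₀, hl₀⟩ := closure_root (K := K') p A x hval hη
  refine teiPT_rootSet hwt hT A (i + 4) (fun y hy => ?_) (Ideal.span_mono ?_ (hl₀ l₀ le_rfl))
  swap
  · rintro _ ⟨e, he, rfl⟩
    refine ⟨l₀, e, 1, ?_, by rw [one_mul]; rfl⟩
    have hph : (0 : ℝ) < (p : ℝ) ^ (i + 4) := pow_pos (Nat.cast_pos.2 hp.out.pos) _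
    have h1 := mul_le_mul_of_nonneg_right he hph.le
    rw [show (1 - ((p : ℝ) ^ (i + 4))⁻¹) * (p : ℝ) ^ l₀ * (p : ℝ) ^ (i + 4) =
      ((p : ℝ) ^ (i + 4) - 1) * (p : ℝ) ^ l₀ by field_simp] at h1
    have h2 : (((p ^ (i + 4) - 1) * p ^ l₀ : ℕ) : ℝ) ≤ (((∑ j, e j) * p ^ (i + 4) : ℕ) : ℝ) := by
      rw [Nat.cast_mul, Nat.cast_sub (Nat.one_le_pow _ _ hp.out.pos), Nat.cast_mul]
      push_cast at h1 ⊢
      linarith
    exact_mod_cast h2
  obtain ⟨l, e, c, he, rfl⟩ := hy
  have hfac : ∀ o, rt (p := p) l (A o) ^ e o ∣ c * ∏ o, rt (p := p) l (A o) ^ e o := fun o =>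
    Dvd.dvd.mul_left (Finset.dvd_prod_of_mem _ (Finset.mem_univ o)) c
  by_cases hGb : ∃ v, p ^ (l + 1) ≤ e (some (Sum.inl v)) * p ^ j
  · obtain ⟨v, hv⟩ := hGb
    have h1 := rt_pow_dvd (p := p) (m := j) (l := l + 1) (E := 1) (G v) (by rwa [one_mul])
    rw [pow_one, ← rt_rt l 1] at h1
    refine Ideal.mem_sup_left (teiPT_dvd hwt (h1.trans (hfac (some (Sum.inl v))))
      (Ideal.mem_sup_left (Ideal.subset_span ⟨v, rfl⟩)))
  by_cases hMb : ∃ v, K * p ^ (l + 1) ≤ e (some (Sum.inr v)) * N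
  · obtain ⟨v, hv⟩ := hMb
    refine Ideal.mem_sup_left (teiPT_dvd hwt (hfac (some (Sum.inr v))) (Ideal.mem_sup_right ?_))
    refine fI_anti ?_ (teiPT_fil_mem hwt hT ((tD hwt T).isPow_mem
      (x := mVar p k wt N v) (a := (e (some (Sum.inr v)) : ℚ) / (p : ℚ) ^ (l + 1)) (n := (N : ℚ))
      ?_ ?_))
    · rw [div_mul_eq_mul_div, le_div_iff₀ (p_pow_pos _)]
      exact_mod_cast hv
    · refine ⟨l + 1, _, rfl, rt (p := p) (l + 1) (mVar p k wt N v), rt_pow _ _, ?_⟩
      simp only [hA, Option.elim_some, Sum.elim_inr, rt_rt]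
    · exact single_mem_FilK (exWt_mVar (hdvd v)).ge 1
  push Not at hGb hMb
  refine Ideal.mem_sup_right (teiPT_dvd hwt ?_ (Ideal.subset_span rfl))
  refine Dvd.dvd.trans ?_ (hfac none)
  have e1 : D * rt (p := p) (i + 1) D = rt (p := p) (i + 1) D ^ (p ^ (i + 1) + 1) := by
    rw [pow_succ, rt_pow]
  have e2 : rt (p := p) l (A none) ^ e none = rt (p := p) (l + i) D ^ ((p ^ i + 1) * e none) := by
    simp only [hA, Option.elim_none]
    rw [show D * rt (p := p) i D = rt (p := p) i D ^ (p ^ i + 1) by rw [pow_succ, rt_pow],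
      map_pow, rt_rt, ← pow_mul]
  rw [e1, e2]
  refine rt_pow_dvd D (tau_arith hj hNK (e none) (fun v => e (some (Sum.inl v)))
    (fun v => e (some (Sum.inr v))) ?_ hGb hMb)
  rwa [Fintype.sum_option, Fintype.sum_sum_type] at he

/-- The element `E`: `δ E = u [D ^ eps]`, and the relations vanish, modulo the ideal. -/
theorem exists_E (hT : GoalTei.{u}) (hwt : ∀ v, 0 < wt v) {N K i j : ℕ} (hN : 0 < N)
    (hTN : N ≤ T) (hdvd : ∀ v, wt v ∣ N) (hj1 : 1 ≤ j)
    (hj : 8 * p ^ (i + 2) * (n + 1) ≤ p ^ j)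
    (hNK : 8 * p ^ (i + 2) * Fintype.card (Vr d n) * K ≤ N)
    (hNs : p ^ (i + 1 + K + j) * K ≤ N)
    (G : Hv n → KG p k d n) (U D : KG p k d n)
    (pf : Hv n → PT p k wt (T : ℚ)) (pu pd : PT p k wt (T : ℚ))
    (hf : ∀ v, ∃ x ∈ JPT p wt (T : ℚ) (G v) N,
      pf v - teiPT p wt (T : ℚ) (G v) = (p : PT p k wt _) * x)
    (hu : ∃ x ∈ JPT p wt (T : ℚ) U N, pu - teiPT p wt (T : ℚ) U = (p : PT p k wt _) * x)
    (hd : ∃ x ∈ JPT p wt (T : ℚ) D N, pd - teiPT p wt (T : ℚ) D = (p : PT p k wt _) * x)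
    (hrel : pu * (pd - pu) ∈ Ideal.span (Set.range pf)) :
    (∀ v, pf v ∈ rootI G j K) ∧
      ∃ E, pd * E - pu * teiPT p wt (T : ℚ) (rt (p := p) i D) ∈ rootI G j K := by
  set I := rootI (T := T) (wt := wt) G j K with hI
  have hF : fI wt (T : ℚ) (K : ℚ) ≤ I := le_sup_right
  have hfv : ∀ v, pf v ∈ I := by
    intro v
    obtain ⟨x, hx, he⟩ := hf v
    rw [sub_eq_iff_eq_add] at he
    have hroot : teiPT p wt (T : ℚ) (rt (p := p) j (G v)) ∈ I :=
      Ideal.mem_sup_left (Ideal.subset_span ⟨v, rfl⟩)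
    rw [he]
    refine add_mem (Ideal.mul_mem_left _ _ (jpt_mem (s := j) hT hwt
      ((Nat.mul_le_mul_right _ (Nat.pow_le_pow_right hp.out.pos (by omega))).trans hNs) hF ?_ hx))
      (teiPT_dvd hwt ?_ hroot)
    · refine teiPT_dvd hwt (dvd_pow_self _ ?_) hroot
      have := Nat.pow_le_pow_right hp.out.pos hj1
      have := hp.out.two_le
      rw [pow_one] at *
      omega
    · conv_rhs => rw [← rt_pow (p := p) j (G v)]
      exact dvd_pow_self _ (pow_ne_zero _ hp.out.ne_zero)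
  refine ⟨hfv, ?_⟩
  set De := teiPT p wt (T : ℚ) (rt (p := p) i D) with hDe
  set I₁ := I ⊔ Ideal.span {teiPT p wt (T : ℚ) (D * rt (p := p) (i + 1) D)} with hI₁
  have hmul : ∀ x ∈ JPT p wt (T : ℚ) U N, x * De ∈ I₁ := by
    intro x hx
    induction hx using AddSubmonoid.closure_induction with
    | mem x hx =>
      obtain ⟨_, ⟨a, w, g, φ, rfl, hg, hφ, ha, haw⟩, rfl⟩ := hx
      rw [hDe, ← teiPT_mul hwt]
      exact tau_mem hT hwt hN hTN hdvd hj hNK G U D pf pu pd hf hu hd hrel hg hφ ha haw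
    | zero => rw [zero_mul]; exact zero_mem _
    | add a b _ _ ha hb => rw [add_mul]; exact add_mem ha hb
  obtain ⟨xu, hxu, heu⟩ := id hu
  have huDe : pu * De ∈ I₁ := by
    rw [sub_eq_iff_eq_add] at heu
    rw [heu, add_mul, mul_assoc]
    refine add_mem (Ideal.mul_mem_left _ _ (hmul xu hxu)) ?_
    have := tau_mem hT hwt hN hTN hdvd hj hNK G U D pf pu pd hf hu hd hrel (g := U) (φ := 1)
      (a := 1) (w := 0) IsPow.one ((tD hwt T).fil_zero 1) le_rfl (by simp)
    rw [mul_one] at this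
    rw [hDe, ← teiPT_mul hwt]
    exact this
  obtain ⟨y, hy, z, hz, hyz⟩ := Submodule.mem_sup.1 huDe
  obtain ⟨e₂, he₂⟩ := Ideal.mem_span_singleton'.1 hz
  set s := i + 1 + K with hs
  set r := rt (p := p) s D with hr
  set Z := teiPT p wt (T : ℚ) r with hZ
  obtain ⟨xd, hxd, hed⟩ := id hd
  have hxd' : xd ∈ I ⊔ Ideal.span {Z ^ (p ^ s - 1)} := by
    refine jpt_mem (s := s) hT hwt
      ((Nat.mul_le_mul_right _ (Nat.pow_le_pow_right hp.out.pos (Nat.le_add_right _ _))).trans hNs)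
      (hF.trans le_sup_left) ?_ hxd
    rw [teiPT_pow hwt]
    exact Ideal.mem_sup_right (Ideal.mem_span_singleton_self _)
  obtain ⟨y', hy', z', hz', hyz'⟩ := Submodule.mem_sup.1 hxd'
  obtain ⟨c, hc⟩ := Ideal.mem_span_singleton'.1 hz'
  set P := p ^ s with hP
  set W := p ^ K with hW
  have hKW : K ≤ W := (Nat.lt_pow_self hp.out.one_lt).le
  have hWP : W ≤ P := Nat.pow_le_pow_right hp.out.pos (Nat.le_add_left K _)
  have hD1 : teiPT p wt (T : ℚ) (D * rt (p := p) (i + 1) D) = Z ^ (P + W) := by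
    rw [pow_add, hZ, ← teiPT_pow hwt, ← teiPT_pow hwt, ← teiPT_mul hwt, hr, hP, rt_pow,
      rt_eq_pow (Nat.le_add_right (i + 1) K) D, Nat.add_sub_cancel_left]
  have hDP : teiPT p wt (T : ℚ) D = Z ^ P := by rw [hZ, ← teiPT_pow hwt, hr, hP, rt_pow]
  set b := -((p : PT p k wt (T : ℚ)) * c) with hb
  refine ⟨e₂ * ∑ t ∈ Finset.range K, b ^ t * Z ^ (W - t), ?_⟩
  rw [sub_eq_iff_eq_add] at hed
  have hpK : (p : PT p k wt (T : ℚ)) ^ K ∈ I := by
    refine hF ?_
    rw [natCast_toT, ← map_pow, AddMonoidAlgebra.single_pow, one_pow]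
    refine monPT_mem_fI ?_ 1
    rw [map_nsmul, nsmul_eq_mul]
    exact le_mul_of_one_le_right (Nat.cast_nonneg K) (one_le_exWt_exY p hwt)
  have htel : ∀ m, m ≤ K → (Z ^ P - b * Z ^ (P - 1)) *
      ∑ t ∈ Finset.range m, b ^ t * Z ^ (W - t) = Z ^ (P + W) - b ^ m * Z ^ (P + W - m) := by
    intro m
    induction m with
    | zero => simp
    | succ m ih =>
      intro hm
      rw [Finset.sum_range_succ, mul_add, ih (by omega)]
      have e1 : P + W - m = P + (W - m) := by omega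
      have e2 : P + W - (m + 1) = (P - 1) + (W - m) := by
        have := Nat.one_le_pow s p hp.out.pos
        omega
      rw [e1, e2, pow_add, pow_add, pow_succ]
      ring
  have key : pd * (e₂ * ∑ t ∈ Finset.range K, b ^ t * Z ^ (W - t)) - pu * De =
      (p : PT p k wt (T : ℚ)) * y' * (e₂ * ∑ t ∈ Finset.range K, b ^ t * Z ^ (W - t)) - y -
        e₂ * b ^ K * Z ^ (P + W - K) := by
    have hpd : pd = (Z ^ P - b * Z ^ (P - 1)) + (p : PT p k wt (T : ℚ)) * y' := by
      rw [hed, hDP, ← hyz', ← hc, hb]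
      ring
    rw [hpd, add_mul, mul_left_comm, htel K le_rfl, ← hyz, ← he₂, hD1]
    ring
  rw [key]
  refine sub_mem (sub_mem (Ideal.mul_mem_right _ _ (Ideal.mul_mem_left _ _ hy')) hy) ?_
  refine Ideal.mul_mem_right _ _ (Ideal.mul_mem_left _ _ ?_)
  rw [hb, neg_pow, mul_pow]
  exact Ideal.mul_mem_left _ _ (Ideal.mul_mem_right _ _ hpK)

end Vale.Agent.P202
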