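import Vale.Agent.P202.M5Lev
import Vale.Agent.P202.MFMonicFree

/-!
M5 (helper10): sections 4 to 6, the element `E` on the root rings.
-/

universe u

namespace Vale.Agent.P202

open MvPolynomial P202.Mixed

/-- M4 and M5: `E` exists. -/
theorem goalE : GoalE.{u} := by
  intro p hp k _ _ _ A _ _ d x b G _hb CI i
  classical
  have hMF := goalMonicFree.{u}
  set n := CI.n with hn
  set wt := CI.wt with hwt'
  have hwt : ∀ v, 0 < wt v := CI.wt_pos
  set e : Hv n → ℕ := fun v => CI.deg v * wt (hVar v) with he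
  refine ⟨i + 2 + 8 * (n + 1), by omega, fun j hj K => ?_⟩
  have hp2 := hp.out.two_le
  have hjQ : 8 * p ^ (i + 2) * (n + 1) ≤ p ^ j := by
    calc 8 * p ^ (i + 2) * (n + 1) = p ^ (i + 2) * (8 * (n + 1)) := by ring
      _ ≤ p ^ (i + 2) * p ^ (8 * (n + 1)) :=
          Nat.mul_le_mul_left _ (Nat.lt_pow_self hp.out.one_lt).le
      _ ≤ _ := by rw [← pow_add]; exact Nat.pow_le_pow_right hp.out.pos hj
  have hij : i ≤ j := by omega
  set c := CI.c with hc
  set K' := 2 * c + K + 2 with hK'
  obtain ⟨jq, hjjq, ⟨⟨g, Dl, El, uh, dh, huh, huh₀, hdh, hdh₀, hgd, hDd, hkey, hsq, hkill⟩⟩⟩ :=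
    exists_levelE CI hij (by omega) hjQ K'
  set q := p ^ jq with hq
  have hq0 : 0 < q := pow_pos hp.out.pos _
  set m := p ^ (jq - j) with hm
  have hm0 : 0 < m := pow_pos hp.out.pos _
  have hmj : m * p ^ j = q := by rw [hm, hq, ← pow_add, Nat.sub_add_cancel hjjq]
  -- the level data
  set Φ : MvPolynomial (Vr d n) k →+* MvPolynomial (Vr d n) k :=
    (expand m : MvPolynomial (Vr d n) k →ₐ[k] MvPolynomial (Vr d n) k).toRingHom.comp
      (rootHom (p := p) j) with hΦ
  have hΦa : ∀ F, Φ F = expand m (rootPoly p j F) := fun F => rfl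
  let L : LevData p k wt q g :=
    { wt_pos := hwt
      q_pos := hq0
      deg := fun v => CI.deg v * m
      F := fun v => Φ (CI.F v)
      hom := fun v => by
        rw [mul_comm (CI.deg v) m, mul_assoc]
        exact expand_hom m (rootHom_hom j (CI.f_init v).1)
      monic := fun v => by
        have h := Ideal.mem_map_of_mem Φ (CI.F_monic v)
        rw [Ideal.map_span, map_sub, map_pow] at h
        have hX : Φ (X (hVar v)) = X (hVar v) ^ m := by
          simp [hΦ, rootHom]
        rw [hX, ← pow_mul, mul_comm m] at h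
        have hle : Ideal.span (Φ '' Set.range fun l : Fin d =>
            (X (some (Sum.inl l)) : MvPolynomial (Vr d n) k)) ≤
            Ideal.span (Set.range fun l : Fin d => (X (some (Sum.inl l)) : MvPolynomial (Vr d n) k)) := by
          rw [Ideal.span_le]
          rintro _ ⟨_, ⟨l, rfl⟩, rfl⟩
          have : Φ (X (some (Sum.inl l))) = X (some (Sum.inl l)) ^ m := by simp [hΦ, rootHom]
          rw [SetLike.mem_coe, this]
          exact Ideal.pow_mem_of_mem _ (Ideal.subset_span (Set.mem_range_self l)) m hm0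
        exact hle h
      init := fun v => by
        have hle : wIdeal (WittVector p k) wt (m * (e v + 1)) ⊔ Ideal.span {yRel p k d n q} ≤
            wIdeal (WittVector p k) wt (CI.deg v * m * wt (hVar v) + 1) ⊔
              Ideal.span {yRel p k d n q} := by
          refine sup_le_sup_right (m5_wIdeal_anti ?_) _
          rw [he, show CI.deg v * m * wt (hVar v) = m * (CI.deg v * wt (hVar v)) by ring, mul_add,
            mul_one]
          exact Nat.add_le_add_left hm0 _
        exact hle (hgd v) }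
  have hP : expand q CI.δ₀ ≠ 0 := (expand_ne_zero hq0).2 CI.δ₀_ne
  have hdhX : inp wt (q * c) dh = inX (expand q CI.δ₀) := by
    rw [hdh₀, inX, inX, rename_expand]
  set a := p ^ (jq - i) * c with ha
  have hai : m * (p ^ (j - i) * c) = a := by
    rw [ha, hm, ← mul_assoc, ← pow_add, show jq - j + (j - i) = jq - i by omega]
  have hmi : a + 1 ≤ p ^ (jq - i) * (c + 1) := by
    rw [ha, mul_add, mul_one]
    have := Nat.one_le_pow (jq - i) p hp.out.pos
    omega
  have haq : a ≤ q * c := Nat.mul_le_mul_right _ (Nat.pow_le_pow_right hp.out.pos (Nat.sub_le _ _))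
  set L0 := rootPoly p j CI.U₀ * rootPoly p j (inX CI.δ₀) ^ (p ^ (j - i) - 1) with hL0
  set E0p := liftL p (expand m L0) with hE0p
  set D0p := liftL p (expand m (rootPoly p j (inX CI.δ₀) ^ p ^ (j - i))) with hD0p
  have hpji : 1 ≤ p ^ (j - i) := Nat.one_le_pow _ _ hp.out.pos
  have hL0h : MvPolynomial.IsWeightedHomogeneous wt (expand m L0) a := by
    rw [← hai]
    refine expand_hom m ?_
    have h := (rootHom_hom (p := p) j CI.u_init.1).mul
      ((rootHom_hom (p := p) j CI.δ_init.1).pow (p ^ (j - i) - 1))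
    rw [smul_eq_mul] at h
    rw [show p ^ (j - i) * c = c + (p ^ (j - i) - 1) * c by
      rw [Nat.sub_mul, one_mul, Nat.add_sub_cancel' (Nat.le_mul_of_pos_left c hpji)]]
    exact h
  have hD0h : MvPolynomial.IsWeightedHomogeneous wt
      (expand m (rootPoly p j (inX CI.δ₀) ^ p ^ (j - i))) a := by
    rw [← hai]
    refine expand_hom m ?_
    have h := (rootHom_hom (p := p) j CI.δ_init.1).pow (p ^ (j - i))
    rwa [smul_eq_mul] at h
  have hident : inp wt (q * c + a) (uh * D0p - dh * E0p) ∈ Ideal.span (Set.range L.F) := by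
    rw [map_sub, inp_mul huh (m5_mem_wIdeal_of_hom (exists_lift_hom hD0h).1),
      inp_mul hdh (m5_mem_wIdeal_of_hom (exists_lift_hom hL0h).1), (exists_lift_hom hD0h).2,
      (exists_lift_hom hL0h).2, huh₀, hdh₀]
    have hq' : ∀ F : MvPolynomial (Vr d n) k, expand q F = Φ (F : MvPolynomial (Vr d n) k) ^ p ^ j := by
      intro F
      rw [hΦa, ← map_pow, ← rootHom_eq, ← expand_rootHom, ← expand_mul, hmj]
    rw [hq', hq', hL0, map_mul, map_pow, map_pow, ← hΦa, ← hΦa]
    refine init_identity ?_ (Nat.one_le_pow _ _ hp.out.pos) hpji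
    have hu2 : CI.U₀ * (CI.U₀ - inX CI.δ₀) ∈ Ideal.span (Set.range CI.F) := by
      refine CI.U₀_ann c _ (CI.u_init.1.sub CI.δ_init.1) ⟨CI.u - CI.δ, ?_, ?_⟩
      · rw [← neg_sub, map_neg, CI.δ_sub_u, neg_zero]
      · refine ⟨CI.u_init.1.sub CI.δ_init.1, ?_⟩
        exact hinit_sub (hwt none) CI.u_init CI.δ_init
    have h := Ideal.mem_map_of_mem Φ hu2
    rw [Ideal.map_span, ← Set.range_comp, map_mul, map_sub] at h
    exact h
  have hbig : q * c + a + 1 ≤ q * K' := by
    calc q * c + a + 1 ≤ q * c + q * c + q := by omega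
      _ ≤ q * c + q * c + q + (q * K + q) := Nat.le_add_right _ _
      _ = q * K' := by rw [hK']; ring
  have hEinit : El - E0p ∈ lIdeal p q g ⊔ wIdeal (WittVector p k) wt (a + 1) := by
    refine L.nzd hMF hdh hP hdhX ?_
    rw [show a + 1 + q * c = q * c + (a + 1) by ring, show dh * (El - E0p) =
      (dh * El - uh * Dl) + uh * (Dl - D0p) + (uh * D0p - dh * E0p) by ring]
    refine add_mem (add_mem (sup_le_sup_left (m5_wIdeal_anti (by omega)) _ hkey) ?_) ?_
    · exact J_mul_left huh (mem_J_of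
        (sup_le_sup_right (m5_wIdeal_anti hmi) _ hDd))
    · refine L.lift_mem ?_ hident
      exact sub_mem (m5_wIdeal_mul huh (m5_mem_wIdeal_of_hom (exists_lift_hom hD0h).1))
        (m5_wIdeal_mul hdh (m5_mem_wIdeal_of_hom (exists_lift_hom hL0h).1))
  have hDinit : Dl - D0p ∈ lIdeal p q g ⊔ wIdeal (WittVector p k) wt (a + 1) :=
    mem_J_of (sup_le_sup_right (m5_wIdeal_anti hmi) _ hDd)
  have hED : El * (Dl - El) ∈ lIdeal p q g ⊔ wIdeal (WittVector p k) wt (q * K) := by
    refine L.nzd hMF hdh hP hdhX (L.nzd hMF hdh hP hdhX (sup_le_sup_left (m5_wIdeal_anti ?_) _ hsq))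
    calc q * K + q * c + q * c = q * (2 * c + K) := by ring
      _ ≤ q * K' := Nat.mul_le_mul_left _ (by omega)
  refine ⟨jq, g, Ideal.Quotient.mk _ Dl, Ideal.Quotient.mk _ El, hjjq, fun v => ?_, ?_, ?_, ?_, ?_⟩
  · refine sup_le_sup_right (m5_wIdeal_anti ?_) _ (hgd v)
    rw [mul_add, mul_one]
    exact Nat.add_le_add_left hm0 _
  · rw [← map_sub]
    exact mk_mem_lfil hDinit
  · rw [← map_sub]
    exact mk_mem_lfil hEinit
  · rw [← map_sub, ← map_mul]
    exact mk_mem_lfil hED
  intro h hh M h' hKM hh'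
  rw [← map_mul]
  refine mk_mem_lfil ?_
  obtain ⟨h'', hh'', hk⟩ := hkill h hh K (by omega)
  have hdiff : piQ q h' - piQ q h'' ∈ lIdeal p q g ⊔ wIdeal (WittVector p k) wt (q * K) := by
    rw [show piQ q h' - piQ q h'' = piQ q (h' - h'') by simp only [piQ, map_sub]]
    refine mem_J_of (piQ_memW q ?_)
    rw [← coeToMvPowerSeries.ringHom_apply, map_sub, coeToMvPowerSeries.ringHom_apply,
      coeToMvPowerSeries.ringHom_apply,
      show (h' : MvPowerSeries _ (WittVector p k)) - (h'' : MvPowerSeries _ (WittVector p k)) =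
        (h - (h'' : MvPowerSeries _ (WittVector p k))) - (h - (h' : MvPowerSeries _ (WittVector p k)))
        by ring]
    exact memW_sub hh'' (memW_anti hKM hh')
  rw [show El * piQ q h' = El * (piQ q h' - piQ q h'') + El * piQ q h'' by ring]
  refine add_mem (Ideal.mul_mem_left _ _ hdiff) ?_
  refine L.nzd hMF hdh hP hdhX (sup_le_sup_left (m5_wIdeal_anti ?_) _ hk)
  calc q * K + q * c = q * (c + K) := by ring
    _ ≤ q * K' := Nat.mul_le_mul_left _ (by omega)

end Vale.Agent.P202
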