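import Vale.Agent.P202.M5Exist

/-!
M5 (helper10): truncations, initial forms at a level and leading terms of roots of Teichmullers.
-/

universe u

namespace Vale.Agent.P202

open MvPolynomial P202.Mixed

variable {p : ℕ} [hp : Fact p.Prime] {k : Type u} [Field k] [CharP k p] [PerfectRing k p] {d n : ℕ}
  {wt : Vr d n → ℕ} {T : ℕ}

omit [PerfectRing k p] in
lemma coeff_liftL (F : MvPolynomial (Vr d n) k) (γ : Vr d n →₀ ℕ) :
    coeff γ (liftL p F) = WittVector.teichmuller p (coeff γ F) := by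
  classical
  rw [liftL, coeff_sum]
  simp only [coeff_monomial]
  rw [Finset.sum_ite_eq']
  split_ifs with h
  · rfl
  · rw [notMem_support_iff.1 h, WittVector.teichmuller_zero]

omit [PerfectRing k p] in
lemma liftL_expand {M : ℕ} (hM : 0 < M) (F : MvPolynomial (Vr d n) k) :
    liftL p (expand M F) = expand M (liftL p F) := by
  ext γ : 1
  rw [coeff_liftL]
  by_cases h : ∀ i, M ∣ γ i
  · choose c hc using h
    have hγ : γ = M • Finsupp.equivFunOnFinite.symm c := by
      ext i
      simp [hc i]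
    rw [hγ, coeff_expand_smul _ hM.ne', coeff_expand_smul _ hM.ne', coeff_liftL]
  · push Not at h
    obtain ⟨i, hi⟩ := h
    rw [coeff_expand_of_not_dvd _ hi, coeff_expand_of_not_dvd _ hi, WittVector.teichmuller_zero]

omit [PerfectRing k p] in
lemma memW_sub {N : ℕ} {f g : (MvPowerSeries (Fin d ⊕ Fin n) (WittVector p k))} (hf : MemW p wt N f) (hg : MemW p wt N g) :
    MemW p wt N (f - g) := by
  intro γ
  obtain ⟨a, ha, hda⟩ := hf γ
  obtain ⟨b, hb, hdb⟩ := hg γ
  rcases le_total a b with h | h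
  · exact ⟨a, ha, by rw [map_sub]; exact dvd_sub hda ((pow_dvd_pow _ h).trans hdb)⟩
  · exact ⟨b, hb, by rw [map_sub]; exact dvd_sub ((pow_dvd_pow _ h).trans hda) hdb⟩

omit [PerfectRing k p] in
lemma memW_anti {M N : ℕ} (h : M ≤ N) {f : (MvPowerSeries (Fin d ⊕ Fin n) (WittVector p k))} (hf : MemW p wt N f) : MemW p wt M f := fun γ => by
  obtain ⟨a, ha, hda⟩ := hf γ
  exact ⟨a, h.trans ha, hda⟩

omit [PerfectRing k p] in
lemma exists_trunc (hwt : ∀ v, 0 < wt v) (N : ℕ) (f : (MvPowerSeries (Fin d ⊕ Fin n) (WittVector p k))) :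
    ∃ f' : (MvPolynomial (Fin d ⊕ Fin n) (WittVector p k)), MemW p wt N (f - (f' : (MvPowerSeries (Fin d ⊕ Fin n) (WittVector p k)))) := by
  refine ⟨MvPowerSeries.truncTotal (N + 1) f, fun γ => ?_⟩
  by_cases h : γ.degree < N + 1
  · refine ⟨N, ?_, ?_⟩
    · have := hwt none
      nlinarith
    · rw [map_sub, coeff_coe, MvPowerSeries.coeff_truncTotal _ h, sub_self]
      exact dvd_zero _
  · refine ⟨0, ?_, ?_⟩
    · have := degree_le_weight hwt γ
      omega
    · rw [pow_zero]; exact one_dvd _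

omit [PerfectRing k p] in
lemma weight_some (wt : Vr d n → ℕ) (q : ℕ) (γ : Fin d ⊕ Fin n →₀ ℕ) :
    Finsupp.weight wt ((q • γ).mapDomain some) = q * Finsupp.weight (fun v => wt (some v)) γ := by
  rw [exDiv_zero_mapDomain_weight, map_nsmul, smul_eq_mul]

omit [PerfectRing k p] in
lemma piQ_monomial (q : ℕ) (γ : Fin d ⊕ Fin n →₀ ℕ) (c : (WittVector p k)) :
    piQ q (monomial γ c) = monomial ((q • γ).mapDomain some) c := by
  rw [piQ, expand_monomial, rename_monomial]

omit [PerfectRing k p] in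
lemma C_pow_sub_mem (q i : ℕ) :
    (C ((p : (WittVector p k)) ^ i) - X none ^ (q * i) : MvPolynomial (Vr d n) (WittVector p k)) ∈
      Ideal.span {yRel p k d n q} := by
  rw [map_pow, pow_mul, ← neg_sub, Ideal.neg_mem_iff, Ideal.mem_span_singleton, yRel]
  exact sub_dvd_pow_sub_pow _ _ i

omit [PerfectRing k p] in
/-- A polynomial of weight `t` has weight `q t` at level `q`. -/
lemma piQ_memW (q : ℕ) {t : ℕ} {h : (MvPolynomial (Fin d ⊕ Fin n) (WittVector p k))} (hh : MemW p wt t (h : (MvPowerSeries (Fin d ⊕ Fin n) (WittVector p k)))) :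
    piQ q h ∈ wIdeal (WittVector p k) wt (q * t) ⊔ Ideal.span {yRel p k d n q} := by
  have e : piQ q h = ∑ γ ∈ h.support, piQ q (monomial γ (coeff γ h)) := by
    conv_lhs => rw [h.as_sum]
    simp only [piQ, map_sum]
  rw [e]
  refine sum_mem fun γ _ => ?_
  rw [piQ_monomial]
  obtain ⟨i, hi, c, hc⟩ := hh γ
  rw [coeff_coe] at hc
  rw [hc, ← C_mul_monomial, show C ((p : (WittVector p k)) ^ i) * monomial ((q • γ).mapDomain some) c =
    X none ^ (q * i) * monomial ((q • γ).mapDomain some) c +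
      (C ((p : (WittVector p k)) ^ i) - X none ^ (q * i)) * monomial ((q • γ).mapDomain some) c by ring]
  refine Submodule.add_mem_sup ?_ (Ideal.mul_mem_right _ _ (C_pow_sub_mem q i))
  rw [X_pow_eq_monomial, monomial_mul, one_mul]
  refine m5_wIdeal_anti ?_ (m5_mem_wIdeal_of_hom (isWeightedHomogeneous_monomial wt _ c rfl))
  rw [map_add, weight_some, Finsupp.weight_single, smul_eq_mul]
  calc q * t ≤ q * (i * wt none + Finsupp.weight (fun v => wt (some v)) γ) := Nat.mul_le_mul_left q hi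
    _ = _ := by ring

omit [PerfectRing k p] in
/-- The initial form at level `q`. -/
lemma piQ_init {q : ℕ} (hq : 0 < q) {C₀ : ℕ} {f : (MvPowerSeries (Fin d ⊕ Fin n) (WittVector p k))} {F : MvPolynomial (Vr d n) k}
    (hF : HasInit p wt C₀ f F) {f' : (MvPolynomial (Fin d ⊕ Fin n) (WittVector p k))} (hf : MemW p wt (C₀ + 1) (f - (f' : (MvPowerSeries (Fin d ⊕ Fin n) (WittVector p k))))) :
    piQ q f' - liftL p (expand q F) ∈
      wIdeal (WittVector p k) wt (q * (C₀ + 1)) ⊔ Ideal.span {yRel p k d n q} := by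
  classical
  set Lp : (MvPolynomial (Fin d ⊕ Fin n) (WittVector p k)) := ∑ γ ∈ F.support, monomial γ.some
    (WittVector.teichmuller p (coeff γ F) * (p : (WittVector p k)) ^ γ none) with hLp
  have hLpe : (Lp : (MvPowerSeries (Fin d ⊕ Fin n) (WittVector p k))) = liftPi p F := by
    rw [hLp, ← coeToMvPowerSeries.ringHom_apply, map_sum, liftPi]
    refine Finset.sum_congr rfl fun γ _ => ?_
    rw [coeToMvPowerSeries.ringHom_apply, coe_monomial]
  have h1 : MemW p wt (C₀ + 1) ((f' - Lp : (MvPolynomial (Fin d ⊕ Fin n) (WittVector p k))) : (MvPowerSeries (Fin d ⊕ Fin n) (WittVector p k))) := by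
    rw [← coeToMvPowerSeries.ringHom_apply, map_sub, coeToMvPowerSeries.ringHom_apply,
      coeToMvPowerSeries.ringHom_apply, hLpe,
      show (f' : (MvPowerSeries (Fin d ⊕ Fin n) (WittVector p k))) - liftPi p F = (f - liftPi p F) - (f - (f' : (MvPowerSeries (Fin d ⊕ Fin n) (WittVector p k)))) by ring]
    exact memW_sub hF.2 hf
  have h2 : piQ q Lp - liftL p (expand q F) ∈ Ideal.span {yRel p k d n q} := by
    rw [hLp, piQ, map_sum, map_sum, liftL_expand hq, liftL, map_sum, ← Finset.sum_sub_distrib]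
    refine sum_mem fun γ _ => ?_
    rw [expand_monomial, rename_monomial, expand_monomial, mul_comm, ← C_mul_monomial,
      show monomial (q • γ) (WittVector.teichmuller p (coeff γ F)) =
        (X none ^ (q * γ none) : MvPolynomial (Vr d n) (WittVector p k)) *
          monomial ((q • γ.some).mapDomain some) (WittVector.teichmuller p (coeff γ F)) by
        rw [X_pow_eq_monomial, monomial_mul, one_mul]
        congr 2
        ext v
        cases v with
        | none => simp [Finsupp.mapDomain_of_notMem_range]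
        | some i => simp [Finsupp.mapDomain_apply (Option.some_injective _)],
      ← sub_mul]
    exact Ideal.mul_mem_right _ _ (C_pow_sub_mem q _)
  rw [show piQ q f' - liftL p (expand q F) =
    piQ q (f' - Lp) + (piQ q Lp - liftL p (expand q F)) by
      simp only [piQ, map_sub]; ring]
  exact add_mem (piQ_memW q h1) (Ideal.mem_sup_right h2)

/-- The root map on polynomials. -/
noncomputable def rootHom (j : ℕ) : MvPolynomial (Vr d n) k →+* MvPolynomial (Vr d n) k :=
  MvPolynomial.map ((iterateFrobeniusEquiv k p j).symm : k →+* k)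

lemma rootHom_eq (j : ℕ) (F : MvPolynomial (Vr d n) k) : rootHom (p := p) j F = rootPoly p j F := rfl

lemma rootHom_hom (j : ℕ) {t : ℕ} {F : MvPolynomial (Vr d n) k}
    (hF : IsWeightedHomogeneous wt F t) : IsWeightedHomogeneous wt (rootHom (p := p) j F) t := by
  intro γ hγ
  rw [rootHom, coeff_map] at hγ
  exact hF fun h0 => hγ (by rw [h0, map_zero])

/-- Taking the `p ^ j`-th root and expanding by `p ^ j` is inverse to the power. -/
lemma expand_rootHom (j : ℕ) (F : MvPolynomial (Vr d n) k) :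
    expand (p ^ j) F = rootHom (p := p) j F ^ p ^ j := by
  induction F using MvPolynomial.induction_on with
  | C a =>
    rw [expand_C, rootHom, map_C, ← map_pow]
    congr 1
    show a = (iterateFrobeniusEquiv k p j).symm a ^ p ^ j
    rw [← iterateFrobeniusEquiv_def, RingEquiv.apply_symm_apply]
  | add a b ha hb => rw [map_add, map_add, add_pow_char_pow, ha, hb]
  | mul_X a v ha => rw [map_mul, map_mul, mul_pow, ha, expand_X, rootHom, map_X]

lemma levelKG_expand (j : ℕ) (F : MvPolynomial (Vr d n) k) :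
    levelKG p j (expand (p ^ j) F) = levelKG p 0 F := by
  induction F using MvPolynomial.induction_on' with
  | monomial γ c =>
    rw [expand_monomial, levelKG_monomial, levelKG_monomial]
    have := exDiv_pow (p := p) 0 j γ
    rw [zero_add] at this
    rw [this]
  | add a b ha hb => rw [map_add, map_add, map_add, ha, hb]

lemma levelKG_rootHom (j : ℕ) (F : MvPolynomial (Vr d n) k) :
    levelKG p j (rootHom (p := p) j F) = rt (p := p) j (levelKG p 0 F) := by
  apply root_unique (p := p) (m := j)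
  rw [rt_pow, ← map_pow, ← expand_rootHom, levelKG_expand]

lemma levelKG_mem (j : ℕ) {t : ℕ} {F : MvPolynomial (Vr d n) k}
    (hF : IsWeightedHomogeneous wt F t) :
    levelKG p j F ∈ FilKG p wt ((t : ℚ) / (p : ℚ) ^ j) := by
  rw [F.as_sum, map_sum]
  refine AddSubgroup.sum_mem _ fun γ hγ => ?_
  rw [levelKG_monomial]
  refine single_mem_FilK ?_ _
  rw [exWt_exDiv, hF (mem_support_iff.1 hγ)]

/-- The leading term of a root of a Teichmuller element. -/
lemma tei_root_lead (hT : GoalTei.{u}) (hL : GoalLevel.{u}) (hwt : ∀ v, 0 < wt v) {i j C₀ : ℕ}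
    (hij : i ≤ j) {G : KG p k d n} {F : MvPolynomial (Vr d n) k}
    (hF : IsWeightedHomogeneous wt F C₀) (hG : G - levelKG p 0 F ∈ FilKG p wt (C₀ + 1)) :
    teiPT p wt (T : ℚ) (rt (p := p) i G) -
        levelPT p wt (T : ℚ) j (liftL p (rootPoly p j F ^ p ^ (j - i))) ∈
      fI wt (T : ℚ) ((((C₀ + 1 : ℕ)) : ℚ) / (p : ℚ) ^ i) := by
  classical
  rw [← rootHom_eq]
  set L := rootHom (p := p) j F ^ p ^ (j - i) with hLdef
  set a := levelKG p j L with ha
  have hai : a = rt (p := p) i (levelKG p 0 F) := by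
    rw [ha, hLdef, map_pow, levelKG_rootHom, ← rt_eq_pow hij]
  have hwY : (1 : ℚ) ≤ (wt none : ℚ) := by exact_mod_cast hwt none
  have hpi : (1 : ℚ) ≤ (p : ℚ) ^ i := one_le_pow₀ (by exact_mod_cast hp.out.one_le)
  have hpi0 : (0 : ℚ) < (p : ℚ) ^ i := p_pow_pos i
  set w : ℚ := (C₀ : ℚ) / (p : ℚ) ^ i with hw
  have hscale : ((p ^ (j - i) * C₀ : ℕ) : ℚ) / (p : ℚ) ^ j = w := by
    obtain ⟨m, rfl⟩ := Nat.exists_eq_add_of_le hij
    rw [hw, Nat.add_sub_cancel_left, Nat.cast_mul, Nat.cast_pow, pow_add, mul_comm ((p : ℚ) ^ i),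
      mul_div_mul_left _ _ (p_pow_pos m).ne']
  have haw : a ∈ FilKG p wt w := by
    have := levelKG_mem (wt := wt) (p := p) j ((rootHom_hom j hF).pow (p ^ (j - i)))
    rw [← hLdef, ← ha] at this
    rwa [smul_eq_mul, hscale] at this
  set b := rt (p := p) i G - a with hb
  have hbw : b ∈ FilKG p wt (((C₀ + 1 : ℕ) : ℚ) / (p : ℚ) ^ i) := by
    rw [hb, hai, ← map_sub]
    refine (tD hwt T).fil_root (m := i) ?_
    rw [rt_pow]
    push_cast
    exact hG
  have hmin : (((C₀ + 1 : ℕ)) : ℚ) / (p : ℚ) ^ i ≤ w + wt none := by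
    rw [hw, Nat.cast_add, Nat.cast_one, add_div]
    gcongr
    exact (div_le_one hpi0).2 hpi |>.trans hwY
  have hsum : rt (p := p) i G = [a, b].sum := by simp [hb]
  obtain ⟨c, hc, hmix⟩ := (tD hwt T).mix [a, b]
  have hroot : ∀ x : Fin [a, b].length, ∃ r : KG p k d n, r ^ p ^ (tD (p := p) (k := k) hwt T).T = [a, b].get x :=
    fun x => exists_root _ _
  choose r hr using hroot
  have hmix' := hmix r hr
  rw [← hsum] at hmix'
  have e : teiPT p wt (T : ℚ) (rt (p := p) i G) = (tD hwt T).tei (rt (p := p) i G) := rfl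
  rw [e, hmix']
  have hlead := (hL p k d n wt hwt T).2.2.2.2.2.2 j (p ^ (j - i) * C₀) L
    (levelKG_mem j ((rootHom_hom j hF).pow _))
  have hJ : teiPT p wt (T : ℚ) a - levelPT p wt (T : ℚ) j (liftL p L) ∈
      fI wt (T : ℚ) ((((C₀ + 1 : ℕ)) : ℚ) / (p : ℚ) ^ i) := by
    refine (AddSubmonoid.closure_le (S := (fI wt (T : ℚ) _).toAddSubmonoid)).2 ?_ hlead
    rintro _ ⟨z, hz, rfl⟩
    refine fI_anti ?_ (teiPT_fil_mem hwt hT hz)
    rw [hscale]
    exact hmin
  have hrfil : ∀ x, r x ∈ FilKG p wt (w / (p : ℚ) ^ (tD (p := p) (k := k) hwt T).T) := fun x => by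
    refine (tD hwt T).fil_root (a := w) (m := (tD (p := p) (k := k) hwt T).T) ?_
    rw [hr]
    fin_cases x
    · exact haw
    · refine (tD hwt T).fil_anti ?_ hbw
      rw [hw]; gcongr; simp
  have hterm : ∀ ce ∈ c, (tD hwt T).tei (∏ x, r x ^ ce.2 x) ∈ fI wt (T : ℚ) w := by
    intro ce hce
    refine teiPT_fil_mem hwt hT ?_
    have h := (hc ce hce).1
    have hmem : ∀ s : Finset (Fin [a, b].length), ∏ x ∈ s, r x ^ ce.2 x ∈
        FilKG p wt ((∑ x ∈ s, ce.2 x : ℕ) * (w / (p : ℚ) ^ (tD (p := p) (k := k) hwt T).T)) := fun s => by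
      induction s using Finset.induction_on with
      | empty =>
        simp only [Finset.sum_empty, Nat.cast_zero, zero_mul, Finset.prod_empty]
        exact (tD hwt T).fil_zero 1
      | insert x s hx ih =>
        rw [Finset.prod_insert hx, Finset.sum_insert hx, Nat.cast_add, add_mul]
        exact (tD hwt T).fil_mul ((tD hwt T).pow_mem (hrfil x) _) ih
    have := hmem Finset.univ
    rw [h, Nat.cast_pow, mul_div_cancel₀ _ (p_pow_pos _).ne'] at this
    exact this
  simp only [List.map_cons, List.map_nil, List.sum_cons, List.sum_nil, add_zero]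
  rw [show ∀ x y z l : PT p k wt (T : ℚ), x + y + z - l = (x - l) + y + z from
    fun x y z l => by ring]
  refine add_mem (add_mem hJ (teiPT_fil_mem hwt hT hbw)) ?_
  have hp' : (p : PT p k wt (T : ℚ)) ∈ fI wt (T : ℚ) (wt none : ℚ) := by
    rw [← monPT_exY]
    exact monPT_mem_fI (by rw [exWt_exY]) 1
  refine fI_anti hmin ?_
  rw [add_comm w]
  refine fI_mul hp' (list_sum_mem fun y hy => ?_)
  obtain ⟨ce, hce, rfl⟩ := List.mem_map.1 hy
  exact Ideal.mul_mem_left _ _ (hterm ce hce)

end Vale.Agent.P202
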