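import Vale.Agent.P202.M5Pt

/-!
M5 (helper10): the element `E` descends to a finite level.
-/

universe u

namespace Vale.Agent.P202

open MvPolynomial P202.Mixed

variable {p : ℕ} [hp : Fact p.Prime] {k : Type u} [Field k] [CharP k p] [PerfectRing k p]
  {A : Type u} [CommRing A] [Algebra (WittVector p k) A] {d : ℕ} {x : Fin d → A} {b : ℕ}
  {G : ℕ → Ideal A}

/-- What the level `q = p ^ jq` inherits from the truncated perfect ring. -/
structure LevelE (CI : CIData p k A x b G) (i j K' jq : ℕ) where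
  g : Hv CI.n → MvPolynomial (Vr d CI.n) (WittVector p k)
  Dl : MvPolynomial (Vr d CI.n) (WittVector p k)
  El : MvPolynomial (Vr d CI.n) (WittVector p k)
  uh : MvPolynomial (Vr d CI.n) (WittVector p k)
  dh : MvPolynomial (Vr d CI.n) (WittVector p k)
  uh_mem : uh ∈ wIdeal _ CI.wt (p ^ jq * CI.c)
  uh_init : inp CI.wt (p ^ jq * CI.c) uh = expand (p ^ jq) CI.U₀
  dh_mem : dh ∈ wIdeal _ CI.wt (p ^ jq * CI.c)
  dh_init : inp CI.wt (p ^ jq * CI.c) dh = expand (p ^ jq) (inX CI.δ₀)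
  g_lead : ∀ v, g v - liftL p (expand (p ^ (jq - j)) (rootPoly p j (CI.F v))) ∈
    wIdeal _ CI.wt (p ^ (jq - j) * (CI.deg v * CI.wt (hVar v) + 1)) ⊔
      Ideal.span {yRel p k d CI.n (p ^ jq)}
  D_lead : Dl - liftL p (expand (p ^ (jq - j)) (rootPoly p j (inX CI.δ₀) ^ p ^ (j - i))) ∈
    wIdeal _ CI.wt (p ^ (jq - i) * (CI.c + 1)) ⊔ Ideal.span {yRel p k d CI.n (p ^ jq)}
  key : dh * El - uh * Dl ∈ lIdeal p (p ^ jq) g ⊔ wIdeal _ CI.wt (p ^ jq * K')
  sq : dh * (dh * (El * (Dl - El))) ∈ lIdeal p (p ^ jq) g ⊔ wIdeal _ CI.wt (p ^ jq * K')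
  kill : ∀ h, CI.ev h = 0 → ∀ K ≤ K', ∃ h'' : MvPolynomial (Fin d ⊕ Fin CI.n) (WittVector p k),
    MemW p CI.wt K (h - (h'' : MvPowerSeries (Fin d ⊕ Fin CI.n) (WittVector p k))) ∧
    dh * (El * piQ (p ^ jq) h'') ∈ lIdeal p (p ^ jq) g ⊔ wIdeal _ CI.wt (p ^ jq * K')

/-- The descent of `E`. -/
theorem exists_levelE (CI : CIData p k A x b G) {i j : ℕ} (hij : i ≤ j) (hj1 : 1 ≤ j)
    (hjQ : 8 * p ^ (i + 2) * (CI.n + 1) ≤ p ^ j) (K' : ℕ) :
    ∃ jq, j ≤ jq ∧ Nonempty (LevelE CI i j K' jq) := by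
  classical
  have hT := goalTei.{u}
  have hL := goalLevel.{u}
  set n := CI.n with hn
  set wt := CI.wt with hwt'
  have hwt : ∀ v, 0 < wt v := CI.wt_pos
  set e : Hv n → ℕ := fun v => CI.deg v * wt (hVar v) with he
  set c := CI.c with hc
  obtain ⟨N, hNK, hev, hcN, Gs, Dd, E₀, hG1, hD1, hE₀, huz⟩ := exists_pt CI hj1 hjQ K'
  set π := piPT (k := k) p wt (N : ℚ) with hπ
  have hadd : ∀ f g, π (f + g) = π f + π g := fun f g => piPT_add (N : ℚ) f g
  have hsub : ∀ f g, π (f - g) = π f - π g := fun f g => by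
    rw [eq_sub_iff_add_eq, ← hadd, sub_add_cancel]
  set I := rootI (T := N) (wt := wt) Gs j K' with hI
  set De := teiPT p wt (N : ℚ) (rt (p := p) i Dd) with hDe
  set a₀ := π CI.δ * E₀ - π CI.u * De with ha₀
  obtain ⟨lg, rg, hrg⟩ : ∃ (lg : Hv n → ℕ) (rg : Hv n → MvPolynomial (Vr d n) (WittVector p k)),
      ∀ v, levelPT p wt (N : ℚ) (lg v) (rg v) = teiPT p wt (N : ℚ) (rt (p := p) j (Gs v)) := by
    choose lg rg hrg using fun v =>
      exists_level (wt := wt) (teiPT p wt (N : ℚ) (rt (p := p) j (Gs v)))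
    exact ⟨lg, rg, hrg⟩
  obtain ⟨lD, rD, hrD⟩ := exists_level (wt := wt) De
  obtain ⟨lE, rE, hrE⟩ := exists_level (wt := wt) E₀
  set jq := max (max j (Finset.univ.sup lg)) (max lD lE) with hjq
  have hjjq : j ≤ jq := le_trans (le_max_left _ _) (le_max_left _ _)
  have hlgq : ∀ v, lg v ≤ jq := fun v =>
    le_trans (le_trans (Finset.le_sup (Finset.mem_univ v)) (le_max_right _ _)) (le_max_left _ _)
  set g : Hv n → MvPolynomial (Vr d n) (WittVector p k) :=
    fun v => expand (p ^ (jq - lg v)) (rg v) with hg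
  have hgv : ∀ v, levelPT p wt (N : ℚ) jq (g v) = teiPT p wt (N : ℚ) (rt (p := p) j (Gs v)) :=
    fun v => by rw [hg, levelPT_raise hL hwt (hlgq v), hrg]
  set Dl := expand (p ^ (jq - lD)) rD with hDl
  have hDlv : levelPT p wt (N : ℚ) jq Dl = De := by
    rw [hDl, levelPT_raise hL hwt (le_trans (le_max_left _ _) (le_max_right _ _)), hrD]
  set El := expand (p ^ (jq - lE)) rE with hEl
  have hElv : levelPT p wt (N : ℚ) jq El = E₀ := by
    rw [hEl, levelPT_raise hL hwt (le_trans (le_max_right _ _) (le_max_right _ _)), hrE]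
  set q := p ^ jq with hq
  have hq0 : 0 < q := pow_pos hp.out.pos _
  set m := p ^ (jq - j) with hm
  have hm0 : 0 < m := pow_pos hp.out.pos _
  have hmj : m * p ^ j = q := by rw [hm, hq, ← pow_add, Nat.sub_add_cancel hjjq]
  -- leading terms descend
  have hdesc : ∀ (s : ℕ) (_ : i ≤ j), s ≤ j → ∀ (C₀ : ℕ) (F : MvPolynomial (Vr d n) k)
      (G₀ : KG p k d n) (x : MvPolynomial (Vr d n) (WittVector p k)), C₀ + 1 ≤ N →
      MvPolynomial.IsWeightedHomogeneous wt F C₀ →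
      G₀ - levelKG p 0 F ∈ FilKG p wt (C₀ + 1) →
      levelPT p wt (N : ℚ) jq x = teiPT p wt (N : ℚ) (rt (p := p) s G₀) →
      x - liftL p (expand m (rootPoly p j F ^ p ^ (j - s))) ∈
        wIdeal _ wt (p ^ (jq - s) * (C₀ + 1)) ⊔ Ideal.span {yRel p k d n q} := by
    intro s _ hs C₀ F G₀ x hC hF hG₀ hx
    have hlead := tei_root_lead (T := N) hT hL hwt hs hF hG₀
    have h := descend hL hwt (T := N) (ι := Fin 0) jq Fin.elim0
      (x - liftL p (expand m (rootPoly p j F ^ p ^ (j - s))))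
      (s := ((C₀ + 1 : ℕ) : ℚ) / (p : ℚ) ^ s) (t := p ^ (jq - s) * (C₀ + 1)) ?_ ?_ ?_
    · rw [Set.range_eq_empty, Ideal.span_empty, sup_bot_eq] at h
      exact h
    · rw [Nat.cast_mul, Nat.cast_pow, mul_div_assoc', le_div_iff₀ (p_pow_pos s), mul_right_comm,
        ← pow_add, Nat.sub_add_cancel (hs.trans hjjq)]
    · exact Nat.mul_le_mul (Nat.pow_le_pow_right hp.out.pos (Nat.sub_le _ _)) hC
    · refine Ideal.mem_sup_left ?_
      rw [map_sub, hx, liftL_expand hm0, hm, levelPT_raise hL hwt hjjq]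
      exact hlead
  have hgd : ∀ v, g v - liftL p (expand m (rootPoly p j (CI.F v))) ∈
      wIdeal _ wt (m * (e v + 1)) ⊔ Ideal.span {yRel p k d n q} := fun v => by
    have h := hdesc j hij le_rfl (e v) (CI.F v) (Gs v) (g v) (hev v) (CI.f_init v).1 (hG1 v) (hgv v)
    rwa [Nat.sub_self, pow_zero, pow_one] at h
  have hDd : Dl - liftL p (expand m (rootPoly p j (inX CI.δ₀) ^ p ^ (j - i))) ∈
      wIdeal _ wt (p ^ (jq - i) * (c + 1)) ⊔ Ideal.span {yRel p k d n q} :=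
    hdesc i hij hij c (inX CI.δ₀) Dd Dl (by omega) CI.δ_init.1 hD1 hDlv
  -- truncations of `u` and `δ`
  obtain ⟨u', hu'⟩ := exists_trunc (p := p) hwt N CI.u
  obtain ⟨δ', hδ'⟩ := exists_trunc (p := p) hwt N CI.δ
  obtain ⟨uh, huh, huh₀, huh₁⟩ := exists_hat (q := q) hq0 CI.u_init (memW_anti hcN hu')
  obtain ⟨dh, hdh, hdh₀, hdh₁⟩ := exists_hat (q := q) hq0 CI.δ_init (memW_anti hcN hδ')
  have hyker : ∀ z ∈ Ideal.span {yRel p k d n q}, levelPT p wt (N : ℚ) jq z = 0 := fun z hz =>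
    ((hL p k d n wt hwt N).1 jq z).2 (Ideal.mem_sup_right hz)
  have hhat : ∀ (f : MvPowerSeries (Fin d ⊕ Fin n) (WittVector p k))
      (f' : MvPolynomial (Fin d ⊕ Fin n) (WittVector p k)) fh,
      MemW p wt N (f - (f' : MvPowerSeries (Fin d ⊕ Fin n) (WittVector p k))) →
      piQ q f' - fh ∈ Ideal.span {yRel p k d n q} → levelPT p wt (N : ℚ) jq fh = π f := by
    intro f f' fh hf hfh
    have h := hyker _ hfh
    rw [map_sub, sub_eq_zero, levelPT_piQ hwt] at h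
    rw [← h, ← sub_add_cancel f (f' : MvPowerSeries _ _), hadd, hπ, piPT_memW hwt N _ hf, zero_add]
  have huhv := hhat CI.u u' uh hu' huh₁
  have hdhv := hhat CI.δ δ' dh hδ' hdh₁
  have hJ : ∀ z, levelPT p wt (N : ℚ) jq z ∈ I →
      z ∈ lIdeal p q g ⊔ wIdeal (WittVector p k) wt (q * K') := by
    intro z hz
    have h := descend hL hwt (T := N) jq g z (s := (K' : ℚ)) (t := q * K')
      (by rw [hq]; push_cast; exact le_rfl) (Nat.mul_le_mul_left _ hNK) ?_
    · rw [lIdeal_eq]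
      have hle : wIdeal (WittVector p k) wt (q * K') ⊔ Ideal.span {yRel p k d n q} ⊔
          Ideal.span (Set.range g) ≤ Ideal.span {yRel p k d n q} ⊔ Ideal.span (Set.range g) ⊔
            wIdeal (WittVector p k) wt (q * K') :=
        sup_le (sup_le le_sup_right (le_sup_of_le_left le_sup_left)) (le_sup_of_le_left le_sup_right)
      exact hle h
    · simp only [hgv]
      rw [hI, rootI, sup_comm] at hz
      exact hz
  refine ⟨jq, hjjq, ⟨⟨g, Dl, El, uh, dh, huh, huh₀, hdh, hdh₀, hgd, hDd, ?_, ?_, ?_⟩⟩⟩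
  · refine hJ _ ?_
    rw [map_sub, map_mul, map_mul, hdhv, huhv, hElv, hDlv]
    exact hE₀
  · refine hJ _ ?_
    simp only [map_mul, map_sub, hdhv, hElv, hDlv]
    rw [show π CI.δ * (π CI.δ * (E₀ * (De - E₀))) =
      a₀ * (π CI.δ * De - π CI.δ * E₀) + π CI.u * (π CI.δ - π CI.u) * (De * De) -
        π CI.u * De * a₀ by rw [ha₀]; ring]
    refine sub_mem (add_mem (Ideal.mul_mem_right _ _ hE₀) (Ideal.mul_mem_right _ _ ?_))
      (Ideal.mul_mem_left _ _ hE₀)
    rw [← hsub]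
    exact huz _ CI.δ_sub_u
  · intro h hh K hK
    obtain ⟨h'', hh''⟩ := exists_trunc (p := p) hwt N h
    refine ⟨h'', memW_anti (hK.trans hNK) hh'', hJ _ ?_⟩
    have hhv : levelPT p wt (N : ℚ) jq (piQ q h'') = π h :=
      hhat h h'' _ hh'' (by rw [sub_self]; exact zero_mem _)
    rw [map_mul, map_mul, hdhv, hElv, hhv,
      show π CI.δ * (E₀ * π h) = a₀ * π h + π CI.u * π h * De by rw [ha₀]; ring]
    exact add_mem (Ideal.mul_mem_right _ _ hE₀) (Ideal.mul_mem_right _ _ (huz h hh))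

end Vale.Agent.P202
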