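import Vale.Agent.P202.M5Wt

/-!
M5 (helper10): on the root ring of level `q`, the initial forms of the relations generate all
initial forms, and an element with a nonzero initial form in the `X` alone is strictly regular.
-/

universe u

namespace Vale.Agent.P202

open MvPolynomial

variable {p : ℕ} [hp : Fact p.Prime] {k : Type u} [Field k] [CharP k p] [PerfectRing k p] {d n : ℕ}
  {wt : Vr d n → ℕ}

/-- The component of a product with a homogeneous factor. -/
lemma m5_comp_mul_hom {σ R : Type*} [CommRing R] {w : σ → ℕ} {e t : ℕ} (a : MvPolynomial σ R)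
    {F : MvPolynomial σ R} (hF : IsWeightedHomogeneous w F e) :
    weightedHomogeneousComponent w t (a * F) =
      if e ≤ t then weightedHomogeneousComponent w (t - e) a * F else 0 := by
  classical
  ext γ
  rw [coeff_weightedHomogeneousComponent]
  have hkey : ∀ q ∈ Finset.HasAntidiagonal.antidiagonal γ,
      coeff q.1 a * coeff q.2 F ≠ 0 → Finsupp.weight w γ = Finsupp.weight w q.1 + e := by
    intro q hq hne
    rw [Finset.HasAntidiagonal.mem_antidiagonal] at hq
    rw [← hq, map_add, hF (right_ne_zero_of_mul hne)]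
  by_cases he : e ≤ t
  · rw [if_pos he, coeff_mul, coeff_mul]
    split_ifs with hγ
    · refine Finset.sum_congr rfl fun q hq => ?_
      rw [coeff_weightedHomogeneousComponent]
      by_cases h0 : coeff q.1 a * coeff q.2 F = 0
      · split_ifs <;> simp [h0]
      · rw [if_pos (by have := hkey q hq h0; omega)]
    · symm
      refine Finset.sum_eq_zero fun q hq => ?_
      rw [coeff_weightedHomogeneousComponent]
      by_cases h0 : coeff q.1 a * coeff q.2 F = 0
      · split_ifs <;> simp [h0]
      · rw [if_neg (by have := hkey q hq h0; omega), zero_mul]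
  · rw [if_neg he, coeff_zero]
    split_ifs with hγ
    · rw [coeff_mul]
      refine Finset.sum_eq_zero fun q hq => ?_
      by_contra h0
      have := hkey q hq h0
      omega
    · rfl

/-- The data of a level: relations `g` whose initial forms `F` are monic in separate variables. -/
structure LevData (p : ℕ) [Fact p.Prime] (k : Type u) [Field k] [CharP k p] {d n : ℕ}
    (wt : Vr d n → ℕ) (q : ℕ) (g : Hv n → MvPolynomial (Vr d n) (WittVector p k)) where
  wt_pos : ∀ v, 0 < wt v
  q_pos : 0 < q
  deg : Hv n → ℕ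
  F : Hv n → MvPolynomial (Vr d n) k
  hom : ∀ v, IsWeightedHomogeneous wt (F v) (deg v * wt (hVar v))
  monic : ∀ v, F v - X (hVar v) ^ deg v ∈
    Ideal.span (Set.range fun l : Fin d => (X (some (Sum.inl l)) : MvPolynomial (Vr d n) k))
  init : ∀ v, g v - liftL p (F v) ∈ wIdeal _ wt (deg v * wt (hVar v) + 1) ⊔
    Ideal.span {yRel p k d n q}

variable {q : ℕ} {g : Hv n → MvPolynomial (Vr d n) (WittVector p k)}

/-- Replace the relations by relations of the exact weight. -/
lemma LevData.normalize (L : LevData p k wt q g) :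
    ∃ g' : Hv n → MvPolynomial (Vr d n) (WittVector p k),
      (∀ v, g' v ∈ wIdeal (WittVector p k) wt (L.deg v * wt (hVar v))) ∧
      (∀ v, inp wt (L.deg v * wt (hVar v)) (g' v) = L.F v) ∧
      lIdeal p q g = Ideal.span {yRel p k d n q} ⊔ Ideal.span (Set.range g') := by
  have h : ∀ v, ∃ g' : MvPolynomial (Vr d n) (WittVector p k),
      g' ∈ wIdeal (WittVector p k) wt (L.deg v * wt (hVar v)) ∧
      inp wt (L.deg v * wt (hVar v)) g' = L.F v ∧ g v - g' ∈ Ideal.span {yRel p k d n q} := by
    intro v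
    obtain ⟨y, hy, w, hw, hyw⟩ := Submodule.mem_sup.1 (L.init v)
    obtain ⟨hh, hl⟩ := exists_lift_hom (p := p) (L.hom v)
    refine ⟨liftL p (L.F v) + y,
      add_mem (m5_mem_wIdeal_of_hom hh) (m5_wIdeal_anti (Nat.le_succ _) hy), ?_, ?_⟩
    · rw [map_add, hl, inp_eq_zero_of_mem hy, add_zero]
    · rwa [show g v - (liftL p (L.F v) + y) = w by rw [← sub_sub, ← hyw]; ring]
  choose g' h1 h2 h3 using h
  refine ⟨g', h1, h2, le_antisymm ?_ ?_⟩
  · rw [lIdeal, Ideal.span_le, Set.insert_subset_iff]
    refine ⟨Ideal.mem_sup_left (Ideal.mem_span_singleton_self _), ?_⟩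
    rintro _ ⟨v, rfl⟩
    rw [SetLike.mem_coe, show g v = (g v - g' v) + g' v by ring]
    exact Submodule.add_mem_sup (h3 v) (Ideal.subset_span ⟨v, rfl⟩)
  · have hπ : Ideal.span {yRel p k d n q} ≤ lIdeal p q g := by
      rw [Ideal.span_le, Set.singleton_subset_iff]
      exact Ideal.subset_span (Set.mem_insert _ _)
    refine sup_le hπ ?_
    rw [Ideal.span_le]
    rintro _ ⟨v, rfl⟩
    rw [SetLike.mem_coe, show g' v = g v - (g v - g' v) by ring]
    exact sub_mem (Ideal.subset_span (Set.mem_insert_of_mem _ ⟨v, rfl⟩)) (hπ (h3 v))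

lemma m5_inp_mul_gen {e N : ℕ} {a g₀ : MvPolynomial (Vr d n) (WittVector p k)} (ha : a ∈ wIdeal (WittVector p k) wt (N - e))
    (hg : g₀ ∈ wIdeal (WittVector p k) wt e) :
    inp wt N (a * g₀) = if e ≤ N then inp wt (N - e) a * inp wt e g₀ else 0 := by
  split_ifs with h
  · conv_lhs => rw [show N = N - e + e by omega]
    exact inp_mul ha hg
  · exact inp_eq_zero_of_mem (m5_wIdeal_anti (by omega) (m5_wIdeal_mul ha hg))

/-- Koszul step: lower the deficit by one. -/
lemma LevData.step (hMF : GoalMonicFree.{u}) (L : LevData p k wt q g)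
    (g' : Hv n → MvPolynomial (Vr d n) (WittVector p k))
    (hg : ∀ v, g' v ∈ wIdeal (WittVector p k) wt (L.deg v * wt (hVar v)))
    (hF : ∀ v, inp wt (L.deg v * wt (hVar v)) (g' v) = L.F v)
    (N : ℕ) (a : Hv n → MvPolynomial (Vr d n) (WittVector p k))
    (ha : ∀ v, a v ∈ wIdeal (WittVector p k) wt (N - L.deg v * wt (hVar v)))
    (h : ∑ v, a v * g' v ∈ wIdeal (WittVector p k) wt (N + 1) ⊔ Ideal.span {yRel p k d n q}) :
    ∃ A : Hv n → MvPolynomial (Vr d n) (WittVector p k),
      (∀ v, A v ∈ wIdeal (WittVector p k) wt (N + 1 - L.deg v * wt (hVar v))) ∧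
      ∑ v, a v * g' v - ∑ v, A v * g' v ∈ Ideal.span {yRel p k d n q} := by
  classical
  set e : Hv n → ℕ := fun v => L.deg v * wt (hVar v) with he
  set ha' : Hv n → MvPolynomial (Vr d n) k :=
    fun v => if e v ≤ N then inp wt (N - e v) (a v) else 0 with hha'
  have hsum : ∑ v, a v * g' v ∈ wIdeal (WittVector p k) wt N :=
    sum_mem fun v _ => m5_wIdeal_anti le_tsub_add (m5_wIdeal_mul (ha v) (hg v))
  have h0 : ∑ v, ha' v * L.F v = 0 := by
    rw [← inp_eq_zero_of_sup L.q_pos (L.wt_pos none) hsum h, map_sum]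
    refine Finset.sum_congr rfl fun v _ => ?_
    rw [m5_inp_mul_gen (ha v) (hg v), hha', hF v]
    split_ifs <;> simp_all
  obtain ⟨b, hb1, hb2, hb3, hb4⟩ := (hMF k d n wt L.wt_pos L.deg L.F L.hom L.monic).2 N ha'
    (fun v γ hγ => by
      rw [hha'] at hγ
      dsimp only at hγ
      split_ifs at hγ with hv
      · have hh : Finsupp.weight wt γ = N - e v := inp_isHom _ _ hγ
        simp only [he] at hv hh
        omega
      · simp at hγ) h0
  let idx := Fintype.equivFin (Hv n)
  set c : Hv n → Hv n → MvPolynomial (Vr d n) k :=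
    fun v w => if idx v < idx w then b v w else 0 with hc
  set B : Hv n → Hv n → MvPolynomial (Vr d n) (WittVector p k) :=
    fun v w => liftL p (c v w) - liftL p (c w v) with hB
  have hbhom : ∀ v w, IsWeightedHomogeneous wt (b v w) (N - e v - e w) := fun v w γ hγ => by
    have := hb4 v w γ hγ
    simp only [he]
    omega
  have hchom : ∀ v w, IsWeightedHomogeneous wt (c v w) (N - e v - e w) := fun v w => by
    rw [hc]; dsimp only
    split_ifs
    · exact hbhom v w
    · exact isWeightedHomogeneous_zero _ _ _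
  have hsym : ∀ v w, N - e w - e v = N - e v - e w := fun v w => by omega
  have hcb : ∀ v w, c v w - c w v = b v w := fun v w => by
    rw [hc]; dsimp only
    rcases lt_trichotomy (idx v) (idx w) with h | h | h
    · rw [if_pos h, if_neg (not_lt.2 h.le), sub_zero]
    · obtain rfl := idx.injective h
      rw [if_neg (lt_irrefl _), sub_zero, hb2]
    · rw [if_neg (not_lt.2 h.le), if_pos h, zero_sub, hb1 w v, neg_neg]
  have hBw : ∀ v w, B v w ∈ wIdeal (WittVector p k) wt (N - e v - e w) := fun v w => by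
    refine sub_mem (m5_mem_wIdeal_of_hom (exists_lift_hom (hchom v w)).1) ?_
    rw [← hsym v w]
    exact m5_mem_wIdeal_of_hom (exists_lift_hom (hchom w v)).1
  have hBi : ∀ v w, inp wt (N - e v - e w) (B v w) = b v w := fun v w => by
    rw [← hcb, hB]
    dsimp only
    rw [map_sub, (exists_lift_hom (hchom v w)).2]
    congr 1
    rw [← hsym v w, (exists_lift_hom (hchom w v)).2]
  set A₀ : Hv n → MvPolynomial (Vr d n) (WittVector p k) := fun v => a v - ∑ w, B v w * g' w with hA₀
  have hA₀g : ∑ v, A₀ v * g' v = ∑ v, a v * g' v := by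
    simp only [hA₀, sub_mul, Finset.sum_sub_distrib, Finset.sum_mul, sub_eq_self, hB]
    rw [sub_eq_zero, Finset.sum_comm]
    exact Finset.sum_congr rfl fun v _ => Finset.sum_congr rfl fun w _ => by ring
  have hA₀w : ∀ v, A₀ v ∈ wIdeal (WittVector p k) wt (N - e v) := fun v =>
    sub_mem (ha v) (sum_mem fun w _ => m5_wIdeal_anti le_tsub_add (m5_wIdeal_mul (hBw v w) (hg w)))
  have hA : ∀ v, ∃ A : MvPolynomial (Vr d n) (WittVector p k), A ∈ wIdeal (WittVector p k) wt (N + 1 - e v) ∧
      A₀ v - A ∈ Ideal.span {yRel p k d n q} := by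
    intro v
    by_cases hv : e v ≤ N
    · have hi : inp wt (N - e v) (A₀ v) = 0 := by
        have h3 := hb3 v
        rw [hha'] at h3
        dsimp only at h3
        rw [if_pos hv] at h3
        rw [hA₀, map_sub, map_sum, h3, sub_eq_zero]
        refine Finset.sum_congr rfl fun w _ => ?_
        rw [m5_inp_mul_gen (hBw v w) (hg w), hBi, hF]
        split_ifs with hvw
        · rfl
        · rw [show b v w = 0 by
            ext γ
            by_contra hne
            have := hb4 v w γ hne
            simp only [he] at hvw hv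
            omega, zero_mul]
      obtain ⟨A, hA, w, hw, hAw⟩ :=
        Submodule.mem_sup.1 (mem_of_inp_eq_zero L.q_pos (L.wt_pos none) (hA₀w v) hi)
      refine ⟨A, m5_wIdeal_anti (by omega) hA, ?_⟩
      rwa [show A₀ v - A = w by rw [← hAw]; ring]
    · refine ⟨A₀ v, ?_, by rw [sub_self]; exact zero_mem _⟩
      rw [show N + 1 - e v = 0 by omega]
      exact m5_mem_wIdeal_zero _
  choose A hA1 hA2 using hA
  refine ⟨A, hA1, ?_⟩
  rw [← hA₀g, ← Finset.sum_sub_distrib]
  exact sum_mem fun v _ => by
    rw [← sub_mul]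
    exact Ideal.mul_mem_right _ _ (hA2 v)

/-- Every initial form of the ideal of a level is in the ideal of the initial forms. -/
theorem LevData.strict (hMF : GoalMonicFree.{u}) (L : LevData p k wt q g) {t : ℕ}
    {x : MvPolynomial (Vr d n) (WittVector p k)} (hx : x ∈ wIdeal (WittVector p k) wt t)
    (h : x ∈ lIdeal p q g ⊔ wIdeal (WittVector p k) wt (t + 1)) :
    inp wt t x ∈ Ideal.span (Set.range L.F) := by
  obtain ⟨g', hg, hF, hI⟩ := L.normalize
  set Q := wIdeal (WittVector p k) wt (t + 1) ⊔ Ideal.span {yRel p k d n q} with hQ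
  have h' : x ∈ Ideal.span (Set.range g') ⊔ Q := by
    rw [hI] at h
    have hle : Ideal.span {yRel p k d n q} ⊔ Ideal.span (Set.range g') ⊔ wIdeal (WittVector p k) wt (t + 1) ≤
        Ideal.span (Set.range g') ⊔ Q :=
      sup_le (sup_le (le_sup_of_le_right le_sup_right) le_sup_left)
        (le_sup_of_le_right le_sup_left)
    exact hle h
  obtain ⟨s, hs, r, hr, hsr⟩ := Submodule.mem_sup.1 h'
  obtain ⟨a₀, ha₀⟩ := (Submodule.mem_span_range_iff_exists_fun _).1 hs
  suffices ∀ m N, N + m = t → ∀ a : Hv n → MvPolynomial (Vr d n) (WittVector p k),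
      (∀ v, a v ∈ wIdeal (WittVector p k) wt (N - L.deg v * wt (hVar v))) → x - ∑ v, a v * g' v ∈ Q →
      inp wt t x ∈ Ideal.span (Set.range L.F) by
    refine this t 0 (zero_add t) a₀ (fun v => ?_) ?_
    · rw [Nat.zero_sub]; exact m5_mem_wIdeal_zero _
    · simp only [smul_eq_mul] at ha₀
      rw [ha₀, ← hsr, add_sub_cancel_left]
      exact hr
  intro m
  induction m with
  | zero =>
    intro N hN a ha hxa
    rw [add_zero] at hN
    subst hN
    have hs : ∑ v, a v * g' v ∈ wIdeal (WittVector p k) wt N :=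
      sum_mem fun v _ => m5_wIdeal_anti le_tsub_add (m5_wIdeal_mul (ha v) (hg v))
    have h0 := inp_eq_zero_of_sup L.q_pos (L.wt_pos none) (sub_mem hx hs) hxa
    rw [map_sub, sub_eq_zero] at h0
    rw [h0, map_sum]
    refine sum_mem fun v _ => ?_
    rw [m5_inp_mul_gen (ha v) (hg v), hF]
    split_ifs
    · exact Ideal.mul_mem_left _ _ (Ideal.subset_span ⟨v, rfl⟩)
    · exact zero_mem _
  | succ m ih =>
    intro N hN a ha hxa
    have hsum : ∑ v, a v * g' v ∈ wIdeal (WittVector p k) wt (N + 1) ⊔ Ideal.span {yRel p k d n q} := by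
      have h1 : x - ∑ v, a v * g' v ∈ wIdeal (WittVector p k) wt (N + 1) ⊔ Ideal.span {yRel p k d n q} :=
        sup_le_sup_right (m5_wIdeal_anti (by omega)) _ hxa
      have h2 : x ∈ wIdeal (WittVector p k) wt (N + 1) ⊔ Ideal.span {yRel p k d n q} :=
        Ideal.mem_sup_left (m5_wIdeal_anti (by omega) hx)
      simpa using sub_mem h2 h1
    obtain ⟨A, hA, hAa⟩ := L.step hMF g' hg hF N a ha hsum
    refine ih (N + 1) (by omega) A hA ?_
    rw [show x - ∑ v, A v * g' v =
      (x - ∑ v, a v * g' v) + (∑ v, a v * g' v - ∑ v, A v * g' v) by ring]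
    exact add_mem hxa (Ideal.mem_sup_right hAa)

/-- A nonzero polynomial in the `X` is regular modulo the initial forms. -/
lemma LevData.free_cancel (hMF : GoalMonicFree.{u}) (L : LevData p k wt q g)
    {P : MvPolynomial (Fin d) k} (hP : P ≠ 0) {H : MvPolynomial (Vr d n) k}
    (h : inX P * H ∈ Ideal.span (Set.range L.F)) : H ∈ Ideal.span (Set.range L.F) := by
  classical
  have hfree := (hMF k d n wt L.wt_pos L.deg L.F L.hom L.monic).1
  obtain ⟨a, ha, -⟩ := hfree H
  set a' := a.mapRange (fun c => P * c) (mul_zero P) with ha'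
  have h1 : inX P * H - (a'.sum fun γ c => inX c * monomial γ.1 1) ∈
      Ideal.span (Set.range L.F) := by
    have hs : (a'.sum fun γ c => inX c * monomial γ.1 1) =
        inX P * a.sum fun γ c => inX c * monomial γ.1 1 := by
      rw [ha', Finsupp.sum_mapRange_index (fun γ => by simp [inX]), Finsupp.mul_sum]
      refine Finsupp.sum_congr fun γ _ => ?_
      simp only [inX, map_mul]
      ring
    rw [hs, ← mul_sub]
    exact Ideal.mul_mem_left _ _ ha
  have h2 : inX P * H - ((0 : _ →₀ MvPolynomial (Fin d) k).sum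
      fun (γ : {γ // IsStdExp (d := d) L.deg γ}) c => inX c * monomial γ.1 1) ∈
      Ideal.span (Set.range L.F) := by
    rwa [Finsupp.sum_zero_index, sub_zero]
  have h3 : a' = 0 := (hfree (inX P * H)).unique h1 h2
  have h4 : a = 0 := by
    ext1 γ
    have h5 := DFunLike.congr_fun h3 γ
    rw [ha', Finsupp.mapRange_apply, Finsupp.coe_zero, Pi.zero_apply] at h5
    exact (mul_eq_zero.1 h5).resolve_left hP
  simpa [h4] using ha

/-- An element with a nonzero initial form in the `X` is strictly regular. -/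
theorem LevData.nzd (hMF : GoalMonicFree.{u}) (L : LevData p k wt q g) {C : ℕ}
    {dl : MvPolynomial (Vr d n) (WittVector p k)} (hdl : dl ∈ wIdeal (WittVector p k) wt C) {P : MvPolynomial (Fin d) k}
    (hP : P ≠ 0) (hin : inp wt C dl = inX P) {N : ℕ} {x : MvPolynomial (Vr d n) (WittVector p k)}
    (h : dl * x ∈ lIdeal p q g ⊔ wIdeal (WittVector p k) wt (N + C)) :
    x ∈ lIdeal p q g ⊔ wIdeal (WittVector p k) wt N := by
  classical
  suffices ∀ t, t ≤ N → x ∈ lIdeal p q g ⊔ wIdeal (WittVector p k) wt t from this N le_rfl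
  intro t
  induction t with
  | zero => exact fun _ => Ideal.mem_sup_right (m5_mem_wIdeal_zero x)
  | succ t ih =>
    intro ht
    obtain ⟨l, hl, y, hy, rfl⟩ := Submodule.mem_sup.1 (ih (by omega))
    have hyd : dl * y ∈ lIdeal p q g ⊔ wIdeal (WittVector p k) wt (C + t + 1) := by
      rw [show dl * y = dl * (l + y) - dl * l by ring]
      exact sub_mem (sup_le_sup_left (m5_wIdeal_anti (by omega)) _ h)
        (Ideal.mem_sup_left (Ideal.mul_mem_left _ _ hl))
    have hH := L.strict hMF (m5_wIdeal_mul hdl hy) hyd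
    rw [inp_mul hdl hy, hin] at hH
    have hH' := L.free_cancel hMF hP hH
    obtain ⟨a, ha⟩ := (Submodule.mem_span_range_iff_exists_fun _).1 hH'
    simp only [smul_eq_mul] at ha
    obtain ⟨g', hg, hF, hI⟩ := L.normalize
    set a' : Hv n → MvPolynomial (Vr d n) k := fun v =>
      weightedHomogeneousComponent wt (t - L.deg v * wt (hVar v)) (a v) with ha'
    have hA : ∀ v, IsWeightedHomogeneous wt (a' v) (t - L.deg v * wt (hVar v)) := fun v =>
      weightedHomogeneousComponent_isWeightedHomogeneous _ _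
    set A : Hv n → MvPolynomial (Vr d n) (WittVector p k) :=
      fun v => if L.deg v * wt (hVar v) ≤ t then liftL p (a' v) else 0 with hA'
    have hAw : ∀ v, A v ∈ wIdeal (WittVector p k) wt (t - L.deg v * wt (hVar v)) := fun v => by
      rw [hA']; dsimp only
      split_ifs
      · exact m5_mem_wIdeal_of_hom (exists_lift_hom (hA v)).1
      · exact zero_mem _
    have hAg : ∑ v, A v * g' v ∈ wIdeal (WittVector p k) wt t :=
      sum_mem fun v _ => m5_wIdeal_anti le_tsub_add (m5_wIdeal_mul (hAw v) (hg v))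
    have h0 : inp wt t (y - ∑ v, A v * g' v) = 0 := by
      rw [map_sub, map_sum, sub_eq_zero,
        ← (inp_isHom t y).weightedHomogeneousComponent_same, ← ha, map_sum]
      refine Finset.sum_congr rfl fun v _ => ?_
      rw [m5_comp_mul_hom _ (L.hom v), m5_inp_mul_gen (hAw v) (hg v), hF, hA']
      dsimp only
      split_ifs with hv
      · rw [(exists_lift_hom (hA v)).2]
      · rfl
    have h1 := mem_of_inp_eq_zero L.q_pos (L.wt_pos none) (sub_mem hy hAg) h0
    rw [show l + y = (l + ∑ v, A v * g' v) + (y - ∑ v, A v * g' v) by ring]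
    refine add_mem (Ideal.mem_sup_left (add_mem hl ?_)) ?_
    · rw [hI]
      exact Ideal.mem_sup_right (sum_mem fun v _ =>
        Ideal.mul_mem_left _ _ (Ideal.subset_span ⟨v, rfl⟩))
    · have hle : wIdeal (WittVector p k) wt (t + 1) ⊔ Ideal.span {yRel p k d n q} ≤
          lIdeal p q g ⊔ wIdeal (WittVector p k) wt (t + 1) :=
        sup_le le_sup_right (by rw [hI]; exact le_sup_of_le_left le_sup_left)
      exact hle h1

end Vale.Agent.P202
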