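import Vale.Agent.P202.M5Aux

/-!
M5 (helper10): the element `E` in the truncated perfect ring of a complete intersection datum.
-/

universe u

namespace Vale.Agent.P202

open MvPolynomial P202.Mixed

variable {p : ℕ} [hp : Fact p.Prime] {k : Type u} [Field k] [CharP k p] [PerfectRing k p]
  {A : Type u} [CommRing A] [Algebra (WittVector p k) A] {d : ℕ} {x : Fin d → A} {b : ℕ}
  {G : ℕ → Ideal A}

/-- Sections 4 to 6 at the level of the truncated perfect ring. -/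
theorem exists_pt (CI : CIData p k A x b G) {i j : ℕ} (hj1 : 1 ≤ j)
    (hjQ : 8 * p ^ (i + 2) * (CI.n + 1) ≤ p ^ j) (K' : ℕ) :
    ∃ N : ℕ, K' ≤ N ∧ (∀ v, CI.deg v * CI.wt (hVar v) + 1 ≤ N) ∧ CI.c + 1 ≤ N ∧
    ∃ (Gs : Hv CI.n → KG p k d CI.n) (Dd : KG p k d CI.n)
      (E₀ : PT p k CI.wt (N : ℚ)),
      (∀ v, Gs v - levelKG p 0 (CI.F v) ∈
        FilKG p CI.wt (((CI.deg v * CI.wt (hVar v) : ℕ) : ℚ) + 1)) ∧
      Dd - levelKG p 0 (inX CI.δ₀) ∈ FilKG p CI.wt ((CI.c : ℚ) + 1) ∧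
      piPT p CI.wt (N : ℚ) CI.δ * E₀ -
          piPT p CI.wt (N : ℚ) CI.u * teiPT p CI.wt (N : ℚ) (rt (p := p) i Dd) ∈ rootI Gs j K' ∧
      ∀ h, CI.ev h = 0 →
        piPT p CI.wt (N : ℚ) CI.u * piPT p CI.wt (N : ℚ) h ∈ rootI Gs j K' := by
  classical
  set n := CI.n with hn
  set wt := CI.wt with hwt'
  have hwt : ∀ v, 0 < wt v := CI.wt_pos
  set e : Hv n → ℕ := fun v => CI.deg v * wt (hVar v) with he
  set c := CI.c with hc
  have hT := goalTei.{u}
  set N := (∏ v, wt v) * (8 * p ^ (i + 2) * Fintype.card (Vr d n) * K' +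
    p ^ (i + 1 + K' + j) * K' + (∑ v, e v) + c + 1) with hN
  have hprod : 0 < ∏ v, wt v := Finset.prod_pos fun v _ => hwt v
  have hN1 : 8 * p ^ (i + 2) * Fintype.card (Vr d n) * K' ≤ N :=
    le_trans (by omega) (Nat.le_mul_of_pos_left _ hprod)
  have hN2 : p ^ (i + 1 + K' + j) * K' ≤ N :=
    le_trans (by omega) (Nat.le_mul_of_pos_left _ hprod)
  have hNe : (∑ v, e v) + c + 1 ≤ N := le_trans (by omega) (Nat.le_mul_of_pos_left _ hprod)
  have hNK : K' ≤ N := (Nat.le_mul_of_pos_left _ (pow_pos hp.out.pos _)).trans hN2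
  have hev : ∀ v, e v + 1 ≤ N := fun v =>
    le_trans (by have := Finset.single_le_sum (fun w _ => Nat.zero_le (e w)) (Finset.mem_univ v); omega) hNe
  have hdvd : ∀ v, wt v ∣ N := fun v => dvd_mul_of_dvd_left (Finset.dvd_prod_of_mem _ (Finset.mem_univ v)) _
  -- sharp approximations
  choose Gs hG1 _hG2 xf hxf hGf using fun v =>
    goalLemmaA p k d n wt hwt (CI.f v) (CI.F v) (e v) (CI.f_init v) (N : ℚ) (N : ℚ)
  obtain ⟨U, hU1, _, xu, hxu, hUf⟩ :=
    goalLemmaA p k d n wt hwt CI.u CI.U₀ c CI.u_init (N : ℚ) (N : ℚ)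
  obtain ⟨Dd, hD1, _, xd, hxd, hDf⟩ :=
    goalLemmaA p k d n wt hwt CI.δ (inX CI.δ₀) c CI.δ_init (N : ℚ) (N : ℚ)
  set π := piPT (k := k) p wt (N : ℚ) with hπ
  have hmul : ∀ f g, π (f * g) = π f * π g := fun f g => piPT_mul hwt N f g
  have hadd : ∀ f g, π (f + g) = π f + π g := fun f g => piPT_add (N : ℚ) f g
  have hspan : ∀ f ∈ Ideal.span (Set.range CI.f), π f ∈ Ideal.span (Set.range fun v => π (CI.f v)) := by
    intro f hf
    induction hf using Submodule.span_induction with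
    | mem y hy => obtain ⟨v, rfl⟩ := hy; exact Ideal.subset_span ⟨v, rfl⟩
    | zero => rw [hπ, piPT_memW hwt N 0 fun γ => ⟨N, by have := hwt none; nlinarith, by simp⟩]; exact zero_mem _
    | add y z _ _ hy hz => rw [hadd]; exact add_mem hy hz
    | smul r y _ hy => rw [smul_eq_mul, hmul]; exact Ideal.mul_mem_left _ _ hy
  have hsub : ∀ f g, π (f - g) = π f - π g := fun f g => by
    rw [eq_sub_iff_add_eq, ← hadd, sub_add_cancel]
  have hrel : π CI.u * (π CI.δ - π CI.u) ∈ Ideal.span (Set.range fun v => π (CI.f v)) := by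
    rw [← hsub, ← hmul]
    exact hspan _ (CI.u_ann _ CI.δ_sub_u)
  obtain ⟨hfI, E₀, hE₀⟩ := exists_E (wt := wt) (T := N) hT hwt (N := N) (K := K') (i := i) (j := j)
    (by omega) le_rfl hdvd hj1 hjQ hN1 hN2 Gs U Dd (fun v => π (CI.f v)) (π CI.u) (π CI.δ)
    (fun v => ⟨xf v, hxf v, hGf v⟩) ⟨xu, hxu, hUf⟩ ⟨xd, hxd, hDf⟩ hrel
  set I := rootI (T := N) (wt := wt) Gs j K' with hI
  have huz : ∀ h, CI.ev h = 0 → π CI.u * π h ∈ I := by
    intro h hh
    rw [← hmul]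
    have hle : Ideal.span (Set.range fun v => π (CI.f v)) ≤ I := by
      rw [Ideal.span_le]
      rintro _ ⟨v, rfl⟩
      exact hfI v
    exact hle (hspan _ (CI.u_ann h hh))
  exact ⟨N, hNK, hev, by omega, Gs, Dd, E₀, hG1, hD1, hE₀, huz⟩

end Vale.Agent.P202
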