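import Mathlib

set_option linter.style.header false
namespace P202.Mixed

open WittVector

variable {p : ℕ} [Fact p.Prime] {O : Type*} [CommRing O] [IsDomain O] [CharP O p] [PerfectRing O p]

lemma isUnit_of_coeff_zero (x : WittVector p O) (hx : IsUnit (x.coeff 0)) : IsUnit x := by
  obtain ⟨y, hy⟩ := hx.exists_right_inv
  have h1 : (x * teichmuller p y - 1).coeff 0 = 0 := by
    rw [← constantCoeff_apply, map_sub, map_mul, map_one, constantCoeff_apply, constantCoeff_apply,
      teichmuller_coeff_zero, hy, sub_self]
  have h2 : x * teichmuller p y - 1 ∈ Ideal.span {(p : WittVector p O)} := by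
    have := (mem_span_p_pow_iff_le_coeff_eq_zero (x * teichmuller p y - 1) 1).mpr
    simp only [pow_one] at this
    exact this fun m hm => by
      obtain rfl : m = 0 := by omega
      exact h1
  have hj := IsAdicComplete.le_jacobson_bot (Ideal.span {(p : WittVector p O)}) h2
  have := (Ideal.mem_jacobson_bot.mp hj) 1
  rw [mul_one, sub_add_cancel] at this
  exact isUnit_of_mul_isUnit_left this

lemma pow_dvd_of_teichmuller_mem {Y : O} {a : O}
    (h : teichmuller p a ∈ Ideal.span {teichmuller p Y - (p : WittVector p O)}) (n : ℕ) :
    Y ^ n ∣ a := by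
  induction n generalizing a with
  | zero => simp
  | succ n ih =>
    obtain ⟨w, hw⟩ := Ideal.mem_span_singleton'.mp h
    have hp0 : constantCoeff (p : WittVector p O) = 0 := by
      rw [map_natCast, CharP.cast_eq_zero]
    have hc : a = w.coeff 0 * Y := by
      have := congrArg constantCoeff hw
      rw [map_mul, map_sub, hp0, sub_zero] at this
      simpa [constantCoeff_apply, teichmuller_coeff_zero] using this.symm
    set w0 := w.coeff 0 with hw0
    have hmem : w - teichmuller p w0 ∈ Ideal.span {(p : WittVector p O)} := by
      have := (mem_span_p_pow_iff_le_coeff_eq_zero (w - teichmuller p w0) 1).mpr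
      simp only [pow_one] at this
      exact this fun m hm => by
        obtain rfl : m = 0 := by omega
        rw [← constantCoeff_apply, map_sub, constantCoeff_apply, constantCoeff_apply,
          teichmuller_coeff_zero, sub_self]
    obtain ⟨w', hw'⟩ := Ideal.mem_span_singleton'.mp hmem
    have hkey : (p : WittVector p O) * (teichmuller p w0 - w' * (teichmuller p Y - p)) = 0 := by
      have e1 : w * (teichmuller p Y - p) = teichmuller p w0 * teichmuller p Y := by
        rw [hw, hc, map_mul]
      have e2 : w = w' * (p : WittVector p O) + teichmuller p w0 := by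
        rw [hw']; ring
      rw [e2] at e1
      linear_combination -e1
    have hne : (p : WittVector p O) ≠ 0 := p_nonzero p O
    have h' := (mul_eq_zero.mp hkey).resolve_left hne
    have hin : teichmuller p w0 ∈ Ideal.span {teichmuller p Y - (p : WittVector p O)} :=
      Ideal.mem_span_singleton'.mpr ⟨w', (sub_eq_zero.mp h').symm⟩
    rw [hc, pow_succ]
    exact mul_dvd_mul_right (ih hin) Y

/-- Core of 5a: a Teichmuller element which is a combination of Teichmullers of strictly more
divisible elements modulo `[Y] - p` is infinitely divisible by `Y`. -/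
lemma pow_dvd_of_sum {ι : Type*} (s : Finset ι) {Y a : O} (r : ι → WittVector p O) (m : ι → O)
    (hm : ∀ k ∈ s, m k ∈ Ideal.jacobson (⊥ : Ideal O))
    (h : teichmuller p a - ∑ k ∈ s, r k * teichmuller p (a * m k) ∈
      Ideal.span {teichmuller p Y - (p : WittVector p O)}) (n : ℕ) : Y ^ n ∣ a := by
  refine pow_dvd_of_teichmuller_mem ?_ n
  set u := 1 - ∑ k ∈ s, r k * teichmuller p (m k) with hu
  have hU : IsUnit u := by
    refine isUnit_of_coeff_zero u ?_
    have hc : u.coeff 0 = 1 - ∑ k ∈ s, (r k).coeff 0 * m k := by
      rw [← constantCoeff_apply, hu, map_sub, map_one, map_sum]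
      refine congrArg (1 - ·) (Finset.sum_congr rfl fun k _ => ?_)
      rw [map_mul, constantCoeff_apply, constantCoeff_apply, teichmuller_coeff_zero]
    rw [hc]
    have hj : -(∑ k ∈ s, (r k).coeff 0 * m k) ∈ Ideal.jacobson (⊥ : Ideal O) :=
      neg_mem (Ideal.sum_mem _ fun k hk => Ideal.mul_mem_left _ _ (hm k hk))
    have := Ideal.mem_jacobson_bot.mp hj 1
    rw [mul_one, neg_add_eq_sub] at this
    exact this
  have he : teichmuller p a - ∑ k ∈ s, r k * teichmuller p (a * m k) = u * teichmuller p a := by
    rw [hu, sub_mul, one_mul, Finset.sum_mul]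
    refine congrArg (teichmuller p a - ·) (Finset.sum_congr rfl fun k _ => ?_)
    rw [map_mul]; ring
  rw [he] at h
  exact (Ideal.unit_mul_mem_iff_mem _ hU).mp h

end P202.Mixed
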