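import Vale.Agent.P202.InterfacesM4
import Vale.Agent.P202.M5Witt

/-!
M5 (helper10): the valuative lemmas 5a, 5c of the blueprint.
-/

universe u

namespace Vale.Agent.P202

open P202.Mixed

variable {p : ℕ} [hp : Fact p.Prime] {k : Type u} [Field k] [CharP k p] [PerfectRing k p] {d n : ℕ}
  {wt : Vr d n → ℕ}

/-- The element `X_v ^ (N / wt v)`. -/
noncomputable def mVar (p : ℕ) [Fact p.Prime] (k : Type u) [Field k] {d n : ℕ} (wt : Vr d n → ℕ)
    (N : ℕ) (v : Vr d n) : KG p k d n :=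
  AddMonoidAlgebra.single (Finsupp.single v (pDiv p (N / wt v) 0)) 1

section valuation

variable {Γ₀ : Type*} [LinearOrderedCommGroupWithZero Γ₀] (v : Valuation (KG p k d n) Γ₀)

lemma val_le_of_pow {a b : Γ₀} {m : ℕ} (hm : m ≠ 0) (h : a ^ m ≤ b ^ m) : a ≤ b :=
  (pow_le_pow_iff_left₀ zero_le zero_le hm).1 h

/-- A monomial of weight `w` has value at most `μ ^ (w / N)`. -/
lemma val_single_pow {μ : Γ₀} {N : ℕ} (hμ1 : μ ≤ 1)
    (hμ : ∀ i, v (mVar p k wt N i) ≤ μ) (hdvd : ∀ i, wt i ∣ N)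
    (hv : ∀ x, v x ≤ 1) (g : Ex p d n) (c : k) {S t : ℕ}
    (h : (N : ℚ) * t ≤ S * exWt p wt g) (hN : 0 < N) :
    v (AddMonoidAlgebra.single g c) ^ S ≤ μ ^ t := by
  classical
  have hc : v (AddMonoidAlgebra.single g c) ≤ v (AddMonoidAlgebra.single g 1) := by
    rw [show AddMonoidAlgebra.single g c =
      AddMonoidAlgebra.single 0 c * AddMonoidAlgebra.single g (1 : k) by
        rw [AddMonoidAlgebra.single_mul_single, zero_add, mul_one], map_mul]
    exact mul_le_of_le_one_left zero_le (hv _)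
  refine (pow_le_pow_left₀ zero_le hc S).trans ?_
  choose m₀ a₀ ha₀ using fun i => (g i).2
  obtain ⟨M, hM⟩ : ∃ M, ∀ i, m₀ i ≤ M :=
    ⟨Finset.univ.sup m₀, fun i => Finset.le_sup (Finset.mem_univ i)⟩
  set a : Vr d n → ℕ := fun i => a₀ i * p ^ (M - m₀ i) with ha
  have hgi : ∀ i, ((g i : ℚ≥0)) * (p : ℚ≥0) ^ M = a i := fun i => by
    rw [ha]; push_cast
    rw [← ha₀ i, mul_assoc, ← pow_add, Nat.add_sub_cancel' (hM i)]
  have hexp : (p ^ M * N) • g = ∑ i, (a i * wt i) • Finsupp.single i (pDiv p (N / wt i) 0) := by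
    refine Finsupp.ext fun j => Subtype.ext ?_
    rw [Finsupp.smul_apply, Finsupp.finsetSum_apply, Finset.sum_eq_single j
      (fun i _ hij => by simp [Finsupp.single_eq_of_ne (Ne.symm hij)]) (by simp),
      Finsupp.smul_apply, Finsupp.single_eq_same]
    simp only [AddSubmonoidClass.coe_nsmul, nsmul_eq_mul, pDiv, pow_zero, div_one]
    push_cast
    have hw : ((wt j : ℚ≥0)) * ((N / wt j : ℕ) : ℚ≥0) = N := by
      rw [← Nat.cast_mul, Nat.mul_div_cancel' (hdvd j)]
    rw [← hgi j]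
    calc (p : ℚ≥0) ^ M * N * (g j : ℚ≥0)
        = (g j : ℚ≥0) * (p : ℚ≥0) ^ M * ((wt j : ℚ≥0) * ((N / wt j : ℕ) : ℚ≥0)) := by rw [hw]; ring
      _ = _ := by ring
  have hW : ((∑ i, a i * wt i : ℕ) : ℚ) = (p : ℚ) ^ M * exWt p wt g := by
    have h2 := congrArg (exWt p wt) hexp
    rw [map_nsmul, map_sum] at h2
    simp only [map_nsmul, exWt_single, nsmul_eq_mul, pDiv, pow_zero, div_one, NNRat.cast_natCast]
      at h2
    have hNQ : (N : ℚ) ≠ 0 := Nat.cast_ne_zero.2 hN.ne'
    have h3 : ∀ i, ((N / wt i : ℕ) : ℚ) * (wt i : ℚ) = N := fun i => by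
      rw [← Nat.cast_mul, Nat.div_mul_cancel (hdvd i)]
    simp only [h3, ← Finset.sum_mul] at h2
    push_cast at h2 ⊢
    exact (mul_right_cancel₀ hNQ (by rw [← h2]; ring)).symm
  have hval : v (AddMonoidAlgebra.single g (1 : k)) ^ (p ^ M * N) ≤ μ ^ (∑ i, a i * wt i) := by
    have hpr : AddMonoidAlgebra.single g (1 : k) ^ (p ^ M * N) =
        ∏ i, mVar p k wt N i ^ (a i * wt i) := by
      have hprod : ∀ s : Finset (Vr d n), ∏ i ∈ s, mVar p k wt N i ^ (a i * wt i) =
          AddMonoidAlgebra.single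
            (∑ i ∈ s, (a i * wt i) • Finsupp.single i (pDiv p (N / wt i) 0)) 1 := fun s => by
        induction s using Finset.induction_on with
        | empty => rfl
        | insert i s hi ih =>
          rw [Finset.prod_insert hi, Finset.sum_insert hi, ih, mVar, AddMonoidAlgebra.single_pow,
            AddMonoidAlgebra.single_mul_single, one_pow, one_mul]
      rw [hprod, AddMonoidAlgebra.single_pow, one_pow, hexp]
    rw [← map_pow, hpr, map_prod, ← Finset.prod_pow_eq_pow_sum]
    refine Finset.prod_le_prod (fun i _ => zero_le) fun i _ => ?_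
    rw [map_pow]
    exact pow_le_pow_left₀ zero_le (hμ i) _
  refine val_le_of_pow (m := p ^ M * N) (mul_ne_zero (pow_ne_zero _ hp.out.ne_zero) hN.ne') ?_
  rw [← pow_mul, mul_comm S, pow_mul, ← pow_mul μ]
  refine (pow_le_pow_left₀ zero_le hval S).trans ?_
  rw [← pow_mul]
  refine pow_le_pow_of_le_one zero_le hμ1 ?_
  have : ((t * (p ^ M * N) : ℕ) : ℚ) ≤ (((∑ i, a i * wt i) * S : ℕ) : ℚ) := by
    push_cast at hW ⊢
    rw [hW]
    calc (t : ℚ) * ((p : ℚ) ^ M * N) = (p : ℚ) ^ M * ((N : ℚ) * t) := by ring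
      _ ≤ (p : ℚ) ^ M * (S * exWt p wt g) := mul_le_mul_of_nonneg_left h (p_pow_pos M).le
      _ = _ := by ring
  exact_mod_cast this

/-- An element of weight at least `w` has value at most `μ ^ (w / N)`. -/
lemma val_fil_pow {μ : Γ₀} {N : ℕ} (hμ1 : μ ≤ 1)
    (hμ : ∀ i, v (mVar p k wt N i) ≤ μ) (hdvd : ∀ i, wt i ∣ N)
    (hv : ∀ x, v x ≤ 1) {w : ℚ} {φ : KG p k d n} (hφ : φ ∈ FilKG p wt w) {S t : ℕ}
    (h : (N : ℚ) * t ≤ S * w) (hN : 0 < N) : v φ ^ S ≤ μ ^ t := by
  rcases Nat.eq_zero_or_pos S with rfl | hS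
  · have : t = 0 := by
      rw [Nat.cast_zero, zero_mul] at h
      have h' : ((N * t : ℕ) : ℚ) ≤ ((0 : ℕ) : ℚ) := by push_cast; exact h
      have := Nat.le_zero.1 (Nat.cast_le.1 h')
      simpa [hN.ne'] using this
    simp [this]
  rw [← map_pow]
  have hsum : v (φ ^ S) ≤ v (∑ g ∈ φ.coeff.support, AddMonoidAlgebra.single g (φ.coeff g)) ^ S := by
    rw [map_pow]
    exact le_of_eq (congrArg (v · ^ S) (AddMonoidAlgebra.sum_coeff_single φ).symm)
  refine hsum.trans ?_
  clear hsum
  have hφ' : ∀ s : Finset (Ex p d n), (∀ g ∈ s, w ≤ exWt p wt g) →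
      v (∑ g ∈ s, AddMonoidAlgebra.single g (φ.coeff g)) ^ S ≤ μ ^ t := fun s => by
    classical
    induction s using Finset.induction_on with
    | empty => intro; rw [Finset.sum_empty, map_zero, zero_pow hS.ne']; exact zero_le
    | insert g s hg ih =>
      intro hs
      rw [Finset.sum_insert hg]
      refine (pow_le_pow_left₀ zero_le (v.map_add _ _) S).trans ?_
      rcases max_choice (v (AddMonoidAlgebra.single g (φ.coeff g)))
        (v (∑ g ∈ s, AddMonoidAlgebra.single g (φ.coeff g))) with e | e <;> rw [e]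
      · exact val_single_pow v hμ1 hμ hdvd hv g _ (h.trans (mul_le_mul_of_nonneg_left
          (hs g (Finset.mem_insert_self g s)) (Nat.cast_nonneg S))) hN
      · exact ih fun i hi => hs i (Finset.mem_insert_of_mem hi)
  exact hφ' _ fun g hg => hφ g (Finsupp.mem_support_iff.1 hg)

/-- Bound on the error terms of Lemma A. -/
lemma val_term {μ : Γ₀} {N : ℕ} (hμ1 : μ ≤ 1)
    (hμ : ∀ i, v (mVar p k wt N i) ≤ μ) (hdvd : ∀ i, wt i ∣ N)
    (hv : ∀ x, v x ≤ 1) {G g φ : KG p k d n} {a w : ℚ} (hg : IsPow p G a g)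
    (hφ : φ ∈ FilKG p wt w) (ha : a ≤ 1) (haw : (N : ℚ) * (1 - a) ≤ w) (hN : 0 < N) :
    ∃ m j : ℕ, j ≤ p ^ m ∧ v (g * φ) ^ p ^ m ≤ v G ^ j * μ ^ (p ^ m - j) := by
  obtain ⟨m, j, rfl, r, hr, rfl⟩ := hg
  have hpm : (0 : ℚ) < (p : ℚ) ^ m := p_pow_pos m
  have hj : j ≤ p ^ m := by
    rw [div_le_one hpm] at ha
    exact_mod_cast ha
  refine ⟨m, j, hj, ?_⟩
  rw [map_mul, mul_pow]
  refine mul_le_mul' (le_of_eq ?_) (val_fil_pow v hμ1 hμ hdvd hv hφ ?_ hN)
  · rw [← hr, map_pow, map_pow, ← pow_mul, ← pow_mul, mul_comm]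
  · rw [Nat.cast_sub hj]
    push_cast
    have : (N : ℚ) * ((p : ℚ) ^ m - j) = (p : ℚ) ^ m * ((N : ℚ) * (1 - j / (p : ℚ) ^ m)) := by
      field_simp
    rw [this]
    exact mul_le_mul_of_nonneg_left haw hpm.le

lemma val_term_le {μ B : Γ₀} {N : ℕ} (hμ1 : μ ≤ 1)
    (hμ : ∀ i, v (mVar p k wt N i) ≤ μ) (hdvd : ∀ i, wt i ∣ N)
    (hv : ∀ x, v x ≤ 1) {G g φ : KG p k d n} {a w : ℚ} (hg : IsPow p G a g)
    (hφ : φ ∈ FilKG p wt w) (ha : a ≤ 1) (haw : (N : ℚ) * (1 - a) ≤ w) (hN : 0 < N)
    (hG : v G ≤ B) (hμB : μ ≤ B) : v (g * φ) ≤ B := by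
  obtain ⟨m, j, hj, h⟩ := val_term v hμ1 hμ hdvd hv hg hφ ha haw hN
  refine val_le_of_pow (pow_ne_zero m hp.out.ne_zero) (h.trans ?_)
  conv_rhs => rw [← Nat.add_sub_cancel' hj, pow_add]
  exact mul_le_mul' (pow_le_pow_left₀ zero_le hG j) (pow_le_pow_left₀ zero_le hμB _)

end valuation

/-- The Teichmuller of the variable `Y` is `p`. -/
lemma hL_tei (hwt : ∀ v, 0 < wt v) (T : ℕ) :
    teiPT p wt (T : ℚ) (AddMonoidAlgebra.single (exY p d n) (1 : k)) = (p : PT p k wt (T : ℚ)) := by
  have hy : (1 : ℚ) ≤ exWt p wt (exY p d n) := by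
    rw [exWt_exY]; exact_mod_cast hwt none
  exact (P202.Mixed.teiData (p := p) (k := k) (y := exY p d n) (wt := exWt p wt) (T : ℚ)
    hy (exWt_nonneg p wt) bijective_nsmul_expo).tei_Y

/-- A map from a monoid algebra killing an ideal of the quotient factors. -/
lemma exists_lift_quot {W : Type*} [CommRing W] {Γ : Type*} [AddCommMonoid Γ] (π : W) (y : Γ)
    (w : Γ →+ ℚ) {R : Type*} [CommRing R] (T : ℚ) (f : AddMonoidAlgebra W Γ →+* R)
    (h1 : f (AddMonoidAlgebra.single y 1 - AddMonoidAlgebra.single 0 π) = 0)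
    (h2 : ∀ g, T ≤ w g → f (AddMonoidAlgebra.single g 1) = 0) :
    ∃ ψ : PPq π y ⧸ P202.Mixed.wIdeal π y w T →+* R,
      ∀ z, ψ (Ideal.Quotient.mk _ (Ideal.Quotient.mk (relIdeal π y) z)) = f z := by
  have h1' : ∀ x ∈ relIdeal π y, f x = 0 := fun x hx => by
    obtain ⟨c, rfl⟩ := Ideal.mem_span_singleton'.1 hx
    rw [map_mul, h1, mul_zero]
  let f₁ : PPq π y →+* R := Ideal.Quotient.lift _ f h1'
  have h2' : P202.Mixed.wIdeal π y w T ≤ RingHom.ker f₁ := by
    rw [P202.Mixed.wIdeal, Ideal.span_le]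
    rintro _ ⟨⟨g, hg⟩, rfl⟩
    exact h2 g hg
  exact ⟨Ideal.Quotient.lift _ f₁ fun x hx => h2' hx, fun z => rfl⟩

/-- A map from the monoid algebra killing the relation and the heavy monomials factors. -/
lemma exists_liftT {R : Type*} [CommRing R] (T : ℚ)
    (f : AddMonoidAlgebra (WittVector p k) (Ex p d n) →+* R)
    (h1 : f (AddMonoidAlgebra.single (exY p d n) 1 -
      AddMonoidAlgebra.single 0 (p : WittVector p k)) = 0)
    (h2 : ∀ g, T ≤ exWt p wt g → f (AddMonoidAlgebra.single g 1) = 0) :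
    ∃ ψ : PT p k wt T →+* R, ∀ z, ψ (toT (exWt p wt) T z) = f z :=
  exists_lift_quot _ _ _ T f h1 h2

section witt

variable {K : Type*} [Field K] [Algebra (KG p k d n) K] [IsFractionRing (KG p k d n) K]
  (O : ValuationSubring K) (hO : ∀ r : KG p k d n, algebraMap (KG p k d n) K r ∈ O)

/-- The inclusion of the polynomials in the valuation ring. -/
noncomputable def toO : KG p k d n →+* O := (algebraMap (KG p k d n) K).codRestrict O hO

include hO in
lemma charP_O : CharP O p := by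
  have : CharP K p := charP_of_injective_ringHom (IsFractionRing.injective (KG p k d n) K) p
  exact CharP.subring K p O.toSubring

include hO in
lemma perfect_O [CharP O p] : PerfectRing O p := by
  refine PerfectRing.ofSurjective O p fun x => ?_
  obtain ⟨a, b, hb, hab⟩ := IsFractionRing.div_surjective (A := KG p k d n) (x : K)
  obtain ⟨a', ha'⟩ := exists_root (p := p) a 1
  obtain ⟨b', hb'⟩ := exists_root (p := p) b 1
  rw [pow_one] at ha' hb'
  set r : K := algebraMap _ K a' / algebraMap _ K b' with hr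
  have hrp : r ^ p = (x : K) := by
    rw [hr, div_pow, ← map_pow, ← map_pow, ha', hb', hab]
  have hrO : r ∈ O := by
    rw [← ValuationSubring.valuation_le_one_iff]
    refine val_le_of_pow hp.out.ne_zero ?_
    rw [one_pow, ← map_pow, hrp, ValuationSubring.valuation_le_one_iff]
    exact x.2
  exact ⟨⟨r, hrO⟩, Subtype.ext (by simp [frobenius_def, hrp])⟩

/-- The valuation of `O` on the polynomials. -/
noncomputable def valO : Valuation (KG p k d n) O.ValueGroup :=
  O.valuation.comap (algebraMap (KG p k d n) K)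

include hO in
lemma valO_le_one (x : KG p k d n) : valO O x ≤ 1 :=
  (O.valuation_le_one_iff _).2 (hO x)

/-- The ideal of the Witt vectors cut out by `[Y] = p` and the small Teichmuller elements. -/
noncomputable def sIdeal (b : O.ValueGroup) : Ideal (WittVector p O) :=
  Ideal.span {WittVector.teichmuller p (toO O hO (AddMonoidAlgebra.single (exY p d n) 1)) -
      (p : WittVector p O)} ⊔
    Ideal.span (WittVector.teichmuller p '' {c : O | O.valuation (c : K) < b})

lemma dvd_of_constantCoeff_O [CharP O p] [PerfectRing O p] {x : WittVector p O}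
    (h : WittVector.constantCoeff x = 0) : (p : WittVector p O) ∣ x := by
  rw [← Ideal.mem_span_singleton, ← WittVector.ker_constantCoeff]
  exact h

/-- The coefficientwise Teichmuller map to the Witt vectors of `O`. -/
noncomputable def toW : AddMonoidAlgebra (WittVector p k) (Ex p d n) →+* WittVector p O :=
  AddMonoidAlgebra.liftNCRingHom
    (WittVector.map ((toO O hO).comp AddMonoidAlgebra.singleZeroRingHom))
    ((WittVector.teichmuller p).comp ((toO O hO).toMonoidHom.comp (AddMonoidAlgebra.of k (Ex p d n))))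
    fun _ _ => Commute.all _ _

lemma toW_single (g : Ex p d n) (w : WittVector p k) :
    toW O hO (AddMonoidAlgebra.single g w) =
      WittVector.map ((toO O hO).comp AddMonoidAlgebra.singleZeroRingHom) w *
        WittVector.teichmuller p (toO O hO (AddMonoidAlgebra.single g 1)) := by
  simp [toW, AddMonoidAlgebra.liftNCRingHom, AddMonoidAlgebra.of_apply]

variable [CharP O p] [PerfectRing O p]

lemma constantCoeff_toW (x : AddMonoidAlgebra (WittVector p k) (Ex p d n)) :
    WittVector.constantCoeff (toW O hO x) = toO O hO (qMap p k (Ex p d n) x) := by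
  induction x using AddMonoidAlgebra.induction_linear with
  | zero => simp
  | add a b ha hb => rw [map_add, map_add, map_add, map_add, ha, hb]
  | single g w =>
    rw [toW_single, map_mul, qMap_single, WittVector.constantCoeff_apply,
      WittVector.constantCoeff_apply, WittVector.teichmuller_coeff_zero, WittVector.map_coeff,
      RingHom.comp_apply, ← map_mul]
    congr 1
    simp [AddMonoidAlgebra.singleZeroRingHom, AddMonoidAlgebra.single_mul_single]

/-- The key consequence of 5a. -/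
theorem not_mem_sIdeal {a : KG p k d n} {b : O.ValueGroup} (hb : b ≤ valO O a)
    (h : WittVector.teichmuller p (toO O hO a) ∈ sIdeal O hO b) (m : ℕ) :
    valO O a ≤ valO O (AddMonoidAlgebra.single (exY p d n) (1 : k)) ^ m := by
  by_cases ha : valO O a = 0
  · rw [ha]; exact zero_le
  set c₀ : O := toO O hO a with hc₀
  have hc₀v : O.valuation (c₀ : K) = valO O a := rfl
  have hle : Ideal.span (WittVector.teichmuller p '' {c : O | O.valuation (c : K) < b}) ≤
      Ideal.span {WittVector.teichmuller p c₀} *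
        (IsLocalRing.maximalIdeal O).comap (WittVector.constantCoeff (p := p) (R := O)) := by
    rw [Ideal.span_le]
    rintro _ ⟨c, hc, rfl⟩
    have hlt : O.valuation (c : K) < O.valuation (c₀ : K) := hc.trans_le (hc₀v ▸ hb)
    have hmK : (c : K) / (c₀ : K) ∈ O := by
      rw [← ValuationSubring.valuation_le_one_iff, map_div₀, div_le_one₀ (zero_lt_iff.2 (hc₀v ▸ ha))]
      exact hlt.le
    have hc0 : (c₀ : K) ≠ 0 := fun h0 => ha (by rw [← hc₀v, h0, map_zero])
    have hcm : c = c₀ * ⟨(c : K) / c₀, hmK⟩ := Subtype.ext (by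
      show (c : K) = (c₀ : K) * ((c : K) / c₀)
      rw [mul_div_cancel₀ _ hc0])
    rw [SetLike.mem_coe, hcm, map_mul]
    refine Ideal.mul_mem_mul (Ideal.mem_span_singleton_self _) ?_
    rw [Ideal.mem_comap, WittVector.constantCoeff_apply, WittVector.teichmuller_coeff_zero,
      IsLocalRing.mem_maximalIdeal, mem_nonunits_iff]
    intro hu
    have h1 := (O.valuation_eq_one_iff _).1 hu
    rw [map_div₀, div_eq_one_iff_eq (fun h0 => ha (by rw [← hc₀v, h0]))] at h1
    exact hlt.ne h1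
  obtain ⟨s, hs, r, hr, hsr⟩ := Submodule.mem_sup.1 h
  obtain ⟨z, hz, rfl⟩ := Ideal.mem_span_singleton_mul.1 (hle hr)
  have hu : IsUnit (1 - z) := by
    refine isUnit_of_coeff_zero _ ?_
    rw [← WittVector.constantCoeff_apply, map_sub, map_one]
    exact IsLocalRing.isUnit_one_sub_self_of_mem_nonunits _ (Ideal.mem_comap.1 hz)
  have h2 : WittVector.teichmuller p c₀ ∈
      Ideal.span {WittVector.teichmuller p (toO O hO (AddMonoidAlgebra.single (exY p d n) 1)) -
        (p : WittVector p O)} := by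
    refine (Ideal.unit_mul_mem_iff_mem _ hu).1 ?_
    rw [show (1 - z) * WittVector.teichmuller p c₀ = s by
      linear_combination -hsr]
    exact hs
  obtain ⟨e, he⟩ := pow_dvd_of_teichmuller_mem h2 m
  rw [← hc₀v, he]
  push_cast
  rw [map_mul, map_pow]
  exact mul_le_of_le_one_right zero_le (O.valuation_le_one e)

/-- The value of the truncated ring in the quotient of the Witt vectors. -/
lemma exists_psi (hwt : ∀ v, 0 < wt v) (T : ℕ) (b : O.ValueGroup)
    (hT : ∀ g, (T : ℚ) ≤ exWt p wt g → valO O (AddMonoidAlgebra.single g 1 : KG p k d n) < b) :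
    ∃ ψ : PT p k wt (T : ℚ) →+* WittVector p O ⧸ sIdeal O hO b,
      ∀ x, ψ (teiPT p wt (T : ℚ) x) =
        Ideal.Quotient.mk _ (WittVector.teichmuller p (toO O hO x)) := by
  set q := Ideal.Quotient.mk (sIdeal O hO b) with hq
  set f := q.comp (toW O hO) with hf
  have hT' : ∀ g, (T : ℚ) ≤ exWt p wt g →
      q (WittVector.teichmuller p (toO O hO (AddMonoidAlgebra.single g 1))) = 0 := fun g hg =>
    Ideal.Quotient.eq_zero_iff_mem.2 (Ideal.mem_sup_right (Ideal.subset_span ⟨_, hT g hg, rfl⟩))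
  have hY : q (WittVector.teichmuller p (toO O hO (AddMonoidAlgebra.single (exY p d n) 1))) =
      q (p : WittVector p O) := by
    rw [← sub_eq_zero, ← map_sub]
    exact Ideal.Quotient.eq_zero_iff_mem.2 (Ideal.mem_sup_left (Ideal.mem_span_singleton_self _))
  have h1 : ∀ x ∈ relIdeal (p : WittVector p k) (exY p d n), f x = 0 := by
    intro x hx
    obtain ⟨c, rfl⟩ := Ideal.mem_span_singleton'.1 hx
    have : f (AddMonoidAlgebra.single (exY p d n) 1 -
        AddMonoidAlgebra.single 0 (p : WittVector p k)) = 0 := by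
      simp only [hf, RingHom.comp_apply, map_sub, toW_single, map_natCast, map_one, one_mul, hY]
      rw [show AddMonoidAlgebra.single (0 : Ex p d n) (1 : k) = 1 from rfl, map_one, map_one,
        mul_one, map_natCast, sub_self]
    rw [map_mul, this, mul_zero]
  obtain ⟨ψ, hψ'⟩ := exists_liftT (wt := wt) (T : ℚ) f
    (h1 _ (Ideal.subset_span rfl)) fun g hg => by
      simp only [hf, RingHom.comp_apply, toW_single, map_mul, hT' g hg, mul_zero]
  refine ⟨ψ, fun x => ?_⟩
  have hψ : ∀ z, ψ (toT (exWt p wt) (T : ℚ) z) = q (toW O hO z) := hψ'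
  obtain ⟨l, hl⟩ := qMap_surjective (p := p) (k := k) (Γ := Ex p d n) (rt (p := p) (depth (T : ℚ)) x)
  have hwY : (1 : ℚ) ≤ exWt p wt (exY p d n) := by
    rw [exWt_exY]; exact_mod_cast hwt none
  have hdepth := depth_spec (p := p) (k := k) (y := exY p d n) (wt := exWt p wt) (T : ℚ) hwY
  rw [teiPT, teiT, tei_eq (A := TRing p k (exY p d n) (exWt p wt) (T : ℚ)) _ _ _ qMap_surjective
    dvd_of_qMap_eq_zero hdepth hl, map_pow, hψ, ← map_pow, ← sub_eq_zero, ← map_sub]
  set D := depth (T : ℚ) with hD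
  have hcc : (p : WittVector p O) ∣ toW O hO l -
      WittVector.teichmuller p (toO O hO (rt (p := p) D x)) := by
    refine dvd_of_constantCoeff_O O ?_
    rw [map_sub, constantCoeff_toW, hl, WittVector.constantCoeff_apply,
      WittVector.teichmuller_coeff_zero, sub_self]
  have hdvd := dvd_sub_pow_of_dvd_sub hcc D
  rw [← map_pow (WittVector.teichmuller p), ← map_pow (toO O hO), rt_pow] at hdvd
  obtain ⟨e, he⟩ := hdvd
  rw [he, map_mul, map_pow, ← hY, ← map_pow, ← map_pow (WittVector.teichmuller p),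
    ← map_pow (toO O hO), AddMonoidAlgebra.single_pow, one_pow, hT' _ ?_, zero_mul]
  rw [map_nsmul, nsmul_eq_mul, hD, depth]
  push_cast
  calc (T : ℚ) ≤ ((⌈(T : ℚ)⌉₊ : ℕ) + 1 : ℚ) * 1 := by rw [mul_one, Nat.ceil_natCast]; linarith
    _ ≤ _ := mul_le_mul_of_nonneg_left hwY (by positivity)

include hO in
/-- 5c: the element `U` is at least as small as `D`, or its square is at least as small as `μ`. -/
theorem val_dichotomy (hwt : ∀ v, 0 < wt v) {T N : ℕ} (hN : 0 < N) (hTN : N ≤ T)
    (hdvd : ∀ i, wt i ∣ N) {μ : O.ValueGroup}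
    (hμ1 : μ < 1) (hμ : ∀ i, valO O (mVar p k wt N i) ≤ μ)
    {ι : Type*} [Fintype ι] (G : ι → KG p k d n) (hG : ∀ i, valO O (G i) ≤ μ) (U D : KG p k d n)
    (pf : ι → PT p k wt (T : ℚ)) (pu pd : PT p k wt (T : ℚ))
    (hf : ∀ i, ∃ x ∈ JPT p wt (T : ℚ) (G i) N, pf i - teiPT p wt (T : ℚ) (G i) = (p : PT p k wt _) * x)
    (hu : ∃ x ∈ JPT p wt (T : ℚ) U N, pu - teiPT p wt (T : ℚ) U = (p : PT p k wt _) * x)
    (hd : ∃ x ∈ JPT p wt (T : ℚ) D N, pd - teiPT p wt (T : ℚ) D = (p : PT p k wt _) * x)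
    (hrel : pu * (pd - pu) ∈ Ideal.span (Set.range pf)) :
    valO O U ≤ valO O D ∨ valO O U ^ 2 ≤ μ := by
  by_contra hcon
  push Not at hcon
  obtain ⟨hDU, hμU⟩ := hcon
  set b := valO O (U * U) with hb
  have hUU : b = valO O U * valO O U := by rw [hb, map_mul]
  have hμb : μ < b := by rw [hUU, ← pow_two]; exact hμU
  have hU0 : 0 < valO O U := zero_le.trans_lt hDU
  have hbU : b ≤ valO O U := by rw [hUU]; exact mul_le_of_le_one_left zero_le (valO_le_one O hO U)
  set Y : KG p k d n := AddMonoidAlgebra.single (exY p d n) 1 with hY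
  have hN0 : N / wt none ≠ 0 :=
    (Nat.div_pos (Nat.le_of_dvd hN (hdvd none)) (hwt none)).ne'
  have hMY : mVar p k wt N none = Y ^ (N / wt none) := by
    rw [hY, AddMonoidAlgebra.single_pow, one_pow, mVar, exY, Finsupp.smul_single]
    congr 2
    exact Subtype.ext (by simp [pDiv])
  have hY1 : valO O Y < 1 := by
    refine lt_of_le_of_ne (valO_le_one O hO Y) fun h1 => ?_
    have := hμ none
    rw [hMY, map_pow, h1, one_pow] at this
    exact absurd this (not_le.2 hμ1)
  have hTb : ∀ g, (T : ℚ) ≤ exWt p wt g → valO O (AddMonoidAlgebra.single g 1 : KG p k d n) < b :=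
    fun g hg => by
      refine lt_of_le_of_lt ?_ hμb
      have := val_single_pow (valO O) hμ1.le hμ hdvd (valO_le_one O hO) g 1 (S := 1) (t := 1)
        (by push_cast; rw [mul_one, one_mul]; exact le_trans (Nat.cast_le.2 hTN) hg) hN
      rwa [pow_one, pow_one] at this
  obtain ⟨ψ, hψ⟩ := exists_psi O hO hwt T b hTb
  set q := Ideal.Quotient.mk (sIdeal O hO b) with hq
  set tO : KG p k d n → WittVector p O ⧸ sIdeal O hO b :=
    fun x => q (WittVector.teichmuller p (toO O hO x)) with htO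
  have htO1 : ∀ x y, tO (x * y) = tO x * tO y := fun x y => by simp [htO]
  have hzero : ∀ x, valO O x < b → tO x = 0 := fun x hx =>
    Ideal.Quotient.eq_zero_iff_mem.2 (Ideal.mem_sup_right (Ideal.subset_span ⟨_, hx, rfl⟩))
  -- elements of value below `valO U`, resp. at most `valO U`
  set I₁ : AddSubmonoid (WittVector p O ⧸ sIdeal O hO b) :=
    AddSubmonoid.closure (tO '' {x | valO O x < valO O U}) with hI₁
  set I₂ : AddSubmonoid (WittVector p O ⧸ sIdeal O hO b) :=
    AddSubmonoid.closure (tO '' {x | valO O x ≤ valO O U}) with hI₂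
  have hI21 : ∀ y ∈ I₂, ∀ z ∈ I₁, y * z = 0 := by
    intro y hy z hz
    induction hy using AddSubmonoid.closure_induction with
    | mem y hy =>
      obtain ⟨x, hx, rfl⟩ := hy
      induction hz using AddSubmonoid.closure_induction with
      | mem z hz =>
        obtain ⟨x', hx', rfl⟩ := hz
        rw [← htO1]
        refine hzero _ ?_
        rw [map_mul, hUU]
        rcases eq_or_lt_of_le (zero_le (a := valO O x)) with h0 | h0
        · rw [← h0, zero_mul]; exact mul_pos hU0 hU0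
        · exact lt_of_lt_of_le (mul_lt_mul_of_pos_left hx' h0) (mul_le_mul' hx le_rfl)
      | zero => simp
      | add z z' _ _ hz hz' => rw [mul_add, hz, hz', add_zero]
    | zero => simp
    | add y y' _ _ hy hy' => rw [add_mul, hy, hy', add_zero]
  have hI12 : I₁ ≤ I₂ := AddSubmonoid.closure_mono (Set.image_mono fun x (hx : valO O x < _) => hx.le)
  have hpY : (p : WittVector p O ⧸ sIdeal O hO b) = tO Y := by
    simp only [htO]
    rw [← map_natCast ψ, ← hψ, hY, hL_tei (p := p) (k := k) hwt T]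
  have herr : ∀ G₀ : KG p k d n, ∀ B, valO O G₀ ≤ B → μ ≤ B → B ≤ valO O U →
      ∀ x ∈ JPT p wt (T : ℚ) G₀ N, (p : WittVector p O ⧸ sIdeal O hO b) * ψ x ∈
        AddSubmonoid.closure (tO '' {x | valO O x ≤ valO O Y * B}) := by
    intro G₀ B hG₀ hμB _ x hx
    induction hx using AddSubmonoid.closure_induction with
    | mem x hx =>
      obtain ⟨_, ⟨a, w, g, φ, rfl, hg, hφ, ha, haw⟩, rfl⟩ := hx
      refine AddSubmonoid.subset_closure ⟨Y * (g * φ), ?_, ?_⟩
      · show valO O (Y * (g * φ)) ≤ _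
        rw [map_mul]
        exact mul_le_mul' le_rfl
          (val_term_le (valO O) hμ1.le hμ hdvd (valO_le_one O hO) hg hφ ha haw hN hG₀ hμB)
      · rw [htO1, hψ, hpY]
    | zero => simp
    | add y z _ _ hy hz => rw [map_add, mul_add]; exact add_mem hy hz
  have hYU : valO O Y * valO O U < valO O U := mul_lt_of_lt_one_left hU0 hY1
  have hμU' : μ ≤ valO O U := hμb.le.trans hbU
  have hfz : ∀ i, ψ (pf i) = 0 := by
    intro i
    obtain ⟨x, hx, he⟩ := hf i
    have e : ψ (pf i) = tO (G i) + (p : WittVector p O ⧸ sIdeal O hO b) * ψ x := by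
      rw [sub_eq_iff_eq_add] at he
      rw [he, map_add, map_mul, map_natCast, hψ, add_comm]
    rw [e, hzero _ ((hG i).trans_lt hμb), zero_add]
    have hle : AddSubmonoid.closure (tO '' {x | valO O x ≤ valO O Y * μ}) ≤ ⊥ := by
      rw [AddSubmonoid.closure_le]
      rintro _ ⟨z, hz, rfl⟩
      exact AddSubmonoid.mem_bot.2
        (hzero z (lt_of_le_of_lt (hz.trans (mul_le_of_le_one_left zero_le hY1.le)) hμb))
    exact AddSubmonoid.mem_bot.1 (hle (herr (G i) μ (hG i) le_rfl hμU' x hx))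
  have hsmall : ∀ B, B ≤ valO O U →
      AddSubmonoid.closure (tO '' {x | valO O x ≤ valO O Y * B}) ≤ I₁ := fun B hB =>
    AddSubmonoid.closure_mono (Set.image_mono fun x (hx : valO O x ≤ _) =>
      lt_of_le_of_lt (hx.trans (mul_le_mul' le_rfl hB)) hYU)
  obtain ⟨xu, hxu, heu⟩ := hu
  obtain ⟨xd, hxd, hed⟩ := hd
  set eu := (p : WittVector p O ⧸ sIdeal O hO b) * ψ xu with heu'
  have hψu : ψ pu = tO U + eu := by
    rw [sub_eq_iff_eq_add] at heu
    rw [heu, map_add, map_mul, map_natCast, hψ, add_comm]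
  have hψd : ψ pd ∈ I₁ := by
    rw [sub_eq_iff_eq_add] at hed
    rw [hed, map_add, map_mul, map_natCast, hψ]
    exact add_mem (hsmall _ le_rfl (herr D (valO O U) hDU.le hμU' le_rfl xd hxd))
      (AddSubmonoid.subset_closure ⟨D, hDU, rfl⟩)
  have heu1 : eu ∈ I₁ := hsmall _ le_rfl (herr U _ le_rfl hμU' le_rfl xu hxu)
  have hu2 : ψ pu ∈ I₂ := by
    rw [hψu]
    exact add_mem (AddSubmonoid.subset_closure ⟨U, show valO O U ≤ valO O U from le_rfl, rfl⟩) (hI12 heu1)
  have h0 : ψ (pu * (pd - pu)) = 0 := by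
    have hmap := Ideal.mem_map_of_mem ψ hrel
    rw [Ideal.map_span, ← Set.range_comp] at hmap
    have hbot : Ideal.span (Set.range (ψ ∘ pf)) ≤ ⊥ := by
      rw [Ideal.span_le]
      rintro _ ⟨i, rfl⟩
      exact hfz i
    exact hbot hmap
  rw [mul_sub, map_sub, map_mul, map_mul, hI21 _ hu2 _ hψd, zero_sub, neg_eq_zero] at h0
  have hUU0 : tO (U * U) = 0 := by
    have e1 : tO U * eu = 0 := hI21 _ (AddSubmonoid.subset_closure ⟨U, show valO O U ≤ valO O U from le_rfl, rfl⟩) _ heu1
    have e2 : eu * eu = 0 := hI21 _ (hI12 heu1) _ heu1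
    rw [hψu] at h0
    rw [htO1]
    linear_combination h0 - 2 * e1 - e2
  have := not_mem_sIdeal O hO (a := U * U) (le_refl b) (Ideal.Quotient.eq_zero_iff_mem.1 hUU0)
    (N / wt none)
  rw [← map_pow, ← hY, ← hMY] at this
  exact absurd (this.trans (hμ none)) (not_le.2 hμb)

end witt

end Vale.Agent.P202
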