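import Vale.Agent.P202.InterfacesM2

/-!
M5 (helper10): weights on polynomials over `W(k)`, and the initial form modulo `Y ^ q = p`.
-/

universe u

namespace Vale.Agent.P202

open MvPolynomial

section wIdeal

variable {Ω : Type u} [CommRing Ω] {d n : ℕ} {wt : Vr d n → ℕ}

lemma m5_mem_wIdeal_iff {t : ℕ} {x : MvPolynomial (Vr d n) Ω} :
    x ∈ wIdeal Ω wt t ↔ ∀ γ, coeff γ x ≠ 0 → t ≤ Finsupp.weight wt γ := by
  classical
  constructor
  · intro hx
    unfold wIdeal at hx
    refine Submodule.span_induction ?_ ?_ ?_ ?_ hx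
    · rintro _ ⟨α, hα, rfl⟩ γ hγ
      rw [coeff_monomial] at hγ
      split_ifs at hγ with h
      · exact h ▸ hα
      · exact (hγ rfl).elim
    · simp
    · intro a b _ _ ha hb γ hγ
      by_cases h : coeff γ a = 0
      · exact hb γ (by simpa [coeff_add, h] using hγ)
      · exact ha γ h
    · intro r a _ ha γ hγ
      rw [smul_eq_mul, coeff_mul] at hγ
      obtain ⟨⟨α, β⟩, hab, hne⟩ := Finset.exists_ne_zero_of_sum_ne_zero hγ
      rw [Finset.HasAntidiagonal.mem_antidiagonal] at hab
      subst hab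
      rw [map_add]
      exact (ha β (right_ne_zero_of_mul hne)).trans (Nat.le_add_left _ _)
  · intro h
    rw [x.as_sum]
    refine Ideal.sum_mem _ fun γ hγ => ?_
    rw [show monomial γ (coeff γ x) = C (coeff γ x) * monomial γ 1 by rw [C_mul_monomial, mul_one]]
    exact Ideal.mul_mem_left _ _ (Ideal.subset_span ⟨γ, h γ (mem_support_iff.1 hγ), rfl⟩)

lemma m5_wIdeal_anti {s t : ℕ} (h : s ≤ t) : wIdeal Ω wt t ≤ wIdeal Ω wt s := fun _ hx =>
  m5_mem_wIdeal_iff.2 fun γ hγ => h.trans (m5_mem_wIdeal_iff.1 hx γ hγ)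

lemma m5_mem_wIdeal_zero (x : MvPolynomial (Vr d n) Ω) : x ∈ wIdeal Ω wt 0 :=
  m5_mem_wIdeal_iff.2 fun _ _ => Nat.zero_le _

lemma m5_wIdeal_mul {s t : ℕ} {x y : MvPolynomial (Vr d n) Ω} (hx : x ∈ wIdeal Ω wt s)
    (hy : y ∈ wIdeal Ω wt t) : x * y ∈ wIdeal Ω wt (s + t) := by
  classical
  refine m5_mem_wIdeal_iff.2 fun γ hγ => ?_
  rw [coeff_mul] at hγ
  obtain ⟨⟨α, β⟩, hab, hne⟩ := Finset.exists_ne_zero_of_sum_ne_zero hγ
  rw [Finset.HasAntidiagonal.mem_antidiagonal] at hab
  subst hab
  rw [map_add]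
  exact Nat.add_le_add (m5_mem_wIdeal_iff.1 hx α (left_ne_zero_of_mul hne))
    (m5_mem_wIdeal_iff.1 hy β (right_ne_zero_of_mul hne))

lemma m5_wIdeal_pow {s : ℕ} {x : MvPolynomial (Vr d n) Ω} (hx : x ∈ wIdeal Ω wt s) (m : ℕ) :
    x ^ m ∈ wIdeal Ω wt (m * s) := by
  induction m with
  | zero => simpa using m5_mem_wIdeal_zero (1 : MvPolynomial (Vr d n) Ω)
  | succ m ih => rw [pow_succ, add_one_mul]; exact m5_wIdeal_mul ih hx

lemma m5_mem_wIdeal_of_hom {t : ℕ} {x : MvPolynomial (Vr d n) Ω}
    (hx : IsWeightedHomogeneous wt x t) : x ∈ wIdeal Ω wt t :=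
  m5_mem_wIdeal_iff.2 fun _ hγ => (hx hγ).ge

lemma m5_sub_comp_mem {t : ℕ} {x : MvPolynomial (Vr d n) Ω} (hx : x ∈ wIdeal Ω wt t) :
    x - weightedHomogeneousComponent wt t x ∈ wIdeal Ω wt (t + 1) := by
  classical
  refine m5_mem_wIdeal_iff.2 fun γ hγ => ?_
  rw [coeff_sub, coeff_weightedHomogeneousComponent] at hγ
  split_ifs at hγ with h
  · simp at hγ
  · have := m5_mem_wIdeal_iff.1 hx γ (by simpa using hγ)
    omega

end wIdeal

section inp

variable {p : ℕ} [hp : Fact p.Prime] {k : Type u} [Field k] [CharP k p] {d n : ℕ}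

/-- The initial form of weight `t`, modulo `p`. -/
noncomputable def inp (wt : Vr d n → ℕ) (t : ℕ) :
    MvPolynomial (Vr d n) (WittVector p k) →+ MvPolynomial (Vr d n) k :=
  ((MvPolynomial.map (WittVector.constantCoeff (p := p) (R := k))).toAddMonoidHom).comp
    (weightedHomogeneousComponent wt t).toAddMonoidHom

variable {wt : Vr d n → ℕ}

lemma inp_apply (t : ℕ) (x : MvPolynomial (Vr d n) (WittVector p k)) :
    inp wt t x = MvPolynomial.map WittVector.constantCoeff (weightedHomogeneousComponent wt t x) :=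
  rfl

open Classical in
lemma coeff_inp (t : ℕ) (x : MvPolynomial (Vr d n) (WittVector p k)) (γ : Vr d n →₀ ℕ) :
    coeff γ (inp wt t x) =
      if Finsupp.weight wt γ = t then WittVector.constantCoeff (coeff γ x) else 0 := by
  rw [inp_apply, coeff_map, coeff_weightedHomogeneousComponent]
  split_ifs <;> simp

lemma inp_isHom (t : ℕ) (x : MvPolynomial (Vr d n) (WittVector p k)) :
    IsWeightedHomogeneous wt (inp wt t x) t := by
  classical
  intro γ hγ
  rw [coeff_inp] at hγ
  split_ifs at hγ with h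
  · exact h
  · exact (hγ rfl).elim

lemma inp_eq_zero_of_mem {t : ℕ} {x : MvPolynomial (Vr d n) (WittVector p k)}
    (hx : x ∈ wIdeal (WittVector p k) wt (t + 1)) : inp wt t x = 0 := by
  classical
  ext γ
  rw [coeff_inp, coeff_zero]
  split_ifs with h
  · by_contra hne
    have := m5_mem_wIdeal_iff.1 hx γ (fun h0 => hne (by rw [h0, map_zero]))
    omega
  · rfl

lemma inp_mul {s t : ℕ} {x y : MvPolynomial (Vr d n) (WittVector p k)} (hx : x ∈ wIdeal (WittVector p k) wt s)
    (hy : y ∈ wIdeal (WittVector p k) wt t) : inp wt (s + t) (x * y) = inp wt s x * inp wt t y := by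
  have hxs := m5_sub_comp_mem hx
  have hyt := m5_sub_comp_mem hy
  have hcx := weightedHomogeneousComponent_isWeightedHomogeneous (w := wt) s x
  have hcy := weightedHomogeneousComponent_isWeightedHomogeneous (w := wt) t y
  set x' := x - weightedHomogeneousComponent wt s x with hx'
  set y' := y - weightedHomogeneousComponent wt t y with hy'
  have h1 : x * y - weightedHomogeneousComponent wt s x * weightedHomogeneousComponent wt t y ∈
      wIdeal (WittVector p k) wt (s + t + 1) := by
    rw [show x * y - weightedHomogeneousComponent wt s x * weightedHomogeneousComponent wt t y =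
      x' * y + weightedHomogeneousComponent wt s x * y' by rw [hx', hy']; ring]
    exact add_mem (m5_wIdeal_anti (by omega) (m5_wIdeal_mul hxs hy))
      (m5_wIdeal_anti (by omega) (m5_wIdeal_mul (m5_mem_wIdeal_of_hom hcx) hyt))
  have h2 := inp_eq_zero_of_mem h1
  rw [map_sub, sub_eq_zero] at h2
  rw [h2, inp_apply, (hcx.mul hcy).weightedHomogeneousComponent_same, map_mul]
  rfl

lemma inp_pow {s : ℕ} {x : MvPolynomial (Vr d n) (WittVector p k)} (hx : x ∈ wIdeal (WittVector p k) wt s) (m : ℕ) :
    inp wt (m * s) (x ^ m) = inp wt s x ^ m := by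
  induction m with
  | zero =>
    rw [zero_mul, pow_zero, pow_zero, inp_apply,
      (isWeightedHomogeneous_one _ wt).weightedHomogeneousComponent_same, map_one]
  | succ m ih =>
    rw [pow_succ, pow_succ, add_one_mul, inp_mul (m5_wIdeal_pow hx m) hx, ih]

lemma exists_lift_hom {t : ℕ} {F : MvPolynomial (Vr d n) k} (hF : IsWeightedHomogeneous wt F t) :
    IsWeightedHomogeneous wt (liftL p F) t ∧ inp wt t (liftL p F) = F := by
  classical
  have h : IsWeightedHomogeneous wt (liftL p F) t :=
    IsWeightedHomogeneous.sum _ _ t fun γ hγ =>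
      isWeightedHomogeneous_monomial wt γ _ (hF (mem_support_iff.1 hγ))
  refine ⟨h, ?_⟩
  rw [inp_apply, h.weightedHomogeneousComponent_same, liftL, map_sum]
  conv_rhs => rw [F.as_sum]
  refine Finset.sum_congr rfl fun γ _ => ?_
  rw [map_monomial, WittVector.constantCoeff_apply, WittVector.teichmuller_coeff_zero]

variable [PerfectRing k p]

lemma m5_dvd_of_constantCoeff {a : (WittVector p k)} (h : WittVector.constantCoeff a = 0) :
    (p : (WittVector p k)) ∣ a := by
  rw [← Ideal.mem_span_singleton, ← WittVector.ker_constantCoeff]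
  exact h

/-- The relation `Y ^ q - p`. -/
noncomputable def yRel (p : ℕ) [Fact p.Prime] (k : Type u) [CommRing k] (d n q : ℕ) :
    MvPolynomial (Vr d n) (WittVector p k) :=
  X none ^ q - C (p : WittVector p k)

/-- A vanishing initial form raises the weight modulo `Y ^ q = p`. -/
lemma mem_of_inp_eq_zero {q t : ℕ} (hq : 0 < q) (hY : 0 < wt none)
    {x : MvPolynomial (Vr d n) (WittVector p k)} (hx : x ∈ wIdeal (WittVector p k) wt t) (h : inp wt t x = 0) :
    x ∈ wIdeal (WittVector p k) wt (t + 1) ⊔ Ideal.span {yRel p k d n q} := by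
  classical
  have hd : C (p : (WittVector p k)) ∣ weightedHomogeneousComponent wt t x := by
    rw [C_dvd_iff_dvd_coeff]
    intro γ
    apply m5_dvd_of_constantCoeff
    have := congrArg (coeff γ) h
    rwa [inp_apply, coeff_map, coeff_zero] at this
  obtain ⟨z, hz⟩ := hd
  have hzt : z ∈ wIdeal (WittVector p k) wt t := by
    refine m5_mem_wIdeal_iff.2 fun γ hγ => ?_
    refine (weightedHomogeneousComponent_isWeightedHomogeneous (w := wt) t x ?_).ge
    rw [hz, coeff_C_mul]
    exact mul_ne_zero (by simpa using (WittVector.p_nonzero p k)) hγ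
  have hpow : (X none ^ q : MvPolynomial (Vr d n) (WittVector p k)) ∈ wIdeal (WittVector p k) wt 1 := by
    refine m5_wIdeal_anti (Nat.mul_pos hq hY) ?_
    exact m5_wIdeal_pow (m5_mem_wIdeal_of_hom (isWeightedHomogeneous_X (WittVector p k) wt none)) q
  have hxe : x = (x - weightedHomogeneousComponent wt t x + X none ^ q * z) + (-z) * yRel p k d n q :=
    by rw [hz, yRel]; ring
  rw [hxe]
  refine Submodule.add_mem_sup (add_mem (m5_sub_comp_mem hx) ?_)
    (Ideal.mul_mem_left _ _ (Ideal.mem_span_singleton_self _))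
  rw [add_comm t 1]
  exact m5_wIdeal_mul hpow hzt

/-- The initial form is well defined modulo `Y ^ q = p`. -/
lemma inp_eq_zero_of_sup {q t : ℕ} (hq : 0 < q) (hY : 0 < wt none)
    {x : MvPolynomial (Vr d n) (WittVector p k)} (hx : x ∈ wIdeal (WittVector p k) wt t)
    (h : x ∈ wIdeal (WittVector p k) wt (t + 1) ⊔ Ideal.span {yRel p k d n q}) : inp wt t x = 0 := by
  classical
  obtain ⟨y, hy, w, hw, rfl⟩ := Submodule.mem_sup.1 h
  obtain ⟨z, rfl⟩ := Ideal.mem_span_singleton.1 hw
  have hy0 : ∀ γ, Finsupp.weight wt γ ≤ t → coeff γ y = 0 := fun γ hγ => by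
    by_contra hne
    have := m5_mem_wIdeal_iff.1 hy γ hne
    omega
  have hco : ∀ γ, coeff γ (yRel p k d n q * z) =
      (if Finsupp.single none q ≤ γ then coeff (γ - Finsupp.single none q) z else 0) -
        (p : (WittVector p k)) * coeff γ z := fun γ => by
    rw [yRel, sub_mul, coeff_sub, coeff_C_mul, X_pow_eq_monomial, coeff_monomial_mul', one_mul]
  have hwt : ∀ γ : Vr d n →₀ ℕ, Finsupp.single none q ≤ γ →
      Finsupp.weight wt (γ - Finsupp.single none q) < Finsupp.weight wt γ := fun γ hγ => by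
    conv_rhs => rw [← tsub_add_cancel_of_le hγ, map_add]
    rw [Finsupp.weight_single, smul_eq_mul]
    have := Nat.mul_pos hq hY
    omega
  have hz0 : ∀ N γ, Finsupp.weight wt γ ≤ N → N < t → coeff γ z = 0 := by
    intro N
    induction N using Nat.strong_induction_on with
    | _ N ih =>
      intro γ hγ hN
      have h1 : coeff γ (y + yRel p k d n q * z) = 0 := by
        by_contra hne
        have := m5_mem_wIdeal_iff.1 hx γ hne
        omega
      rw [coeff_add, hy0 γ (by omega), zero_add, hco] at h1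
      have h2 : (if Finsupp.single none q ≤ γ then coeff (γ - Finsupp.single none q) z else 0) = 0 := by
        split_ifs with hle
        · have := hwt γ hle
          exact ih _ (by omega : Finsupp.weight wt (γ - Finsupp.single none q) < N) _ le_rfl (by omega)
        · rfl
      rw [h2, zero_sub, neg_eq_zero] at h1
      exact (mul_eq_zero.1 h1).resolve_left (WittVector.p_nonzero p k)
  ext γ
  rw [coeff_inp, coeff_zero]
  split_ifs with hγ
  · rw [coeff_add, hy0 γ hγ.le, zero_add, hco]
    have h2 : (if Finsupp.single none q ≤ γ then coeff (γ - Finsupp.single none q) z else 0) = 0 := by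
      split_ifs with hle
      · have := hwt γ hle
        exact hz0 _ _ le_rfl (by omega)
      · rfl
    rw [h2, zero_sub, map_neg, map_mul, map_natCast, CharP.cast_eq_zero, zero_mul, neg_zero]
  · rfl

end inp

end Vale.Agent.P202
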