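import Vale.Agent.P202.InterfacesBand2
import Vale.Agent.P202.MFMonicFree

/-!
# P202, mixed characteristic: coordinates on the band ring (BLUEPRINT_BAND, section 3)
-/

set_option linter.style.header false
set_option linter.unusedSectionVars false
set_option linter.style.haveILetI false

universe u

namespace Vale.Agent.P202

open IsLocalRing MvPolynomial

section nf

variable {k : Type u} [CommRing k] {d n : ℕ} {wt : Vr d n → ℕ} (hwt : ∀ x, 0 < wt x)
  {deg : Hv n → ℕ} (hdeg : ∀ v, 0 < deg v) {F : Hv n → MvPolynomial (Vr d n) k}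
  (hF : ∀ v, IsWeightedHomogeneous wt (F v) (deg v * wt (hVar v)))
  (hF' : ∀ v, F v - X (hVar v) ^ deg v ∈ Ideal.span (Set.range fun l : Fin d =>
    (X (some (Sum.inl l)) : MvPolynomial (Vr d n) k)))

include hwt hdeg hF hF'

lemma mfNF_unique {P : MvPolynomial (Vr d n) k} (hP : ∀ γ ∈ P.support, ∀ v, γ (hVar v) < deg v)
    (h : P ∈ Ideal.span (Set.range F)) : P = 0 := by
  classical
  obtain ⟨c, hc⟩ := (Submodule.mem_span_range_iff_exists_fun _).1 h
  choose c' hc' using fun v => mfPsi_surjective hwt hF hF' (c v)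
  have hfix : mfPsi deg F P = P := by
    conv_lhs => rw [as_sum P, map_sum]
    conv_rhs => rw [as_sum P]
    refine Finset.sum_congr rfl fun γ hγ => ?_
    rw [show monomial γ (coeff γ P) = coeff γ P • monomial γ (1 : k) by
      rw [smul_monomial, smul_eq_mul, mul_one], map_smul, mfPsi_fix (hP γ hγ)]
  have heq : P = ∑ v, c' v * monomial (mfD deg v) 1 := by
    apply mfPsi_injective hwt hF hF'
    rw [hfix, map_sum, ← hc]
    exact Finset.sum_congr rfl fun v _ => by rw [mfPsi_mul hdeg, hc', smul_eq_mul]
  ext γ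
  rw [coeff_zero]
  by_contra hne
  apply hne
  rw [heq, coeff_sum]
  refine Finset.sum_eq_zero fun v _ => ?_
  rw [coeff_mul_monomial', if_neg]
  intro hle
  have h1 := hle (hVar v)
  rw [mfD, Finsupp.single_eq_same] at h1
  have := hP γ (mem_support_iff.2 hne) v
  omega

lemma mfNF_exists {u : ℕ} {H : MvPolynomial (Vr d n) k} (hH : IsWeightedHomogeneous wt H u) :
    ∃ P, IsWeightedHomogeneous wt P u ∧ (∀ γ ∈ P.support, ∀ v, γ (hVar v) < deg v) ∧
      H - P ∈ Ideal.span (Set.range F) := by
  classical
  obtain ⟨H', hH', rfl⟩ := mfPsi_surj hwt hF hF' 0 u (H := H) (by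
    rw [mem_restrictSupport_iff]
    intro γ hγ
    show Finsupp.weight wt γ + 0 = u
    rw [Nat.add_zero]
    exact hH (mem_support_iff.1 (Finset.mem_coe.1 hγ)))
  rw [mem_restrictSupport_iff] at hH'
  refine ⟨∑ γ ∈ H'.support.filter (fun γ => ∀ v, γ (hVar v) < deg v),
    monomial γ (coeff γ H'), ?_, ?_, ?_⟩
  · refine IsWeightedHomogeneous.sum _ _ _ fun γ hγ => ?_
    refine isWeightedHomogeneous_monomial wt _ _ ?_
    simpa using hH' (Finset.mem_coe.2 (Finset.mem_filter.1 hγ).1)
  · intro γ hγ
    obtain ⟨δ, hδ, h⟩ := Finset.mem_biUnion.1 (support_sum hγ)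
    rw [Finset.mem_singleton.1 (support_monomial_subset h)]
    exact (Finset.mem_filter.1 hδ).2
  · rw [show mfPsi deg F H' = ∑ γ ∈ H'.support, mfPsi deg F (monomial γ (coeff γ H')) by
      rw [← map_sum, ← as_sum]]
    rw [← Finset.sum_filter_add_sum_filter_not H'.support (fun γ => ∀ v, γ (hVar v) < deg v),
      add_sub_right_comm, ← Finset.sum_sub_distrib, Finset.sum_eq_zero, zero_add]
    · refine Ideal.sum_mem _ fun γ hγ => ?_
      obtain ⟨-, hγ'⟩ := Finset.mem_filter.1 hγ
      push Not at hγ'
      obtain ⟨v, hv⟩ := hγ'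
      have hle : (mfD deg v : Vr d n →₀ ℕ) ≤ γ := by
        intro x
        rw [mfD]
        by_cases hx : x = hVar v
        · subst hx; rw [Finsupp.single_eq_same]; exact hv
        · rw [Finsupp.single_eq_of_ne hx]; exact Nat.zero_le _
      rw [show monomial γ (coeff γ H') =
          monomial (γ - mfD deg v) (coeff γ H') * monomial (mfD deg v) 1 by
        rw [monomial_mul, mul_one, tsub_add_cancel_of_le hle], mfPsi_mul hdeg]
      exact Ideal.mul_mem_left _ _ (Ideal.subset_span ⟨v, rfl⟩)
    · intro γ hγ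
      rw [show monomial γ (coeff γ H') = coeff γ H' • monomial γ (1 : k) by
        rw [smul_monomial, smul_eq_mul, mul_one], map_smul,
        mfPsi_fix (Finset.mem_filter.1 hγ).2, sub_self]

end nf

section lengths

variable {R : Type u} [CommRing R] [IsLocalRing R] {Lb : Type u} [CommRing Lb]
  {κ : Type u} [Field κ]

/-- Lengths over `R` and over a ring whose residue field `κ` has degree `c` over that of `R`. -/
lemma length_eq_mul_of_residue (F1 : Ideal Lb) (res : Lb →+* κ) (hres : ∀ z, res z = 0 ↔ z ∈ F1)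
    (hsurj : Function.Surjective res) (J : Ideal Lb) (χ : R →+* Lb ⧸ J) (e : R →+* κ)
    (he : ∀ r, ∀ z, χ r = Ideal.Quotient.mk J z → (z ∈ F1 ↔ r ∈ maximalIdeal R))
    (hχe : ∀ r z, χ r = Ideal.Quotient.mk J z → res z = e r)
    (hJ : J ≤ F1) (hnil : ∀ f ∈ F1, ∃ N : ℕ, f ^ N ∈ J) {c : ℕ} (bas : Fin c → κ)
    (hbas : ∀ a : κ, ∃! r : Fin c → ResidueField R,
      ∃ r' : Fin c → R, (∀ i, residue R (r' i) = r i) ∧ a = ∑ i, e (r' i) * bas i)
    (M : Type u) [AddCommGroup M] [Module R M] [Module Lb M]
    (hM : ∀ (r : R) (z : Lb), χ r = Ideal.Quotient.mk J z → ∀ v : M, r • v = z • v)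
    (hJM : ∀ z ∈ J, ∀ v : M, z • v = 0) :
    Module.length R M = c * Module.length Lb M := by
  classical
  let _ : Algebra R (Lb ⧸ J) := χ.toAlgebra
  have htors : Module.IsTorsionBySet Lb M (J : Set Lb) := fun v z => hJM z z.2 v
  letI : Module (Lb ⧸ J) M := htors.module
  have hmk : ∀ (z : Lb) (v : M), Ideal.Quotient.mk J z • v = z • v := fun z v => rfl
  haveI : IsScalarTower R (Lb ⧸ J) M := ⟨fun r y v => by
    obtain ⟨z, rfl⟩ := Ideal.Quotient.mk_surjective y
    obtain ⟨z', hz'⟩ := Ideal.Quotient.mk_surjective (χ r)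
    rw [Algebra.smul_def, RingHom.algebraMap_toAlgebra, ← hz', ← map_mul, hmk, hmk,
      hM r z' hz'.symm, mul_smul]⟩
  let resQ : Lb ⧸ J →+* κ := Ideal.Quotient.lift J res fun z hz => (hres z).2 (hJ hz)
  have hunit : ∀ y : Lb ⧸ J, resQ y ≠ 0 → IsUnit y := by
    intro y hy
    obtain ⟨z, rfl⟩ := Ideal.Quotient.mk_surjective y
    obtain ⟨w, hw⟩ := hsurj (res z)⁻¹
    have hf : 1 - z * w ∈ F1 := by
      rw [← hres, map_sub, map_one, map_mul, hw]
      change res z ≠ 0 at hy
      rw [mul_inv_cancel₀ hy, sub_self]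
    obtain ⟨N, hN⟩ := hnil _ hf
    have hn : IsNilpotent (Ideal.Quotient.mk J (1 - z * w)) :=
      ⟨N, by rw [← map_pow, Ideal.Quotient.eq_zero_iff_mem]; exact hN⟩
    have := hn.isUnit_one_sub
    rw [map_sub, map_one, sub_sub_cancel, map_mul] at this
    exact isUnit_of_mul_isUnit_left this
  haveI : Nontrivial (Lb ⧸ J) := by
    refine ⟨⟨0, 1, fun h => ?_⟩⟩
    have := congrArg resQ h
    rw [map_zero, map_one] at this
    exact zero_ne_one this
  haveI : IsLocalRing (Lb ⧸ J) := IsLocalRing.of_nonunits_add fun a b ha hb => by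
    rw [mem_nonunits_iff] at ha hb ⊢
    intro hab
    have ha' : resQ a = 0 := by_contra fun h => ha (hunit a h)
    have hb' : resQ b = 0 := by_contra fun h => hb (hunit b h)
    have := hab.map resQ
    rw [map_add, ha', hb', add_zero] at this
    exact not_isUnit_zero this
  have hmem : ∀ y : Lb ⧸ J, y ∈ maximalIdeal (Lb ⧸ J) ↔ resQ y = 0 := fun y => by
    rw [IsLocalRing.mem_maximalIdeal, mem_nonunits_iff]
    exact ⟨fun h => by_contra fun h' => h (hunit y h'),
      fun h hu => not_isUnit_zero (h ▸ hu.map resQ)⟩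
  haveI : IsLocalHom (algebraMap R (Lb ⧸ J)) := ⟨fun r hr => by
    by_contra h
    obtain ⟨z, hz⟩ := Ideal.Quotient.mk_surjective (χ r)
    have h1 : z ∈ F1 := (he r z hz.symm).2 h
    rw [RingHom.algebraMap_toAlgebra, ← hz] at hr
    have := hr.map resQ
    exact not_isUnit_zero ((hres z).2 h1 ▸ this)⟩
  -- the residue field
  let ψ : ResidueField (Lb ⧸ J) →+* κ :=
    Ideal.Quotient.lift (maximalIdeal (Lb ⧸ J)) resQ fun y hy => (hmem y).1 hy
  have hψr : ∀ r : R, ψ (algebraMap (ResidueField R) (ResidueField (Lb ⧸ J)) (residue R r)) =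
      e r := by
    intro r
    obtain ⟨z, hz⟩ := Ideal.Quotient.mk_surjective (χ r)
    rw [show algebraMap (ResidueField R) (ResidueField (Lb ⧸ J)) (residue R r) =
      residue (Lb ⧸ J) (χ r) from rfl, ← hz]
    exact hχe r z hz.symm
  have hψs : Function.Surjective ψ := fun a => by
    obtain ⟨z, rfl⟩ := hsurj a
    exact ⟨residue _ (Ideal.Quotient.mk J z), rfl⟩
  choose bz hbz using fun i => hψs (bas i)
  let φ : (Fin c → ResidueField R) →ₗ[ResidueField R] ResidueField (Lb ⧸ J) :=
    Fintype.linearCombination (ResidueField R) bz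
  have hψφ : ∀ r : Fin c → R, ψ (φ fun i => residue R (r i)) = ∑ i, e (r i) * bas i := by
    intro r
    simp only [φ, Fintype.linearCombination_apply, map_sum, Algebra.smul_def, map_mul, hψr, hbz]
  have hφ : Function.Bijective φ := by
    constructor
    · intro r s hrs
      choose r' hr' using fun i => residue_surjective (R := R) (r i)
      choose s' hs' using fun i => residue_surjective (R := R) (s i)
      obtain ⟨r₀, -, huniq⟩ := hbas (ψ (φ r))
      have h1 : r = r₀ := huniq r ⟨r', hr', by rw [← hψφ, show (fun i => residue R (r' i)) = r from funext hr']⟩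
      have h2 : s = r₀ := huniq s ⟨s', hs', by rw [hrs, ← hψφ, show (fun i => residue R (s' i)) = s from funext hs']⟩
      rw [h1, h2]
    · intro a
      obtain ⟨r₀, ⟨r', hr', ha⟩, -⟩ := hbas (ψ a)
      refine ⟨r₀, RingHom.injective ψ ?_⟩
      rw [ha, ← hψφ, show (fun i => residue R (r' i)) = r₀ from funext hr']
  have hκ : Module.length (ResidueField R) (ResidueField (Lb ⧸ J)) = c := by
    rw [← (LinearEquiv.ofBijective φ hφ).length_eq, Module.length_eq_finrank,
      Module.finrank_fintype_fun_eq_card, Fintype.card_fin]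
  haveI : IsScalarTower Lb (Lb ⧸ J) M := ⟨fun z y v => by
    obtain ⟨w, rfl⟩ := Ideal.Quotient.mk_surjective y
    rw [Algebra.smul_def, Ideal.Quotient.algebraMap_eq, ← map_mul, hmk, hmk, mul_smul]⟩
  rw [IsLocalRing.length_restrictScalars R (Lb ⧸ J) M, hκ, mul_comm]
  congr 1
  exact (Module.length_eq_of_surjective (S := Lb) (R := Lb ⧸ J) Ideal.Quotient.mk_surjective).symm

end lengths

namespace Band

variable {p : ℕ} [Fact p.Prime] {R : Type u} [CommRing R] [IsLocalRing R] {k : Type u} [Field k]
  [CharP k p] [PerfectRing k p] {A : Type u} [CommRing A] [Algebra R A]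
  [Algebra (WittVector p k) A] {d : ℕ} {x : Fin d → A} {b : ℕ} {G : ℕ → Ideal A}
  {CI : CIData p k A x b G} {ι : ResidueField R →+* k} {i j K : ℕ}
  (B : Band p R CI ι i j K)

lemma lift_zero_mem (N : ℕ) : B.lift 0 ∈ B.Fil (N + 1) := by
  have := B.lift_add N 0 0 (isWeightedHomogeneous_zero _ _ _) (isWeightedHomogeneous_zero _ _ _)
  rw [add_zero, sub_sub, sub_add_cancel_left] at this
  exact neg_mem_iff.1 this

lemma lift_sub_mem (N : ℕ) {P P' : MvPolynomial (Vr d CI.n) B.κ}
    (hP : IsWeightedHomogeneous CI.wt P N) (hP' : IsWeightedHomogeneous CI.wt P' N) :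
    B.lift P - B.lift P' - B.lift (P - P') ∈ B.Fil (N + 1) := by
  have := B.lift_add N (P - P') P' ?_ hP'
  · rw [sub_add_cancel] at this
    have e : B.lift P - B.lift P' - B.lift (P - P') =
        B.lift P - B.lift (P - P') - B.lift P' := by ring
    rwa [e]
  · intro γ hγ
    rw [coeff_sub] at hγ
    by_cases h : coeff γ P = 0
    · exact hP' (by simpa [h] using hγ)
    · exact hP h

end Band

theorem goalBandCoord : GoalBandCoord.{u} := by
  intro p _ R _ _ _ k _ _ _ A _ _ _ _ _ d xR b G ι e hctx CI i j K B hrich hK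
  classical
  have hm : 0 < B.mm := pow_pos (Fact.out : p.Prime).pos _
  -- the expanded roots of the forms over `κ`
  have hF0 : ∀ v, ∃ F₀ : MvPolynomial (Vr d CI.n) B.κ,
      F₀.map B.κ.subtype = rootPoly p j (CI.F v) := fun v => by
    have h : rootPoly p j (CI.F v) ∈ RingHom.range (MvPolynomial.map (σ := Vr d CI.n)
        B.κ.subtype) := by
      rw [← SetLike.mem_coe, RingHom.coe_range, mem_range_map_iff_coeffs_subset]
      intro a ha
      obtain ⟨γ, -, rfl⟩ := mem_coeffs_iff.1 ha
      exact ⟨⟨_, hrich v γ⟩, rfl⟩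
    exact h
  choose F₀ hF₀ using hF0
  have hinj : Function.Injective (MvPolynomial.map (σ := Vr d CI.n) B.κ.subtype) :=
    map_injective _ Subtype.coe_injective
  have hroot : ∀ v γ, coeff γ (F₀ v) ≠ 0 → coeff γ (CI.F v) ≠ 0 := fun v γ h h0 => by
    apply h
    apply Subtype.coe_injective
    have := congrArg (coeff γ) (hF₀ v)
    rw [coeff_map, rootPoly, coeff_map, h0, map_zero] at this
    simpa using this
  set deg' : Hv CI.n → ℕ := fun v => B.mm * CI.deg v with hdeg'
  set F' : Hv CI.n → MvPolynomial (Vr d CI.n) B.κ := fun v => expand B.mm (F₀ v) with hF'def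
  have hsupp : ∀ v, ∀ δ ∈ (F' v).support, ∃ γ, δ = B.mm • γ ∧ coeff γ (CI.F v) ≠ 0 := by
    intro v δ hδ
    obtain ⟨γ, hγ, rfl⟩ := Finset.mem_image.1 (support_expand_subset _ hδ)
    exact ⟨γ, rfl, hroot v γ (mem_support_iff.1 hγ)⟩
  have hFhom : ∀ v, IsWeightedHomogeneous CI.wt (F' v) (deg' v * CI.wt (hVar v)) := fun v δ hδ => by
    obtain ⟨γ, rfl, hγ⟩ := hsupp v δ (mem_support_iff.2 hδ)
    rw [map_nsmul, (CI.f_init v).1 hγ, smul_eq_mul, hdeg', mul_assoc]
  have hmonic : ∀ v, F' v - X (hVar v) ^ deg' v ∈ Ideal.span (Set.range fun l : Fin d =>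
      (X (some (Sum.inl l)) : MvPolynomial (Vr d CI.n) B.κ)) := by
    intro v
    have h1 : CI.F v - X (hVar v) ^ CI.deg v ∈
        Ideal.span (X '' Set.range fun l : Fin d => (some (Sum.inl l) : Vr d CI.n)) := by
      rw [← Set.range_comp]
      exact CI.F_monic v
    rw [mem_ideal_span_X_image] at h1
    have h2 : F₀ v - X (hVar v) ^ CI.deg v ∈
        Ideal.span (X '' Set.range fun l : Fin d => (some (Sum.inl l) : Vr d CI.n)) := by
      rw [mem_ideal_span_X_image]
      intro δ hδ
      refine h1 δ (mem_support_iff.2 fun h0 => mem_support_iff.1 hδ (Subtype.coe_injective ?_))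
      have := congrArg (coeff δ) (hF₀ v)
      rw [coeff_map, rootPoly, coeff_map] at this
      rw [coeff_sub, X_pow_eq_monomial, coeff_monomial, sub_eq_zero] at h0
      change B.κ.subtype (coeff δ (F₀ v - X (hVar v) ^ CI.deg v)) = B.κ.subtype 0
      rw [coeff_sub, X_pow_eq_monomial, coeff_monomial, map_sub, this, h0, map_zero]
      split_ifs <;> simp
    have h3 := Ideal.mem_map_of_mem (expand (σ := Vr d CI.n) (R := B.κ) B.mm).toRingHom h2
    rw [AlgHom.toRingHom_eq_coe, RingHom.coe_coe, map_sub, map_pow, expand_X, ← pow_mul] at h3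
    refine SetLike.le_def.1 ?_ h3
    rw [Ideal.map_span, Ideal.span_le, ← Set.image_comp, ← Set.range_comp]
    rintro _ ⟨l, rfl⟩
    simp only [Function.comp_apply, RingHom.coe_coe, expand_X]
    exact Ideal.pow_mem_of_mem _ (Ideal.subset_span (Set.mem_range_self l)) _ hm
  have hdpos : ∀ v, 0 < deg' v := fun v => Nat.mul_pos hm (CI.deg_pos v)
  have hmapF : ∀ v, (F' v).map B.κ.subtype =
      expand (p ^ (B.jq - j)) (rootPoly p j (CI.F v)) := fun v => by
    rw [hF'def, map_expand, hF₀]
    rfl
  have hmapspan : ∀ H ∈ Ideal.span (Set.range F'), H.map B.κ.subtype ∈ Ideal.span (Set.range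
      fun v => expand (p ^ (B.jq - j)) (rootPoly p j (CI.F v))) := by
    intro H hH
    have := Ideal.mem_map_of_mem (MvPolynomial.map (σ := Vr d CI.n) B.κ.subtype) hH
    rwa [Ideal.map_span, ← Set.range_comp,
      show (MvPolynomial.map B.κ.subtype) ∘ F' = _ from funext hmapF] at this
  -- constants are detected by the first level
  have hconst : ∀ a : B.κ, B.lift (C a) ∈ B.Fil 1 → a = 0 := by
    intro a ha
    have h := (B.lift_ker 0 (C a) (isWeightedHomogeneous_C _ _)).1 (by simpa using ha)
    have hle : Ideal.span (Set.range fun v => expand (p ^ (B.jq - j)) (rootPoly p j (CI.F v))) ≤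
        RingHom.ker (constantCoeff : MvPolynomial (Vr d CI.n) k →+* k) := by
      rw [Ideal.span_le]
      rintro _ ⟨v, rfl⟩
      rw [SetLike.mem_coe, RingHom.mem_ker]
      dsimp only
      rw [← hmapF, constantCoeff_eq, coeff_map]
      have : coeff 0 (F' v) = 0 := by
        by_contra h0
        have := hFhom v h0
        rw [map_zero] at this
        exact (Nat.mul_pos (hdpos v) (CI.wt_pos _)).ne this
      rw [this, map_zero]
    have := hle h
    rw [RingHom.mem_ker, map_C, constantCoeff_C] at this
    exact Subtype.coe_injective this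
  have hrep : ∀ z : B.L, ∃ a : B.κ, z - B.lift (C a) ∈ B.Fil 1 := by
    intro z
    obtain ⟨P, hP, hz⟩ := B.lift_surj 0 z (by rw [Nat.cast_zero, B.fil_top 0 le_rfl]; trivial)
    refine ⟨constantCoeff P, ?_⟩
    have : P = C (constantCoeff P) := by
      refine MvPolynomial.ext _ _ fun γ => ?_
      rw [coeff_C, constantCoeff_eq]
      split_ifs with h
      · rw [h]
      · by_contra hne
        have := hP hne
        apply h
        refine (Finsupp.ext fun s => ?_).symm
        by_contra hs
        have h1 := Finsupp.le_weight_of_ne_zero' CI.wt hs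
        have h2 := CI.wt_pos s
        omega
    rw [← this]
    simpa using hz
  have huniq : ∀ (z : B.L) (a a' : B.κ), z - B.lift (C a) ∈ B.Fil 1 →
      z - B.lift (C a') ∈ B.Fil 1 → a = a' := by
    intro z a a' h h'
    refine sub_eq_zero.1 (hconst _ ?_)
    rw [map_sub]
    have h1 := B.lift_sub_mem 0 (isWeightedHomogeneous_C _ a) (isWeightedHomogeneous_C _ a')
    rw [Nat.cast_zero, zero_add] at h1
    have := sub_mem (sub_mem h' h) h1
    simpa using this
  choose rs hrs using hrep
  have hC : ∀ a : B.κ, rs (B.lift (C a)) = a := fun a =>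
    huniq _ _ _ (hrs _) (by rw [sub_self]; exact zero_mem _)
  have hres0 : ∀ z, z ∈ B.Fil 1 → rs z = 0 := fun z hz => huniq _ _ _ (hrs z) (by
    rw [map_zero]
    simpa using sub_mem hz (B.lift_zero_mem 0))
  let res : B.L →+* B.κ :=
    { toFun := rs
      map_one' := huniq _ _ _ (hrs 1) (by
        rw [map_one]
        simpa using neg_mem B.lift_one)
      map_zero' := hres0 _ (zero_mem _)
      map_add' := fun z z' => huniq _ _ _ (hrs _) (by
        have h1 := B.lift_add 0 _ _ (isWeightedHomogeneous_C CI.wt (rs z))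
          (isWeightedHomogeneous_C CI.wt (rs z'))
        rw [Nat.cast_zero, zero_add, ← map_add] at h1
        have := sub_mem (add_mem (hrs z) (hrs z')) h1
        convert this using 1
        ring)
      map_mul' := fun z z' => huniq _ _ _ (hrs _) (by
        have h1 := B.lift_mul 0 0 _ _ (isWeightedHomogeneous_C CI.wt (rs z))
          (isWeightedHomogeneous_C CI.wt (rs z'))
        simp only [Nat.cast_zero, zero_add, ← map_mul] at h1
        have := sub_mem (add_mem ((B.Fil 1).mul_mem_right z' (hrs z))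
          ((B.Fil 1).mul_mem_left (B.lift (C (rs z))) (hrs z'))) h1
        convert this using 1
        ring) }
  have hres : ∀ z, res z = 0 ↔ z ∈ B.Fil 1 := by
    refine fun z => ⟨fun h => ?_, hres0 z⟩
    have := hrs z
    rw [show rs z = 0 from h, map_zero] at this
    simpa using add_mem this (B.lift_zero_mem 0)
  refine ⟨⟨res, hres, hC⟩, ?_, ?_, ?_⟩
  · intro u z hz
    obtain ⟨P₀, hP₀, hzP⟩ := B.lift_surj u z hz
    obtain ⟨P, hP, hnf, hmem⟩ := mfNF_exists CI.wt_pos hdpos hFhom hmonic hP₀
    refine ⟨P, ⟨hP, fun γ hγ v => hnf γ hγ v, ?_⟩, ?_⟩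
    · have h1 := (B.lift_ker u _ (fun γ hγ => by
        rw [coeff_sub] at hγ
        by_cases h : coeff γ P₀ = 0
        · exact hP (by simpa [h] using hγ)
        · exact hP₀ h)).2 (hmapspan _ hmem)
      have := add_mem hzP (add_mem (B.lift_sub_mem u hP₀ hP) h1)
      convert this using 1
      ring
    · rintro P' ⟨hP', hnf', hz'⟩
      rw [← sub_eq_zero]
      have hsub : IsWeightedHomogeneous CI.wt (P' - P) u := fun γ hγ => by
        rw [coeff_sub] at hγ
        by_cases h : coeff γ P' = 0
        · exact hP (by simpa [h] using hγ)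
        · exact hP' h
      have hdiff : B.lift (P' - P) ∈ B.Fil (u + 1) := by
        have h1 := (B.lift_ker u _ (fun γ hγ => by
          rw [coeff_sub] at hγ
          by_cases h : coeff γ P₀ = 0
          · exact hP (by simpa [h] using hγ)
          · exact hP₀ h)).2 (hmapspan _ hmem)
        have hzz : z - B.lift P ∈ B.Fil (u + 1) := by
          have := add_mem hzP (add_mem (B.lift_sub_mem u hP₀ hP) h1)
          convert this using 1
          ring
        have := sub_mem (sub_mem hzz hz') (B.lift_sub_mem u hP' hP)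
        convert this using 1
        ring
      have hspan := (B.lift_ker u _ hsub).1 hdiff
      apply hinj
      rw [map_zero]
      refine mfNF_unique CI.wt_pos hdpos
        (F := fun v => expand (p ^ (B.jq - j)) (rootPoly p j (CI.F v)))
        (fun v δ hδ => ?_) (fun v => ?_) (fun γ hγ v => ?_) hspan
      · rw [← hmapF, coeff_map] at hδ
        exact hFhom v (fun h => hδ (by rw [h, map_zero]))
      · have := Ideal.mem_map_of_mem (MvPolynomial.map (σ := Vr d CI.n) B.κ.subtype) (hmonic v)
        rwa [map_sub, map_pow, map_X, hmapF, Ideal.map_span, ← Set.range_comp,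
          show (⇑(MvPolynomial.map B.κ.subtype) ∘ fun l : Fin d =>
            (X (some (Sum.inl l)) : MvPolynomial (Vr d CI.n) B.κ)) =
            fun l => X (some (Sum.inl l)) from funext fun l => map_X _ _] at this
      · rcases Finset.mem_union.1 (support_sub _ (P' : MvPolynomial _ _) P
          (mem_support_iff.2 fun h => mem_support_iff.1 hγ (by rw [coeff_map, h, map_zero]))) with
          h | h
        · exact hnf' γ h v
        · exact hnf γ h v
  · intro r
    obtain ⟨z, hz⟩ := Ideal.Quotient.mk_surjective (B.χ (algebraMap R B.As r))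
    exact ⟨z, hz.symm⟩
  · intro M _ _ _ N hsm hkill
    have hAnn : ∀ a ∈ B.Ann, ∀ v : M, a • v = 0 := by
      intro a ha v
      obtain ⟨z, hz⟩ := Ideal.Quotient.mk_surjective (B.χ (algebraMap R B.As 1))
      have h1 := hsm 1 z hz.symm v
      have h2 := hsm 1 (z + a) (by rw [map_add, Ideal.Quotient.eq_zero_iff_mem.2 ha, add_zero, hz]) v
      rw [h1, add_smul, left_eq_add] at h2
      exact h2
    have hpow : ∀ f ∈ B.Fil 1, f ^ N ∈ B.Fil N := by
      intro f hf
      induction N with
      | zero => rw [Nat.cast_zero, B.fil_top 0 le_rfl]; trivial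
      | succ N ih =>
        have hih : f ^ N ∈ B.Fil N := by
          clear hkill ih
          induction N with
          | zero => rw [Nat.cast_zero, B.fil_top 0 le_rfl]; trivial
          | succ N ih2 =>
            rw [pow_succ, Nat.cast_succ]
            exact B.fil_mul _ _ (Ideal.mul_mem_mul ih2 hf)
        rw [pow_succ, Nat.cast_succ]
        exact B.fil_mul _ _ (Ideal.mul_mem_mul hih hf)
    by_cases hsub : B.Ann ≤ B.Fil 1
    swap
    · obtain ⟨a, ha, ha1⟩ := Set.not_subset.1 hsub
      have hne : res a ≠ 0 := fun h => ha1 ((hres a).1 h)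
      have hM : ∀ v : M, v = 0 := by
        intro v
        have hf : 1 - a * B.lift (C (res a)⁻¹) ∈ B.Fil 1 := by
          rw [← hres, map_sub, map_one, map_mul]
          rw [show res (B.lift (C (res a)⁻¹)) = (res a)⁻¹ from hC _]
          rw [mul_inv_cancel₀ hne, sub_self]
        have h1 : (1 - a * B.lift (C (res a)⁻¹)) • v = v := by
          rw [sub_smul, one_smul, mul_comm, mul_smul, hAnn a ha, smul_zero, sub_zero]
        have h2 : ∀ m : ℕ, (1 - a * B.lift (C (res a)⁻¹)) ^ m • v = v := fun m => by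
          induction m with
          | zero => rw [pow_zero, one_smul]
          | succ m ih => rw [pow_succ, mul_smul, h1, ih]
        rw [← h2 N]
        exact hkill _ (hpow _ hf) v
      haveI : Subsingleton M := ⟨fun v w => (hM v).trans (hM w).symm⟩
      rw [Module.length_eq_zero, Module.length_eq_zero, mul_zero]
    set J : Ideal B.L := B.Ann ⊔ (B.Fil 1 ⊓ B.Fil N) with hJdef
    let χ' : R →+* B.L ⧸ J :=
      (Ideal.Quotient.factor (le_sup_left : B.Ann ≤ J)).comp (B.χ.comp (algebraMap R B.As))
    have hJM : ∀ z ∈ J, ∀ v : M, z • v = 0 := by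
      intro z hz v
      obtain ⟨a, ha, f, hf, rfl⟩ := Submodule.mem_sup.1 hz
      rw [add_smul, hAnn a ha, hkill f hf.2, add_zero]
    have hJ : J ≤ B.Fil 1 := sup_le hsub inf_le_left
    have hχ : ∀ (r : R) (z : B.L), χ' r = Ideal.Quotient.mk J z → ∀ z₀,
        B.χ (algebraMap R B.As r) = Ideal.Quotient.mk B.Ann z₀ → z - z₀ ∈ J := by
      intro r z hz z₀ h₀
      have : χ' r = Ideal.Quotient.mk J z₀ := by
        simp only [χ', RingHom.comp_apply, h₀, Ideal.Quotient.factor_mk]
        rfl
      exact Ideal.Quotient.eq.1 (hz.symm.trans this)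
    -- the residue of `R`
    have hev : ∀ r : R, ∀ z, χ' r = Ideal.Quotient.mk J z →
        ((res z : B.κ) : k) = ι (residue R r) := by
      intro r z hz
      obtain ⟨y, hy⟩ := hctx.residue_surj (residue A (algebraMap R A r))
      have hy0 := hctx.ι_spec r y hy
      have hdiff : algebraMap R A r - algebraMap (WittVector p k) A y ∈ G 1 := by
        refine hctx.nu.anti hctx.nu.b_pos (hctx.nu.max_le ?_)
        rw [← residue_eq_zero_iff, map_sub, ← hy, RingHom.comp_apply, sub_self]
      obtain ⟨g, hg, hge⟩ := (CI.strict 1 _).1 hdiff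
      have hinit : HasInit p CI.wt 0 (MvPowerSeries.C y + g)
          ((C (⟨ι (residue R r), B.ι_mem _⟩ : B.κ)).map B.κ.subtype) := by
        rw [map_C]
        refine ⟨isWeightedHomogeneous_C _ _, fun γ => ?_⟩
        have hl : liftPi p (C (ι (residue R r)) : MvPolynomial (Vr d CI.n) k) =
            MvPowerSeries.C (WittVector.teichmuller p (ι (residue R r))) := by
          by_cases h0 : ι (residue R r) = 0
          · simp [liftPi, h0, WittVector.teichmuller_zero]
          · rw [liftPi, support_C, if_neg h0, Finset.sum_singleton, coeff_C, if_pos rfl,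
              Finsupp.coe_zero, Pi.zero_apply, pow_zero, mul_one]
            simp [MvPowerSeries.monomial_zero_eq_C_apply]
        simp only [Subfield.coe_subtype]
        rw [hl, add_sub_right_comm, ← map_sub]
        obtain ⟨i₁, hi₁, hd₁⟩ := hg γ
        by_cases hγ : γ = 0
        · subst hγ
          refine ⟨1, by have := CI.wt_pos none; omega, ?_⟩
          rw [map_add, MvPowerSeries.coeff_zero_C, pow_one]
          refine dvd_add ?_ ?_
          · have := (WittVector.mem_span_p_pow_iff_le_coeff_eq_zero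
              (y - WittVector.teichmuller p (ι (residue R r))) 1).mpr fun m hm => by
              obtain rfl : m = 0 := by omega
              rw [← WittVector.constantCoeff_apply, map_sub, WittVector.constantCoeff_apply,
                WittVector.constantCoeff_apply, WittVector.teichmuller_coeff_zero, hy0, sub_self]
            simpa [Ideal.mem_span_singleton] using this
          · refine (dvd_pow_self _ ?_).trans hd₁
            intro h
            rw [h] at hi₁
            simp at hi₁
        · refine ⟨i₁, by simpa using hi₁, ?_⟩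
          rw [map_add, MvPowerSeries.coeff_C, if_neg hγ, zero_add]
          exact hd₁
      obtain ⟨w, hw, hwz⟩ := B.χ_init 0 (algebraMap R B.As r)
        (C (⟨ι (residue R r), B.ι_mem _⟩ : B.κ))
        ⟨MvPowerSeries.C y + g, by
          rw [map_add, CI.ev_C, hge, add_sub_cancel, Subalgebra.coe_algebraMap], hinit⟩
      rw [expand_C] at hwz
      have h1 := (hres _).2 (hJ (hχ r z hz _ hwz))
      rw [map_sub, sub_eq_zero, map_add, (hres w).2 (by simpa using hw), add_zero] at h1
      rw [h1]
      exact congrArg Subtype.val (hC _)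
    let eκ : R →+* B.κ :=
      { toFun := fun r => ⟨ι (residue R r), B.ι_mem _⟩
        map_one' := Subtype.ext (by simp)
        map_zero' := Subtype.ext (by simp)
        map_add' := fun r s => Subtype.ext (by simp)
        map_mul' := fun r s => Subtype.ext (by simp) }
    refine length_eq_mul_of_residue (B.Fil 1) res hres (fun a => ⟨_, hC a⟩) J χ' eκ
      (fun r z hz => ?_) (fun r z hz => Subtype.ext (hev r z hz)) hJ
      (fun f hf => ⟨N + 1, Ideal.mem_sup_right ⟨Ideal.pow_mem_of_mem _ hf _ N.succ_pos, ?_⟩⟩)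
      (fun e' => ⟨B.bas e', B.bas_mem e'⟩) (fun a => ?_) M (fun r z hz v => ?_) hJM
    · rw [← hres, ← residue_eq_zero_iff]
      constructor
      · intro h
        exact ι.injective (by rw [← hev r z hz, h, map_zero]; simp)
      · intro h
        exact Subtype.ext (by rw [hev r z hz, h, map_zero]; simp)
    · rw [pow_succ]
      exact Ideal.mul_mem_right _ _ (hpow f hf)
    · obtain ⟨r₀, hr₀, huq⟩ := B.bas_span a a.2
      choose r' hr' using fun t => residue_surjective (R := R) (r₀ t)
      refine ⟨r₀, ⟨r', hr', Subtype.ext ?_⟩, fun s ⟨s', hs', hsa⟩ => huq s ?_⟩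
      · rw [hr₀]
        simp only [eκ, RingHom.coe_mk, MonoidHom.coe_mk, OneHom.coe_mk,
          AddSubmonoidClass.coe_finsetSum, MulMemClass.coe_mul]
        exact Finset.sum_congr rfl fun t _ => by rw [← hr' t]; rfl
      · rw [hsa]
        simp only [eκ, RingHom.coe_mk, MonoidHom.coe_mk, OneHom.coe_mk,
          AddSubmonoidClass.coe_finsetSum, MulMemClass.coe_mul]
        exact Finset.sum_congr rfl fun t _ => by rw [← hs' t]
    · obtain ⟨z₀, h₀⟩ := Ideal.Quotient.mk_surjective (B.χ (algebraMap R B.As r))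
      have := hJM _ (hχ r z hz z₀ h₀.symm) v
      rw [sub_smul, sub_eq_zero] at this
      rw [this, hsm r z₀ h₀.symm v]

end Vale.Agent.P202
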