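import Vale.Agent.P202.InterfacesM7S

/-! The step isomorphism of the twist, natural in a map of filtered systems. -/

universe u

namespace Vale.Agent.P202

open TensorProduct

namespace StepMap

/-- Two vertical maps linked by an injective and a surjective horizontal map have images of the
same length. -/
lemma length_range_square {S : Type*} [CommRing S] {M N M' N' : Type*} [AddCommGroup M]
    [Module S M] [AddCommGroup N] [Module S N] [AddCommGroup M'] [Module S M'] [AddCommGroup N']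
    [Module S N'] (F : M →ₗ[S] N) (G : M' →ₗ[S] N') (h : M →ₗ[S] M') (h' : N →ₗ[S] N')
    (hs : Function.Surjective h) (hi : Function.Injective h') (hc : ∀ x, h' (F x) = G (h x)) :
    Module.length S ↥(LinearMap.range F) = Module.length S ↥(LinearMap.range G) := by
  have e : (LinearMap.range F).map h' = LinearMap.range G := by
    rw [← LinearMap.range_comp, show h' ∘ₗ F = G ∘ₗ h from LinearMap.ext hc,
      LinearMap.range_comp, LinearMap.range_eq_top.2 hs, Submodule.map_top]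
  rw [← e]
  exact (Submodule.equivMapOfInjective h' hi _).length_eq

section

variable {S : Type*} [CommRing S] {A : Type*} [AddCommGroup A] [Module S A]
  {A' : Type*} [AddCommGroup A'] [Module S A'] {δ : A →ₗ[S] A} {δ' : A' →ₗ[S] A'}

lemma length_range_hmap (φ : A →ₗ[S] A') {P Q : ℤ → Submodule S A}
    {P' Q' : ℤ → Submodule S A'} (hP : ∀ r, ∀ x ∈ P r, φ x ∈ P' r)
    (hQ : ∀ r, ∀ x ∈ Q r, φ x ∈ Q' r) (hcomm : ∀ r, ∀ x ∈ P r, φ (δ x) = δ' (φ x)) (r : ℤ) :
    Module.length S ↥(LinearMap.range (hmap φ hP hQ hcomm r)) =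
      sq S ((hcyc δ P Q r).map φ) (hbd δ' P' Q' r) := by
  rw [sq_map, sq]
  let F := hmap φ hP hQ hcomm r ∘ₗ hmk δ P Q r
  have hr : LinearMap.range F = LinearMap.range (hmap φ hP hQ hcomm r) := by
    rw [LinearMap.range_comp, LinearMap.range_eq_top.2 (hmk_surjective _ _ _ _), Submodule.map_top]
  have hk : LinearMap.ker F =
      ((hbd δ' P' Q' r).comap φ).comap (hcyc δ P Q r).subtype := by
    ext x
    exact Submodule.Quotient.mk_eq_zero _
  rw [← hr, ← hk]
  exact F.quotKerEquivRange.symm.length_eq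

lemma hmap_square {A₁ A₁' : Type*} [AddCommGroup A₁] [Module S A₁] [AddCommGroup A₁']
    [Module S A₁'] {δ₁ : A₁ →ₗ[S] A₁} {δ₁' : A₁' →ₗ[S] A₁'} {P Q : ℤ → Submodule S A}
    {P' Q' : ℤ → Submodule S A'} {P₁ Q₁ : ℤ → Submodule S A₁} {P₁' Q₁' : ℤ → Submodule S A₁'}
    (Φ : A →ₗ[S] A') (a₁ : ∀ r, ∀ x ∈ P r, Φ x ∈ P' r) (a₂ : ∀ r, ∀ x ∈ Q r, Φ x ∈ Q' r)
    (a₃ : ∀ r, ∀ x ∈ P r, Φ (δ x) = δ' (Φ x))
    (Ψ : A₁ →ₗ[S] A₁') (b₁ : ∀ r, ∀ x ∈ P₁ r, Ψ x ∈ P₁' r)
    (b₂ : ∀ r, ∀ x ∈ Q₁ r, Ψ x ∈ Q₁' r) (b₃ : ∀ r, ∀ x ∈ P₁ r, Ψ (δ₁ x) = δ₁' (Ψ x))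
    (φ : A →ₗ[S] A₁) (c₁ : ∀ r, ∀ x ∈ P r, φ x ∈ P₁ r) (c₂ : ∀ r, ∀ x ∈ Q r, φ x ∈ Q₁ r)
    (c₃ : ∀ r, ∀ x ∈ P r, φ (δ x) = δ₁ (φ x))
    (φ' : A' →ₗ[S] A₁') (d₁ : ∀ r, ∀ x ∈ P' r, φ' x ∈ P₁' r)
    (d₂ : ∀ r, ∀ x ∈ Q' r, φ' x ∈ Q₁' r) (d₃ : ∀ r, ∀ x ∈ P' r, φ' (δ' x) = δ₁' (φ' x))
    (r : ℤ) (hs : Function.Surjective (hmap φ c₁ c₂ c₃ r))
    (hi : Function.Injective (hmap φ' d₁ d₂ d₃ r))
    (hsq : ∀ x ∈ P r, φ' (Φ x) = Ψ (φ x)) :
    Module.length S ↥(LinearMap.range (hmap Φ a₁ a₂ a₃ r)) =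
      Module.length S ↥(LinearMap.range (hmap Ψ b₁ b₂ b₃ r)) := by
  refine length_range_square _ _ _ _ hs hi fun x => ?_
  obtain ⟨⟨x, hx⟩, rfl⟩ := hmk_surjective δ P Q r x
  exact congrArg (hmk δ₁' P₁' Q₁' r) (Subtype.ext (hsq x hx.1))

lemma hproj_bijective {O P Q : ℤ → Submodule S A} (hQP : ∀ r, Q r ≤ P r) (hPO : ∀ r, P r ≤ O r)
    (hd : δ ∘ₗ δ = 0) (hP : IsStable δ P) (h0 : ∀ r, hlen S δ P Q r = 0) (r : ℤ) :
    Function.Bijective (hproj (δ := δ) (O := O) hQP r) := by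
  have hsub : ∀ r, Subsingleton (HMod δ P Q r) := fun r =>
    Module.length_eq_zero_iff.1 (h0 r)
  constructor
  · rw [injective_iff_map_eq_zero]
    intro x hx
    obtain ⟨z, rfl⟩ := (exact_hinc_hproj hQP hPO hd r x).1 hx
    rw [(hsub r).elim z 0, map_zero]
  · intro x
    exact (exact_hproj_hconn hQP hPO hd hP r x).1 ((hsub (r + 1)).elim _ _)

/-- Naturality of the chain of identifications `O/Q = O/D = T = E`. -/
lemma range_chain {T T' M M' : Type*} [AddCommGroup T] [Module S T] [AddCommGroup T']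
    [Module S T'] [AddCommGroup M] [Module S M] [AddCommGroup M'] [Module S M']
    {O D Q : ℤ → Submodule S A} {O' D' Q' : ℤ → Submodule S A'}
    {e : T →ₗ[S] T} {e' : T' →ₗ[S] T'} {ε : M →ₗ[S] M} {ε' : M' →ₗ[S] M'}
    {E : ℤ → Submodule S M} {E' : ℤ → Submodule S M'}
    (hd : δ ∘ₗ δ = 0) (hd' : δ' ∘ₗ δ' = 0) (hO : IsStable δ O) (hO' : IsStable δ' O')
    (hD : IsStable δ D) (hD' : IsStable δ' D') (hQD : ∀ r, Q r ≤ D r) (hQD' : ∀ r, Q' r ≤ D' r)
    (hDO : ∀ r, D r ≤ O r) (hDO' : ∀ r, D' r ≤ O' r)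
    (hac : ∀ r, hlen S δ D Q r = 0) (hac' : ∀ r, hlen S δ' D' Q' r = 0)
    (hE : IsStable ε E) (hE' : IsStable ε' E')
    (φ : A →ₗ[S] T) (φ' : A' →ₗ[S] T') (ι : M →ₗ[S] T) (ι' : M' →ₗ[S] T')
    (hι : Function.Injective ι) (hι' : Function.Injective ι')
    (hιδ : ∀ x, ι (ε x) = e (ι x)) (hιδ' : ∀ x, ι' (ε' x) = e' (ι' x))
    (hcomm : ∀ i, ∀ f ∈ O i, φ (δ f) = e (φ f))
    (hcomm' : ∀ i, ∀ f ∈ O' i, φ' (δ' f) = e' (φ' f))
    (hsur : ∀ i, (O i).map φ ⊔ ⊥ = (E i).map ι) (hsur' : ∀ i, (O' i).map φ' ⊔ ⊥ = (E' i).map ι')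
    (hker : ∀ i, O i ⊓ (⊥ : Submodule S T).comap φ = D i)
    (hker' : ∀ i, O' i ⊓ (⊥ : Submodule S T').comap φ' = D' i)
    (Φ : A →ₗ[S] A') (a₁ : ∀ i, ∀ x ∈ O i, Φ x ∈ O' i) (a₂ : ∀ i, ∀ x ∈ Q i, Φ x ∈ Q' i)
    (a₃ : ∀ i, ∀ x ∈ O i, Φ (δ x) = δ' (Φ x)) (hΦD : ∀ i, ∀ x ∈ D i, Φ x ∈ D' i)
    (Ψ : T →ₗ[S] T') (hΦΨ : ∀ x, φ' (Φ x) = Ψ (φ x))
    (h : M →ₗ[S] M') (c₁ : ∀ i, ∀ x ∈ E i, h x ∈ E' i)
    (c₂ : ℤ → ∀ x ∈ (⊥ : Submodule S M), h x ∈ (⊥ : Submodule S M'))
    (c₃ : ∀ i, ∀ x ∈ E i, h (ε x) = ε' (h x)) (hΨι : ∀ x, Ψ (ι x) = ι' (h x)) (r : ℤ) :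
    Module.length S ↥(LinearMap.range (hmap Φ a₁ a₂ a₃ r)) =
      Module.length S ↥(LinearMap.range
        (hmap (P := E) (Q := fun _ => ⊥) (P' := E') (Q' := fun _ => ⊥) h c₁ c₂ c₃ r)) := by
  have hT : ∀ i, ∀ f ∈ O i, φ f ∈ (E i).map ι := fun i f hf =>
    hsur i ▸ Submodule.mem_sup_left (Submodule.mem_map_of_mem hf)
  have hT' : ∀ i, ∀ f ∈ O' i, φ' f ∈ (E' i).map ι' := fun i f hf =>
    hsur' i ▸ Submodule.mem_sup_left (Submodule.mem_map_of_mem hf)
  have h0 : ∀ i, ∀ f ∈ D i, φ f ∈ (⊥ : Submodule S T) := fun i f hf => ((hker i).ge hf).2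
  have h0' : ∀ i, ∀ f ∈ D' i, φ' f ∈ (⊥ : Submodule S T') := fun i f hf => ((hker' i).ge hf).2
  have b₁ : ∀ i, ∀ t ∈ (E i).map ι, Ψ t ∈ (E' i).map ι' := by
    rintro i _ ⟨x, hx, rfl⟩
    rw [hΨι]
    exact Submodule.mem_map_of_mem (c₁ i x hx)
  have b₂ : ∀ _ : ℤ, ∀ t ∈ (⊥ : Submodule S T), Ψ t ∈ (⊥ : Submodule S T') :=
    fun _ t ht => by rw [Submodule.mem_bot] at ht ⊢; rw [ht, map_zero]
  have b₃ : ∀ i, ∀ t ∈ (E i).map ι, Ψ (e t) = e' (Ψ t) := by
    rintro i _ ⟨x, hx, rfl⟩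
    rw [← hιδ, hΨι, hΨι, c₃ i x hx, hιδ']
  have d₁ : ∀ i, ∀ x ∈ E i, ι x ∈ (E i).map ι := fun i x hx => Submodule.mem_map_of_mem hx
  have d₁' : ∀ i, ∀ x ∈ E' i, ι' x ∈ (E' i).map ι' := fun i x hx => Submodule.mem_map_of_mem hx
  have d₂ : ∀ _ : ℤ, ∀ t ∈ (⊥ : Submodule S M), ι t ∈ (⊥ : Submodule S T) :=
    fun _ t ht => by rw [Submodule.mem_bot] at ht ⊢; rw [ht, map_zero]
  have d₂' : ∀ _ : ℤ, ∀ t ∈ (⊥ : Submodule S M'), ι' t ∈ (⊥ : Submodule S T') :=
    fun _ t ht => by rw [Submodule.mem_bot] at ht ⊢; rw [ht, map_zero]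
  rw [length_range_square (hmap Φ a₁ a₂ a₃ r) (hmap Φ a₁ hΦD a₃ r) (hproj hQD r) (hproj hQD' r)
      (hproj_bijective hQD hDO hd hD hac r).2 (hproj_bijective hQD' hDO' hd' hD' hac' r).1
      (fun x => by
        obtain ⟨z, rfl⟩ := hmk_surjective _ _ _ _ x
        rfl),
    hmap_square Φ a₁ hΦD a₃ Ψ b₁ b₂ b₃ φ hT h0 hcomm φ' hT' h0' hcomm' r
      (hmap_bijective φ hO (fun i => by simp) hT h0 hcomm (fun i => (hsur i).ge)
        (fun i x hx hx' => (hker i).le ⟨hx, hx'⟩) r).2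
      (hmap_bijective φ' hO' (fun i => by simp) hT' h0' hcomm' (fun i => (hsur' i).ge)
        (fun i x hx hx' => (hker' i).le ⟨hx, hx'⟩) r).1
      (fun f _ => hΦΨ f)]
  exact (hmap_square h c₁ c₂ c₃ Ψ b₁ b₂ b₃ ι d₁ d₂ (fun _ x _ => hιδ x) ι' d₁' d₂'
    (fun _ x _ => hιδ' x) r
    (hmap_bijective ι hE (fun i => by simp) d₁ d₂ (fun _ x _ => hιδ x) (fun i => le_sup_left)
      (fun i x _ hx => by rw [Submodule.mem_bot] at hx ⊢; exact (map_eq_zero_iff _ hι).1 hx) r).2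
    (hmap_bijective ι' hE' (fun i => by simp) d₁' d₂' (fun _ x _ => hιδ' x)
      (fun i => le_sup_left)
      (fun i x _ hx => by rw [Submodule.mem_bot] at hx ⊢; exact (map_eq_zero_iff _ hι').1 hx) r).1
    (fun x _ => (hΨι x).symm)).symm

end

section

variable {R S : Type u} [CommRing R] [CommRing S] {B : Type u} [AddCommGroup B] [Module R B]
  [Module S B] [SMulCommClass R S B] {A : Type u} [AddCommGroup A] [Module R A]
  {A' : Type u} [AddCommGroup A'] [Module R A']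
  {d : ℕ} (y : Fin d → S) {I : Ideal R} {β : ℕ → ℕ} (δ : A →ₗ[R] A)
  (P Gt : ℤ → Submodule R A) {Gt' : ℤ → Submodule R A'} (j : ℤ)

/-- The next level inside level `j`. -/
abbrev sN : Submodule R ↥(Gt j) := (Gt (j + 1)).comap (Gt j).subtype

/-- The graded piece in level `j`. -/
abbrev sV : Type u := ↥(Gt j) ⧸ sN Gt j

/-- The degrees of the graded piece. -/
abbrev sg (i : ℤ) : Submodule R (sV Gt j) :=
  ((P i).comap (Gt j).subtype).map (sN Gt j).mkQ

/-- The graded piece inside the quotient of the ambient module. -/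
abbrev sj : sV Gt j →ₗ[R] (A ⧸ Gt (j + 1)) :=
  (sN Gt j).mapQ (Gt (j + 1)) (Gt j).subtype le_rfl

/-- The map of graded pieces. -/
abbrev sVmap (g : A →ₗ[R] A') (hG : ∀ j, (Gt j).map g ≤ Gt' j) : sV Gt j →ₗ[R] sV Gt' j :=
  (sN Gt j).mapQ (sN Gt' j) (g.restrict fun _ hx => hG j (Submodule.mem_map_of_mem hx))
    fun x hx => hG (j + 1) (Submodule.mem_map_of_mem (show (x : A) ∈ Gt (j + 1) from hx))

/-- The map of ambient quotients. -/
abbrev sAmap (g : A →ₗ[R] A') (hG : ∀ j, (Gt j).map g ≤ Gt' j) :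
    (A ⧸ Gt (j + 1)) →ₗ[R] (A' ⧸ Gt' (j + 1)) :=
  (Gt (j + 1)).mapQ (Gt' (j + 1)) g (Submodule.map_le_iff_le_comap.1 (hG (j + 1)))

variable (B) in
/-- Boundaries of the target of the projection. -/
noncomputable abbrev sBd (p : ℕ) : Submodule S (Finset (Fin d) → B ⊗[R] (A ⧸ Gt (j + 1))) :=
  (kbd y (B ⊗[R] sV Gt j) p).map (kmap d (lT S B (sj Gt j)))

variable (B) in
/-- The homology of the piece inside the target of the projection. -/
noncomputable abbrev sι (p : ℕ) : HQ (R := R) B y (sV Gt j) p →ₗ[S]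
    (Finset (Fin d) → B ⊗[R] (A ⧸ Gt (j + 1))) ⧸ sBd B y Gt j p :=
  Submodule.mapQ _ (sBd B y Gt j p) (kmap d (lT S B (sj Gt j)))
    (Submodule.map_le_iff_le_comap.1 le_rfl)

variable (S B) in
/-- The selection of one cardinality. -/
noncomputable abbrev sSel (d p : ℕ) :
    (Finset (Fin d) → B ⊗[R] A) →ₗ[S] (Finset (Fin d) → B ⊗[R] (A ⧸ Gt (j + 1))) :=
  LinearMap.pi fun s => if s.card = p then lT S B (Gt (j + 1)).mkQ ∘ₗ LinearMap.proj s else 0

variable (B) in
/-- The projection to the target. -/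
noncomputable abbrev sφ (p : ℕ) : (Finset (Fin d) → B ⊗[R] A) →ₗ[S]
    (Finset (Fin d) → B ⊗[R] (A ⧸ Gt (j + 1))) ⧸ sBd B y Gt j p :=
  (sBd B y Gt j p).mkQ ∘ₗ sSel S B Gt j d p

variable (B) in
/-- The middle complex. -/
noncomputable abbrev sD3 (τ τ' : ℕ → ℤ) (p : ℕ) (r : ℤ) :
    Submodule S (Finset (Fin d) → B ⊗[R] A) :=
  let O : ℤ → Submodule S (Finset (Fin d) → B ⊗[R] A) := fun r =>
    DT B y P Gt τ' r ⊓ kchain S d (B ⊗[R] A) (p + 1)
  DT B y P Gt τ r ⊔ (O r ⊔ (O (r - 1)).map (dT B y δ))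

variable [Module.Flat R B] {y δ P Gt j}

omit [Module.Flat R B] in
lemma sBd_stable (H : FiltSys I d δ P Gt) (p : ℕ) :
    sBd B y Gt j p ≤ (sBd B y Gt j p).comap (kmap d (lT S B (sAmap Gt j δ H.level))) := by
  rintro _ ⟨b, hb, rfl⟩
  refine ⟨kmap d (lT S B (sVmap Gt j δ H.level)) b,
    kmap_kbd_le y _ p (Submodule.mem_map_of_mem hb), ?_⟩
  have h : sj Gt j ∘ₗ sVmap Gt j δ H.level = sAmap Gt j δ H.level ∘ₗ sj Gt j := by
    refine LinearMap.ext fun x => ?_
    obtain ⟨x, rfl⟩ := Submodule.mkQ_surjective _ x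
    rfl
  funext s
  simp only [kmap_apply, lT_comp_apply, h]

/-- The differential on the target. -/
noncomputable abbrev sd (H : FiltSys I d δ P Gt) (p : ℕ) :
    ((Finset (Fin d) → B ⊗[R] (A ⧸ Gt (j + 1))) ⧸ sBd B y Gt j p) →ₗ[S]
      ((Finset (Fin d) → B ⊗[R] (A ⧸ Gt (j + 1))) ⧸ sBd B y Gt j p) :=
  ((-1 : ℤ) ^ p) • Submodule.mapQ _ _ (kmap d (lT S B (sAmap Gt j δ H.level))) (sBd_stable H p)

/-- The projection identifies the step with the homology of the graded piece. -/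
lemma step_props (H : FiltSys I d δ P Gt) (HB : HPHyp B y I β) {τ τ' : ℕ → ℤ} {p : ℕ}
    (hτ : TwistStep d τ τ' p j) :
    (∀ r, DT B y P Gt τ r ≤ DT B y P Gt τ' r) ∧
    IsStable (dT B y δ) (sD3 B y δ P Gt τ τ' p) ∧
    (∀ r, DT B y P Gt τ r ≤ sD3 B y δ P Gt τ τ' p r) ∧
    (∀ r, sD3 B y δ P Gt τ τ' p r ≤ DT B y P Gt τ' r) ∧
    (∀ r, hlen S (dT B y δ) (sD3 B y δ P Gt τ τ' p) (DT B y P Gt τ) r = 0) ∧
    Function.Injective (sι B y Gt j p) ∧
    (∀ x, sι B y Gt j p (((-1 : ℤ) ^ p • hpMap B y p (sVmap Gt j δ H.level)) x) =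
      sd (B := B) (y := y) H p (sι B y Gt j p x)) ∧
    IsStable ((-1 : ℤ) ^ p • hpMap B y p (sVmap Gt j δ H.level))
      (fun i => EE B y p (sg P Gt j i)) ∧
    KilledBy I (sV Gt j) ∧
    (∀ i, ∀ f ∈ DT B y P Gt τ' i,
      sφ B y Gt j p (dT B y δ f) = sd (B := B) (y := y) H p (sφ B y Gt j p f)) ∧
    (∀ i, (DT B y P Gt τ' i).map (sφ B y Gt j p) ⊔ ⊥ =
      (EE B y p (sg P Gt j (i + p))).map (sι B y Gt j p)) ∧
    (∀ i, DT B y P Gt τ' i ⊓ (⊥ : Submodule S _).comap (sφ B y Gt j p) =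
      sD3 B y δ P Gt τ τ' p i) := by
  classical
  -- the graded piece
  let G' : Submodule R A := Gt (j + 1)
  have hG'le : G' ≤ Gt j := H.anti (by omega)
  let N : Submodule R ↥(Gt j) := G'.comap (Gt j).subtype
  let δres : ↥(Gt j) →ₗ[R] ↥(Gt j) :=
    δ.restrict fun x hx => H.level j (Submodule.mem_map_of_mem hx)
  let δV : (↥(Gt j) ⧸ N) →ₗ[R] (↥(Gt j) ⧸ N) :=
    N.mapQ N δres fun x hx => H.level (j + 1) (Submodule.mem_map_of_mem (show (x : A) ∈ G' from hx))
  let Pres : ℤ → Submodule R ↥(Gt j) := fun i => (P i).comap (Gt j).subtype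
  let g : ℤ → Submodule R (↥(Gt j) ⧸ N) := fun i => (Pres i).map N.mkQ
  let δA : (A ⧸ G') →ₗ[R] (A ⧸ G') :=
    G'.mapQ G' δ (Submodule.map_le_iff_le_comap.1 (H.level (j + 1)))
  let jV : (↥(Gt j) ⧸ N) →ₗ[R] (A ⧸ G') := N.mapQ G' (Gt j).subtype le_rfl
  have hVk : KilledBy I (↥(Gt j) ⧸ N) := by
    intro a ha v
    obtain ⟨⟨v, hv⟩, rfl⟩ := Submodule.mkQ_surjective _ v
    rw [← map_smul, Submodule.mkQ_apply, Submodule.Quotient.mk_eq_zero]
    exact H.kill j a ha v hv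
  have hjV : Function.Injective jV := by
    rw [← LinearMap.ker_eq_bot, Submodule.eq_bot_iff]
    intro x hx
    obtain ⟨x, rfl⟩ := Submodule.mkQ_surjective _ x
    have : Submodule.Quotient.mk (p := G') (x : A) = 0 := hx
    rw [Submodule.Quotient.mk_eq_zero] at this
    rw [Submodule.mkQ_apply, Submodule.Quotient.mk_eq_zero]
    exact this
  have hPres : IsStable δres Pres := by
    rintro i _ ⟨x, hx, rfl⟩
    exact H.degree i (Submodule.mem_map_of_mem (show (x : A) ∈ P i from hx))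
  have hg : IsStable δV g := by
    rintro i _ ⟨_, ⟨x, hx, rfl⟩, rfl⟩
    exact ⟨δres x, hPres i (Submodule.mem_map_of_mem hx), rfl⟩
  have hδV : δV ∘ₗ δV = 0 := by
    refine LinearMap.ext fun x => ?_
    obtain ⟨x, rfl⟩ := Submodule.mkQ_surjective _ x
    have : δres (δres x) = 0 := Subtype.ext (LinearMap.congr_fun H.sq0 (x : A))
    show Submodule.Quotient.mk (δres (δres x)) = 0
    rw [this]; rfl
  -- the target of the projection
  let Bd' : Submodule S (Finset (Fin d) → B ⊗[R] (A ⧸ G')) :=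
    (kbd y (B ⊗[R] (↥(Gt j) ⧸ N)) p).map (kmap d (lT S B jV))
  let ι : HQ (R := R) B y (↥(Gt j) ⧸ N) p →ₗ[S] (Finset (Fin d) → B ⊗[R] (A ⧸ G')) ⧸ Bd' :=
    Submodule.mapQ _ Bd' (kmap d (lT S B jV)) (Submodule.map_le_iff_le_comap.1 le_rfl)
  have hkjV : Function.Injective (kmap d (lT S B jV)) := fun a b h =>
    funext fun s => lT_injective (S := S) (B := B) hjV (congrFun h s)
  have hι : Function.Injective ι := by
    rw [← LinearMap.ker_eq_bot, Submodule.eq_bot_iff]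
    intro x hx
    obtain ⟨x, rfl⟩ := Submodule.mkQ_surjective _ x
    have : Submodule.Quotient.mk (p := Bd') (kmap d (lT S B jV) x) = 0 := hx
    rw [Submodule.Quotient.mk_eq_zero] at this
    obtain ⟨b, hb, hbx⟩ := this
    rw [Submodule.mkQ_apply, Submodule.Quotient.mk_eq_zero, ← hkjV hbx]
    exact hb
  have hjVδ : jV ∘ₗ δV = δA ∘ₗ jV := by
    refine LinearMap.ext fun x => ?_
    obtain ⟨x, rfl⟩ := Submodule.mkQ_surjective _ x
    rfl
  have hBdstab : Bd' ≤ Bd'.comap (kmap d (lT S B δA)) := by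
    rintro _ ⟨b, hb, rfl⟩
    refine ⟨kmap d (lT S B δV) b, kmap_kbd_le y _ p (Submodule.mem_map_of_mem hb), ?_⟩
    funext s
    simp only [kmap_apply, lT_comp_apply, hjVδ]
  let δ' : ((Finset (Fin d) → B ⊗[R] (A ⧸ G')) ⧸ Bd') →ₗ[S]
      ((Finset (Fin d) → B ⊗[R] (A ⧸ G')) ⧸ Bd') :=
    ((-1 : ℤ) ^ p) • Submodule.mapQ _ _ (kmap d (lT S B δA)) hBdstab
  have hιδ : ∀ x, ι (((-1 : ℤ) ^ p • hpMap B y p δV) x) = δ' (ι x) := by
    intro x
    obtain ⟨x, rfl⟩ := Submodule.mkQ_surjective _ x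
    simp only [δ', LinearMap.smul_apply, map_zsmul]
    congr 1
    show Submodule.Quotient.mk (p := Bd') (kmap d (lT S B jV) (kmap d (lT S B δV) x)) =
      Submodule.Quotient.mk (p := Bd') (kmap d (lT S B δA) (kmap d (lT S B jV) x))
    congr 1
    funext s
    simp only [kmap_apply, lT_comp_apply, hjVδ]
  let sel : (Finset (Fin d) → B ⊗[R] A) →ₗ[S] (Finset (Fin d) → B ⊗[R] (A ⧸ G')) :=
    LinearMap.pi fun s => if s.card = p then lT S B G'.mkQ ∘ₗ LinearMap.proj s else 0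
  have hsel : ∀ f s, sel f s = if s.card = p then lT S B G'.mkQ (f s) else 0 := by
    intro f s
    simp only [sel, LinearMap.pi_apply]
    split <;> rfl
  let φ : (Finset (Fin d) → B ⊗[R] A) →ₗ[S] (Finset (Fin d) → B ⊗[R] (A ⧸ G')) ⧸ Bd' :=
    Bd'.mkQ ∘ₗ sel
  -- auxiliary facts on the twists
  have hcard : ∀ s : Finset (Fin d), s.card ≤ d := fun s =>
    (Finset.card_le_univ s).trans (by simp)
  have hup : ∀ s : Finset (Fin d), s.card = p + 1 → τ' s.card = j ∧ τ s.card = j := by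
    intro s hs
    have h1 : τ (p + 1) = j := hτ.above (by have := hcard s; omega)
    exact ⟨by rw [hs, hτ.other _ (by omega), h1], by rw [hs, h1]⟩
  have hins : ∀ (s : Finset (Fin d)) l, l ∉ s → (insert l s).card = s.card + 1 :=
    fun s l hl => Finset.card_insert_of_notMem hl
  have hmkQ0 : ∀ x ∈ gbar S B G', lT S B G'.mkQ x = 0 := fun x hx => by
    rw [← LinearMap.mem_ker, ker_lT_mkQ]; exact hx
  -- lifts to the degree `i` part of level `j`
  have hlift : ∀ i, ∀ z : B ⊗[R] ↥(g i), ∃ Z ∈ gbar S B (Gt j ⊓ P i),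
      lT S B G'.mkQ Z = lT S B jV (lT S B (g i).subtype z) := by
    intro i z
    let π : ↥(Gt j ⊓ P i) →ₗ[R] ↥(g i) :=
      { toFun := fun x => ⟨N.mkQ ⟨x.1, x.2.1⟩, ⟨⟨x.1, x.2.1⟩, x.2.2, rfl⟩⟩
        map_add' := fun _ _ => rfl
        map_smul' := fun _ _ => rfl }
    have hπ : Function.Surjective π := by
      rintro ⟨_, ⟨x, hx, rfl⟩⟩
      exact ⟨⟨x.1, x.2, hx⟩, rfl⟩
    obtain ⟨w, rfl⟩ := lT_surjective (S := S) (B := B) hπ z
    refine ⟨lT S B (Gt j ⊓ P i).subtype w, ⟨w, rfl⟩, ?_⟩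
    simp only [lT_comp_apply]
    rfl
  have hproj : ∀ i, ∀ x ∈ gbar S B (Gt j ⊓ P i), ∃ z : B ⊗[R] ↥(g i),
      lT S B G'.mkQ x = lT S B jV (lT S B (g i).subtype z) := by
    rintro i _ ⟨w, rfl⟩
    let π : ↥(Gt j ⊓ P i) →ₗ[R] ↥(g i) :=
      { toFun := fun x => ⟨N.mkQ ⟨x.1, x.2.1⟩, ⟨⟨x.1, x.2.1⟩, x.2.2, rfl⟩⟩
        map_add' := fun _ _ => rfl
        map_smul' := fun _ _ => rfl }
    refine ⟨lT S B π w, ?_⟩
    simp only [lT_comp_apply]
    rfl
  have hinjg : ∀ i, Function.Injective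
      (lT S B jV ∘ₗ lT S B (g i).subtype : B ⊗[R] ↥(g i) →ₗ[S] B ⊗[R] (A ⧸ G')) := fun i =>
    (lT_injective (S := S) (B := B) hjV).comp (lT_injective (S := S) (B := B) (g i).injective_subtype)
  -- the middle complex
  let O : ℤ → Submodule S (Finset (Fin d) → B ⊗[R] A) := fun r =>
    DT B y P Gt τ' r ⊓ kchain S d (B ⊗[R] A) (p + 1)
  let D3 : ℤ → Submodule S (Finset (Fin d) → B ⊗[R] A) := fun r =>
    DT B y P Gt τ r ⊔ (O r ⊔ (O (r - 1)).map (dT B y δ))
  have hd : dT B y δ ∘ₗ dT B y δ = 0 := dT_dT y δ H.sq0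
  have hQ := DT_stable (S := S) (B := B) H y τ
  have hP' := DT_stable (S := S) (B := B) H y τ'
  have hle : ∀ r, DT B y P Gt τ r ≤ DT B y P Gt τ' r :=
    DT_mono y H.anti fun l _ => by
      by_cases hl : l = p
      · subst hl; rw [hτ.at_p, hτ.at_p']; omega
      · rw [hτ.other l hl]
  have hD3le : ∀ r, D3 r ≤ DT B y P Gt τ' r := fun r =>
    sup_le (hle r) (sup_le inf_le_left ((Submodule.map_mono inf_le_left).trans (hP'.map_pred r)))
  have hD3 : IsStable (dT B y δ) D3 := by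
    intro r
    simp only [D3, Submodule.map_sup]
    refine sup_le ((hQ r).trans le_sup_left) (sup_le ?_ ?_)
    · simp only [add_sub_cancel_right]
      exact le_sup_of_le_right le_sup_right
    · rw [← Submodule.map_comp, hd, Submodule.map_zero]
      exact bot_le
  have hacyc : ∀ r, hlen S (dT B y δ) D3 (DT B y P Gt τ) r = 0 := by
    refine hlen_eq_zero_of_cone hd hQ (fun r => rfl) fun r => ?_
    rintro f ⟨⟨hf, hfc⟩, hdf⟩
    rw [SetLike.mem_coe, mem_DT] at hf
    rw [SetLike.mem_coe, Submodule.mem_comap, mem_DT] at hdf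
    rw [mem_DT]
    constructor
    · intro s
      by_cases hs : s.card = p + 1
      · have h := hup s hs
        have h2 := hf.1 s
        rw [h.1] at h2
        rw [h.2]; exact h2
      · rw [hfc s hs]; exact Submodule.zero_mem _
    · intro s
      by_cases hs : s.card = p
      · have h2 := gbar_mono (S := S) (B := B) inf_le_left (hdf.1 s)
        rwa [dT_apply, hfc s (by omega), map_zero, smul_zero, add_zero] at h2
      · rw [kd_mem_kchain y hfc s hs]; exact Submodule.zero_mem _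
  let E : ℤ → Submodule S (HQ (R := R) B y (↥(Gt j) ⧸ N) p) := fun i => EE B y p (g i)
  have hE : IsStable (hpMap B y p δV) E := fun i => by
    simp only [E]
    rw [← EE_map HB hVk]
    exact EE_mono p (hg i)
  have hE' : IsStable ((-1 : ℤ) ^ p • hpMap B y p δV) E := by
    rintro i _ ⟨x, hx, rfl⟩
    exact zsmul_mem (hE i (Submodule.mem_map_of_mem hx)) _
  refine ⟨hle, hD3, fun r => le_sup_left, hD3le, hacyc, hι, hιδ, hE', hVk, ?_, ?_, ?_⟩
  · -- commutation
    intro i f hf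
    rw [mem_DT] at hf
    have hw : ∀ s : Finset (Fin d), s.card = p + 1 →
        ∃ w : B ⊗[R] (↥(Gt j) ⧸ N), lT S B jV w = lT S B G'.mkQ (f s) := by
      intro s hs
      have h1 := hf.1 s
      rw [(hup s hs).1] at h1
      obtain ⟨z, hz⟩ := hproj _ _ h1
      exact ⟨_, hz.symm⟩
    choose! w hw using hw
    let W : Finset (Fin d) → B ⊗[R] (↥(Gt j) ⧸ N) := fun s => if s.card = p + 1 then w s else 0
    have hW : W ∈ kchain S d _ (p + 1) := fun s hs => if_neg hs
    show Submodule.Quotient.mk (sel (dT B y δ f)) =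
      ((-1 : ℤ) ^ p) • Submodule.Quotient.mk (p := Bd') (kmap d (lT S B δA) (sel f))
    rw [← Submodule.Quotient.mk_smul, Submodule.Quotient.eq]
    refine ⟨kd y _ W, ⟨W, hW, rfl⟩, ?_⟩
    rw [← kd_kmap]
    funext s
    simp only [Pi.sub_apply, Pi.smul_apply, kmap_apply, hsel, dT_apply]
    by_cases hs : s.card = p
    · rw [if_pos hs, if_pos hs, map_add, map_zsmul, hs, lT_comp_apply (S := S) (B := B),
        lT_comp_apply (S := S) (B := B), show δA ∘ₗ G'.mkQ = G'.mkQ ∘ₗ δ from rfl,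
        add_sub_cancel_right, kd_apply, kd_apply, map_sum]
      refine Finset.sum_congr rfl fun l hl => ?_
      have hc : (insert l s).card = p + 1 := by rw [hins s l (by simpa using hl), hs]
      rw [map_zsmul, map_smul, kmap_apply]
      simp only [W, if_pos hc, hw _ hc]
    · rw [if_neg hs, if_neg hs, map_zero, smul_zero, sub_zero]
      exact kd_mem_kchain y (kmap_kchain_le _ _ (Submodule.mem_map_of_mem hW)) s hs
  · -- surjectivity
    intro i
    simp only [sup_bot_eq]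
    apply le_antisymm
    · rintro _ ⟨f, hf, rfl⟩
      rw [SetLike.mem_coe, mem_DT] at hf
      have hz : ∀ s : Finset (Fin d), s.card = p →
          ∃ z : B ⊗[R] ↥(g (i + p)),
            lT S B G'.mkQ (f s) = lT S B jV (lT S B (g (i + p)).subtype z) := by
        intro s hs
        have h1 := hf.1 s
        rw [hs, hτ.at_p'] at h1
        exact hproj _ _ h1
      choose! z hz using hz
      let Z : Finset (Fin d) → B ⊗[R] ↥(g (i + p)) := fun s => if s.card = p then z s else 0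
      have hZc : Z ∈ kchain S d _ p := fun s hs => if_neg hs
      have hZsel : kmap d (lT S B jV) (kmap d (lT S B (g (i + p)).subtype) Z) = sel f := by
        funext s
        by_cases hs : s.card = p
        · simp [hsel, hs, Z, hz s hs]
        · simp [hsel, hs, Z]
      have hZ : Z ∈ kcyc y _ p := by
        refine ⟨hZc, ?_⟩
        rw [SetLike.mem_coe, LinearMap.mem_ker]
        funext s
        apply hinjg (i + p)
        show lT S B jV (lT S B (g (i + p)).subtype (kd y _ Z s)) = _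
        rw [← kmap_apply (d := d) (lT S B (g (i + p)).subtype), ← kd_kmap,
          ← kmap_apply (d := d) (lT S B jV), ← kd_kmap, hZsel]
        simp only [Pi.zero_apply, map_zero]
        by_cases hs : s.card + 1 = p
        · have h2 := hf.2 s
          rw [hτ.other _ (by omega), hτ.below _ hs] at h2
          rw [← hmkQ0 _ h2, kd_apply, kd_apply, map_sum]
          refine Finset.sum_congr rfl fun l hl => ?_
          rw [map_zsmul, map_smul, hsel, if_pos (by rw [hins s l (by simpa using hl), hs])]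
        · rw [kd_apply]
          refine Finset.sum_eq_zero fun l hl => ?_
          rw [hsel, if_neg (by rw [hins s l (by simpa using hl)]; exact hs), smul_zero, smul_zero]
      refine ⟨hpMap B y p (g (i + p)).subtype (Submodule.Quotient.mk Z), ?_, ?_⟩
      · exact Submodule.mem_map_of_mem ⟨Z, hZ, rfl⟩
      · show Submodule.Quotient.mk (p := Bd')
          (kmap d (lT S B jV) (kmap d (lT S B (g (i + p)).subtype) Z)) = _
        rw [hZsel]; rfl
    · rintro _ ⟨_, ⟨_, ⟨Z, ⟨hZc, hZk⟩, rfl⟩, rfl⟩, rfl⟩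
      choose L hL hL' using fun s => hlift (i + p) (Z s)
      let F : Finset (Fin d) → B ⊗[R] A := fun s => if s.card = p then L s else 0
      have hFc : F ∈ kchain S d _ p := fun s hs => if_neg hs
      have hFsel : sel F = kmap d (lT S B jV) (kmap d (lT S B (g (i + p)).subtype) Z) := by
        funext s
        by_cases hs : s.card = p
        · simp [hsel, hs, F, hL' s]
        · simp [hsel, hs, hZc s hs]
      refine ⟨F, ?_, ?_⟩
      · rw [SetLike.mem_coe, mem_DT]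
        constructor
        · intro s
          by_cases hs : s.card = p
          · simp only [F, if_pos hs]
            rw [hs, hτ.at_p']
            exact hL s
          · simp only [F, if_neg hs]; exact Submodule.zero_mem _
        · intro s
          by_cases hs : s.card + 1 = p
          · rw [hτ.other _ (by omega), hτ.below _ hs, ← ker_lT_mkQ, LinearMap.mem_ker]
            have h1 : kd y _ (sel F) s = 0 := by
              rw [hFsel, kd_kmap, kd_kmap, LinearMap.mem_ker.1 hZk]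
              simp
            rw [← h1, kd_apply, kd_apply, map_sum]
            refine Finset.sum_congr rfl fun l hl => ?_
            rw [map_zsmul, map_smul, hsel, if_pos (by rw [hins s l (by simpa using hl), hs])]
          · rw [kd_apply]
            refine Submodule.sum_mem _ fun l hl => ?_
            simp only [F]
            rw [if_neg (by rw [hins s l (by simpa using hl)]; exact hs), smul_zero, smul_zero]
            exact Submodule.zero_mem _
      · show Submodule.Quotient.mk (sel F) = _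
        rw [hFsel]; rfl
  · -- kernel
    intro i
    apply le_antisymm
    · rintro f ⟨hf, hf0⟩
      have hfD : f ∈ DT B y P Gt τ' i := hf
      rw [SetLike.mem_coe, mem_DT] at hf
      have hf0' : sel f ∈ Bd' := by
        have : Submodule.Quotient.mk (p := Bd') (sel f) = 0 := hf0
        rwa [Submodule.Quotient.mk_eq_zero] at this
      have hz : ∀ s : Finset (Fin d), s.card = p →
          ∃ z : B ⊗[R] ↥(g (i + p)),
            lT S B G'.mkQ (f s) = lT S B jV (lT S B (g (i + p)).subtype z) := by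
        intro s hs
        have h1 := hf.1 s
        rw [hs, hτ.at_p'] at h1
        exact hproj _ _ h1
      choose! z hz using hz
      let Z : Finset (Fin d) → B ⊗[R] ↥(g (i + p)) := fun s => if s.card = p then z s else 0
      have hZc : Z ∈ kchain S d _ p := fun s hs => if_neg hs
      have hZsel : kmap d (lT S B jV) (kmap d (lT S B (g (i + p)).subtype) Z) = sel f := by
        funext s
        by_cases hs : s.card = p
        · simp [hsel, hs, Z, hz s hs]
        · simp [hsel, hs, Z]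
      rw [← hZsel] at hf0'
      obtain ⟨b, hb, hb'⟩ := hf0'
      have hZb : kmap d (lT S B (g (i + p)).subtype) Z ∈ kbd y _ p := hkjV hb' ▸ hb
      have hZker : Z ∈ LinearMap.ker (kd y (B ⊗[R] ↥(g (i + p)))) := by
        rw [LinearMap.mem_ker]
        have hinj2 : Function.Injective (kmap d (lT S B (g (i + p)).subtype)) := fun a b h =>
          funext fun s => lT_injective (S := S) (B := B) (g (i + p)).injective_subtype (congrFun h s)
        apply hinj2
        obtain ⟨w, hw, hw'⟩ := hZb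
        rw [← kd_kmap, ← hw', map_zero]
        exact LinearMap.congr_fun (kd_kd y) w
      have hZhp : (Submodule.Quotient.mk Z : HQ (R := R) B y ↥(g (i + p)) p) ∈
          hp B y ↥(g (i + p)) p ⊓ LinearMap.ker (hpMap B y p (g (i + p)).subtype) :=
        ⟨⟨Z, ⟨hZc, hZker⟩, rfl⟩, by
          rw [SetLike.mem_coe, LinearMap.mem_ker, hpMap_mk, Submodule.Quotient.mk_eq_zero]
          exact hZb⟩
      rw [EE_inj HB hVk, Submodule.mem_bot, Submodule.Quotient.mk_eq_zero] at hZhp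
      obtain ⟨w, hw, hw'⟩ := hZhp
      choose L hL hL' using fun s => hlift (i + p) (w s)
      let X : Finset (Fin d) → B ⊗[R] A := fun s => if s.card = p + 1 then L s else 0
      have hXc : X ∈ kchain S d _ (p + 1) := fun s hs => if_neg hs
      have hX : X ∈ O (i - 1) := by
        refine ⟨?_, hXc⟩
        rw [SetLike.mem_coe, mem_DT]
        constructor
        · intro s
          by_cases hs : s.card = p + 1
          · simp only [X, if_pos hs]
            rw [(hup s hs).1, hs, show i - 1 + ((p + 1 : ℕ) : ℤ) = i + p by push_cast; ring]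
            exact hL s
          · simp only [X, if_neg hs]; exact Submodule.zero_mem _
        · intro s
          by_cases hs : s.card = p
          · rw [hs, hτ.at_p']
            refine kd_mem_of_comp y _ X s fun l hl => ?_
            simp only [X, if_pos (show (insert l s).card = p + 1 by rw [hins s l hl, hs])]
            exact gbar_mono inf_le_left (hL _)
          · rw [kd_mem_kchain y hXc s hs]; exact Submodule.zero_mem _
      have hfX : f - dT B y δ X ∈ DT B y P Gt τ' i :=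
        Submodule.sub_mem _ hfD (hP'.map_pred i (Submodule.mem_map_of_mem hX.1))
      let f' := f - dT B y δ X
      have hp' : ∀ s : Finset (Fin d), s.card = p → f' s ∈ gbar S B G' := by
        intro s hs
        rw [← ker_lT_mkQ, LinearMap.mem_ker]
        show lT S B G'.mkQ (f s - dT B y δ X s) = 0
        rw [dT_apply, hXc s (by omega), map_zero, smul_zero, add_zero, map_sub, sub_eq_zero,
          hz s hs]
        have h1 : z s = kd y _ w s := by
          have := congrFun hw' s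
          simpa [Z, hs] using this.symm
        rw [h1, kd_apply, kd_apply, map_sum, map_sum, map_sum]
        refine Finset.sum_congr rfl fun l hl => ?_
        rw [map_zsmul, map_zsmul, map_zsmul, map_smul, map_smul, map_smul]
        simp only [X, if_pos (show (insert l s).card = p + 1 by
          rw [hins s l (by simpa using hl), hs])]
        rw [hL']
      have hfX2 : f' ∈ DT B y P Gt τ' i := hfX
      rw [mem_DT] at hfX2
      let o : Finset (Fin d) → B ⊗[R] A := fun s => if s.card = p + 1 then f' s else 0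
      have hoc : o ∈ kchain S d _ (p + 1) := fun s hs => if_neg hs
      have ho : o ∈ O i := by
        refine ⟨?_, hoc⟩
        rw [SetLike.mem_coe, mem_DT]
        constructor
        · intro s
          by_cases hs : s.card = p + 1
          · simp only [o, if_pos hs]; exact hfX2.1 s
          · simp only [o, if_neg hs]; exact Submodule.zero_mem _
        · intro s
          by_cases hs : s.card = p
          · rw [hs, hτ.at_p']
            refine kd_mem_of_comp y _ o s fun l hl => ?_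
            have hc : (insert l s).card = p + 1 := by rw [hins s l hl, hs]
            simp only [o, if_pos hc]
            have h1 := gbar_mono (S := S) (B := B) inf_le_left (hfX2.1 (insert l s))
            rwa [(hup _ hc).1] at h1
          · rw [kd_mem_kchain y hoc s hs]; exact Submodule.zero_mem _
      have hq : f' - o ∈ DT B y P Gt τ i := by
        rw [mem_DT]
        constructor
        · intro s
          by_cases hs : s.card = p + 1
          · simp [o, hs]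
          · simp only [Pi.sub_apply, o, if_neg hs, sub_zero]
            by_cases hs' : s.card = p
            · rw [hs', hτ.at_p, gbar_inf]
              refine ⟨hp' s hs', ?_⟩
              have := gbar_mono (S := S) (B := B) inf_le_right (hfX2.1 s)
              rwa [hs'] at this
            · rw [← hτ.other _ hs']; exact hfX2.1 s
        · intro s
          by_cases hs : s.card = p
          · have h0 : kd y (B ⊗[R] A) (f' - o) s = 0 := by
              rw [kd_apply]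
              refine Finset.sum_eq_zero fun l hl => ?_
              have hc : (insert l s).card = p + 1 := by rw [hins s l (by simpa using hl), hs]
              simp [o, hc]
            rw [h0]; exact Submodule.zero_mem _
          · by_cases hs2 : s.card + 1 = p
            · rw [hτ.below _ hs2]
              refine kd_mem_of_comp y _ _ s fun l hl => ?_
              have hc : (insert l s).card = p := by rw [hins s l hl, hs2]
              simp only [Pi.sub_apply, o, if_neg (show ¬ (insert l s).card = p + 1 by omega),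
                sub_zero]
              exact hp' _ hc
            · rw [map_sub, Pi.sub_apply, kd_mem_kchain y hoc s hs, sub_zero, ← hτ.other _ hs]
              exact hfX2.2 s
      have : f = (f' - o) + (o + dT B y δ X) := by simp only [f']; abel
      rw [this]
      exact Submodule.add_mem_sup hq (Submodule.add_mem_sup ho (Submodule.mem_map_of_mem hX))
    · refine le_inf (hD3le i) (sup_le ?_ (sup_le ?_ ?_))
      · intro f hf
        rw [mem_DT] at hf
        rw [Submodule.mem_comap, Submodule.mem_bot]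
        show Submodule.Quotient.mk (sel f) = 0
        have : sel f = 0 := by
          funext s
          rw [hsel]
          by_cases hs : s.card = p
          · rw [if_pos hs]
            have h1 := gbar_mono (S := S) (B := B) inf_le_left (hf.1 s)
            rw [hs, hτ.at_p] at h1
            exact hmkQ0 _ h1
          · rw [if_neg hs]; rfl
        rw [this]; rfl
      · intro f hf
        rw [Submodule.mem_comap, Submodule.mem_bot]
        show Submodule.Quotient.mk (sel f) = 0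
        have : sel f = 0 := by
          funext s
          rw [hsel]
          by_cases hs : s.card = p
          · rw [if_pos hs, hf.2 s (by omega), map_zero]; rfl
          · rw [if_neg hs]; rfl
        rw [this]; rfl
      · rintro _ ⟨x, ⟨hx, hxc⟩, rfl⟩
        rw [Submodule.mem_comap, Submodule.mem_bot]
        show Submodule.Quotient.mk (sel (dT B y δ x)) = 0
        rw [SetLike.mem_coe, mem_DT] at hx
        have hw : ∀ s : Finset (Fin d), s.card = p + 1 →
            ∃ w : B ⊗[R] (↥(Gt j) ⧸ N), lT S B jV w = lT S B G'.mkQ (x s) := by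
          intro s hs
          have h1 := hx.1 s
          rw [(hup s hs).1] at h1
          obtain ⟨z, hz⟩ := hproj _ _ h1
          exact ⟨_, hz.symm⟩
        choose! w hw using hw
        let W : Finset (Fin d) → B ⊗[R] (↥(Gt j) ⧸ N) := fun s =>
          if s.card = p + 1 then w s else 0
        have hW : W ∈ kchain S d _ (p + 1) := fun s hs => if_neg hs
        rw [Submodule.Quotient.mk_eq_zero]
        refine ⟨kd y _ W, ⟨W, hW, rfl⟩, ?_⟩
        rw [← kd_kmap]
        funext s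
        rw [hsel]
        by_cases hs : s.card = p
        · rw [if_pos hs, dT_apply, hxc s (by omega), map_zero, smul_zero, add_zero, kd_apply,
            kd_apply, map_sum]
          refine Finset.sum_congr rfl fun l hl => ?_
          have hc : (insert l s).card = p + 1 := by rw [hins s l (by simpa using hl), hs]
          rw [map_zsmul, map_smul, kmap_apply]
          simp only [W, if_pos hc]
          exact congrArg (fun t => ksign l s • y l • t) (hw _ hc)
        · rw [if_neg hs]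
          exact kd_mem_kchain y (kmap_kchain_le _ _ (Submodule.mem_map_of_mem hW)) s hs


omit [Module.Flat R B] in
lemma sBd_map {y : Fin d → S} {Gt : ℤ → Submodule R A} {j : ℤ} (g : A →ₗ[R] A')
    (hG : ∀ j, (Gt j).map g ≤ Gt' j) (p : ℕ) :
    sBd B y Gt j p ≤ (sBd B y Gt' j p).comap (kmap d (lT S B (sAmap Gt j g hG))) := by
  rintro _ ⟨b, hb, rfl⟩
  refine ⟨kmap d (lT S B (sVmap Gt j g hG)) b,
    kmap_kbd_le y _ p (Submodule.mem_map_of_mem hb), ?_⟩
  have h : sj Gt' j ∘ₗ sVmap Gt j g hG = sAmap Gt j g hG ∘ₗ sj Gt j := by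
    refine LinearMap.ext fun x => ?_
    obtain ⟨x, rfl⟩ := Submodule.mkQ_surjective _ x
    rfl
  funext s
  simp only [kmap_apply, lT_comp_apply, h]

/-- The map of targets. -/
noncomputable abbrev sΨ {Gt : ℤ → Submodule R A} (g : A →ₗ[R] A')
    (hG : ∀ j, (Gt j).map g ≤ Gt' j) (p : ℕ) :
    ((Finset (Fin d) → B ⊗[R] (A ⧸ Gt (j + 1))) ⧸ sBd B y Gt j p) →ₗ[S]
      ((Finset (Fin d) → B ⊗[R] (A' ⧸ Gt' (j + 1))) ⧸ sBd B y Gt' j p) :=
  Submodule.mapQ _ _ (kmap d (lT S B (sAmap Gt j g hG))) (sBd_map g hG p)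

end

section

variable {R S : Type u} [CommRing R] [CommRing S] {B : Type u} [AddCommGroup B] [Module R B]
  [Module S B] [SMulCommClass R S B] {d : ℕ} {y : Fin d → S} {I : Ideal R} {β : ℕ → ℕ}
  {V W : Type u} [AddCommGroup V] [Module R V] [AddCommGroup W] [Module R W]

lemma hpMap_EE_le (h : V →ₗ[R] W) (p : ℕ) {N : Submodule R V} {N' : Submodule R W}
    (hN : N.map h ≤ N') {x : HQ (R := R) B y V p} (hx : x ∈ EE B y p N) :
    hpMap B y p h x ∈ EE B y p N' := by
  obtain ⟨z, hz, rfl⟩ := hx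
  refine ⟨hpMap B y p (h.restrict fun a ha => hN (Submodule.mem_map_of_mem ha)) z,
    hpMap_hp_le _ (Submodule.mem_map_of_mem hz), ?_⟩
  rw [hpMap_hmap, hpMap_hmap]; rfl

lemma EE_inf_ker' (H : HPHyp B y I β) (hV : KilledBy I V) (hW : KilledBy I W) (p : ℕ)
    (g : V →ₗ[R] W) (N : Submodule R V) :
    EE B y p (N ⊓ LinearMap.ker g) = EE B y p N ⊓ LinearMap.ker (hpMap B y p g) := by
  apply le_antisymm
  · refine le_inf (EE_mono p inf_le_left) ?_
    rintro _ ⟨z, _, rfl⟩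
    rw [LinearMap.mem_ker, hpMap_hmap,
      show g ∘ₗ (N ⊓ LinearMap.ker g).subtype = 0 from LinearMap.ext fun x => x.2.2, hpMap_zero]
    rfl
  · rintro _ ⟨⟨z, hz, rfl⟩, hz'⟩
    rw [SetLike.mem_coe, LinearMap.mem_ker, hpMap_hmap,
      show g ∘ₗ N.subtype = (N.map g).subtype ∘ₗ g.submoduleMap N from rfl, ← hpMap_hmap] at hz'
    have h0 : hpMap B y p (g.submoduleMap N) z = 0 := by
      have hm : hpMap B y p (g.submoduleMap N) z ∈
          hp B y ↥(N.map g) p ⊓ LinearMap.ker (hpMap B y p (N.map g).subtype) :=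
        ⟨hpMap_hp_le _ (Submodule.mem_map_of_mem hz), hz'⟩
      rwa [EE_inj H hW, Submodule.mem_bot] at hm
    have hex := H.exact ↥(LinearMap.ker (g.submoduleMap N)) ↥N ↥(N.map g)
      (LinearMap.ker (g.submoduleMap N)).subtype (g.submoduleMap N)
      (killedBy_submodule (killedBy_submodule hV N) _) (killedBy_submodule hV N)
      (killedBy_submodule hW _) (Submodule.injective_subtype _)
      (LinearMap.exact_subtype_ker_map _) (g.submoduleMap_surjective N) p
    obtain ⟨w, hw, rfl⟩ := hex.2.1 ⟨hz, h0⟩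
    let e : ↥(LinearMap.ker (g.submoduleMap N)) →ₗ[R] ↥(N ⊓ LinearMap.ker g) :=
      { toFun := fun x => ⟨x.1.1, ⟨x.1.2, congrArg Subtype.val (LinearMap.mem_ker.1 x.2)⟩⟩
        map_add' := fun _ _ => rfl
        map_smul' := fun _ _ => rfl }
    refine ⟨_, hpMap_hp_le e (Submodule.mem_map_of_mem hw), ?_⟩
    rw [hpMap_hmap, hpMap_hmap]; rfl

lemma EE_inf_comap (H : HPHyp B y I β) (hV : KilledBy I V) (hW : KilledBy I W) (p : ℕ)
    (h : V →ₗ[R] W) (Z : Submodule R V) (L : Submodule R W) :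
    EE B y p (Z ⊓ L.comap h) = EE B y p Z ⊓ (EE B y p L).comap (hpMap B y p h) := by
  have hk : L.comap h = LinearMap.ker (L.mkQ ∘ₗ h) := by
    rw [LinearMap.ker_comp, Submodule.ker_mkQ]
  rw [hk, EE_inf_ker' H hV (killedBy_quotient hW L)]
  apply le_antisymm
  · rintro x ⟨hx, hx'⟩
    refine ⟨hx, ?_⟩
    have hm : hpMap B y p h x ∈ hp B y W p ⊓ LinearMap.ker (hpMap B y p L.mkQ) := by
      refine ⟨hpMap_hp_le h (Submodule.mem_map_of_mem (EE_le p Z hx)), ?_⟩
      rw [SetLike.mem_coe, LinearMap.mem_ker, hpMap_hmap]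
      exact hx'
    exact (H.exact ↥L W (W ⧸ L) L.subtype L.mkQ (killedBy_submodule hW L) hW
      (killedBy_quotient hW L) L.injective_subtype (LinearMap.exact_subtype_mkQ L)
      L.mkQ_surjective p).2.1 hm
  · rintro x ⟨hx, hx'⟩
    refine ⟨hx, ?_⟩
    obtain ⟨w, _, hw⟩ := hx'
    rw [SetLike.mem_coe, LinearMap.mem_ker, ← hpMap_hmap, ← hw, hpMap_hmap,
      show L.mkQ ∘ₗ L.subtype = 0 from LinearMap.ext fun z =>
        (Submodule.Quotient.mk_eq_zero L).2 z.2, hpMap_zero]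
    rfl

lemma sq_EE_map (H : HPHyp B y I β) (hV : KilledBy I V) (hW : KilledBy I W) (p : ℕ)
    (h : V →ₗ[R] W) (Z : Submodule R V) (L : Submodule R W) (hfin : sq R (Z.map h) L ≠ ⊤) :
    sq S ((EE B y p Z).map (hpMap B y p h)) (EE B y p L) = β p * sq R (Z.map h) L := by
  rw [sq_map, ← sq_inf_self Z] at hfin
  rw [sq_map, sq_map, ← sq_inf_self (EE B y p Z), ← EE_inf_comap H hV hW, ← sq_inf_self Z]
  exact sq_EE H hV p inf_le_left hfin

end

section

variable {R S : Type u} [CommRing R] [CommRing S] {B : Type u} [AddCommGroup B] [Module R B]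
  [Module S B] [SMulCommClass R S B] {A A' : Type u} [AddCommGroup A] [Module R A]
  [AddCommGroup A'] [Module R A'] {d : ℕ} {y : Fin d → S} {I : Ideal R} {β : ℕ → ℕ}
  {δ : A →ₗ[R] A} {P Gt : ℤ → Submodule R A} {δ' : A' →ₗ[R] A'} {P' Gt' : ℤ → Submodule R A'}
  {g : A →ₗ[R] A'} {j : ℤ} {τ τ' : ℕ → ℤ} {p : ℕ}

lemma sel_natural (g : A →ₗ[R] A') (hG : ∀ j, (Gt j).map g ≤ Gt' j)
    (f : Finset (Fin d) → B ⊗[R] A) :
    sφ B y Gt' j p (kmap d (lT S B g) f) =
      sΨ (B := B) (y := y) (j := j) g hG p (sφ B y Gt j p f) := by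
  refine congrArg Submodule.Quotient.mk (funext fun s => ?_)
  by_cases hs : s.card = p
  · simp [hs, lT_comp_apply]
    rfl
  · simp [hs]

lemma ι_natural (g : A →ₗ[R] A') (hG : ∀ j, (Gt j).map g ≤ Gt' j)
    (x : HQ (R := R) B y (sV Gt j) p) :
    sΨ (B := B) (y := y) (j := j) g hG p (sι B y Gt j p x) =
      sι B y Gt' j p (hpMap B y p (sVmap Gt j g hG) x) := by
  obtain ⟨x, rfl⟩ := Submodule.mkQ_surjective _ x
  refine congrArg Submodule.Quotient.mk (funext fun s => ?_)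
  simp only [kmap_apply, lT_comp_apply]
  congr 2
  refine LinearMap.ext fun v => ?_
  obtain ⟨v, rfl⟩ := Submodule.mkQ_surjective _ v
  rfl

lemma range_twist [Module.Flat R B] (H : FiltSys I d δ P Gt) (H' : FiltSys I d δ' P' Gt')
    (HB : HPHyp B y I β)
    (hG : ∀ j, (Gt j).map g ≤ Gt' j) (hτ : TwistStep d τ τ' p j) (r : ℤ)
    (h₁ : ∀ i, ∀ f ∈ DT B y P Gt τ' i, kmap d (lT S B g) f ∈ DT B y P' Gt' τ' i)
    (h₂ : ∀ i, ∀ f ∈ DT B y P Gt τ i, kmap d (lT S B g) f ∈ DT B y P' Gt' τ i)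
    (hc : ∀ i, ∀ f ∈ DT B y P Gt τ' i,
      kmap d (lT S B g) (dT B y δ f) = dT B y δ' (kmap d (lT S B g) f))
    (c₁ : ∀ i, ∀ x ∈ EE B y p (sg P Gt j (i + p)),
      hpMap B y p (sVmap Gt j g hG) x ∈ EE B y p (sg P' Gt' j (i + p)))
    (c₂ : ℤ → ∀ x ∈ (⊥ : Submodule S (HQ (R := R) B y (sV Gt j) p)),
      hpMap B y p (sVmap Gt j g hG) x ∈ (⊥ : Submodule S (HQ (R := R) B y (sV Gt' j) p)))
    (c₃ : ∀ i, ∀ x ∈ EE B y p (sg P Gt j (i + p)), hpMap B y p (sVmap Gt j g hG)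
      (((-1 : ℤ) ^ p • hpMap B y p (sVmap Gt j δ H.level)) x) =
        ((-1 : ℤ) ^ p • hpMap B y p (sVmap Gt' j δ' H'.level))
          (hpMap B y p (sVmap Gt j g hG) x)) :
    Module.length S ↥(LinearMap.range
        (hmap (δ := dT B y δ) (δ' := dT B y δ') (kmap d (lT S B g)) h₁ h₂ hc r)) =
      Module.length S ↥(LinearMap.range (hmap (hpMap B y p (sVmap Gt j g hG))
        (P := fun i => EE B y p (sg P Gt j (i + p))) (Q := fun _ => ⊥)
        (P' := fun i => EE B y p (sg P' Gt' j (i + p))) (Q' := fun _ => ⊥) c₁ c₂ c₃ r)) := by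
  have pr := step_props H HB hτ
  have pr' := step_props H' HB hτ
  have hD := pr.2.1
  have hQD := pr.2.2.1
  have hDP := pr.2.2.2.1
  have hac := pr.2.2.2.2.1
  have hι := pr.2.2.2.2.2.1
  have hιδ := pr.2.2.2.2.2.2.1
  have hE := pr.2.2.2.2.2.2.2.1
  have hcomm := pr.2.2.2.2.2.2.2.2.2.1
  have hsur := pr.2.2.2.2.2.2.2.2.2.2.1
  have hker := pr.2.2.2.2.2.2.2.2.2.2.2
  have hD' := pr'.2.1
  have hQD' := pr'.2.2.1
  have hDP' := pr'.2.2.2.1
  have hac' := pr'.2.2.2.2.1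
  have hι' := pr'.2.2.2.2.2.1
  have hιδ' := pr'.2.2.2.2.2.2.1
  have hE' := pr'.2.2.2.2.2.2.2.1
  have hcomm' := pr'.2.2.2.2.2.2.2.2.2.1
  have hsur' := pr'.2.2.2.2.2.2.2.2.2.2.1
  have hker' := pr'.2.2.2.2.2.2.2.2.2.2.2
  have hΦD : ∀ i, ∀ f ∈ sD3 B y δ P Gt τ τ' p i,
      kmap d (lT S B g) f ∈ sD3 B y δ' P' Gt' τ τ' p i := by
    intro i f hf
    obtain ⟨q, hq, w, hw, rfl⟩ := Submodule.mem_sup.1 hf
    obtain ⟨o, ho, _, ⟨o', ho', rfl⟩, rfl⟩ := Submodule.mem_sup.1 hw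
    rw [map_add, map_add, hc _ o' ho'.1]
    exact Submodule.add_mem_sup (h₂ i q hq) (Submodule.add_mem_sup
      ⟨h₁ i o ho.1, kmap_kchain_le _ _ (Submodule.mem_map_of_mem ho.2)⟩
      (Submodule.mem_map_of_mem
        ⟨h₁ _ o' ho'.1, kmap_kchain_le _ _ (Submodule.mem_map_of_mem ho'.2)⟩))
  have hshift : ∀ {Q : ℤ → Submodule S (HQ (R := R) B y (sV Gt j) p)}
      {D : HQ (R := R) B y (sV Gt j) p →ₗ[S] HQ (R := R) B y (sV Gt j) p},
      IsStable D Q → IsStable D (fun i => Q (i + p)) := fun hQ i => by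
    have := hQ (i + p)
    rwa [add_right_comm] at this
  have hshift' : ∀ {Q : ℤ → Submodule S (HQ (R := R) B y (sV Gt' j) p)}
      {D : HQ (R := R) B y (sV Gt' j) p →ₗ[S] HQ (R := R) B y (sV Gt' j) p},
      IsStable D Q → IsStable D (fun i => Q (i + p)) := fun hQ i => by
    have := hQ (i + p)
    rwa [add_right_comm] at this
  exact range_chain (dT_dT y δ H.sq0) (dT_dT y δ' H'.sq0) (DT_stable H y τ') (DT_stable H' y τ')
    hD hD' hQD hQD' hDP hDP' hac hac' (hshift hE) (hshift' hE') (sφ B y Gt j p) (sφ B y Gt' j p)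
    (sι B y Gt j p) (sι B y Gt' j p) hι hι' hιδ hιδ' hcomm hcomm' hsur hsur' hker hker'
    (kmap d (lT S B g)) h₁ h₂ hc hΦD (sΨ (B := B) (y := y) (j := j) g hG p) (sel_natural g hG)
    (hpMap B y p (sVmap Gt j g hG)) c₁ c₂ c₃ (ι_natural g hG) r

lemma range_piece (H : FiltSys I d δ P Gt) (H' : FiltSys I d δ' P' Gt')
    (hg : δ' ∘ₗ g = g ∘ₗ δ) (hP : ∀ i, (P i).map g ≤ P' i) (hG : ∀ j, (Gt j).map g ≤ Gt' j)
    (k : ℤ) (e₁ : ∀ i, ∀ x ∈ Gt j ⊓ P i, g x ∈ Gt' j ⊓ P' i)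
    (e₂ : ∀ i, ∀ x ∈ Gt (j + 1) ⊓ P i, g x ∈ Gt' (j + 1) ⊓ P' i)
    (ec : ∀ i, ∀ x ∈ Gt j ⊓ P i, g (δ x) = δ' (g x))
    (b₁ : ∀ i, ∀ x ∈ sg P Gt j i, sVmap Gt j g hG x ∈ sg P' Gt' j i)
    (b₂ : ℤ → ∀ x ∈ (⊥ : Submodule R (sV Gt j)),
      sVmap Gt j g hG x ∈ (⊥ : Submodule R (sV Gt' j)))
    (b₃ : ∀ i, ∀ x ∈ sg P Gt j i, sVmap Gt j g hG (sVmap Gt j δ H.level x) =
      sVmap Gt' j δ' H'.level (sVmap Gt j g hG x)) :
    Module.length R ↥(LinearMap.range (hmap (δ := δ) (δ' := δ') g e₁ e₂ ec k)) =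
      Module.length R ↥(LinearMap.range (hmap (sVmap Gt j g hG) b₁ b₂ b₃ k)) := by
  let gres : ↥(Gt j) →ₗ[R] ↥(Gt' j) := g.restrict fun x hx => hG j (Submodule.mem_map_of_mem hx)
  let δres : ↥(Gt j) →ₗ[R] ↥(Gt j) :=
    δ.restrict fun x hx => H.level j (Submodule.mem_map_of_mem hx)
  let δres' : ↥(Gt' j) →ₗ[R] ↥(Gt' j) :=
    δ'.restrict fun x hx => H'.level j (Submodule.mem_map_of_mem hx)
  let Pr : ℤ → Submodule R ↥(Gt j) := fun i => (P i).comap (Gt j).subtype
  let Pr' : ℤ → Submodule R ↥(Gt' j) := fun i => (P' i).comap (Gt' j).subtype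
  have hPr : IsStable δres Pr := by
    rintro i _ ⟨x, hx, rfl⟩
    exact H.degree i (Submodule.mem_map_of_mem hx)
  have hPr' : IsStable δres' Pr' := by
    rintro i _ ⟨x, hx, rfl⟩
    exact H'.degree i (Submodule.mem_map_of_mem hx)
  have hQA : IsStable δ (fun i => Gt (j + 1) ⊓ P i) := fun i =>
    (Submodule.map_inf_le _).trans (inf_le_inf (H.level _) (H.degree i))
  have hQA' : IsStable δ' (fun i => Gt' (j + 1) ⊓ P' i) := fun i =>
    (Submodule.map_inf_le _).trans (inf_le_inf (H'.level _) (H'.degree i))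
  have a₁ : ∀ i, ∀ x ∈ Pr i, gres x ∈ Pr' i := fun i x hx => hP i (Submodule.mem_map_of_mem hx)
  have a₂ : ∀ i, ∀ x ∈ Pr i ⊓ sN Gt j, gres x ∈ Pr' i ⊓ sN Gt' j := fun i x hx =>
    ⟨hP i (Submodule.mem_map_of_mem hx.1), hG (j + 1) (Submodule.mem_map_of_mem hx.2)⟩
  have a₃ : ∀ i, ∀ x ∈ Pr i, gres (δres x) = δres' (gres x) := fun i x _ =>
    Subtype.ext (LinearMap.congr_fun hg x.1).symm
  have c₁ : ∀ i, ∀ x ∈ Pr i, (sN Gt j).mkQ x ∈ sg P Gt j i := fun i x hx =>
    Submodule.mem_map_of_mem hx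
  have c₂ : ∀ i, ∀ x ∈ Pr i ⊓ sN Gt j, (sN Gt j).mkQ x ∈ (⊥ : Submodule R (sV Gt j)) :=
    fun i x hx => (Submodule.Quotient.mk_eq_zero _).2 hx.2
  have c₃ : ∀ i, ∀ x ∈ Pr i, (sN Gt j).mkQ (δres x) = sVmap Gt j δ H.level ((sN Gt j).mkQ x) :=
    fun _ _ _ => rfl
  have c₁' : ∀ i, ∀ x ∈ Pr' i, (sN Gt' j).mkQ x ∈ sg P' Gt' j i := fun i x hx =>
    Submodule.mem_map_of_mem hx
  have c₂' : ∀ i, ∀ x ∈ Pr' i ⊓ sN Gt' j, (sN Gt' j).mkQ x ∈ (⊥ : Submodule R (sV Gt' j)) :=
    fun i x hx => (Submodule.Quotient.mk_eq_zero _).2 hx.2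
  have c₃' : ∀ i, ∀ x ∈ Pr' i,
      (sN Gt' j).mkQ (δres' x) = sVmap Gt' j δ' H'.level ((sN Gt' j).mkQ x) :=
    fun _ _ _ => rfl
  rw [← hmap_square gres a₁ a₂ a₃ (sVmap Gt j g hG) b₁ b₂ b₃ _ c₁ c₂ c₃ _ c₁' c₂' c₃' k
    (hmap_bijective _ hPr (fun i => by simp) c₁ c₂ c₃ (fun i => le_sup_left)
      (fun i x hx hx' => ⟨hx, (Submodule.Quotient.mk_eq_zero _).1 hx'⟩) _).2
    (hmap_bijective _ hPr' (fun i => by simp) c₁' c₂' c₃' (fun i => le_sup_left)
      (fun i x hx hx' => ⟨hx, (Submodule.Quotient.mk_eq_zero _).1 hx'⟩) _).1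
    (fun _ _ => rfl)]
  have d₁ : ∀ i, ∀ x ∈ Pr i, (Gt j).subtype x ∈ Gt j ⊓ P i := fun i x hx => ⟨x.2, hx⟩
  have d₂ : ∀ i, ∀ x ∈ Pr i ⊓ sN Gt j, (Gt j).subtype x ∈ Gt (j + 1) ⊓ P i :=
    fun i x hx => ⟨hx.2, hx.1⟩
  have d₃ : ∀ i, ∀ x ∈ Pr i, (Gt j).subtype (δres x) = δ ((Gt j).subtype x) := fun _ _ _ => rfl
  have d₁' : ∀ i, ∀ x ∈ Pr' i, (Gt' j).subtype x ∈ Gt' j ⊓ P' i := fun i x hx => ⟨x.2, hx⟩
  have d₂' : ∀ i, ∀ x ∈ Pr' i ⊓ sN Gt' j, (Gt' j).subtype x ∈ Gt' (j + 1) ⊓ P' i :=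
    fun i x hx => ⟨hx.2, hx.1⟩
  have d₃' : ∀ i, ∀ x ∈ Pr' i, (Gt' j).subtype (δres' x) = δ' ((Gt' j).subtype x) :=
    fun _ _ _ => rfl
  exact (hmap_square gres a₁ a₂ a₃ g e₁ e₂ ec _ d₁ d₂ d₃ _ d₁' d₂' d₃' k
    (hmap_bijective _ hPr hQA d₁ d₂ d₃
      (fun i x hx => Submodule.mem_sup_left ⟨⟨x, hx.1⟩, hx.2, rfl⟩)
      (fun i x hx hx' => ⟨hx, hx'.1⟩) _).2
    (hmap_bijective _ hPr' hQA' d₁' d₂' d₃'
      (fun i x hx => Submodule.mem_sup_left ⟨⟨x, hx.1⟩, hx.2, rfl⟩)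
      (fun i x hx hx' => ⟨hx, hx'.1⟩) _).1
    (fun _ _ => rfl)).symm

lemma map_comap_sign {M : Type*} [AddCommGroup M] [Module S M] (D : M →ₗ[S] M)
    (N : Submodule S M) (p : ℕ) :
    N.comap ((-1 : ℤ) ^ p • D) = N.comap D ∧ N.map ((-1 : ℤ) ^ p • D) = N.map D := by
  rcases Nat.even_or_odd p with hp | hp
  · rw [hp.neg_one_pow, one_smul]
    exact ⟨rfl, rfl⟩
  · rw [hp.neg_one_pow, neg_one_smul]
    refine ⟨by ext x; simp, ?_⟩
    ext x
    constructor <;> rintro ⟨a, ha, rfl⟩ <;> exact ⟨-a, N.neg_mem ha, by simp⟩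

end

end StepMap

open StepMap in
theorem goalStepMap : GoalStepMap.{u} := by
  intro R S _ _ B _ _ _ _ _ A A' _ _ _ _ d y I β δ P Gt δ' P' Gt' H H' HB g hg hP hG τ τ' p j hτ r
    _ hfin' h₁ h₂ hc e₁ e₂ ec
  have hV := (step_props H HB hτ).2.2.2.2.2.2.2.2.1
  have hV' := (step_props H' HB hτ).2.2.2.2.2.2.2.2.1
  have hgV : ∀ i, (sg P Gt j i).map (sVmap Gt j g hG) ≤ sg P' Gt' j i := by
    rintro i _ ⟨_, ⟨x, hx, rfl⟩, rfl⟩
    exact ⟨g.restrict (fun a ha => hG j (Submodule.mem_map_of_mem ha)) x,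
      hP i (Submodule.mem_map_of_mem hx), rfl⟩
  have hgVδ : sVmap Gt j g hG ∘ₗ sVmap Gt j δ H.level =
      sVmap Gt' j δ' H'.level ∘ₗ sVmap Gt j g hG := by
    refine LinearMap.ext fun x => ?_
    obtain ⟨x, rfl⟩ := Submodule.mkQ_surjective _ x
    exact congrArg Submodule.Quotient.mk (Subtype.ext (LinearMap.congr_fun hg x.1).symm)
  have b₁ : ∀ i, ∀ x ∈ sg P Gt j i, sVmap Gt j g hG x ∈ sg P' Gt' j i := fun i x hx =>
    hgV i (Submodule.mem_map_of_mem hx)
  have b₂ : ℤ → ∀ x ∈ (⊥ : Submodule R (sV Gt j)),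
      sVmap Gt j g hG x ∈ (⊥ : Submodule R (sV Gt' j)) :=
    fun _ t ht => by rw [Submodule.mem_bot] at ht ⊢; rw [ht, map_zero]
  have b₃ : ∀ i, ∀ x ∈ sg P Gt j i, sVmap Gt j g hG (sVmap Gt j δ H.level x) =
      sVmap Gt' j δ' H'.level (sVmap Gt j g hG x) := fun i x _ => LinearMap.congr_fun hgVδ x
  rw [range_twist H H' HB hG hτ r h₁ h₂ hc
      (fun i x hx => hpMap_EE_le _ p (hgV _) hx)
      (fun _ t ht => by rw [Submodule.mem_bot] at ht ⊢; rw [ht, map_zero])
      (fun i x _ => by simp only [LinearMap.smul_apply, map_zsmul, hpMap_hmap, hgVδ]),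
    range_piece H H' hg hP hG (r + p) e₁ e₂ ec b₁ b₂ b₃]
  have hne : Module.length R ↥(LinearMap.range (hmap (sVmap Gt j g hG) b₁ b₂ b₃ (r + p))) ≠ ⊤ := by
    rw [← range_piece H H' hg hP hG (r + p) e₁ e₂ ec b₁ b₂ b₃]
    exact ne_top_of_le_ne_top hfin'
      (Module.length_le_of_injective _ (Submodule.injective_subtype _))
  rw [length_range_hmap] at hne ⊢
  rw [length_range_hmap]
  simp only [hcyc, hbd, Submodule.comap_bot, sup_bot_eq] at hne ⊢
  rw [(map_comap_sign _ _ p).2, show r - 1 + (p : ℤ) = r + p - 1 by ring, ← EE_map HB hV',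
    show LinearMap.ker ((-1 : ℤ) ^ p • hpMap B y p (sVmap Gt j δ H.level)) =
        LinearMap.ker (hpMap B y p (sVmap Gt j δ H.level)) by
      simpa only [Submodule.comap_bot] using
        (map_comap_sign (hpMap B y p (sVmap Gt j δ H.level)) ⊥ p).1,
    ← EE_inf_ker HB hV]
  exact sq_EE_map HB hV hV' p _ _ _ hne

end Vale.Agent.P202
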