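import Mathlib

/-!
Counting lattice points by the residue of their weight counted in units of `Q`, and writing a
multiple of a greatest common divisor with non-negative coefficients.
-/

namespace Vale.Agent.P202.M9

open Finset

/-- Residues of the quotient of `c x + W₀` by `Q` are equidistributed up to `c`. -/
lemma le_card_class_one (c g Q r W₀ : ℕ) (hc : 0 < c) (hg : g ∣ c) (hr : r < g) :
    Q - c ≤ g * ((Finset.range Q).filter fun x => (c * x + W₀) / Q % g = r).card := by
  classical
  by_cases hQc : Q ≤ c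
  · rw [Nat.sub_eq_zero_of_le hQc]; exact Nat.zero_le _
  have hQ : 0 < Q := by omega
  have hg0 : 0 < g := by omega
  obtain ⟨h, hh⟩ := hg
  let m : ℕ → ℕ := fun i => r + g * W₀ + g * i
  let x0 : ℕ → ℕ := fun i => (m i * Q - W₀ + (c - 1)) / c
  have hfloor : ∀ i t, t < Q / c → (c * (x0 i + t) + W₀) / Q = m i := by
    intro i t ht
    have h1 : W₀ ≤ m i * Q := by
      have : W₀ ≤ g * W₀ := Nat.le_mul_of_pos_left _ hg0
      have : m i ≤ m i * Q := Nat.le_mul_of_pos_right _ hQ
      simp only [m] at *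
      omega
    have h2 : c * x0 i ≤ m i * Q - W₀ + (c - 1) := Nat.mul_div_le _ _
    have h3 : m i * Q - W₀ + (c - 1) < c * x0 i + c := by
      have := Nat.div_add_mod (m i * Q - W₀ + (c - 1)) c
      have := Nat.mod_lt (m i * Q - W₀ + (c - 1)) hc
      simp only [x0]
      omega
    have h4 : c * t + c ≤ Q :=
      calc c * t + c = c * (t + 1) := by ring
        _ ≤ c * (Q / c) := Nat.mul_le_mul_left _ ht
        _ ≤ Q := Nat.mul_div_le _ _
    refine Nat.div_eq_of_lt_le ?_ ?_
    · rw [mul_add]; omega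
    · rw [mul_add, Nat.succ_mul]; omega
  have hper : ∀ x, (c * x + W₀) / Q = (c * (x % Q) + W₀) / Q + c * (x / Q) := by
    intro x
    conv_lhs => rw [← Nat.mod_add_div x Q]
    rw [show c * (x % Q + Q * (x / Q)) + W₀ = c * (x % Q) + W₀ + c * (x / Q) * Q by ring,
      Nat.add_mul_div_right _ _ hQ]
  let S : Finset (ℕ × ℕ) := Finset.range h ×ˢ Finset.range (Q / c)
  let f : ℕ × ℕ → ℕ := fun it => (x0 it.1 + it.2) % Q
  have hmaps : ∀ it ∈ S, f it ∈
      (Finset.range Q).filter fun x => (c * x + W₀) / Q % g = r := by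
    rintro ⟨i, t⟩ hit
    simp only [S, Finset.mem_product, Finset.mem_range] at hit
    simp only [f, Finset.mem_filter, Finset.mem_range]
    refine ⟨Nat.mod_lt _ hQ, ?_⟩
    have h1 := hper (x0 i + t)
    rw [hfloor i t hit.2] at h1
    have h2 : m i % g = r := by
      simp only [m]
      rw [Nat.add_mul_mod_self_left, Nat.add_mul_mod_self_left, Nat.mod_eq_of_lt hr]
    rw [h1] at h2
    rwa [hh, mul_assoc g h ((x0 i + t) / Q), Nat.add_mul_mod_self_left, ← hh] at h2
  have hinj : Set.InjOn f (S : Set (ℕ × ℕ)) := by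
    rintro ⟨i, t⟩ hit ⟨i', t'⟩ hit' e
    simp only [S, Finset.coe_product, Set.mem_prod, Finset.coe_range, Set.mem_Iio] at hit hit'
    simp only [f] at e
    have h1 := hper (x0 i + t)
    rw [hfloor i t hit.2, e] at h1
    have h2 := hper (x0 i' + t')
    rw [hfloor i' t' hit'.2] at h2
    set A := (c * ((x0 i' + t') % Q) + W₀) / Q
    set u := (x0 i + t) / Q with hu
    set u' := (x0 i' + t') / Q with hu'
    have h3 : g * i + c * u' = g * i' + c * u := by
      simp only [m] at h1 h2
      omega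
    have h4 : i + h * u' = i' + h * u := by
      apply Nat.eq_of_mul_eq_mul_left hg0
      rw [mul_add, mul_add, ← mul_assoc, ← mul_assoc, ← hh]
      exact h3
    have h5 : i = i' := by
      have := congrArg (· % h) h4
      simp only [Nat.add_mul_mod_self_left] at this
      rwa [Nat.mod_eq_of_lt hit.1, Nat.mod_eq_of_lt hit'.1] at this
    subst h5
    have h6 : u = u' := by
      have := Nat.add_left_cancel h4
      exact (Nat.eq_of_mul_eq_mul_left (by omega) this).symm
    have h7 := Nat.mod_add_div (x0 i + t) Q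
    have h8 := Nat.mod_add_div (x0 i + t') Q
    rw [← hu, h6, e] at h7
    rw [← hu'] at h8
    have : t = t' := by omega
    rw [this]
  have hcard := Finset.card_le_card_of_injOn f hmaps hinj
  simp only [S, Finset.card_product, Finset.card_range] at hcard
  calc Q - c ≤ c * (Q / c) := by
        have := Nat.div_add_mod Q c
        have := Nat.mod_lt Q hc
        omega
    _ = g * (h * (Q / c)) := by rw [hh, mul_assoc]
    _ ≤ _ := Nat.mul_le_mul_left g hcard

/-- The same for vectors of exponents below `Q`. -/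
lemma le_card_class {d : ℕ} (W : Fin (d + 1) → ℕ) (g Q r : ℕ) (hW : 0 < W 0) (hg : g ∣ W 0)
    (hr : r < g) :
    (Q - W 0) * Q ^ d ≤ g * (Finset.univ.filter fun γ : Fin (d + 1) → Fin Q =>
      (∑ l, W l * (γ l : ℕ)) / Q % g = r).card := by
  classical
  have hsum : ∀ γ : Fin d → Fin Q, Q - W 0 ≤ g * (Finset.univ.filter fun x : Fin Q =>
      (W 0 * (x : ℕ) + ∑ l : Fin d, W l.succ * (γ l : ℕ)) / Q % g = r).card := by
    intro γ
    refine (le_card_class_one (W 0) g Q r (∑ l : Fin d, W l.succ * (γ l : ℕ)) hW hg hr).trans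
      (Nat.mul_le_mul_left g (le_of_eq ?_))
    rw [← Finset.card_map Fin.valEmbedding]
    congr 1
    ext x
    simp only [Finset.mem_filter, Finset.mem_range, Finset.mem_map, Finset.mem_univ, true_and,
      Fin.valEmbedding_apply]
    exact ⟨fun ⟨h1, h2⟩ => ⟨⟨x, h1⟩, h2, rfl⟩, fun ⟨a, h1, h2⟩ => h2 ▸ ⟨a.isLt, h1⟩⟩
  have hcard : (Finset.univ.filter fun γ : Fin (d + 1) → Fin Q =>
      (∑ l, W l * (γ l : ℕ)) / Q % g = r).card = ∑ γ : Fin d → Fin Q,
        (Finset.univ.filter fun x : Fin Q =>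
          (W 0 * (x : ℕ) + ∑ l : Fin d, W l.succ * (γ l : ℕ)) / Q % g = r).card := by
    simp only [Finset.card_filter]
    rw [← Equiv.sum_comp (Fin.consEquiv fun _ => Fin Q), Fintype.sum_prod_type, Finset.sum_comm]
    refine Finset.sum_congr rfl fun γ _ => Finset.sum_congr rfl fun x _ => ?_
    simp [Fin.sum_univ_succ]
  rw [hcard, Finset.mul_sum]
  refine le_trans (le_of_eq ?_) (Finset.sum_le_sum fun γ _ => hsum γ)
  simp [Finset.sum_const, mul_comm]

/-- A large multiple of the greatest common divisor is a non-negative combination. -/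
lemma exists_combination {b c δ : ℕ} (hb : 0 < b) (hg : Nat.gcd b c ∣ δ) (hδ : b * c ≤ δ) :
    ∃ α β : ℕ, β < b ∧ δ = α * b + β * c := by
  obtain ⟨t, ht⟩ := hg
  have hbez := Nat.gcd_eq_gcd_ab b c
  set A := Nat.gcdA b c
  set B := Nat.gcdB b c
  obtain ⟨β, hβ⟩ : ∃ β : ℕ, (β : ℤ) = (B * t) % b :=
    ⟨((B * t) % (b : ℤ)).toNat, Int.toNat_of_nonneg (Int.emod_nonneg _ (by omega))⟩
  have hlt : β < b := by
    have := Int.emod_lt_of_pos (B * t) (b := (b : ℤ)) (by omega)
    omega
  have hle : β * c ≤ δ := (Nat.mul_le_mul_right c hlt.le).trans hδ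
  have hdvd : (b : ℤ) ∣ ((δ - β * c : ℕ) : ℤ) := by
    refine ⟨A * t + c * ((B * t) / b), ?_⟩
    rw [Nat.cast_sub hle, Nat.cast_mul, hβ, ht, Nat.cast_mul, hbez, Int.emod_def]
    ring
  obtain ⟨α, hα⟩ := Int.natCast_dvd_natCast.1 hdvd
  exact ⟨α, β, hlt, by rw [mul_comm α b, ← hα]; omega⟩

end Vale.Agent.P202.M9
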