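import Mathlib

/-!
Among generators of a field finite over a rational function field in `d` variables over a perfect
field, some `d` of them have independent monomials with exponents below `p ^ j` over the
`p ^ j`-th powers, for every `j`.
-/

universe u v w

namespace Vale.Agent.P202.M9

open Finset

section generic

variable {K : Type v} [Field K] (p : ℕ) [Fact p.Prime] [CharP K p] {s : ℕ}

/-- The monomials of exponents below `p ^ j` in `y` are independent over the `p ^ j`-th powers. -/
def PIndep (j : ℕ) (y : Fin s → K) : Prop :=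
  ∀ c : (Fin s → Fin (p ^ j)) → K,
    ∑ γ, c γ ^ p ^ j * ∏ l, y l ^ (γ l : ℕ) = 0 → c = 0

/-- The monomials of exponents below `p ^ j` in `y` span over the `p ^ j`-th powers. -/
def PSpan (j : ℕ) (y : Fin s → K) : Prop :=
  ∀ z : K, ∃ c : (Fin s → Fin (p ^ j)) → K, z = ∑ γ, c γ ^ p ^ j * ∏ l, y l ^ (γ l : ℕ)

omit [CharP K p] [Fact p.Prime] in
/-- Exponents below `p ^ (j + 1)` split into two blocks. -/
lemma exists_split (j : ℕ) : ∃ E : (Fin s → Fin (p ^ j)) × (Fin s → Fin p) ≃
    (Fin s → Fin (p ^ (j + 1))), ∀ δ γ l,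
      (E (δ, γ) l : ℕ) = (γ l : ℕ) + p * (δ l : ℕ) :=
  ⟨(Equiv.arrowProdEquivProdArrow (Fin s) (fun _ => Fin (p ^ j)) (fun _ => Fin p)).symm.trans
      (Equiv.piCongrRight fun _ => finProdFinEquiv.trans (finCongr (pow_succ p j).symm)),
    fun δ γ l => by simp [finProdFinEquiv, Equiv.arrowProdEquivProdArrow]⟩

lemma sum_split (j : ℕ) (y : Fin s → K) (E : (Fin s → Fin (p ^ j)) × (Fin s → Fin p) ≃
      (Fin s → Fin (p ^ (j + 1))))
    (hE : ∀ δ γ l, (E (δ, γ) l : ℕ) = (γ l : ℕ) + p * (δ l : ℕ))
    (c : (Fin s → Fin (p ^ (j + 1))) → K) :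
    ∑ γ, c γ ^ p ^ (j + 1) * ∏ l, y l ^ (γ l : ℕ) =
      ∑ γ₀ : Fin s → Fin p, (∑ δ : Fin s → Fin (p ^ j),
        c (E (δ, γ₀)) ^ p ^ j * ∏ l, y l ^ (δ l : ℕ)) ^ p * ∏ l, y l ^ (γ₀ l : ℕ) := by
  rw [← Equiv.sum_comp E, Fintype.sum_prod_type, Finset.sum_comm]
  refine Finset.sum_congr rfl fun γ₀ _ => ?_
  rw [sum_pow_char, Finset.sum_mul]
  refine Finset.sum_congr rfl fun δ _ => ?_
  rw [mul_pow, ← pow_mul, ← pow_succ, ← Finset.prod_pow, mul_assoc, ← Finset.prod_mul_distrib]
  congr 1
  refine Finset.prod_congr rfl fun l _ => ?_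
  rw [hE, ← pow_mul, ← pow_add, mul_comm p, add_comm]

lemma pIndep_all {y : Fin s → K}
    (h1 : ∀ c : (Fin s → Fin p) → K, ∑ γ, c γ ^ p * ∏ l, y l ^ (γ l : ℕ) = 0 → c = 0) :
    ∀ j, PIndep p j y := by
  intro j
  induction j with
  | zero =>
    intro c hc
    funext γ
    have : ∀ γ', γ' = γ := fun γ' => funext fun l => Fin.ext (by
      have h1 := (γ' l).isLt; have h2 := (γ l).isLt
      simp only [pow_zero] at h1 h2
      omega)
    rw [Finset.sum_eq_single_of_mem γ (mem_univ γ) (fun b _ hb => absurd (this b) hb)] at hc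
    have hz : ∀ l, (γ l : ℕ) = 0 := fun l => by
      have h2 := (γ l).isLt; simp only [pow_zero] at h2; omega
    simpa [hz] using hc
  | succ j ih =>
    intro c hc
    obtain ⟨E, hE⟩ := exists_split p (s := s) j
    rw [sum_split p j y E hE] at hc
    have h2 := h1 _ hc
    funext γ
    obtain ⟨⟨δ, γ₀⟩, rfl⟩ := E.surjective γ
    exact congrFun (ih (fun δ => c (E (δ, γ₀))) (congrFun h2 γ₀)) δ

lemma pSpan_all {y : Fin s → K}
    (h1 : ∀ z : K, ∃ c : (Fin s → Fin p) → K, z = ∑ γ, c γ ^ p * ∏ l, y l ^ (γ l : ℕ)) :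
    ∀ j, PSpan p j y := by
  intro j
  induction j with
  | zero =>
    intro z
    refine ⟨fun _ => z, ?_⟩
    have h0 : ∀ (γ : Fin s → Fin (p ^ 0)) l, (γ l : ℕ) = 0 := fun γ l => by
      have h2 := (γ l).isLt; simp only [pow_zero] at h2; omega
    let γ0 : Fin s → Fin (p ^ 0) := fun _ => ⟨0, by simp⟩
    rw [Finset.sum_eq_single_of_mem γ0 (mem_univ _)
      (fun b _ hb => absurd (funext fun l => Fin.ext (h0 b l)) hb)]
    simp [γ0]
  | succ j ih =>
    intro z
    obtain ⟨E, hE⟩ := exists_split p (s := s) j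
    obtain ⟨c, hc⟩ := h1 z
    choose e he using fun γ => ih (c γ)
    refine ⟨fun γ => e (E.symm γ).2 (E.symm γ).1, ?_⟩
    rw [sum_split p j y E hE, hc]
    refine Finset.sum_congr rfl fun γ _ => ?_
    simp only [Equiv.symm_apply_apply]
    rw [← he]

omit [CharP K p] [Fact p.Prime] in
lemma pIndep_restrict {s d : ℕ} (hds : d ≤ s) (j : ℕ) (hp : 0 < p) {y : Fin s → K}
    (h : PIndep p j y) : PIndep p j (fun l : Fin d => y (Fin.castLE hds l)) := by
  classical
  intro c hc
  have hQ : 0 < p ^ j := pow_pos hp j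
  let ι : (Fin d → Fin (p ^ j)) → (Fin s → Fin (p ^ j)) := fun γ l =>
    if hl : (l : ℕ) < d then γ ⟨l, hl⟩ else ⟨0, hQ⟩
  have hι : Function.Injective ι := fun γ γ' e => funext fun l => by
    have := congrFun e (Fin.castLE hds l)
    simpa [ι, l.isLt] using this
  let c' : (Fin s → Fin (p ^ j)) → K := Function.extend ι c 0
  have hmono : ∀ γ, ∏ l, y l ^ (ι γ l : ℕ) = ∏ l : Fin d, y (Fin.castLE hds l) ^ (γ l : ℕ) := by
    intro γ
    rw [← Finset.prod_subset (Finset.subset_univ (Finset.univ.image (Fin.castLE hds)))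
      (fun l _ hl => ?_), Finset.prod_image (fun a _ b _ e => Fin.castLE_injective hds e)]
    · exact Finset.prod_congr rfl fun l _ => by simp [ι, l.isLt]
    · have : ¬ (l : ℕ) < d := fun hl' => hl (Finset.mem_image.2 ⟨⟨l, hl'⟩, mem_univ _, Fin.ext rfl⟩)
      simp [ι, this]
  have h0 : c' = 0 := by
    refine h c' ?_
    rw [← hc, ← Finset.sum_subset (Finset.subset_univ (Finset.univ.image ι)) (fun γ _ hγ => ?_),
      Finset.sum_image (fun a _ b _ e => hι e)]
    · exact Finset.sum_congr rfl fun γ _ => by rw [hmono]; simp only [c', hι.extend_apply]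
    · have : ¬ ∃ a, ι a = γ := fun ⟨a, ha⟩ => hγ (Finset.mem_image.2 ⟨a, mem_univ _, ha⟩)
      simp [c', Function.extend_apply' _ _ _ this, zero_pow hQ.ne']
  funext γ
  have := congrFun h0 (ι γ)
  simpa [c', hι.extend_apply] using this

end generic

section chain

variable {K : Type v} [Field K] (p : ℕ) [Fact p.Prime] [CharP K p]

open IntermediateField in
/-- A `p`-basis extracted from generators over the `p`-th powers. -/
lemma exists_pBasis {σ : Type w} [Fintype σ] (g : σ → K)
    (hgen : IntermediateField.adjoin (frobenius K p).fieldRange (Set.range g) = ⊤) :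
    ∃ (s : ℕ) (y : Fin s → σ),
      (∀ c : (Fin s → Fin p) → K, ∑ γ, c γ ^ p * ∏ l, g (y l) ^ (γ l : ℕ) = 0 → c = 0) ∧
      ∀ z : K, ∃ c : (Fin s → Fin p) → K, z = ∑ γ, c γ ^ p * ∏ l, g (y l) ^ (γ l : ℕ) := by
  classical
  set F₀ := (frobenius K p).fieldRange with hF₀
  have hp : p.Prime := Fact.out
  have hmemF : ∀ z : K, z ^ p ∈ F₀ := fun z => ⟨z, rfl⟩
  have hint : ∀ (L : IntermediateField F₀ K) (z : K), IsIntegral L z := fun L z => by
    refine ⟨Polynomial.X ^ p - Polynomial.C (algebraMap F₀ L ⟨z ^ p, hmemF z⟩),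
      Polynomial.monic_X_pow_sub_C _ hp.ne_zero, ?_⟩
    simp [sub_eq_zero]
    rfl
  have key : ∀ T : Finset σ, ∃ S : Finset σ, S ⊆ T ∧
      adjoin F₀ (g '' (S : Set σ)) = adjoin F₀ (g '' (T : Set σ)) ∧
      Module.finrank F₀ (adjoin F₀ (g '' (S : Set σ))) = p ^ S.card := by
    intro T
    induction T using Finset.induction with
    | empty =>
      refine ⟨∅, subset_rfl, rfl, ?_⟩
      rw [Finset.coe_empty, Set.image_empty, adjoin_empty, IntermediateField.finrank_bot,
        Finset.card_empty, pow_zero]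
    | insert v T hv ih =>
      obtain ⟨S, hST, hSeq, hdeg⟩ := ih
      set L := adjoin F₀ (g '' (S : Set σ)) with hL
      have hins : adjoin F₀ (g '' ((insert v T : Finset σ) : Set σ)) =
          restrictScalars F₀ (adjoin L {g v}) := by
        rw [restrictScalars_adjoin, Finset.coe_insert, Set.image_insert_eq, hSeq]
        refine le_antisymm (adjoin.mono F₀ _ _ ?_) (adjoin_le_iff.2 ?_)
        · rintro z (rfl | hz)
          · exact Or.inr rfl
          · exact Or.inl (subset_adjoin F₀ _ hz)
        · rintro z (hz | hz)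
          · exact adjoin.mono F₀ _ _ (Set.subset_insert _ _) hz
          · exact subset_adjoin F₀ _ (Or.inl hz)
      by_cases hvL : g v ∈ L
      · refine ⟨S, hST.trans (Finset.subset_insert _ _), ?_, hdeg⟩
        rw [Finset.coe_insert, Set.image_insert_eq]
        refine le_antisymm (adjoin.mono F₀ _ _ ?_) (adjoin_le_iff.2 ?_)
        · exact (Set.image_mono (Finset.coe_subset.2 hST)).trans (Set.subset_insert _ _)
        · rintro z (rfl | hz)
          · exact hvL
          · show z ∈ L
            rw [hSeq]; exact subset_adjoin F₀ _ hz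
      · have hvS : v ∉ S := fun h => hv (hST h)
        refine ⟨insert v S, Finset.insert_subset_insert v hST, ?_, ?_⟩
        · rw [hins, restrictScalars_adjoin, Finset.coe_insert, Set.image_insert_eq]
          refine le_antisymm (adjoin.mono F₀ _ _ ?_) (adjoin_le_iff.2 ?_)
          · rintro z (rfl | hz)
            · exact Or.inr rfl
            · exact Or.inl (subset_adjoin F₀ _ hz)
          · rintro z (hz | hz)
            · exact adjoin.mono F₀ _ _ (Set.subset_insert _ _) hz
            · exact subset_adjoin F₀ _ (Or.inl hz)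
        · have e : adjoin F₀ (g '' ((insert v S : Finset σ) : Set σ)) =
              restrictScalars F₀ (adjoin L {g v}) := by
            rw [restrictScalars_adjoin, Finset.coe_insert, Set.image_insert_eq]
            refine le_antisymm (adjoin.mono F₀ _ _ ?_) (adjoin_le_iff.2 ?_)
            · rintro z (rfl | hz)
              · exact Or.inr rfl
              · exact Or.inl (subset_adjoin F₀ _ hz)
            · rintro z (hz | hz)
              · exact adjoin.mono F₀ _ _ (Set.subset_insert _ _) hz
              · exact subset_adjoin F₀ _ (Or.inl hz)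
          rw [e, Finset.card_insert_of_notMem hvS, pow_succ, ← hdeg]
          have hmin : (minpoly L (g v)).natDegree = p := by
            have hirr : Irreducible (Polynomial.X ^ p -
                Polynomial.C (algebraMap F₀ L ⟨g v ^ p, hmemF _⟩)) := by
              refine X_pow_sub_C_irreducible_of_prime hp fun b hb => hvL ?_
              have h1 : (b : K) ^ p = g v ^ p := congrArg Subtype.val hb
              have h2 : (b : K) = g v := frobenius_inj K p h1
              exact h2 ▸ b.2
            have := minpoly.eq_of_irreducible_of_monic hirr (x := g v) (by simp [sub_eq_zero]; rfl)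
              (Polynomial.monic_X_pow_sub_C _ hp.ne_zero)
            rw [← this, Polynomial.natDegree_X_pow_sub_C]
          have h3 := Module.finrank_mul_finrank F₀ L (adjoin L {g v})
          rw [adjoin.finrank (hint L (g v)), hmin] at h3
          exact h3.symm
  obtain ⟨S, -, hSeq, hdeg⟩ := key Finset.univ
  rw [Finset.coe_univ, Set.image_univ, hgen] at hSeq
  rw [hSeq, IntermediateField.finrank_top'] at hdeg
  let y : Fin S.card → σ := fun i => (S.equivFin.symm i : σ)
  have hy : Set.range (fun i => g (y i)) = g '' (S : Set σ) := by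
    ext z
    constructor
    · rintro ⟨i, rfl⟩; exact ⟨_, (S.equivFin.symm i).2, rfl⟩
    · rintro ⟨a, ha, rfl⟩; exact ⟨S.equivFin ⟨a, ha⟩, by simp [y]⟩
  let mon : (Fin S.card → Fin p) → K := fun γ => ∏ l, g (y l) ^ (γ l : ℕ)
  set M := Submodule.span F₀ (Set.range mon) with hM
  have hone : (1 : K) ∈ M :=
    Submodule.subset_span ⟨fun _ => ⟨0, hp.pos⟩, by simp [mon]⟩
  have hmul : ∀ l, ∀ z ∈ M, g (y l) * z ∈ M := by
    intro l z hz
    induction hz using Submodule.span_induction with
    | mem z hz =>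
      obtain ⟨γ, rfl⟩ := hz
      have hupd : ∀ v : Fin p,
          ∏ i ∈ univ.erase l, g (y i) ^ (Function.update γ l v i : ℕ) =
            ∏ i ∈ univ.erase l, g (y i) ^ (γ i : ℕ) := fun v =>
        Finset.prod_congr rfl fun i hi => by rw [Function.update_of_ne (ne_of_mem_erase hi)]
      by_cases hlt : (γ l : ℕ) + 1 < p
      · refine Submodule.subset_span ⟨Function.update γ l ⟨(γ l : ℕ) + 1, hlt⟩, ?_⟩
        simp only [mon]
        rw [← Finset.mul_prod_erase univ _ (mem_univ l), ← Finset.mul_prod_erase univ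
          (fun i => g (y i) ^ (γ i : ℕ)) (mem_univ l), Function.update_self, pow_succ, hupd]
        ring
      · have hlast : (γ l : ℕ) + 1 = p := le_antisymm (γ l).isLt (not_lt.1 hlt)
        have hfac : g (y l) * mon γ =
            (⟨g (y l) ^ p, hmemF _⟩ : F₀) • mon (Function.update γ l ⟨0, hp.pos⟩) := by
          simp only [mon, Algebra.smul_def]
          rw [← Finset.mul_prod_erase univ _ (mem_univ l), ← Finset.mul_prod_erase univ
            (fun i => g (y i) ^ (Function.update γ l (⟨0, hp.pos⟩ : Fin p) i : ℕ)) (mem_univ l),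
            Function.update_self, pow_zero, one_mul, hupd, ← mul_assoc, ← pow_succ', hlast]
          rfl
        rw [hfac]
        exact M.smul_mem _ (Submodule.subset_span ⟨_, rfl⟩)
    | zero => simp
    | add a b _ _ iha ihb => rw [mul_add]; exact M.add_mem iha ihb
    | smul a z _ ih => rw [mul_smul_comm]; exact M.smul_mem _ ih
  have halg : ∀ z ∈ Algebra.adjoin F₀ (Set.range fun i => g (y i)), ∀ m ∈ M, z * m ∈ M := by
    intro z hz
    induction hz using Algebra.adjoin_induction with
    | mem z hz => obtain ⟨l, rfl⟩ := hz; exact hmul l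
    | algebraMap r => intro m hm; rw [← Algebra.smul_def]; exact M.smul_mem r hm
    | add a b _ _ iha ihb => intro m hm; rw [add_mul]; exact M.add_mem (iha m hm) (ihb m hm)
    | mul a b _ _ iha ihb => intro m hm; rw [mul_assoc]; exact iha _ (ihb m hm)
  have halgK : Algebra.IsAlgebraic F₀ K := ⟨fun z => by
    refine IsIntegral.isAlgebraic ⟨Polynomial.X ^ p - Polynomial.C ⟨z ^ p, hmemF z⟩,
      Polynomial.monic_X_pow_sub_C _ hp.ne_zero, ?_⟩
    simp [sub_eq_zero]
    rfl⟩
  have htop : (⊤ : Submodule F₀ K) ≤ M := by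
    intro z _
    have h1 : z ∈ (adjoin F₀ (g '' (S : Set σ))).toSubalgebra := by
      rw [hSeq]; exact IntermediateField.mem_top
    rw [← hy, adjoin_toSubalgebra_of_isAlgebraic (fun x _ => halgK.isAlgebraic x)] at h1
    simpa using halg z h1 1 hone
  have hli : LinearIndependent F₀ mon :=
    linearIndependent_of_top_le_span_of_card_eq_finrank htop (by simp [hdeg])
  refine ⟨S.card, y, fun c hc => ?_, fun z => ?_⟩
  · have h0 := Fintype.linearIndependent_iff.1 hli (fun γ => ⟨c γ ^ p, hmemF _⟩) (by
      rw [← hc]; rfl)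
    funext γ
    exact (pow_eq_zero_iff hp.ne_zero).1 (congrArg Subtype.val (h0 γ))
  · obtain ⟨c, hc⟩ := (Submodule.mem_span_range_iff_exists_fun F₀).1
      (htop (Submodule.mem_top : z ∈ ⊤))
    choose r hr using fun γ => (c γ).2
    refine ⟨r, ?_⟩
    rw [← hc]
    refine Finset.sum_congr rfl fun γ _ => ?_
    rw [Algebra.smul_def]
    congr 1
    exact (hr γ).symm

end chain

section rational

variable {K : Type v} [Field K] (p : ℕ) [Fact p.Prime] [CharP K p]

/-- The count: at least `d` elements are needed. -/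
lemma le_pBasis_card {k : Type u} [Field k] [CharP k p] {d s : ℕ}
    [Algebra (FractionRing (MvPolynomial (Fin d) k)) K]
    [FiniteDimensional (FractionRing (MvPolynomial (Fin d) k)) K] {y : Fin s → K}
    (hy : ∀ j, PSpan p j y) : d ≤ s := by
  classical
  by_contra hds
  push Not at hds
  set F := FractionRing (MvPolynomial (Fin d) k)
  set ι := algebraMap F K
  set e := Module.finrank F K with he
  have hp : p.Prime := Fact.out
  obtain ⟨j, hj⟩ : ∃ j, e < p ^ j := ⟨e, Nat.lt_pow_self hp.one_lt⟩
  set Q := p ^ j with hQ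
  have hQ0 : 0 < Q := pow_pos hp.pos j
  set R := ((iterateFrobenius K p j).comp ι).fieldRange with hR
  let bs := Module.finBasis F K
  let gen : Fin e × (Fin s → Fin Q) → K := fun t => bs t.1 ^ Q * ∏ l, y l ^ (t.2 l : ℕ)
  have hspan : (⊤ : Submodule R K) ≤ Submodule.span R (Set.range gen) := by
    intro z _
    obtain ⟨c, hc⟩ := hy j z
    rw [hc]
    refine Submodule.sum_mem _ fun γ _ => ?_
    have hrepr := bs.sum_repr (c γ)
    rw [← hrepr, sum_pow_char_pow, Finset.sum_mul]
    refine Submodule.sum_mem _ fun i _ => ?_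
    have hcoef : ι (bs.repr (c γ) i) ^ Q ∈ R := ⟨bs.repr (c γ) i, rfl⟩
    have : (bs.repr (c γ) i • bs i) ^ p ^ j * ∏ l, y l ^ (γ l : ℕ) =
        (⟨_, hcoef⟩ : R) • gen (i, γ) := by
      rw [Algebra.smul_def, Algebra.smul_def, mul_pow, mul_assoc]
      rfl
    rw [this]
    exact Submodule.smul_mem _ _ (Submodule.subset_span ⟨_, rfl⟩)
  let Xm : (Fin d → Fin Q) → K := fun γ =>
    ι (algebraMap (MvPolynomial (Fin d) k) F (∏ l, MvPolynomial.X l ^ (γ l : ℕ)))
  have hli : LinearIndependent R Xm := by
    rw [Fintype.linearIndependent_iff]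
    intro c hc
    choose f hf using fun γ => (c γ).2
    have h0 : ∑ γ, f γ ^ Q *
        algebraMap (MvPolynomial (Fin d) k) F (∏ l, MvPolynomial.X l ^ (γ l : ℕ)) = 0 := by
      apply ι.injective
      rw [map_sum, map_zero, ← hc]
      refine Finset.sum_congr rfl fun γ _ => ?_
      rw [map_mul, map_pow, Algebra.smul_def]
      congr 1
      exact hf γ
    obtain ⟨D, hD⟩ := IsLocalization.exist_integer_multiples_of_finite
      (nonZeroDivisors (MvPolynomial (Fin d) k)) f
    choose P hP using hD
    have hP0 : ∑ γ, P γ ^ Q * ∏ l, MvPolynomial.X l ^ (γ l : ℕ) = 0 := by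
      apply IsFractionRing.injective (MvPolynomial (Fin d) k) F
      rw [map_sum, map_zero]
      have h1 := congrArg (fun r => algebraMap (MvPolynomial (Fin d) k) F D ^ Q * r) h0
      simp only [mul_zero, Finset.mul_sum] at h1
      refine Eq.trans (Finset.sum_congr rfl fun γ _ => ?_) h1
      rw [map_mul, map_pow, hP, Algebra.smul_def, mul_pow, mul_assoc]
    intro γ
    have hPγ : P γ = 0 := by
      ext α
      rw [MvPolynomial.coeff_zero]
      have h2 := congrArg (MvPolynomial.coeff
        (Finsupp.equivFunOnFinite.symm (fun l => (γ l : ℕ)) + Q • α)) hP0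
      rw [MvPolynomial.coeff_sum, MvPolynomial.coeff_zero,
        Finset.sum_eq_single_of_mem γ (mem_univ γ)] at h2
      · rw [← MvPolynomial.map_iterateFrobenius_expand p (P γ) j,
          show (∏ l, MvPolynomial.X l ^ (γ l : ℕ) : MvPolynomial (Fin d) k) =
            MvPolynomial.monomial (Finsupp.equivFunOnFinite.symm (fun l => (γ l : ℕ))) 1 by
            rw [MvPolynomial.monomial_eq, MvPolynomial.C_1, one_mul, Finsupp.prod_fintype]
            · rfl
            · simp,
          add_comm, MvPolynomial.coeff_mul_monomial, MvPolynomial.coeff_map,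
          MvPolynomial.coeff_expand_smul _ hQ0.ne', mul_one] at h2
        exact (iterateFrobenius_inj k p j) (h2.trans (map_zero _).symm)
      · intro γ' _ hne
        rw [← MvPolynomial.map_iterateFrobenius_expand p (P γ') j,
          show (∏ l, MvPolynomial.X l ^ (γ' l : ℕ) : MvPolynomial (Fin d) k) =
            MvPolynomial.monomial (Finsupp.equivFunOnFinite.symm (fun l => (γ' l : ℕ))) 1 by
            rw [MvPolynomial.monomial_eq, MvPolynomial.C_1, one_mul, Finsupp.prod_fintype]
            · rfl
            · simp,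
          MvPolynomial.coeff_mul_monomial']
        split_ifs with hle
        · obtain ⟨l, hl⟩ := Function.ne_iff.1 hne
          rw [mul_one, MvPolynomial.coeff_map,
            MvPolynomial.coeff_expand_of_not_dvd _ (i := l) ?_, map_zero]
          have hle' := hle l
          simp only [Finsupp.coe_tsub, Pi.sub_apply, Finsupp.coe_add, Pi.add_apply,
            Finsupp.coe_smul, Pi.smul_apply, smul_eq_mul, Finsupp.equivFunOnFinite_symm_apply_apply]
            at hle' ⊢
          intro hdvd
          refine hl (Fin.ext ?_)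
          have hmod : ((γ' l : ℕ) : ℤ) ≡ (γ l : ℕ) [ZMOD (Q : ℤ)] := by
            obtain ⟨t, ht⟩ := hdvd
            rw [← hQ] at ht
            rw [Int.modEq_iff_dvd]
            refine ⟨(t : ℤ) - α l, ?_⟩
            have := congrArg (fun n : ℕ => (n : ℤ)) ht
            push_cast [Nat.cast_sub hle'] at this
            rw [mul_sub]
            linarith
          rw [Int.natCast_modEq_iff, Nat.ModEq, Nat.mod_eq_of_lt (γ' l).isLt,
            Nat.mod_eq_of_lt (γ l).isLt] at hmod
          exact hmod
        · rfl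
    have hf0 : f γ = 0 := by
      have h3 := hP γ
      rw [hPγ, map_zero, Algebra.smul_def, eq_comm, mul_eq_zero] at h3
      exact h3.resolve_left (IsFractionRing.to_map_ne_zero_of_mem_nonZeroDivisors D.2)
    refine Subtype.ext ?_
    rw [← hf γ, hf0, map_zero]
    rfl
  have : Module.Finite R K := ⟨⟨(Finset.univ.image gen), by
    rw [Finset.coe_image, Finset.coe_univ, Set.image_univ]; exact top_le_iff.1 hspan⟩⟩
  have h1 := hli.fintype_card_le_finrank
  have h2 := finrank_le_of_span_eq_top (v := gen) (top_le_iff.1 hspan)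
  simp only [Fintype.card_fun, Fintype.card_fin, Fintype.card_prod] at h1 h2
  have h3 : Q ^ (s + 1) ≤ Q ^ d := Nat.pow_le_pow_right hQ0 hds
  have h4 : e * Q ^ s < Q * Q ^ s := Nat.mul_lt_mul_of_pos_right hj (pow_pos hQ0 s)
  rw [pow_succ'] at h3
  omega

end rational

end Vale.Agent.P202.M9
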