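import Vale.Agent.P202.InterfacesM
import Vale.Agent.P202.M9PBasis

/-!
The components of a reduced graded ideal over which `k[X]` is a Noether normalisation: they are
homogeneous, separated by forms, and each has coordinates with independent monomials over the
`Q`-th powers.
-/

universe u

namespace Vale.Agent.P202.M9

open Finset

variable {k : Type u} [Field k] {d n : ℕ}

/-- The monomials with small exponents span a field generated by a component over `k(X)`. -/
lemma map_mem_span_bounded {F K : Type u} [Field F] [Field K] [Algebra F K]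
    (φ : MvPolynomial (Vr d n) k →+* K) (wt : Vr d n → ℕ) (hwt : ∀ v, 0 < wt v)
    (hC : ∀ a, ∃ z : F, algebraMap F K z = φ (MvPolynomial.C a))
    (hX : ∀ l, ∃ z : F, algebraMap F K z = φ (MvPolynomial.X (some (Sum.inl l))))
    (e : Hv n → ℕ) (G : Hv n → MvPolynomial (Vr d n) k) (hker : ∀ v, φ (G v) = 0)
    (hG : ∀ v, ∀ m ∈ (G v - MvPolynomial.X (hVar v) ^ e v).support,
      Finsupp.weight wt m = e v * wt (hVar v) ∧ ∃ l, m (some (Sum.inl l)) ≠ 0)
    (H : MvPolynomial (Vr d n) k) :
    φ H ∈ Submodule.span F (Set.range fun γ : (v : Hv n) → Fin (e v) =>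
      φ (∏ v, MvPolynomial.X (hVar v) ^ (γ v : ℕ))) := by
  classical
  set M := Submodule.span F (Set.range fun γ : (v : Hv n) → Fin (e v) =>
      φ (∏ v, MvPolynomial.X (hVar v) ^ (γ v : ℕ)))
  have hmul : ∀ x : K, (∃ z : F, algebraMap F K z = x) → ∀ m ∈ M, x * m ∈ M := by
    rintro _ ⟨z, rfl⟩ m hm
    rw [← Algebra.smul_def]
    exact M.smul_mem z hm
  have key : ∀ w : ℕ, ∀ γ : Vr d n →₀ ℕ, Finsupp.weight wt γ = w →
      φ (MvPolynomial.monomial γ 1) ∈ M := by
    intro w
    induction w using Nat.strong_induction_on with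
    | h w ih =>
      have hcase : ∀ γ : Vr d n →₀ ℕ, Finsupp.weight wt γ = w →
          (∃ l, γ (some (Sum.inl l)) ≠ 0) → φ (MvPolynomial.monomial γ 1) ∈ M := by
        rintro γ hγ ⟨l, hl⟩
        have hsplit : Finsupp.single (some (Sum.inl l)) 1 +
            (γ - Finsupp.single (some (Sum.inl l)) 1) = γ :=
          add_tsub_cancel_of_le (Finsupp.single_le_iff.2 (Nat.one_le_iff_ne_zero.2 hl))
        rw [← hsplit, MvPolynomial.monomial_single_add, pow_one, map_mul]
        refine hmul _ (hX l) _ (ih _ ?_ _ rfl)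
        rw [← hγ]
        conv_rhs => rw [← hsplit, map_add, Finsupp.weight_single, smul_eq_mul, one_mul]
        have := hwt (some (Sum.inl l))
        omega
      intro γ hγ
      by_cases hx : ∃ l, γ (some (Sum.inl l)) ≠ 0
      · exact hcase γ hγ hx
      push Not at hx
      by_cases hv : ∀ v, γ (hVar v) < e v
      · refine Submodule.subset_span ⟨fun v => ⟨γ (hVar v), hv v⟩, ?_⟩
        simp only
        congr 1
        rw [MvPolynomial.monomial_eq, MvPolynomial.C_1, one_mul,
          Finsupp.prod_fintype _ _ (fun v => pow_zero _)]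
        simp [Fintype.prod_option, Fintype.prod_sum_type, hVar, hx]
      · push Not at hv
        obtain ⟨v, hv⟩ := hv
        have hsplit : Finsupp.single (hVar v) (e v) + (γ - Finsupp.single (hVar v) (e v)) = γ :=
          add_tsub_cancel_of_le (Finsupp.single_le_iff.2 hv)
        have hrep : φ (MvPolynomial.monomial γ 1) =
            -φ ((G v - MvPolynomial.X (hVar v) ^ e v) *
              MvPolynomial.monomial (γ - Finsupp.single (hVar v) (e v)) 1) := by
          conv_lhs => rw [← hsplit, MvPolynomial.monomial_single_add, map_mul]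
          rw [map_mul, map_sub, hker v, zero_sub, neg_mul, neg_neg]
        rw [hrep]
        refine M.neg_mem ?_
        rw [MvPolynomial.as_sum (G v - MvPolynomial.X (hVar v) ^ e v), Finset.sum_mul, map_sum]
        refine M.sum_mem fun m hm => ?_
        obtain ⟨hw, l, hl⟩ := hG v m hm
        rw [MvPolynomial.monomial_mul, mul_one,
          ← mul_one (MvPolynomial.coeff m _), ← MvPolynomial.C_mul_monomial, map_mul]
        refine hmul _ (hC _) _ (hcase _ ?_ ⟨l, ?_⟩)
        · rw [map_add, hw]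
          have h1 := congrArg (Finsupp.weight wt) hsplit
          rw [map_add, Finsupp.weight_single, smul_eq_mul, hγ] at h1
          exact h1
        · rw [Finsupp.add_apply]; omega
  rw [H.as_sum, map_sum]
  refine M.sum_mem fun m _ => ?_
  rw [← mul_one (MvPolynomial.coeff m H), ← MvPolynomial.C_mul_monomial, map_mul]
  exact hmul _ (hC _) _ (key _ m rfl)

/-- A field generated by a component is finite over `k(X)`. -/
lemma finiteDimensional_chart {F K : Type u} [Field F] [Field K] [Algebra F K]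
    (φ : MvPolynomial (Vr d n) k →+* K) (hfrac : ∀ z : K, ∃ a c, φ a / φ c = z)
    (wt : Vr d n → ℕ) (hwt : ∀ v, 0 < wt v)
    (hC : ∀ a, ∃ z : F, algebraMap F K z = φ (MvPolynomial.C a))
    (hX : ∀ l, ∃ z : F, algebraMap F K z = φ (MvPolynomial.X (some (Sum.inl l))))
    (e : Hv n → ℕ) (G : Hv n → MvPolynomial (Vr d n) k) (hker : ∀ v, φ (G v) = 0)
    (hG : ∀ v, ∀ m ∈ (G v - MvPolynomial.X (hVar v) ^ e v).support,
      Finsupp.weight wt m = e v * wt (hVar v) ∧ ∃ l, m (some (Sum.inl l)) ≠ 0) :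
    FiniteDimensional F K := by
  classical
  set M := Submodule.span F (Set.range fun γ : (v : Hv n) → Fin (e v) =>
      φ (∏ v, MvPolynomial.X (hVar v) ^ (γ v : ℕ))) with hM
  have hfg : M.FG := Submodule.fg_span (Set.finite_range _)
  have : Module.Finite F M := Module.Finite.iff_fg.2 hfg
  have hmem : ∀ H, φ H ∈ M := map_mem_span_bounded φ wt hwt hC hX e G hker hG
  have hmul : ∀ H, ∀ m ∈ M, φ H * m ∈ M := by
    intro H m hm
    induction hm using Submodule.span_induction with
    | mem m hm => obtain ⟨γ, rfl⟩ := hm; rw [← map_mul]; exact hmem _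
    | zero => rw [mul_zero]; exact M.zero_mem
    | add a a' _ _ h h' => rw [mul_add]; exact M.add_mem h h'
    | smul z a _ h => rw [mul_smul_comm]; exact M.smul_mem z h
  refine Module.Finite.of_fg_top ?_
  suffices h : M = ⊤ by rw [← h]; exact hfg
  refine eq_top_iff.2 fun z _ => ?_
  obtain ⟨a, c, rfl⟩ := hfrac z
  rcases eq_or_ne (φ c) 0 with hc | hc
  · rw [hc, div_zero]; exact M.zero_mem
  let f : M →ₗ[F] M := (LinearMap.mulLeft F (φ c)).restrict fun m hm => hmul c m hm
  have hinj : Function.Injective f := fun m m' h =>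
    Subtype.ext (mul_left_cancel₀ hc (congrArg Subtype.val h))
  obtain ⟨⟨m, hm⟩, hfm⟩ := LinearMap.injective_iff_surjective.1 hinj ⟨φ a, hmem a⟩
  have h1 : φ c * m = φ a := congrArg Subtype.val hfm
  rwa [← h1, mul_div_cancel_left₀ _ hc]

/-- The generators of the field over the `p`-th powers. -/
lemma adjoin_variables_eq_top (p : ℕ) [Fact p.Prime] [CharP k p] [PerfectRing k p] {K : Type u}
    [Field K] [CharP K p] (φ : MvPolynomial (Vr d n) k →+* K)
    (hfrac : ∀ z : K, ∃ a c, φ a / φ c = z) :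
    IntermediateField.adjoin (frobenius K p).fieldRange
      (Set.range fun v => φ (MvPolynomial.X v)) = ⊤ := by
  set L := IntermediateField.adjoin (frobenius K p).fieldRange
    (Set.range fun v => φ (MvPolynomial.X v))
  have hL : ∀ H, φ H ∈ L := by
    intro H
    induction H using MvPolynomial.induction_on with
    | C a =>
      obtain ⟨a', rfl⟩ := (bijective_frobenius k p).2 a
      rw [frobenius_def, map_pow, map_pow]
      exact IntermediateField.algebraMap_mem L ⟨_, φ (MvPolynomial.C a'), rfl⟩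
    | add a c ha hc => rw [map_add]; exact add_mem ha hc
    | mul_X a v ha =>
      rw [map_mul]; exact mul_mem ha (IntermediateField.subset_adjoin _ _ ⟨v, rfl⟩)
  refine eq_top_iff.2 fun z _ => ?_
  obtain ⟨a, c, rfl⟩ := hfrac z
  exact div_mem (hL a) (hL c)

/-- Coordinates on a component with independent monomials over the `Q`-th powers, for all `Q`. -/
lemma exists_chart (p : ℕ) [Fact p.Prime] [CharP k p] [PerfectRing k p] (wt : Vr d n → ℕ)
    (hwt : ∀ v, 0 < wt v) (e : Hv n → ℕ) (G : Hv n → MvPolynomial (Vr d n) k)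
    (hG : ∀ v, ∀ m ∈ (G v - MvPolynomial.X (hVar v) ^ e v).support,
      Finsupp.weight wt m = e v * wt (hVar v) ∧ ∃ l, m (some (Sum.inl l)) ≠ 0)
    (q : Ideal (MvPolynomial (Vr d n) k)) [q.IsPrime] (hGq : ∀ v, G v ∈ q)
    (hq : ∀ P : MvPolynomial (Fin d) k, inX P ∈ q → P = 0) :
    ∃ y : Fin d → Vr d n, (∀ l, MvPolynomial.X (y l) ∉ q) ∧
      ∀ (j : ℕ) (r : (Fin d → Fin (p ^ j)) → MvPolynomial (Vr d n) k),
        ∑ γ, r γ ^ p ^ j * ∏ l, MvPolynomial.X (y l) ^ (γ l : ℕ) ∈ q → ∀ γ, r γ ∈ q := by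
  classical
  have hp : p.Prime := Fact.out
  suffices key : ∀ {K : Type u} [Field K] (φ : MvPolynomial (Vr d n) k →+* K),
      (∀ r, φ r = 0 ↔ r ∈ q) → (∀ z : K, ∃ a c, φ a / φ c = z) →
      ∀ [CharP K p] [Algebra (FractionRing (MvPolynomial (Fin d) k)) K],
        (∀ P, algebraMap (FractionRing (MvPolynomial (Fin d) k)) K
          (algebraMap _ _ P) = φ (inX P)) →
        ∃ y : Fin d → Vr d n, ∀ j, PIndep p j fun l => φ (MvPolynomial.X (y l)) by
    let K := FractionRing (MvPolynomial (Vr d n) k ⧸ q)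
    let φ : MvPolynomial (Vr d n) k →+* K :=
      (algebraMap (MvPolynomial (Vr d n) k ⧸ q) K).comp (Ideal.Quotient.mk q)
    have hφ : ∀ r, φ r = 0 ↔ r ∈ q := fun r => by
      rw [RingHom.comp_apply, map_eq_zero_iff _ (IsFractionRing.injective _ K),
        Ideal.Quotient.eq_zero_iff_mem]
    have : CharP K p :=
      (RingHom.charP_iff (φ.comp MvPolynomial.C) (RingHom.injective _) p).1 inferInstance
    have hfrac : ∀ z : K, ∃ a c, φ a / φ c = z := fun z => by
      obtain ⟨a, c, -, rfl⟩ :=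
        IsFractionRing.div_surjective (A := MvPolynomial (Vr d n) k ⧸ q) z
      obtain ⟨a, rfl⟩ := Ideal.Quotient.mk_surjective a
      obtain ⟨c, rfl⟩ := Ideal.Quotient.mk_surjective c
      exact ⟨a, c, rfl⟩
    let ψ : MvPolynomial (Fin d) k →+* K :=
      φ.comp (MvPolynomial.rename fun l : Fin d => (some (Sum.inl l) : Vr d n)).toRingHom
    have hψ : Function.Injective ψ :=
      (injective_iff_map_eq_zero ψ).2 fun P hP => hq P ((hφ _).1 hP)
    let : Algebra (FractionRing (MvPolynomial (Fin d) k)) K :=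
      (IsFractionRing.lift hψ).toAlgebra
    obtain ⟨y, hy⟩ := key φ hφ hfrac fun P => IsFractionRing.lift_algebraMap hψ P
    refine ⟨y, fun l hl => ?_, fun j r hr γ => ?_⟩
    · let γ₀ : Fin d → Fin (p ^ 1) := fun i =>
        if i = l then ⟨1, by simpa using hp.one_lt⟩ else ⟨0, by simpa using hp.pos⟩
      have h0 := congrFun (hy 1 (fun γ => if γ = γ₀ then 1 else 0) (by
        rw [Finset.sum_eq_single_of_mem γ₀ (mem_univ _) (fun γ _ hγ => by simp [hγ, hp.ne_zero])]
        refine mul_eq_zero_of_right _ (Finset.prod_eq_zero (mem_univ l) ?_)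
        simp [γ₀, (hφ _).2 hl])) γ₀
      simp at h0
    · refine (hφ _).1 (congrFun (hy j (fun γ => φ (r γ)) ?_) γ)
      have h := (hφ _).2 hr
      simp only [map_sum, map_mul, map_pow, map_prod] at h
      exact h
  intro K _ φ hφ hfrac _ _ halg
  have : FiniteDimensional (FractionRing (MvPolynomial (Fin d) k)) K :=
    finiteDimensional_chart φ hfrac wt hwt
      (fun a => ⟨algebraMap _ _ (MvPolynomial.C a), by rw [halg, inX, MvPolynomial.rename_C]⟩)
      (fun l => ⟨algebraMap _ _ (MvPolynomial.X l), by rw [halg, inX, MvPolynomial.rename_X]⟩)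
      e G (fun v => (hφ _).2 (hGq v)) hG
  obtain ⟨s, y, hy1, hy2⟩ := exists_pBasis p (fun v => φ (MvPolynomial.X v))
    (adjoin_variables_eq_top p φ hfrac)
  have hds : d ≤ s := le_pBasis_card p (k := k) (pSpan_all p hy2)
  exact ⟨fun l => y (Fin.castLE hds l), fun j =>
    pIndep_restrict p hds j hp.pos (pIndep_all p hy1 j)⟩

/-- The minimal primes over a homogeneous ideal are homogeneous. -/
lemma component_mem_of_mem_minimalPrimes (wt : Vr d n → ℕ)
    {J q : Ideal (MvPolynomial (Vr d n) k)}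
    (hJ : ∀ H ∈ J, ∀ N, MvPolynomial.weightedHomogeneousComponent wt N H ∈ J)
    (hq : q ∈ J.minimalPrimes) {H : MvPolynomial (Vr d n) k} (hH : H ∈ q) (N : ℕ) :
    MvPolynomial.weightedHomogeneousComponent wt N H ∈ q := by
  classical
  let := MvPolynomial.weightedGradedAlgebra (R := k) wt
  let 𝒜 : ℕ → Submodule k (MvPolynomial (Vr d n) k) :=
    MvPolynomial.weightedHomogeneousSubmodule k wt
  have hdec : ∀ (i : ℕ) (F : MvPolynomial (Vr d n) k),
      (DirectSum.decompose 𝒜 F i : MvPolynomial (Vr d n) k) =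
        MvPolynomial.weightedHomogeneousComponent wt i F := fun i F =>
    MvPolynomial.decompose'_apply (R := k) wt F i
  have hJhom : J.IsHomogeneous 𝒜 := fun i F hF => by
    rw [hdec]; exact hJ F hF i
  have hprime := Ideal.IsPrime.homogeneousCore (𝒜 := 𝒜) hq.1.1
  have hle : J ≤ (q.homogeneousCore 𝒜).toIdeal := by
    have := Ideal.homogeneousCore_mono 𝒜 hq.1.2
    rw [← hJhom.toIdeal_homogeneousCore_eq_self]
    exact this
  have heq : q ≤ (q.homogeneousCore 𝒜).toIdeal :=
    hq.2 ⟨hprime, hle⟩ (q.toIdeal_homogeneousCore_le 𝒜)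
  have hmem := (q.homogeneousCore 𝒜).2 N (heq hH)
  rw [hdec] at hmem
  exact q.toIdeal_homogeneousCore_le 𝒜 hmem

/-- A form in all the other minimal primes but not in this one. -/
lemma exists_separating (wt : Vr d n → ℕ) {J : Ideal (MvPolynomial (Vr d n) k)}
    (hJ : ∀ H ∈ J, ∀ N, MvPolynomial.weightedHomogeneousComponent wt N H ∈ J)
    {q : Ideal (MvPolynomial (Vr d n) k)} (hq : q ∈ J.minimalPrimes) :
    ∃ (σ : ℕ) (s : MvPolynomial (Vr d n) k), MvPolynomial.IsWeightedHomogeneous wt s σ ∧ s ∉ q ∧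
      ∀ q' ∈ J.minimalPrimes, q' ≠ q → s ∈ q' := by
  classical
  have hfin := Ideal.finite_minimalPrimes_of_isNoetherianRing _ J
  have := hq.1.1
  have hone : ∀ q' ∈ hfin.toFinset.erase q, ∃ (σ : ℕ) (s : MvPolynomial (Vr d n) k),
      MvPolynomial.IsWeightedHomogeneous wt s σ ∧ s ∉ q ∧ s ∈ q' := by
    intro q' hq'
    rw [Finset.mem_erase, Set.Finite.mem_toFinset] at hq'
    have hnle : ¬ q' ≤ q := fun hle => hq'.1 (le_antisymm hle (hq.2 hq'.2.1 hle))
    obtain ⟨H, hH, hHq⟩ := Set.not_subset.1 hnle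
    by_contra hcon
    push Not at hcon
    apply hHq
    show H ∈ q
    rw [← MvPolynomial.sum_weightedHomogeneousComponent wt H,
      finsum_eq_sum _ (MvPolynomial.weightedHomogeneousComponent_finsupp H)]
    refine q.sum_mem fun i _ => ?_
    by_contra hi
    exact hcon i _ (MvPolynomial.weightedHomogeneousComponent_isWeightedHomogeneous i H) hi
      (component_mem_of_mem_minimalPrimes wt hJ hq'.2 hH i)
  choose! σ s h1 h2 h3 using hone
  refine ⟨∑ x ∈ hfin.toFinset.erase q, σ x, ∏ x ∈ hfin.toFinset.erase q, s x,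
    MvPolynomial.IsWeightedHomogeneous.prod _ _ _ h1, fun hmem => ?_, fun q' hq' hne => ?_⟩
  · obtain ⟨x, hx, hx'⟩ := Ideal.IsPrime.prod_mem_iff.1 hmem
    exact h2 x hx hx'
  · exact Ideal.mem_of_dvd _ (Finset.dvd_prod_of_mem s
      (Finset.mem_erase.2 ⟨hne, hfin.mem_toFinset.2 hq'⟩))
      (h3 q' (Finset.mem_erase.2 ⟨hne, hfin.mem_toFinset.2 hq'⟩))

end Vale.Agent.P202.M9
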