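import Vale.Agent.P202.InterfacesM9
import Vale.Agent.P202.M9Count
import Vale.Agent.P202.M9Finite

/-!
Almost `Q ^ d` elements with weights in unit intervals, independent over the `Q`-th powers modulo a
reduced graded ideal over which `k[X]` is a Noether normalisation.
-/

universe u

namespace Vale.Agent.P202.M9

open Finset

/-- Distinct exponents with prescribed residues of the weight in units of `Q`. -/
lemma exists_select {d : ℕ} (W : Fin (d + 1) → ℕ) (b g Q N₀ : ℕ) (hW : 0 < W 0) (hg : g ∣ W 0)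
    (hb : g ∣ b) (hg0 : 0 < g) (T : Fin b → ℕ)
    (hT : ∀ i i', T i % g = T i' % g → (i : ℕ) % g = (i' : ℕ) % g)
    (hN : b * N₀ ≤ (Q - W 0) * Q ^ d) :
    ∃ sel : Fin b × Fin N₀ → (Fin (d + 1) → Fin Q), Function.Injective sel ∧
      ∀ x, (∑ l, W l * (sel x l : ℕ)) / Q % g = T x.1 % g := by
  classical
  obtain ⟨h, hh⟩ := hb
  have hemb : ∀ r : Fin g, Nonempty (Fin h × Fin N₀ ↪ (Finset.univ.filter
      fun γ : Fin (d + 1) → Fin Q => (∑ l, W l * (γ l : ℕ)) / Q % g = (r : ℕ) : Finset _)) := by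
    intro r
    refine Function.Embedding.nonempty_of_card_le ?_
    rw [Fintype.card_coe, Fintype.card_prod, Fintype.card_fin, Fintype.card_fin]
    refine Nat.le_of_mul_le_mul_left ?_ hg0
    rw [← mul_assoc, ← hh]
    exact hN.trans (le_card_class W g Q r hW hg r.isLt)
  let pos : Fin b → Fin h := fun i => ⟨(i : ℕ) / g, Nat.div_lt_of_lt_mul (hh ▸ i.isLt)⟩
  let R : Fin b → Fin g := fun i => ⟨T i % g, Nat.mod_lt _ hg0⟩
  let sel : Fin b × Fin N₀ → (Fin (d + 1) → Fin Q) := fun x =>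
    ((hemb (R x.1)).some (pos x.1, x.2)).1
  have hsel : ∀ x, (∑ l, W l * (sel x l : ℕ)) / Q % g = T x.1 % g := fun x =>
    (Finset.mem_filter.1 ((hemb (R x.1)).some (pos x.1, x.2)).2).2
  refine ⟨sel, ?_, hsel⟩
  rintro ⟨i, a⟩ ⟨i', a'⟩ he
  have h1 := hsel (i, a)
  rw [he, hsel (i', a')] at h1
  have hR : R i = R i' := Fin.ext h1.symm
  have hemb_inj : ∀ r r' : Fin g, r = r' → ∀ z z',
      ((hemb r).some z).1 = ((hemb r').some z').1 → z = z' := by
    rintro r _ rfl z z' hz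
    exact (hemb r).some.injective (Subtype.ext hz)
  have h2 := hemb_inj _ _ hR _ _ he
  simp only [Prod.mk.injEq, pos, Fin.mk.injEq] at h2
  have h3 := hT i i' h1.symm
  have h4 : i = i' := Fin.ext (by
    rw [← Nat.div_add_mod (i : ℕ) g, ← Nat.div_add_mod (i' : ℕ) g, h2.1, h3])
  rw [h4, h2.2]

variable {k : Type u} [Field k] {d n : ℕ}

/-- The elements of one component: weights in prescribed intervals and independence. -/
lemma exists_component_bins (p : ℕ) [Fact p.Prime] (wt : Vr (d + 1) n → ℕ) (b : ℕ) (hb : 0 < b)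
    (hwt : ∀ v, 0 < wt v) (hX : ∀ l, wt (some (Sum.inl l)) = b)
    (q : Ideal (MvPolynomial (Vr (d + 1) n) k)) [q.IsPrime]
    (hX0 : MvPolynomial.X (some (Sum.inl 0)) ∉ q) (y : Fin (d + 1) → Vr (d + 1) n)
    (hy0 : MvPolynomial.X (y 0) ∉ q)
    (hy : ∀ (j : ℕ) (r : (Fin (d + 1) → Fin (p ^ j)) → MvPolynomial (Vr (d + 1) n) k),
      ∑ γ, r γ ^ p ^ j * ∏ l, MvPolynomial.X (y l) ^ (γ l : ℕ) ∈ q → ∀ γ, r γ ∈ q)
    (s : MvPolynomial (Vr (d + 1) n) k) (σ : ℕ) (hs : MvPolynomial.IsWeightedHomogeneous wt s σ)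
    (hsq : s ∉ q) :
    ∃ C₀ : ℕ, ∀ E, C₀ ≤ E → ∀ j N₀, b * N₀ ≤ (p ^ j - C₀) * (p ^ j) ^ d →
      ∃ u : Fin b × Fin N₀ → MvPolynomial (Vr (d + 1) n) k,
        (∀ x γ, MvPolynomial.coeff γ (s ^ p ^ j * u x) ≠ 0 →
          p ^ j * (E + x.1) ≤ Finsupp.weight wt γ ∧
          Finsupp.weight wt γ < p ^ j * (E + x.1 + 1)) ∧
        ∀ r : Fin b × Fin N₀ → MvPolynomial (Vr (d + 1) n) k,
          ∑ x, r x ^ p ^ j * (s ^ p ^ j * u x) ∈ q → ∀ x, r x ∈ q := by
  classical
  set W : Fin (d + 1) → ℕ := fun l => wt (y l) with hW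
  have hW0 : 0 < W 0 := hwt _
  set g := Nat.gcd b (W 0) with hg
  have hg0 : 0 < g := Nat.gcd_pos_of_pos_left _ hb
  refine ⟨σ + ∑ l, W l + b * W 0 + W 0, fun E hE j N₀ hN => ?_⟩
  set Q := p ^ j with hQ
  have hp : p.Prime := Fact.out
  have hQ0 : 0 < Q := pow_pos hp.pos j
  let T : Fin b → ℕ := fun i => E - σ + i
  have hT : ∀ i i', T i % g = T i' % g → (i : ℕ) % g = (i' : ℕ) % g := fun i i' h =>
    Nat.ModEq.add_left_cancel' (E - σ) h
  obtain ⟨sel, hinj, hsel⟩ := exists_select W b g Q N₀ hW0 (Nat.gcd_dvd_right _ _)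
    (Nat.gcd_dvd_left _ _) hg0 T hT (hN.trans (Nat.mul_le_mul_right _ (by omega)))
  let fl : Fin b × Fin N₀ → ℕ := fun x => (∑ l, W l * (sel x l : ℕ)) / Q
  have hfl : ∀ x, fl x + b * W 0 ≤ T x.1 := by
    intro x
    have h1 : fl x ≤ ∑ l, W l := by
      refine Nat.div_le_of_le_mul ?_
      rw [Finset.mul_sum]
      exact Finset.sum_le_sum fun l _ => by
        rw [mul_comm Q]; exact Nat.mul_le_mul_left _ (sel x l).isLt.le
    simp only [T]
    omega
  have hcomb : ∀ x, ∃ α β : ℕ, β < b ∧ T x.1 - fl x = α * b + β * W 0 := fun x =>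
    exists_combination hb (Nat.dvd_of_mod_eq_zero (Nat.sub_mod_eq_zero_of_mod_eq (hsel x).symm))
      (by have := hfl x; omega)
  choose α β _ hαβ using hcomb
  let u : Fin b × Fin N₀ → MvPolynomial (Vr (d + 1) n) k := fun x =>
    (MvPolynomial.X (some (Sum.inl 0)) ^ α x * MvPolynomial.X (y 0) ^ β x) ^ Q *
      ∏ l, MvPolynomial.X (y l) ^ (sel x l : ℕ)
  refine ⟨u, fun x γ hγ => ?_, fun r hr x => ?_⟩
  · have hhom : MvPolynomial.IsWeightedHomogeneous wt (s ^ Q * u x)
        (Q • σ + (Q • (α x • wt (some (Sum.inl 0)) + β x • W 0) +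
          ∑ l, (sel x l : ℕ) • W l)) := by
      refine (hs.pow Q).mul ?_
      refine ((((MvPolynomial.isWeightedHomogeneous_X k wt _).pow _).mul
        ((MvPolynomial.isWeightedHomogeneous_X k wt _).pow _)).pow Q).mul ?_
      exact MvPolynomial.IsWeightedHomogeneous.prod _ _ _
        fun l _ => (MvPolynomial.isWeightedHomogeneous_X k wt _).pow _
    rw [hhom hγ]
    simp only [smul_eq_mul, hX]
    have h1 := Nat.div_add_mod (∑ l, W l * (sel x l : ℕ)) Q
    have h2 := Nat.mod_lt (∑ l, W l * (sel x l : ℕ)) hQ0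
    have h3 := hαβ x
    have h4 : ∑ l, (sel x l : ℕ) * W l = ∑ l, W l * (sel x l : ℕ) :=
      Finset.sum_congr rfl fun l _ => mul_comm _ _
    have h5 : Q * (E + (x.1 : ℕ)) =
        Q * σ + (Q * (α x * b + β x * W 0) + Q * fl x) := by
      rw [← h3, ← mul_add, ← mul_add]
      congr 1
      have := hfl x
      simp only [T] at this ⊢
      omega
    rw [h4, mul_add Q (E + (x.1 : ℕ)) 1, h5, mul_one]
    simp only [fl]
    omega
  · let v : Fin b × Fin N₀ → MvPolynomial (Vr (d + 1) n) k := fun x =>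
      r x * (s * (MvPolynomial.X (some (Sum.inl 0)) ^ α x * MvPolynomial.X (y 0) ^ β x))
    have hv : Function.extend sel v 0 (sel x) ∈ q := by
      refine hy j (Function.extend sel v 0) ?_ (sel x)
      rw [← Finset.sum_subset (Finset.subset_univ (Finset.univ.image sel)) (fun γ _ hγ => ?_),
        Finset.sum_image fun a _ c _ h => hinj h]
      · refine (congrArg (· ∈ q) (Finset.sum_congr rfl fun a _ => ?_)).mpr hr
        rw [hinj.extend_apply]
        simp only [u, v, mul_pow]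
        ring
      · have : ¬ ∃ a, sel a = γ := fun ⟨a, ha⟩ =>
          hγ (Finset.mem_image.2 ⟨a, mem_univ _, ha⟩)
        rw [Function.extend_apply' _ _ _ this, Pi.zero_apply, zero_pow hQ0.ne', zero_mul]
    rw [hinj.extend_apply] at hv
    refine (Ideal.IsPrime.mem_or_mem ‹q.IsPrime› hv).resolve_right fun h => ?_
    rcases Ideal.IsPrime.mem_or_mem ‹q.IsPrime› h with h | h
    · exact hsq h
    rcases Ideal.IsPrime.mem_or_mem ‹q.IsPrime› h with h | h
    · exact hX0 (Ideal.IsPrime.mem_of_pow_mem ‹q.IsPrime› _ h)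
    · exact hy0 (Ideal.IsPrime.mem_of_pow_mem ‹q.IsPrime› _ h)

end Vale.Agent.P202.M9

namespace Vale.Agent.P202

open Finset M9

/-- Almost `Q ^ d` elements with weights in unit intervals, independent over the `Q`-th powers. -/
theorem goalBins : GoalBins.{u} := by
  classical
  intro p _ k _ _ _ _ d n hd wt b hwt hX J hJne hJrad hJhom hmonic htor
  obtain ⟨d, rfl⟩ : ∃ d' : ℕ, d = d' + 1 := ⟨d - 1, by omega⟩
  have hb : 0 < b := hX 0 ▸ hwt _
  choose e he H hH hHX using hmonic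
  let G : Hv n → MvPolynomial (Vr (d + 1) n) k := fun v =>
    MvPolynomial.weightedHomogeneousComponent wt (e v * wt (hVar v)) (H v)
  have hG : ∀ v, ∀ m ∈ (G v - MvPolynomial.X (hVar v) ^ e v).support,
      Finsupp.weight wt m = e v * wt (hVar v) ∧ ∃ l, m (some (Sum.inl l)) ≠ 0 := by
    intro v m hm
    have hpow : MvPolynomial.IsWeightedHomogeneous wt
        (MvPolynomial.X (hVar v) ^ e v : MvPolynomial (Vr (d + 1) n) k)
        (e v * wt (hVar v)) := by
      simpa [smul_eq_mul] using (MvPolynomial.isWeightedHomogeneous_X k wt (hVar v)).pow (e v)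
    have hw : Finsupp.weight wt m = e v * wt (hVar v) := by
      by_contra hne
      rw [MvPolynomial.mem_support_iff, MvPolynomial.coeff_sub,
        MvPolynomial.coeff_weightedHomogeneousComponent, if_neg hne,
        hpow.coeff_eq_zero m hne, sub_zero] at hm
      exact hm rfl
    refine ⟨hw, ?_⟩
    have hm' : m ∈ (H v - MvPolynomial.X (hVar v) ^ e v).support := by
      rw [MvPolynomial.mem_support_iff, MvPolynomial.coeff_sub,
        MvPolynomial.coeff_weightedHomogeneousComponent, if_pos hw] at hm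
      rw [MvPolynomial.mem_support_iff, MvPolynomial.coeff_sub]
      exact hm
    have hr : (Set.range fun l : Fin (d + 1) => (MvPolynomial.X (some (Sum.inl l)) :
        MvPolynomial (Vr (d + 1) n) k)) =
        MvPolynomial.X '' Set.range fun l : Fin (d + 1) => some (Sum.inl l) := by
      rw [← Set.range_comp]; rfl
    have hmem := hHX v
    rw [hr, MvPolynomial.mem_ideal_span_X_image] at hmem
    obtain ⟨_, ⟨l, rfl⟩, hl⟩ := hmem m hm'
    exact ⟨l, hl⟩
  let S : Set (Ideal (MvPolynomial (Vr (d + 1) n) k)) := J.minimalPrimes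
  have hfin : S.Finite := Ideal.finite_minimalPrimes_of_isNoetherianRing _ J
  let : Fintype S := hfin.fintype
  have hinf : ∀ r, (∀ q : S, r ∈ q.1) → r ∈ J := fun r hr => by
    rw [← hJrad.radical, ← Ideal.sInf_minimalPrimes, Ideal.mem_sInf]
    exact fun {q} hq => hr ⟨q, hq⟩
  choose σ s hs hsq hsother using fun q : S => exists_separating wt hJhom q.2
  have htriv : ∀ q : S, ∀ P, inX P ∈ q.1 → P = 0 := by
    intro q P hP
    by_contra hP0
    refine hsq q (q.2.1.2 (htor P (s q) hP0 (hinf _ fun q' => ?_)))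
    rcases eq_or_ne q' q with rfl | hne
    · exact Ideal.mul_mem_right _ _ hP
    · exact Ideal.mul_mem_left _ _ (hsother q q'.1 q'.2 fun h => hne (Subtype.ext h))
  have hchart : ∀ q : S, ∃ y : Fin (d + 1) → Vr (d + 1) n, (∀ l, MvPolynomial.X (y l) ∉ q.1) ∧
      ∀ (j : ℕ) (r : (Fin (d + 1) → Fin (p ^ j)) → MvPolynomial (Vr (d + 1) n) k),
        ∑ γ, r γ ^ p ^ j * ∏ l, MvPolynomial.X (y l) ^ (γ l : ℕ) ∈ q.1 → ∀ γ, r γ ∈ q.1 := by
    intro q
    have := q.2.1.1
    exact exists_chart p wt hwt e G hG q.1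
      (fun v => q.2.1.2 (hJhom _ (hH v) _)) (htriv q)
  choose y hy0 hy using hchart
  have hbins : ∀ q : S, ∃ C₀ : ℕ, ∀ E, C₀ ≤ E → ∀ j N₀, b * N₀ ≤ (p ^ j - C₀) * (p ^ j) ^ d →
      ∃ u : Fin b × Fin N₀ → MvPolynomial (Vr (d + 1) n) k,
        (∀ x γ, MvPolynomial.coeff γ (s q ^ p ^ j * u x) ≠ 0 →
          p ^ j * (E + x.1) ≤ Finsupp.weight wt γ ∧
          Finsupp.weight wt γ < p ^ j * (E + x.1 + 1)) ∧
        ∀ r : Fin b × Fin N₀ → MvPolynomial (Vr (d + 1) n) k,
          ∑ x, r x ^ p ^ j * (s q ^ p ^ j * u x) ∈ q.1 → ∀ x, r x ∈ q.1 := by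
    intro q
    have := q.2.1.1
    refine exists_component_bins p wt b hb hwt hX q.1 (fun h => ?_) (y q) (hy0 q 0) (hy q) (s q)
      (σ q) (hs q) (hsq q)
    exact MvPolynomial.X_ne_zero (R := k) (0 : Fin (d + 1))
      (htriv q _ (by rw [inX, MvPolynomial.rename_X]; exact h))
  choose C₀ hC₀ using hbins
  let E := ∑ q, C₀ q
  have hE : ∀ q, C₀ q ≤ E := fun q => Finset.single_le_sum (fun _ _ => Nat.zero_le _) (mem_univ q)
  refine ⟨E + b, fun j => ?_⟩
  set Q := p ^ j with hQ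
  have hQ0 : 0 < Q := pow_pos (Fact.out : p.Prime).pos j
  let N₀ := (Q - E) * Q ^ d / b
  have hN₀ : b * N₀ ≤ (Q - E) * Q ^ d := Nat.mul_div_le _ _
  have hu := fun q => hC₀ q E (hE q) j N₀ (hN₀.trans (Nat.mul_le_mul_right _ (by
    have := hE q; omega)))
  choose u hu1 hu2 using hu
  let x : Fin (b * N₀) → Fin b × Fin N₀ := finProdFinEquiv.symm
  refine ⟨b * N₀, fun a => E + (x a).1, fun a => ∑ q, s q ^ Q * u q (x a), ?_, ?_, ?_, ?_, ?_⟩
  · have h1 := Nat.div_add_mod ((Q - E) * Q ^ d) b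
    have h2 := Nat.mod_lt ((Q - E) * Q ^ d) hb
    have h3 : Q ^ (d + 1) ≤ (Q - E) * Q ^ d + E * Q ^ d := by
      rw [← add_mul, pow_succ']
      exact Nat.mul_le_mul_right _ (by omega)
    have h4 : b ≤ b * Q ^ d := Nat.le_mul_of_pos_right _ (pow_pos hQ0 d)
    rw [Nat.add_sub_cancel, add_mul]
    simp only [N₀]
    omega
  · refine hN₀.trans ?_
    rw [pow_succ']
    exact Nat.mul_le_mul_right _ (Nat.sub_le _ _)
  · intro a
    change E + ((x a).1 : ℕ) ≤ E + b
    have := (x a).1.isLt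
    omega
  · intro a γ hγ
    rw [MvPolynomial.coeff_sum] at hγ
    obtain ⟨q, -, hq⟩ := Finset.exists_ne_zero_of_sum_ne_zero hγ
    exact hu1 q (x a) γ hq
  · intro ω r _ _ hr a
    refine hinf _ fun q => ?_
    have h1 : ∑ c, r c ^ Q * (s q ^ Q * u q (x c)) ∈ q.1 := by
      have h2 := q.2.1.2 hr
      simp only [Finset.mul_sum] at h2
      rw [Finset.sum_comm, ← Finset.add_sum_erase _ _ (mem_univ q)] at h2
      refine (q.1.add_mem_iff_left (q.1.sum_mem fun q' hq' => q.1.sum_mem fun c _ => ?_)).1 h2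
      refine Ideal.mul_mem_left _ _ (Ideal.mul_mem_right _ _ (Ideal.pow_mem_of_mem _ ?_ Q hQ0))
      exact hsother q' q.1 q.2 fun h => (Finset.ne_of_mem_erase hq') (Subtype.ext h).symm
    have h3 := hu2 q (fun z => r (finProdFinEquiv z)) (by
      rw [← Equiv.sum_comp finProdFinEquiv.symm]
      simpa only [x, Equiv.apply_symm_apply] using h1) (x a)
    simp only [x, Equiv.apply_symm_apply] at h3
    exact h3

end Vale.Agent.P202
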