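import Vale.Agent.P202.InterfacesBand2
import Vale.Agent.P202.CIGraded
import Vale.Agent.P202.M9Finite

/-!
The components of the graded ring of `A`: separating forms of one degree and monomials independent
over the `q`-th powers (BLUEPRINT_BAND, section 2).
-/

universe u

namespace Vale.Agent.P202.M9

open MvPolynomial

/-- The contraction at a residue of the exponents. -/
lemma exists_contract {k : Type u} [CommRing k] {σ : Type} (m : ℕ) (hm : 0 < m) :
    ∃ π : (σ → Fin m) → MvPolynomial σ k →ₗ[k] MvPolynomial σ k,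
      (∀ ρ H f, π ρ (expand m H * f) = H * π ρ f) ∧
      (∀ ρ (δ : σ →₀ ℕ), (∀ v, δ v < m) →
        ((∀ v, δ v = (ρ v : ℕ)) → π ρ (monomial δ 1) = 1) ∧
        ((∃ v, δ v ≠ (ρ v : ℕ)) → π ρ (monomial δ 1) = 0)) := by
  classical
  let div : (σ →₀ ℕ) → (σ →₀ ℕ) := fun δ => δ.mapRange (fun e => e / m) (Nat.zero_div m)
  refine ⟨fun ρ => (basisMonomials σ k).constr k fun δ : σ →₀ ℕ =>
    if ∀ v, δ v % m = (ρ v : ℕ) then monomial (div δ) 1 else 0, fun ρ => ?_, fun ρ δ hδ => ?_⟩
  · set π := (basisMonomials σ k).constr k (fun δ : σ →₀ ℕ =>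
      if ∀ v, δ v % m = (ρ v : ℕ) then (monomial (div δ) 1 : MvPolynomial σ k) else 0)
    have hπ : ∀ δ c, π (monomial δ c) =
        if ∀ v, δ v % m = (ρ v : ℕ) then monomial (div δ) c else 0 := fun δ c => by
      have := (basisMonomials σ k).constr_basis k (fun δ : σ →₀ ℕ =>
        if ∀ v, δ v % m = (ρ v : ℕ) then (monomial (div δ) 1 : MvPolynomial σ k) else 0) δ
      rw [coe_basisMonomials] at this
      rw [show (monomial δ c : MvPolynomial σ k) = c • monomial δ 1 by simp [smul_monomial],
        map_smul]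
      refine (congrArg (c • ·) this).trans ?_
      split_ifs
      · simp [smul_monomial]
      · simp
    intro H f
    show π (expand m H * f) = H * π f
    induction f using MvPolynomial.induction_on' with
    | monomial γ c =>
      induction H using MvPolynomial.induction_on' with
      | monomial a e =>
        rw [expand_monomial, monomial_mul, hπ, hπ]
        have hmod : ∀ v, (m • a + γ) v % m = γ v % m := fun v => by simp
        simp only [hmod]
        split_ifs
        · rw [show div (m • a + γ) = a + div γ by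
            ext v
            simp [div, Nat.mul_add_div hm], monomial_mul]
        · simp
      | add H H' hH hH' => rw [map_add, add_mul, map_add, hH, hH', add_mul]
    | add f f' hf hf' => rw [mul_add, map_add, map_add, hf, hf', mul_add]
  · have h1 := (basisMonomials σ k).constr_basis k (fun δ : σ →₀ ℕ =>
      if ∀ v, δ v % m = (ρ v : ℕ) then (monomial (div δ) 1 : MvPolynomial σ k) else 0) δ
    rw [coe_basisMonomials] at h1
    refine ⟨fun h => ?_, fun ⟨v, hv⟩ => ?_⟩
    · simp only [h1, Nat.mod_eq_of_lt (hδ _)]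
      rw [if_pos h, show div δ = 0 by ext v; simp [div, Nat.div_eq_of_lt (hδ v)]]
      rfl
    · simp only [h1]
      rw [if_neg]
      exact fun h => hv (by rw [← h v, Nat.mod_eq_of_lt (hδ v)])

/-- Exponents and independence through a root of exponent `1 / m`. -/
lemma exists_exponents (p : ℕ) [Fact p.Prime] {k : Type u} [Field k] [CharP k p] [PerfectRing k p]
    {d n : ℕ} (J P : Ideal (MvPolynomial (Vr d n) k)) (hJP : J ≤ P) [P.IsPrime]
    (y : Fin d → Vr d n)
    (hy : ∀ (j : ℕ) (r : (Fin d → Fin (p ^ j)) → MvPolynomial (Vr d n) k),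
      ∑ γ, r γ ^ p ^ j * ∏ l, X (y l) ^ (γ l : ℕ) ∈ P → ∀ γ, r γ ∈ P)
    (j l : ℕ) : ∃ w : Fin ((p ^ l) ^ (n + 1) * (p ^ (j + l)) ^ d) → (Vr d n →₀ ℕ),
      (∀ t v, w t v < p ^ (j + l)) ∧
      ∀ r : Fin ((p ^ l) ^ (n + 1) * (p ^ (j + l)) ^ d) → MvPolynomial (Vr d n) k,
        ∑ t, expand (p ^ (j + l)) (r t) * monomial (w t) 1 ∈
          Ideal.span ((fun H => expand (p ^ l) (rootPoly p j H)) '' (J : Set _)) →
        ∀ t, r t ∈ P := by
  classical
  have hp : p.Prime := Fact.out
  have hinj : Function.Injective y := by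
    intro a c hac
    by_contra hne
    let e : Fin d → (Fin d → Fin (p ^ 1)) := fun i i' =>
      if i' = i then ⟨1, by simpa using hp.one_lt⟩ else ⟨0, by simpa using hp.pos⟩
    have hmon : ∀ i, ∏ i', (X (y i') : MvPolynomial (Vr d n) k) ^ (e i i' : ℕ) = X (y i) := by
      intro i
      rw [Finset.prod_eq_single i (fun i' _ hi => by simp [e, hi])
        (fun h => absurd (Finset.mem_univ i) h)]
      simp [e]
    have hec : e a ≠ e c := fun h => by
      have := congrArg (fun f : Fin d → Fin (p ^ 1) => (f a : ℕ)) h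
      simp [e, hne] at this
    have h0 := hy 1 (fun γ => if γ = e a then 1 else if γ = e c then -1 else 0) (by
      have hneg : (-1 : MvPolynomial (Vr d n) k) ^ p = -1 := by
        simpa [frobenius_def] using map_neg (frobenius (MvPolynomial (Vr d n) k) p) 1
      rw [Fintype.sum_eq_add (e a) (e c) hec (fun γ hγ => by simp [hγ.1, hγ.2, hp.ne_zero]),
        hmon, hmon, if_pos rfl, if_neg hec.symm, if_pos rfl, one_pow, pow_one,
        hneg, hac, neg_one_mul, one_mul, add_neg_cancel]
      exact P.zero_mem) (e a)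
    rw [if_pos rfl] at h0
    exact Ideal.IsPrime.ne_top ‹P.IsPrime› ((Ideal.eq_top_iff_one _).2 h0)
  have hm : 0 < p ^ l := pow_pos hp.pos l
  set m := p ^ l
  set Q := p ^ j
  have hcard : Fintype.card ((Vr d n → Fin m) × (Fin d → Fin Q)) =
      m ^ (n + 1) * (p ^ (j + l)) ^ d := by
    simp [m, Q, Fintype.card_option, Fintype.card_sum, pow_add, mul_pow]
    ring
  let T : Fin (m ^ (n + 1) * (p ^ (j + l)) ^ d) ≃ (Vr d n → Fin m) × (Fin d → Fin Q) :=
    (finCongr hcard.symm).trans (Fintype.equivFin _).symm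
  let lo : (Vr d n → Fin m) → (Vr d n →₀ ℕ) :=
    fun ρ => Finsupp.equivFunOnFinite.symm fun v => (ρ v : ℕ)
  let hi : (Fin d → Fin Q) → (Vr d n →₀ ℕ) :=
    fun γ => ∑ i, Finsupp.single (y i) (γ i : ℕ)
  have hhi : ∀ γ v, hi γ v < Q := by
    intro γ v
    simp only [hi, Finsupp.finsetSum_apply, Finsupp.single_apply]
    by_cases hv : ∃ i, y i = v
    · obtain ⟨i, rfl⟩ := hv
      simp [hinj.eq_iff]
    · push Not at hv
      simp [hv, Q, hp.pos]
  have hmon : ∀ γ, (monomial (hi γ) 1 : MvPolynomial (Vr d n) k) =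
      ∏ i, X (y i) ^ (γ i : ℕ) := by
    intro γ
    simp only [hi, monomial_sum_one, X_pow_eq_monomial]
  refine ⟨fun t => m • hi (T t).2 + lo (T t).1, fun t v => ?_, fun r hr t => ?_⟩
  · rw [Finsupp.add_apply, Finsupp.smul_apply, smul_eq_mul]
    have h1 : m * hi (T t).2 v + m ≤ m * Q := by
      rw [← Nat.mul_succ]
      exact Nat.mul_le_mul_left m (hhi _ v)
    have h2 : lo (T t).1 v < m := by simp [lo]
    have h3 : p ^ (j + l) = m * Q := by rw [pow_add, mul_comm]
    omega
  · let root : MvPolynomial (Vr d n) k →+* MvPolynomial (Vr d n) k :=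
      MvPolynomial.map ((iterateFrobeniusEquiv k p j).symm : k →+* k)
    have hroot : ∀ H, rootPoly p j H = root H := fun H => rfl
    have hrootinj : Function.Injective root := map_injective _ (RingEquiv.injective _)
    have hrootsurj : Function.Surjective root := map_surjective _ (RingEquiv.surjective _)
    have hkey : ∀ H : MvPolynomial (Vr d n) k, root (H ^ Q) = expand Q H := by
      intro H
      have hid : ((iterateFrobeniusEquiv k p j).symm : k →+* k).comp (iterateFrobenius k p j) =
          RingHom.id k := RingHom.ext fun a => (iterateFrobeniusEquiv k p j).symm_apply_apply a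
      rw [← map_iterateFrobenius_expand p H j]
      simp only [root, MvPolynomial.map_map, hid, MvPolynomial.map_id]
      rfl
    obtain ⟨π, hπmul, hπmon⟩ := exists_contract (k := k) (σ := Vr d n) m hm
    have hspan : ∀ z ∈ Ideal.span ((fun H => expand m (rootPoly p j H)) '' (J : Set _)),
        ∀ ρ, π ρ z ∈ J.map root := by
      intro z hz ρ
      obtain ⟨c, hc, hzc⟩ := (Finsupp.mem_span_image_iff_linearCombination _).1 hz
      rw [← hzc, Finsupp.linearCombination_apply, map_finsuppSum]
      refine Ideal.sum_mem _ fun H hH => ?_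
      have hHJ : H ∈ J := (Finsupp.mem_supported _ _).1 hc hH
      dsimp only
      rw [smul_eq_mul, mul_comm, hπmul]
      exact Ideal.mul_mem_right _ _ (Ideal.mem_map_of_mem root hHJ)
    have h1 := hspan _ hr (T t).1
    have hterm : ∀ t', π (T t).1 (expand (p ^ (j + l)) (r t') *
        monomial (m • hi (T t').2 + lo (T t').1) 1) =
        if (T t').1 = (T t).1 then root (r t' ^ Q * monomial (hi (T t').2) 1) else 0 := by
      intro t'
      rw [show monomial (m • hi (T t').2 + lo (T t').1) (1 : k) =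
          expand m (monomial (hi (T t').2) 1) * monomial (lo (T t').1) 1 by
            rw [expand_monomial, monomial_mul, one_mul],
        ← mul_assoc, show expand (p ^ (j + l)) (r t') = expand m (expand Q (r t')) by
            rw [← expand_mul, pow_add, mul_comm], ← map_mul, hπmul]
      have hlo : ∀ v, lo (T t').1 v < m := fun v => by simp [lo]
      split_ifs with he
      · rw [((hπmon (T t).1 (lo (T t').1) hlo).1 fun v => by simp [lo, he]), mul_one, map_mul,
          hkey]
        congr 1
        show monomial (hi (T t').2) 1 = root (monomial (hi (T t').2) 1)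
        simp [root, map_monomial]
      · obtain ⟨v, hv⟩ := Function.ne_iff.1 he
        rw [((hπmon (T t).1 (lo (T t').1) hlo).2 ⟨v, by simpa [lo, Fin.val_inj] using hv⟩),
          mul_zero]
    rw [map_sum, Finset.sum_congr rfl fun t' _ => hterm t', ← Equiv.sum_comp T.symm] at h1
    simp only [Equiv.apply_symm_apply, Fintype.sum_prod_type] at h1
    rw [Finset.sum_eq_single_of_mem (T t).1 (Finset.mem_univ _)
      (fun ρ _ hρ => Finset.sum_eq_zero fun γ _ => if_neg hρ)] at h1
    simp only [if_true, ← map_sum] at h1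
    obtain ⟨H, hH, he⟩ := (Ideal.mem_map_iff_of_surjective root hrootsurj).1 h1
    rw [hrootinj he] at hH
    simp only [hmon] at hH
    have h2 := hy j (fun γ => r (T.symm ((T t).1, γ))) (hJP hH) (T t).2
    simpa using h2

end Vale.Agent.P202.M9

namespace Vale.Agent.P202

open MvPolynomial M9

attribute [local instance] MvPolynomial.weightedGradedAlgebra in
/-- The components of the graded ring of `A`. -/
theorem goalCompData : GoalCompData.{u} := by
  intro p _ k _ _ _ A _ _ _ _ d x b G hd hG CD
  classical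
  let B : CI.Base p k A x b G :=
    { n := CD.n, wt := CD.wt, wt_pos := CD.wt_pos, wt_X := CD.wt_X, wt_H := CD.wt_H
      ev := CD.ev, ev_C := CD.ev_C, ev_X := CD.ev_X, strict := CD.strict }
  set J : Ideal (MvPolynomial (Vr d CD.n) k) := CI.Base.J B hG with hJdef
  have hJhom : ∀ H ∈ J, ∀ N, weightedHomogeneousComponent CD.wt N H ∈ J := fun H hH N =>
    weightedHomogeneousComponent_mem_of_mem k CD.wt (CI.Base.J_homogeneous B hG) hH N
  have hinit : CD.initIdeal = J := by
    refine le_antisymm (Ideal.span_le.2 ?_) fun H hH => ?_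
    · rintro H ⟨N, h, h0, hh⟩
      exact (CI.Base.exists_ker_iff B hG hh.1).2 ⟨h, h0, hh⟩
    · rw [← sum_weightedHomogeneousComponent CD.wt H,
        finsum_eq_sum _ (weightedHomogeneousComponent_finsupp H)]
      refine Ideal.sum_mem _ fun N _ => Ideal.subset_span ⟨N, ?_⟩
      exact (CI.Base.exists_ker_iff B hG
        (weightedHomogeneousComponent_isWeightedHomogeneous N H)).1 (hJhom H hH N)
  have hFJ : ∀ v, CD.F v ∈ J := fun v =>
    (CI.Base.exists_ker_iff B hG (CD.f_init v).1).2 ⟨CD.f v, CD.f_ker v, CD.f_init v⟩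
  have hFsupp : ∀ v, ∀ m ∈ (CD.F v - X (hVar v) ^ CD.deg v).support,
      Finsupp.weight CD.wt m = CD.deg v * CD.wt (hVar v) ∧
        ∃ l, m (some (Sum.inl l)) ≠ 0 := by
    intro v m hm
    constructor
    · have hpow : IsWeightedHomogeneous CD.wt
          (X (hVar v) ^ CD.deg v : MvPolynomial (Vr d CD.n) k)
          (CD.deg v * CD.wt (hVar v)) := by
        simpa [smul_eq_mul] using (isWeightedHomogeneous_X k CD.wt (hVar v)).pow (CD.deg v)
      exact ((CD.f_init v).1.sub hpow) (mem_support_iff.1 hm)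
    · have hr : (Set.range fun l : Fin d => (X (some (Sum.inl l)) :
          MvPolynomial (Vr d CD.n) k)) =
          X '' Set.range fun l : Fin d => some (Sum.inl l) := by
        rw [← Set.range_comp]; rfl
      have hmem := CD.F_monic v
      rw [hr, mem_ideal_span_X_image] at hmem
      obtain ⟨_, ⟨l, rfl⟩, hl⟩ := hmem m hm
      exact ⟨l, hl⟩
  have htor : ∀ (P : MvPolynomial (Fin d) k) (H : MvPolynomial (Vr d CD.n) k), P ≠ 0 →
      inX P * H ∈ J → H ∈ J := by
    intro P H hP h
    refine CI.Base.J_tfree B hG (P := inX P) ?_ (fun h0 => hP ?_) h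
    · refine mem_supported.2 fun v hv => ?_
      obtain ⟨l, -, rfl⟩ := Finset.mem_image.1 (vars_rename _ P hv)
      exact ⟨l, rfl⟩
    · have hinj : Function.Injective (fun l : Fin d => (some (Sum.inl l) : Vr d CD.n)) :=
        fun a c h => by simpa using h
      exact rename_injective _ hinj (h0.trans (map_zero _).symm)
  let S : Set (Ideal (MvPolynomial (Vr d CD.n) k)) := J.minimalPrimes
  have hfin : S.Finite := Ideal.finite_minimalPrimes_of_isNoetherianRing _ J
  let : Fintype S := hfin.fintype
  have hrad : J.IsRadical := CI.Base.J_radical B hG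
  have hinf : ∀ r, (∀ q : S, r ∈ q.1) → r ∈ J := fun r hr => by
    rw [← hrad.radical, ← Ideal.sInf_minimalPrimes, Ideal.mem_sInf]
    exact fun {q} hq => hr ⟨q, hq⟩
  choose σ s hs hsq hsother using fun q : S => exists_separating CD.wt hJhom q.2
  have htriv : ∀ q : S, ∀ P, inX P ∈ q.1 → P = 0 := by
    intro q P hP
    by_contra hP0
    refine hsq q (q.2.1.2 (htor P (s q) hP0 (hinf _ fun q' => ?_)))
    rcases eq_or_ne q' q with rfl | hne
    · exact Ideal.mul_mem_right _ _ hP
    · exact Ideal.mul_mem_left _ _ (hsother q q'.1 q'.2 fun h => hne (Subtype.ext h))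
  have hX0 : ∀ q : S, (X (some (Sum.inl ⟨0, hd⟩)) : MvPolynomial (Vr d CD.n) k) ∉ q.1 := by
    intro q h
    exact X_ne_zero (R := k) (⟨0, hd⟩ : Fin d)
      (htriv q _ (by rw [inX, rename_X]; exact h))
  let ν := Fintype.card S
  let eS : Fin ν ≃ S := (Fintype.equivFin S).symm
  let D := (∑ q, σ q) + 1
  let sD : S → MvPolynomial (Vr d CD.n) k := fun q =>
    X (some (Sum.inl ⟨0, hd⟩)) ^ (D - σ q) * s q ^ b
  have hsD : ∀ q q' : S, q ≠ q' → sD q ∈ q'.1 := fun q q' hne =>
    Ideal.mul_mem_left _ _ (Ideal.pow_mem_of_mem _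
      (hsother q q'.1 q'.2 fun h => hne (Subtype.ext h).symm) b hG.b_pos)
  have hsDq : ∀ q, sD q ∉ q.1 := by
    intro q h
    have := q.2.1.1
    rcases this.mem_or_mem h with h | h
    · exact hX0 q (this.mem_of_pow_mem _ h)
    · exact hsq q (this.mem_of_pow_mem _ h)
  refine ⟨ν, b * D, fun a => (eS a).1, fun a => sD (eS a), ?_,
    Nat.mul_pos hG.b_pos (Nat.succ_pos _), fun a => (eS a).2.1.1, fun H => ?_, fun a => ?_,
    fun a a' hne => hsD _ _ fun h => hne (eS.injective h), fun a N H _ hH => ?_,
    fun a j l => ?_⟩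
  · refine Fintype.card_pos_iff.2 ?_
    obtain ⟨q, hq⟩ := Ideal.nonempty_minimalPrimes (CI.Base.J_ne_top B hG)
    exact ⟨⟨q, hq⟩⟩
  · rw [hinit]
    exact ⟨fun h => hinf H fun q => by simpa using h (eS.symm q), fun h a => (eS a).2.1.2 h⟩
  · refine ⟨?_, hsDq _⟩
    have h1 := ((isWeightedHomogeneous_X k CD.wt (some (Sum.inl (⟨0, hd⟩ : Fin d)))).pow
      (D - σ (eS a))).mul ((hs (eS a)).pow b)
    have hle : σ (eS a) ≤ D :=
      (Finset.single_le_sum (fun _ _ => Nat.zero_le _) (Finset.mem_univ _)).trans (Nat.le_succ _)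
    have h2 : (D - σ (eS a)) • CD.wt (some (Sum.inl ⟨0, hd⟩)) + b • σ (eS a) = b * D := by
      rw [CD.wt_X, smul_eq_mul, smul_eq_mul, mul_comm _ b, ← mul_add, Nat.sub_add_cancel hle]
    rw [← h2]
    exact h1
  · rw [hinit]
    refine hinf _ fun q => ?_
    rcases eq_or_ne (eS a) q with rfl | hne
    · exact Ideal.mul_mem_left _ _ hH
    · exact Ideal.mul_mem_right _ _ (hsD _ q hne)
  · have := (eS a).2.1.1
    obtain ⟨y, -, hy⟩ := exists_chart p CD.wt CD.wt_pos CD.deg CD.F hFsupp (eS a).1
      (fun v => (eS a).2.1.2 (hFJ v)) (htriv (eS a))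
    rw [hinit]
    exact exists_exponents p J (eS a).1 (eS a).2.1.2 y hy j l

end Vale.Agent.P202
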