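import Vale.Agent.P202.InterfacesBand
import Vale.Agent.P202.InterfacesM0

/-!
Assembly of the mixed characteristic core from the modules: coefficients, valuations, complete
intersection, the elements `E`, the band rings, rank systems and the rank inequality.
-/

universe u

namespace Vale.Agent.P202

open IsLocalRing Filter

theorem mixedCore_of_goals (hRed : GoalReduction.{u}) (hCoef : GoalCoef.{u}) (hNu : GoalNu.{u})
    (hCI : GoalCI.{u}) (hE : GoalE.{u}) (hBand : GoalBand.{u}) (hSys : GoalBandSys.{u})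
    (hCore : GoalRankCore.{u}) : GoalMixedCore.{u} := by
  intro p _ R S _ _ _ _ _ _ _ _ _ _ _ _ _ _ d hd hR hS y hy e he
  obtain ⟨D, hD, hD1, x₀, hx₀, n₀, hn₀⟩ := hRed R
  obtain rfl := hD1 inferInstance
  subst hR
  obtain ⟨k, _, _, _, _, A, _, _, _, _, _, _, _, hC⟩ :=
    hCoef p R (ndim R) hd rfl
  obtain ⟨ι, Z₀, hι, hst⟩ := hC.stages
  have hx : ∀ l, x₀ l ∈ maximalIdeal R := fun l => by simpa using hx₀ l
  have hxA : ∀ l, algebraMap R A (x₀ l) ∈ maximalIdeal A := fun l =>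
    hC.map_max ▸ Ideal.mem_map_of_mem _ (hx l)
  have hpR : (p : R) ∈ maximalIdeal R := by
    rw [← residue_eq_zero_iff, map_natCast, CharP.cast_eq_zero]
  have hpA : (p : A) ∈ maximalIdeal A := by
    have := Ideal.mem_map_of_mem (algebraMap R A) hpR
    rwa [map_natCast, hC.map_max] at this
  have hp0 : (p : A) ≠ 0 := by
    intro h
    obtain ⟨P, hP, -⟩ := Ideal.exists_minimalPrimes_le
      (bot_le : (⊥ : Ideal A) ≤ maximalIdeal A)
    exact (hC.min_primes P hP).1 (h ▸ P.zero_mem)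
  have hred : ∃ r₀ : ℕ, ∀ N, r₀ ≤ N → maximalIdeal A ^ (N + 1) ≤
      Ideal.span (Set.range fun l => algebraMap R A (x₀ l)) * maximalIdeal A ^ N := by
    refine ⟨n₀, fun N hN => ?_⟩
    have h := Ideal.map_mono (f := algebraMap R A) (hn₀ N hN)
    rw [Ideal.map_pow, Ideal.map_mul, Ideal.map_pow, hC.map_max, Ideal.map_span] at h
    rwa [← Set.range_comp] at h
  obtain ⟨b, G, hG⟩ := hNu p k A hC.residue_surj (ndim R) hd hC.min_primes hC.dim_eq hpA
    (fun l => algebraMap R A (x₀ l)) hxA hred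
  obtain ⟨CI⟩ := hCI p k A hC.residue_surj hpA hp0 (ndim R) hd _ b G hxA hG
  have hctx : BandCtx p R A x₀ b G ι e :=
    ⟨hd, rfl, hx, hG, hC.residue_surj, hC.map_max, hpA, hι, hC.hilbert, he⟩
  have he0 : 0 ≤ e := ge_of_tendsto' he fun n => by positivity
  obtain ⟨C, hC'⟩ := hSys p R k A (ndim R) x₀ b G ι e hctx CI
  refine hCore R S (ndim R) hd rfl hS x₀ hx y hy e he0 C fun H J ε hε => ?_
  obtain ⟨i, hi⟩ := hC' H J ε hε
  obtain ⟨j₁, hj⟩ := hi i le_rfl
  obtain ⟨j₀, hij, hj₀⟩ := hE p k A (ndim R) _ b G hG.b_pos CI i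
  obtain ⟨Sk, hSk⟩ := hj (max j₁ j₀) (le_max_left _ _)
  obtain ⟨B, hB⟩ := hBand p R k A hC.residue_surj hC.map_max hpA ι Z₀ hι hst (ndim R) hd _ b G hG
    CI i (max j₁ j₀) (C * (H + 1) + 1) (hij.trans (le_max_right _ _)) (Nat.succ_pos _)
    (hj₀ _ (le_max_right _ _) _) Sk
  exact hSk _ (Nat.le_succ _) B hB S

end Vale.Agent.P202
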