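import Vale.Agent.P202.NuDefs

/-!
M2, reduction to domains: the filtration of a reduced ring is glued from filtrations of its
components, and eventual stability follows from the comparison with the adic filtration.
-/

universe u

namespace Vale.Agent.P202

open IsLocalRing

/-- `NuFil` without the field `stable`. -/
structure NuPre (p : ℕ) [Fact p.Prime] (k : Type u) [CommRing k] (A : Type u) [CommRing A]
    [IsLocalRing A] [Algebra (WittVector p k) A] {d : ℕ} (x : Fin d → A) (b : ℕ)
    (G : ℕ → Ideal A) : Prop where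
  b_pos : 0 < b
  zero : G 0 = ⊤
  anti : Antitone G
  mul : ∀ i j, G i * G j ≤ G (i + j)
  one_le : G 1 ≤ maximalIdeal A
  max_le : maximalIdeal A ≤ G b
  bound : ∃ c : ℕ, ∀ N, G (b * N) ≤ maximalIdeal A ^ (N - c)
  reduced : ∀ N, ∀ r ∈ G N, r * r ∈ G (2 * N + 1) → r ∈ G (N + 1)
  tfree : ∀ (j : ℕ) (P : MvPolynomial (Fin d) (WittVector p k)), P.IsHomogeneous j →
    (∃ γ, ¬ (p : WittVector p k) ∣ MvPolynomial.coeff γ P) → ∀ (N : ℕ), ∀ r ∈ G N,
      MvPolynomial.aeval x P * r ∈ G (N + b * j + 1) → r ∈ G (N + 1)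

section Aux

variable {A : Type u} [CommRing A] [IsLocalRing A]

/-- A quotient of a complete Noetherian local ring is complete. -/
theorem nu_isAdicComplete_quotient [IsNoetherianRing A] [IsAdicComplete (maximalIdeal A) A]
    (P : Ideal A) [IsLocalRing (A ⧸ P)] :
    IsAdicComplete (maximalIdeal (A ⧸ P)) (A ⧸ P) := by
  have hmk : Function.Surjective (Ideal.Quotient.mk P) := Ideal.Quotient.mk_surjective
  have hm : (maximalIdeal A).map (Ideal.Quotient.mk P) = maximalIdeal (A ⧸ P) :=
    IsLocalRing.map_maximalIdeal_of_surjective _ hmk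
  refine { prec' := fun f hf => ?_ }
  have hd : ∀ n, ∃ a ∈ maximalIdeal A ^ n, Ideal.Quotient.mk P a = f (n + 1) - f n := by
    intro n
    have h := hf (Nat.le_succ n)
    rw [SModEq.sub_mem, smul_eq_mul, Ideal.mul_top, ← hm, ← Ideal.map_pow] at h
    obtain ⟨a, ha, hae⟩ := (Ideal.mem_map_iff_of_surjective _ hmk).1 h
    exact ⟨-a, neg_mem ha, by rw [map_neg, hae, neg_sub]⟩
  choose a ha hae using hd
  obtain ⟨a₀, ha₀⟩ := hmk (f 0)
  set F : ℕ → A := fun n => a₀ + ∑ i ∈ Finset.range n, a i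
  have hF : ∀ n, Ideal.Quotient.mk P (F n) = f n := by
    intro n
    simp only [F, map_add, map_sum, hae, ha₀, Finset.sum_range_sub f]
    ring
  obtain ⟨L, hL⟩ := IsPrecomplete.prec (I := maximalIdeal A) inferInstance (f := F) fun {m n} hmn => by
    rw [SModEq.sub_mem, smul_eq_mul, Ideal.mul_top]
    have : F m - F n = -∑ i ∈ Finset.Ico m n, a i := by
      simp only [F, Finset.sum_Ico_eq_sub _ hmn]; ring
    rw [this]
    refine neg_mem (Submodule.sum_mem _ fun i hi => ?_)
    exact Ideal.pow_le_pow_right (Finset.mem_Ico.1 hi).1 (ha i)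
  refine ⟨Ideal.Quotient.mk P L, fun n => ?_⟩
  have h := hL n
  rw [SModEq.sub_mem, smul_eq_mul, Ideal.mul_top] at h ⊢
  rw [← hF n, ← map_sub, ← hm, ← Ideal.map_pow]
  exact Ideal.mem_map_of_mem _ h

omit [IsLocalRing A] in
/-- Artin-Rees: congruences modulo finitely many ideals with zero intersection. -/
theorem exists_pow_of_forall_sup [IsNoetherianRing A] {ι : Type*} [Finite ι] (Q : ι → Ideal A)
    (hQ : ⨅ i, Q i = ⊥) (I : Ideal A) :
    ∃ c : ℕ, ∀ (N : ℕ) (r : A), (∀ i, r ∈ I ^ N ⊔ Q i) → r ∈ I ^ (N - c) := by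
  classical
  cases nonempty_fintype ι
  let φ : A →ₗ[A] ((i : ι) → A ⧸ Q i) := LinearMap.pi fun i => (Q i).mkQ
  have hφ : Function.Injective φ := by
    rw [← LinearMap.ker_eq_bot, LinearMap.ker_pi]
    simp only [Submodule.ker_mkQ]
    exact hQ
  obtain ⟨c, hc⟩ := I.exists_pow_inf_eq_pow_smul (LinearMap.range φ)
  refine ⟨c, fun N r hr => ?_⟩
  rcases Nat.lt_or_ge N c with h | h
  · rw [Nat.sub_eq_zero_of_le h.le, pow_zero, Ideal.one_eq_top]; trivial
  have h1 : φ r ∈ (I ^ N • ⊤ : Submodule A ((i : ι) → A ⧸ Q i)) ⊓ LinearMap.range φ := by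
    refine ⟨?_, LinearMap.mem_range_self φ r⟩
    rw [← Finset.univ_sum_single (φ r)]
    refine Submodule.sum_mem _ fun i _ => ?_
    obtain ⟨s, hs, q, hq, hsq⟩ := Submodule.mem_sup.1 (hr i)
    have : Pi.single (M := fun i => A ⧸ Q i) i (φ r i) =
        s • Pi.single (M := fun i => A ⧸ Q i) i ((Q i).mkQ 1) := by
      rw [← LinearMap.coe_single (R := A), ← map_smul]
      congr 1
      rw [← map_smul, smul_eq_mul, mul_one]
      show (Q i).mkQ r = _
      rw [← hsq, map_add]
      have hq' : (Q i).mkQ q = 0 := (Submodule.Quotient.mk_eq_zero _).2 hq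
      rw [hq', add_zero]
    rw [this]
    exact Submodule.smul_mem_smul hs trivial
  rw [hc N h] at h1
  have h2 : φ r ∈ Submodule.map φ (I ^ (N - c)) := by
    have : I ^ (N - c) • (LinearMap.range φ) ≤ Submodule.map φ (I ^ (N - c)) := by
      rw [LinearMap.range_eq_map, ← Submodule.map_smul'', smul_eq_mul, Ideal.mul_top]
    exact this (smul_mono_right (I ^ (N - c)) (inf_le_right : _ ≤ LinearMap.range φ) h1)
  obtain ⟨s, hs, hsr⟩ := Submodule.mem_map.1 h2
  exact hφ hsr ▸ hs

variable {p : ℕ} [Fact p.Prime] {k : Type u} [CommRing k] [Algebra (WittVector p k) A]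
  {d : ℕ} {x : Fin d → A} {b : ℕ} {G : ℕ → Ideal A}

/-- Eventual stability follows from the bound. -/
theorem NuPre.stable [IsNoetherianRing A] (h : NuPre p k A x b G) (hx : ∀ l, x l ∈ maximalIdeal A)
    (hr : ∃ r₀ : ℕ, ∀ N, r₀ ≤ N →
      maximalIdeal A ^ (N + 1) ≤ Ideal.span (Set.range x) * maximalIdeal A ^ N) :
    ∃ N₀, ∀ N, N₀ ≤ N → G (N + b) = Ideal.span (Set.range x) * G N := by
  set I := Ideal.span (Set.range x)
  have hIm : I ≤ maximalIdeal A := Ideal.span_le.2 (by rintro _ ⟨l, rfl⟩; exact hx l)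
  obtain ⟨c, hc⟩ := h.bound
  obtain ⟨r₀, hr₀⟩ := hr
  let F : I.Filtration A :=
    { N := fun M => maximalIdeal A ^ (M - c)
      mono := fun M => Ideal.pow_le_pow_right (by omega)
      smul_le := fun M => by
        rw [smul_eq_mul]
        refine (Ideal.mul_mono_left hIm).trans ?_
        rw [← pow_succ']
        exact Ideal.pow_le_pow_right (by omega) }
  have hF : F.Stable := ⟨r₀ + c, fun M hM => by
    refine (F.smul_le M).antisymm ?_
    show maximalIdeal A ^ (M + 1 - c) ≤ I • maximalIdeal A ^ (M - c)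
    rw [smul_eq_mul, show M + 1 - c = (M - c) + 1 by omega]
    exact hr₀ _ (by omega)⟩
  have key : ∀ i, ∃ n₀, ∀ M, n₀ ≤ M → G (b * (M + 1) + i) = I * G (b * M + i) := by
    intro i
    let F' : I.Filtration A :=
      { N := fun M => G (b * M + i)
        mono := fun M => h.anti (by simp [mul_add])
        smul_le := fun M => by
          rw [smul_eq_mul]
          refine (Ideal.mul_mono_left (hIm.trans h.max_le)).trans ((h.mul _ _).trans ?_)
          exact h.anti (by simp [mul_add]; omega) }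
    obtain ⟨n₀, hn⟩ := hF.of_le (F' := F')
      (fun M => (h.anti (Nat.le_add_right _ _)).trans (hc M))
    exact ⟨n₀, fun M hM => (hn M hM).symm⟩
  choose n₀ hn₀ using key
  refine ⟨b * ((Finset.range b).sup n₀ + 1), fun N hN => ?_⟩
  have hb := h.b_pos
  have hM : n₀ (N % b) ≤ N / b := by
    have h1 : n₀ (N % b) ≤ (Finset.range b).sup n₀ :=
      Finset.le_sup (Finset.mem_range.2 (Nat.mod_lt _ hb))
    have h2 : (Finset.range b).sup n₀ + 1 ≤ N / b :=
      (Nat.le_div_iff_mul_le hb).2 (by rwa [mul_comm])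
    omega
  have := hn₀ (N % b) (N / b) hM
  rw [Nat.div_add_mod] at this
  rwa [mul_add, mul_one, add_right_comm, Nat.div_add_mod] at this

/-- `ceil (N / K)`. -/
def cdiv (N K : ℕ) : ℕ := (N + (K - 1)) / K

theorem cdiv_le_iff {N K M : ℕ} (hK : 0 < K) : cdiv N K ≤ M ↔ N ≤ K * M := by
  rw [cdiv, Nat.div_le_iff_le_mul_add_pred hK]
  omega

theorem le_mul_cdiv {N K : ℕ} (hK : 0 < K) : N ≤ K * cdiv N K := (cdiv_le_iff hK).1 le_rfl

theorem cdiv_add_le {K : ℕ} (hK : 0 < K) (i j : ℕ) :
    cdiv (i + j) K ≤ cdiv i K + cdiv j K := by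
  rw [cdiv_le_iff hK, mul_add]
  exact Nat.add_le_add (le_mul_cdiv hK) (le_mul_cdiv hK)

theorem cdiv_mul {K : ℕ} (hK : 0 < K) (M : ℕ) : cdiv (K * M) K = M := by
  refine le_antisymm ((cdiv_le_iff hK).2 le_rfl) ?_
  exact Nat.le_of_mul_le_mul_left (le_mul_cdiv hK) hK

theorem cdiv_mul_succ {K : ℕ} (hK : 0 < K) (M : ℕ) : cdiv (K * M + 1) K = M + 1 := by
  refine le_antisymm ((cdiv_le_iff hK).2 ?_) ?_
  · rw [mul_add]; omega
  · by_contra h
    have := (cdiv_le_iff (N := K * M + 1) hK).1 (Nat.le_of_lt_succ (Nat.lt_of_not_le h))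
    omega

theorem cdiv_succ_of_not_dvd {K N : ℕ} (hK : 0 < K) (h : ¬ K ∣ N) :
    cdiv (N + 1) K = cdiv N K := by
  refine le_antisymm ((cdiv_le_iff hK).2 ?_) ((cdiv_le_iff hK).2 ?_)
  · rcases Nat.eq_or_lt_of_le (le_mul_cdiv (N := N) hK) with h' | h'
    · exact absurd ⟨_, h'⟩ h
    · omega
  · exact le_trans (Nat.le_succ N) (le_mul_cdiv hK)

/-- Change of units. -/
theorem NuPre.scale (h : NuPre p k A x b G) {K : ℕ} (hK : 0 < K) :
    NuPre p k A x (b * K) fun N => G (cdiv N K) where
  b_pos := Nat.mul_pos h.b_pos hK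
  zero := by
    have : cdiv 0 K = 0 := Nat.le_zero.1 ((cdiv_le_iff hK).2 (Nat.zero_le _))
    simp [this, h.zero]
  anti := fun i j hij => h.anti ((cdiv_le_iff hK).2 (hij.trans (le_mul_cdiv hK)))
  mul := fun i j => (h.mul _ _).trans (h.anti (cdiv_add_le hK i j))
  one_le := by
    have : cdiv 1 K = 1 := by simpa using cdiv_mul_succ hK 0
    simpa [this] using h.one_le
  max_le := by
    rw [show cdiv (b * K) K = b by rw [mul_comm]; exact cdiv_mul hK b]
    exact h.max_le
  bound := h.bound.imp fun c hc N => by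
    rw [show cdiv (b * K * N) K = b * N by
      rw [show b * K * N = K * (b * N) by ring]; exact cdiv_mul hK _]
    exact hc N
  reduced := fun N r hr hrr => by
    by_cases hN : K ∣ N
    · obtain ⟨M, rfl⟩ := hN
      rw [cdiv_mul hK] at hr
      rw [show 2 * (K * M) + 1 = K * (2 * M) + 1 by ring, cdiv_mul_succ hK] at hrr
      rw [cdiv_mul_succ hK]
      exact h.reduced M r hr hrr
    · rw [cdiv_succ_of_not_dvd hK hN]; exact hr
  tfree := fun j P hP hu N r hr hPr => by
    by_cases hN : K ∣ N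
    · obtain ⟨M, rfl⟩ := hN
      rw [cdiv_mul hK] at hr
      rw [show K * M + b * K * j + 1 = K * (M + b * j) + 1 by ring, cdiv_mul_succ hK] at hPr
      rw [cdiv_mul_succ hK]
      exact h.tfree j P hP hu M r hr hPr
    · rw [cdiv_succ_of_not_dvd hK hN]; exact hr

end Aux

open Classical in
/-- The filtration of finitely many valuations. -/
theorem NuFam.exists_pre {p : ℕ} [Fact p.Prime] {k : Type u} [CommRing k] {A : Type u} [CommRing A]
    [IsLocalRing A] [Algebra (WittVector p k) A] {d : ℕ} {x : Fin d → A} (F : NuFam p k A x) :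
    ∃ (b : ℕ) (G : ℕ → Ideal A), NuPre p k A x b G := by
  have := F.fintype
  have := F.nonempty
  set E := ∏ i, F.e i
  have hE : 0 < E := Finset.prod_pos fun i _ => F.e_pos i
  let m : F.idx → ℕ := fun i => E / F.e i
  have hme : ∀ i, m i * F.e i = E := fun i =>
    Nat.div_mul_cancel (Finset.dvd_prod_of_mem F.e (Finset.mem_univ i))
  have hm : ∀ i, 0 < m i := fun i => Nat.pos_of_ne_zero fun h0 => by
    have := hme i; rw [h0, zero_mul] at this; omega
  have hadd : ∀ i (a c : A) (n : ℕ), F.v i (a * c) = n →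
      ∃ u w : ℕ, F.v i a = u ∧ F.v i c = w ∧ u + w = n := by
    intro i a c n h
    rw [AddValuation.map_mul] at h
    obtain ⟨u, hu⟩ := ENat.ne_top_iff_exists.1 (WithTop.add_ne_top.1 (h ▸ ENat.natCast_ne_top n)).1
    obtain ⟨w, hw⟩ := ENat.ne_top_iff_exists.1 (WithTop.add_ne_top.1 (h ▸ ENat.natCast_ne_top n)).2
    refine ⟨u, w, hu.symm, hw.symm, ?_⟩
    rw [← hu, ← hw] at h
    exact_mod_cast h
  let G : ℕ → Ideal A := fun N =>
    { carrier := {r | ∀ (i : F.idx) (n : ℕ), F.v i r = n → N ≤ m i * n}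
      add_mem' := fun {a c} ha hc i n hn => by
        have h := (F.v i).map_add a c
        rw [hn] at h
        rcases min_le_iff.1 h with h' | h'
        · obtain ⟨u, hu⟩ := ENat.ne_top_iff_exists.1 (ne_top_of_le_ne_top (ENat.natCast_ne_top n) h')
          rw [← hu] at h'
          exact (ha i u hu.symm).trans (Nat.mul_le_mul_left _ (by exact_mod_cast h'))
        · obtain ⟨u, hu⟩ := ENat.ne_top_iff_exists.1 (ne_top_of_le_ne_top (ENat.natCast_ne_top n) h')
          rw [← hu] at h'
          exact (hc i u hu.symm).trans (Nat.mul_le_mul_left _ (by exact_mod_cast h'))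
      zero_mem' := fun i n hn => by
        rw [AddValuation.map_zero] at hn
        exact absurd hn.symm (ENat.natCast_ne_top n)
      smul_mem' := fun c a ha i n hn => by
        obtain ⟨u, w, -, hw, huw⟩ := hadd i c a n hn
        exact (ha i w hw).trans (Nat.mul_le_mul_left _ (by omega)) }
  have hG : ∀ N r, r ∈ G N ↔ ∀ (i : F.idx) (n : ℕ), F.v i r = n → N ≤ m i * n :=
    fun _ _ => Iff.rfl
  refine ⟨E, G, ⟨hE, ?_, fun a c h r hr i n hn => h.trans (hr i n hn), fun a c => ?_, ?_, ?_, ?_,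
    fun N r hr hrr i n hn => ?_, fun j P hP hu N r hr hPr i n hn => ?_⟩⟩
  · exact eq_top_iff.2 fun r _ i n _ => Nat.zero_le _
  · refine Ideal.mul_le.2 fun r hr s hs i n hn => ?_
    obtain ⟨u, w, hu, hw, rfl⟩ := hadd i r s n hn
    rw [mul_add]
    exact Nat.add_le_add (hr i u hu) (hs i w hw)
  · intro r hr
    by_contra hu
    rw [mem_maximalIdeal, mem_nonunits_iff, not_not] at hu
    obtain ⟨s, hs⟩ := hu.exists_right_inv
    let i : F.idx := Classical.arbitrary _
    have h1 : F.v i (r * s) = ((0 : ℕ) : ℕ∞) := by rw [hs, AddValuation.map_one]; rfl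
    obtain ⟨u, w, hu', -, huw⟩ := hadd i r s 0 h1
    have := hr i u hu'
    rw [show u = 0 by omega, mul_zero] at this
    omega
  · intro r hr i n hn
    have := F.max_le i r hr
    rw [hn] at this
    rw [← hme i]
    exact Nat.mul_le_mul_left _ (by exact_mod_cast this)
  · obtain ⟨c, hc⟩ := F.bound
    refine ⟨c, fun N r hr => hc N r fun i => ?_⟩
    cases hv : F.v i r with
    | top => exact le_top
    | coe n =>
      have := hr i n hv
      rw [← hme i, mul_assoc, mul_comm (F.e i)] at this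
      exact Nat.cast_le.2 (Nat.le_of_mul_le_mul_left this (hm i))
  · have := hrr i (n + n) (by rw [AddValuation.map_mul, hn]; norm_cast)
    have h2 := hr i n hn
    rw [mul_add] at this
    omega
  · have := hPr i (j * F.e i + n)
      (by rw [AddValuation.map_mul, F.homog i j P hP hu, hn]; norm_cast)
    rw [mul_add, show m i * (j * F.e i) = E * j by rw [← hme i]; ring] at this
    omega

/-- M2 follows from M2 for domains. -/
theorem goalNuAsm : GoalNuAsm.{u} := by
  intro hdom p _ k _ _ _ _ A _ _ _ _ _ _ hres d hd hmin _ hpm x hx hr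
  classical
  let ι := {P : Ideal A // P ∈ minimalPrimes A}
  have : Finite ι := (minimalPrimes.finite_of_isNoetherianRing A).to_subtype
  cases nonempty_fintype ι
  have hne : Nonempty ι := by
    obtain ⟨P, hP, -⟩ := Ideal.exists_minimalPrimes_le (bot_le : (⊥ : Ideal A) ≤ maximalIdeal A)
    exact ⟨⟨P, hP⟩⟩
  have hinf : ⨅ i : ι, i.1 = ⊥ := by
    have h1 : sInf (minimalPrimes A) = ⊥ := by
      exact Ideal.sInf_minimalPrimes.trans (nilradical_eq_zero A)
    rwa [sInf_eq_iInf'] at h1
  have hprime : ∀ i : ι, i.1.IsPrime := fun i => i.2.1.1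
  have core : ∀ i : ι, ∃ (b : ℕ) (G : ℕ → Ideal A), 0 < b ∧ G 0 = ⊤ ∧ Antitone G ∧
      (∀ i j, G i * G j ≤ G (i + j)) ∧ G 1 ≤ maximalIdeal A ∧
      ∀ K, 0 < K → maximalIdeal A ≤ G (cdiv (b * K) K) ∧
        (∃ c, ∀ N, G (cdiv (b * K * N) K) ≤ maximalIdeal A ^ (N - c) ⊔ i.1) ∧
        (∀ N, ∀ r ∈ G (cdiv N K), r * r ∈ G (cdiv (2 * N + 1) K) → r ∈ G (cdiv (N + 1) K)) ∧
        ∀ (j : ℕ) (P : MvPolynomial (Fin d) (WittVector p k)), P.IsHomogeneous j →
          (∃ γ, ¬ (p : WittVector p k) ∣ MvPolynomial.coeff γ P) → ∀ (N : ℕ),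
            ∀ r ∈ G (cdiv N K), MvPolynomial.aeval x P * r ∈ G (cdiv (N + b * K * j + 1) K) →
              r ∈ G (cdiv (N + 1) K) := by
    intro i
    have := hprime i
    have : Nontrivial (A ⧸ i.1) := Ideal.Quotient.nontrivial_iff.2 (hprime i).ne_top
    have hmk : Function.Surjective (Ideal.Quotient.mk i.1) := Ideal.Quotient.mk_surjective
    have : IsLocalRing (A ⧸ i.1) := IsLocalRing.of_surjective' _ hmk
    have := nu_isAdicComplete_quotient i.1
    have hm : (maximalIdeal A).map (Ideal.Quotient.mk i.1) = maximalIdeal (A ⧸ i.1) :=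
      IsLocalRing.map_maximalIdeal_of_surjective _ hmk
    have hmem : ∀ a, a ∈ maximalIdeal A → Ideal.Quotient.mk i.1 a ∈ maximalIdeal (A ⧸ i.1) :=
      fun a ha => hm ▸ Ideal.mem_map_of_mem _ ha
    have hres' : Function.Surjective ((residue (A ⧸ i.1)).comp
        (algebraMap (WittVector p k) (A ⧸ i.1))) := by
      intro y
      obtain ⟨z, rfl⟩ := residue_surjective y
      obtain ⟨a, rfl⟩ := hmk z
      obtain ⟨w, hw⟩ := hres (residue A a)
      refine ⟨w, ?_⟩
      simp only [RingHom.comp_apply] at hw ⊢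
      rw [← sub_eq_zero, ← map_sub, residue_eq_zero_iff] at hw ⊢
      have := hmem _ hw
      rw [map_sub] at this
      exact this
    obtain ⟨hp, hdim⟩ := hmin i.1 i.2
    obtain ⟨r₀, hr₀⟩ := hr
    obtain ⟨F⟩ := hdom p k (A ⧸ i.1) hres' d hd
      (fun h0 => hp (Ideal.Quotient.eq_zero_iff_mem.1 (by simpa using h0))) hdim
      (by simpa using hmem _ hpm)
      (fun l => Ideal.Quotient.mk i.1 (x l)) (fun l => hmem _ (hx l))
      ⟨r₀, fun N hN => by
        have hspan : Ideal.span (Set.range fun l => Ideal.Quotient.mk i.1 (x l)) =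
            (Ideal.span (Set.range x)).map (Ideal.Quotient.mk i.1) := by
          rw [Ideal.map_span, ← Set.range_comp]; rfl
        rw [hspan, ← hm, ← Ideal.map_pow, ← Ideal.map_pow, ← Ideal.map_mul]
        exact Ideal.map_mono (hr₀ N hN)⟩
    obtain ⟨b, G, h⟩ := F.exists_pre
    have haev : ∀ P : MvPolynomial (Fin d) (WittVector p k),
        Ideal.Quotient.mk i.1 (MvPolynomial.aeval x P) =
          MvPolynomial.aeval (fun l => Ideal.Quotient.mk i.1 (x l)) P := fun P =>
      (MvPolynomial.comp_aeval_apply (Ideal.Quotient.mkₐ (WittVector p k) i.1) (f := x) P)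
    refine ⟨b, fun N => (G N).comap (Ideal.Quotient.mk i.1), h.b_pos, by simp [h.zero],
      fun _ _ e => Ideal.comap_mono (h.anti e), fun a c => ?_, ?_, fun K hK => ?_⟩
    · exact (Ideal.le_comap_mul _).trans (Ideal.comap_mono (h.mul a c))
    · refine (Ideal.comap_mono h.one_le).trans (IsLocalRing.le_maximalIdeal ?_)
      exact Ideal.comap_ne_top _ (maximalIdeal.isMaximal _).ne_top
    · have hs := h.scale hK
      refine ⟨fun a ha => hs.max_le (hmem a ha), hs.bound.imp fun c hc N => ?_,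
        fun N r hr' hrr => hs.reduced N _ hr' (by simpa using hrr),
        fun j P hP hu N r hr' hPr => hs.tfree j P hP hu N _ hr' ?_⟩
      · refine (Ideal.comap_mono (hc N)).trans ?_
        rw [← hm, ← Ideal.map_pow, Ideal.comap_map_of_surjective _ hmk,
          ← RingHom.ker_eq_comap_bot, Ideal.mk_ker]
      · rw [← haev]; simpa using hPr
  choose b G hb hG0 hGanti hGmul hG1 hG using core
  set B := ∏ i, b i
  have hB : 0 < B := Finset.prod_pos fun i _ => hb i
  let K : ι → ℕ := fun i => B / b i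
  have hKb : ∀ i, b i * K i = B := fun i =>
    Nat.mul_div_cancel' (Finset.dvd_prod_of_mem b (Finset.mem_univ i))
  have hK : ∀ i, 0 < K i := fun i => Nat.pos_of_ne_zero fun h0 => by
    have := hKb i; rw [h0, mul_zero] at this; omega
  let H : ℕ → Ideal A := fun N => ⨅ i, G i (cdiv N (K i))
  have hpre : NuPre p k A x B H :=
    { b_pos := hB
      zero := by
        refine eq_top_iff.2 (le_iInf fun i => ?_)
        rw [Nat.le_zero.1 ((cdiv_le_iff (hK i)).2 (Nat.zero_le _)), hG0 i]
      anti := fun m n e => iInf_mono fun i =>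
        hGanti i ((cdiv_le_iff (hK i)).2 (e.trans (le_mul_cdiv (hK i))))
      mul := fun m n => le_iInf fun i =>
        (Ideal.mul_mono (iInf_le _ i) (iInf_le _ i)).trans
          ((hGmul i _ _).trans (hGanti i (cdiv_add_le (hK i) m n)))
      one_le := by
        obtain ⟨i⟩ := hne
        refine (iInf_le _ i).trans ?_
        rw [show cdiv 1 (K i) = 1 by simpa using cdiv_mul_succ (hK i) 0]
        exact hG1 i
      max_le := le_iInf fun i => by
        have := (hG i _ (hK i)).1
        rwa [hKb] at this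
      bound := by
        choose c hc using fun i => (hG i _ (hK i)).2.1
        obtain ⟨c', hc'⟩ := exists_pow_of_forall_sup (fun i : ι => i.1) hinf (maximalIdeal A)
        refine ⟨Finset.univ.sup c + c', fun N r hr' => ?_⟩
        have := hc' (N - Finset.univ.sup c) r fun i => by
          have h1 := hc i N
          rw [hKb] at h1
          have h2 := h1 ((Submodule.mem_iInf _).1 hr' i)
          have h3 : N - Finset.univ.sup c ≤ N - c i := by
            have := Finset.le_sup (f := c) (Finset.mem_univ i)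
            omega
          have h4 : maximalIdeal A ^ (N - c i) ⊔ i.1 ≤
              maximalIdeal A ^ (N - Finset.univ.sup c) ⊔ i.1 :=
            sup_le_sup_right (Ideal.pow_le_pow_right h3) i.1
          exact h4 h2
        rwa [Nat.sub_sub] at this
      reduced := fun N r hr' hrr => (Submodule.mem_iInf _).2 fun i =>
        (hG i _ (hK i)).2.2.1 N r ((Submodule.mem_iInf _).1 hr' i)
          ((Submodule.mem_iInf _).1 hrr i)
      tfree := fun j P hP hu N r hr' hPr => (Submodule.mem_iInf _).2 fun i => by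
        refine (hG i _ (hK i)).2.2.2 j P hP hu N r ((Submodule.mem_iInf _).1 hr' i) ?_
        rw [hKb]
        exact (Submodule.mem_iInf _).1 hPr i }
  exact ⟨B, H, ⟨hpre.b_pos, hpre.zero, hpre.anti, hpre.mul, hpre.one_le, hpre.max_le,
    hpre.bound, hpre.reduced, hpre.stable hx hr, hpre.tfree⟩⟩

end Vale.Agent.P202
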