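import Mathlib

/-!
M2, generic lemmas for the valuations of a domain: valuations of a semilocal Dedekind domain,
traces of integral elements, cancellation in the adic topology.
-/

universe u v

namespace Vale.Agent.P202

/-- A domain in which a prime number is neither zero nor a unit has characteristic zero. -/
theorem charZero_of_prime {R : Type u} [CommRing R] [IsDomain R] (p : ℕ) [hp : Fact p.Prime]
    (hp0 : (p : R) ≠ 0) (hpu : ¬ IsUnit (p : R)) : CharZero R := by
  obtain ⟨q, hq⟩ := CharP.exists R
  rcases CharP.char_is_prime_or_zero R q with hqp | rfl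
  swap
  · exact CharP.charP_to_charZero R
  exfalso
  by_cases hpq : p = q
  · exact hp0 (hpq ▸ CharP.cast_eq_zero R q)
  · obtain ⟨a, b, hab⟩ := (Int.isCoprime_iff_nat_coprime (a := p) (b := q)).2
      (by simpa using (Nat.coprime_primes hp.out hqp).2 hpq)
    have := congrArg (Int.cast : ℤ → R) hab
    push_cast at this
    rw [CharP.cast_eq_zero R q, mul_zero, add_zero] at this
    exact hpu (.of_mul_eq_one_right _ this)

/-- Finitely many valuations of a Dedekind domain whose maximal ideals all contain `π` decide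
divisibility. -/
theorem exists_valuations (O : Type u) [CommRing O] [IsDomain O] [IsDedekindDomain O] (π : O)
    (hπ0 : π ≠ 0) (hπ : ∀ P : Ideal O, P.IsMaximal → π ∈ P) :
    ∃ (I : Type u) (_ : Fintype I) (_ : Nonempty I) (v : I → AddValuation O ℕ∞),
      (∀ i a, a ≠ 0 → v i a ≠ ⊤) ∧ (∀ i, 1 ≤ v i π) ∧
      ∀ a b : O, (∀ i, v i a ≤ v i b) → a ∣ b := by
  classical
  have hne : ∀ P : Ideal O, P.IsMaximal → P ≠ ⊥ := fun P hP h => hπ0 (by simpa [h] using hπ P hP)
  let I : Type u := {P : Ideal O // P.IsMaximal}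
  have hfin : Finite I := by
    refine (Set.Finite.subset (Ideal.finite_minimalPrimes_of_isNoetherianRing O (Ideal.span {π}))
      fun P (hP : P.IsMaximal) => ?_).to_subtype
    refine ⟨⟨hP.isPrime, Ideal.span_le.2 (by simpa using hπ P hP)⟩, fun Q hQ hQP => ?_⟩
    have hQ0 : Q ≠ ⊥ := fun h => hπ0 (by simpa [h] using hQ.2 (Ideal.mem_span_singleton_self π))
    exact ((hQ.1.isMaximal hQ0).eq_of_le hP.ne_top hQP).ge
  have hnon : Nonempty I := by
    obtain ⟨P, hP⟩ := Ideal.exists_maximal O
    exact ⟨⟨P, hP⟩⟩
  have hprime : ∀ P : I, P.1.IsPrime := fun P => P.2.isPrime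
  have hdvr : ∀ P : I, IsDiscreteValuationRing (Localization.AtPrime P.1) := fun P =>
    IsLocalization.AtPrime.isDiscreteValuationRing_of_dedekind_domain O (hne P.1 P.2) _
  let v : I → AddValuation O ℕ∞ := fun P =>
    (IsDiscreteValuationRing.addVal (Localization.AtPrime P.1)).comap
      (algebraMap O (Localization.AtPrime P.1))
  refine ⟨I, Fintype.ofFinite I, hnon, v, fun P a ha h => ?_, fun P => ?_, fun a b h => ?_⟩
  · have h' := IsDiscreteValuationRing.addVal_eq_top_iff.1 h
    exact ha (IsLocalization.injective (Localization.AtPrime P.1)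
      P.1.primeCompl_le_nonZeroDivisors (by rw [h', map_zero]))
  · refine Order.one_le_iff_pos.2 (pos_iff_ne_zero.2 fun h => ?_)
    have h' : IsUnit (algebraMap O (Localization.AtPrime P.1) π) :=
      IsDiscreteValuationRing.addVal_eq_zero_iff.1 h
    exact ((IsLocalization.AtPrime.isUnit_to_map_iff _ P.1 π).1 h') (hπ P.1 P.2)
  · have hloc : ∀ P : I, ∃ s ∉ P.1, a ∣ s * b := by
      intro P
      obtain ⟨c, hc⟩ := IsDiscreteValuationRing.addVal_le_iff_dvd.1 (h P)
      obtain ⟨c₀, s, rfl⟩ := IsLocalization.exists_mk'_eq P.1.primeCompl c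
      refine ⟨s, s.2, c₀, ?_⟩
      refine IsLocalization.injective (Localization.AtPrime P.1)
        P.1.primeCompl_le_nonZeroDivisors ?_
      rw [map_mul, map_mul, hc, ← IsLocalization.mk'_spec (Localization.AtPrime P.1) c₀ s]
      ring
    by_contra hab
    let J : Ideal O := (Ideal.span {a}).colon {b}
    have hJ : J ≠ ⊤ := fun hJ => hab (by
      have : (1 : O) ∈ J := by rw [hJ]; trivial
      simpa [J, Submodule.mem_colon_singleton, Ideal.mem_span_singleton] using this)
    obtain ⟨P, hP, hJP⟩ := Ideal.exists_le_maximal J hJ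
    obtain ⟨s, hs, hs'⟩ := hloc ⟨P, hP⟩
    exact hs (hJP (by simpa [J, Submodule.mem_colon_singleton, Ideal.mem_span_singleton] using hs'))

/-- A multiple of a member of a high power of the ideal is in a high power. -/
theorem exists_pow_of_mul_mem {A : Type u} [CommRing A] [IsDomain A] [IsNoetherianRing A]
    (I : Ideal A) {e : A} (he : e ≠ 0) :
    ∃ c : ℕ, ∀ (N : ℕ) (r : A), e * r ∈ I ^ N → r ∈ I ^ (N - c) := by
  obtain ⟨c, hc⟩ := I.exists_pow_inf_eq_pow_smul (Ideal.span {e})
  refine ⟨c, fun N r hr => ?_⟩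
  rcases Nat.lt_or_ge N c with h | h
  · rw [Nat.sub_eq_zero_of_le h.le, pow_zero, Ideal.one_eq_top]; trivial
  have h1 : e * r ∈ I ^ N • ⊤ ⊓ Ideal.span {e} :=
    ⟨by rw [smul_eq_mul, Ideal.mul_top]; exact hr,
      Ideal.mul_mem_right _ _ (Ideal.mem_span_singleton_self e)⟩
  rw [hc N h] at h1
  have h2 : e * r ∈ I ^ (N - c) * Ideal.span {e} :=
    smul_mono_right (I ^ (N - c)) (inf_le_right : _ ≤ Ideal.span {e}) h1
  obtain ⟨z, hz, hze⟩ := Ideal.mem_mul_span_singleton.1 h2
  rw [mul_comm z e] at hze
  exact mul_left_cancel₀ he hze ▸ hz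

variable {B A : Type u} [CommRing B] [IsDomain B] [CommRing A] [IsDomain A] [Algebra B A]
  [Module.Finite B A] [CharZero A]

omit [Module.Finite B A] in
/-- If all conjugates of `y` are integral multiples of `z`, so is its trace. -/
theorem isIntegral_trace_div (_hinj : Function.Injective (algebraMap B A)) (F E : Type u) [Field F]
    [Field E] [Algebra B F] [IsFractionRing B F] [Algebra A E] [IsFractionRing A E] [Algebra F E]
    [Algebra B E] [IsScalarTower B F E] [IsScalarTower B A E] [FiniteDimensional F E]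
    {V : Type v} [CommRing V] {Ω : Type u} [Field Ω] [IsAlgClosed Ω] [Algebra V Ω] (s : B →+* Ω)
    (hs : Function.Injective s) (z : Ω) (y : A)
    (hy : ∀ ρ : A →+* Ω, ρ.comp (algebraMap B A) = s → IsIntegral V (ρ y / z)) (b : B)
    (hb : algebraMap B F b = Algebra.trace F E (algebraMap A E y)) :
    IsIntegral V (s b / z) := by
  let _ : Algebra F Ω := (IsFractionRing.lift hs).toAlgebra
  have : CharZero B := ⟨fun m n h => Nat.cast_injective (R := A)
    (by simpa using congrArg (algebraMap B A) h)⟩
  have : CharZero F := charZero_of_injective_algebraMap (IsFractionRing.injective B F)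
  have h2 := congrArg (algebraMap F Ω) hb
  rw [trace_eq_sum_embeddings Ω] at h2
  have h3 : algebraMap F Ω (algebraMap B F b) = s b := IsFractionRing.lift_algebraMap hs b
  rw [← h3, h2, div_eq_mul_inv, Finset.sum_mul]
  refine IsIntegral.sum _ fun σ _ => ?_
  have := hy ((σ : E →+* Ω).comp (algebraMap A E)) (by
    ext w
    show σ (algebraMap A E (algebraMap B A w)) = s w
    rw [← IsScalarTower.algebraMap_apply B A E, IsScalarTower.algebraMap_apply B F E,
      σ.commutes]
    exact IsFractionRing.lift_algebraMap hs w)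
  rwa [div_eq_mul_inv] at this

/-- Integrality of all conjugates gives, up to a fixed factor, coefficients in `B` which are
integral multiples. -/
theorem exists_coefficients (hinj : Function.Injective (algebraMap B A)) :
    ∃ (m : ℕ) (α : Fin m → A) (e : A), e ≠ 0 ∧
      ∀ (V : Type v) [CommRing V] (r : A), ∃ b : Fin m → B,
        (e * r = ∑ l, algebraMap B A (b l) * α l) ∧
        ∀ (Ω : Type u) [Field Ω] [IsAlgClosed Ω] [Algebra V Ω] (s : B →+* Ω),
          Function.Injective s → ∀ z : Ω,
          (∀ ρ : A →+* Ω, ρ.comp (algebraMap B A) = s → ∀ w, IsIntegral V (ρ w)) →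
          (∀ ρ : A →+* Ω, ρ.comp (algebraMap B A) = s → IsIntegral V (ρ r / z)) →
          ∀ l, IsIntegral V (s (b l) / z) := by
  classical
  have : FaithfulSMul B (FractionRing A) := by
    rw [faithfulSMul_iff_algebraMap_injective, IsScalarTower.algebraMap_eq B A (FractionRing A)]
    exact (IsFractionRing.injective A (FractionRing A)).comp hinj
  let _ := FractionRing.liftAlgebra B (FractionRing A)
  let F := FractionRing B
  let E := FractionRing A
  have hst := FractionRing.isScalarTower_liftAlgebra B E
  have : CharZero B := ⟨fun m n h => Nat.cast_injective (R := A)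
    (by simpa using congrArg (algebraMap B A) h)⟩
  obtain ⟨m, gen, hgen⟩ := Module.Finite.exists_fin (R := B) (M := A)
  set ι := algebraMap A E
  have hιB : ∀ w : B, ι (algebraMap B A w) = algebraMap F E (algebraMap B F w) := fun w => by
    rw [← IsScalarTower.algebraMap_apply B A E, IsScalarTower.algebraMap_apply B F E]
  have hspan : ∀ w : E, ∃ (a : A) (b : B), w = (algebraMap B F b)⁻¹ • ι a := by
    intro w
    obtain ⟨a, t, ht, rfl⟩ := IsFractionRing.div_surjective (A := A) w
    obtain ⟨b, hb0, t', ht'⟩ :=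
      (Algebra.IsIntegral.isIntegral (R := B) t).isAlgebraic.exists_nonzero_dvd ht
    refine ⟨a * t', b, ?_⟩
    have hι0 : ι t ≠ 0 := IsFractionRing.to_map_ne_zero_of_mem_nonZeroDivisors ht
    have ht0 : ι t' ≠ 0 := fun h0 => hb0 (hinj (IsFractionRing.injective A E (by
      simp only [map_zero, ht', map_mul]
      rw [show algebraMap A E t' = 0 from h0, mul_zero])))
    rw [Algebra.smul_def, map_inv₀, ← hιB, ht', map_mul, map_mul, mul_inv, div_eq_mul_inv]
    rw [mul_comm (ι a) (ι t'), mul_assoc, inv_mul_cancel_left₀ ht0, mul_comm]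
  have : FiniteDimensional F E := by
    refine Module.finite_def.2 (Submodule.fg_def.2 ⟨Set.range (ι ∘ gen), Set.finite_range _, ?_⟩)
    refine eq_top_iff.2 fun w _ => ?_
    obtain ⟨a, b, rfl⟩ := hspan w
    refine Submodule.smul_mem _ _ ?_
    have ha : a ∈ Submodule.span B (Set.range gen) := hgen ▸ Submodule.mem_top
    obtain ⟨c, rfl⟩ := (Submodule.mem_span_range_iff_exists_fun B).1 ha
    rw [map_sum]
    refine Submodule.sum_mem _ fun l _ => ?_
    rw [Algebra.smul_def, map_mul, hιB, ← Algebra.smul_def]
    exact Submodule.smul_mem _ _ (Submodule.subset_span (Set.mem_range_self (f := ι ∘ gen) l))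
  -- the trace pairing with the generators is injective
  let Ψ : E →ₗ[F] (Fin m → F) :=
    LinearMap.pi fun l => (Algebra.traceForm F E).flip (ι (gen l))
  have hΨ : ∀ z l, Ψ z l = Algebra.trace F E (z * ι (gen l)) := fun _ _ => rfl
  have hΨinj : LinearMap.ker Ψ = ⊥ := by
    refine LinearMap.ker_eq_bot'.2 fun z hz => ?_
    have hA : ∀ a : A, Algebra.trace F E (z * ι a) = 0 := by
      intro a
      have ha : a ∈ Submodule.span B (Set.range gen) := hgen ▸ Submodule.mem_top
      obtain ⟨c, rfl⟩ := (Submodule.mem_span_range_iff_exists_fun B).1 ha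
      simp only [map_sum, Finset.mul_sum, Algebra.smul_def, map_mul, hιB]
      refine Finset.sum_eq_zero fun l _ => ?_
      rw [mul_left_comm, ← Algebra.smul_def, map_smul, ← hΨ, hz]
      simp
    refine (traceForm_nondegenerate F E).1 z fun w => ?_
    obtain ⟨a, b, rfl⟩ := hspan w
    rw [map_smul, Algebra.traceForm_apply, hA, smul_zero]
  obtain ⟨L, hL⟩ := Ψ.exists_leftInverse_of_injective hΨinj
  obtain ⟨⟨c, hc⟩, hcL⟩ := IsLocalization.exist_integer_multiples_of_finite (nonZeroDivisors A)
    (fun l => L (Pi.single l 1))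
  obtain ⟨⟨cB, hcB⟩, hcBT⟩ := IsLocalization.exist_integer_multiples_of_finite (nonZeroDivisors B)
    (fun jl : Fin m × Fin m => Algebra.trace F E (ι (gen jl.1) * ι (gen jl.2)))
  choose α hα using hcL
  choose T hT using hcBT
  refine ⟨m, α, c * algebraMap B A cB, mul_ne_zero (nonZeroDivisors.ne_zero hc)
    ((map_ne_zero_iff _ hinj).2 (nonZeroDivisors.ne_zero hcB)), fun V _ r => ?_⟩
  have hr : r ∈ Submodule.span B (Set.range gen) := hgen ▸ Submodule.mem_top
  obtain ⟨co, hco⟩ := (Submodule.mem_span_range_iff_exists_fun B).1 hr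
  let b : Fin m → B := fun l => ∑ j, co j * T (j, l)
  have hbl : ∀ l, algebraMap B F (b l) =
      Algebra.trace F E (ι (algebraMap B A cB * r) * ι (gen l)) := by
    intro l
    simp only [b, ← hco, map_sum, map_mul, Finset.mul_sum, Finset.sum_mul, Algebra.smul_def]
    refine Finset.sum_congr rfl fun j _ => ?_
    rw [hT (j, l), hιB, hιB]
    simp only [Algebra.smul_def]
    rw [show algebraMap F E (algebraMap B F cB) * (algebraMap F E (algebraMap B F (co j)) *
        ι (gen j)) * ι (gen l) = algebraMap F E (algebraMap B F (co j) * algebraMap B F cB) *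
        (ι (gen j) * ι (gen l)) by rw [map_mul]; ring,
      ← Algebra.smul_def (algebraMap B F (co j) * algebraMap B F cB), map_smul, smul_eq_mul]
    ring
  refine ⟨b, ?_, fun Ω _ _ _ s hs z hint hdiv l => ?_⟩
  · refine IsFractionRing.injective A E ?_
    have hz : ι (algebraMap B A cB * r) = ∑ l, algebraMap B F (b l) • L (Pi.single l 1) := by
      have h := (LinearMap.congr_fun hL (ι (algebraMap B A cB * r))).symm
      simp only [LinearMap.id_apply, LinearMap.comp_apply] at h
      conv_lhs => rw [h, pi_eq_sum_univ (Ψ _), map_sum]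
      refine Finset.sum_congr rfl fun l _ => ?_
      rw [map_smul, hΨ, hbl]
      congr 2
      funext j
      simp [Pi.single_apply, eq_comm]
    rw [mul_assoc, map_mul, show algebraMap A E (algebraMap B A cB * r) = _ from hz, map_sum,
      Finset.mul_sum]
    refine Finset.sum_congr rfl fun l _ => ?_
    rw [map_mul, hιB, show algebraMap A E (α l) = _ from hα l]
    simp only [Algebra.smul_def]
    ring
  · refine isIntegral_trace_div hinj F E s hs z (algebraMap B A cB * r * gen l) (fun ρ hρ => ?_) (b l)
      (by rw [hbl, map_mul (algebraMap A E) _ (gen l)])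
    rw [map_mul, map_mul, mul_right_comm, mul_div_assoc]
    exact ((hint ρ hρ _).mul (hint ρ hρ _)).mul (hdiv ρ hρ)

end Vale.Agent.P202
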