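import Vale.Agent.P202.NuDefs
import Vale.Agent.P202.NuExtAux
import Vale.Agent.P202.E2Series

/-!
M2, `GoalNuExt`: the valuations of a complete domain, finite over the image of `W[[X]]`.
-/

universe u

namespace Vale.Agent.P202

open IsLocalRing

section eval

open MvPowerSeries

variable {K S : Type u} [CommRing K] [CommRing S] [IsLocalRing S] [IsNoetherianRing S]
  [Algebra K S] {d : ℕ}

/-- Evaluation of power series over any ring at elements of the maximal ideal, with finiteness. -/
theorem exists_finite_evalSeries [IsAdicComplete (maximalIdeal S) S]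
    (hres : ∀ t : S, ∃ c : K, t - algebraMap K S c ∈ maximalIdeal S)
    (x : Fin d → S) (hx : ∀ i, x i ∈ maximalIdeal S) {L : ℕ}
    (hL : maximalIdeal S ^ L ≤ Ideal.span (Set.range x)) :
    ∃ ι : MvPowerSeries (Fin d) K →+* S,
      (∀ c, ι (C c) = algebraMap K S c) ∧ (∀ i, ι (X i) = x i) ∧ ι.Finite := by
  classical
  let g : MvPolynomial (Fin d) K →+* S := (MvPolynomial.aeval x).toRingHom
  have hg : (MvPolynomial.idealOfVars (Fin d) K).map g ≤ maximalIdeal S := by
    rw [MvPolynomial.idealOfVars, Ideal.map_span, Ideal.span_le]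
    rintro _ ⟨_, ⟨i, rfl⟩, rfl⟩
    simpa [g] using hx i
  let ι : MvPowerSeries (Fin d) K →+* S :=
    (AdicCompletion.ofAlgEquiv (maximalIdeal S)).symm.toRingHom.comp
      ((completionMap _ (maximalIdeal S) g hg).comp
        (toAdicCompletionAlgEquiv (Fin d) K).toRingHom)
  have key : ∀ q : MvPolynomial (Fin d) K,
      ι (algebraMap (MvPolynomial (Fin d) K) (MvPowerSeries (Fin d) K) q) = g q := by
    intro q
    show (AdicCompletion.ofAlgEquiv (maximalIdeal S)).symm
      (completionMap _ (maximalIdeal S) g hg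
        (toAdicCompletionAlgEquiv (Fin d) K (algebraMap _ _ q))) = g q
    rw [AlgEquiv.commutes, completionMap_algebraMap, AlgEquiv.commutes]
    rfl
  have hιC : ∀ c, ι (C c) = algebraMap K S c := fun c => by
    have := key (MvPolynomial.C c)
    rw [MvPowerSeries.algebraMap_apply'] at this
    have h2 : g (MvPolynomial.C c) = algebraMap K S c := MvPolynomial.aeval_C _ _
    rw [h2] at this
    simpa using this
  have hιX : ∀ i, ι (X i) = x i := fun i => by
    have := key (MvPolynomial.X i)
    rw [MvPowerSeries.algebraMap_apply'] at this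
    have h2 : g (MvPolynomial.X i) = x i := MvPolynomial.aeval_X _ _
    rw [h2] at this
    simpa using this
  refine ⟨ι, hιC, hιX, ?_⟩
  have hstep : ∀ j, ∃ s : Finset S, ∀ t : S,
      ∃ w ∈ Submodule.span ι.range (s : Set S), t - w ∈ maximalIdeal S ^ j := by
    intro j
    induction j with
    | zero => exact ⟨∅, fun t => ⟨0, zero_mem _, by simp⟩⟩
    | succ j ih =>
      obtain ⟨s, hs⟩ := ih
      obtain ⟨G, hG⟩ := (maximalIdeal S ^ j).fg_of_isNoetherianRing
      refine ⟨s ∪ G, fun t => ?_⟩
      obtain ⟨w, hw, htw⟩ := hs t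
      rw [← hG, Submodule.mem_span_finset] at htw
      obtain ⟨φ, -, hφ⟩ := htw
      choose c hc using hres
      refine ⟨w + ∑ g ∈ G, algebraMap K S (c (φ g)) * g, add_mem
        (Submodule.span_mono (by simp) hw) (Submodule.sum_mem _ fun g hg => ?_), ?_⟩
      · rw [← hιC]
        exact Submodule.smul_mem _ (⟨ι (C (c (φ g))), _, rfl⟩ : ι.range)
          (Submodule.subset_span (Finset.mem_coe.2 (Finset.mem_union_right _ hg)))
      · rw [← sub_sub, ← hφ, ← Finset.sum_sub_distrib]
        refine Submodule.sum_mem _ fun g hg => ?_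
        have hg' : g ∈ maximalIdeal S ^ j := hG ▸ Submodule.subset_span hg
        rw [smul_eq_mul, ← sub_mul, pow_succ']
        exact Ideal.mul_mem_mul (hc _) hg'
  obtain ⟨s, hs⟩ := hstep L
  set I := Ideal.span (Set.range (X : Fin d → MvPowerSeries (Fin d) K))
  have hmap : I.map ι = Ideal.span (Set.range x) := by
    rw [Ideal.map_span, ← Set.range_comp]
    exact congrArg Ideal.span (congrArg Set.range (funext hιX))
  have : IsHausdorff (I.map ι) S := by
    refine IsHausdorff.of_le_jacobson _ _ ?_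
    refine le_trans ?_ (maximalIdeal_le_jacobson _)
    rw [hmap, Ideal.span_le]
    rintro _ ⟨i, rfl⟩
    exact hx i
  exact finite_of_complete ι I s fun t => (hs t).imp fun w hw => ⟨hw.1, hmap ▸ hL hw.2⟩

end eval

variable {p : ℕ} [Fact p.Prime] {k : Type u} [Field k] [CharP k p] [PerfectRing k p] {d : ℕ}

omit [CharP k p] [PerfectRing k p] in
/-- The coefficient of a member of a power of the ideal of the variables. -/
theorem coeff_eq_zero_of_mem_span_X_pow {m : ℕ}
    {a : MvPowerSeries (Fin d) (WittVector p k)}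
    (ha : a ∈ Ideal.span (Set.range MvPowerSeries.X) ^ m) {γ : Fin d →₀ ℕ} (hγ : γ.degree < m) :
    MvPowerSeries.coeff γ a = 0 :=
  (mem_span_X_pow_iff m a).1 ha γ hγ

/-- A hypersurface monic in `p` in the kernel of a finite evaluation. -/
theorem exists_monicP {A : Type u} [CommRing A] [IsLocalRing A] [IsNoetherianRing A] [IsDomain A]
    (φ : MvPowerSeries (Fin d) (WittVector p k) →+* A) (hφ : φ.Finite)
    (hpm : (p : A) ∈ maximalIdeal A) (hp0 : (p : A) ≠ 0) {r₀ : ℕ}
    (hr₀ : maximalIdeal A ^ (r₀ + 1) ≤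
      Ideal.span (Set.range fun l => φ (MvPowerSeries.X l)) * maximalIdeal A ^ r₀) :
    ∃ (N : ℕ) (f : MvPowerSeries (Fin d) (WittVector p k)),
      0 < N ∧ IsMonicP p N f ∧ φ f = 0 := by
  classical
  set P := MvPowerSeries (Fin d) (WittVector p k)
  let _ := φ.toAlgebra
  have : Module.Finite P A := hφ
  have : IsNoetherian P A := inferInstance
  let M : Submodule P A := (maximalIdeal A ^ r₀).restrictScalars P
  let F : Module.End P M := algebraMap P (Module.End P M) (p : P)
  let I : Ideal P := Ideal.span (Set.range MvPowerSeries.X)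
  have hF : LinearMap.range F ≤ I • ⊤ := by
    rintro _ ⟨m, rfl⟩
    have hm : (p : A) * (m : A) ∈
        Ideal.span (Set.range fun l => φ (MvPowerSeries.X l)) * maximalIdeal A ^ r₀ := by
      refine hr₀ ?_
      rw [pow_succ']
      exact Ideal.mul_mem_mul hpm m.2
    have h2 : ((F m : M) : A) ∈ Submodule.map M.subtype (I • ⊤) := by
      rw [Submodule.map_smul'', Submodule.map_top, Submodule.range_subtype]
      have e : ((F m : M) : A) = (p : A) * (m : A) := by
        show φ (p : P) * (m : A) = _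
        rw [map_natCast]
      rw [e]
      have e2 : Ideal.span (Set.range fun l => φ (MvPowerSeries.X l)) = I.map φ := by
        rw [Ideal.map_span, ← Set.range_comp]
        rfl
      rw [e2] at hm
      refine Submodule.mul_induction_on hm (fun a ha b hb => ?_) fun a b ha hb => add_mem ha hb
      change a ∈ Submodule.span A (φ '' (I : Set P)) at ha
      induction ha using Submodule.span_induction generalizing b with
      | mem a ha =>
        obtain ⟨c, hc, rfl⟩ := ha
        exact Submodule.smul_mem_smul (M := A) (r := c) (n := b) hc hb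
      | zero => simp
      | add a a' _ _ iha iha' => rw [add_mul]; exact add_mem (iha b hb) (iha' b hb)
      | smul c a _ iha =>
        rw [smul_eq_mul, mul_comm c a, mul_assoc]
        exact iha _ (Ideal.mul_mem_left _ _ hb)
    obtain ⟨m', hm', e⟩ := h2
    rwa [← Subtype.ext (show (m' : A) = ((F m : M) : A) from e)]
  obtain ⟨q, hq, -, hcoef, hzero⟩ :=
    LinearMap.exists_monic_and_natDegree_eq_and_coeff_mem_pow_and_aeval_eq_zero P F I hF
  set N := q.natDegree
  set f := q.eval (p : P)
  have hf : φ f = 0 := by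
    have hm : (p : A) ^ r₀ ∈ maximalIdeal A ^ r₀ := Ideal.pow_mem_pow hpm r₀
    have h1 : algebraMap P (Module.End P M) f = 0 := by
      rw [show f = Polynomial.aeval (p : P) q from (Polynomial.coe_aeval_eq_eval (p : P)).symm ▸ rfl,
        ← Polynomial.aeval_algebraMap_apply]
      exact hzero
    have h2 := congrArg Subtype.val (LinearMap.congr_fun h1 ⟨(p : A) ^ r₀, hm⟩)
    change φ f * (p : A) ^ r₀ = 0 at h2
    exact (mul_eq_zero.1 h2).resolve_right (pow_ne_zero _ hp0)
  have hsum : f = (p : P) ^ N + ∑ i ∈ Finset.range N, q.coeff i * (p : P) ^ i := by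
    rw [show f = _ from Polynomial.eval_eq_sum_range (p := q) (p : P), Finset.sum_range_succ,
      hq.coeff_natDegree, one_mul, add_comm]
  have hterm : ∀ i (γ : Fin d →₀ ℕ), i + γ.degree < N →
      MvPowerSeries.coeff γ (q.coeff i * (p : P) ^ i) = 0 := by
    intro i γ h
    have := coeff_eq_zero_of_mem_span_X_pow (p := p) (k := k) (γ := γ)
      (Ideal.mul_mem_right ((p : P) ^ i) _ (hcoef i)) (by omega)
    exact this
  have hconst : ∀ (n : ℕ) (a : P) (γ : Fin d →₀ ℕ),
      MvPowerSeries.coeff γ (a * (p : P) ^ n) =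
        MvPowerSeries.coeff γ a * (p : WittVector p k) ^ n := by
    intro n a γ
    rw [show (p : P) ^ n = MvPowerSeries.C ((p : WittVector p k) ^ n) by simp [P],
      MvPowerSeries.coeff_mul_C]
  have hN : 0 < N := by
    by_contra h0
    have : f = 1 := by rw [hsum, Nat.eq_zero_of_not_pos h0]; simp
    rw [this, map_one] at hf
    exact one_ne_zero hf
  refine ⟨N, f, hN, ⟨fun γ => ?_, ?_⟩, hf⟩
  · rw [hsum, map_add, map_sum]
    refine dvd_add ?_ (Finset.dvd_sum fun i hi => ?_)
    · rw [← one_mul ((p : P) ^ N), hconst]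
      exact dvd_mul_of_dvd_right (pow_dvd_pow _ (Nat.sub_le _ _)) _
    · by_cases h : i + γ.degree < N
      · rw [hterm i γ h]; exact dvd_zero _
      · rw [hconst]
        exact dvd_mul_of_dvd_right (pow_dvd_pow _ (by omega)) _
  · have h0 : MvPowerSeries.constantCoeff f = (p : WittVector p k) ^ N := by
      rw [hsum, map_add, map_sum, Finset.sum_eq_zero, add_zero, map_pow, map_natCast]
      intro i hi
      rw [← MvPowerSeries.coeff_zero_eq_constantCoeff_apply]
      exact hterm i 0 (by simpa using Finset.mem_range.1 hi)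
    rw [h0, pow_succ]
    intro h
    have hp : (p : WittVector p k) ≠ 0 := WittVector.p_nonzero p k
    have h1 : IsUnit (p : WittVector p k) := isUnit_of_dvd_one
      ((mul_dvd_mul_iff_left (pow_ne_zero N hp)).1 (by rwa [mul_one]))
    exact (WittVector.irreducible p (k := k)).not_isUnit h1

/-- The kernel of a finite evaluation is minimal over every hypersurface monic in `p`. -/
theorem mem_minimalPrimes_of_monicP {A : Type u} [CommRing A] [IsLocalRing A] [IsNoetherianRing A]
    [IsDomain A] (φ : MvPowerSeries (Fin d) (WittVector p k) →+* A) (hφ : φ.Finite)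
    (hdim : (d : WithBot ℕ∞) ≤ ringKrullDim A) {N : ℕ}
    {g : MvPowerSeries (Fin d) (WittVector p k)} (hg : IsMonicP p N g) (hgK : g ∈ RingHom.ker φ) :
    RingHom.ker φ ∈ (Ideal.span {g}).minimalPrimes := by
  classical
  let P := MvPowerSeries (Fin d) (WittVector p k)
  refine ⟨⟨RingHom.ker_isPrime φ, Ideal.span_le.2 (by simpa using hgK)⟩, fun q hq hqK => ?_⟩
  by_contra hne
  obtain ⟨r, hrK, hrq⟩ := SetLike.not_le_iff_exists.1 hne
  have := hq.1
  -- `dim (P / (g)) ≤ d`
  have hgd : ringKrullDim (P ⧸ Ideal.span {g}) ≤ (d : WithBot ℕ∞) := by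
    let s : Finset (P ⧸ Ideal.span {g}) :=
      Finset.univ.image fun l => Ideal.Quotient.mk _ (MvPowerSeries.X l)
    have hnu : ¬ IsUnit g := fun h => (RingHom.ker_isPrime φ).ne_top
      (Ideal.eq_top_of_isUnit_mem _ hgK h)
    have : Nontrivial (P ⧸ Ideal.span {g}) := Ideal.Quotient.nontrivial_iff.2
      (fun e => hnu (Ideal.span_singleton_eq_top.1 e))
    have : IsLocalRing (P ⧸ Ideal.span {g}) :=
      IsLocalRing.of_surjective' _ Ideal.Quotient.mk_surjective
    have hs : (s : Set (P ⧸ Ideal.span {g})) ⊆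
        (Ring.jacobson (P ⧸ Ideal.span {g}) : Set (P ⧸ Ideal.span {g})) := by
      intro z hz
      obtain ⟨l, -, rfl⟩ := Finset.mem_image.1 hz
      rw [IsLocalRing.ringJacobson_eq_maximalIdeal, SetLike.mem_coe,
        ← IsLocalRing.map_maximalIdeal_of_surjective _ Ideal.Quotient.mk_surjective]
      refine Ideal.mem_map_of_mem _ ?_
      rw [mem_maximalIdeal, mem_nonunits_iff, MvPowerSeries.isUnit_iff_constantCoeff]
      simp
    refine (ringKrullDim_le_ringKrullDim_quotient_add_card s hs).trans ?_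
    have h0 : ringKrullDim ((P ⧸ Ideal.span {g}) ⧸
        Ideal.span (s : Set (P ⧸ Ideal.span {g}))) ≤ 0 := by
      show _ ≤ ((0 : ℕ) : WithBot ℕ∞)
      rw [← Ring.krullDimLE_iff]
      refine Ring.KrullDimLE.mk₀ fun Q hQ => ?_
      let π := (Ideal.Quotient.mk (Ideal.span (s : Set _))).comp
        (Ideal.Quotient.mk (Ideal.span {g}))
      have hπ : Function.Surjective π :=
        Ideal.Quotient.mk_surjective.comp Ideal.Quotient.mk_surjective
      have hQ' : (Q.comap π).IsPrime := Ideal.comap_isPrime _ _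
      let ψ : P →+* ResidueField (WittVector p k) := (residue _).comp MvPowerSeries.constantCoeff
      have hψ : Function.Surjective ψ :=
        residue_surjective.comp fun a => ⟨MvPowerSeries.C a, MvPowerSeries.constantCoeff_C a⟩
      have hmax : (RingHom.ker ψ).IsMaximal := RingHom.ker_isMaximal_of_surjective ψ hψ
      have hX : Ideal.span (Set.range MvPowerSeries.X) ≤ Q.comap π := by
        rw [Ideal.span_le]
        rintro _ ⟨l, rfl⟩
        have h0 : π (MvPowerSeries.X l) = 0 := Ideal.Quotient.eq_zero_iff_mem.2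
          (Ideal.subset_span (Finset.mem_image_of_mem _ (Finset.mem_univ l)))
        show π _ ∈ Q
        rw [h0]
        exact zero_mem _
      have hgQ : g ∈ Q.comap π := by
        have h0 : π g = 0 := by
          show Ideal.Quotient.mk _ (Ideal.Quotient.mk _ g) = 0
          rw [Ideal.Quotient.eq_zero_iff_mem.2 (Ideal.mem_span_singleton_self g), map_zero]
        show π g ∈ Q
        rw [h0]
        exact zero_mem _
      have hsub : ∀ h : P, h - MvPowerSeries.C (MvPowerSeries.constantCoeff h) ∈ Q.comap π := by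
        intro h
        refine hX ?_
        rw [← pow_one (Ideal.span _), mem_span_X_pow_iff]
        intro e he
        obtain rfl : e = 0 := (Finsupp.degree_eq_zero_iff e).1 (Nat.lt_one_iff.1 he)
        simp
      obtain ⟨c, hc⟩ := (hg.1 0)
      simp only [map_zero, Nat.sub_zero, MvPowerSeries.coeff_zero_eq_constantCoeff_apply] at hc
      have hcu : IsUnit c := by
        by_contra hu
        refine hg.2 ?_
        rw [hc, pow_succ]
        refine mul_dvd_mul_left _ ?_
        have hc' : c ∈ maximalIdeal (WittVector p k) := hu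
        rw [(IsDiscreteValuationRing.irreducible_iff_uniformizer _).1
          (WittVector.irreducible p), Ideal.mem_span_singleton] at hc'
        exact hc'
      have hpQ : (p : P) ∈ Q.comap π := by
        refine hQ'.mem_of_pow_mem N ?_
        have h1 : MvPowerSeries.C (MvPowerSeries.constantCoeff g) ∈ Q.comap π := by
          have := (Q.comap π).sub_mem hgQ (hsub g)
          simpa using this
        rw [hc, map_mul, map_pow, map_natCast] at h1
        exact (hQ'.mem_or_mem h1).resolve_right fun h =>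
          hQ'.ne_top (Ideal.eq_top_of_isUnit_mem _ h (hcu.map _))
      have hle : RingHom.ker ψ ≤ Q.comap π := by
        intro h hh
        have hh' : MvPowerSeries.constantCoeff h ∈ maximalIdeal (WittVector p k) := by
          rwa [RingHom.mem_ker, RingHom.comp_apply, residue_eq_zero_iff] at hh
        rw [(IsDiscreteValuationRing.irreducible_iff_uniformizer _).1
          (WittVector.irreducible p), Ideal.mem_span_singleton] at hh'
        obtain ⟨w, hw⟩ := hh'
        have := (Q.comap π).add_mem (hsub h) (Ideal.mul_mem_right (MvPowerSeries.C w) _ hpQ)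
        rwa [hw, map_mul, map_natCast, sub_add_cancel] at this
      have hQmax : (Q.comap π).IsMaximal := by
        rw [← hmax.eq_of_le hQ'.ne_top hle]; exact hmax
      have h := Ideal.map_comap_of_surjective π hπ Q
      rcases Ideal.map_eq_top_or_isMaximal_of_surjective π hπ hQmax with e | e
      · exact absurd (h ▸ e) hQ.ne_top
      · exact h ▸ e
    calc _ ≤ (0 : WithBot ℕ∞) + (s.card : WithBot ℕ∞) := add_le_add h0 le_rfl
      _ ≤ (d : WithBot ℕ∞) := by
        rw [zero_add]
        exact_mod_cast Finset.card_image_le.trans (by simp)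
  -- `dim (P / K) + 1 ≤ dim (P / q)`
  have hKq : ringKrullDim (P ⧸ RingHom.ker φ) + 1 ≤ ringKrullDim (P ⧸ q) :=
    ringKrullDim_succ_le_of_surjective (Ideal.Quotient.factor hqK)
      (Ideal.Quotient.factor_surjective hqK)
      (r := Ideal.Quotient.mk q r)
      (mem_nonZeroDivisors_of_ne_zero fun h => hrq (Ideal.Quotient.eq_zero_iff_mem.1 h))
      (by simpa [Ideal.Quotient.eq_zero_iff_mem] using hrK)
  have hqg : ringKrullDim (P ⧸ q) ≤ ringKrullDim (P ⧸ Ideal.span {g}) :=
    ringKrullDim_le_of_surjective (Ideal.Quotient.factor hq.2)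
      (Ideal.Quotient.factor_surjective hq.2)
  -- `dim A ≤ dim (P / K)`
  let _ := (RingHom.kerLift φ).toAlgebra
  have hfin : (RingHom.kerLift φ).Finite := by
    refine RingHom.Finite.of_comp_finite (f := Ideal.Quotient.mk _) ?_
    exact hφ
  have hint : Algebra.IsIntegral (P ⧸ RingHom.ker φ) A :=
    have : Module.Finite (P ⧸ RingHom.ker φ) A := hfin
    inferInstance
  have hA : ringKrullDim A ≤ ringKrullDim (P ⧸ RingHom.ker φ) := by
    refine Order.krullDim_le_of_strictMono
      (PrimeSpectrum.comap (algebraMap (P ⧸ RingHom.ker φ) A)) fun a b hab => ?_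
    show (a.asIdeal.comap _) < b.asIdeal.comap _
    obtain ⟨hle, z, hz, hz'⟩ := SetLike.lt_iff_le_and_exists.1
      (show a.asIdeal < b.asIdeal from hab)
    exact Ideal.comap_lt_comap_of_integral_mem_sdiff hle ⟨hz, hz'⟩
      (Algebra.IsIntegral.isIntegral z)
  have h1 := (add_le_add (hdim.trans hA) le_rfl).trans (hKq.trans (hqg.trans hgd))
  norm_cast at h1
  omega

omit [Fact p.Prime] [PerfectRing k p] in
/-- A field with algebraically independent elements which is perfect. -/
theorem exists_kappa [Fact p.Prime] (d : ℕ) :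
    ∃ (κ : Type u) (_ : Field κ) (_ : CharP κ p) (_ : PerfectRing κ p) (_ : Algebra k κ)
      (T : Fin d → κ), AlgebraicIndependent k T := by
  let κ := AlgebraicClosure (FractionRing (MvPolynomial (Fin d) k))
  let f : MvPolynomial (Fin d) k →ₐ[k] κ :=
    IsScalarTower.toAlgHom k (MvPolynomial (Fin d) k) κ
  have hf : Function.Injective f := by
    show Function.Injective (algebraMap (MvPolynomial (Fin d) k) κ)
    rw [IsScalarTower.algebraMap_eq (MvPolynomial (Fin d) k)
      (FractionRing (MvPolynomial (Fin d) k)) κ]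
    exact (algebraMap (FractionRing (MvPolynomial (Fin d) k)) κ).injective.comp
      (IsFractionRing.injective _ _)
  have : CharP κ p := charP_of_injective_algebraMap (algebraMap k κ).injective p
  have : ExpChar κ p := ExpChar.prime (Fact.out : p.Prime)
  refine ⟨κ, inferInstance, inferInstance, PerfectField.toPerfectRing p, inferInstance,
    fun l => f (MvPolynomial.X l), ?_⟩
  refine algebraicIndependent_iff.2 fun P hP => ?_
  rw [show MvPolynomial.aeval (fun l => f (MvPolynomial.X l)) P = f P from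
    (congrArg (fun g => g P) (MvPolynomial.aeval_unique f)).symm] at hP
  exact (map_eq_zero_iff f hf).1 hP

/-- `GoalNuExt`. -/
theorem goalNuExt : GoalNuExt.{u} := by
  intro hbase p _ k _ _ _ A _ _ _ _ _ _ hres d hd hp0 hdim hpm x hx hr
  classical
  obtain ⟨r₀, hr₀⟩ := hr
  have hres' : ∀ t : A, ∃ c : WittVector p k, t - algebraMap _ A c ∈ maximalIdeal A := by
    intro t
    obtain ⟨w, hw⟩ := hres (residue A t)
    refine ⟨w, ?_⟩
    rw [← residue_eq_zero_iff, map_sub, sub_eq_zero]
    exact hw.symm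
  obtain ⟨φ, hφC, hφX, hφfin⟩ := exists_finite_evalSeries hres' x hx (L := r₀ + 1)
    ((hr₀ r₀ le_rfl).trans Ideal.mul_le_left)
  set P := MvPowerSeries (Fin d) (WittVector p k)
  set K := RingHom.ker φ
  have hKp : (p : P) ∉ K := fun h => hp0 (by simpa [K] using h)
  obtain ⟨N, f, hN, hfm, hf0⟩ := exists_monicP φ hφfin hpm hp0 (r₀ := r₀)
    (by simpa [hφX] using hr₀ r₀ le_rfl)
  obtain ⟨κ, _, _, _, _, T, hT⟩ := exists_kappa (p := p) (k := k) d
  set Wκ := WittVector p κ
  let Ω := AlgebraicClosure (FractionRing Wκ)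
  have hWΩ : Function.Injective (algebraMap Wκ Ω) := by
    rw [IsScalarTower.algebraMap_eq Wκ (FractionRing Wκ) Ω]
    exact (algebraMap (FractionRing Wκ) Ω).injective.comp (IsFractionRing.injective _ _)
  have hdim' : (d : WithBot ℕ∞) ≤ ringKrullDim A := by rw [ringKrullDim_eq_coe_ndim, hdim]
  obtain ⟨S, σ, hSne, hσ, c₀, hbound⟩ := hbase p k d K (RingHom.ker_isPrime φ) hKp N f hN hfm
    (by simpa [K] using hf0) (fun g hg hgK => mem_minimalPrimes_of_monicP φ hφfin hdim' hg hgK)
    κ T hT Ω hWΩ
  have hcharA : CharZero A :=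
    charZero_of_prime p hp0 ((mem_maximalIdeal _).1 hpm)
  have hcharW : CharZero Wκ :=
    charZero_of_prime p (WittVector.p_nonzero p κ) (WittVector.irreducible p).not_isUnit
  have : CharZero (FractionRing Wκ) :=
    charZero_of_injective_algebraMap (IsFractionRing.injective Wκ (FractionRing Wκ))
  -- the domain `B = P / K` inside `A`
  let B := P ⧸ K
  have : K.IsPrime := RingHom.ker_isPrime φ
  let _ : Algebra B A := (RingHom.kerLift φ).toAlgebra
  have hinj : Function.Injective (algebraMap B A) := RingHom.kerLift_injective φ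
  have hBfin : Module.Finite B A :=
    RingHom.Finite.of_comp_finite (f := Ideal.Quotient.mk _) (g := RingHom.kerLift φ) hφfin
  have : FaithfulSMul B A := (faithfulSMul_iff_algebraMap_injective B A).2 hinj
  obtain ⟨m, gen, hgen⟩ := Module.Finite.exists_fin (R := B) (M := A)
  have hspan : ∀ a : A, ∃ co : Fin m → P, ∑ l, φ (co l) * gen l = a := by
    intro a
    have ha : a ∈ Submodule.span B (Set.range gen) := hgen ▸ Submodule.mem_top
    obtain ⟨c, hc⟩ := (Submodule.mem_span_range_iff_exists_fun B).1 ha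
    choose co hco using fun l => Ideal.Quotient.mk_surjective (c l)
    refine ⟨co, hc ▸ Finset.sum_congr rfl fun l _ => ?_⟩
    rw [← hco l, Algebra.smul_def]
    rfl
  let R : Ω → Type u := fun τ => {ρ : A →+* Ω // ρ.comp φ = σ τ}
  -- all the values are integral
  let J := integralClosure Wκ Ω
  have hσJ : ∀ τ ∈ S, ∀ g, σ τ g ∈ J := fun τ hτ g =>
    Algebra.adjoin_le (Set.singleton_subset_iff.2 (hσ τ hτ).2.1) ((hσ τ hτ).2.2.2.2.2.2 g)
  have hρint : ∀ τ ∈ S, ∀ (ρ : A →+* Ω), ρ.comp φ = σ τ → ∀ a, IsIntegral Wκ (ρ a) := by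
    intro τ hτ ρ hρ a
    obtain ⟨q, hqm, hq⟩ := hφfin.to_isIntegral a
    have : IsIntegral J (ρ a) := by
      refine ⟨q.map ((σ τ).codRestrict J fun g => hσJ τ hτ g), hqm.map _, ?_⟩
      rw [Polynomial.eval₂_map,
        show (algebraMap J Ω).comp ((σ τ).codRestrict J fun g => hσJ τ hτ g) = ρ.comp φ by
          rw [hρ]; rfl,
        ← Polynomial.hom_eval₂, hq, map_zero]
    exact isIntegral_trans _ this
  have hρinj : ∀ τ ∈ S, ∀ (ρ : A →+* Ω), ρ.comp φ = σ τ →
      ∀ b : B, b ≠ 0 → ρ (algebraMap B A b) ≠ 0 := by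
    intro τ hτ ρ hρ b hb h0
    obtain ⟨g, rfl⟩ := Ideal.Quotient.mk_surjective b
    refine hb (Ideal.Quotient.eq_zero_iff_mem.2 ?_)
    rw [← (hσ τ hτ).2.2.2.1, RingHom.mem_ker, ← hρ]
    exact h0
  have hRfin : ∀ τ ∈ S, Finite (R τ) := by
    intro τ hτ
    choose q hqm hq using fun l => hφfin.to_isIntegral (gen l)
    let T' : Fin m → Set Ω := fun l => {y | y ∈ ((q l).map (σ τ)).roots}
    have : ∀ l, Finite (T' l) := fun l => (Multiset.finite_toSet _).to_subtype
    refine Finite.of_injective (β := ∀ l, T' l) (fun ρ l => ⟨ρ.1 (gen l), ?_⟩) ?_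
    · show _ ∈ ((q l).map (σ τ)).roots
      rw [Polynomial.mem_roots ((hqm l).map (σ τ)).ne_zero, Polynomial.IsRoot.def,
        Polynomial.eval_map]
      refine (congrArg (fun g => Polynomial.eval₂ g (ρ.1 (gen l)) (q l)) ρ.2).symm.trans ?_
      show Polynomial.eval₂ (ρ.1.comp φ) _ _ = 0
      rw [← Polynomial.hom_eval₂, hq, map_zero]
    · intro ρ ρ' h
      refine Subtype.ext (RingHom.ext fun a => ?_)
      obtain ⟨co, rfl⟩ := hspan a
      simp only [map_sum, map_mul]
      refine Finset.sum_congr rfl fun l _ => ?_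
      have e : ρ.1 (gen l) = ρ'.1 (gen l) := congrArg Subtype.val (congrFun h l)
      have e2 : ρ.1 (φ (co l)) = ρ'.1 (φ (co l)) :=
        (RingHom.congr_fun ρ.2 (co l)).trans (RingHom.congr_fun ρ'.2 (co l)).symm
      rw [e, e2]
  have hRne : ∀ τ ∈ S, Nonempty (R τ) := by
    intro τ hτ
    let s : B →+* Ω := Ideal.Quotient.lift K (σ τ) fun g hg => by
      rwa [← (hσ τ hτ).2.2.2.1] at hg
    have hs : Function.Injective s :=
      RingHom.lift_injective_of_ker_le_ideal K _ (hσ τ hτ).2.2.2.1.le
    let _ : Algebra B Ω := s.toAlgebra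
    have : FaithfulSMul B Ω := (faithfulSMul_iff_algebraMap_injective B Ω).2 hs
    let ψ : A →ₐ[B] Ω := IsAlgClosed.lift
    exact ⟨⟨ψ, RingHom.ext fun g => ψ.commutes (Ideal.Quotient.mk K g)⟩⟩
  let RS := Σ τ : S, R τ
  have : ∀ τ : S, Finite (R τ) := fun τ => hRfin τ τ.2
  have : Finite RS := inferInstance
  have : Nonempty RS := by
    obtain ⟨τ, hτ⟩ := hSne
    obtain ⟨ρ⟩ := hRne τ hτ
    exact ⟨⟨⟨τ, hτ⟩, ρ⟩⟩
  -- the finite extension containing all the values
  let G : Set Ω := (S : Set Ω) ∪ Set.range fun i : RS × Fin m => i.1.2.1 (gen i.2)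
  let L : IntermediateField (FractionRing Wκ) Ω := IntermediateField.adjoin (FractionRing Wκ) G
  have hGfin : G.Finite := S.finite_toSet.union (Set.finite_range _)
  have hGint : ∀ z ∈ G, IsIntegral Wκ z := by
    rintro z (hz | ⟨⟨⟨τ, ρ⟩, l⟩, rfl⟩)
    · exact (hσ z hz).2.1
    · exact hρint τ τ.2 ρ.1 ρ.2 _
  have : FiniteDimensional (FractionRing Wκ) L := by
    have := hGfin.to_subtype
    exact IntermediateField.finiteDimensional_adjoin fun z hz => (hGint z hz).tower_top
  have hσL : ∀ τ ∈ S, ∀ g, σ τ g ∈ L := fun τ hτ g =>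
    Algebra.adjoin_le (A := Ω) (R := Wκ) (S := L.toSubalgebra.restrictScalars Wκ)
      (Set.singleton_subset_iff.2 (IntermediateField.subset_adjoin _ G (Or.inl hτ)))
      ((hσ τ hτ).2.2.2.2.2.2 g)
  have hρL : ∀ (i : RS) (a : A), i.2.1 a ∈ L := by
    intro i a
    obtain ⟨co, rfl⟩ := hspan a
    simp only [map_sum, map_mul]
    refine sum_mem fun l _ => mul_mem ?_ (IntermediateField.subset_adjoin _ G (Or.inr ⟨(i, l), rfl⟩))
    rw [show i.2.1 (φ (co l)) = σ i.1 (co l) from RingHom.congr_fun i.2.2 (co l)]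
    exact hσL i.1 i.1.2 _
  have : IsScalarTower Wκ L Ω := IsScalarTower.of_algebraMap_eq fun w => rfl
  let O := integralClosure Wκ L
  have : IsDedekindDomain O := integralClosure.isDedekindDomain Wκ (FractionRing Wκ) L
  have : IsDomain O := inferInstance
  have hO : ∀ z : Ω, IsIntegral Wκ z → ∀ hz : z ∈ L, (⟨z, hz⟩ : L) ∈ O := fun z h hz =>
    (isIntegral_algHom_iff (IsScalarTower.toAlgHom Wκ L Ω) Subtype.val_injective).1 h
  let ρO : RS → A →+* O := fun i =>
    ((i.2.1).codRestrict L (hρL i)).codRestrict O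
      fun a => hO _ (hρint i.1 i.1.2 i.2.1 i.2.2 a) _
  let τO : S → O := fun τ =>
    ⟨⟨τ.1, IntermediateField.subset_adjoin _ G (Or.inl τ.2)⟩, hO _ (hσ τ τ.2).2.1 _⟩
  have hval : Function.Injective fun z : O => ((z : L) : Ω) :=
    Subtype.val_injective.comp Subtype.val_injective
  have hpO : ∀ Q : Ideal O, Q.IsMaximal → (p : O) ∈ Q := by
    intro Q hQ
    have hmax : (Q.comap (algebraMap Wκ O)).IsMaximal :=
      Ideal.isMaximal_comap_of_isIntegral_of_isMaximal Q
    have := IsLocalRing.eq_maximalIdeal hmax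
    have h2 : (p : Wκ) ∈ Q.comap (algebraMap Wκ O) := by
      rw [this, mem_maximalIdeal, mem_nonunits_iff]
      exact (WittVector.irreducible p).not_isUnit
    rw [Ideal.mem_comap, map_natCast] at h2
    exact h2
  have hpO0 : (p : O) ≠ 0 := by
    intro h
    have := congrArg (fun z : O => ((z : L) : Ω)) h
    simp only [ZeroMemClass.coe_zero] at this
    refine WittVector.p_nonzero p κ (hWΩ ?_)
    rw [map_natCast, map_zero]
    exact_mod_cast this
  obtain ⟨I, _, _, v, hvtop, hvp, hvdvd⟩ := exists_valuations O (p : O) hpO0 hpO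
  have hτ0 : ∀ τ : S, τO τ ≠ 0 := fun τ h =>
    (hσ τ τ.2).1 (congrArg (fun z : O => ((z : L) : Ω)) h)
  have hτv : ∀ (τ : S) (i : I), ∃ e : ℕ, 0 < e ∧ v i (τO τ) = e := by
    intro τ i
    obtain ⟨e, he⟩ := ENat.ne_top_iff_exists.1 (hvtop i _ (hτ0 τ))
    refine ⟨e, Nat.pos_of_ne_zero fun h0 => ?_, he.symm⟩
    obtain ⟨w, hw, hint⟩ := (hσ τ τ.2).2.2.1
    have hz : (τ : Ω) ^ w / (p : Ω) ∈ L :=
      div_mem (pow_mem (IntermediateField.subset_adjoin _ G (Or.inl τ.2)) w) (natCast_mem _ p)
    let z : O := ⟨⟨_, hz⟩, hO _ hint hz⟩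
    have hpΩ : (p : Ω) ≠ 0 := by
      rw [← map_natCast (algebraMap Wκ Ω)]
      exact fun h => WittVector.p_nonzero p κ (hWΩ (h.trans (map_zero _).symm))
    have e1 : τO τ ^ w = (p : O) * z := hval (by
      show (τ : Ω) ^ w = (p : Ω) * ((τ : Ω) ^ w / (p : Ω))
      rw [mul_div_cancel₀ _ hpΩ])
    have h1 := congrArg (v i) e1
    rw [AddValuation.map_pow, AddValuation.map_mul, ← he, h0, Nat.cast_zero, smul_zero] at h1
    have := hvp i
    rw [pos_iff_ne_zero.1 (lt_of_lt_of_le zero_lt_one this) |> fun h => (add_eq_zero.1 h1.symm).1]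
      at this
    exact absurd this (by simp)
  choose e he hev using hτv
  have hσO : ∀ (i : RS) (g : P) (hg : σ i.1 g ∈ L),
      ((ρO i (φ g) : L) : Ω) = σ i.1 g := fun i g _ => RingHom.congr_fun i.2.2 g
  let u : RS × I → AddValuation A ℕ∞ := fun a => (v a.2).comap (ρO a.1)
  have hu : ∀ a r, u a r = v a.2 (ρO a.1 r) := fun _ _ => rfl
  -- the elements `x`
  have hux : ∀ (a : RS × I) l, (e a.1.1 a.2 : ℕ∞) ≤ u a (x l) := by
    intro a l
    have hTO : IsIntegral Wκ (algebraMap Wκ Ω (WittVector.teichmuller p (T l))) :=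
      isIntegral_algebraMap
    have e1 : ρO a.1 (x l) =
        algebraMap Wκ O (WittVector.teichmuller p (T l)) * τO a.1.1 := hval (by
      show a.1.2.1 (x l) = _
      rw [← hφX l, show a.1.2.1 (φ _) = _ from RingHom.congr_fun a.1.2.2 (MvPowerSeries.X l),
        (hσ _ a.1.1.2).2.2.2.2.2.1 l]
      rfl)
    rw [hu, e1, AddValuation.map_mul, hev]
    exact le_add_self
  have hhom : ∀ (a : RS × I) (j : ℕ) (F : MvPolynomial (Fin d) (WittVector p k)),
      F.IsHomogeneous j → (∃ γ, ¬ (p : WittVector p k) ∣ MvPolynomial.coeff γ F) →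
      u a (MvPolynomial.aeval x F) = ((j * e a.1.1 a.2 : ℕ) : ℕ∞) := by
    rintro a j F hF ⟨γ, hγ⟩
    let h : Wκ := MvPolynomial.eval₂ (WittVector.map (algebraMap k κ))
      (fun l => WittVector.teichmuller p (T l)) F
    have hu0 : IsUnit h := by
      refine WittVector.isUnit_of_coeff_zero_ne_zero h ?_
      have e0 : h.coeff 0 =
          MvPolynomial.aeval T (MvPolynomial.map WittVector.constantCoeff F) := by
        show WittVector.constantCoeff h = _
        rw [MvPolynomial.aeval_def, MvPolynomial.eval₂_map, show WittVector.constantCoeff h = _ from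
          MvPolynomial.eval₂_comp_left WittVector.constantCoeff _ _ F]
        congr 1
      rw [e0]
      intro h0
      have := congrArg (MvPolynomial.coeff γ) ((algebraicIndependent_iff.1 hT) _ h0)
      rw [MvPolynomial.coeff_map, MvPolynomial.coeff_zero] at this
      refine hγ ?_
      have h2 := (WittVector.mem_span_p_pow_iff_le_coeff_eq_zero (MvPolynomial.coeff γ F) 1).2
        fun i hi => by rw [Nat.lt_one_iff.1 hi]; exact this
      rwa [pow_one, Ideal.mem_span_singleton] at h2
    have e1 : ρO a.1 (MvPolynomial.aeval x F) = τO a.1.1 ^ j * algebraMap Wκ O h := hval (by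
      show a.1.2.1 (MvPolynomial.aeval x F) = (a.1.1 : Ω) ^ j * algebraMap Wκ Ω h
      rw [MvPolynomial.aeval_def, MvPolynomial.eval₂_eq', map_sum]
      show _ = _ * algebraMap Wκ Ω (MvPolynomial.eval₂ _ _ F)
      rw [MvPolynomial.eval₂_eq', map_sum, Finset.mul_sum]
      refine Finset.sum_congr rfl fun δ hδ => ?_
      have hdeg : ∑ l, δ l = j := by
        rw [← hF (MvPolynomial.mem_support_iff.1 hδ), Finsupp.weight_apply,
          Finsupp.sum_fintype _ _ (fun _ => by simp)]
        simp
      simp only [map_mul, map_prod, map_pow, ← hφX, ← hφC]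
      simp only [show ∀ g, a.1.2.1 (φ g) = σ a.1.1 g from fun g => RingHom.congr_fun a.1.2.2 g,
        (hσ _ a.1.1.2).2.2.2.2.1, (hσ _ a.1.1.2).2.2.2.2.2.1, mul_pow, Finset.prod_mul_distrib,
        Finset.prod_pow_eq_pow_sum, hdeg]
      ring)
    obtain ⟨w, hw⟩ := (hu0.map (algebraMap Wκ O)).exists_right_inv
    have h1 := congrArg (v a.2) hw
    rw [AddValuation.map_mul, AddValuation.map_one] at h1
    rw [hu, e1, AddValuation.map_mul, AddValuation.map_pow, hev, (add_eq_zero.1 h1).1, add_zero,
      nsmul_eq_mul]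
    push_cast
    rfl
  have hmax : ∀ (a : RS × I), ∀ y ∈ maximalIdeal A, (e a.1.1 a.2 : ℕ∞) ≤ u a y := by
    intro a
    set E := e a.1.1 a.2
    let Iv : ℕ → Ideal A := fun n =>
      { carrier := {y | (n : ℕ∞) ≤ u a y}
        add_mem' := fun hy hz => (u a).map_le_add hy hz
        zero_mem' := by simp
        smul_mem' := fun c y hy => by
          show (n : ℕ∞) ≤ u a (c * y)
          rw [AddValuation.map_mul]
          exact le_add_left hy }
    have hmul : ∀ n n', Iv n * Iv n' ≤ Iv (n + n') := fun n n' => Ideal.mul_le.2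
      fun y hy z hz => by
        show ((n + n' : ℕ) : ℕ∞) ≤ u a (y * z)
        rw [AddValuation.map_mul, Nat.cast_add]
        exact add_le_add hy hz
    have key : ∀ n, n ≤ E → maximalIdeal A ≤ Iv n := by
      intro n hn
      induction n with
      | zero => exact fun y _ => by show ((0 : ℕ) : ℕ∞) ≤ _; simp
      | succ n ih =>
        have ih := ih (Nat.le_of_succ_le hn)
        have hpow : ∀ r, maximalIdeal A ^ r ≤ Iv (r * n) := by
          intro r
          induction r with
          | zero => exact fun y _ => by show ((0 * n : ℕ) : ℕ∞) ≤ _; simp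
          | succ r ihr =>
            rw [pow_succ, add_mul, one_mul]
            exact (Ideal.mul_mono ihr ih).trans (hmul _ _)
        have hX : Ideal.span (Set.range x) ≤ Iv E := Ideal.span_le.2 (by
          rintro _ ⟨l, rfl⟩; exact hux a l)
        intro y hy
        have h1 : y ^ (r₀ + 1) ∈ Iv (E + r₀ * n) :=
          ((hr₀ r₀ le_rfl).trans ((Ideal.mul_mono hX (hpow r₀)).trans (hmul _ _)))
            (Ideal.pow_mem_pow hy _)
        have h1' : ((E + r₀ * n : ℕ) : ℕ∞) ≤ u a (y ^ (r₀ + 1)) := h1
        show ((n + 1 : ℕ) : ℕ∞) ≤ u a y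
        rw [AddValuation.map_pow] at h1'
        cases hv : u a y with
        | top => exact le_top
        | coe w =>
          rw [hv, nsmul_eq_mul] at h1'
          have h2 : E + r₀ * n ≤ (r₀ + 1) * w := by exact_mod_cast h1'
          refine Nat.cast_le.2 ?_
          by_contra hlt
          have h3 : (r₀ + 1) * w ≤ (r₀ + 1) * n := Nat.mul_le_mul_left _ (by omega)
          simp only [add_mul, one_mul] at h3 h2
          omega
    exact fun y hy => key E le_rfl hy
  -- the bound
  obtain ⟨m', α, e₀, he₀, hcoef⟩ := exists_coefficients (B := B) (A := A) hinj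
  obtain ⟨c₁, hc₁⟩ := exists_pow_of_mul_mem (maximalIdeal A) he₀
  have hbd : ∃ c, ∀ (n : ℕ) (r : A),
      (∀ a : RS × I, ((n * e a.1.1 a.2 : ℕ) : ℕ∞) ≤ u a r) → r ∈ maximalIdeal A ^ (n - c) := by
    refine ⟨c₀ + c₁, fun n r hr => ?_⟩
    obtain ⟨b, hb, hbint⟩ := hcoef Wκ r
    rw [← Nat.sub_sub]
    refine hc₁ _ r ?_
    rw [hb]
    refine Ideal.sum_mem _ fun l _ => Ideal.mul_mem_right _ _ ?_
    obtain ⟨g, hg⟩ := Ideal.Quotient.mk_surjective (b l)
    rw [← hg]
    show φ g ∈ _
    have hmem := hbound n g fun τ hτ => by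
      let s : B →+* Ω := Ideal.Quotient.lift K (σ τ) fun g hg => by
        rwa [← (hσ τ hτ).2.2.2.1] at hg
      have hs : Function.Injective s :=
        RingHom.lift_injective_of_ker_le_ideal K _ (hσ τ hτ).2.2.2.1.le
      have hcomp : ∀ ρ : A →+* Ω, ρ.comp (algebraMap B A) = s → ρ.comp φ = σ τ := fun ρ hρ =>
        RingHom.ext fun g => RingHom.congr_fun hρ (Ideal.Quotient.mk K g)
      have := hbint Ω s hs (τ ^ n) (fun ρ hρ w => hρint τ hτ ρ (hcomp ρ hρ) w) (fun ρ hρ => ?_) l
      · rwa [← hg] at this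
      let i : RS := ⟨⟨τ, hτ⟩, ⟨ρ, hcomp ρ hρ⟩⟩
      obtain ⟨q, hq⟩ := hvdvd (τO ⟨τ, hτ⟩ ^ n) (ρO i r) fun j => by
        rw [AddValuation.map_pow, hev, nsmul_eq_mul]
        have := hr (i, j)
        push_cast at this
        exact this
      have hq' : ρ r = τ ^ n * ((q : L) : Ω) := congrArg (fun z : O => ((z : L) : Ω)) hq
      rw [hq', mul_div_cancel_left₀ _ (pow_ne_zero _ (hσ τ hτ).1)]
      exact (isIntegral_algHom_iff (IsScalarTower.toAlgHom Wκ L Ω) Subtype.val_injective).2 q.2
    obtain ⟨g₁, hg₁, g₂, hg₂, rfl⟩ := Submodule.mem_sup.1 hmem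
    rw [map_add, show φ g₁ = 0 from hg₁, zero_add]
    have hmap : (Ideal.span (insert (p : P) (Set.range MvPowerSeries.X))).map φ ≤
        maximalIdeal A := by
      rw [Ideal.map_span, Ideal.span_le]
      rintro _ ⟨z, hz, rfl⟩
      rcases hz with rfl | ⟨l, rfl⟩
      · simpa using hpm
      · rw [hφX]; exact hx l
    have := Ideal.mem_map_of_mem φ hg₂
    rw [Ideal.map_pow] at this
    exact Ideal.pow_right_mono hmap _ this
  have : Finite (RS × I) := inferInstance
  exact ⟨{ idx := RS × I
           fintype := Fintype.ofFinite _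
           v := u
           e := fun a => e a.1.1 a.2
           e_pos := fun a => he _ _
           max_le := hmax
           homog := hhom
           bound := hbd }⟩

end Vale.Agent.P202
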