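import Vale.Agent.P202.NuBase
import Vale.Agent.P202.NuExt
import Vale.Agent.P202.NuAsm

/-! M2: the filtration of the valuations exists. -/

universe u

namespace Vale.Agent.P202

/-- The filtration of the valuations of a reduced complete ring of mixed characteristic. -/
theorem goalNu : GoalNu.{u} := goalNuAsm (goalNuExt goalNuBase)

end Vale.Agent.P202
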