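import Vale.Agent.P202.MixedAssembly
import Vale.Agent.P202.GrowthRed
import Vale.Agent.P202.M1Coef
import Vale.Agent.P202.NuGoal
import Vale.Agent.P202.CIFinal
import Vale.Agent.P202.M5GoalE
import Vale.Agent.P202.Band
import Vale.Agent.P202.BFilt
import Vale.Agent.P202.BandSysWire
import Vale.Agent.P202.BandBlocks
import Vale.Agent.P202.BandV
import Vale.Agent.P202.BandVStair
import Vale.Agent.P202.BandH0
import Vale.Agent.P202.LW8Goal
import Vale.Agent.P202.LevelIso
import Vale.Agent.P202.GRAGoal
import Vale.Agent.P202.M9Comp
import Vale.Agent.P202.M6Coord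
import Vale.Agent.P202.M0Wiring

/-!
The mixed characteristic core, from the rank inequality.
-/

universe u

namespace Vale.Agent.P202

/-- The band rings give rank systems. -/
theorem goalBandSys_all : GoalBandSys.{u} :=
  have hL : GoalLWin.{u} := goalLWin goalGradA goalBandCoord
  goalBandSys goalBandFilt (goalBandBlocks hL goalBandCoord)
    (goalBandV_of goalGradA goalCompData
      (goalStairCycle (goalLevelIso goalBandCoord) goalBandCoord) (goalBandH0 hL goalBandCoord))

/-- The mixed characteristic core follows from the rank inequality. -/
theorem mixedCore_of_rankCore (hCore : GoalRankCore.{u}) : GoalMixedCore.{u} :=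
  mixedCore_of_goals goalReduction goalCoef goalNu goalCI goalE goalBand goalBandSys_all hCore

end Vale.Agent.P202
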