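import Vale.Agent.P202.NuPsi

/-!
M2: the Euler operator `Σ X_l ∂/∂X_l` does not preserve a prime of `W[[X]]` without `p` containing a
series with a nonzero constant term, and such a prime, minimal over `(f)`, is associated to it.
-/

universe u

namespace Vale.Agent.P202

open Finset IsLocalRing

namespace Nu

section ring

variable {R : Type*} [CommRing R] {d : ℕ}

/-- `Σ X_l ∂/∂X_l`. -/
noncomputable def euler (g : MvPowerSeries (Fin d) R) : MvPowerSeries (Fin d) R :=
  fun γ => (γ.degree : R) * MvPowerSeries.coeff γ g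

lemma coeff_euler (g : MvPowerSeries (Fin d) R) (γ : Fin d →₀ ℕ) :
    MvPowerSeries.coeff γ (euler g) = (γ.degree : R) * MvPowerSeries.coeff γ g := rfl

lemma euler_add (g h : MvPowerSeries (Fin d) R) : euler (g + h) = euler g + euler h := by
  ext γ; simp [coeff_euler, mul_add]

lemma euler_C_mul (a : R) (g : MvPowerSeries (Fin d) R) :
    euler (MvPowerSeries.C a * g) = MvPowerSeries.C a * euler g := by
  ext γ; simp [coeff_euler, mul_left_comm]

/-- The integers `binom (n - 1) J`, with the value `(-1) ^ J` at `0`. -/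
def binomShift (J n : ℕ) : ℤ := if n = 0 then (-1) ^ J else (Nat.choose (n - 1) J : ℤ)

lemma binomShift_succ (J n : ℕ) :
    ((n : ℤ) - (J + 1 : ℕ)) * binomShift J n = ((J + 1 : ℕ) : ℤ) * binomShift (J + 1) n := by
  rcases n with _ | m
  · simp [binomShift, pow_succ]; ring
  · simp only [binomShift, Nat.succ_ne_zero, if_false, Nat.add_sub_cancel]
    rcases le_or_gt J m with h | h
    · have h1 := Nat.choose_succ_right_eq m J
      have h2 : ((m.choose (J + 1) * (J + 1) : ℕ) : ℤ) = ((m.choose J * (m - J) : ℕ) : ℤ) := by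
        rw [h1]
      push_cast [Nat.cast_sub h] at h2 ⊢
      linear_combination -h2
    · simp [Nat.choose_eq_zero_of_lt h, Nat.choose_eq_zero_of_lt (h.trans (Nat.lt_succ_self J))]

end ring

variable (p : ℕ) [Fact p.Prime] {k : Type u} [Field k] [CharP k p] [PerfectRing k p] {d : ℕ}
  {K : Ideal (MvPowerSeries (Fin d) (WittVector p k))}

variable {p} in
omit [PerfectRing k p] in
lemma natCast_witt_ne_zero {n : ℕ} (hn : n ≠ 0) : (n : WittVector p k) ≠ 0 := by
  obtain ⟨e, u, hu, rfl⟩ := Nat.exists_eq_pow_mul_and_not_dvd hn p (Fact.out : p.Prime).ne_one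
  rw [Nat.cast_mul, Nat.cast_pow]
  refine mul_ne_zero (pow_ne_zero _ (WittVector.p_nonzero p k)) fun h => hu ?_
  have := congrArg WittVector.constantCoeff h
  rwa [map_natCast, map_zero, CharP.cast_eq_zero_iff k p] at this

variable {p} in
lemma C_notMem (hK : K.IsPrime)
    (hp : (p : MvPowerSeries (Fin d) (WittVector p k)) ∉ K) {c : WittVector p k} (hc : c ≠ 0) :
    MvPowerSeries.C c ∉ K := by
  obtain ⟨m, b, rfl⟩ := WittVector.exists_eq_pow_p_mul' c hc
  rw [map_mul, map_pow, map_natCast]
  intro h
  rcases hK.mem_or_mem h with h | h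
  · exact hp (hK.mem_of_pow_mem _ h)
  · exact hK.ne_top (Ideal.eq_top_of_isUnit_mem _ h (b.isUnit.map _))

variable {p} in
/-- The Euler operator leaves `K`. -/
theorem exists_euler_notMem (hK : K.IsPrime)
    (hp : (p : MvPowerSeries (Fin d) (WittVector p k)) ∉ K)
    {f : MvPowerSeries (Fin d) (WittVector p k)} (hf : f ∈ K)
    (h0 : MvPowerSeries.constantCoeff f ≠ 0) : ∃ Φ ∈ K, euler Φ ∉ K := by
  by_contra! hE
  let g : ℕ → MvPowerSeries (Fin d) (WittVector p k) := fun J γ =>
    (binomShift J γ.degree : WittVector p k) * MvPowerSeries.coeff γ f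
  have hg : ∀ J γ, MvPowerSeries.coeff γ (g J) =
      (binomShift J γ.degree : WittVector p k) * MvPowerSeries.coeff γ f := fun J γ => rfl
  have hgK : ∀ J, g J ∈ K := by
    intro J
    induction J with
    | zero =>
      convert hf using 1
      ext γ
      rw [hg]
      simp [binomShift]
    | succ J ih =>
      have h1 : MvPowerSeries.C ((J + 1 : ℕ) : WittVector p k) * g (J + 1) =
          euler (g J) - MvPowerSeries.C ((J + 1 : ℕ) : WittVector p k) * g J := by
        ext γ
        rw [map_sub, MvPowerSeries.coeff_C_mul, coeff_euler, MvPowerSeries.coeff_C_mul, hg, hg]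
        have h2 : ((γ.degree : WittVector p k) - ((J + 1 : ℕ) : WittVector p k)) *
            (binomShift J γ.degree : WittVector p k) = ((J + 1 : ℕ) : WittVector p k) *
              (binomShift (J + 1) γ.degree : WittVector p k) := by
          have := congrArg (Int.cast : ℤ → WittVector p k) (binomShift_succ J γ.degree)
          simpa using this
        rw [← mul_assoc, ← h2]
        ring_nf
      have h3 : MvPowerSeries.C ((J + 1 : ℕ) : WittVector p k) * g (J + 1) ∈ K := by
        rw [h1]
        exact sub_mem (hE _ ih) (Ideal.mul_mem_left _ _ ih)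
      refine (hK.mem_or_mem h3).resolve_left ?_
      exact C_notMem hK hp (natCast_witt_ne_zero (Nat.succ_ne_zero J))
  refine C_notMem hK hp h0 ?_
  set c0 := MvPowerSeries.constantCoeff f
  have hmem : ∀ J, MvPowerSeries.C c0 ∈ K ⊔
      Ideal.span (Set.range (MvPowerSeries.X : Fin d → MvPowerSeries (Fin d) (WittVector p k))) ^
        (J + 1) := by
    intro J
    rw [show MvPowerSeries.C c0 = MvPowerSeries.C ((-1 : WittVector p k) ^ J) * g J -
        (MvPowerSeries.C ((-1 : WittVector p k) ^ J) * g J - MvPowerSeries.C c0) by ring]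
    refine sub_mem (Submodule.mem_sup_left (Ideal.mul_mem_left _ _ (hgK J)))
      (Submodule.mem_sup_right ?_)
    rw [mem_span_X_pow_iff]
    intro e he
    rw [map_sub, MvPowerSeries.coeff_C_mul, MvPowerSeries.coeff_C, hg]
    by_cases h : e = 0
    · subst h
      simp [binomShift, c0, ← mul_assoc, ← pow_add, ← two_mul, pow_mul]
    · have hd : e.degree ≠ 0 := by simpa [Finsupp.degree_eq_zero_iff] using h
      rw [if_neg h, binomShift, if_neg hd, Nat.choose_eq_zero_of_lt (by omega)]
      simp
  have hX : Ideal.span (Set.range (MvPowerSeries.X :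
      Fin d → MvPowerSeries (Fin d) (WittVector p k))) ≤ maximalIdeal _ := by
    rw [Ideal.span_le]
    rintro _ ⟨l, rfl⟩
    rw [SetLike.mem_coe, mem_maximalIdeal, mem_nonunits_iff, MvPowerSeries.isUnit_iff_constantCoeff]
    simp
  have : K.IsPrime := hK
  have : IsLocalRing (MvPowerSeries (Fin d) (WittVector p k) ⧸ K) :=
    IsLocalRing.of_surjective' (Ideal.Quotient.mk K) Ideal.Quotient.mk_surjective
  have hbot := Ideal.iInf_pow_eq_bot_of_isLocalRing
    (R := MvPowerSeries (Fin d) (WittVector p k) ⧸ K)
    (I := (maximalIdeal _).map (Ideal.Quotient.mk K)) (fun h => by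
      have h1 := congrArg (Ideal.comap (Ideal.Quotient.mk K)) h
      rw [Ideal.comap_map_of_surjective _ Ideal.Quotient.mk_surjective, Ideal.comap_top,
        ← RingHom.ker, Ideal.mk_ker, sup_eq_left.2 (le_maximalIdeal hK.ne_top)] at h1
      exact (maximalIdeal.isMaximal _).ne_top h1)
  rw [← Ideal.Quotient.eq_zero_iff_mem, ← Ideal.mem_bot, ← hbot, Submodule.mem_iInf]
  intro J
  have h1 := Ideal.mem_map_of_mem (Ideal.Quotient.mk K)
    (sup_le_sup_left (Ideal.pow_right_mono hX (J + 1)) _ (hmem J))
  rw [Ideal.map_sup, Ideal.map_quotient_self, bot_sup_eq, Ideal.map_pow] at h1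
  exact Ideal.pow_le_pow_right (Nat.le_succ J) h1

end Nu

end Vale.Agent.P202
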