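import Mathlib

/-!
M2: a Weierstrass polynomial over a complete local domain, evaluation at its roots, and interpolation
at simple roots with a bounded denominator.
-/

universe u v

namespace Vale.Agent.P202.Nu

open Polynomial IsLocalRing

section Weierstrass

variable {C : Type u} [CommRing C] [IsLocalRing C] [IsAdicComplete (maximalIdeal C) C]
  {P : C[X]} (hP : P.IsDistinguishedAt (maximalIdeal C))
include hP

/-- The class of a series modulo a distinguished polynomial. -/
noncomputable def theta : PowerSeries C →+* C[X] ⧸ Ideal.span {P} :=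
  hP.algEquivQuotient.symm.toRingHom.comp (Ideal.Quotient.mk (Ideal.span {(P : PowerSeries C)}))

lemma theta_coe (q : C[X]) : theta hP q = Ideal.Quotient.mk _ q := by
  show hP.algEquivQuotient.symm _ = _
  rw [AlgEquiv.symm_apply_eq]
  rfl

lemma theta_self : theta hP (P : PowerSeries C) = 0 := by
  rw [theta_coe, Ideal.Quotient.eq_zero_iff_mem]
  exact Ideal.mem_span_singleton_self P

lemma exists_rep (h : PowerSeries C) : ∃ R : C[X], theta hP h = Ideal.Quotient.mk _ R ∧
    (P : PowerSeries C) ∣ h - R := by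
  obtain ⟨R, hR⟩ := Ideal.Quotient.mk_surjective (theta hP h)
  refine ⟨R, hR.symm, ?_⟩
  have : theta hP (h - R) = 0 := by rw [map_sub, theta_coe, hR, sub_self]
  rw [← Ideal.mem_span_singleton, ← Ideal.Quotient.eq_zero_iff_mem]
  exact hP.algEquivQuotient.symm.injective (this.trans (map_zero _).symm)

variable {Ω : Type v} [CommRing Ω] (am : C →+* Ω) {τ : Ω}

/-- The value of a series at a root of a distinguished polynomial. -/
noncomputable def evAt (hτ : P.eval₂ am τ = 0) : PowerSeries C →+* Ω :=
  (Ideal.Quotient.lift (Ideal.span {P}) (eval₂RingHom am τ) fun a ha => by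
    obtain ⟨b, rfl⟩ := Ideal.mem_span_singleton'.1 ha
    simp [hτ]).comp (theta hP)

lemma evAt_coe (hτ : P.eval₂ am τ = 0) (q : C[X]) : evAt hP am hτ q = q.eval₂ am τ := by
  simp [evAt, theta_coe]

lemma evAt_eq (hτ : P.eval₂ am τ = 0) {h : PowerSeries C} {R : C[X]}
    (hR : theta hP h = Ideal.Quotient.mk _ R) : evAt hP am hτ h = R.eval₂ am τ := by
  simp [evAt, hR]

end Weierstrass

section Interp

variable {C : Type u} [CommRing C] [IsDomain C] [IsNoetherianRing C] [IsIntegrallyClosed C]
  [CharZero C] {Ω : Type u} [Field Ω] [IsAlgClosed Ω] [Algebra C Ω]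

/-- Interpolation at the roots in `S`, with a denominator not depending on `n` and `R`. -/
theorem exists_interp (hinj : Function.Injective (algebraMap C Ω)) {P : C[X]} (hP : P.Monic)
    (S : Finset Ω) (hroot : ∀ τ ∈ S, P.eval₂ (algebraMap C Ω) τ = 0)
    (hsimple : ∀ τ ∈ S, P.derivative.eval₂ (algebraMap C Ω) τ ≠ 0) (hne : ∀ τ ∈ S, τ ≠ 0)
    (a : Ω → Ω) :
    ∃ b : C, b ≠ 0 ∧ ∀ (n : ℕ) (R : C[X]),
      (∀ τ, τ ∉ S →
        (X - Polynomial.C τ) ^ rootMultiplicity τ (P.map (algebraMap C Ω)) ∣
          R.map (algebraMap C Ω)) →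
      (∀ τ ∈ S, ∃ z, IsIntegral C z ∧ τ ^ n * z ∈ Algebra.adjoin C {τ} ∧
        R.eval₂ (algebraMap C Ω) τ = a τ * (τ ^ n * z)) →
      ∃ Q : C[X], P ∣ Polynomial.C b * R - X ^ n * Q := by
  classical
  let F := FractionRing C
  let _ : Algebra F Ω := (IsFractionRing.lift (K := F) hinj).toAlgebra
  have : IsScalarTower C F Ω := IsScalarTower.of_algebraMap_eq fun c => by
    rw [RingHom.algebraMap_toAlgebra, IsFractionRing.lift_algebraMap]
  have : CharZero F := charZero_of_injective_algebraMap (IsFractionRing.injective C F)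
  set am := algebraMap C Ω
  set PΩ := P.map am with hPΩ
  have hPΩm : PΩ.Monic := hP.map _
  let L : IntermediateField F Ω := IntermediateField.adjoin F (S : Set Ω)
  have hint : ∀ τ ∈ S, IsIntegral C τ := fun τ hτ => ⟨P, hP, hroot τ hτ⟩
  have : FiniteDimensional F L :=
    IntermediateField.finiteDimensional_adjoin fun τ hτ => (hint τ hτ).tower_top
  have : Module.Finite C (integralClosure C L) :=
    IsIntegralClosure.finite C F L (integralClosure C L)
  obtain ⟨G, hG⟩ := Module.Finite.fg_top (R := C) (M := integralClosure C L)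
  obtain ⟨π, hπ⟩ := (Algebra.linearMap F Ω).exists_leftInverse_of_injective
    (LinearMap.ker_eq_bot.2 (algebraMap F Ω).injective)
  have hπ1 : ∀ x : F, π (algebraMap F Ω x) = x := fun x => LinearMap.congr_fun hπ x
  let ℓ : Ω → (Polynomial Ω) := fun τ => PΩ /ₘ (X - Polynomial.C τ)
  have hroot' : ∀ τ ∈ S, PΩ.IsRoot τ := fun τ hτ => by
    rw [IsRoot.def, hPΩ, eval_map]; exact hroot τ hτ
  have hℓ : ∀ τ ∈ S, (X - Polynomial.C τ) * ℓ τ = PΩ := fun τ hτ =>
    mul_divByMonic_eq_iff_isRoot.2 (hroot' τ hτ)
  have hℓeval : ∀ τ ∈ S, (ℓ τ).eval τ ≠ 0 := by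
    intro τ hτ h
    refine hsimple τ hτ ?_
    rw [← eval_map, ← derivative_map, ← hPΩ, ← hℓ τ hτ]
    simp [h]
  let cst : Ω → ℕ → Ω := fun τ i => a τ * (ℓ τ).coeff i / (ℓ τ).eval τ
  let w := P.natDegree + 1
  let vals : Finset F := (S ×ˢ Finset.range w ×ˢ G).image
    fun x => π (((x.2.2 : L) : Ω) * cst x.1 x.2.1)
  obtain ⟨b, hb⟩ := IsLocalization.exist_integer_multiples_of_finset (nonZeroDivisors C) vals
  have hkey : ∀ τ ∈ S, ∀ i < w, ∀ z : integralClosure C L,
      IsLocalization.IsInteger C ((b : C) • π (((z : L) : Ω) * cst τ i)) := by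
    intro τ hτ i hi z
    have hz : z ∈ Submodule.span C (G : Set (integralClosure C L)) := by rw [hG]; trivial
    induction hz using Submodule.span_induction with
    | mem x hx =>
      exact hb _ (Finset.mem_image.2 ⟨(τ, i, x), by simp [hτ, hi, Finset.mem_coe.1 hx], rfl⟩)
    | zero => exact ⟨0, by simp⟩
    | add x y _ _ hx hy =>
      simpa [add_mul, smul_add] using IsLocalization.isInteger_add hx hy
    | smul c x _ hx =>
      have h1 : π ((((c • x : integralClosure C L) : L) : Ω) * cst τ i) =
          c • π (((x : L) : Ω) * cst τ i) := by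
        rw [show (((c • x : integralClosure C L) : L) : Ω) = c • ((x : L) : Ω) from rfl,
          smul_mul_assoc, ← IsScalarTower.algebraMap_smul F c, map_smul,
          IsScalarTower.algebraMap_smul]
      rw [h1, smul_comm]
      exact IsLocalization.isInteger_smul hx
  refine ⟨b, nonZeroDivisors.ne_zero b.2, fun n R hR hz => ?_⟩
  choose! z hzint hzmem hzval using hz
  have hzL : ∀ τ ∈ S, z τ ∈ L := by
    intro τ hτ
    have hτL : τ ∈ L := IntermediateField.subset_adjoin F _ hτ
    have h1 : τ ^ n * z τ ∈ L := by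
      have hle : Algebra.adjoin C ({τ} : Set Ω) ≤ L.toSubalgebra.restrictScalars C :=
        Algebra.adjoin_le (Set.singleton_subset_iff.2 hτL)
      exact hle (hzmem τ hτ)
    have := L.mul_mem (L.inv_mem (pow_mem hτL n)) h1
    rwa [inv_mul_cancel_left₀ (pow_ne_zero n (hne τ hτ))] at this
  let q : (Polynomial Ω) := ∑ τ ∈ S, Polynomial.C (z τ * (a τ / (ℓ τ).eval τ)) * ℓ τ
  have hdvd : PΩ ∣ R.map am - X ^ n * q := by
    rw [show PΩ = (PΩ.roots.map fun τ => X - Polynomial.C τ).prod from
      (IsAlgClosed.splits PΩ).eq_prod_roots_of_monic hPΩm,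
      prod_multiset_root_eq_finset_root]
    refine Finset.prod_dvd_of_coprime (fun τ _ τ' _ h => ?_) fun τ _ => ?_
    · exact (isCoprime_X_sub_C_of_isUnit_sub (sub_ne_zero.2 h).isUnit).pow
    · by_cases hτ : τ ∈ S
      · have hm : rootMultiplicity τ PΩ = 1 := by
          refine le_antisymm (not_lt.1 fun h => hsimple τ hτ ?_) ((rootMultiplicity_pos hPΩm.ne_zero).2 (hroot' τ hτ))
          rw [← eval_map, ← derivative_map]
          exact ((one_lt_rootMultiplicity_iff_isRoot hPΩm.ne_zero).1 h).2
        rw [hm, pow_one, dvd_iff_isRoot, IsRoot.def, eval_sub, eval_mul, eval_pow, eval_X,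
          eval_map, hzval τ hτ, eval_finsetSum, Finset.sum_eq_single τ]
        · rw [eval_mul, eval_C]
          field_simp [hℓeval τ hτ]
          ring
        · intro τ' hτ' hne'
          have h1 : ((X - Polynomial.C τ') * ℓ τ').eval τ = 0 := by
            rw [hℓ τ' hτ']; exact hroot' τ hτ
          rw [eval_mul, eval_sub, eval_X, eval_C, mul_eq_zero] at h1
          rw [eval_mul, h1.resolve_left (sub_ne_zero.2 (Ne.symm hne')), mul_zero]
        · exact fun h => absurd hτ h
      · refine dvd_sub (hR τ hτ) (Dvd.dvd.mul_left (Finset.dvd_sum fun τ' hτ' => ?_) _)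
        refine Dvd.dvd.mul_left ?_ _
        have hne' : τ ≠ τ' := fun h => hτ (h ▸ hτ')
        refine ((isCoprime_X_sub_C_of_isUnit_sub (sub_ne_zero.2 hne').isUnit).pow_left).dvd_of_dvd_mul_left
          (z := ℓ τ') ?_
        rw [hℓ τ' hτ']
        exact pow_rootMultiplicity_dvd PΩ τ
  obtain ⟨m, hm⟩ := hdvd
  let app : (Polynomial Ω) → (Polynomial F) := fun f =>
    ∑ i ∈ Finset.range (f.natDegree + 1), Polynomial.C (π (f.coeff i)) * X ^ i
  have happ : ∀ f i, (app f).coeff i = π (f.coeff i) := fun f i => by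
    simp only [app, finsetSum_coeff, coeff_C_mul, coeff_X_pow, mul_ite, mul_one, mul_zero]
    rw [Finset.sum_ite_eq]
    split_ifs with hi
    · rfl
    · rw [Finset.mem_range] at hi
      rw [coeff_eq_zero_of_natDegree_lt (by omega), map_zero]
  have happ_mul : ∀ (A : (Polynomial F)) (f : (Polynomial Ω)), app (A.map (algebraMap F Ω) * f) = A * app f := by
    intro A f
    ext i
    rw [happ, coeff_mul, coeff_mul, map_sum]
    refine Finset.sum_congr rfl fun x _ => ?_
    rw [coeff_map, ← Algebra.smul_def, map_smul, smul_eq_mul, happ]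
  have hqb : ∀ i, IsLocalization.IsInteger C ((b : C) • π (q.coeff i)) := by
    intro i
    rcases le_or_gt w i with hi | hi
    · have : q.coeff i = 0 := by
        rw [finsetSum_coeff]
        refine Finset.sum_eq_zero fun τ _ => ?_
        rw [coeff_C_mul, coeff_eq_zero_of_natDegree_lt, mul_zero]
        have h1 : (ℓ τ).natDegree ≤ PΩ.natDegree := by
          rw [natDegree_divByMonic _ (monic_X_sub_C τ)]; exact Nat.sub_le _ _
        rw [hPΩ, natDegree_map_eq_of_injective hinj] at h1
        omega
      exact ⟨0, by simp [this]⟩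
    · rw [finsetSum_coeff, map_sum, Finset.smul_sum]
      refine Finset.sum_induction _ (fun x => IsLocalization.IsInteger C x)
        (fun x y => IsLocalization.isInteger_add) IsLocalization.isInteger_zero fun τ hτ => ?_
      rw [coeff_C_mul]
      have hzi : IsIntegral C (⟨z τ, hzL τ hτ⟩ : L) :=
        (isIntegral_algHom_iff (L.val.restrictScalars C) Subtype.val_injective).1 (hzint τ hτ)
      have := hkey τ hτ i hi ⟨⟨z τ, hzL τ hτ⟩, hzi⟩
      rwa [show z τ * (a τ / (ℓ τ).eval τ) * (ℓ τ).coeff i = z τ * cst τ i by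
        show _ = z τ * (a τ * (ℓ τ).coeff i / (ℓ τ).eval τ)
        rw [mul_assoc, div_mul_eq_mul_div]]
  choose qc hqc using hqb
  let Q : C[X] := ∑ i ∈ Finset.range w, Polynomial.C (qc i) * X ^ i
  have hQ : Q.map (algebraMap C F) = (b : C) • app q := by
    ext i
    rw [coeff_map, coeff_smul, happ, ← hqc i, finsetSum_coeff]
    by_cases hi : i < w
    · congr 1
      simp [coeff_C_mul, coeff_X_pow, hi]
    · have h1 := hqc i
      have h0 : q.coeff i = 0 := by
        rw [finsetSum_coeff]
        refine Finset.sum_eq_zero fun τ _ => ?_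
        rw [coeff_C_mul, coeff_eq_zero_of_natDegree_lt, mul_zero]
        have h2 : (ℓ τ).natDegree ≤ PΩ.natDegree := by
          rw [natDegree_divByMonic _ (monic_X_sub_C τ)]; exact Nat.sub_le _ _
        rw [hPΩ, natDegree_map_eq_of_injective hinj] at h2
        omega
      rw [h0, map_zero, smul_zero] at h1
      rw [h1]
      simp [coeff_C_mul, coeff_X_pow, hi]
  refine ⟨Q, (map_dvd_map (algebraMap C F) (IsFractionRing.injective C F) hP).1
    ⟨(b : C) • app m, ?_⟩⟩
  have hmapR : ∀ A : C[X], A.map am = (A.map (algebraMap C F)).map (algebraMap F Ω) := fun A => by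
    rw [map_map, ← IsScalarTower.algebraMap_eq]
  have h1 : R.map (algebraMap C F) - X ^ n * app q = P.map (algebraMap C F) * app m := by
    have e1 : app (R.map am) = R.map (algebraMap C F) := by
      ext i
      rw [happ, coeff_map, coeff_map, IsScalarTower.algebraMap_apply C F Ω, hπ1]
    have e2 : app (X ^ n * q) = X ^ n * app q := by
      rw [← happ_mul, Polynomial.map_pow, map_X]
    rw [← e2, show P.map (algebraMap C F) * app m = app (PΩ * m) by
      rw [← happ_mul, ← hmapR, ← hPΩ], ← hm, ← e1]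
    ext i
    simp [happ]
  rw [Polynomial.map_sub, Polynomial.map_mul, Polynomial.map_mul, map_C, Polynomial.map_pow, map_X,
    hQ, mul_smul_comm, mul_smul_comm, ← h1, smul_sub, Algebra.smul_def, Algebra.smul_def, Polynomial.algebraMap_apply]

end Interp

end Vale.Agent.P202.Nu
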