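import Vale.Agent.P202.NuKeep
import Vale.Agent.P202.NuEuler
import Vale.Agent.P202.NuInterp

/-!
M2: `GoalNuBase`, the valuations of a hypersurface monic in `p`, from the roots along `X = [T] t`.
-/

universe u

namespace Vale.Agent.P202

open IsLocalRing

namespace Nu

/-- A prime minimal over `(f)` is the colon ideal of some element. -/
lemma exists_colon {R : Type*} [CommRing R] [IsNoetherianRing R] {f : R} {K : Ideal R}
    (hK : K ∈ (Ideal.span {f}).minimalPrimes) :
    ∃ u, ∀ a, a * u ∈ Ideal.span {f} ↔ a ∈ K := by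
  have h1 : K ∈ associatedPrimes R (R ⧸ Ideal.span {f}) :=
    Module.associatedPrimes.minimalPrimes_annihilator_subset_associatedPrimes R _ (by rwa [Ideal.annihilator_quotient])
  obtain ⟨-, x, hx⟩ := isAssociatedPrime_iff.1 h1
  obtain ⟨u, rfl⟩ := Ideal.Quotient.mk_surjective x
  refine ⟨u, fun a => ?_⟩
  rw [hx, Submodule.mem_colon_singleton, Submodule.mem_bot, ← Ideal.Quotient.eq_zero_iff_mem]
  rfl

/-- Artin-Rees: from `a u` small modulo `(f)` to `a` small modulo the colon ideal. -/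
lemma exists_bound {R : Type*} [CommRing R] [IsNoetherianRing R] (M : Ideal R) {u f : R}
    {K : Ideal R} (hu : ∀ a, a * u ∈ Ideal.span {f} → a ∈ K) :
    ∃ c, ∀ n r, u * r ∈ Ideal.span {f} ⊔ M ^ n → r ∈ K ⊔ M ^ (n - c) := by
  obtain ⟨c, hc⟩ := Ideal.exists_pow_inf_eq_pow_smul M (Ideal.span {u, f} : Submodule R R)
  refine ⟨c, fun n r hr => ?_⟩
  rcases lt_or_ge n c with h | h
  · simp [Nat.sub_eq_zero_of_le h.le]
  obtain ⟨y, hy, z, hz, hyz⟩ := Submodule.mem_sup.1 hr
  obtain ⟨a, rfl⟩ := Ideal.mem_span_singleton'.1 hy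
  have hzI : z ∈ (M ^ n • ⊤ ⊓ (Ideal.span {u, f} : Submodule R R) : Submodule R R) := by
    refine ⟨by simpa using hz, ?_⟩
    rw [show z = u * r - a * f by rw [← hyz]; ring]
    exact sub_mem (Ideal.mul_mem_right _ _ (Ideal.subset_span (Set.mem_insert _ _)))
      (Ideal.mul_mem_left _ _ (Ideal.subset_span (Set.mem_insert_of_mem _ rfl)))
  rw [hc n h] at hzI
  have h2 : z ∈ M ^ (n - c) * Ideal.span {u, f} :=
    (Submodule.smul_mono le_rfl inf_le_right) hzI
  rw [Ideal.span_insert, Ideal.mul_sup, Submodule.mem_sup] at h2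
  obtain ⟨z₁, hz₁, z₂, hz₂, rfl⟩ := h2
  obtain ⟨s, hs, rfl⟩ := Ideal.mem_mul_span_singleton.1 hz₁
  obtain ⟨t, ht, rfl⟩ := Ideal.mem_mul_span_singleton.1 hz₂
  rw [← sub_add_cancel r s]
  refine add_mem (Submodule.mem_sup_left (hu _ ?_)) (Submodule.mem_sup_right hs)
  exact Ideal.mem_span_singleton'.2 ⟨a + t, by linear_combination hyz⟩

section phi

variable {p : ℕ} [Fact p.Prime] {k : Type u} [Field k] [CharP k p] [PerfectRing k p]
  {κ : Type u} [Field κ] [Algebra k κ] {d : ℕ} (T : Fin d → κ)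

omit [CharP k p] [PerfectRing k p] in
lemma phi_C (a : WittVector p k) :
    phi p T (MvPowerSeries.C a) = PowerSeries.C (WittVector.map (algebraMap k κ) a) := by
  classical
  ext j
  rw [coeff_phi, PowerSeries.coeff_C]
  by_cases hj : j = 0
  · subst hj
    rw [if_pos rfl, show hcomp 0 (MvPowerSeries.C a) = MvPolynomial.C a by
      ext γ; rw [coeff_hcomp, MvPolynomial.coeff_C, MvPowerSeries.coeff_C]
      by_cases hγ : γ = 0 <;> simp [hγ, eq_comm]]
    rw [evT, MvPolynomial.eval₂Hom_C]; rfl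
  · rw [if_neg hj, show hcomp j (MvPowerSeries.C a) = 0 by
      refine Finset.sum_eq_zero fun γ hγ => ?_
      rw [MvPowerSeries.coeff_C, if_neg, map_zero]
      rintro rfl
      exact hj (by simpa using (mem_degFin.1 hγ).symm), map_zero]

omit [CharP k p] [PerfectRing k p] in
lemma phi_C_pow (m : ℕ) : phi p T (MvPowerSeries.C ((p : WittVector p k) ^ m)) =
    PowerSeries.C ((p : WittVector p κ) ^ m) := by
  rw [phi_C, map_pow, map_pow, map_natCast, map_pow]

omit [CharP k p] [PerfectRing k p] in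
lemma phi_X (l : Fin d) : phi p T (MvPowerSeries.X l : MvPowerSeries (Fin d) (WittVector p k)) =
    ((Polynomial.C (WittVector.teichmuller p (T l)) * Polynomial.X : Polynomial (WittVector p κ)) :
      PowerSeries (WittVector p κ)) := by
  classical
  ext j
  rw [coeff_phi, Polynomial.coeff_coe, Polynomial.coeff_C_mul_X]
  by_cases hj : j = 1
  · subst hj
    rw [if_pos rfl, show hcomp 1 (MvPowerSeries.X l) =
        (MvPolynomial.X l : MvPolynomial (Fin d) (WittVector p k)) by
      ext γ; rw [coeff_hcomp, MvPolynomial.coeff_X, MvPowerSeries.coeff_X]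
      by_cases hγ : γ = Finsupp.single l 1 <;> simp [hγ, eq_comm]]
    rw [evT, MvPolynomial.eval₂Hom_X']
  · rw [if_neg hj, show hcomp j (MvPowerSeries.X l : MvPowerSeries (Fin d) (WittVector p k)) = 0 by
      refine Finset.sum_eq_zero fun γ hγ => ?_
      rw [MvPowerSeries.coeff_X, if_neg, map_zero]
      rintro rfl
      exact hj (by simpa using (mem_degFin.1 hγ).symm), map_zero]

omit [CharP k p] [PerfectRing k p] in
lemma phi_euler (g : MvPowerSeries (Fin d) (WittVector p k)) :
    phi p T (euler g) = PowerSeries.X * PowerSeries.derivative (WittVector p κ) (phi p T g) := by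
  ext j
  rcases j with _ | j
  · rw [coeff_phi, PowerSeries.coeff_zero_X_mul]
    have : hcomp 0 (euler g) = 0 := Finset.sum_eq_zero fun γ hγ => by
      rw [coeff_euler, mem_degFin.1 hγ]; simp
    rw [this, map_zero]
  · rw [PowerSeries.coeff_succ_X_mul, PowerSeries.coeff_derivative, coeff_phi, coeff_phi]
    have : hcomp (j + 1) (euler g) =
        MvPolynomial.C ((j + 1 : ℕ) : WittVector p k) * hcomp (j + 1) g := by
      rw [hcomp, hcomp, Finset.mul_sum]
      refine Finset.sum_congr rfl fun γ hγ => ?_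
      rw [coeff_euler, mem_degFin.1 hγ, MvPolynomial.C_mul_monomial]
    rw [this, map_mul, evT, MvPolynomial.eval₂Hom_C, map_natCast, ← evT, mul_comm]
    push_cast
    ring

end phi

section mult

variable {C : Type u} [CommRing C] [IsLocalRing C] [IsAdicComplete (maximalIdeal C) C]
  {P : Polynomial C} (hP : P.IsDistinguishedAt (maximalIdeal C)) {Ω : Type u} [Field Ω]
  (am : C →+* Ω) {A : Type u} [CommRing A] (ι : A →+* PowerSeries C)
include hP

open Polynomial in
/-- Outside the chosen roots the multiplier vanishes to the full order. -/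
lemma dvd_map_of_mult {g u s a r : A} {τ : Ω} {R : Polynomial C} (hτ : P.eval₂ am τ = 0)
    (hg : theta hP (ι g) = 0)
    (ha : (a * u ∈ Ideal.span {g} ∧ evAt hP am hτ (ι a) ≠ 0) ∨
      (a ∣ s ∧ evAt hP am hτ (ι a) = 0))
    (hR : theta hP (ι (u * s ^ P.natDegree * r)) = Ideal.Quotient.mk _ R) :
    (X - Polynomial.C τ) ^ rootMultiplicity τ (P.map am) ∣ R.map am := by
  set m := rootMultiplicity τ (P.map am)
  obtain ⟨Ru, hRu, -⟩ := exists_rep hP (ι u)
  obtain ⟨Ra, hRa, -⟩ := exists_rep hP (ι a)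
  obtain ⟨Rs, hRs, -⟩ := exists_rep hP (ι s)
  obtain ⟨Rr, hRr, -⟩ := exists_rep hP (ι r)
  have hPm : (X - Polynomial.C τ) ^ m ∣ P.map am := pow_rootMultiplicity_dvd _ _
  have htrans : ∀ Q Q' : Polynomial C, Ideal.Quotient.mk (Ideal.span {P}) Q =
      Ideal.Quotient.mk (Ideal.span {P}) Q' → (X - Polynomial.C τ) ^ m ∣ Q'.map am →
      (X - Polynomial.C τ) ^ m ∣ Q.map am := fun Q Q' h hd => by
    rw [Ideal.Quotient.mk_eq_mk_iff_sub_mem, Ideal.mem_span_singleton] at h
    have := hPm.trans (Polynomial.map_dvd am h)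
    rw [Polynomial.map_sub] at this
    simpa using dvd_add this hd
  refine htrans R (Ru * Rs ^ P.natDegree * Rr) (by
    rw [← hR]; simp only [map_mul, map_pow, hRu, hRs, hRr]) ?_
  rw [Polynomial.map_mul, Polynomial.map_mul, Polynomial.map_pow]
  refine Dvd.dvd.mul_right ?_ _
  rw [evAt_eq hP am hτ hRa, ← Polynomial.eval_map] at ha
  rcases ha with ⟨hag, ha0⟩ | ⟨has, ha0⟩
  · refine Dvd.dvd.mul_right ?_ _
    obtain ⟨b, hb⟩ := Ideal.mem_span_singleton'.1 hag
    have h1 : (X - Polynomial.C τ) ^ m ∣ (Ra * Ru).map am := by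
      refine htrans (Ra * Ru) 0 ?_ (by rw [Polynomial.map_zero]; exact dvd_zero _)
      rw [map_mul, ← hRa, ← hRu, ← map_mul, ← map_mul, ← hb, map_mul, map_mul, hg, mul_zero,
        map_zero]
    rw [Polynomial.map_mul] at h1
    exact (((irreducible_X_sub_C τ).coprime_iff_not_dvd.2
      fun h => ha0 (dvd_iff_isRoot.1 h)).pow_left).dvd_of_dvd_mul_left h1
  · refine Dvd.dvd.mul_left ?_ _
    obtain ⟨c, hc⟩ := has
    obtain ⟨Rc, hRc, -⟩ := exists_rep hP (ι c)
    rw [← Polynomial.map_pow]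
    refine htrans _ (Ra ^ P.natDegree * Rc ^ P.natDegree) (by
      simp only [map_mul, map_pow, ← hRs, ← hRa, ← hRc, hc, mul_pow]) ?_
    rw [Polynomial.map_mul, Polynomial.map_pow]
    refine Dvd.dvd.mul_right ?_ _
    refine (pow_dvd_pow _ ?_).trans (pow_dvd_pow_of_dvd (dvd_iff_isRoot.2 ha0) _)
    refine le_trans ?_ (Polynomial.natDegree_map_le (p := P) (f := am))
    classical
    exact (count_roots (P.map am)).ge.trans ((Multiset.count_le_card _ _).trans (card_roots' _))

end mult

/-- A series monic in `p` inside `K` with Euler derivative outside `K`. -/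
lemma exists_monic_euler {p : ℕ} [Fact p.Prime] {k : Type u} [Field k] [CharP k p]
    [PerfectRing k p] {d : ℕ} {K : Ideal (MvPowerSeries (Fin d) (WittVector p k))} (hK : K.IsPrime)
    (hp : (p : MvPowerSeries (Fin d) (WittVector p k)) ∉ K) {N : ℕ}
    {f : MvPowerSeries (Fin d) (WittVector p k)} (hf : IsMonicP p N f) (hfK : f ∈ K) :
    ∃ g, IsMonicP p N g ∧ g ∈ K ∧ euler g ∉ K := by
  by_cases hfE : euler f ∈ K
  · obtain ⟨Φ, hΦ, hΦE⟩ := exists_euler_notMem hK hp hfK fun h0 => hf.2 (by rw [h0]; simp)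
    refine ⟨f + MvPowerSeries.C ((p : WittVector p k) ^ (N + 1)) * Φ, ⟨fun γ => ?_, fun h => ?_⟩,
      add_mem hfK (Ideal.mul_mem_left _ _ hΦ), fun h => ?_⟩
    · rw [map_add, MvPowerSeries.coeff_C_mul]
      exact dvd_add (hf.1 γ) (dvd_mul_of_dvd_left (pow_dvd_pow _ (by omega)) _)
    · rw [map_add, map_mul, MvPowerSeries.constantCoeff_C] at h
      exact hf.2 ((dvd_add_left (dvd_mul_right _ _)).1 h)
    · rw [euler_add, euler_C_mul] at h
      rcases hK.mem_or_mem ((Submodule.add_mem_iff_right _ hfE).1 h) with h' | h'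
      · exact C_notMem hK hp (pow_ne_zero _ (WittVector.p_nonzero p k)) h'
      · exact hΦE h'
  · exact ⟨f, hf, hfK, hfE⟩

/-- The interpolation turns integrality at the roots into a congruence. -/
lemma exists_congr {C : Type u} [CommRing C] {P R Q A : Polynomial C} {B U U' h x : PowerSeries C}
    {b b' pm : C} {n : ℕ} (hA : Polynomial.C b * R - Polynomial.X ^ n * Q = P * A)
    (hB : h - R = P * B) (hU : U' * U = 1)
    (hx : x = PowerSeries.C (pm * (b * b')) * h) :
    ∃ q, x = PowerSeries.C pm * ((P : PowerSeries C) * U) * q +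
      PowerSeries.X ^ n * (PowerSeries.C (pm * b') * (Q : PowerSeries C)) := by
  have hA' : PowerSeries.C b * (R : PowerSeries C) -
      PowerSeries.X ^ n * (Q : PowerSeries C) = (P : PowerSeries C) * (A : PowerSeries C) := by
    have := congrArg (fun q : Polynomial C => (q : PowerSeries C)) hA
    simpa using this
  refine ⟨PowerSeries.C b' * ((A : PowerSeries C) + PowerSeries.C b * B) * U', ?_⟩
  rw [hx, show h = (R : PowerSeries C) + (P : PowerSeries C) * B by rw [← hB]; ring]
  simp only [map_mul]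
  linear_combination (PowerSeries.C pm * PowerSeries.C b') * hA' -
    (PowerSeries.C pm * PowerSeries.C b' * (P : PowerSeries C) *
      ((A : PowerSeries C) + PowerSeries.C b * B)) * hU

end Nu

open Nu in
/-- The valuations of a hypersurface monic in `p`. -/
theorem goalNuBase : GoalNuBase.{u} := by
  classical
  intro p _ k _ _ _ d K hK hp N f hN hf hfK hmin κ _ _ _ _ T hT Ω _ _ _ hinj
  set C := WittVector p κ
  set am := algebraMap C Ω with ham
  set ι : MvPowerSeries (Fin d) (WittVector p k) →+* PowerSeries C := phi p T with hι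
  have : CharZero (WittVector p κ) := charZero_of_inj_zero fun n hn => by
    by_contra h
    exact natCast_witt_ne_zero h hn
  have hmaxC : maximalIdeal C = Ideal.span {(p : C)} := (WittVector.irreducible p).maximalIdeal_eq
  have : IsAdicComplete (maximalIdeal C) C := hmaxC ▸ WittVector.isAdicCompleteIdealSpanP
  obtain ⟨g, hg, hgK, hgE⟩ := exists_monic_euler hK hp hf hfK
  obtain ⟨u, hu⟩ := exists_colon (hmin g hg hgK)
  have hg0 : ¬ PDvd (p : C) (N + 1) (ι g) := fun h => hg.2 (by
    have h1 := h 0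
    rw [hι, coeff_phi, dvd_evT_iff p hT] at h1
    have h2 := h1 0
    rwa [coeff_hcomp, if_pos (map_zero _), MvPowerSeries.coeff_zero_eq_constantCoeff] at h2)
  set μ := Nat.findGreatest (fun m => PDvd (p : C) m (ι g)) (N + 1) with hμdef
  have hμ : PDvd (p : C) μ (ι g) :=
    Nat.findGreatest_spec (P := fun m => PDvd (p : C) m (ι g)) (Nat.zero_le _) fun j => by simp
  have hμN : μ < N + 1 := lt_of_le_of_ne (Nat.findGreatest_le _) fun h => hg0 (h ▸ hμ)
  obtain ⟨h₀, hh₀⟩ := pdvd_iff.1 hμ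
  have hh₀res : h₀.map (residue C) ≠ 0 := by
    intro h
    refine Nat.findGreatest_is_greatest (P := fun m => PDvd (p : C) m (ι g)) (lt_add_one μ) hμN
      fun j => ?_
    have h1 : PowerSeries.coeff j h₀ ∈ maximalIdeal C := by
      have := congrArg (PowerSeries.coeff j) h
      rwa [PowerSeries.coeff_map, map_zero, residue_eq_zero_iff] at this
    rw [hmaxC, Ideal.mem_span_singleton] at h1
    rw [hh₀, PowerSeries.coeff_C_mul, pow_succ]
    exact mul_dvd_mul_left _ h1
  obtain ⟨P, U, hW⟩ := PowerSeries.exists_isWeierstrassFactorization hh₀res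
  have hP := hW.isDistinguishedAt
  have hPg : ι g = PowerSeries.C ((p : C) ^ μ) * ((P : PowerSeries C) * U) := by
    rw [hh₀, hW.eq_mul]
  -- the evaluations at the roots
  let σ : Ω → MvPowerSeries (Fin d) (WittVector p k) →+* Ω := fun τ =>
    if h : P.eval₂ am τ = 0 then (evAt hP am h).comp ι
    else am.comp ((PowerSeries.constantCoeff).comp ι)
  have hσ : ∀ τ, ∀ h : P.eval₂ am τ = 0, σ τ = (evAt hP am h).comp ι := fun τ h => dif_pos h
  set PΩ := P.map am with hPΩ
  have hPΩ0 : PΩ ≠ 0 := (hP.monic.map am).ne_zero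
  set S := PΩ.roots.toFinset.filter (fun τ => RingHom.ker (σ τ) = K) with hSdef
  have hrootS : ∀ τ ∈ S, P.eval₂ am τ = 0 := by
    intro τ hτ
    rw [hSdef, Finset.mem_filter, Multiset.mem_toFinset, Polynomial.mem_roots hPΩ0,
      Polynomial.IsRoot.def, hPΩ, Polynomial.eval_map] at hτ
    exact hτ.1
  have hkerS : ∀ τ ∈ S, RingHom.ker (σ τ) = K := fun τ hτ => (Finset.mem_filter.1 hτ).2
  have hp0 : (p : Ω) ≠ 0 := by
    rw [← map_natCast am]
    exact (map_ne_zero_iff am hinj).2 (WittVector.p_nonzero p κ)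
  have hP0 : P.coeff 0 ≠ 0 := by
    intro h0
    have h1 := congrArg PowerSeries.constantCoeff hPg
    rw [map_mul, map_mul, Polynomial.constantCoeff_coe, h0, zero_mul, mul_zero] at h1
    refine hg.2 ?_
    have h2 : PowerSeries.coeff 0 (ι g) = 0 := by rwa [PowerSeries.coeff_zero_eq_constantCoeff]
    rw [hι, coeff_phi] at h2
    have h3 := (dvd_evT_iff p hT (N + 1) _).1 (h2 ▸ dvd_zero _) 0
    rwa [coeff_hcomp, if_pos (map_zero _), MvPowerSeries.coeff_zero_eq_constantCoeff] at h3
  have hne : ∀ τ ∈ S, τ ≠ 0 := by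
    rintro τ hτ rfl
    have := hrootS 0 hτ
    rw [Polynomial.eval₂_at_zero, map_eq_zero_iff _ hinj] at this
    exact hP0 this
  have hadj : ∀ τ ∈ S, ∀ x, σ τ x ∈ Algebra.adjoin C {τ} := by
    intro τ hτ x
    obtain ⟨R, hR, -⟩ := exists_rep hP (ι x)
    rw [hσ τ (hrootS τ hτ), RingHom.comp_apply, evAt_eq hP am _ hR]
    exact Polynomial.aeval_mem_adjoin_singleton C τ
  -- the roots in `S` are simple
  have hsimple : ∀ τ ∈ S, P.derivative.eval₂ am τ ≠ 0 := by
    intro τ hτ h0
    refine hgE ?_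
    rw [← hkerS τ hτ, RingHom.mem_ker, hσ τ (hrootS τ hτ), RingHom.comp_apply]
    have h1 : ι (euler g) = PowerSeries.X * PowerSeries.derivative C (ι g) := phi_euler T g
    rw [h1, hPg, Derivation.leibniz, Derivation.leibniz, PowerSeries.derivative_C,
      PowerSeries.derivative_coe]
    simp only [smul_eq_mul, mul_zero, add_zero, map_mul, map_add, evAt_coe, h0, hrootS τ hτ,
      zero_mul]
  -- the multiplier
  have hcase : ∀ τ ∈ PΩ.roots.toFinset, τ ∉ S → ∃ a, (a ∈ K ∧ σ τ a ≠ 0) ∨ (a ∉ K ∧ σ τ a = 0) := by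
    intro τ hτ hτS
    by_contra! h
    refine hτS (Finset.mem_filter.2 ⟨hτ, le_antisymm (fun a ha => ?_) fun a ha => ?_⟩)
    · by_contra haK
      exact (h a).2 haK ha
    · exact (h a).1 ha
  choose! mult hmult using hcase
  let e : Ω → MvPowerSeries (Fin d) (WittVector p k) := fun τ => if mult τ ∈ K then 1 else mult τ
  let s := ∏ τ ∈ PΩ.roots.toFinset \ S, e τ
  have hsK : s ∉ K := by
    refine (Finset.prod_induction (M := MvPowerSeries (Fin d) (WittVector p k)) e (· ∉ K) ?_ ?_ ?_)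
    · exact fun a b ha hb h => (hK.mem_or_mem h).elim ha hb
    · exact fun h => hK.ne_top (Ideal.eq_top_iff_one _ |>.2 h)
    · intro τ _
      simp only [e]
      split_ifs with h
      · exact fun h1 => hK.ne_top (Ideal.eq_top_iff_one _ |>.2 h1)
      · exact h
  set v₀ := u * s ^ P.natDegree with hv₀
  have hmultdvd : ∀ τ, τ ∉ S → ∀ (R : Polynomial C) (r : MvPowerSeries (Fin d) (WittVector p k)),
      theta hP (ι (v₀ * r)) = Ideal.Quotient.mk _ R →
      (Polynomial.X - Polynomial.C τ) ^ Polynomial.rootMultiplicity τ PΩ ∣ R.map am := by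
    intro τ hτS R r hR
    by_cases hroot : PΩ.IsRoot τ
    swap
    · rw [Polynomial.rootMultiplicity_eq_zero hroot, pow_zero]
      exact one_dvd _
    have hτ : P.eval₂ am τ = 0 := by rwa [Polynomial.IsRoot.def, hPΩ, Polynomial.eval_map] at hroot
    have hτmem : τ ∈ PΩ.roots.toFinset := by
      rw [Multiset.mem_toFinset, Polynomial.mem_roots hPΩ0]; exact hroot
    have hσa : σ τ (mult τ) = evAt hP am hτ (ι (mult τ)) := by rw [hσ τ hτ]; rfl
    refine dvd_map_of_mult hP am ι (g := g) (a := mult τ) hτ ?_ ?_ hR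
    · rw [hPg, map_mul, map_mul, theta_self, zero_mul, mul_zero]
    · rcases hmult τ hτmem hτS with ⟨haK, ha0⟩ | ⟨haK, ha0⟩
      · exact Or.inl ⟨(hu _).2 haK, hσa ▸ ha0⟩
      · refine Or.inr ⟨?_, hσa ▸ ha0⟩
        have := Finset.dvd_prod_of_mem e (Finset.mem_sdiff.2 ⟨hτmem, hτS⟩)
        rwa [show e τ = mult τ from if_neg haK] at this
  obtain ⟨b, hb0, hinterp⟩ :=
    exists_interp hinj hP.monic S hrootS hsimple hne (fun τ => σ τ v₀)
  obtain ⟨eb, bu, hbu⟩ := WittVector.exists_eq_pow_p_mul' b hb0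
  set v := MvPowerSeries.C ((p : WittVector p k) ^ (μ + eb)) * v₀ with hv
  have hvK : ∀ a, a * v ∈ Ideal.span {g} → a ∈ K := by
    intro a ha
    have h1 : (a * MvPowerSeries.C ((p : WittVector p k) ^ (μ + eb)) * s ^ P.natDegree) * u ∈
        Ideal.span {g} := by rw [hv, hv₀] at ha; convert ha using 1; ring
    rcases hK.mem_or_mem ((hu _).1 h1) with h | h
    · rcases hK.mem_or_mem h with h' | h'
      · exact h'
      · exact absurd h' (C_notMem hK hp (pow_ne_zero _ (WittVector.p_nonzero p k)))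
    · exact absurd (hK.mem_of_pow_mem _ h) hsK
  obtain ⟨c, hc⟩ := exists_bound (maxW p k d) hvK
  have hbound : ∀ (n : ℕ) (r : MvPowerSeries (Fin d) (WittVector p k)),
      (∀ τ ∈ S, IsIntegral C (σ τ r / τ ^ n)) → r ∈ K ⊔ maxW p k d ^ (n - c) := by
    intro n r hr
    obtain ⟨R, hR, hRdvd⟩ := exists_rep hP (ι (v₀ * r))
    obtain ⟨Q, A, hA⟩ := hinterp n R (fun τ hτ => hmultdvd τ hτ R r hR) fun τ hτ =>
      ⟨σ τ r / τ ^ n, hr τ hτ, by
        rw [mul_div_cancel₀ _ (pow_ne_zero n (hne τ hτ))]; exact hadj τ hτ r, by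
        rw [mul_div_cancel₀ _ (pow_ne_zero n (hne τ hτ)), ← map_mul, hσ τ (hrootS τ hτ),
          RingHom.comp_apply, evAt_eq hP am _ hR]⟩
    obtain ⟨B, hB⟩ := hRdvd
    obtain ⟨U', hU'⟩ := hW.isUnit.exists_left_inv
    have hx : ι (v * r) = PowerSeries.C ((p : C) ^ μ * (b * ((bu⁻¹ : Cˣ) : C))) * ι (v₀ * r) := by
      rw [hv, mul_assoc, map_mul ι (MvPowerSeries.C _), hbu, mul_assoc _ (bu : C), Units.mul_inv,
        mul_one, ← pow_add]
      exact congrArg (· * ι (v₀ * r)) (phi_C_pow T (μ + eb))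
    obtain ⟨q, hq⟩ := exists_congr hA hB hU' hx
    rw [← hPg] at hq
    refine hc n r (mem_span_sup_pow hT hg n (v * r) q (pdvd_iff.2
      ⟨PowerSeries.X ^ n * PowerSeries.rescale (p : C)
        (PowerSeries.C ((p : C) ^ μ * ((bu⁻¹ : Cˣ) : C)) * (Q : PowerSeries C)), ?_⟩))
    show PowerSeries.rescale (p : C) (ι (v * r)) - PowerSeries.rescale (p : C) (ι g) *
      PowerSeries.rescale (p : C) q = _
    rw [hq, map_add, map_mul,
      add_sub_cancel_left, map_mul, map_pow (PowerSeries.rescale _) PowerSeries.X,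
      PowerSeries.rescale_X, mul_pow, ← map_pow, mul_assoc]
  have hne' : S.Nonempty := by
    by_contra hS
    rw [Finset.not_nonempty_iff_eq_empty] at hS
    have h1 := hbound (c + 1) 1 (by simp [hS])
    rw [Nat.add_sub_cancel_left, pow_one] at h1
    refine (maximalIdeal.isMaximal (MvPowerSeries (Fin d) (WittVector p k))).ne_top
      ((Ideal.eq_top_iff_one _).2 ((sup_le (le_maximalIdeal hK.ne_top) ?_) h1))
    rw [maxW, Ideal.span_le, Set.insert_subset_iff]
    constructor
    · rw [SetLike.mem_coe, mem_maximalIdeal, mem_nonunits_iff,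
        MvPowerSeries.isUnit_iff_constantCoeff, map_natCast]
      exact (WittVector.irreducible p).not_isUnit
    · rintro _ ⟨l, rfl⟩
      rw [SetLike.mem_coe, mem_maximalIdeal, mem_nonunits_iff,
        MvPowerSeries.isUnit_iff_constantCoeff]
      simp
  refine ⟨S, σ, hne', fun τ hτ => ⟨hne τ hτ, ⟨P, hP.monic, hrootS τ hτ⟩, ?_, hkerS τ hτ, ?_, ?_,
    hadj τ hτ⟩, c, hbound⟩
  · have hw : 0 < P.natDegree := by
      refine Nat.pos_of_ne_zero fun h => ?_
      have := hrootS τ hτ
      rw [hP.monic.natDegree_eq_zero.1 h] at this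
      simp at this
    refine ⟨P.natDegree, hw, ?_⟩
    have hco : ∀ i, i < P.natDegree → ∃ c', P.coeff i = (p : C) * c' := fun i hi => by
      have := hP.mem hi
      rwa [hmaxC, Ideal.mem_span_singleton] at this
    choose! ci hci using hco
    have h1 : τ ^ P.natDegree / (p : Ω) =
        -∑ i ∈ Finset.range P.natDegree, am (ci i) * τ ^ i := by
      have h2 := hrootS τ hτ
      rw [Polynomial.eval₂_eq_sum_range, Finset.sum_range_succ, hP.monic.coeff_natDegree, map_one,
        one_mul, Finset.sum_congr rfl fun i hi => by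
          rw [hci i (Finset.mem_range.1 hi), map_mul, map_natCast, mul_assoc], ← Finset.mul_sum] at h2
      rw [div_eq_iff hp0]
      linear_combination h2
    rw [h1]
    exact (IsIntegral.sum _ fun i _ => (isIntegral_algebraMap).mul
      (IsIntegral.pow ⟨P, hP.monic, hrootS τ hτ⟩ i)).neg
  · intro a
    rw [hσ τ (hrootS τ hτ), RingHom.comp_apply, hι, phi_C, ← Polynomial.coe_C, evAt_coe,
      Polynomial.eval₂_C]
  · intro l
    rw [hσ τ (hrootS τ hτ), RingHom.comp_apply, hι, phi_X, evAt_coe, Polynomial.eval₂_mul,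
      Polynomial.eval₂_C, Polynomial.eval₂_X]

end Vale.Agent.P202
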