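import Vale.Agent.P202.InterfacesM

/-!
M2 (`GoalNu`): the three modules of the proof.

* `GoalNuBase`: a prime `K` of `W[[X]]` with a hypersurface `f` in it, monic in `p`; the roots `τ` of
  `f (τ T)` over `W(κ)`, `T` algebraically independent, give evaluations which bound the order.
* `GoalNuExt`: a complete domain, finite over the image of `W[[X]]`, gets finitely many valuations.
* `GoalNuAsm`: the valuations of the components give the filtration of a reduced ring.
-/

universe u

namespace Vale.Agent.P202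

open IsLocalRing

/-- The series `f` has order `N` for the ideal `(p, X)` and its initial form contains `Y ^ N`. -/
def IsMonicP (p : ℕ) [Fact p.Prime] {k : Type u} [CommRing k] {d : ℕ} (N : ℕ)
    (f : MvPowerSeries (Fin d) (WittVector p k)) : Prop :=
  (∀ γ : Fin d →₀ ℕ, (p : WittVector p k) ^ (N - γ.degree) ∣ MvPowerSeries.coeff γ f) ∧
    ¬ (p : WittVector p k) ^ (N + 1) ∣ MvPowerSeries.constantCoeff f

/-- The roots and the evaluations at them; `IsIntegral` says that a valuation is nonnegative. -/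
def GoalNuBase : Prop :=
  ∀ (p : ℕ) [Fact p.Prime] (k : Type u) [Field k] [CharP k p] [PerfectRing k p] (d : ℕ)
    (K : Ideal (MvPowerSeries (Fin d) (WittVector p k))), K.IsPrime →
    (p : MvPowerSeries (Fin d) (WittVector p k)) ∉ K →
    ∀ (N : ℕ) (f : MvPowerSeries (Fin d) (WittVector p k)), 0 < N → IsMonicP p N f → f ∈ K →
    (∀ g : MvPowerSeries (Fin d) (WittVector p k), IsMonicP p N g → g ∈ K →
      K ∈ (Ideal.span {g}).minimalPrimes) →
    ∀ (κ : Type u) [Field κ] [CharP κ p] [PerfectRing κ p] [Algebra k κ] (T : Fin d → κ),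
      AlgebraicIndependent k T →
    ∀ (Ω : Type u) [Field Ω] [IsAlgClosed Ω] [Algebra (WittVector p κ) Ω],
      Function.Injective (algebraMap (WittVector p κ) Ω) →
      ∃ (S : Finset Ω) (σ : Ω → MvPowerSeries (Fin d) (WittVector p k) →+* Ω), S.Nonempty ∧
        (∀ τ ∈ S, τ ≠ 0 ∧ IsIntegral (WittVector p κ) τ ∧
          (∃ w, 0 < w ∧ IsIntegral (WittVector p κ) (τ ^ w / (p : Ω))) ∧
          RingHom.ker (σ τ) = K ∧
          (∀ a, σ τ (MvPowerSeries.C a) =
            algebraMap (WittVector p κ) Ω (WittVector.map (algebraMap k κ) a)) ∧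
          (∀ l, σ τ (MvPowerSeries.X l) =
            algebraMap (WittVector p κ) Ω (WittVector.teichmuller p (T l)) * τ) ∧
          ∀ g, σ τ g ∈ Algebra.adjoin (WittVector p κ) {τ}) ∧
        ∃ c, ∀ (n : ℕ) (r : MvPowerSeries (Fin d) (WittVector p k)),
          (∀ τ ∈ S, IsIntegral (WittVector p κ) (σ τ r / τ ^ n)) →
          r ∈ K ⊔ (Ideal.span (insert (p : MvPowerSeries (Fin d) (WittVector p k))
            (Set.range MvPowerSeries.X))) ^ (n - c)

/-- Finitely many valuations of `A` which are centred as the blowup of `(x)` and bound the order. -/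
structure NuFam (p : ℕ) [Fact p.Prime] (k : Type u) [CommRing k] (A : Type u) [CommRing A]
    [IsLocalRing A] [Algebra (WittVector p k) A] {d : ℕ} (x : Fin d → A) where
  idx : Type u
  [fintype : Fintype idx]
  [nonempty : Nonempty idx]
  v : idx → AddValuation A ℕ∞
  e : idx → ℕ
  e_pos : ∀ i, 0 < e i
  max_le : ∀ i, ∀ a ∈ maximalIdeal A, (e i : ℕ∞) ≤ v i a
  homog : ∀ (i : idx) (j : ℕ) (P : MvPolynomial (Fin d) (WittVector p k)), P.IsHomogeneous j →
    (∃ γ, ¬ (p : WittVector p k) ∣ MvPolynomial.coeff γ P) →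
    v i (MvPolynomial.aeval x P) = ((j * e i : ℕ) : ℕ∞)
  bound : ∃ c, ∀ (N : ℕ) (r : A), (∀ i, ((N * e i : ℕ) : ℕ∞) ≤ v i r) →
    r ∈ maximalIdeal A ^ (N - c)

/-- The valuations of a domain. -/
def GoalNuDomain : Prop :=
  ∀ (p : ℕ) [Fact p.Prime] (k : Type u) [Field k] [CharP k p] [PerfectRing k p]
    (A : Type u) [CommRing A] [IsLocalRing A] [IsNoetherianRing A]
    [IsAdicComplete (maximalIdeal A) A] [IsDomain A] [Algebra (WittVector p k) A],
    Function.Surjective ((residue A).comp (algebraMap (WittVector p k) A)) →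
    ∀ (d : ℕ), 0 < d → (p : A) ≠ 0 → ndim A = d → (p : A) ∈ maximalIdeal A →
    ∀ (x : Fin d → A), (∀ l, x l ∈ maximalIdeal A) →
      (∃ r₀ : ℕ, ∀ N, r₀ ≤ N →
        maximalIdeal A ^ (N + 1) ≤ Ideal.span (Set.range x) * maximalIdeal A ^ N) →
      Nonempty (NuFam p k A x)

/-- From the image of `W[[X]]` to a finite extension. -/
def GoalNuExt : Prop := GoalNuBase.{u} → GoalNuDomain.{u}

/-- From domains to reduced rings, and the finiteness. -/
def GoalNuAsm : Prop := GoalNuDomain.{u} → GoalNu.{u}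

end Vale.Agent.P202
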