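import Vale.Agent.P202.NuPsi

/-!
M2: if `g ≡ q f` in `W(κ)[[t]]` modulo `(p, t) ^ n`, with `f` monic in `p`, then `g` lies in
`(f) + (p, X) ^ n`.
-/

universe u v

namespace Vale.Agent.P202

open Finset

namespace Nu

variable (p : ℕ) [Fact p.Prime] {k : Type u} [Field k] [CharP k p] [PerfectRing k p]
  {κ : Type v} [Field κ] [CharP κ p] [PerfectRing κ p] [Algebra k κ] {d : ℕ} (T : Fin d → κ)

/-- Reduction modulo `p` of the coefficients. -/
noncomputable def red : PowerSeries (WittVector p κ) →+* PowerSeries κ :=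
  PowerSeries.map WittVector.constantCoeff

/-- The values at `T` of the forms of degree `b`. -/
noncomputable def formVal (b : ℕ) : Submodule k κ :=
  (MvPolynomial.homogeneousSubmodule (Fin d) k b).map (MvPolynomial.aeval T).toLinearMap

omit [CharP k p] [PerfectRing k p] in
lemma formVal_mul {a b : ℕ} {x y : κ} (hx : x ∈ formVal (k := k) T a)
    (hy : y ∈ formVal (k := k) T b) : x * y ∈ formVal (k := k) T (a + b) := by
  obtain ⟨P, hP, rfl⟩ := hx
  obtain ⟨Q, hQ, rfl⟩ := hy
  refine ⟨P * Q, MvPolynomial.IsHomogeneous.mul hP hQ, ?_⟩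
  simp

omit [CharP k p] [PerfectRing k p] in
lemma inv_mem_formVal {x : κ} (hx : x ∈ formVal (k := k) T 0) : x⁻¹ ∈ formVal (k := k) T 0 := by
  obtain ⟨P, hP, rfl⟩ := hx
  refine ⟨MvPolynomial.C (P.coeff 0)⁻¹, MvPolynomial.isHomogeneous_C _ _, ?_⟩
  have : P = MvPolynomial.C (P.coeff 0) :=
    MvPolynomial.totalDegree_eq_zero_iff_eq_C.1 (Nat.le_zero.1 hP.totalDegree_le)
  conv_rhs => rw [this]
  simp

variable {p T}

omit [CharP k p] [PerfectRing k p] in
lemma cancel_C_pow {m : ℕ} {a b : PowerSeries (WittVector p κ)}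
    (h : PowerSeries.C ((p : WittVector p κ) ^ m) * a =
      PowerSeries.C ((p : WittVector p κ) ^ m) * b) : a = b :=
  mul_left_cancel₀ ((map_ne_zero_iff _ PowerSeries.C_injective).2
    (pow_ne_zero _ (WittVector.p_nonzero p κ))) h

omit [CharP k p] [PerfectRing k p] [PerfectRing κ p] in
lemma red_C_pow_mul {m : ℕ} (hm : 0 < m) (a : PowerSeries (WittVector p κ)) :
    red p (PowerSeries.C ((p : WittVector p κ) ^ m) * a) = 0 := by
  rw [map_mul, red, PowerSeries.map_C, map_pow, map_natCast, CharP.cast_eq_zero, zero_pow hm.ne',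
    map_zero, zero_mul]

omit [CharP k p] [PerfectRing k p] in
lemma exists_of_red_eq_zero {a : PowerSeries (WittVector p κ)} (h : red p a = 0) :
    ∃ b, a = PowerSeries.C (p : WittVector p κ) * b := by
  have : PDvd (p : WittVector p κ) 1 a := fun j => by
    rw [pow_one, ← Ideal.mem_span_singleton, ← WittVector.ker_constantCoeff, RingHom.mem_ker]
    have := congrArg (PowerSeries.coeff j) h
    simpa [red] using this
  simpa using pdvd_iff.1 this

/-- The initial form of an element of order `j` has homogeneous coefficients. -/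
lemma coeff_red_mem (hT : AlgebraicIndependent k T) {j : ℕ}
    {g : MvPowerSeries (Fin d) (WittVector p k)} {g₁ : PowerSeries (WittVector p κ)}
    (hg : psi p T g = PowerSeries.C ((p : WittVector p κ) ^ j) * g₁) (b : ℕ) :
    PowerSeries.coeff b (red p g₁) ∈ formVal (k := k) T b := by
  have h1 : (p : WittVector p κ) ^ b * evT p T (hcomp b g) =
      (p : WittVector p κ) ^ j * PowerSeries.coeff b g₁ := by
    have := congrArg (PowerSeries.coeff b) hg
    rwa [psi, RingHom.comp_apply, PowerSeries.coeff_rescale, coeff_phi, PowerSeries.coeff_C_mul]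
      at this
  rw [red, PowerSeries.coeff_map]
  rcases le_or_gt b j with h | h
  · have h2 := (pdvd_psi_iff p hT j g).1 (pdvd_iff.2 ⟨g₁, hg⟩)
    obtain ⟨P, hP⟩ : MvPolynomial.C ((p : WittVector p k) ^ (j - b)) ∣ hcomp b g := by
      rw [MvPolynomial.C_dvd_iff_dvd_coeff]
      intro γ
      rw [coeff_hcomp]
      split_ifs with hγ
      · exact hγ ▸ h2 γ
      · exact dvd_zero _
    have hhom : P.IsHomogeneous b := by
      intro γ hγ
      by_contra hne
      replace hne : γ.degree ≠ b := fun h => hne (by rw [← h, Finsupp.degree_eq_weight_one]; rfl)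
      have := congrArg (MvPolynomial.coeff γ) hP
      rw [coeff_hcomp, if_neg hne, MvPolynomial.coeff_C_mul, eq_comm, mul_eq_zero] at this
      exact hγ (this.resolve_left (pow_ne_zero _ (WittVector.p_nonzero p k)))
    rw [hP, map_mul, evT, MvPolynomial.eval₂Hom_C, map_pow, om_natCast, ← evT, ← mul_assoc,
      ← pow_add, Nat.add_sub_cancel' h] at h1
    rw [← mul_left_cancel₀ (pow_ne_zero _ (WittVector.p_nonzero p κ)) h1, residue_evT]
    exact ⟨_, hhom.map _, rfl⟩
  · have : PowerSeries.coeff b g₁ = (p : WittVector p κ) ^ (b - j) * evT p T (hcomp b g) := by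
      refine mul_left_cancel₀ (pow_ne_zero j (WittVector.p_nonzero p κ)) ?_
      rw [← h1, ← mul_assoc, ← pow_add, Nat.add_sub_cancel' h.le]
    rw [this, map_mul, map_pow, map_natCast, CharP.cast_eq_zero, zero_pow (by omega), zero_mul]
    exact zero_mem _

/-- Forms of degree at most `l` occur as initial forms of order `l`. -/
lemma exists_red_eq (hT : AlgebraicIndependent k T) (l : ℕ) (Q : PowerSeries κ)
    (hQ : ∀ b, PowerSeries.coeff b Q ∈ formVal (k := k) T b)
    (hQ0 : ∀ b, l < b → PowerSeries.coeff b Q = 0) :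
    ∃ (G : MvPowerSeries (Fin d) (WittVector p k)) (G₁ : PowerSeries (WittVector p κ)),
      psi p T G = PowerSeries.C ((p : WittVector p κ) ^ l) * G₁ ∧ red p G₁ = Q := by
  classical
  choose H hH hHv using hQ
  let G : MvPowerSeries (Fin d) (WittVector p k) := fun γ =>
    if γ.degree ≤ l then (p : WittVector p k) ^ (l - γ.degree) *
      WittVector.teichmuller p ((H γ.degree).coeff γ) else 0
  have hcoeff : ∀ γ, MvPowerSeries.coeff γ G = if γ.degree ≤ l then
      (p : WittVector p k) ^ (l - γ.degree) *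
        WittVector.teichmuller p ((H γ.degree).coeff γ) else 0 := fun γ => rfl
  have hG : PDvd (p : WittVector p κ) l (psi p T G) := by
    rw [pdvd_psi_iff p hT]
    intro γ
    rw [hcoeff]
    split_ifs
    · exact dvd_mul_right _ _
    · exact dvd_zero _
  obtain ⟨G₁, hG₁⟩ := pdvd_iff.1 hG
  refine ⟨G, G₁, hG₁, ?_⟩
  ext b
  have h1 : (p : WittVector p κ) ^ b * evT p T (hcomp b G) =
      (p : WittVector p κ) ^ l * PowerSeries.coeff b G₁ := by
    have := congrArg (PowerSeries.coeff b) hG₁
    rwa [psi, RingHom.comp_apply, PowerSeries.coeff_rescale, coeff_phi, PowerSeries.coeff_C_mul]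
      at this
  rw [red, PowerSeries.coeff_map]
  rcases le_or_gt b l with h | h
  · set P : MvPolynomial (Fin d) (WittVector p k) :=
      ∑ γ ∈ degFin d b, MvPolynomial.monomial γ (WittVector.teichmuller p ((H b).coeff γ)) with hPdef
    have hP : hcomp b G = MvPolynomial.C ((p : WittVector p k) ^ (l - b)) * P := by
      rw [hcomp, hPdef, Finset.mul_sum]
      refine Finset.sum_congr rfl fun γ hγ => ?_
      rw [mem_degFin] at hγ
      rw [hcoeff, hγ, if_pos h, MvPolynomial.C_mul_monomial]
    have hPmap : P.map WittVector.constantCoeff = H b := by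
      ext γ
      simp only [hPdef, map_sum, MvPolynomial.map_monomial, MvPolynomial.coeff_sum,
        MvPolynomial.coeff_monomial, WittVector.constantCoeff_apply,
        WittVector.teichmuller_coeff_zero, Finset.sum_ite_eq', mem_degFin]
      split_ifs with hγ
      · rfl
      · exact ((hH b).coeff_eq_zero hγ).symm
    rw [hP, map_mul, evT, MvPolynomial.eval₂Hom_C, map_pow, om_natCast, ← evT, ← mul_assoc,
      ← pow_add, Nat.add_sub_cancel' h] at h1
    rw [← mul_left_cancel₀ (pow_ne_zero _ (WittVector.p_nonzero p κ)) h1, residue_evT, hPmap]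
    exact hHv b
  · have : hcomp b G = 0 := by
      refine Finset.sum_eq_zero fun γ hγ => ?_
      rw [mem_degFin] at hγ
      rw [hcoeff, if_neg (by omega), map_zero]
    rw [this, map_zero, mul_zero, eq_comm, mul_eq_zero] at h1
    rw [h1.resolve_left (pow_ne_zero _ (WittVector.p_nonzero p κ)), map_zero, hQ0 b h]

omit [CharP k p] [PerfectRing k p] in
lemma coeff_red_rescale {l : ℕ} {q q₁ : PowerSeries (WittVector p κ)}
    (hq : PowerSeries.rescale (p : WittVector p κ) q =
      PowerSeries.C ((p : WittVector p κ) ^ l) * q₁) {b : ℕ} (hb : l < b) :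
    PowerSeries.coeff b (red p q₁) = 0 := by
  have h1 := congrArg (PowerSeries.coeff b) hq
  rw [PowerSeries.coeff_rescale, PowerSeries.coeff_C_mul,
    ← Nat.add_sub_cancel' hb.le, pow_add, mul_assoc, Nat.add_sub_cancel' hb.le] at h1
  rw [red, PowerSeries.coeff_map,
    ← mul_left_cancel₀ (pow_ne_zero _ (WittVector.p_nonzero p κ)) h1, map_mul, map_pow, map_natCast,
    CharP.cast_eq_zero, zero_pow (by omega), zero_mul]

/-- A series monic in `p` has an initial form with nonzero constant term. -/
lemma exists_init (hT : AlgebraicIndependent k T) {N : ℕ}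
    {f : MvPowerSeries (Fin d) (WittVector p k)} (hf : IsMonicP p N f) :
    ∃ f₁, psi p T f = PowerSeries.C ((p : WittVector p κ) ^ N) * f₁ ∧
      PowerSeries.coeff 0 (red p f₁) ≠ 0 := by
  obtain ⟨f₁, hf₁⟩ := pdvd_iff.1 ((pdvd_psi_iff p hT N f).2 hf.1)
  refine ⟨f₁, hf₁, fun h0 => hf.2 ?_⟩
  rw [red, PowerSeries.coeff_map, ← RingHom.mem_ker, WittVector.ker_constantCoeff,
    Ideal.mem_span_singleton] at h0
  have h1 := congrArg (PowerSeries.coeff 0) hf₁
  rw [psi, RingHom.comp_apply, PowerSeries.coeff_rescale, coeff_phi, PowerSeries.coeff_C_mul,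
    pow_zero, one_mul] at h1
  have h2 : (p : WittVector p κ) ^ (N + 1) ∣ evT p T (hcomp 0 f) := by
    rw [h1, pow_succ]
    exact mul_dvd_mul_left _ h0
  have h3 := (dvd_evT_iff p hT _ _).1 h2 0
  rwa [coeff_hcomp, if_pos (map_zero _), MvPowerSeries.coeff_zero_eq_constantCoeff] at h3

/-- A multiplier of a series monic in `p` gains an order. -/
lemma pdvd_of_mul {N : ℕ} {f₁ q : PowerSeries (WittVector p κ)}
    (h0 : PowerSeries.coeff 0 (red p f₁) ≠ 0) {m : ℕ} :
    ∀ (_ : PDvd (p : WittVector p κ) m (PowerSeries.C ((p : WittVector p κ) ^ N) * f₁ * q)),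
      PDvd (p : WittVector p κ) (m - N) q := by
  induction m with
  | zero => exact fun _ j => by simp
  | succ m ih =>
    intro h
    rcases le_or_gt (m + 1) N with hmN | hmN
    · intro j; simp [Nat.sub_eq_zero_of_le hmN]
    obtain ⟨c, rfl⟩ : ∃ c, m = N + c := ⟨m - N, by omega⟩
    obtain ⟨q₁, rfl⟩ := pdvd_iff.1 (ih fun j => (pow_dvd_pow _ (Nat.le_succ _)).trans (h j))
    obtain ⟨r, hr⟩ := pdvd_iff.1 h
    rw [Nat.add_sub_cancel_left] at hr
    have h2 : f₁ * q₁ = PowerSeries.C ((p : WittVector p κ) ^ 1) * r := by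
      refine cancel_C_pow (p := p) (m := N + c) ?_
      rw [← mul_assoc (PowerSeries.C ((p : WittVector p κ) ^ (N + c))) _ r, ← map_mul, ← pow_add,
        ← hr, pow_add, map_mul]
      ring
    have h3 : red p q₁ = 0 := by
      have h4 := congrArg (red p) h2
      rw [map_mul, red_C_pow_mul one_pos, mul_eq_zero] at h4
      exact h4.resolve_left fun h => h0 (by rw [h, map_zero])
    obtain ⟨q₂, rfl⟩ := exists_of_red_eq_zero h3
    refine pdvd_iff.2 ⟨q₂, ?_⟩
    rw [Nat.add_sub_cancel_left, show N + c + 1 - N = c + 1 by omega, pow_succ, map_mul]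
    ring

/-- `(f) + (p, X) ^ n` contains everything congruent to a multiple of `f` along `X = [T] t`. -/
theorem mem_span_sup_pow (hT : AlgebraicIndependent k T) {N : ℕ}
    {f : MvPowerSeries (Fin d) (WittVector p k)} (hf : IsMonicP p N f) (n : ℕ)
    (g : MvPowerSeries (Fin d) (WittVector p k)) (q : PowerSeries (WittVector p κ))
    (hgq : PDvd (p : WittVector p κ) n
      (psi p T g - psi p T f * PowerSeries.rescale (p : WittVector p κ) q)) :
    g ∈ Ideal.span {f} ⊔ maxW p k d ^ n := by
  obtain ⟨f₁, hf₁, hf0⟩ := exists_init hT hf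
  suffices ∀ j ≤ n, ∃ a, PDvd (p : WittVector p κ) j (psi p T (g - f * a)) by
    obtain ⟨a, ha⟩ := this n le_rfl
    rw [show g = f * a + (g - f * a) by ring]
    exact add_mem (Submodule.mem_sup_left (Ideal.mem_span_singleton'.2 ⟨a, mul_comm _ _⟩))
      (Submodule.mem_sup_right (mem_maxW_pow p n ((pdvd_psi_iff p hT n _).1 ha)))
  intro j
  induction j with
  | zero => exact fun _ => ⟨0, fun i => by simp⟩
  | succ j ih =>
    intro hj
    obtain ⟨a, ha⟩ := ih (by omega)
    set g' := g - f * a with hg'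
    set Qh := PowerSeries.rescale (p : WittVector p κ) q - psi p T a with hQh
    have hres : psi p T g' - psi p T f * Qh =
        psi p T g - psi p T f * PowerSeries.rescale (p : WittVector p κ) q := by
      rw [hg', hQh, map_sub, map_mul]; ring
    rw [← hres] at hgq
    obtain ⟨g₁, hg₁⟩ := pdvd_iff.1 ha
    have hprod : PDvd (p : WittVector p κ) j (psi p T f * Qh) := fun i => by
      have h1 := (pow_dvd_pow (p : WittVector p κ) (by omega : j ≤ n)).trans (hgq i)
      have h2 := ha i
      have := dvd_sub h2 h1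
      rwa [← map_sub, sub_sub_cancel] at this
    obtain ⟨e, he⟩ := pdvd_iff.1 hgq
    obtain ⟨m, rfl⟩ : ∃ m, n = j + 1 + m := ⟨n - (j + 1), by omega⟩
    rcases Nat.lt_or_ge j N with hjN | hjN
    · refine ⟨a, fun i => ?_⟩
      have h1 : (p : WittVector p κ) ^ (j + 1) ∣ PowerSeries.coeff i (psi p T f * Qh) := by
        rw [hf₁, mul_assoc, PowerSeries.coeff_C_mul]
        exact dvd_mul_of_dvd_left (pow_dvd_pow _ hjN) _
      have h2 := (pow_dvd_pow (p : WittVector p κ) (by omega : j + 1 ≤ j + 1 + m)).trans (hgq i)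
      have h3 := dvd_add h2 h1
      rwa [← map_add, sub_add_cancel] at h3
    obtain ⟨l, rfl⟩ : ∃ l, j = N + l := ⟨j - N, by omega⟩
    rw [hf₁] at hprod
    obtain ⟨Q₁, hQ₁⟩ := pdvd_iff.1 (Nat.add_sub_cancel_left N l ▸ pdvd_of_mul hf0 hprod)
    have heq : red p g₁ = red p f₁ * red p Q₁ := by
      have h1 : g₁ - f₁ * Q₁ = PowerSeries.C ((p : WittVector p κ) ^ (1 + m)) * e := by
        refine cancel_C_pow (p := p) (m := N + l) ?_
        rw [← mul_assoc _ _ e, ← map_mul, ← pow_add, show N + l + (1 + m) = N + l + 1 + m by omega,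
          ← he, hg₁, hf₁, hQ₁, pow_add, map_mul]
        ring
      have h2 := congrArg (red p) h1
      rwa [red_C_pow_mul (by omega), map_sub, map_mul, sub_eq_zero] at h2
    obtain ⟨q', hq'⟩ : ∃ q', Qh = PowerSeries.rescale (p : WittVector p κ) q' :=
      ⟨q - phi p T a, by rw [hQh, map_sub, psi, RingHom.comp_apply]⟩
    have hQzero : ∀ b, l < b → PowerSeries.coeff b (red p Q₁) = 0 := fun b hb =>
      coeff_red_rescale (hq'.symm.trans hQ₁) hb
    have hF : ∀ b, PowerSeries.coeff b (red p f₁) ∈ formVal (k := k) T b :=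
      coeff_red_mem hT hf₁
    have hQmem : ∀ b, PowerSeries.coeff b (red p Q₁) ∈ formVal (k := k) T b := by
      intro b
      induction b using Nat.strong_induction_on with
      | _ b ihb =>
        classical
        have h1 := congrArg (PowerSeries.coeff b) heq
        rw [PowerSeries.coeff_mul] at h1
        have hmem : ((0, b) : ℕ × ℕ) ∈ Finset.HasAntidiagonal.antidiagonal b := by simp
        rw [← Finset.add_sum_erase _ _ hmem] at h1
        have h2 : PowerSeries.coeff b (red p Q₁) = (PowerSeries.coeff 0 (red p f₁))⁻¹ *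
            (PowerSeries.coeff b (red p g₁) - ∑ x ∈ (Finset.HasAntidiagonal.antidiagonal b).erase (0, b),
              PowerSeries.coeff x.1 (red p f₁) * PowerSeries.coeff x.2 (red p Q₁)) := by
          rw [h1, add_sub_cancel_right, inv_mul_cancel_left₀ hf0]
        rw [h2, ← Nat.zero_add b]
        refine formVal_mul T (inv_mem_formVal T (hF 0)) (sub_mem ?_ (Submodule.sum_mem _ ?_))
        · rw [Nat.zero_add]; exact coeff_red_mem hT hg₁ b
        · rintro ⟨x, y⟩ hxy
          rw [Nat.zero_add, Finset.mem_erase, Finset.HasAntidiagonal.mem_antidiagonal] at hxy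
          have hxy2 : x + y = b := hxy.2
          have hy : y < b := by
            by_contra hy
            exact hxy.1 (Prod.ext (by show x = 0; omega) (by show y = b; omega))
          simpa [hxy2] using formVal_mul T (hF x) (ihb y hy)
    obtain ⟨G, G₁, hG₁, hG₁red⟩ := exists_red_eq hT l _ hQmem hQzero
    refine ⟨a + G, pdvd_iff.2 ?_⟩
    obtain ⟨r, hr⟩ := exists_of_red_eq_zero (p := p) (a := g₁ - f₁ * G₁)
      (by rw [map_sub, map_mul, hG₁red, heq, sub_self])
    refine ⟨r, ?_⟩
    rw [show g - f * (a + G) = g' - f * G by rw [hg']; ring, map_sub, map_mul, hg₁, hf₁, hG₁,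
      pow_succ, map_mul, mul_assoc (PowerSeries.C _) (PowerSeries.C _) r, ← hr, pow_add, map_mul]
    ring

end Nu

end Vale.Agent.P202
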