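import Vale.Agent.P202.NuDefs
import Vale.Agent.P202.EPowerSeries

/-!
M2: the substitution `X_l = [T_l] t` of `W(k)[[X]]` into `W(κ)[[t]]` with `T` algebraically
independent keeps the order for the ideal `(p, X)`; so does the quotient by a series monic in `p`.
-/

universe u v

namespace Vale.Agent.P202

open Finset

namespace Nu

/-- Every coefficient is divisible by `p ^ n`. -/
def PDvd {R : Type*} [CommRing R] (q : R) (n : ℕ) (h : PowerSeries R) : Prop :=
  ∀ j, q ^ n ∣ PowerSeries.coeff j h

lemma pdvd_iff {R : Type*} [CommRing R] {q : R} {n : ℕ} {h : PowerSeries R} :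
    PDvd q n h ↔ ∃ h', h = PowerSeries.C (q ^ n) * h' := by
  constructor
  · intro H
    choose c hc using H
    exact ⟨PowerSeries.mk c, PowerSeries.ext fun j => by
      rw [hc j, PowerSeries.coeff_C_mul, PowerSeries.coeff_mk]⟩
  · rintro ⟨h', rfl⟩ j
    rw [PowerSeries.coeff_C_mul]
    exact dvd_mul_right _ _

variable (p : ℕ) [Fact p.Prime] {k : Type u} [CommRing k] {κ : Type v} [CommRing κ]
  [Algebra k κ] {d : ℕ} (T : Fin d → κ)

/-- The map of coefficients. -/
noncomputable def om : WittVector p k →+* WittVector p κ :=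
  WittVector.map (algebraMap k κ)

/-- The map collapsing all variables. -/
abbrev one' (d : ℕ) : Fin d → Unit := fun _ => ()

/-- `X_l ↦ [T_l] t`. -/
noncomputable def phi : MvPowerSeries (Fin d) (WittVector p k) →+* PowerSeries (WittVector p κ) :=
  (MvPowerSeries.rename (R := WittVector p κ) (one' d)).toRingHom.comp
    ((MvPowerSeries.rescale fun l => WittVector.teichmuller p (T l)).comp
      (MvPowerSeries.map (om p)))

/-- The value at `[T]` of a polynomial. -/
noncomputable def evT : MvPolynomial (Fin d) (WittVector p k) →+* WittVector p κ :=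
  MvPolynomial.eval₂Hom (om p) fun l => WittVector.teichmuller p (T l)

/-- The exponents of degree `j`. -/
def degFin (d j : ℕ) : Finset (Fin d →₀ ℕ) := Finset.finsuppAntidiag Finset.univ j

lemma mem_degFin {j : ℕ} {γ : Fin d →₀ ℕ} : γ ∈ degFin d j ↔ γ.degree = j := by
  simp [degFin, Finset.mem_finsuppAntidiag, Finsupp.degree_eq_sum]

/-- The part of degree `j` of a series. -/
noncomputable def hcomp {R : Type*} [CommRing R] (j : ℕ) (g : MvPowerSeries (Fin d) R) :
    MvPolynomial (Fin d) R :=
  ∑ γ ∈ degFin d j, MvPolynomial.monomial γ (MvPowerSeries.coeff γ g)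

lemma coeff_hcomp {R : Type*} [CommRing R] (j : ℕ) (g : MvPowerSeries (Fin d) R)
    (γ : Fin d →₀ ℕ) : MvPolynomial.coeff γ (hcomp j g) =
      if γ.degree = j then MvPowerSeries.coeff γ g else 0 := by
  classical
  simp [hcomp, MvPolynomial.coeff_sum, MvPolynomial.coeff_monomial, mem_degFin]

lemma mapDomain_one' (γ : Fin d →₀ ℕ) :
    Finsupp.mapDomain (one' d) γ = Finsupp.single () γ.degree := by
  classical
  rw [Finsupp.mapDomain, Finsupp.sum_fintype _ _ (fun _ => Finsupp.single_zero _),
    ← Finsupp.single_finsetSum, Finsupp.degree_eq_sum]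

lemma coeff_phi (g : MvPowerSeries (Fin d) (WittVector p k)) (j : ℕ) :
    PowerSeries.coeff j (phi p T g) = evT p T (hcomp j g) := by
  classical
  rw [hcomp, map_sum]
  show MvPowerSeries.coeff (Finsupp.single () j) (MvPowerSeries.rename (one' d) _) = _
  rw [MvPowerSeries.coeff_rename]
  refine Finset.sum_congr ?_ fun γ _ => ?_
  · ext γ
    simp [mapDomain_one', mem_degFin]
  · simp only [MvPowerSeries.coeff_rescale, RingHom.comp_apply, MvPowerSeries.coeff_map, evT,
      MvPolynomial.coe_eval₂Hom, MvPolynomial.eval₂_monomial]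
    rw [mul_comm]

variable [CharP κ p]

omit [CharP κ p] in
lemma om_natCast : om p (k := k) (κ := κ) (p : WittVector p k) = (p : WittVector p κ) :=
  map_natCast _ _

variable [CharP k p]

omit [CharP k p] in
lemma residue_evT (P : MvPolynomial (Fin d) (WittVector p k)) :
    WittVector.constantCoeff (evT p T P) =
      MvPolynomial.aeval T (P.map WittVector.constantCoeff) := by
  rw [evT, MvPolynomial.coe_eval₂Hom, MvPolynomial.eval₂_comp_left, MvPolynomial.aeval_def,
    MvPolynomial.eval₂_map]
  congr 1

variable {T}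

/-- `p ^ a` divides the value at `[T]` exactly when it divides all coefficients. -/
lemma dvd_evT_iff [IsDomain κ] [PerfectRing κ p] [IsDomain k] [PerfectRing k p]
    (hT : AlgebraicIndependent k T) (a : ℕ) (P : MvPolynomial (Fin d) (WittVector p k)) :
    (p : WittVector p κ) ^ a ∣ evT p T P ↔ ∀ γ, (p : WittVector p k) ^ a ∣ P.coeff γ := by
  induction a generalizing P with
  | zero => simp
  | succ a ih =>
    constructor
    · intro h
      have h1 : MvPolynomial.aeval T (P.map WittVector.constantCoeff) = 0 := by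
        rw [← residue_evT]
        have : (p : WittVector p κ) ∣ evT p T P :=
          dvd_trans (dvd_pow_self _ (Nat.succ_ne_zero a)) h
        rw [← Ideal.mem_span_singleton, ← WittVector.ker_constantCoeff, RingHom.mem_ker] at this
        exact this
      have h2 : P.map WittVector.constantCoeff = 0 := hT (by simpa using h1)
      have h3 : ∀ γ, (p : WittVector p k) ∣ P.coeff γ := fun γ => by
        rw [← Ideal.mem_span_singleton, ← WittVector.ker_constantCoeff, RingHom.mem_ker,
          ← MvPolynomial.coeff_map, h2, MvPolynomial.coeff_zero]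
      obtain ⟨P', rfl⟩ : ∃ P', P = MvPolynomial.C (p : WittVector p k) * P' := by
        have := MvPolynomial.C_dvd_iff_dvd_coeff (p : WittVector p k) P
        exact this.2 h3
      rw [map_mul, evT, MvPolynomial.eval₂Hom_C, om_natCast, ← evT, pow_succ',
        mul_dvd_mul_iff_left (WittVector.p_nonzero p κ), ih] at h
      intro γ
      rw [MvPolynomial.coeff_C_mul, pow_succ']
      exact mul_dvd_mul_left _ (h γ)
    · intro h
      obtain ⟨P', rfl⟩ := (MvPolynomial.C_dvd_iff_dvd_coeff _ P).2 h
      rw [map_mul, evT, MvPolynomial.eval₂Hom_C, map_pow, om_natCast]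
      exact dvd_mul_right _ _

variable (T)

/-- `phi` followed by `t = p s`. -/
noncomputable def psi : MvPowerSeries (Fin d) (WittVector p k) →+* PowerSeries (WittVector p κ) :=
  (PowerSeries.rescale (p : WittVector p κ)).comp (phi p T)

variable {T}

lemma pdvd_psi_iff [IsDomain κ] [PerfectRing κ p] [IsDomain k] [PerfectRing k p]
    (hT : AlgebraicIndependent k T) (n : ℕ) (g : MvPowerSeries (Fin d) (WittVector p k)) :
    PDvd (p : WittVector p κ) n (psi p T g) ↔
      ∀ γ, (p : WittVector p k) ^ (n - γ.degree) ∣ MvPowerSeries.coeff γ g := by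
  have key : ∀ j, (p : WittVector p κ) ^ n ∣ PowerSeries.coeff j (psi p T g) ↔
      ∀ γ : Fin d →₀ ℕ, γ.degree = j →
        (p : WittVector p k) ^ (n - j) ∣ MvPowerSeries.coeff γ g := by
    intro j
    rw [psi, RingHom.comp_apply, PowerSeries.coeff_rescale, coeff_phi]
    have h1 : (p : WittVector p κ) ^ n ∣ (p : WittVector p κ) ^ j * evT p T (hcomp j g) ↔
        (p : WittVector p κ) ^ (n - j) ∣ evT p T (hcomp j g) := by
      rcases le_total j n with h | h
      · conv_lhs => rw [← Nat.add_sub_cancel' h, pow_add]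
        exact mul_dvd_mul_iff_left (pow_ne_zero _ (WittVector.p_nonzero p κ))
      · simp only [Nat.sub_eq_zero_of_le h, pow_zero, one_dvd, iff_true]
        exact dvd_mul_of_dvd_left (pow_dvd_pow _ h) _
    rw [h1, dvd_evT_iff p hT]
    refine ⟨fun h γ hγ => ?_, fun h γ => ?_⟩
    · simpa [coeff_hcomp, hγ] using h γ
    · rw [coeff_hcomp]
      split_ifs with hγ
      · exact h γ hγ
      · exact dvd_zero _
  exact ⟨fun h γ => (key _).1 (h _) γ rfl, fun h j => (key j).2 fun γ hγ => hγ ▸ h γ⟩

/-- The ideal `(p, X)`. -/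
noncomputable def maxW (p : ℕ) [Fact p.Prime] (k : Type u) [CommRing k] (d : ℕ) :
    Ideal (MvPowerSeries (Fin d) (WittVector p k)) :=
  Ideal.span (insert (p : MvPowerSeries (Fin d) (WittVector p k)) (Set.range MvPowerSeries.X))

omit [CharP k p] in
/-- The coefficient criterion for the powers of `(p, X)`. -/
lemma mem_maxW_pow (n : ℕ) {g : MvPowerSeries (Fin d) (WittVector p k)}
    (h : ∀ γ, (p : WittVector p k) ^ (n - γ.degree) ∣ MvPowerSeries.coeff γ g) :
    g ∈ maxW p k d ^ n := by
  classical
  set M := maxW p k d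
  have hX : ∀ γ : Fin d →₀ ℕ,
      (MvPowerSeries.monomial γ (1 : WittVector p k)) ∈ M ^ γ.degree := by
    intro γ
    induction γ using Finsupp.induction with
    | zero => simp [MvPowerSeries.monomial_zero_one]
    | single_add a b f _ _ ih =>
      have hb : (MvPowerSeries.X a : MvPowerSeries (Fin d) (WittVector p k)) ^ b ∈ M ^ b :=
        Ideal.pow_mem_pow (show MvPowerSeries.X a ∈ M from Ideal.subset_span (Set.mem_insert_of_mem _ (Set.mem_range_self a))) b
      rw [MvPowerSeries.X_pow_eq] at hb
      rw [← mul_one (1 : WittVector p k), ← MvPowerSeries.monomial_mul_monomial, map_add,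
        Finsupp.degree_single, pow_add]
      exact Ideal.mul_mem_mul hb ih
  choose c hc using h
  set low := ∑ j ∈ range n, ∑ γ ∈ degFin d j,
    MvPowerSeries.monomial γ (MvPowerSeries.coeff γ g) with hlow
  have h1 : low ∈ M ^ n := by
    refine Submodule.sum_mem _ fun j hj => Submodule.sum_mem _ fun γ hγ => ?_
    rw [mem_degFin] at hγ
    rw [hc γ, show MvPowerSeries.monomial γ ((p : WittVector p k) ^ (n - γ.degree) * c γ) =
      (p : MvPowerSeries (Fin d) (WittVector p k)) ^ (n - γ.degree) *
        MvPowerSeries.monomial γ 1 * MvPowerSeries.C (c γ) by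
      rw [← map_natCast (MvPowerSeries.C (σ := Fin d) (R := WittVector p k)), ← map_pow,
        ← MvPowerSeries.monomial_zero_eq_C_apply, ← MvPowerSeries.monomial_zero_eq_C_apply,
        MvPowerSeries.monomial_mul_monomial, MvPowerSeries.monomial_mul_monomial]
      simp]
    refine Ideal.mul_mem_right _ _ ?_
    have hp : (p : MvPowerSeries (Fin d) (WittVector p k)) ∈ M :=
      Ideal.subset_span (Set.mem_insert _ _)
    have := Ideal.mul_mem_mul (Ideal.pow_mem_pow hp (n - γ.degree)) (hX γ)
    rwa [← pow_add, Nat.sub_add_cancel (by rw [hγ]; exact (Finset.mem_range.1 hj).le)] at this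
  have h2 : g - low ∈ M ^ n := by
    refine Ideal.pow_right_mono (Ideal.span_mono (Set.subset_insert _ _)) n ?_
    rw [mem_span_X_pow_iff]
    intro e he
    simp only [hlow, map_sub, map_sum, MvPowerSeries.coeff_monomial]
    rw [Finset.sum_eq_single e.degree]
    · simp [mem_degFin]
    · intro j _ hj
      exact Finset.sum_eq_zero fun γ hγ => if_neg fun h => hj (by rw [h, mem_degFin.1 hγ])
    · intro hj
      exact absurd (Finset.mem_range.2 he) hj
  simpa using add_mem h2 h1

end Nu

end Vale.Agent.P202
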