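import Vale.Agent.P202.PhiHMod

/-!
Module B, layer 2: the differential squares to zero and respects level, degree and filtration, for
an arbitrary family with commuting operators.
-/

universe u

namespace Vale.Agent.P202

open Finset

variable {R : Type*} [CommRing R] {M : Type*} [AddCommGroup M] [Module R M] {d : ℕ}

section signs

lemma ksign_mul_ksign {l m : Fin d} {J : Finset (Fin d)} (hne : l ≠ m) (hl : l ∉ J) (hm : m ∉ J) :
    ksign l J * ksign m (insert l J) = -(ksign m J * ksign l (insert m J)) := by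
  have h : ∀ {a b : Fin d}, a ∉ J →
      ksign b (insert a J) = (if a < b then -1 else 1) * ksign b J := by
    intro a b ha
    rw [ksign, ksign, Finset.filter_insert]
    by_cases hab : a < b
    · rw [if_pos hab, if_pos hab, Finset.card_insert_of_notMem (by simp [ha]), pow_succ, mul_comm]
    · rw [if_neg hab, if_neg hab, one_mul]
  rw [h hl, h hm]
  rcases lt_or_gt_of_ne hne with hlt | hlt
  · rw [if_pos hlt, if_neg (not_lt.2 hlt.le)]; ring
  · rw [if_neg (not_lt.2 hlt.le), if_pos hlt]; ring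

lemma cechSign_update {C : Fin (d - 1) → Fin 3} {l m : Fin (d - 1)} (hne : l ≠ m)
    (hl : C l ≠ 2) :
    cechSign (Function.update C l 2) m = (if l < m then -1 else 1) * cechSign C m := by
  rw [cechSign, cechSign, Function.update_of_ne (Ne.symm hne)]
  have hset : (Finset.univ.filter fun j => j < m ∧ Function.update C l 2 j = 2) =
      if l < m then insert l (Finset.univ.filter fun j => j < m ∧ C j = 2)
      else Finset.univ.filter fun j => j < m ∧ C j = 2 := by
    ext j
    by_cases hlm : l < m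
    · rw [if_pos hlm]
      by_cases hj : j = l
      · subst hj; simp [hlm]
      · simp [Function.update_of_ne hj, hj]
    · rw [if_neg hlm]
      by_cases hj : j = l
      · subst hj; simp [hlm]
      · simp [Function.update_of_ne hj]
  rw [hset]
  by_cases hlm : l < m
  · rw [if_pos hlm, if_pos hlm, Finset.card_insert_of_notMem (by simp [hl]), pow_succ]; ring
  · rw [if_neg hlm, if_neg hlm, one_mul]

lemma cechSign_mul_cechSign {C : Fin (d - 1) → Fin 3} {l m : Fin (d - 1)} (hne : l ≠ m)
    (hl : C l ≠ 2) (hm : C m ≠ 2) :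
    cechSign C l * cechSign (Function.update C l 2) m =
      -(cechSign C m * cechSign (Function.update C m 2) l) := by
  rw [cechSign_update hne hl, cechSign_update (Ne.symm hne) hm]
  rcases lt_or_gt_of_ne hne with hlt | hlt
  · rw [if_pos hlt, if_neg (not_lt.2 hlt.le)]; ring
  · rw [if_neg (not_lt.2 hlt.le), if_pos hlt]; ring

lemma nBoth_update (J : Finset (Fin d)) {C : Fin (d - 1) → Fin 3} {l : Fin (d - 1)} (hl : C l ≠ 2)
    (σ : ℤ) (e : Fin (d - 1) → ℤ) :
    PIdx.nBoth (((J, Function.update C l 2), σ, e) : PIdx d) =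
      PIdx.nBoth (((J, C), σ, e) : PIdx d) + 1 := by
  simp only [PIdx.nBoth]
  have hset : (Finset.univ.filter fun j => Function.update C l 2 j = 2) =
      insert l (Finset.univ.filter fun j => C j = 2) := by
    ext j
    by_cases hj : j = l
    · subst hj; simp
    · simp [Function.update_of_ne hj, hj]
  rw [hset, Finset.card_insert_of_notMem (by simp [hl])]

end signs

/-- The operator `X l - e_l(u, v)` on monomials, with no change of Koszul set or chart. -/
noncomputable def phiT (X : Fin d → M →ₗ[R] M) (l : Fin d) :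
    (PIdx d →₀ M) →ₗ[R] (PIdx d →₀ M) :=
  Finsupp.lsum R fun i =>
    (Finsupp.lsingle (i.1, i.2.1 + 1, i.2.2)).comp (X l) -
      ∑ ε ∈ Finset.univ.powersetCard (l : ℕ),
        Finsupp.lsingle (i.1, i.2.1, fun j => i.2.2 j + if j ∈ ε then 1 else 0)

lemma phiT_single (X : Fin d → M →ₗ[R] M) (l : Fin d) (jc : Finset (Fin d) × (Fin (d - 1) → Fin 3))
    (σ : ℤ) (e : Fin (d - 1) → ℤ) (m : M) :
    phiT X l (Finsupp.single ((jc, σ, e) : PIdx d) m) =
      Finsupp.single ((jc, σ + 1, e) : PIdx d) (X l m) -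
        ∑ ε ∈ Finset.univ.powersetCard (l : ℕ),
          Finsupp.single ((jc, σ, fun j => e j + if j ∈ ε then 1 else 0) : PIdx d) m := by
  simp [phiT, LinearMap.sum_apply]

/-- The Cech part of the differential. -/
noncomputable def chOp (R : Type*) [CommRing R] (M : Type*) [AddCommGroup M] [Module R M] (d : ℕ) :
    (PIdx d →₀ M) →ₗ[R] (PIdx d →₀ M) :=
  Finsupp.lsum R fun i =>
    ∑ l ∈ Finset.univ.filter (fun l => i.1.2 l ≠ 2),
      cechSign i.1.2 l • Finsupp.lsingle ((i.1.1, Function.update i.1.2 l 2), i.2)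

lemma chOp_single (i : PIdx d) (m : M) :
    chOp R M d (Finsupp.single i m) = ∑ l ∈ Finset.univ.filter (fun l => i.1.2 l ≠ 2),
      cechSign i.1.2 l • Finsupp.single ((i.1.1, Function.update i.1.2 l 2), i.2) m := by
  simp [chOp, LinearMap.sum_apply]

/-- Adding `l` to the Koszul set, with the sign of the differential. -/
noncomputable def insOp (R : Type*) [CommRing R] (M : Type*) [AddCommGroup M] [Module R M] {d : ℕ}
    (l : Fin d) : (PIdx d →₀ M) →ₗ[R] (PIdx d →₀ M) :=
  Finsupp.lsum R fun i =>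
    if l ∈ i.1.1 then 0
    else ((-1 : ℤ) ^ i.nBoth * ksign l i.1.1) • Finsupp.lsingle ((insert l i.1.1, i.1.2), i.2)

lemma insOp_single (l : Fin d) (i : PIdx d) (m : M) :
    insOp R M l (Finsupp.single i m) = if l ∈ i.1.1 then 0
      else ((-1 : ℤ) ^ i.nBoth * ksign l i.1.1) •
        Finsupp.single ((insert l i.1.1, i.1.2), i.2) m := by
  rw [insOp, Finsupp.lsum_single]
  split <;> simp

lemma phiD_eq (X : Fin d → M →ₗ[R] M) :
    phiD X = chOp R M d + ∑ l, phiT X l ∘ₗ insOp R M l := by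
  refine Finsupp.lhom_ext fun i m => ?_
  obtain ⟨⟨J, C⟩, σ, e⟩ := i
  rw [phiD, Finsupp.lsum_single, LinearMap.add_apply, chOp_single, LinearMap.sum_apply, phiDOne,
    LinearMap.add_apply, LinearMap.sum_apply, LinearMap.smul_apply, LinearMap.sum_apply,
    Finset.smul_sum]
  congr 1
  rw [← Finset.sum_subset (Finset.subset_univ Jᶜ) (by
    intro l _ hl
    rw [LinearMap.comp_apply, insOp_single, if_pos (by simpa using hl), map_zero])]
  refine Finset.sum_congr rfl fun l hl => ?_
  rw [LinearMap.comp_apply, insOp_single, if_neg (by simpa using hl), map_zsmul, phiT_single,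
    mul_smul]
  simp [LinearMap.sum_apply]

lemma phiD_single (X : Fin d → M →ₗ[R] M) (J : Finset (Fin d)) (C : Fin (d - 1) → Fin 3)
    (σ : ℤ) (e : Fin (d - 1) → ℤ) (m : M) :
    phiD X (Finsupp.single (((J, C), σ, e) : PIdx d) m) =
      (∑ l ∈ Finset.univ.filter (fun l => C l ≠ 2),
        cechSign C l • Finsupp.single (((J, Function.update C l 2), σ, e) : PIdx d) m) +
      ((-1 : ℤ) ^ PIdx.nBoth (((J, C), σ, e) : PIdx d)) • ∑ l ∈ Jᶜ, ksign l J •
        phiT X l (Finsupp.single (((insert l J, C), σ, e) : PIdx d) m) := by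
  rw [phiD, Finsupp.lsum_single]
  simp only [phiDOne, LinearMap.add_apply, LinearMap.sum_apply, LinearMap.smul_apply,
    Finsupp.lsingle_apply, LinearMap.sub_apply, LinearMap.comp_apply, phiT_single]

lemma phiT_comm {X : Fin d → M →ₗ[R] M} (hX : ∀ a b, X a ∘ₗ X b = X b ∘ₗ X a) (a b : Fin d) :
    phiT X a ∘ₗ phiT X b = phiT X b ∘ₗ phiT X a := by
  refine Finsupp.lhom_ext fun i m => ?_
  obtain ⟨jc, σ, e⟩ := i
  have key : ∀ a b : Fin d, phiT X a (phiT X b (Finsupp.single ((jc, σ, e) : PIdx d) m)) =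
      Finsupp.single ((jc, σ + 1 + 1, e) : PIdx d) (X a (X b m))
      - ∑ ε ∈ Finset.univ.powersetCard (a : ℕ),
          Finsupp.single ((jc, σ + 1, fun j => e j + if j ∈ ε then 1 else 0) : PIdx d) (X b m)
      - ∑ ε ∈ Finset.univ.powersetCard (b : ℕ),
          Finsupp.single ((jc, σ + 1, fun j => e j + if j ∈ ε then 1 else 0) : PIdx d) (X a m)
      + ∑ ε' ∈ Finset.univ.powersetCard (b : ℕ), ∑ ε ∈ Finset.univ.powersetCard (a : ℕ),
          Finsupp.single ((jc, σ, fun j => e j + (if j ∈ ε' then 1 else 0) +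
            if j ∈ ε then 1 else 0) : PIdx d) m := by
    intro a b
    rw [phiT_single, map_sub, map_sum, phiT_single,
      Finset.sum_congr rfl fun ε _ => phiT_single X a jc σ _ m, Finset.sum_sub_distrib]
    abel
  have h : X a (X b m) = X b (X a m) := LinearMap.congr_fun (hX a b) m
  have h2 : (∑ ε' ∈ Finset.univ.powersetCard (b : ℕ), ∑ ε ∈ Finset.univ.powersetCard (a : ℕ),
        Finsupp.single ((jc, σ, fun j => e j + (if j ∈ ε' then 1 else 0) +
          if j ∈ ε then 1 else 0) : PIdx d) m) =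
      ∑ ε' ∈ Finset.univ.powersetCard (a : ℕ), ∑ ε ∈ Finset.univ.powersetCard (b : ℕ),
        Finsupp.single ((jc, σ, fun j => e j + (if j ∈ ε' then 1 else 0) +
          if j ∈ ε then 1 else 0) : PIdx d) m := by
    rw [Finset.sum_comm]
    refine Finset.sum_congr rfl fun ε _ => Finset.sum_congr rfl fun ε' _ => ?_
    congr 4
    funext j
    ring
  rw [LinearMap.comp_apply, LinearMap.comp_apply, key a b, key b a, h, h2]
  abel

lemma chOp_phiT (X : Fin d → M →ₗ[R] M) (a : Fin d) :
    chOp R M d ∘ₗ phiT X a = phiT X a ∘ₗ chOp R M d := by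
  refine Finsupp.lhom_ext fun i m => ?_
  obtain ⟨jc, σ, e⟩ := i
  rw [LinearMap.comp_apply, LinearMap.comp_apply, phiT_single, map_sub, map_sum, chOp_single,
    Finset.sum_congr rfl fun ε _ => chOp_single (R := R) _ m, chOp_single, map_sum]
  dsimp only
  symm
  rw [Finset.sum_congr rfl fun x _ => by
    rw [map_zsmul, phiT_single, smul_sub, Finset.smul_sum], Finset.sum_sub_distrib]
  congr 1
  exact Finset.sum_comm

lemma insOp_phiT (X : Fin d → M →ₗ[R] M) (a l : Fin d) :
    insOp R M l ∘ₗ phiT X a = phiT X a ∘ₗ insOp R M l := by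
  refine Finsupp.lhom_ext fun i m => ?_
  obtain ⟨⟨J, C⟩, σ, e⟩ := i
  rw [LinearMap.comp_apply, LinearMap.comp_apply, phiT_single, map_sub, map_sum, insOp_single,
    Finset.sum_congr rfl fun ε _ => insOp_single (R := R) l _ m, insOp_single]
  by_cases h : l ∈ J
  · simp [h]
  · simp only [h, if_false]
    rw [map_zsmul, phiT_single, smul_sub, Finset.smul_sum]
    rfl

lemma chOp_sq : chOp R M d ∘ₗ chOp R M d = 0 := by
  refine Finsupp.lhom_ext fun i m => ?_
  obtain ⟨⟨J, C⟩, p⟩ := i
  rw [LinearMap.comp_apply, LinearMap.zero_apply, chOp_single, map_sum,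
    Finset.sum_congr rfl fun l _ => by rw [map_zsmul, chOp_single, Finset.smul_sum]]
  rw [Finset.sum_sigma']
  refine Finset.sum_involution (fun x _ => ⟨x.2, x.1⟩) ?_ ?_ ?_ (fun x _ => rfl)
  · rintro ⟨l, l'⟩ hx
    simp only [Finset.mem_sigma, Finset.mem_filter, Finset.mem_univ, true_and] at hx
    have hne : l ≠ l' := by
      rintro rfl; exact hx.2 (Function.update_self ..)
    have hl' : C l' ≠ 2 := by
      have := hx.2; rwa [Function.update_of_ne (Ne.symm hne)] at this
    dsimp only
    rw [smul_smul, smul_smul, Function.update_comm hne, cechSign_mul_cechSign hne hx.1 hl',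
      neg_smul, neg_add_cancel]
  · rintro ⟨l, l'⟩ hx _ h
    simp only [Finset.mem_sigma, Finset.mem_filter, Finset.mem_univ, true_and] at hx
    obtain rfl : l' = l := congrArg Sigma.fst h
    exact hx.2 (Function.update_self ..)
  · rintro ⟨l, l'⟩ hx
    simp only [Finset.mem_sigma, Finset.mem_filter, Finset.mem_univ, true_and] at hx ⊢
    have hne : l ≠ l' := by
      rintro rfl; exact hx.2 (Function.update_self ..)
    refine ⟨?_, ?_⟩
    · have := hx.2; rwa [Function.update_of_ne (Ne.symm hne)] at this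
    · rw [Function.update_of_ne hne]; exact hx.1

lemma insOp_sq (l : Fin d) : insOp R M l ∘ₗ insOp R M l = 0 := by
  refine Finsupp.lhom_ext fun i m => ?_
  rw [LinearMap.comp_apply, LinearMap.zero_apply, insOp_single]
  by_cases h : l ∈ i.1.1
  · rw [if_pos h, map_zero]
  · rw [if_neg h, map_zsmul, insOp_single, if_pos (Finset.mem_insert_self _ _), smul_zero]

lemma insOp_anticomm (a b : Fin d) :
    insOp R M a ∘ₗ insOp R M b + insOp R M b ∘ₗ insOp R M a = 0 := by
  rcases eq_or_ne a b with rfl | hne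
  · rw [insOp_sq, add_zero]
  refine Finsupp.lhom_ext fun i m => ?_
  obtain ⟨⟨J, C⟩, p⟩ := i
  have key : ∀ a b : Fin d, a ≠ b → insOp R M a (insOp R M b (Finsupp.single ((J, C), p) m)) =
      if a ∈ J ∨ b ∈ J then 0 else (ksign b J * ksign a (insert b J)) •
        Finsupp.single ((insert a (insert b J), C), p) m := by
    intro a b hne
    rw [insOp_single]
    by_cases hb : b ∈ J
    · simp [hb]
    rw [if_neg hb, map_zsmul, insOp_single]
    by_cases ha : a ∈ J
    · simp [ha]
    rw [if_neg (by simp [hne, ha]), if_neg (by simp [ha, hb]), smul_smul]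
    congr 1
    have : ((-1 : ℤ) ^ PIdx.nBoth (((J, C), p) : PIdx d)) ^ 2 = 1 := by
      rw [← pow_mul, mul_comm, pow_mul, neg_one_sq, one_pow]
    change (-1 : ℤ) ^ PIdx.nBoth (((J, C), p) : PIdx d) * ksign b J *
        ((-1) ^ PIdx.nBoth (((J, C), p) : PIdx d) * ksign a (insert b J)) = _
    linear_combination (ksign b J * ksign a (insert b J)) * this
  rw [LinearMap.add_apply, LinearMap.comp_apply, LinearMap.comp_apply, key a b hne,
    key b a hne.symm, LinearMap.zero_apply]
  by_cases ha : a ∈ J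
  · simp [ha]
  by_cases hb : b ∈ J
  · simp [hb]
  rw [if_neg (by simp [ha, hb]), if_neg (by simp [ha, hb]), Finset.insert_comm a b,
    ksign_mul_ksign hne ha hb, neg_smul, add_neg_cancel]

lemma chOp_insOp (l : Fin d) :
    chOp R M d ∘ₗ insOp R M l + insOp R M l ∘ₗ chOp R M d = 0 := by
  refine Finsupp.lhom_ext fun i m => ?_
  obtain ⟨⟨J, C⟩, p⟩ := i
  rw [LinearMap.add_apply, LinearMap.comp_apply, LinearMap.comp_apply, LinearMap.zero_apply,
    insOp_single, chOp_single, map_sum]
  by_cases h : l ∈ J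
  · rw [if_pos h, map_zero, zero_add]
    exact Finset.sum_eq_zero fun x _ => by rw [map_zsmul, insOp_single, if_pos h, smul_zero]
  rw [if_neg h, map_zsmul, chOp_single, Finset.smul_sum, ← Finset.sum_add_distrib]
  refine Finset.sum_eq_zero fun x hx => ?_
  rw [map_zsmul, insOp_single, if_neg h, nBoth_update J (Finset.mem_filter.1 hx).2 p.1 p.2,
    smul_smul, smul_smul, ← add_smul]
  convert zero_smul ℤ _ using 2
  ring

theorem phiD_phiD {X : Fin d → M →ₗ[R] M} (hX : ∀ a b, X a ∘ₗ X b = X b ∘ₗ X a) :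
    phiD X ∘ₗ phiD X = 0 := by
  refine LinearMap.ext fun f => ?_
  have hcT : ∀ a z, chOp R M d (phiT X a z) = phiT X a (chOp R M d z) :=
    fun a z => LinearMap.congr_fun (chOp_phiT X a) z
  have hiT : ∀ a l z, insOp R M l (phiT X a z) = phiT X a (insOp R M l z) :=
    fun a l z => LinearMap.congr_fun (insOp_phiT X a l) z
  have hTT : ∀ a b z, phiT X a (phiT X b z) = phiT X b (phiT X a z) :=
    fun a b z => LinearMap.congr_fun (phiT_comm hX a b) z
  have hc : chOp R M d (chOp R M d f) = 0 := LinearMap.congr_fun chOp_sq f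
  have hci : ∀ l, chOp R M d (insOp R M l f) + insOp R M l (chOp R M d f) = 0 :=
    fun l => LinearMap.congr_fun (chOp_insOp l) f
  have hii : ∀ a b, insOp R M a (insOp R M b f) + insOp R M b (insOp R M a f) = 0 :=
    fun a b => LinearMap.congr_fun (insOp_anticomm a b) f
  have hi2 : ∀ a, insOp R M a (insOp R M a f) = 0 := fun a => LinearMap.congr_fun (insOp_sq a) f
  simp only [phiD_eq, LinearMap.comp_apply, LinearMap.add_apply, LinearMap.sum_apply, map_add,
    map_sum, LinearMap.zero_apply, hc, hcT, hiT, zero_add, Finset.sum_add_distrib]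
  rw [← add_assoc, ← Finset.sum_add_distrib, Finset.sum_eq_zero (fun l _ => by
    rw [← map_add, add_comm, hci, map_zero]), zero_add, ← Finset.sum_product']
  refine Finset.sum_involution (fun x _ => (x.2, x.1)) ?_ ?_ (fun x _ => by simp) (fun x _ => rfl)
  · rintro ⟨a, b⟩ _
    dsimp only
    rw [hTT b a, ← map_add, ← map_add, hii, map_zero, map_zero]
  · rintro ⟨a, b⟩ _ hne h
    obtain rfl : b = a := congrArg Prod.fst h
    exact hne (by rw [hi2, map_zero, map_zero])

section stable

/-- `X` maps each member of the family `W` to the member `D` steps further. -/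
def FamStable (D : ℕ) (X : Fin d → M →ₗ[R] M) (W : ℤ → Submodule R M) : Prop :=
  ∀ l n, ∀ m ∈ W n, X l m ∈ W (n + D)

/-- To bound the image of a submodule of chains it is enough to look at monomials. -/
lemma finsupp_map_mem {ι A : Type*} [AddCommGroup A] [Module R A] (L : (ι →₀ M) →ₗ[R] A)
    (Q : Submodule R A) {f : ι →₀ M} (h : ∀ i, f i ≠ 0 → L (Finsupp.single i (f i)) ∈ Q) :
    L f ∈ Q := by
  have he : L f = ∑ i ∈ f.support, L (Finsupp.single i (f i)) := by
    rw [← map_sum]
    exact congrArg L (Finsupp.sum_single f).symm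
  rw [he]
  exact Submodule.sum_mem _ fun i hi => h i (Finsupp.mem_support_iff.1 hi)

lemma single_mem_phiDeg {r : ℤ} {i : PIdx d} (m : M) (h : i.deg = r) :
    Finsupp.single i m ∈ phiDeg R M d r := fun j hj => by
  rw [Finsupp.single_apply, if_neg (by rintro rfl; exact hj h)]

lemma single_mem_phiFil {k : ℕ} {i : PIdx d} (m : M) (h : k ≤ i.nBoth) :
    Finsupp.single i m ∈ phiFil R M d k := fun j hj => by
  rw [Finsupp.single_apply, if_neg (by rintro rfl; omega)]

lemma single_mem_phiSub {D : ℕ} {a : Fin (d - 1) → ℤ} {W : ℤ → Submodule R M} {c : ℤ}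
    {i : PIdx d} {m : M} (h : m ∈ W (c + D * i.2.1)) (ha : i.Allowed a) :
    Finsupp.single i m ∈ phiSub D a W c := fun j => by
  by_cases hij : i = j
  · subst hij; exact ⟨by simpa using h, fun hn => absurd ha hn⟩
  · rw [Finsupp.single_apply, if_neg hij]; exact ⟨zero_mem _, fun _ => rfl⟩

lemma nBoth_le (i : PIdx d) : i.nBoth ≤ d - 1 := by
  refine (Finset.card_filter_le _ _).trans ?_
  simp

lemma phiDeg_eq_bot (hd : 0 < d) {r : ℤ} (h : r < -(d : ℤ) ∨ (d : ℤ) ≤ r) :
    phiDeg R M d r = ⊥ := by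
  rw [Submodule.eq_bot_iff]
  intro f hf
  ext i
  refine hf i fun hi => ?_
  have h1 := nBoth_le i
  have h2 : i.1.1.card ≤ d := by simpa using Finset.card_le_univ i.1.1
  simp only [PIdx.deg] at hi
  omega

lemma deg_insert {J : Finset (Fin d)} {C : Fin (d - 1) → Fin 3} {l : Fin d} (hl : l ∉ J)
    (p p' : ℤ × (Fin (d - 1) → ℤ)) :
    PIdx.deg (((insert l J, C), p) : PIdx d) = PIdx.deg (((J, C), p') : PIdx d) + 1 := by
  simp only [PIdx.deg, PIdx.nBoth, Finset.card_insert_of_notMem hl]
  push_cast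
  ring

lemma deg_update {J : Finset (Fin d)} {C : Fin (d - 1) → Fin 3} {l : Fin (d - 1)} (hl : C l ≠ 2)
    (p : ℤ × (Fin (d - 1) → ℤ)) :
    PIdx.deg (((J, Function.update C l 2), p) : PIdx d) = PIdx.deg (((J, C), p) : PIdx d) + 1 := by
  simp only [PIdx.deg, nBoth_update J hl p.1 p.2]
  push_cast
  ring

lemma phiDeg_stable (X : Fin d → M →ₗ[R] M) : IsStable (phiD X) (phiDeg R M d) := by
  rintro r _ ⟨f, hf, rfl⟩
  refine finsupp_map_mem _ _ fun i hi => ?_
  have hir : i.deg = r := not_not.1 fun h => hi (hf i h)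
  obtain ⟨⟨J, C⟩, σ, e⟩ := i
  rw [phiD_single]
  refine Submodule.add_mem _ (Submodule.sum_mem _ fun l hl => zsmul_mem ?_ _)
    (zsmul_mem (Submodule.sum_mem _ fun l hl => zsmul_mem ?_ _) _)
  · exact single_mem_phiDeg _ (by rw [deg_update (Finset.mem_filter.1 hl).2, hir])
  · rw [phiT_single]
    refine Submodule.sub_mem _ (single_mem_phiDeg _ ?_)
      (Submodule.sum_mem _ fun ε _ => single_mem_phiDeg _ ?_)
    all_goals rw [deg_insert (by simpa using hl) _ (σ, e), hir]

lemma phiFil_stable (X : Fin d → M →ₗ[R] M) (k : ℕ) :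
    (phiFil R M d k).map (phiD X) ≤ phiFil R M d k := by
  rintro _ ⟨f, hf, rfl⟩
  refine finsupp_map_mem _ _ fun i hi => ?_
  have hik : k ≤ i.nBoth := not_lt.1 fun h => hi (hf i h)
  obtain ⟨⟨J, C⟩, σ, e⟩ := i
  rw [phiD_single]
  refine Submodule.add_mem _ (Submodule.sum_mem _ fun l hl => zsmul_mem ?_ _)
    (zsmul_mem (Submodule.sum_mem _ fun l hl => zsmul_mem ?_ _) _)
  · exact single_mem_phiFil _ (by rw [nBoth_update J (Finset.mem_filter.1 hl).2]; omega)
  · rw [phiT_single]
    exact Submodule.sub_mem _ (single_mem_phiFil _ hik)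
      (Submodule.sum_mem _ fun ε _ => single_mem_phiFil _ hik)

lemma allowed_update {a : Fin (d - 1) → ℤ} {J : Finset (Fin d)} {C : Fin (d - 1) → Fin 3}
    {p : ℤ × (Fin (d - 1) → ℤ)} (h : PIdx.Allowed a (((J, C), p) : PIdx d)) (l : Fin (d - 1)) :
    PIdx.Allowed a (((J, Function.update C l 2), p) : PIdx d) := by
  intro j
  by_cases hj : j = l
  · subst hj; simp
  · simpa [Function.update_of_ne hj, PIdx.rest] using h j

lemma allowed_insert {a : Fin (d - 1) → ℤ} {J : Finset (Fin d)} {C : Fin (d - 1) → Fin 3}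
    {σ σ' : ℤ} {e e' : Fin (d - 1) → ℤ} (h : PIdx.Allowed a (((J, C), σ, e) : PIdx d))
    {l : Fin d} (hl : l ∉ J) (hu : ∀ j, e j ≤ e' j) (hv : ∀ j, σ' + e' j ≤ σ + e j + 1) :
    PIdx.Allowed a (((insert l J, C), σ', e') : PIdx d) := by
  intro j
  obtain ⟨h1, h2⟩ := h j
  refine ⟨fun hc => ?_, fun hc => ?_⟩
  · have := h1 hc
    have := hv j
    simp only [PIdx.rest, Finset.card_insert_of_notMem hl] at *
    push_cast
    omega
  · have := h2 hc
    have := hu j
    dsimp only at *
    omega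

lemma phiSub_stable {D : ℕ} {X : Fin d → M →ₗ[R] M} {W : ℤ → Submodule R M}
    (hW : FamStable D X W) (a : Fin (d - 1) → ℤ) (c : ℤ) :
    (phiSub D a W c).map (phiD X) ≤ phiSub D a W c := by
  rintro _ ⟨f, hf, rfl⟩
  refine finsupp_map_mem _ _ fun i hi => ?_
  have hA : i.Allowed a := not_not.1 fun h => hi ((hf i).2 h)
  have hm := (hf i).1
  generalize f i = m at hm
  obtain ⟨⟨J, C⟩, σ, e⟩ := i
  rw [phiD_single]
  refine Submodule.add_mem _ (Submodule.sum_mem _ fun l hl => zsmul_mem ?_ _)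
    (zsmul_mem (Submodule.sum_mem _ fun l hl => zsmul_mem ?_ _) _)
  · exact single_mem_phiSub hm (allowed_update hA l)
  · rw [phiT_single]
    have hlJ : l ∉ J := by simpa using hl
    refine Submodule.sub_mem _ (single_mem_phiSub ?_ (allowed_insert hA hlJ (fun j => le_rfl) ?_))
      (Submodule.sum_mem _ fun ε _ => single_mem_phiSub hm (allowed_insert hA hlJ ?_ ?_))
    · have := hW l _ m hm
      convert this using 2
      ring
    · intro j; omega
    · intro j; split <;> omega
    · intro j; split <;> omega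

lemma phiSub_mono {D : ℕ} {a : Fin (d - 1) → ℤ} {W W' : ℤ → Submodule R M} {c c' : ℤ}
    (h : ∀ σ : ℤ, W (c + D * σ) ≤ W' (c' + D * σ)) : phiSub D a W c ≤ phiSub D a W' c' :=
  fun _ hf i => ⟨h _ (hf i).1, (hf i).2⟩

/-- The degree `r` part of level `c`. -/
noncomputable abbrev phiC (D : ℕ) (a : Fin (d - 1) → ℤ) (W : ℤ → Submodule R M) (c : ℤ) (r : ℤ) :
    Submodule R (PIdx d →₀ M) :=
  phiSub D a W c ⊓ phiDeg R M d r

lemma phiC_stable {D : ℕ} {X : Fin d → M →ₗ[R] M} {W : ℤ → Submodule R M}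
    (hW : FamStable D X W) (a : Fin (d - 1) → ℤ) (c : ℤ) :
    IsStable (phiD X) (phiC D a W c) := fun r => by
  refine (Submodule.map_inf_le _).trans (inf_le_inf ?_ ?_)
  · exact phiSub_stable hW a c
  · exact phiDeg_stable X r

lemma phiC_eq_bot {D : ℕ} (hd : 0 < d) {a : Fin (d - 1) → ℤ} {W : ℤ → Submodule R M} {c r : ℤ}
    (h : r < -(d : ℤ) ∨ (d : ℤ) ≤ r) : phiC D a W c r = ⊥ := by
  rw [phiC, phiDeg_eq_bot hd h, inf_bot_eq]

end stable

section rees

variable {R : Type*} [CommRing R]

lemma mulFam_comm (x : Fin d → R) (a b : Fin d) :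
    mulFam x a ∘ₗ mulFam x b = mulFam x b ∘ₗ mulFam x a := by
  ext
  simp [mulFam, mul_comm]

lemma reesFam_antitone [IsLocalRing R] : Antitone (reesFam R) := fun m n h =>
  Ideal.pow_le_pow_right (Int.toNat_le_toNat h)

lemma reesFam_stable [IsLocalRing R] {D : ℕ} {x : Fin d → R}
    (hx : ∀ l, x l ∈ IsLocalRing.maximalIdeal R ^ D) : FamStable D (mulFam x) (reesFam R) := by
  intro l n m hm
  change x l * m ∈ reesFam R (n + D)
  have h1 : x l * m ∈ IsLocalRing.maximalIdeal R ^ (D + n.toNat) := by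
    rw [pow_add]; exact Ideal.mul_mem_mul (hx l) hm
  exact Ideal.pow_le_pow_right (by omega) h1

theorem goalPhiBasic : GoalPhiBasic.{u} := by
  intro R _ _ _ d D x hx a
  exact ⟨phiD_phiD (mulFam_comm x), fun c => phiSub_stable (reesFam_stable hx.mem) a c,
    fun r => phiDeg_stable _ r, fun m => phiFil_stable _ m,
    fun r hr => phiDeg_eq_bot hx.dpos hr⟩

end rees

end Vale.Agent.P202
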