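import Vale.Agent.P202.PhiFam

/-!
Module B, layer 6: Euler characteristics of pairs for an additive invariant, acyclicity of pairs
killed by powers of the operators, and torsion pairs.
-/

universe u

namespace Vale.Agent.P202

open Finset

section addinv

variable {R : Type u} [CommRing R]

/-- The additive invariant attached to `η` on finite modules. -/
noncomputable def AddInv.ofKilling [IsNoetherianRing R] (z : R)
    (η : ∀ (N : Type u) [AddCommGroup N] [Module R N], ℤ) (h : IsAddKilling R z η) :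
    AddInv.{u} R where
  ok := fun N _ _ => Module.Finite R N
  val := η
  ok_of_injective := fun N M _ _ _ _ f hf hM =>
    have := isNoetherian_of_isNoetherianRing_of_finite R M
    Module.Finite.of_injective f hf
  ok_of_surjective := fun N M _ _ _ _ f hf hM => Module.Finite.of_surjective f hf
  add := fun N₁ N₂ N₃ _ _ _ _ _ _ f g hok hf he hg =>
    have := isNoetherian_of_isNoetherianRing_of_finite R N₂
    have : Module.Finite R N₁ := Module.Finite.of_injective f hf
    have : Module.Finite R N₃ := Module.Finite.of_surjective g hg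
    h.1 N₁ N₂ N₃ f g hf he hg

lemma AddInv.val_finsupp (η : AddInv.{u} R) {ι : Type} [Fintype ι]
    (hok : ∀ n : ℕ, η.ok (Fin n → R)) (h1 : η.ok R) :
    η.val (ι →₀ R) = Fintype.card ι * η.val R := by
  have key : ∀ n : ℕ, η.val (Fin n → R) = n * η.val R := by
    intro n
    induction n with
    | zero => rw [η.val_zero _ (hok 0)]; simp
    | succ n ih =>
      let f : R →ₗ[R] (Fin (n + 1) → R) := LinearMap.single R (fun _ => R) 0
      let g : (Fin (n + 1) → R) →ₗ[R] (Fin n → R) := LinearMap.funLeft R R Fin.succ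
      have he : Function.Exact f g := by
        intro v
        constructor
        · intro hv
          refine ⟨v 0, funext fun j => ?_⟩
          refine Fin.cases ?_ (fun j => ?_) j
          · simp [f]
          · have := congrFun hv j
            simp [g, LinearMap.funLeft_apply] at this
            simp [f, this]
        · rintro ⟨r, rfl⟩
          funext j
          simp [f, g, LinearMap.funLeft_apply]
      rw [η.add R _ _ f g (hok (n + 1))
        (fun r s hrs => by simpa [f] using congrFun hrs 0) he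
        (fun w => ⟨Fin.cons 0 w, funext fun j => by simp [g, LinearMap.funLeft_apply]⟩), ih]
      push_cast; ring
  let e : (ι →₀ R) ≃ₗ[R] (Fin (Fintype.card ι) → R) :=
    (Finsupp.domLCongr (Fintype.equivFin ι)).trans (Finsupp.linearEquivFunOnFinite R R _)
  rw [← key, η.val_congr e.symm (hok _)]

end addinv

section euler

variable {A : Type u} [CommRing A] {d D : ℕ} {M : Type u} [AddCommGroup M] [Module A M]

/-- The homology of a pair of families. -/
abbrev HPair (D : ℕ) (a : Fin (d - 1) → ℤ) (X : Fin d → M →ₗ[A] M)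
    (W W' : ℤ → Submodule A M) (c r : ℤ) : Type u :=
  HMod (phiD X) (phiC D a W c) (phiC D a W' c) r

/-- The Euler characteristic of a pair. -/
noncomputable def euPair (η : AddInv.{u} A) (D : ℕ) (a : Fin (d - 1) → ℤ) (X : Fin d → M →ₗ[A] M)
    (W W' : ℤ → Submodule A M) (c : ℤ) : ℤ :=
  ∑ r ∈ Icc (-(d : ℤ)) d, ((Int.negOnePow r : ℤˣ) : ℤ) * η.val (HPair D a X W W' c r)

lemma hPair_subsingleton (hd : 0 < d) (a : Fin (d - 1) → ℤ) (X : Fin d → M →ₗ[A] M)
    (W W' : ℤ → Submodule A M) (c : ℤ) {r : ℤ} (h : r < -(d : ℤ) ∨ (d : ℤ) ≤ r) :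
    Subsingleton (HPair D a X W W' c r) :=
  hmod_subsingleton_of_bot (phiC_eq_bot hd h)

variable {X : Fin d → M →ₗ[A] M} {W W' W'' : ℤ → Submodule A M}

/-- The inclusions of the long exact sequence of a triple. -/
lemma phiC_le_of_le (a : Fin (d - 1) → ℤ) (c : ℤ) (h : ∀ n, W' n ≤ W n) (r : ℤ) :
    phiC D a W' c r ≤ phiC D a W c r :=
  inf_le_inf_right _ (phiSub_mono fun _ => h _)

lemma euPair_add (η : AddInv.{u} A) (hd : 0 < d) (hX : ∀ a b, X a ∘ₗ X b = X b ∘ₗ X a)
    (a : Fin (d - 1) → ℤ) (c : ℤ) (hW' : FamStable D X W') (h₁ : ∀ n, W'' n ≤ W' n)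
    (h₂ : ∀ n, W' n ≤ W n) (hA : ∀ r, η.ok (HPair D a X W' W'' c r))
    (hB : ∀ r, η.ok (HPair D a X W W'' c r)) (hC : ∀ r, η.ok (HPair D a X W W' c r)) :
    euPair η D a X W W'' c = euPair η D a X W' W'' c + euPair η D a X W W' c := by
  have hdd := phiD_phiD hX
  have hP := phiC_stable hW' a c
  have l1 := phiC_le_of_le (D := D) a c h₁
  have l2 := phiC_le_of_le (D := D) a c h₂
  exact η.euler_of_exact (-(d : ℤ)) d (HPair D a X W' W'' c) (HPair D a X W W'' c)
    (HPair D a X W W' c) (fun r => hinc (δ := phiD X) l2 r) (fun r => hproj (δ := phiD X) l1 r)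
    (fun r => hconn hdd hP r) (fun r => exact_hinc_hproj l1 l2 hdd r)
    (fun r => exact_hproj_hconn l1 l2 hdd hP r) (fun r => exact_hconn_hinc l2 hdd hP l1 r)
    hA hB hC (by omega) (hPair_subsingleton hd a X W W' c (Or.inl (by omega)))
    (hPair_subsingleton hd a X W' W'' c (Or.inr (by omega)))

lemma euPair_congr {M₂ : Type u} [AddCommGroup M₂] [Module A M₂] {X₂ : Fin d → M₂ →ₗ[A] M₂}
    {W₂ W₂' : ℤ → Submodule A M₂} (η : AddInv.{u} A) {a : Fin (d - 1) → ℤ} {c c₂ : ℤ}
    (e : ∀ r, Nonempty (HPair D a X W W' c r ≃ₗ[A] HPair D a X₂ W₂ W₂' c₂ r))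
    (h : ∀ r, η.ok (HPair D a X W W' c r)) :
    euPair η D a X W W' c = euPair η D a X₂ W₂ W₂' c₂ :=
  Finset.sum_congr rfl fun r _ => by rw [η.val_congr (e r).some (h r)]

/-- The first member of a triple is finite when the other two are. -/
lemma finite_hPair_sub [IsNoetherianRing A] (hX : ∀ a b, X a ∘ₗ X b = X b ∘ₗ X a)
    (a : Fin (d - 1) → ℤ) (c : ℤ) (hW' : FamStable D X W') (h₁ : ∀ n, W'' n ≤ W' n)
    (h₂ : ∀ n, W' n ≤ W n) (hB : ∀ r, Module.Finite A (HPair D a X W W'' c r))
    (hC : ∀ r, Module.Finite A (HPair D a X W W' c r)) (r : ℤ) :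
    Module.Finite A (HPair D a X W' W'' c r) := by
  obtain ⟨r, rfl⟩ : ∃ r', r = r' + 1 := ⟨r - 1, by ring⟩
  have hdd := phiD_phiD hX
  have hP := phiC_stable hW' a c
  have l1 := phiC_le_of_le (D := D) a c h₁
  have l2 := phiC_le_of_le (D := D) a c h₂
  have hex := exact_hconn_hinc l2 hdd hP l1 r
  have := hB (r + 1)
  have : Module.Finite A (HPair D a X W W' c r) := hC r
  have := isNoetherian_of_isNoetherianRing_of_finite A (HPair D a X W W'' c (r + 1))
  refine Module.Finite.of_exact (f := hconn (δ := phiD X) (O := phiC D a W c) (Q := phiC D a W'' c) hdd hP r)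
    (g := (hinc (δ := phiD X) (Q := phiC D a W'' c) l2 (r + 1)).rangeRestrict) (fun x => ?_)
    (LinearMap.surjective_rangeRestrict _)
  rw [← hex x]
  exact ⟨fun h => congrArg Subtype.val h, fun h => Subtype.ext h⟩

end euler

section acyclic

variable {A : Type*} [CommRing A] {d D : ℕ} {M : Type*} [AddCommGroup M] [Module A M]
  {X : Fin d → M →ₗ[A] M} {W W' : ℤ → Submodule A M}

/-- A pair in which every `N`-th power of an operator lands in the smaller family is acyclic. -/
lemma hmod_subsingleton_of_pow (hd : 0 < d) (hX : ∀ a b, X a ∘ₗ X b = X b ∘ₗ X a)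
    (hW : FamStable D X W) (hW' : FamStable D X W') (hle : ∀ n, W' n ≤ W n) (N : ℕ)
    (hpow : ∀ l n, ∀ v ∈ W n, (X l ^ N) v ∈ W' (n + N * D)) (a : Fin (d - 1) → ℤ) (c r : ℤ) :
    Subsingleton (HMod (phiD X) (phiC D a W c) (phiC D a W' c) r) := by
  refine hmod_subsingleton fun z hz => ?_
  have hP := phiC_stable hW a c
  have hQ := phiC_stable hW' a c
  have hdd : ∀ y, phiD X (phiD X y) = 0 := fun y => by
    rw [← LinearMap.comp_apply, phiD_phiD hX, LinearMap.zero_apply]
  suffices key : ∀ m : ℕ, ∃ w, w ∈ hcyc (phiD X) (phiC D a W c) (phiC D a W' c) r ∧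
      w ∈ phiFil A M d m ∧ z - w ∈ hbd (phiD X) (phiC D a W c) (phiC D a W' c) r by
    obtain ⟨w, -, hwf, hzw⟩ := key d
    have hw0 : w = 0 := Finsupp.ext fun i => hwf i (by have := nBoth_le i; omega)
    simpa [hw0] using hzw
  intro m
  induction m with
  | zero => exact ⟨z, hz, fun i hi => absurd hi (Nat.not_lt_zero _), by simp⟩
  | succ m ih =>
    obtain ⟨w, ⟨hw1, hw2⟩, hwf, hzw⟩ := ih
    set q := ∑ l, (xOp A X l ^ N) (cMul A M (partC hd N) l w) +
      ghostHom A hd N X (phiD X w) with hq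
    have hqQ : q ∈ phiC D a W' c r := by
      refine Submodule.add_mem _ (Submodule.sum_mem _ fun l _ => ⟨?_, ?_⟩) ⟨?_, ?_⟩
      · refine xOp_pow_le A (W := W) l N (c - N * D) c (fun σ v hv => ?_)
          (Submodule.mem_map_of_mem (cMul_le A
            (fun C l => (exists_partition hd C N).choose_spec.1 l) l c
            (Submodule.mem_map_of_mem hw1.1)))
        have := hpow l _ v hv
        convert this using 2
        ring
      · have h := presDeg_xOp_pow A X l N r (Submodule.mem_map_of_mem (f := xOp A X l ^ N)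
          (show cMul A M (partC hd N) l w ∈ phiDeg A M d r by
            simpa using presDeg_cMul A (partC hd N) l r (Submodule.mem_map_of_mem hw1.2)))
        simpa using h
      · exact ghostHom_le A hd N hW' c (Submodule.mem_map_of_mem hw2.1)
      · have := presDeg_ghostHom A hd N X (r + 1) (Submodule.mem_map_of_mem hw2.2)
        simpa using this
    have hh : ghostHom A hd N X w ∈ phiC D a W c (r - 1) :=
      ⟨ghostHom_le A hd N hW c (Submodule.mem_map_of_mem hw1.1), by
        simpa [sub_eq_add_neg] using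
          presDeg_ghostHom A hd N X r (Submodule.mem_map_of_mem hw1.2)⟩
    refine ⟨w - phiD X (ghostHom A hd N X w) - q, ⟨?_, ?_⟩, ?_, ?_⟩
    · exact Submodule.sub_mem _ (Submodule.sub_mem _ hw1
        (hP.map_pred r (Submodule.mem_map_of_mem hh))) (phiC_le_of_le' hle hqQ)
    · change phiD X (w - phiD X (ghostHom A hd N X w) - q) ∈ phiC D a W' c (r + 1)
      rw [map_sub, map_sub, hdd, sub_zero]
      exact Submodule.sub_mem _ hw2 (hQ.le_comap r hqQ)
    · have := ghost_general A hd N hX m w hwf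
      convert this using 1
      rw [hq]; abel
    · have e : z - (w - phiD X (ghostHom A hd N X w) - q) =
          (z - w) + (phiD X (ghostHom A hd N X w) + q) := by abel
      rw [e]
      exact Submodule.add_mem _ hzw
        (Submodule.add_mem_sup (Submodule.mem_map_of_mem hh) hqQ)
where
  phiC_le_of_le' {a : Fin (d - 1) → ℤ} {c r : ℤ} (h : ∀ n, W' n ≤ W n) :
      phiC D a W' c r ≤ phiC D a W c r := inf_le_inf_right _ (phiSub_mono fun _ => h _)

/-- A pair exhausted by acyclic pairs is acyclic. -/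
lemma hmod_subsingleton_of_union (Wk : ℕ → ℤ → Submodule A M) (hmono : ∀ k n, Wk k n ≤ W n)
    (a : Fin (d - 1) → ℤ) (c r : ℤ)
    (hcover : ∀ f ∈ phiC D a W c r, ∃ k, f ∈ phiC D a (Wk k) c r)
    (hk : ∀ k, Subsingleton (HMod (phiD X) (phiC D a (Wk k) c) (phiC D a W' c) r)) :
    Subsingleton (HMod (phiD X) (phiC D a W c) (phiC D a W' c) r) := by
  refine hmod_subsingleton fun z hz => ?_
  obtain ⟨k, hkz⟩ := hcover z hz.1
  have := hk k
  have h0 : hmk (phiD X) (phiC D a (Wk k) c) (phiC D a W' c) r ⟨z, hkz, hz.2⟩ = 0 :=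
    Subsingleton.elim _ _
  have h1 : phiC D a (Wk k) c (r - 1) ≤ phiC D a W c (r - 1) :=
    inf_le_inf_right _ (phiSub_mono fun _ => hmono k _)
  have h2 : hbd (phiD X) (phiC D a (Wk k) c) (phiC D a W' c) r ≤
      hbd (phiD X) (phiC D a W c) (phiC D a W' c) r :=
    sup_le ((Submodule.map_mono h1).trans le_sup_left) le_sup_right
  exact h2 (hmk_eq_zero.1 h0)

end acyclic

section torsion

variable {A : Type u} [CommRing A] {d D : ℕ} {M : Type u} [AddCommGroup M] [Module A M]
  {X : Fin d → M →ₗ[A] M} {W W' : ℤ → Submodule A M}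

lemma exists_pow_smul_mem (z : A) (a : Fin (d - 1) → ℤ) (c r : ℤ)
    (hz : ∀ n, ∀ v ∈ W n, ∃ k : ℕ, z ^ k • v ∈ W' n) {f : PIdx d →₀ M}
    (hf : f ∈ phiC D a W c r) : ∃ k : ℕ, z ^ k • f ∈ phiC D a W' c r := by
  choose k hk using fun i : PIdx d => hz _ (f i) (hf.1 i).1
  refine ⟨f.support.sup k, fun i => ⟨?_, fun hn => ?_⟩, fun i hi => ?_⟩
  · rw [Finsupp.smul_apply]
    by_cases hi : i ∈ f.support
    · obtain ⟨j, hj⟩ := Nat.exists_eq_add_of_le (Finset.le_sup (f := k) hi)
      rw [hj, add_comm (k i), pow_add, mul_smul]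
      exact Submodule.smul_mem _ _ (hk i)
    · rw [Finsupp.notMem_support_iff.1 hi, smul_zero]; exact zero_mem _
  · rw [Finsupp.smul_apply, (hf.1 i).2 hn, smul_zero]
  · rw [Finsupp.smul_apply, hf.2 i hi, smul_zero]

/-- The invariant of a finite homology module of a torsion pair vanishes. -/
lemma val_hPair_torsion [IsNoetherianRing A] (z : A)
    (η : ∀ (N : Type u) [AddCommGroup N] [Module A N], ℤ) (hη : IsAddKilling A z η)
    (a : Fin (d - 1) → ℤ) (c r : ℤ) (hz : ∀ n, ∀ v ∈ W n, ∃ k : ℕ, z ^ k • v ∈ W' n)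
    [Module.Finite A (HPair D a X W W' c r)] : η (HPair D a X W W' c r) = 0 := by
  have hone : ∀ x : HPair D a X W W' c r, ∃ k : ℕ, z ^ k • x = 0 := by
    intro x
    obtain ⟨⟨f, hf⟩, rfl⟩ := hmk_surjective _ _ _ r x
    obtain ⟨k, hk⟩ := exists_pow_smul_mem z a c r hz hf.1
    exact ⟨k, by rw [← map_smul, hmk_eq_zero]; exact Submodule.mem_sup_right hk⟩
  obtain ⟨s, hs⟩ := (Module.Finite.fg_top : (⊤ : Submodule A (HPair D a X W W' c r)).FG)
  choose k hk using hone
  refine hη.2 _ (s.sup k) fun v => ?_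
  have hv : v ∈ Submodule.span A (s : Set (HPair D a X W W' c r)) := by rw [hs]; trivial
  induction hv using Submodule.span_induction with
  | mem x hx =>
    obtain ⟨j, hj⟩ := Nat.exists_eq_add_of_le (Finset.le_sup (f := k) hx)
    rw [hj, Nat.add_comm (k x), pow_add, mul_smul, hk, smul_zero]
  | zero => rw [smul_zero]
  | add x y _ _ hx hy => rw [smul_add, hx, hy, add_zero]
  | smul b x _ hx => rw [smul_comm, hx, smul_zero]

end torsion

end Vale.Agent.P202
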