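import Vale.Agent.P202.PhiGhost

/-!
Module B, layer 4a: free families, and the contraction of the Koszul cube onto the critical cells
(full Koszul set, no `X`-exponent).
-/

universe u

namespace Vale.Agent.P202

open Finset

variable {A : Type*} [CommRing A] {m d : ℕ}

/-- Index of a monomial of a free module over `A[X]` with `m` generators. -/
abbrev FIdx (m d : ℕ) : Type := Fin m × (Fin d →₀ ℕ)

/-- The free module over `A[X]` with `m` generators. -/
abbrev FreeMod (A : Type*) [CommRing A] (m d : ℕ) : Type _ := FIdx m d →₀ A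

/-- Shortcut: makes rewriting with lemmas on additive groups work on nested `Finsupp`s. -/
noncomputable instance (priority := high) freeChainGroup :
    AddCommGroup (PIdx d →₀ FreeMod A m d) := Finsupp.instAddCommGroup

/-- Multiplication by the variable `l`. -/
noncomputable def xFree (A : Type*) [CommRing A] {m d : ℕ} (l : Fin d) :
    FreeMod A m d →ₗ[A] FreeMod A m d :=
  Finsupp.lmapDomain A A fun p => (p.1, p.2 + Finsupp.single l 1)

lemma xFree_single (l : Fin d) (p : FIdx m d) (b : A) :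
    xFree A l (Finsupp.single p b) = Finsupp.single (p.1, p.2 + Finsupp.single l 1) b := by
  simp [xFree]

lemma xFree_comm (a b : Fin d) :
    (xFree A a : FreeMod A m d →ₗ[A] _) ∘ₗ xFree A b = xFree A b ∘ₗ xFree A a :=
  Finsupp.lhom_ext fun p v => by
    simp [xFree_single, add_right_comm]

/-- The degree of the exponent vector. -/
def bdeg (β : Fin d →₀ ℕ) : ℕ := ∑ j, β j

lemma bdeg_add_single (β : Fin d →₀ ℕ) (l : Fin d) :
    bdeg (β + Finsupp.single l 1) = bdeg β + 1 := by
  simp [bdeg, Finset.sum_add_distrib, Finsupp.single_apply]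

lemma bdeg_sub_single {β : Fin d →₀ ℕ} {l : Fin d} (h : β l ≠ 0) :
    bdeg (β - Finsupp.single l 1) + 1 = bdeg β := by
  have : β = (β - Finsupp.single l 1) + Finsupp.single l 1 := by
    ext j
    by_cases hj : l = j
    · subst hj; simp; omega
    · simp [hj]
  conv_rhs => rw [this, bdeg_add_single]

/-- The free family with generators in degrees `g`. -/
noncomputable def freeFam (A : Type*) [CommRing A] {m d : ℕ} (D : ℕ) (g : Fin m → ℤ) (n : ℤ) :
    Submodule A (FreeMod A m d) :=
  Finsupp.supported A A {p | g p.1 + D * bdeg p.2 = n}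

lemma mem_freeFam {D : ℕ} {g : Fin m → ℤ} {n : ℤ} {f : FreeMod A m d} :
    f ∈ freeFam A D g n ↔ ∀ p, f p ≠ 0 → g p.1 + D * bdeg p.2 = n := by
  simp [freeFam, Finsupp.mem_supported, Set.subset_def]

lemma freeFam_stable {D : ℕ} (g : Fin m → ℤ) :
    FamStable D (fun l => xFree A l) (freeFam A (d := d) D g) := by
  intro l n f hf
  refine finsupp_map_mem _ _ fun p hp => ?_
  rw [xFree_single, mem_freeFam]
  intro q hq
  rw [Finsupp.single_apply] at hq
  split at hq
  · rename_i e
    subst e
    rw [bdeg_add_single, ← mem_freeFam.1 hf p hp]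
    push_cast
    ring
  · exact absurd rfl hq

section mono

/-- A monomial chain. -/
noncomputable def mono (i : PIdx d) (p : FIdx m d) : A →ₗ[A] (PIdx d →₀ FreeMod A m d) :=
  (Finsupp.lsingle i).comp (Finsupp.lsingle p)

lemma mono_apply (i : PIdx d) (p : FIdx m d) (v : A) :
    mono i p v = Finsupp.single i (Finsupp.single p v) := rfl

/-- To bound the image of a chain it is enough to look at its monomials. -/
lemma mono_map_mem {B : Type*} [AddCommGroup B] [Module A B]
    (L : (PIdx d →₀ FreeMod A m d) →ₗ[A] B) (Q : Submodule A B) {f : PIdx d →₀ FreeMod A m d}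
    (h : ∀ i p, f i p ≠ 0 → L (mono i p (f i p)) ∈ Q) : L f ∈ Q :=
  finsupp_map_mem L Q fun i _ =>
    finsupp_map_mem (L.comp (Finsupp.lsingle i)) Q fun p hp => h i p hp

/-- Chains supported on monomials with a given property. -/
def supp2 (A : Type*) [CommRing A] {m d : ℕ} (P : PIdx d → FIdx m d → Prop) :
    Submodule A (PIdx d →₀ FreeMod A m d) where
  carrier := {f | ∀ i p, f i p ≠ 0 → P i p}
  add_mem' {f g} hf hg i p h := by
    by_contra hn
    have h1 : f i p = 0 := not_not.1 fun e => hn (hf i p e)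
    have h2 : g i p = 0 := not_not.1 fun e => hn (hg i p e)
    simp [h1, h2] at h
  zero_mem' i p h := by simp at h
  smul_mem' c f hf i p h := hf i p fun e => h (by simp [e])

lemma mem_supp2 {P : PIdx d → FIdx m d → Prop} {f : PIdx d →₀ FreeMod A m d} :
    f ∈ supp2 A P ↔ ∀ i p, f i p ≠ 0 → P i p := Iff.rfl

lemma mono_mem_supp2 {P : PIdx d → FIdx m d → Prop} {i : PIdx d} {p : FIdx m d} (v : A)
    (h : P i p) : mono i p v ∈ supp2 A P := by
  intro j q hne
  rw [mono_apply, Finsupp.single_apply] at hne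
  split at hne
  · rename_i e
    subst e
    rw [Finsupp.single_apply] at hne
    split at hne
    · rename_i e'; subst e'; exact h
    · exact absurd rfl hne
  · exact absurd (Finsupp.zero_apply ..) hne

lemma supp2_mono {P Q : PIdx d → FIdx m d → Prop} (h : ∀ i p, P i p → Q i p) :
    supp2 A P ≤ supp2 A Q := fun _ hf i p hne => h i p (hf i p hne)

lemma supp2_map_le {B : Type*} [AddCommGroup B] [Module A B] {P : PIdx d → FIdx m d → Prop}
    (L : (PIdx d →₀ FreeMod A m d) →ₗ[A] B) {Q : Submodule A B}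
    (h : ∀ i p v, P i p → L (mono i p v) ∈ Q) {f : PIdx d →₀ FreeMod A m d} (hf : f ∈ supp2 A P) :
    L f ∈ Q :=
  mono_map_mem L Q fun i p hne => h i p _ (hf i p hne)

/-- The monomials of level `c` and degree `r`. -/
def FreeCell (D : ℕ) (a : Fin (d - 1) → ℤ) (g : Fin m → ℤ) (c r : ℤ) (i : PIdx d)
    (p : FIdx m d) : Prop :=
  i.deg = r ∧ i.Allowed a ∧ g p.1 + D * bdeg p.2 = c + D * i.2.1

lemma phiC_free_eq (D : ℕ) (a : Fin (d - 1) → ℤ) (g : Fin m → ℤ) (c r : ℤ) :
    phiC D a (freeFam A (d := d) D g) c r = supp2 A (FreeCell D a g c r) := by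
  ext f
  constructor
  · rintro ⟨h1, h2⟩ i p hne
    have hi : f i ≠ 0 := fun e => hne (by simp [e])
    exact ⟨not_not.1 fun h => hi (h2 i h), not_not.1 fun h => hi ((h1 i).2 h),
      mem_freeFam.1 (h1 i).1 p hne⟩
  · intro hf
    refine ⟨fun i => ⟨mem_freeFam.2 fun p hp => (hf i p hp).2.2, fun hn => ?_⟩, fun i hi => ?_⟩
    · ext p; exact not_not.1 fun hp => hn (hf i p hp).2.1
    · ext p; exact not_not.1 fun hp => hi (hf i p hp).1

end mono

section contraction

/-- The differential of free families. -/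
noncomputable abbrev phiDF (A : Type*) [CommRing A] (m d : ℕ) :
    (PIdx d →₀ FreeMod A m d) →ₗ[A] (PIdx d →₀ FreeMod A m d) :=
  phiD fun l => xFree A l

/-- The shift by one step up. -/
noncomputable def upPoly : PLaur d := AddMonoidAlgebra.single ((1, 0) : PExp d) 1

/-- The leading part of the Koszul differential. -/
noncomputable def k0 (A : Type*) [CommRing A] (m d : ℕ) :
    Module.End A (PIdx d →₀ FreeMod A m d) :=
  ∑ j, xOp A (fun l => xFree A l) j * (shOp A (FreeMod A m d) upPoly * insOp A _ j)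

/-- The lower part of the Koszul differential. -/
noncomputable def k1 (A : Type*) [CommRing A] (m d : ℕ) :
    Module.End A (PIdx d →₀ FreeMod A m d) :=
  ∑ j : Fin d, shOp A (FreeMod A m d) (ftPoly j) * (shOp A _ upPoly * insOp A _ j)

lemma phiDF_eq (f : PIdx d →₀ FreeMod A m d) :
    phiDF A m d f = chOp A _ d f + (k0 A m d f - k1 A m d f) := by
  rw [phiDF, phiD_eq_add, LinearMap.add_apply]
  congr 1
  simp only [kOp, k0, k1, phiT_eq, upPoly, LinearMap.sum_apply, Module.End.mul_apply,
    LinearMap.sub_apply, Finset.sum_sub_distrib]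

/-- `l` is the first index outside `J` or with positive exponent. -/
def IsLead (J : Finset (Fin d)) (β : Fin d →₀ ℕ) (l : Fin d) : Prop :=
  (l ∉ J ∨ β l ≠ 0) ∧ ∀ j < l, j ∈ J ∧ β j = 0

instance (J : Finset (Fin d)) (β : Fin d →₀ ℕ) (l : Fin d) : Decidable (IsLead J β l) :=
  inferInstanceAs (Decidable (_ ∧ _))

lemma IsLead.unique {J : Finset (Fin d)} {β : Fin d →₀ ℕ} {l l' : Fin d} (h : IsLead J β l)
    (h' : IsLead J β l') : l = l' := by
  rcases lt_trichotomy l l' with hlt | rfl | hlt
  · obtain ⟨a, b⟩ := h'.2 l hlt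
    exact (h.1.elim (fun e => absurd a e) (fun e => absurd b e))
  · rfl
  · obtain ⟨a, b⟩ := h.2 l' hlt
    exact (h'.1.elim (fun e => absurd a e) (fun e => absurd b e))

/-- The critical monomials. -/
def Crit (i : PIdx d) (p : FIdx m d) : Prop := i.1.1 = univ ∧ p.2 = 0

instance (i : PIdx d) (p : FIdx m d) : Decidable (Crit i p) :=
  inferInstanceAs (Decidable (_ ∧ _))

lemma exists_lead {i : PIdx d} {p : FIdx m d} (h : ¬ Crit i p) : ∃ l, IsLead i.1.1 p.2 l := by
  have hne : (univ.filter fun l => l ∉ i.1.1 ∨ p.2 l ≠ 0).Nonempty := by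
    by_contra he
    rw [Finset.not_nonempty_iff_eq_empty, Finset.filter_eq_empty_iff] at he
    exact h ⟨Finset.eq_univ_iff_forall.2 fun l => not_not.1 fun hl => he (mem_univ l) (Or.inl hl),
      Finsupp.ext fun l => not_not.1 fun hl => he (mem_univ l) (Or.inr hl)⟩
  refine ⟨_, (Finset.mem_filter.1 (Finset.min'_mem _ hne)).2, fun j hj => ?_⟩
  by_contra hn
  refine absurd (Finset.min'_le _ j ?_) (not_le.2 hj)
  simp only [Finset.mem_filter, mem_univ, true_and]
  tauto

/-- The homotopy on a monomial. -/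
noncomputable def hOne (A : Type*) [CommRing A] {m d : ℕ} (i : PIdx d) (p : FIdx m d) :
    A →ₗ[A] (PIdx d →₀ FreeMod A m d) :=
  ∑ l, if IsLead i.1.1 p.2 l ∧ l ∈ i.1.1 then
    ((-1 : ℤ) ^ i.nBoth * ksign l (i.1.1.erase l)) •
      mono ((i.1.1.erase l, i.1.2), i.2.1 - 1, i.2.2) (p.1, p.2 - Finsupp.single l 1)
  else 0

/-- The contracting homotopy. -/
noncomputable def hOp (A : Type*) [CommRing A] (m d : ℕ) :
    (PIdx d →₀ FreeMod A m d) →ₗ[A] (PIdx d →₀ FreeMod A m d) :=
  Finsupp.lsum A fun i => Finsupp.lsum A fun p => hOne A i p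

lemma hOp_mono (i : PIdx d) (p : FIdx m d) (v : A) : hOp A m d (mono i p v) = hOne A i p v := by
  rw [hOp, mono_apply, Finsupp.lsum_single, Finsupp.lsum_single]

lemma hOp_lead {i : PIdx d} {p : FIdx m d} {l : Fin d} (hl : IsLead i.1.1 p.2 l) (v : A) :
    hOp A m d (mono i p v) = if l ∈ i.1.1 then
      ((-1 : ℤ) ^ i.nBoth * ksign l (i.1.1.erase l)) •
        mono ((i.1.1.erase l, i.1.2), i.2.1 - 1, i.2.2) (p.1, p.2 - Finsupp.single l 1) v
    else 0 := by
  rw [hOp_mono, hOne, Finset.sum_eq_single l (fun j _ hj => if_neg fun h => hj (h.1.unique hl))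
    (fun h => absurd (mem_univ l) h)]
  by_cases h : l ∈ i.1.1
  · rw [if_pos ⟨hl, h⟩, if_pos h, LinearMap.smul_apply]
  · rw [if_neg (fun e => h e.2), if_neg h, LinearMap.zero_apply]

lemma hOp_crit {i : PIdx d} {p : FIdx m d} (h : Crit i p) (v : A) :
    hOp A m d (mono i p v) = 0 := by
  rw [hOp_mono, hOne, LinearMap.sum_apply]
  refine Finset.sum_eq_zero fun l _ => ?_
  rw [if_neg, LinearMap.zero_apply]
  rintro ⟨⟨h1, -⟩, hl⟩
  rcases h1 with h1 | h1
  · exact h1 hl
  · exact h1 (by simp [h.2])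

lemma chOp_mono (i : PIdx d) (p : FIdx m d) (v : A) :
    chOp A _ d (mono i p v) = ∑ l ∈ univ.filter (fun l => i.1.2 l ≠ 2),
      cechSign i.1.2 l • mono ((i.1.1, Function.update i.1.2 l 2), i.2) p v :=
  chOp_single i _

lemma k0_mono (i : PIdx d) (p : FIdx m d) (v : A) :
    k0 A m d (mono i p v) = ∑ j ∈ i.1.1ᶜ, ((-1 : ℤ) ^ i.nBoth * ksign j i.1.1) •
      mono ((insert j i.1.1, i.1.2), i.2.1 + 1, i.2.2) (p.1, p.2 + Finsupp.single j 1) v := by
  rw [k0, LinearMap.sum_apply, ← Finset.sum_subset (Finset.subset_univ i.1.1ᶜ) (by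
    intro j _ hj
    rw [Module.End.mul_apply, Module.End.mul_apply, mono_apply, insOp_single,
      if_pos (by simpa using hj), map_zero, map_zero])]
  refine Finset.sum_congr rfl fun j hj => ?_
  rw [Module.End.mul_apply, Module.End.mul_apply, mono_apply, insOp_single,
    if_neg (by simpa using hj), map_zsmul, map_zsmul, upPoly, shOp_single, xOp_single, xFree_single]
  congr 1
  rw [mono_apply]
  congr 1
  refine Prod.ext rfl (Prod.ext ?_ ?_) <;> simp [add_comm]

/-- The Cech part anticommutes with the homotopy. -/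
lemma chOp_hOp (i : PIdx d) (p : FIdx m d) (v : A) :
    chOp A _ d (hOp A m d (mono i p v)) + hOp A m d (chOp A _ d (mono i p v)) = 0 := by
  by_cases hc : Crit i p
  · rw [hOp_crit hc, map_zero, zero_add, chOp_mono, map_sum]
    refine Finset.sum_eq_zero fun l _ => ?_
    rw [map_zsmul, hOp_crit (i := ((i.1.1, Function.update i.1.2 l 2), i.2)) ⟨hc.1, hc.2⟩,
      smul_zero]
  obtain ⟨l, hl⟩ := exists_lead hc
  rw [hOp_lead hl, chOp_mono, map_sum]
  by_cases hm : l ∈ i.1.1
  · rw [if_pos hm, map_zsmul, chOp_mono, Finset.smul_sum, ← Finset.sum_add_distrib]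
    refine Finset.sum_eq_zero fun x hx => ?_
    rw [map_zsmul, hOp_lead (i := ((i.1.1, Function.update i.1.2 x 2), i.2)) hl, if_pos hm,
      nBoth_update i.1.1 (Finset.mem_filter.1 hx).2 i.2.1 i.2.2, smul_smul, smul_smul, ← add_smul]
    convert zero_smul ℤ _ using 2
    change (-1 : ℤ) ^ i.nBoth * _ * _ + _ * ((-1) ^ (PIdx.nBoth i + 1) * _) = 0
    ring
  · rw [if_neg hm, map_zero, zero_add]
    refine Finset.sum_eq_zero fun x _ => ?_
    rw [map_zsmul, hOp_lead (i := ((i.1.1, Function.update i.1.2 x 2), i.2)) hl, if_neg hm,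
      smul_zero]

/-- The leading Koszul part is contracted. -/
lemma k0_hOp {i : PIdx d} {p : FIdx m d} (hc : ¬ Crit i p) (v : A) :
    k0 A m d (hOp A m d (mono i p v)) + hOp A m d (k0 A m d (mono i p v)) = mono i p v := by
  obtain ⟨l, hl⟩ := exists_lead hc
  obtain ⟨⟨J, C⟩, σ, e⟩ := i
  obtain ⟨k, β⟩ := p
  have hlead : ∀ j, j ∉ J → IsLead (insert j J) (β + Finsupp.single j 1) l := by
    intro j hj
    have hlj : l ≤ j := not_lt.1 fun h => hj (hl.2 j h).1
    refine ⟨?_, fun t ht => ?_⟩
    · rcases eq_or_ne j l with rfl | hne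
      · exact Or.inr (by simp)
      · rcases hl.1 with h | h
        · exact Or.inl (by simp [h, Ne.symm hne])
        · exact Or.inr (by simp [Finsupp.single_apply, hne, h])
    · have hne : j ≠ t := fun h => absurd ht (not_lt.2 (h ▸ hlj))
      obtain ⟨h1, h2⟩ := hl.2 t ht
      exact ⟨Finset.mem_insert_of_mem h1, by simp [Finsupp.single_apply, hne, h2]⟩
  have hq : ∀ n : ℕ, (-1 : ℤ) ^ n * (-1) ^ n = 1 := fun n => by rw [← mul_pow]; simp
  rw [hOp_lead hl, k0_mono, map_sum]
  by_cases hm : l ∈ J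
  · have hβ : β l ≠ 0 := hl.1.resolve_left (not_not.2 hm)
    rw [if_pos hm, map_zsmul, k0_mono]
    dsimp only
    rw [Finset.compl_erase, Finset.sum_insert (by simp [hm]), smul_add, Finset.smul_sum,
      add_assoc, ← Finset.sum_add_distrib, Finset.sum_eq_zero ?_, add_zero]
    · rw [smul_smul]
      change ((-1 : ℤ) ^ PIdx.nBoth (((J, C), σ, e) : PIdx d) * _ *
        ((-1) ^ PIdx.nBoth (((J, C), σ, e) : PIdx d) * _)) • _ = _
      rw [sq_sign _ _ (ksign_sq _), one_smul, Finset.insert_erase hm, sub_add_cancel]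
      congr 2
      exact Prod.ext rfl (Finsupp.ext fun j => by
        by_cases hj : l = j
        · subst hj; simp; omega
        · simp [hj])
    · intro j hj
      have hj' : j ∉ J := by simpa using hj
      have hne : j ≠ l := fun h => hj' (h ▸ hm)
      rw [map_zsmul, hOp_lead (hlead j hj'), if_pos (Finset.mem_insert_of_mem hm)]
      dsimp only
      have hβ' : β - Finsupp.single l 1 + Finsupp.single j 1 =
          β + Finsupp.single j 1 - Finsupp.single l 1 := by
        ext t
        by_cases ht : l = t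
        · subst ht; simp [Finsupp.single_apply, hne]
        · simp [Finsupp.single_apply, ht]
      have hs : σ - 1 + 1 = σ + 1 - 1 := by ring
      rw [smul_smul, smul_smul, Finset.erase_insert_of_ne hne, hβ', hs, ← add_smul]
      convert zero_smul ℤ _ using 2
      have := ksign_erase_insert hne hj' hm
      rw [Finset.erase_insert_of_ne hne] at this
      change (-1 : ℤ) ^ PIdx.nBoth (((J, C), σ, e) : PIdx d) * ksign l (J.erase l) *
          ((-1) ^ PIdx.nBoth (((J, C), σ, e) : PIdx d) * ksign j (J.erase l)) +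
        (-1) ^ PIdx.nBoth (((J, C), σ, e) : PIdx d) * ksign j J *
          ((-1) ^ PIdx.nBoth (((J, C), σ, e) : PIdx d) * ksign l (insert j (J.erase l))) = 0
      linear_combination this + (ksign j J * ksign l (insert j (J.erase l)) +
        ksign l (J.erase l) * ksign j (J.erase l)) * hq (PIdx.nBoth (((J, C), σ, e) : PIdx d))
  · rw [if_neg hm, map_zero, zero_add, Finset.sum_eq_single l]
    · rw [map_zsmul, hOp_lead (hlead l hm), if_pos (Finset.mem_insert_self _ _), smul_smul]
      change ((-1 : ℤ) ^ PIdx.nBoth (((J, C), σ, e) : PIdx d) * _ *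
        ((-1) ^ PIdx.nBoth (((J, C), σ, e) : PIdx d) * _)) • _ = _
      dsimp only
      rw [Finset.erase_insert hm, sq_sign _ _ (ksign_sq _), one_smul, add_sub_cancel_right]
      congr 2
      exact Prod.ext rfl (add_tsub_cancel_right _ _)
    · intro j hj hne
      rw [map_zsmul, hOp_lead (hlead j (by simpa using hj)),
        if_neg (by simp [hm, Ne.symm hne]), smul_zero]
    · intro h
      exact absurd (by simpa using hm) h

/-- `|β| - |J|`. -/
def muf (i : PIdx d) (p : FIdx m d) : ℤ := (bdeg p.2 : ℤ) - i.1.1.card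

/-- The monomials of `|β| - |J|` at most `k`. -/
noncomputable def muLe (A : Type*) [CommRing A] (m d : ℕ) (k : ℤ) :
    Submodule A (PIdx d →₀ FreeMod A m d) :=
  supp2 A fun i p => muf i p ≤ k

lemma hOp_muLe {k : ℤ} {f : PIdx d →₀ FreeMod A m d} (hf : f ∈ muLe A m d k) :
    hOp A m d f ∈ muLe A m d k := by
  refine supp2_map_le _ (fun i p v hip => ?_) hf
  by_cases hc : Crit i p
  · rw [hOp_crit hc]; exact zero_mem _
  obtain ⟨l, hl⟩ := exists_lead hc
  rw [hOp_lead hl]
  split
  · rename_i hm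
    refine zsmul_mem (mono_mem_supp2 _ ?_) _
    have := bdeg_sub_single (hl.1.resolve_left (not_not.2 hm))
    have := Finset.card_pos.2 ⟨l, hm⟩
    simp only [muf, Finset.card_erase_of_mem hm] at *
    omega
  · exact zero_mem _

lemma k1_muLe {k : ℤ} {f : PIdx d →₀ FreeMod A m d} (hf : f ∈ muLe A m d k) :
    k1 A m d f ∈ muLe A m d (k - 1) := by
  refine supp2_map_le _ (fun i p v hip => ?_) hf
  rw [k1, LinearMap.sum_apply]
  refine Submodule.sum_mem _ fun j _ => ?_
  rw [Module.End.mul_apply, Module.End.mul_apply, mono_apply, insOp_single]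
  split
  · rw [map_zero, map_zero]; exact zero_mem _
  rename_i hj
  rw [map_zsmul, map_zsmul, upPoly, shOp_single, shOp_apply_single]
  refine zsmul_mem (Submodule.sum_mem _ fun g _ => zsmul_mem ?_ _) _
  rw [← mono_apply]
  refine mono_mem_supp2 _ ?_
  simp only [muf, Finset.card_insert_of_notMem hj] at *
  omega

/-- The step of the contraction. -/
noncomputable def stepOp (A : Type*) [CommRing A] (m d : ℕ) :
    (PIdx d →₀ FreeMod A m d) →ₗ[A] (PIdx d →₀ FreeMod A m d) :=
  LinearMap.id - (phiDF A m d ∘ₗ hOp A m d + hOp A m d ∘ₗ phiDF A m d)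

lemma stepOp_apply (f : PIdx d →₀ FreeMod A m d) :
    stepOp A m d f = f - (phiDF A m d (hOp A m d f) + hOp A m d (phiDF A m d f)) := rfl

lemma stepOp_crit {i : PIdx d} {p : FIdx m d} (h : Crit i p) (v : A) :
    stepOp A m d (mono i p v) = mono i p v := by
  have h1 : k0 A m d (mono i p v) = 0 := by
    rw [k0_mono, h.1, Finset.compl_univ, Finset.sum_empty]
  have h2 : k1 A m d (mono i p v) = 0 := by
    rw [k1, LinearMap.sum_apply]
    refine Finset.sum_eq_zero fun j _ => ?_
    rw [Module.End.mul_apply, Module.End.mul_apply, mono_apply, insOp_single,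
      if_pos (h.1 ▸ mem_univ j), map_zero, map_zero]
  have h3 : hOp A m d (chOp A _ d (mono i p v)) = 0 := by
    have := chOp_hOp i p v
    rwa [hOp_crit h, map_zero, zero_add] at this
  rw [stepOp_apply, hOp_crit h, map_zero, zero_add, phiDF_eq, h1, h2, sub_zero, add_zero, h3,
    sub_zero]

lemma stepOp_low {i : PIdx d} {p : FIdx m d} (hc : ¬ Crit i p) (v : A) :
    stepOp A m d (mono i p v) ∈ muLe A m d (muf i p - 1) := by
  have hm : mono i p v ∈ muLe A m d (muf i p) := mono_mem_supp2 _ le_rfl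
  have e : stepOp A m d (mono i p v) =
      k1 A m d (hOp A m d (mono i p v)) + hOp A m d (k1 A m d (mono i p v)) := by
    have h1 := chOp_hOp i p v
    have h2 := k0_hOp hc v
    rw [stepOp_apply, phiDF_eq, phiDF_eq, map_add, map_sub]
    conv_lhs => arg 1; rw [← h2]
    rw [eq_neg_of_add_eq_zero_left h1]
    abel
  rw [e]
  exact Submodule.add_mem _ (k1_muLe (hOp_muLe hm)) (hOp_muLe (k1_muLe hm))

lemma stepOp_phiDF (f : PIdx d →₀ FreeMod A m d) :
    stepOp A m d (phiDF A m d f) = phiDF A m d (stepOp A m d f) := by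
  have h2 : phiDF A m d ∘ₗ phiDF A m d = 0 :=
    phiD_phiD (X := fun l => (xFree A l : FreeMod A m d →ₗ[A] _)) fun a b => xFree_comm a b
  have hdd : ∀ z, phiDF A m d (phiDF A m d z) = 0 := fun z => by
    rw [← LinearMap.comp_apply, h2, LinearMap.zero_apply]
  rw [stepOp_apply, stepOp_apply, map_sub, map_add, hdd, hdd]
  simp

variable {D : ℕ} {a : Fin (d - 1) → ℤ} {g : Fin m → ℤ} {c : ℤ}

lemma hOp_phiC {r : ℤ} {f : PIdx d →₀ FreeMod A m d}
    (hf : f ∈ phiC D a (freeFam A D g) c r) :
    hOp A m d f ∈ phiC D a (freeFam A D g) c (r - 1) := by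
  rw [phiC_free_eq] at hf ⊢
  refine supp2_map_le _ (fun i p v hip => ?_) hf
  by_cases hc : Crit i p
  · rw [hOp_crit hc]; exact zero_mem _
  obtain ⟨l, hl⟩ := exists_lead hc
  rw [hOp_lead hl]
  split
  swap
  · exact zero_mem _
  rename_i hm
  refine zsmul_mem (mono_mem_supp2 _ ?_) _
  obtain ⟨hdeg, hA, hlev⟩ := hip
  have hb := bdeg_sub_single (hl.1.resolve_left (not_not.2 hm))
  have hcard := Finset.card_pos.2 ⟨l, hm⟩
  refine ⟨?_, fun j => ?_, ?_⟩
  · simp only [PIdx.deg, PIdx.nBoth, Finset.card_erase_of_mem hm] at *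
    omega
  · obtain ⟨a1, a2⟩ := hA j
    refine ⟨fun h => ?_, fun h => a2 h⟩
    have := a1 h
    simp only [PIdx.rest, Finset.card_erase_of_mem hm] at *
    omega
  · dsimp only
    rw [← hb] at hlev
    push_cast at hlev
    rw [mul_sub, mul_one]
    linarith

lemma stepOp_phiC {r : ℤ} {f : PIdx d →₀ FreeMod A m d}
    (hf : f ∈ phiC D a (freeFam A D g) c r) : stepOp A m d f ∈ phiC D a (freeFam A D g) c r := by
  have hs := phiC_stable (freeFam_stable (A := A) (D := D) g) a c
  rw [stepOp_apply]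
  refine Submodule.sub_mem _ hf (Submodule.add_mem _ ?_ ?_)
  · exact hs.map_pred r (Submodule.mem_map_of_mem (hOp_phiC hf))
  · have h := hOp_phiC (hs.le_comap r hf)
    rwa [add_sub_cancel_right] at h

/-- Iterating the step ends in critical monomials. -/
lemma exists_iterate_crit (f : PIdx d →₀ FreeMod A m d) :
    ∃ n : ℕ, (stepOp A m d)^[n] f ∈ supp2 A Crit := by
  have key : ∀ (k : ℕ) (f : PIdx d →₀ FreeMod A m d),
      f ∈ supp2 A (fun i p => Crit i p ∨ muf i p < (k : ℤ) - d) →
      (stepOp A m d)^[k] f ∈ supp2 A Crit := by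
    intro k
    induction k with
    | zero =>
      intro f hf
      refine supp2_mono (fun i p h => ?_) hf
      refine h.resolve_right fun hlt => ?_
      have h2 : i.1.1.card ≤ d := by simpa using Finset.card_le_univ i.1.1
      simp only [muf] at hlt
      omega
    | succ k ih =>
      intro f hf
      rw [Function.iterate_succ_apply]
      refine ih _ (supp2_map_le _ (fun i p v hip => ?_) hf)
      by_cases hc : Crit i p
      · rw [stepOp_crit hc]
        exact mono_mem_supp2 _ (Or.inl hc)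
      · refine supp2_mono (fun j q hq => Or.inr ?_) (stepOp_low hc v)
        have := hip.resolve_left hc
        push_cast at this
        omega
  obtain ⟨B, hB⟩ : ∃ B : ℕ, ∀ i ∈ f.support, ∀ p ∈ (f i).support, bdeg p.2 ≤ B :=
    ⟨f.support.sup fun i => (f i).support.sup fun p => bdeg p.2, fun i hi p hp =>
      le_trans (Finset.le_sup (f := fun p : FIdx m d => bdeg p.2) hp)
        (Finset.le_sup (f := fun i => (f i).support.sup fun p => bdeg p.2) hi)⟩
  refine ⟨B + d + 1, key _ _ fun i p hne => Or.inr ?_⟩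
  have := hB i (Finsupp.mem_support_iff.2 fun e => hne (by simp [e])) p
    (Finsupp.mem_support_iff.2 hne)
  simp only [muf]
  push_cast
  omega

end contraction

end Vale.Agent.P202
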