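import Vale.Agent.P202.PhiBasic

/-!
Module B, layer 3a: Laurent polynomials acting on chains by translation, and the partition of unity
of the `N`-th powers of the elementary forms on each chart.
-/

universe u

namespace Vale.Agent.P202

open Finset

/-- Exponents: the degree shift and the exponents of the `u`'s. -/
abbrev PExp (d : ℕ) : Type := ℤ × (Fin (d - 1) → ℤ)

/-- Laurent polynomials with integer coefficients in the shift and the `u`'s. -/
abbrev PLaur (d : ℕ) : Type := AddMonoidAlgebra ℤ (PExp d)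

variable {d : ℕ}

/-- The exponent vector of a set of factors. -/
def expOf (ε : Finset (Fin (d - 1))) : Fin (d - 1) → ℤ := fun j => if j ∈ ε then 1 else 0

/-- The `l`-th elementary form, divided by the shift. -/
noncomputable def ftPoly (l : Fin d) : PLaur d :=
  ∑ ε ∈ Finset.univ.powersetCard (l : ℕ), AddMonoidAlgebra.single ((-1, expOf ε) : PExp d) 1

/-- Being a multiple of `shift ^ N` by something regular on the chart `C`. -/
def RegOn (C : Fin (d - 1) → Fin 3) (N : ℕ) (c : PLaur d) : Prop :=
  ∀ g ∈ c.coeff.support, g.1 = N ∧ ∀ j, (C j = 1 → 0 ≤ g.2 j) ∧ (C j = 0 → g.1 + g.2 j ≤ 0)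

section partition

/-- The variables: `inl` the `u`'s, `inr` the `v`'s. -/
abbrev UV (d : ℕ) : Type := Fin (d - 1) ⊕ Fin (d - 1)

/-- `u ^ ε v ^ (1 - ε)` as an exponent. -/
noncomputable def uvExp (ε : Finset (Fin (d - 1))) : UV d →₀ ℕ :=
  Finsupp.equivFunOnFinite.symm
    (Sum.elim (fun j => if j ∈ ε then 1 else 0) (fun j => if j ∈ ε then 0 else 1))

/-- The elementary forms in the homogeneous coordinates. -/
noncomputable def fForm (l : Fin d) : MvPolynomial (UV d) ℤ :=
  ∑ ε ∈ Finset.univ.powersetCard (l : ℕ), MvPolynomial.monomial (uvExp ε) 1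

/-- The component of degree `k` in every factor, dehomogenised. -/
noncomputable def diagPart (k : ℤ) : MvPolynomial (UV d) ℤ →ₗ[ℤ] PLaur d :=
  (MvPolynomial.basisMonomials (UV d) ℤ).constr ℤ fun s =>
    if ∀ j, (s (Sum.inl j) : ℤ) + s (Sum.inr j) = k then
      AddMonoidAlgebra.single ((-k, fun j => (s (Sum.inl j) : ℤ)) : PExp d) 1
    else 0

lemma diagPart_monomial (k : ℤ) (s : UV d →₀ ℕ) :
    diagPart k (MvPolynomial.monomial s 1) =
      if ∀ j, (s (Sum.inl j) : ℤ) + s (Sum.inr j) = k then
        AddMonoidAlgebra.single ((-k, fun j => (s (Sum.inl j) : ℤ)) : PExp d) 1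
      else 0 := by
  have h : diagPart k (MvPolynomial.basisMonomials (UV d) ℤ s) = _ :=
    Module.Basis.constr_basis (MvPolynomial.basisMonomials (UV d) ℤ) ℤ _ s
  rw [MvPolynomial.coe_basisMonomials] at h
  exact h

lemma diagPart_mul_fForm (k : ℤ) (l : Fin d) (q : MvPolynomial (UV d) ℤ) :
    diagPart (k + 1) (q * fForm l) = diagPart k q * ftPoly l := by
  have h : diagPart (k + 1) ∘ₗ LinearMap.mulRight ℤ (fForm l) =
      LinearMap.mulRight ℤ (ftPoly l) ∘ₗ diagPart k := by
    refine (MvPolynomial.basisMonomials (UV d) ℤ).ext fun s => ?_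
    rw [MvPolynomial.coe_basisMonomials, LinearMap.comp_apply, LinearMap.comp_apply,
      LinearMap.mulRight_apply, LinearMap.mulRight_apply, fForm, Finset.mul_sum, map_sum,
      diagPart_monomial, ftPoly, Finset.mul_sum]
    refine Finset.sum_congr rfl fun ε _ => ?_
    rw [MvPolynomial.monomial_mul, one_mul, diagPart_monomial]
    have hc : ∀ j, ((s + uvExp ε : UV d →₀ ℕ) (Sum.inl j) : ℤ) + (s + uvExp ε : UV d →₀ ℕ) (Sum.inr j)
        = (s (Sum.inl j) : ℤ) + s (Sum.inr j) + 1 := fun j => by
      by_cases hj : j ∈ ε <;> simp [uvExp, hj] <;> ring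
    by_cases hs : ∀ j, (s (Sum.inl j) : ℤ) + s (Sum.inr j) = k
    · rw [if_pos hs, if_pos fun j => by rw [hc, hs j], AddMonoidAlgebra.single_mul_single, one_mul]
      congr 1
      refine Prod.ext (by simp [add_comm]) (funext fun j => ?_)
      by_cases hj : j ∈ ε <;> simp [uvExp, expOf, hj]
    · rw [if_neg hs, if_neg fun h => hs fun j => by have := h j; rw [hc] at this; omega, zero_mul]
  exact LinearMap.congr_fun h q

lemma diagPart_mul_fForm_pow (l : Fin d) (N : ℕ) (k : ℤ) (q : MvPolynomial (UV d) ℤ) :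
    diagPart (k + N) (q * fForm l ^ N) = diagPart k q * ftPoly l ^ N := by
  induction N with
  | zero => simp
  | succ n ih =>
    rw [pow_succ, ← mul_assoc, Nat.cast_succ, ← add_assoc, diagPart_mul_fForm, ih, pow_succ,
      mul_assoc]

/-- The product of one inverted variable from each factor. -/
noncomputable def wExp (C : Fin (d - 1) → Fin 3) : UV d →₀ ℕ :=
  Finsupp.equivFunOnFinite.symm
    (Sum.elim (fun j => if C j = 1 then 0 else 1) (fun j => if C j = 1 then 1 else 0))

/-- In a domain the vanishing of all elementary forms kills both variables of some factor. -/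
lemma exists_both_zero {Q : Type*} [CommRing Q] [IsDomain Q] {n : ℕ} (u v : Fin n → Q)
    (h : ∀ k ≤ n, ∑ ε ∈ (univ : Finset (Fin n)).powersetCard k,
      (∏ j ∈ ε, u j) * ∏ j ∈ univ \ ε, v j = 0) :
    ∃ j, u j = 0 ∧ v j = 0 := by
  have hpoly : ∏ j : Fin n, (Polynomial.C (u j) * Polynomial.X + Polynomial.C (v j)) = 0 := by
    rw [Finset.prod_add (fun j => Polynomial.C (u j) * Polynomial.X) (fun j => Polynomial.C (v j)),
      Finset.sum_powerset]
    refine Finset.sum_eq_zero fun k hk => ?_
    have hk' : k ≤ n := by simpa [Nat.lt_succ_iff] using hk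
    calc _ = ∑ ε ∈ (univ : Finset (Fin n)).powersetCard k,
          Polynomial.C ((∏ j ∈ ε, u j) * ∏ j ∈ univ \ ε, v j) * Polynomial.X ^ k :=
          Finset.sum_congr rfl fun ε hε => by
            rw [map_mul, map_prod, map_prod, Finset.prod_mul_distrib, Finset.prod_const,
              (Finset.mem_powersetCard.1 hε).2]
            ring
      _ = 0 := by rw [← Finset.sum_mul, ← map_sum, h k hk', map_zero, zero_mul]
  obtain ⟨j, -, hj⟩ := Finset.prod_eq_zero_iff.1 hpoly
  exact ⟨j, by simpa using congrArg (fun p => Polynomial.coeff p 1) hj,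
    by simpa using congrArg (fun p => Polynomial.coeff p 0) hj⟩

lemma wMon_mem_radical (hd : 0 < d) (C : Fin (d - 1) → Fin 3) :
    MvPolynomial.monomial (wExp C) 1 ∈
      (Ideal.span (Set.range (fForm (d := d)))).radical := by
  rw [Ideal.radical_eq_sInf, Submodule.mem_sInf]
  rintro (P : Ideal (MvPolynomial (UV d) ℤ)) ⟨hle, hP⟩
  have : P.IsPrime := hP
  have : IsDomain (MvPolynomial (UV d) ℤ ⧸ P) := Ideal.Quotient.isDomain P
  let π := Ideal.Quotient.mk P
  have hz : ∀ l, π (fForm (d := d) l) = 0 := fun l =>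
    Ideal.Quotient.eq_zero_iff_mem.2 (hle (Ideal.subset_span ⟨l, rfl⟩))
  let u : Fin (d - 1) → MvPolynomial (UV d) ℤ ⧸ P := fun j => π (MvPolynomial.X (Sum.inl j))
  let v : Fin (d - 1) → MvPolynomial (UV d) ℤ ⧸ P := fun j => π (MvPolynomial.X (Sum.inr j))
  have hmon : ∀ ε : Finset (Fin (d - 1)),
      π (MvPolynomial.monomial (uvExp ε) 1) = (∏ j ∈ ε, u j) * ∏ j ∈ univ \ ε, v j := by
    intro ε
    rw [MvPolynomial.monomial_eq, map_one, one_mul, Finsupp.prod_fintype _ _ (fun _ => pow_zero _),
      map_prod, Fintype.prod_sum_type]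
    congr 1
    · rw [← Finset.prod_subset (Finset.subset_univ ε) (fun j _ hj => by simp [uvExp, hj])]
      exact Finset.prod_congr rfl fun j hj => by simp [uvExp, hj, u]
    · rw [← Finset.prod_subset (Finset.subset_univ (univ \ ε)) (fun j _ hj => by
        simp only [Finset.mem_sdiff, Finset.mem_univ, true_and, not_not] at hj
        simp [uvExp, hj])]
      exact Finset.prod_congr rfl fun j hj => by
        simp only [Finset.mem_sdiff, Finset.mem_univ, true_and] at hj
        simp [uvExp, hj, v]
  obtain ⟨j, hu, hv⟩ := exists_both_zero u v fun k hk => by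
    have hkd : k < d := by omega
    rw [← Finset.sum_congr rfl fun ε _ => hmon ε, ← map_sum]
    exact hz ⟨k, hkd⟩
  rw [← Ideal.Quotient.eq_zero_iff_mem]
  change π _ = 0
  rw [MvPolynomial.monomial_eq, map_one, one_mul, Finsupp.prod_fintype _ _ (fun _ => pow_zero _),
    map_prod, Fintype.prod_sum_type]
  by_cases hC : C j = 1
  · refine mul_eq_zero_of_right _ (Finset.prod_eq_zero (Finset.mem_univ j) ?_)
    simpa [wExp, hC, v] using hv
  · refine mul_eq_zero_of_left (Finset.prod_eq_zero (Finset.mem_univ j) ?_) _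
    simpa [wExp, hC, u] using hu

/-- On every chart the `N`-th powers of the elementary forms generate the unit ideal. -/
lemma exists_partition (hd : 0 < d) (C : Fin (d - 1) → Fin 3) (N : ℕ) :
    ∃ c : Fin d → PLaur d, (∀ l, RegOn C N (c l)) ∧ ∑ l, ftPoly l ^ N * c l = 1 := by
  have hrad : MvPolynomial.monomial (wExp C) 1 ∈
      (Ideal.span (Set.range fun l => fForm (d := d) l ^ N)).radical := by
    refine (Ideal.radical_le_radical_iff.2 (Ideal.span_le.2 ?_)) (wMon_mem_radical hd C)
    rintro _ ⟨l, rfl⟩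
    exact ⟨N, Ideal.subset_span ⟨l, rfl⟩⟩
  obtain ⟨K, hK⟩ := hrad
  have hK' := Ideal.mul_mem_left _ (MvPolynomial.monomial (wExp C) (1 : ℤ) ^ N) hK
  rw [← pow_add, MvPolynomial.monomial_pow, one_pow] at hK'
  obtain ⟨q, hq⟩ := Ideal.mem_span_range_iff_exists_fun.1 hK'
  have hT := congrArg (diagPart ((N + K : ℕ) : ℤ)) hq
  rw [map_sum, diagPart_monomial, if_pos fun j => by by_cases hj : C j = 1 <;> simp [wExp, hj]]
    at hT
  let α : Fin (d - 1) → ℤ := fun j => if C j = 1 then 0 else ((N + K : ℕ) : ℤ)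
  refine ⟨fun l => diagPart (K : ℤ) (q l) *
    AddMonoidAlgebra.single ((((N + K : ℕ) : ℤ), -α) : PExp d) 1, fun l g hg => ?_, ?_⟩
  · have key : ∀ p : MvPolynomial (UV d) ℤ, ∀ g ∈ (diagPart (K : ℤ) p *
        AddMonoidAlgebra.single ((((N + K : ℕ) : ℤ), -α) : PExp d) 1).coeff.support,
        g.1 = (N : ℤ) ∧ ∀ j, (C j = 1 → 0 ≤ g.2 j) ∧ (C j = 0 → g.1 + g.2 j ≤ 0) := by
      intro p
      induction p using MvPolynomial.induction_on' with
      | monomial s a =>
        intro g hg
        rw [show MvPolynomial.monomial s a = a • MvPolynomial.monomial s 1 by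
          rw [MvPolynomial.smul_monomial, smul_eq_mul, mul_one], map_smul, diagPart_monomial,
          smul_mul_assoc] at hg
        rw [AddMonoidAlgebra.coeff_smul] at hg
        replace hg := Finsupp.support_smul hg
        split at hg
        · rename_i hs
          rw [AddMonoidAlgebra.single_mul_single, AddMonoidAlgebra.coeff_single] at hg
          obtain rfl := Finset.mem_singleton.1 (Finsupp.support_single_subset hg)
          refine ⟨by simp, fun j => ⟨fun hj => by simp [α, hj], fun hj => ?_⟩⟩
          have := hs j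
          simp [α, hj]
          omega
        · simp at hg
      | add p₁ p₂ h1 h2 =>
        intro g hg
        rw [map_add, add_mul, AddMonoidAlgebra.coeff_add] at hg
        exact (Finset.mem_union.1 (Finsupp.support_add hg)).elim (h1 g) (h2 g)
    exact key (q l) g hg
  · have hsum : (∑ l, ftPoly l ^ N * diagPart (K : ℤ) (q l)) = AddMonoidAlgebra.single
        ((-((N + K : ℕ) : ℤ), α) : PExp d) 1 := by
      refine (Finset.sum_congr rfl fun l _ => ?_).trans (hT.trans (by
          congr 1
          refine Prod.ext rfl (funext fun j => ?_)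
          by_cases hj : C j = 1 <;> simp [wExp, α, hj]))
      rw [Nat.cast_add, add_comm (N : ℤ), diagPart_mul_fForm_pow, mul_comm]
    simp_rw [← mul_assoc]
    rw [← Finset.sum_mul, hsum, AddMonoidAlgebra.single_mul_single, one_mul]
    simp [AddMonoidAlgebra.one_def]
    rfl

end partition

end Vale.Agent.P202
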