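import Vale.Agent.P202.PhiMult

/-!
Module B, layer 8b: the cohomology of a free family modulo a homogeneous polynomial is small.
-/

universe u

namespace Vale.Agent.P202

open Finset

section general

variable {A : Type*} [CommRing A] {d D : ℕ} {M : Type*} [AddCommGroup M] [Module A M]

lemma phiC_shift_add (a : Fin (d - 1) → ℤ) (W : ℤ → Submodule A M) (i c : ℤ) :
    phiC D a (fun n => W (n + i)) c = phiC D a W (c + i) := by
  funext r
  have e : ∀ σ : ℤ, c + D * σ + i = c + i + D * σ := fun σ => by ring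
  refine le_antisymm (inf_le_inf_right _ (phiSub_mono fun σ => le_of_eq ?_))
    (inf_le_inf_right _ (phiSub_mono fun σ => le_of_eq ?_)) <;> simp only [e]

/-- Equal families have the same homology. -/
noncomputable def hmodEq {δ : (PIdx d →₀ M) →ₗ[A] (PIdx d →₀ M)}
    {P P' Q Q' : ℤ → Submodule A (PIdx d →₀ M)} (h₁ : P = P') (h₂ : Q = Q') (r : ℤ) :
    HMod δ P Q r ≃ₗ[A] HMod δ P' Q' r := by
  subst h₁; subst h₂; exact LinearEquiv.refl A _

lemma famBot_stable (X : Fin d → M →ₗ[A] M) :
    FamStable D X (fun _ => (⊥ : Submodule A M)) :=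
  fun l n v hv => by rw [(Submodule.mem_bot A).1 hv, map_zero]; exact zero_mem _

lemma pAct_commute {X : Fin d → M →ₗ[A] M} (hX : ∀ a b, X a ∘ₗ X b = X b ∘ₗ X a)
    (P : MvPolynomial (Fin d) A) (l : Fin d) (v : M) :
    pAct hX P (X l v) = X l (pAct hX P v) := by
  rw [← pAct_X hX l, ← Module.End.mul_apply, ← Module.End.mul_apply, ← map_mul, ← map_mul,
    mul_comm]

lemma pAct_mem {X : Fin d → M →ₗ[A] M} (hX : ∀ a b, X a ∘ₗ X b = X b ∘ₗ X a)
    {W : ℤ → Submodule A M} (hW : FamStable D X W) {P : MvPolynomial (Fin d) A} {δ : ℕ}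
    (hP : ∀ β ∈ P.support, bdeg β = δ) {n : ℤ} {v : M} (hv : v ∈ W n) :
    pAct hX P v ∈ W (n + D * δ) := by
  rw [pAct_eq_sum]
  refine Submodule.sum_mem _ fun β hβ => Submodule.smul_mem _ _ ?_
  rw [← hP β hβ]
  exact xPow_mem hX hW hv β

lemma evFree_pAct {X : Fin d → M →ₗ[A] M} (hX : ∀ a b, X a ∘ₗ X b = X b ∘ₗ X a) {m : ℕ}
    (gen : Fin m → M) (P : MvPolynomial (Fin d) A) (v : FreeMod A m d) :
    evFree hX gen (pAct (X := fun l => (xFree A l : FreeMod A m d →ₗ[A] _)) xFree_comm P v) =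
      pAct hX P (evFree hX gen v) := by
  have h : ∀ β : Fin d →₀ ℕ, evFree hX gen
      (xPow (X := fun l => (xFree A l : FreeMod A m d →ₗ[A] _)) xFree_comm β v) =
      xPow hX β (evFree hX gen v) := by
    intro β
    refine xPow_induction (P := fun β => evFree hX gen
      (xPow (X := fun l => (xFree A l : FreeMod A m d →ₗ[A] _)) xFree_comm β v) =
      xPow hX β (evFree hX gen v)) ?_ ?_ β
    · rw [xPow_zero, xPow_zero]
    · intro β l ih
      rw [xPow_add_single, xPow_add_single, evFree_xFree, ih]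
  rw [pAct_eq_sum, pAct_eq_sum, map_sum]
  exact Finset.sum_congr rfl fun β _ => by rw [map_smul, h]

end general

section baseCoeff

variable {A : Type*} [CommRing A] {m d D : ℕ} {a : Fin (d - 1) → ℤ} {g : Fin m → ℤ} {c : ℤ}

/-- A critical boundary has no base coefficients. -/
lemma boundary_baseCoeff {r : ℤ} {w : PIdx d →₀ FreeMod A m d} (hwC : w ∈ supp2 A Crit)
    (hwb : w ∈ (phiC D a (freeFam A D g) c (r - 1)).map (phiDF A m d))
    {b : Fin m × (Fin (d - 1) → ℤ)} (hb : b ∈ baseR D a g c r) :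
    w (baseCell D g c b (baseChart D a g c b.1)) (b.1, 0) = 0 := by
  obtain ⟨y, hy, hyx⟩ := hwb
  have hfix : ∀ n, (stepOp A m d)^[n] w = w := by
    intro n
    induction n with
    | zero => rfl
    | succ n ih =>
      rw [Function.iterate_succ_apply', ih]
      refine sub_eq_zero.1 ((Submodule.mem_bot A).1 ?_)
      exact supp2_map_le (stepOp A m d - LinearMap.id) (fun i p v hip => by
        rw [Submodule.mem_bot, LinearMap.sub_apply, LinearMap.id_apply, stepOp_crit hip,
          sub_self]) hwC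
  obtain ⟨n, hn⟩ := exists_iterate_crit y
  have hy' : ∀ n, (stepOp A m d)^[n] y ∈ phiC D a (freeFam A D g) c (r - 1) ∧
      phiDF A m d ((stepOp A m d)^[n] y) = (stepOp A m d)^[n] w := by
    intro n
    induction n with
    | zero => exact ⟨hy, hyx⟩
    | succ n ih =>
      rw [Function.iterate_succ_apply', Function.iterate_succ_apply', ← stepOp_phiDF, ih.2]
      exact ⟨stepOp_phiC ih.1, rfl⟩
  obtain ⟨hy1, hy2⟩ := hy' n
  rw [hfix, phiDF_crit hn] at hy2
  rw [← hy2, chOp_apply, Finsupp.finsetSum_apply]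
  refine Finset.sum_eq_zero fun l _ => ?_
  split
  swap
  · rfl
  rename_i hl
  have hneg : tOf D a g c b.1 l < 0 := by
    by_contra hn'
    simp [baseCell, baseChart, hn'] at hl
  obtain ⟨-, he⟩ := mem_baseR.1 hb
  have he' := (he l).2 hneg
  rw [phiC_free_eq] at hy1
  have hz : ∀ x : Fin 3, x ≠ 2 → ((stepOp A m d)^[n] y)
      (((baseCell D g c b (baseChart D a g c b.1)).1.1,
        Function.update (baseCell D g c b (baseChart D a g c b.1)).1.2 l x),
        (baseCell D g c b (baseChart D a g c b.1)).2) (b.1, 0) = 0 := by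
    intro x hx
    by_contra hne
    obtain ⟨-, hA, -⟩ := hy1 _ _ hne
    obtain ⟨a1, a2⟩ := hA l
    have hrest := rest_baseCell (D := D) (a := a) (g := g) (c := c) b (baseChart D a g c b.1) l
    have h3 : ∀ y : Fin 3, y ≠ 2 → y = 0 ∨ y = 1 := by decide
    rcases h3 x hx with h | h
    · have := a1 (by simp [h])
      simp only [PIdx.rest, baseCell] at this hrest
      omega
    · have := a2 (by simp [h])
      simp only [baseCell] at this
      omega
  rw [Finsupp.add_apply, Finsupp.smul_apply, Finsupp.smul_apply, hz 0 (by decide),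
    hz 1 (by decide), smul_zero, smul_zero, add_zero]

end baseCoeff

section rank

variable {k : Type u} [Field k] {m d D : ℕ} {a : Fin (d - 1) → ℤ} {g : Fin m → ℤ}

/-- Base monomials that stay base monomials after translation by `η`. -/
noncomputable def stayR (D : ℕ) (a : Fin (d - 1) → ℤ) (g : Fin m → ℤ) (c : ℤ) (δ : ℕ)
    (η : Fin (d - 1) → ℤ) (r : ℤ) : Finset (Fin m × (Fin (d - 1) → ℤ)) :=
  (baseR D a g (c - D * δ) r).filter fun b =>
    (b.1, b.2 + η) ∈ baseR D a g c r ∧
      ∀ l, (tOf D a g (c - D * δ) b.1 l < 0 ↔ tOf D a g c b.1 l < 0)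

/-- The image family of multiplication by `P`. -/
noncomputable def mulImg (k : Type u) [Field k] {m d : ℕ} (D : ℕ) (g : Fin m → ℤ)
    (P : MvPolynomial (Fin d) k) (δ : ℕ) (n : ℤ) : Submodule k (FreeMod k m d) :=
  (freeFam k D g (n + -((D : ℤ) * δ))).map
    (pAct (X := fun l => (xFree k l : FreeMod k m d →ₗ[k] _)) xFree_comm P)

variable {P : MvPolynomial (Fin d) k} {δ : ℕ}

lemma mulImg_stable : FamStable D (fun l => (xFree k l : FreeMod k m d →ₗ[k] _))
    (mulImg k D g P δ) := by
  rintro l n _ ⟨v, hv, rfl⟩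
  refine ⟨xFree k l v, ?_, pAct_commute _ P l v⟩
  have := freeFam_stable g l _ v hv
  change xFree k l v ∈ _ at this
  rwa [show n + -((D : ℤ) * δ) + D = n + D + -((D : ℤ) * δ) by ring] at this

lemma mulImg_le (hP : ∀ β ∈ P.support, bdeg β = δ) (n : ℤ) :
    mulImg k D g P δ n ≤ freeFam k D g n := by
  rintro _ ⟨v, hv, rfl⟩
  have := pAct_mem xFree_comm (freeFam_stable g) hP hv
  rwa [add_assoc, neg_add_cancel, add_zero] at this

lemma pAct_free_injective (hne : P ≠ 0) :
    Function.Injective (pAct (X := fun l => (xFree k l : FreeMod k m d →ₗ[k] _)) xFree_comm P) := by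
  intro v w h
  apply (polyEquiv k m d).injective
  have h' := congrArg (polyEquiv k m d) h
  rw [polyEquiv_pAct, polyEquiv_pAct] at h'
  funext j
  have := congrFun h' j
  simp only [Pi.smul_apply, smul_eq_mul] at this
  exact mul_left_cancel₀ hne this

lemma finrank_free (hD : 0 < D) (c r : ℤ) :
    Module.finrank k (HMod (phiDF k m d) (phiC D a (freeFam k (d := d) D g) c) (fun _ => ⊥) r) =
      (baseR D a g c r).card := by
  rw [← (freeCohEquiv (A := k) (a := a) (g := g) (c := c) hD r).finrank_eq,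
    Module.finrank_finsupp_self, Fintype.card_coe]

lemma finite_free (hD : 0 < D) (c r : ℤ) :
    Module.Finite k (HMod (phiDF k m d) (phiC D a (freeFam k (d := d) D g) c) (fun _ => ⊥) r) :=
  Module.Finite.equiv (freeCohEquiv hD r)

/-- The homology of the image of multiplication by `P` is that of the shifted free family. -/
noncomputable def mulImgEquiv (hP : ∀ β ∈ P.support, bdeg β = δ) (hne : P ≠ 0) (c r : ℤ) :
    HMod (phiDF k m d) (phiC D a (freeFam k (d := d) D g) (c + -((D : ℤ) * δ))) (fun _ => ⊥) r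
      ≃ₗ[k] HMod (phiDF k m d) (phiC D a (mulImg k D g P δ) c) (fun _ => ⊥) r :=
  let W : ℤ → Submodule k (FreeMod k m d) := fun n => freeFam k D g (n + -((D : ℤ) * δ))
  have hbot : phiC D a (fun _ => (⊥ : Submodule k (FreeMod k m d))) c = fun _ => ⊥ :=
    funext fun r => by
      rw [Submodule.eq_bot_iff]
      exact fun f hf => Finsupp.ext fun i => (Submodule.mem_bot k).1 (hf.1 i).1
  have hW : FamStable D (fun l => (xFree k l : FreeMod k m d →ₗ[k] _)) W := fun l n v hv => by
    have := freeFam_stable g l _ v hv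
    rwa [show n + -((D : ℤ) * δ) + D = n + D + -((D : ℤ) * δ) by ring] at this
  ((hmodEq (phiC_shift_add a (freeFam k D g) _ c).symm hbot.symm r).trans
    (pairEquiv a (W := W) (W' := fun _ => ⊥) (W₂ := mulImg k D g P δ) (W₂' := fun _ => ⊥)
      (pAct (X := fun l => (xFree k l : FreeMod k m d →ₗ[k] _)) xFree_comm P)
      (pAct_commute _ P) hW (famBot_stable _) (fun _ => bot_le) (fun n v hv => ⟨v, hv, rfl⟩)
      (fun n v hv => by rw [(Submodule.mem_bot k).1 hv, map_zero]; exact zero_mem _) c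
      (fun σ => le_sup_left)
      (fun σ v _ hv => (Submodule.mem_bot k).2 (pAct_free_injective hne
        (((Submodule.mem_bot k).1 hv).trans (map_zero _).symm))) r)).trans
    (hmodEq rfl hbot r)

/-- The lex-largest exponent of the value of `P`. -/
lemma exists_top_exponent (hd : 0 < d) (hP : ∀ β ∈ P.support, bdeg β = δ) (hne : P ≠ 0) :
    ∃ η₀, valCoef P δ η₀ ≠ 0 ∧ (∀ l, 0 ≤ η₀ l ∧ η₀ l ≤ δ) ∧
      ∀ η, valCoef P δ η ≠ 0 → toLex η ≤ toLex η₀ := by
  classical
  have hbox : ∀ η, valCoef P δ η ≠ 0 →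
      η ∈ Fintype.piFinset (fun _ : Fin (d - 1) => Finset.Icc (0 : ℤ) δ) := by
    intro η hη
    obtain ⟨β, hβ, hne'⟩ := Finset.exists_ne_zero_of_sum_ne_zero hη
    have hsupp : ((-(δ : ℤ), η) : PExp d) ∈ (ftPow β).coeff.support :=
      Finsupp.mem_support_iff.2 fun e => hne' (by simp [e])
    have := (ftPow_support β _ hsupp).2
    rw [hP β hβ] at this
    exact Fintype.mem_piFinset.2 fun l => Finset.mem_Icc.2 (this l)
  obtain ⟨η, hη⟩ := exists_valCoef_ne_zero hd hP hne
  obtain ⟨η₀, h0, hmax⟩ := Finset.exists_max_image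
    ((Fintype.piFinset (fun _ : Fin (d - 1) => Finset.Icc (0 : ℤ) δ)).filter
      fun η => valCoef P δ η ≠ 0) (fun η => toLex η) ⟨η, Finset.mem_filter.2 ⟨hbox η hη, hη⟩⟩
  obtain ⟨h1, h2⟩ := Finset.mem_filter.1 h0
  exact ⟨η₀, h2, fun l => Finset.mem_Icc.1 (Fintype.mem_piFinset.1 h1 l),
    fun η hη => hmax η (Finset.mem_filter.2 ⟨hbox η hη, hη⟩)⟩

/-- The rank of multiplication by `P` is at least the number of staying base monomials. -/
lemma stayR_le_rank (hd : 0 < d) (hD : 0 < D) (hP : ∀ β ∈ P.support, bdeg β = δ)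
    {η₀ : Fin (d - 1) → ℤ} (hη : valCoef P δ η₀ ≠ 0) (hη0 : ∀ l, 0 ≤ η₀ l ∧ η₀ l ≤ δ)
    (hmax : ∀ η, valCoef P δ η ≠ 0 → toLex η ≤ toLex η₀) (c r : ℤ)
    (hPO : ∀ r, phiC D a (mulImg k D g P δ) c r ≤ phiC D a (freeFam k (d := d) D g) c r) :
    (stayR D a g c δ η₀ r).card ≤ Module.finrank k
      ↥(LinearMap.range (hinc (δ := phiDF k m d) (Q := fun _ => ⊥) hPO r)) := by
  classical
  set S := stayR D a g c δ η₀ r with hS
  have hSs : ∀ b : ↥S, b.1 ∈ baseR D a g (c - D * δ) r := fun b => (Finset.mem_filter.1 b.2).1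
  have hdd : phiDF k m d ∘ₗ phiDF k m d = 0 :=
    phiD_phiD (X := fun l => (xFree k l : FreeMod k m d →ₗ[k] _)) fun a b => xFree_comm a b
  let K : (↥S →₀ k) →ₗ[k] (PIdx d →₀ FreeMod k m d) :=
    Finsupp.linearCombination k fun b : ↥S => kappa D a g (c - D * δ) k b.1
  have hK : ∀ x, K x ∈ supp2 k (GoodCell D a g (c - D * δ) univ r) := by
    intro x
    simp only [K, Finsupp.linearCombination_apply]
    exact Submodule.sum_mem _ fun b _ => Submodule.smul_mem _ _ (kappa_good hD (hSs b))
  have hKc : ∀ x, phiDF k m d (K x) = 0 := by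
    intro x
    simp only [K, Finsupp.linearCombination_apply, Finsupp.sum, map_sum, map_smul, kappa_cycle,
      smul_zero, Finset.sum_const_zero]
  let V : (↥S →₀ k) →ₗ[k] (PIdx d →₀ FreeMod k m d) := (shPoly k (FreeMod k m d) P).comp K
  have hVc : ∀ x, V x ∈ hcyc (phiDF k m d) (phiC D a (freeFam k D g) c) (fun _ => ⊥) r := by
    intro x
    have hKx : K x ∈ phiC D a (freeFam k D g) (c - D * δ) r := goodCell_le_phiC (hK x)
    refine ⟨?_, ?_⟩
    · simp only [V, LinearMap.comp_apply, shPoly, LinearMap.sum_apply, LinearMap.smul_apply]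
      refine Submodule.sum_mem _ fun β hβ => Submodule.smul_mem _ _ ?_
      have := shOp_ftPow_mem β hKx
      rwa [hP β hβ, sub_add_cancel] at this
    · change phiDF k m d (V x) ∈ (⊥ : Submodule k _)
      rw [Submodule.mem_bot]
      simp only [V, LinearMap.comp_apply, shPoly, LinearMap.sum_apply, LinearMap.smul_apply,
        map_sum, map_smul, phiDF, phiD_shOp]
      refine Finset.sum_eq_zero fun β _ => ?_
      have := hKc x
      rw [phiDF] at this
      rw [this, map_zero, smul_zero]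
  let L := (hmk (phiDF k m d) (phiC D a (freeFam k D g) c) (fun _ => ⊥) r).comp
    (V.codRestrict _ hVc)
  have hrange : LinearMap.range L ≤
      LinearMap.range (hinc (δ := phiDF k m d) (Q := fun _ => ⊥) hPO r) := by
    rintro _ ⟨x, rfl⟩
    have hKx : K x ∈ phiC D a (freeFam k D g) (c - D * δ) r := goodCell_le_phiC (hK x)
    have hh := poly_homotopic (X := fun l => (xFree k l : FreeMod k m d →ₗ[k] _)) xFree_comm
      (freeFam_stable g) hP hKx (hKc x)
    rw [sub_add_cancel] at hh
    have hmemI : chainMap (pAct (X := fun l => (xFree k l : FreeMod k m d →ₗ[k] _)) xFree_comm P)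
        (K x) ∈ hcyc (phiDF k m d) (phiC D a (mulImg k D g P δ) c) (fun _ => ⊥) r := by
      refine ⟨⟨fun i => ⟨?_, fun hn => by rw [chainMap_apply, (hKx.1 i).2 hn, map_zero]⟩,
        fun i hi => by rw [chainMap_apply, hKx.2 i hi, map_zero]⟩, ?_⟩
      · rw [chainMap_apply]
        refine ⟨K x i, ?_, rfl⟩
        have := (hKx.1 i).1
        rwa [show c - (D : ℤ) * δ + D * i.2.1 = c + D * i.2.1 + -((D : ℤ) * δ) by ring] at this
      · change phiDF k m d _ ∈ (⊥ : Submodule k _)
        rw [Submodule.mem_bot, phiDF, ← chainMap_phiD _ (pAct_commute _ P)]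
        have := hKc x
        rw [phiDF] at this
        rw [this, map_zero]
    refine ⟨hmk _ _ _ r ⟨_, hmemI⟩, ?_⟩
    rw [hinc, hmap_hmk _ _ _ _ r ⟨_, hmemI⟩ ⟨hPO r hmemI.1, hmemI.2⟩]
    rw [← sub_eq_zero]
    simp only [L, LinearMap.comp_apply]
    rw [← map_sub, hmk_eq_zero]
    exact Submodule.mem_sup_left hh
  have hinj : Function.Injective L := by
    rw [injective_iff_map_eq_zero]
    intro x hx
    by_contra hne
    have hx' : V x ∈ (phiC D a (freeFam k D g) c (r - 1)).map (phiDF k m d) := by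
      have := hmk_eq_zero.1 hx
      simpa [hbd] using this
    have hVC : V x ∈ supp2 k Crit := by
      intro T p hTp
      simp only [V, LinearMap.comp_apply, shPoly_apply hP] at hTp
      obtain ⟨η, -, hne'⟩ := Finset.exists_ne_zero_of_sum_ne_zero hTp
      exact (hK x _ p (right_ne_zero_of_mul hne')).1
    obtain ⟨b₀, hb₀, hbmax⟩ := Finset.exists_max_image x.support (fun b => toLex b.1.2)
      (Finsupp.support_nonempty_iff.2 hne)
    obtain ⟨hsrc, htgt, hpat⟩ := Finset.mem_filter.1 b₀.2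
    have h0 := boundary_baseCoeff hVC hx' htgt
    simp only [V, LinearMap.comp_apply, shPoly_apply hP] at h0
    obtain ⟨⟨⟨σ', hσ'⟩, -⟩, -⟩ := mem_baseR.1 htgt
    have hsig : ∀ η : Fin (d - 1) → ℤ,
        ((((univ : Finset (Fin d)), baseChart D a g c b₀.1.1)),
          (sigOf D g c b₀.1.1, b₀.1.2 + η₀) - ((-(δ : ℤ), η) : PExp d)) =
        baseCell D g (c - D * δ) (b₀.1.1, b₀.1.2 + η₀ - η) (baseChart D a g c b₀.1.1) := by
      intro η
      refine Prod.ext rfl (Prod.ext ?_ rfl)
      simp only [baseCell, sigOf, Prod.fst_sub, sub_neg_eq_add]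
      rw [hσ', show g b₀.1.1 - (c - D * δ) = (D : ℤ) * (σ' + δ) by linarith,
        Int.mul_ediv_cancel_left _ (by omega), Int.mul_ediv_cancel_left _ (by omega)]
    have hchart : baseChart D a g c b₀.1.1 = baseChart D a g (c - D * δ) b₀.1.1 := by
      funext l
      simp only [baseChart, hpat l]
    have hterm : ∀ η, (K x) (baseCell D g (c - D * δ) (b₀.1.1, b₀.1.2 + η₀ - η)
        (baseChart D a g c b₀.1.1)) (b₀.1.1, 0) =
        ∑ b ∈ x.support, if b.1 = (b₀.1.1, b₀.1.2 + η₀ - η) then x b else 0 := by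
      intro η
      simp only [K, Finsupp.linearCombination_apply, Finsupp.sum, Finsupp.finsetSum_apply,
        Finsupp.smul_apply, smul_eq_mul]
      refine Finset.sum_congr rfl fun b _ => ?_
      rw [kappa_apply_base (A := k) (D := D) (a := a) (g := g) (c := c - D * δ) b.1
        (b₀.1.1, b₀.1.2 + η₀ - η)]
      by_cases hb : b.1 = (b₀.1.1, b₀.1.2 + η₀ - η)
      · rw [if_pos hb, if_pos ⟨hb, by rw [hb, hchart]; exact baseChart_mem _⟩, mul_one]
      · rw [if_neg hb, if_neg (fun h => hb h.1), mul_zero]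
    refine hne ?_
    have hkey : ∀ η ∈ Fintype.piFinset (fun _ : Fin (d - 1) => Finset.Icc (0 : ℤ) δ), η ≠ η₀ →
        valCoef P δ η * (K x) (baseCell D g (c - D * δ) (b₀.1.1, b₀.1.2 + η₀ - η)
          (baseChart D a g c b₀.1.1)) (b₀.1.1, 0) = 0 := by
      intro η _ hηne
      by_cases hv : valCoef P δ η = 0
      · rw [hv, zero_mul]
      rw [hterm, Finset.sum_eq_zero fun b hb => if_neg fun e => ?_, mul_zero]
      have h1 := hbmax b hb
      rw [e] at h1
      have h2 := hmax η hv
      have h3 : toLex η < toLex η₀ := lt_of_le_of_ne h2 fun h => hηne (toLex.injective h)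
      have h4 : toLex b₀.1.2 < toLex (b₀.1.2 + η₀ - η) := by
        rw [toLex_sub, toLex_add, lt_sub_iff_add_lt]
        exact add_lt_add_of_le_of_lt le_rfl h3
      exact absurd h1 (not_le.2 h4)
    change (∑ η ∈ Fintype.piFinset (fun _ : Fin (d - 1) => Finset.Icc (0 : ℤ) δ),
      valCoef P δ η * (K x) ((((univ : Finset (Fin d)), baseChart D a g c b₀.1.1)),
        (sigOf D g c b₀.1.1, b₀.1.2 + η₀) - ((-(δ : ℤ), η) : PExp d)) (b₀.1.1, 0)) = 0 at h0
    simp only [hsig] at h0
    rw [Finset.sum_eq_single η₀ hkey (fun h => absurd (Fintype.mem_piFinset.2 fun l =>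
      Finset.mem_Icc.2 (hη0 l)) h), hterm, Finset.sum_eq_single b₀ (fun b _ hb => if_neg fun e => hb
        (Subtype.ext (by simpa using e))) (fun h => absurd hb₀ h), if_pos (by simp)] at h0
    exact absurd h0 (mul_ne_zero hη (Finsupp.mem_support_iff.1 hb₀))
  have hfin := finite_free (k := k) (a := a) (g := g) hD c r
  have : IsNoetherian k (HMod (phiDF k m d) (phiC D a (freeFam k D g) c) (fun _ => ⊥) r) :=
    isNoetherian_of_isNoetherianRing_of_finite k _
  have : Module.Finite k ↥(LinearMap.range (hinc (δ := phiDF k m d) (Q := fun _ => ⊥) hPO r)) :=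
    Module.Finite.iff_fg.2 (IsNoetherian.noetherian _)
  calc S.card = Module.finrank k ↥(LinearMap.range L) := by
        rw [LinearMap.finrank_range_of_inj hinj, Module.finrank_finsupp_self, Fintype.card_coe]
    _ ≤ _ := Submodule.finrank_mono hrange

lemma stayR_subset (D : ℕ) (a : Fin (d - 1) → ℤ) (g : Fin m → ℤ) (c : ℤ) (δ : ℕ)
    (η : Fin (d - 1) → ℤ) (r : ℤ) : stayR D a g c δ η r ⊆ baseR D a g (c - D * δ) r :=
  Finset.filter_subset _ _

/-- The dimension of the cohomology of a free family modulo `P`. -/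
theorem finrank_free_mod (hd : 0 < d) (hD : 0 < D) (hP : ∀ β ∈ P.support, bdeg β = δ) (hne : P ≠ 0) :
    ∃ η₀ : Fin (d - 1) → ℤ, (∀ l, 0 ≤ η₀ l ∧ η₀ l ≤ δ) ∧
      ∀ (a : Fin (d - 1) → ℤ) (c r : ℤ),
        Module.finrank k (HMod (phiDF k m d) (phiC D a (freeFam k (d := d) D g) c)
            (phiC D a (mulImg k D g P δ) c) r) + (stayR D a g c δ η₀ r).card
            + (stayR D a g c δ η₀ (r + 1)).card ≤
          (baseR D a g c r).card + (baseR D a g (c - D * δ) (r + 1)).card := by
  obtain ⟨η₀, hη, hη0, hmax⟩ := exists_top_exponent hd hP hne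
  refine ⟨η₀, hη0, fun a c r => ?_⟩
  set O := phiC D a (freeFam k (d := d) D g) c
  set I := phiC D a (mulImg k D g P δ) c
  have hdd : phiDF k m d ∘ₗ phiDF k m d = 0 :=
    phiD_phiD (X := fun l => (xFree k l : FreeMod k m d →ₗ[k] _)) fun a b => xFree_comm a b
  have hPO : ∀ r, I r ≤ O r := fun r =>
    inf_le_inf_right _ (phiSub_mono fun σ => mulImg_le hP _)
  have hst : IsStable (phiDF k m d) I := phiC_stable mulImg_stable a c
  have fO : ∀ r, Module.Finite k (HMod (phiDF k m d) O (fun _ => ⊥) r) := finite_free hD c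
  have fI : ∀ r, Module.Finite k (HMod (phiDF k m d) I (fun _ => ⊥) r) := fun r =>
    have := finite_free (k := k) (a := a) (g := g) hD (c + -((D : ℤ) * δ)) r
    Module.Finite.equiv (mulImgEquiv hP hne c r)
  have h1 := stayR_le_rank hd hD hP hη hη0 hmax c r hPO
  have h2 := stayR_le_rank hd hD hP hη hη0 hmax c (r + 1) hPO
  set p := hproj (δ := phiDF k m d) (O := O) (P := I) (Q := fun _ => ⊥) (fun r => bot_le) r
  set q := hconn (δ := phiDF k m d) (O := O) (Q := fun _ => ⊥) hdd hst r
  set i₀ := hinc (δ := phiDF k m d) (Q := fun _ => ⊥) hPO r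
  set i₁ := hinc (δ := phiDF k m d) (Q := fun _ => ⊥) hPO (r + 1)
  have e1 : LinearMap.ker p = LinearMap.range i₀ :=
    LinearMap.exact_iff.1 (exact_hinc_hproj (fun r => bot_le) hPO hdd r)
  have e2 : LinearMap.ker q = LinearMap.range p :=
    LinearMap.exact_iff.1 (exact_hproj_hconn (fun r => bot_le) hPO hdd hst r)
  have e3 : LinearMap.ker i₁ = LinearMap.range q :=
    LinearMap.exact_iff.1 (exact_hconn_hinc hPO hdd hst (fun r => bot_le) r)
  have := fO r
  have := fO (r + 1)
  have := fI (r + 1)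
  have : Module.Finite k ↥(LinearMap.range p) :=
    Module.Finite.of_surjective p.rangeRestrict p.surjective_rangeRestrict
  have : Module.Finite k ↥(LinearMap.ker q) := by rw [e2]; infer_instance
  have : IsNoetherian k (HMod (phiDF k m d) I (fun _ => ⊥) (r + 1)) :=
    isNoetherian_of_isNoetherianRing_of_finite k _
  have : Module.Finite k ↥(LinearMap.range q) := Module.Finite.iff_fg.2 (IsNoetherian.noetherian _)
  have : Module.Finite k (HMod (phiDF k m d) O I r) :=
    Module.Finite.of_exact (f := (LinearMap.ker q).subtype) (g := q.rangeRestrict)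
      (LinearMap.exact_iff.2 (by rw [LinearMap.ker_rangeRestrict, Submodule.range_subtype]))
      q.surjective_rangeRestrict
  have n1 := LinearMap.finrank_range_add_finrank_ker q
  have n2 := LinearMap.finrank_range_add_finrank_ker p
  have n3 := LinearMap.finrank_range_add_finrank_ker i₁
  rw [e2] at n1
  rw [e1, finrank_free (a := a) hD c r] at n2
  rw [e3, ← (mulImgEquiv (a := a) (g := g) hP hne c (r + 1)).finrank_eq,
    finrank_free (a := a) hD (c + -((D : ℤ) * δ)) (r + 1), ← sub_eq_add_neg] at n3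
  have h1' : (stayR D a g c δ η₀ r).card + Module.finrank k ↥(LinearMap.range p) ≤
      (baseR D a g c r).card :=
    le_trans (Nat.add_le_add_right h1 _) (le_of_eq ((add_comm _ _).trans n2))
  have h2' : (stayR D a g c δ η₀ (r + 1)).card + Module.finrank k ↥(LinearMap.range q) ≤
      (baseR D a g (c - D * δ) (r + 1)).card :=
    le_trans (Nat.add_le_add_right h2 _) (le_of_eq n3)
  omega

end rank

end Vale.Agent.P202
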