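import Vale.Agent.P202.PhiEuler
import Vale.Agent.P202.PhiTorCore

/-!
Module B, layer 9a: the associated graded ring as a family over the residue field, and the transfer
of lengths.
-/

universe u

namespace Vale.Agent.P202

open Finset

section transfer

variable {S T : Type*} [CommRing S] [CommRing T] [Algebra S T] {A : Type*} [AddCommGroup A]
  [Module S A] [Module T A] [IsScalarTower S T A]

lemma sq_restrictScalars (hs : Function.Surjective (algebraMap S T)) (N L : Submodule T A) :
    sq S (N.restrictScalars S) (L.restrictScalars S) = sq T N L := by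
  unfold sq
  let f : ↥(N.restrictScalars S) →ₗ[S] (↥N ⧸ L.comap N.subtype) :=
    { toFun := fun v => Submodule.Quotient.mk (p := L.comap N.subtype) ⟨v.1, v.2⟩
      map_add' := fun _ _ => rfl
      map_smul' := fun _ _ => rfl }
  have hf : Function.Surjective f := by
    intro y
    obtain ⟨⟨v, hv⟩, rfl⟩ := Submodule.Quotient.mk_surjective _ y
    exact ⟨⟨v, hv⟩, rfl⟩
  have hk : LinearMap.ker f = (L.restrictScalars S).comap (N.restrictScalars S).subtype := by
    ext v
    rw [LinearMap.mem_ker]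
    exact Submodule.Quotient.mk_eq_zero _
  rw [← hk, (f.quotKerEquivOfSurjective hf).length_eq]
  exact Module.length_eq_of_surjective hs

lemma hlen_restrictScalars (hs : Function.Surjective (algebraMap S T)) (δ : A →ₗ[T] A)
    (P Q : ℤ → Submodule T A) (r : ℤ) :
    hlen S (δ.restrictScalars S) (fun i => (P i).restrictScalars S)
      (fun i => (Q i).restrictScalars S) r = hlen T δ P Q r := by
  unfold hlen
  rw [← sq_restrictScalars (S := S) hs]
  congr 1
  ext v
  simp only [Submodule.restrictScalars_mem, Submodule.mem_sup, Submodule.mem_map]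
  constructor
  · rintro ⟨_, ⟨y, hy, rfl⟩, z, hz, rfl⟩
    exact ⟨_, ⟨y, hy, rfl⟩, z, hz, rfl⟩
  · rintro ⟨_, ⟨y, hy, rfl⟩, z, hz, rfl⟩
    exact ⟨_, ⟨y, hy, rfl⟩, z, hz, rfl⟩

variable {d : ℕ}

lemma phiD_restrictScalars (X : Fin d → A →ₗ[T] A) :
    (phiD X).restrictScalars S = phiD (fun l => (X l).restrictScalars S) := by
  refine Finsupp.lhom_ext fun i v => ?_
  obtain ⟨⟨J, C⟩, σ, e⟩ := i
  simp only [LinearMap.restrictScalars_apply, phiD_single, phiT_single]

end transfer

section graded

variable (R : Type u) [CommRing R] [IsLocalRing R]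


/-- The `n`-th graded piece. -/
abbrev GrC (n : ℕ) : Type u := ↥((IsLocalRing.maximalIdeal R) ^ n) ⧸ ((IsLocalRing.maximalIdeal R) • ⊤ : Submodule R ↥((IsLocalRing.maximalIdeal R) ^ n))

noncomputable instance grModule (n : ℕ) : Module (IsLocalRing.ResidueField R) (GrC R n) :=
  inferInstanceAs (Module (R ⧸ (IsLocalRing.maximalIdeal R)) (GrC R n))

instance grTower (n : ℕ) : IsScalarTower R (IsLocalRing.ResidueField R) (GrC R n) :=
  IsScalarTower.of_algebraMap_smul fun r v => by
    obtain ⟨w, rfl⟩ := Submodule.Quotient.mk_surjective _ v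
    rfl

/-- The associated graded module. -/
abbrev GrM : Type u := DirectSum ℕ (GrC R)

/-- The Rees module. -/
abbrev ReesM : Type u := DirectSum ℕ fun n => ↥((IsLocalRing.maximalIdeal R) ^ n)

lemma residue_surjective : Function.Surjective (algebraMap R (IsLocalRing.ResidueField R)) := IsLocalRing.residue_surjective

variable {R} {d : ℕ} {x : Fin d → R} {D : ℕ}

lemma mem_smul_top (n : ℕ) (w : ↥((IsLocalRing.maximalIdeal R) ^ n)) :
    w ∈ ((IsLocalRing.maximalIdeal R) • ⊤ : Submodule R ↥((IsLocalRing.maximalIdeal R) ^ n)) ↔ (w : R) ∈ (IsLocalRing.maximalIdeal R) ^ (n + 1) := by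
  rw [Submodule.mem_smul_top_iff, smul_eq_mul, pow_succ, mul_comm]

variable (hx : ∀ l, x l ∈ IsLocalRing.maximalIdeal R ^ D)

/-- Multiplication by `x l` on one piece of the Rees module. -/
noncomputable def mulPiece (l : Fin d) (n : ℕ) : ↥((IsLocalRing.maximalIdeal R) ^ n) →ₗ[R] ↥((IsLocalRing.maximalIdeal R) ^ (n + D)) where
  toFun w := ⟨x l * w, by rw [add_comm, pow_add]; exact Ideal.mul_mem_mul (hx l) w.2⟩
  map_add' v w := Subtype.ext (mul_add _ _ _)
  map_smul' c w := Subtype.ext (by
    change x l * (c • (w : R)) = c • (x l * (w : R))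
    simp only [smul_eq_mul]
    ring)

/-- The operators on the Rees module. -/
noncomputable def xRees (l : Fin d) : ReesM R →ₗ[R] ReesM R :=
  DirectSum.toModule R ℕ _ fun n =>
    (DirectSum.lof R ℕ (fun n => ↥((IsLocalRing.maximalIdeal R) ^ n)) (n + D)).comp (mulPiece hx l n)

lemma xRees_lof (l : Fin d) (n : ℕ) (w : ↥((IsLocalRing.maximalIdeal R) ^ n)) :
    xRees hx l (DirectSum.lof R ℕ (fun n => ↥((IsLocalRing.maximalIdeal R) ^ n)) n w) =
      DirectSum.lof R ℕ (fun n => ↥((IsLocalRing.maximalIdeal R) ^ n)) (n + D) (mulPiece hx l n w) := by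
  rw [xRees, DirectSum.toModule_lof, LinearMap.comp_apply]

/-- Multiplication by `x l` on one graded piece. -/
noncomputable def mulGr (l : Fin d) (n : ℕ) : GrC R n →ₗ[R] GrC R (n + D) :=
  Submodule.mapQ _ _ (mulPiece hx l n) fun w hw => by
    rw [Submodule.mem_comap, mem_smul_top]
    rw [mem_smul_top] at hw
    change x l * (w : R) ∈ (IsLocalRing.maximalIdeal R) ^ (n + D + 1)
    rw [show n + D + 1 = D + (n + 1) by omega, pow_add]
    exact Ideal.mul_mem_mul (hx l) hw

/-- The operators on the associated graded module, over `R`. -/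
noncomputable def xGrR (l : Fin d) : GrM R →ₗ[R] GrM R :=
  DirectSum.toModule R ℕ _ fun n => (DirectSum.lof R ℕ (GrC R) (n + D)).comp (mulGr hx l n)

/-- The operators on the associated graded module, over the residue field. -/
noncomputable def xGr (l : Fin d) : GrM R →ₗ[(IsLocalRing.ResidueField R)] GrM R :=
  (xGrR hx l).extendScalarsOfSurjective (residue_surjective R)

lemma xGr_restrictScalars : (fun l => (xGr hx l).restrictScalars R) = fun l => xGrR hx l := rfl

lemma xGr_lof (l : Fin d) (n : ℕ) (v : GrC R n) :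
    xGr hx l (DirectSum.lof (IsLocalRing.ResidueField R) ℕ (GrC R) n v) = DirectSum.lof (IsLocalRing.ResidueField R) ℕ (GrC R) (n + D) (mulGr hx l n v) :=
  DirectSum.toModule_lof R n v

lemma xGr_comm (a b : Fin d) : xGr hx a ∘ₗ xGr hx b = xGr hx b ∘ₗ xGr hx a := by
  refine DirectSum.linearMap_ext _ fun n => LinearMap.ext fun v => ?_
  obtain ⟨w, rfl⟩ := Submodule.Quotient.mk_surjective _ v
  simp only [LinearMap.comp_apply, xGr_lof]
  congr 1
  change Submodule.Quotient.mk (mulPiece hx a (n + D) (mulPiece hx b n w)) =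
    Submodule.Quotient.mk (mulPiece hx b (n + D) (mulPiece hx a n w))
  congr 1
  apply Subtype.ext
  change x a * (x b * (w : R)) = x b * (x a * (w : R))
  ring

/-- The graded family of the Rees module. -/
noncomputable def reesW (R : Type u) [CommRing R] [IsLocalRing R] (n : ℤ) : Submodule R (ReesM R) :=
  if 0 ≤ n then LinearMap.range (DirectSum.lof R ℕ (fun n => ↥(IsLocalRing.maximalIdeal R ^ n)) n.toNat)
  else ⊥

/-- Its part in the next power. -/
noncomputable def reesU (R : Type u) [CommRing R] [IsLocalRing R] (n : ℤ) : Submodule R (ReesM R) :=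
  if 0 ≤ n then (IsLocalRing.maximalIdeal R • ⊤ : Submodule R ↥(IsLocalRing.maximalIdeal R ^ n.toNat)).map
    (DirectSum.lof R ℕ (fun n => ↥(IsLocalRing.maximalIdeal R ^ n)) n.toNat)
  else ⊥

/-- The family of the associated graded ring. -/
noncomputable def grW (R : Type u) [CommRing R] [IsLocalRing R] (n : ℤ) :
    Submodule (IsLocalRing.ResidueField R) (GrM R) :=
  if 0 ≤ n then LinearMap.range (DirectSum.lof (IsLocalRing.ResidueField R) ℕ (GrC R) n.toNat)
  else ⊥

variable (R) in
/-- The projection of the Rees module to the associated graded module. -/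
noncomputable def toGr : ReesM R →ₗ[R] GrM R :=
  DirectSum.toModule R ℕ _ fun n =>
    (DirectSum.lof R ℕ (GrC R) n).comp ((IsLocalRing.maximalIdeal R) • ⊤ : Submodule R ↥((IsLocalRing.maximalIdeal R) ^ n)).mkQ

lemma toGr_lof (n : ℕ) (w : ↥((IsLocalRing.maximalIdeal R) ^ n)) :
    toGr R (DirectSum.lof R ℕ (fun n => ↥((IsLocalRing.maximalIdeal R) ^ n)) n w) =
      DirectSum.lof R ℕ (GrC R) n (Submodule.Quotient.mk w) := by
  rw [toGr, DirectSum.toModule_lof, LinearMap.comp_apply, Submodule.mkQ_apply]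

lemma reesW_nat (n : ℕ) : reesW R (n : ℤ) = LinearMap.range (DirectSum.lof R ℕ (fun n => ↥((IsLocalRing.maximalIdeal R) ^ n)) n) :=
  if_pos (Int.natCast_nonneg n)

lemma reesU_nat (n : ℕ) : reesU R (n : ℤ) =
    ((IsLocalRing.maximalIdeal R) • ⊤ : Submodule R ↥((IsLocalRing.maximalIdeal R) ^ n)).map (DirectSum.lof R ℕ (fun n => ↥((IsLocalRing.maximalIdeal R) ^ n)) n) :=
  if_pos (Int.natCast_nonneg n)

lemma grW_nat (n : ℕ) : grW R (n : ℤ) = LinearMap.range (DirectSum.lof (IsLocalRing.ResidueField R) ℕ (GrC R) n) :=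
  if_pos (Int.natCast_nonneg n)

lemma reesW_stable : FamStable D (xRees hx) (reesW R) := by
  intro l n v hv
  by_cases hn : 0 ≤ n
  · obtain ⟨N, rfl⟩ : ∃ N : ℕ, n = N := ⟨n.toNat, by omega⟩
    rw [← Nat.cast_add, reesW_nat] at *
    obtain ⟨w, rfl⟩ := hv
    rw [xRees_lof]
    exact ⟨_, rfl⟩
  · rw [reesW, if_neg hn, Submodule.mem_bot] at hv
    rw [hv, map_zero]; exact zero_mem _

lemma reesU_stable : FamStable D (xRees hx) (reesU R) := by
  intro l n v hv
  by_cases hn : 0 ≤ n
  · obtain ⟨N, rfl⟩ : ∃ N : ℕ, n = N := ⟨n.toNat, by omega⟩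
    rw [← Nat.cast_add, reesU_nat] at *
    obtain ⟨w, hw, rfl⟩ := hv
    rw [xRees_lof]
    refine ⟨_, ?_, rfl⟩
    rw [SetLike.mem_coe, mem_smul_top] at hw ⊢
    change x l * (w : R) ∈ _
    rw [show N + D + 1 = D + (N + 1) by omega, pow_add]
    exact Ideal.mul_mem_mul (hx l) hw
  · rw [reesU, if_neg hn, Submodule.mem_bot] at hv
    rw [hv, map_zero]; exact zero_mem _

lemma grW_stable : FamStable (R := (IsLocalRing.ResidueField R)) (M := GrM R) D (xGr hx) (grW R) := by
  intro l n v hv
  by_cases hn : 0 ≤ n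
  · obtain ⟨N, rfl⟩ : ∃ N : ℕ, n = N := ⟨n.toNat, by omega⟩
    rw [← Nat.cast_add, grW_nat] at *
    obtain ⟨w, rfl⟩ := hv
    rw [xGr_lof]
    exact ⟨_, rfl⟩
  · rw [grW, if_neg hn, Submodule.mem_bot] at hv
    rw [hv, map_zero]; exact zero_mem _

lemma reesU_le (n : ℤ) : reesU R n ≤ reesW R n := by
  unfold reesU reesW
  split
  · exact LinearMap.map_le_range
  · exact le_rfl

include hx

/-- The Rees subquotient at level `c` as a pair in the Rees module. -/
lemma hlen_reesW (a : Fin (d - 1) → ℤ) (c r : ℤ) :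
    hlen R (phiD (xRees hx)) (phiC D a (reesW R) c) (phiC D a (reesU R) c) r =
      hlen R (phiD (mulFam x)) (phiC D a (reesFam R) c) (phiC D a (reesFam R) (c + 1)) r := by
  let Φ : ReesM R →ₗ[R] R := DirectSum.toModule R ℕ R fun n => ((IsLocalRing.maximalIdeal R) ^ n).subtype
  have hΦ : ∀ n w, Φ (DirectSum.lof R ℕ (fun n => ↥((IsLocalRing.maximalIdeal R) ^ n)) n w) = (w : R) :=
    fun n w => by simp only [Φ, DirectSum.toModule_lof, Submodule.subtype_apply]
  have hcomm : ∀ l v, Φ (xRees hx l v) = mulFam x l (Φ v) := by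
    intro l v
    refine LinearMap.congr_fun (f := Φ ∘ₗ xRees hx l) (g := mulFam x l ∘ₗ Φ)
      (DirectSum.linearMap_ext _ fun n => LinearMap.ext fun w => ?_) v
    simp only [LinearMap.comp_apply, xRees_lof, hΦ]
    rfl
  have hmap : ∀ n, ∀ v ∈ reesW R n, Φ v ∈ reesFam R n := by
    intro n v hv
    by_cases hn : 0 ≤ n
    · rw [reesW, if_pos hn] at hv
      obtain ⟨w, rfl⟩ := hv
      rw [hΦ]; exact w.2
    · rw [reesW, if_neg hn, Submodule.mem_bot] at hv
      rw [hv, map_zero]; exact zero_mem _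
  have hmap' : ∀ n, ∀ v ∈ reesU R n, Φ v ∈ reesFam R (n + 1) := by
    intro n v hv
    by_cases hn : 0 ≤ n
    · rw [reesU, if_pos hn] at hv
      obtain ⟨w, hw, rfl⟩ := hv
      rw [hΦ, reesFam, show (n + 1).toNat = n.toNat + 1 by omega]
      rwa [SetLike.mem_coe, mem_smul_top] at hw
    · rw [reesU, if_neg hn, Submodule.mem_bot] at hv
      rw [hv, map_zero]; exact zero_mem _
  have hshift : FamStable D (mulFam x) (fun n => reesFam R (n + 1)) := by
    intro l n v hv
    have := reesFam_stable hx l _ v hv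
    rwa [show n + 1 + (D : ℤ) = n + D + 1 by ring] at this
  have e := pairEquiv (D := D) a (X := xRees hx) (X₂ := mulFam x) (W := reesW R)
    (W' := reesU R) (W₂ := reesFam R) (W₂' := fun n => reesFam R (n + 1)) Φ hcomm
    (reesW_stable hx) hshift (fun n => reesFam_antitone (by omega)) hmap hmap' c
    (fun σ v hv => by
      by_cases hn : 0 ≤ c + D * σ
      · refine Submodule.mem_sup_left ⟨DirectSum.lof R ℕ (fun n => ↥((IsLocalRing.maximalIdeal R) ^ n)) _ ⟨v, hv⟩, ?_, hΦ _ _⟩
        rw [SetLike.mem_coe, reesW, if_pos hn]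
        exact ⟨_, rfl⟩
      · refine Submodule.mem_sup_right ?_
        rw [reesFam, show (c + D * σ + 1).toNat = 0 by omega, pow_zero, Ideal.one_eq_top]
        trivial)
    (fun σ v hv hv' => by
      by_cases hn : 0 ≤ c + D * σ
      · rw [reesW, if_pos hn] at hv
        obtain ⟨w, rfl⟩ := hv
        rw [hΦ, reesFam, show (c + D * σ + 1).toNat = (c + D * σ).toNat + 1 by omega] at hv'
        rw [reesU, if_pos hn]
        exact ⟨w, by rw [SetLike.mem_coe, mem_smul_top]; exact hv', rfl⟩
      · rw [reesW, if_neg hn] at hv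
        rw [reesU, if_neg hn]; exact hv) r
  rw [hlen_eq_length, hlen_eq_length, e.length_eq, phiC_shift_add a (reesFam R) 1 c]

/-- The length over `R` of a Rees subquotient is the length over the residue field of the graded
pair. -/
lemma hlen_rees_gr (a : Fin (d - 1) → ℤ) (c r : ℤ) :
    hlen R (phiD (mulFam x)) (phiC D a (reesFam R) c) (phiC D a (reesFam R) (c + 1)) r =
      Module.length (IsLocalRing.ResidueField R) (HPair (A := (IsLocalRing.ResidueField R)) (M := GrM R) D a (xGr hx) (grW R) (fun _ => ⊥) c r) := by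
  rw [← hlen_reesW hx a c r, hlen_eq_length]
  set π := toGr R with hπdef
  have hπ := @toGr_lof R _ _
  rw [← hπdef] at hπ
  have hcomm : ∀ l v, π (xRees hx l v) = xGrR hx l (π v) := by
    intro l v
    refine LinearMap.congr_fun (f := π ∘ₗ xRees hx l) (g := xGrR hx l ∘ₗ π)
      (DirectSum.linearMap_ext _ fun n => LinearMap.ext fun w => ?_) v
    simp only [LinearMap.comp_apply, xRees_lof, hπ, xGrR, DirectSum.toModule_lof]
    rfl
  let W₂ : ℤ → Submodule R (GrM R) := fun n => (grW R n).restrictScalars R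
  have hW₂bot : FamStable (R := R) (M := GrM R) D (xGrR hx) (fun _ => ⊥) :=
    famBot_stable _
  have hmap : ∀ n, ∀ v ∈ reesW R n, π v ∈ W₂ n := by
    intro n v hv
    by_cases hn : 0 ≤ n
    · rw [reesW, if_pos hn] at hv
      obtain ⟨w, rfl⟩ := hv
      simp only [W₂, Submodule.restrictScalars_mem, grW, hn, if_true, hπ]
      exact ⟨_, rfl⟩
    · rw [reesW, if_neg hn, Submodule.mem_bot] at hv
      rw [hv, map_zero]; exact zero_mem _
  have hmap' : ∀ n, ∀ v ∈ reesU R n, π v ∈ (⊥ : Submodule R (GrM R)) := by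
    intro n v hv
    by_cases hn : 0 ≤ n
    · rw [reesU, if_pos hn] at hv
      obtain ⟨w, hw, rfl⟩ := hv
      rw [hπ, (Submodule.Quotient.mk_eq_zero _).2 hw, map_zero]
      exact zero_mem _
    · rw [reesU, if_neg hn, Submodule.mem_bot] at hv
      rw [hv, map_zero]; exact zero_mem _
  have e := pairEquiv (D := D) a (X := xRees hx) (X₂ := xGrR hx)
    (W := reesW R) (W' := reesU R) (M₂ := GrM R) (W₂ := W₂) (W₂' := fun _ => ⊥) π hcomm
    (reesW_stable hx) hW₂bot (fun n => bot_le) hmap hmap' c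
    (fun σ v hv => by
      by_cases hn : 0 ≤ c + D * σ
      · simp only [W₂, Submodule.restrictScalars_mem, grW, hn, if_true] at hv
        obtain ⟨w, rfl⟩ := hv
        obtain ⟨w, rfl⟩ := Submodule.Quotient.mk_surjective _ w
        refine Submodule.mem_sup_left ⟨_, ?_, hπ _ w⟩
        rw [SetLike.mem_coe, reesW, if_pos hn]
        exact ⟨_, rfl⟩
      · simp only [W₂, Submodule.restrictScalars_mem, grW, hn, if_false, Submodule.mem_bot] at hv
        rw [hv]; exact zero_mem _)
    (fun σ v hv hv' => by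
      by_cases hn : 0 ≤ c + D * σ
      · rw [reesW, if_pos hn] at hv
        obtain ⟨w, rfl⟩ := hv
        rw [Submodule.mem_bot, hπ] at hv'
        rw [reesU, if_pos hn]
        refine ⟨w, (Submodule.Quotient.mk_eq_zero _).1 ?_, rfl⟩
        exact (DFinsupp.single_injective (β := GrC R) (i := (c + D * σ).toNat)) (hv'.trans
          (DFinsupp.single_zero _).symm)
      · rw [reesW, if_neg hn] at hv
        rw [reesU, if_neg hn]; exact hv) r
  rw [e.length_eq, ← hlen_eq_length, ← hlen_eq_length, ← hlen_restrictScalars (S := R)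
    (residue_surjective R), phiD_restrictScalars]
  congr 1

/-- The graded family is finitely generated over the residue field. -/
lemma grW_fg [IsNoetherianRing R] (hD : 0 < D)
    (hred : ∃ n₀ : ℕ, ∀ n, n₀ ≤ n → (IsLocalRing.maximalIdeal R) ^ (n + D) ≤ Ideal.span (Set.range x) * (IsLocalRing.maximalIdeal R) ^ n) :
    FGPair (A := (IsLocalRing.ResidueField R)) (M := GrM R) D (xGr_comm hx) (grW R) (fun _ => ⊥) := by
  classical
  obtain ⟨n₀, hn₀⟩ := hred
  have hfg : ∀ n : ℕ, (grW R n).FG := by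
    intro n
    rw [grW_nat]
    have h1 : Module.Finite R ↥((IsLocalRing.maximalIdeal R) ^ n) := Module.Finite.iff_fg.2 (IsNoetherian.noetherian _)
    have h2 : Module.Finite (IsLocalRing.ResidueField R) (GrC R n) :=
      Module.Finite.of_restrictScalars_finite R (IsLocalRing.ResidueField R) _
    rw [← Submodule.map_top]
    exact Submodule.FG.map _ Module.Finite.fg_top
  choose T hT using hfg
  let G : Finset (ℤ × GrM R) := (Finset.range (n₀ + D)).biUnion fun n =>
    (T n).image fun w => ((n : ℤ), w)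
  have hG : ∀ j : Fin G.card, (G.equivFin.symm j).1.2 ∈ grW R (G.equivFin.symm j).1.1 := by
    intro j
    obtain ⟨n, -, hn⟩ := Finset.mem_biUnion.1 (G.equivFin.symm j).2
    obtain ⟨w, hw, he⟩ := Finset.mem_image.1 hn
    rw [← he]
    dsimp only
    rw [← hT n]
    exact Submodule.subset_span hw
  let g : Fin G.card → ℤ := fun j => (G.equivFin.symm j).1.1
  let gen : Fin G.card → GrM R := fun j => (G.equivFin.symm j).1.2
  refine ⟨grW_stable hx, famBot_stable _, fun n => bot_le, G.card, g, gen, hG, fun n => ?_⟩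
  refine le_trans ?_ le_sup_left
  by_cases hn : 0 ≤ n
  swap
  · rw [grW, if_neg hn]; exact bot_le
  obtain ⟨n, rfl⟩ : ∃ m : ℕ, n = m := ⟨n.toNat, by omega⟩
  clear hn
  induction n using Nat.strong_induction_on with
  | _ n ih =>
  by_cases hs : n < n₀ + D
  · rw [← hT n, Submodule.span_le]
    intro w hw
    have hmem : ((n : ℤ), w) ∈ G :=
      Finset.mem_biUnion.2 ⟨n, Finset.mem_range.2 hs, Finset.mem_image.2 ⟨w, hw, rfl⟩⟩
    refine ⟨Finsupp.single (G.equivFin ⟨_, hmem⟩, (0 : Fin d →₀ ℕ)) 1, mem_freeFam.2 fun p hp => ?_,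
      ?_⟩
    · rw [Finsupp.single_apply] at hp
      split at hp
      · rename_i e; subst e; simp [g, bdeg]
      · exact absurd rfl hp
    · rw [evFree_single, one_smul, xPow_zero]
      simp [gen]
  · obtain ⟨n', rfl⟩ : ∃ n', n = n' + D := ⟨n - D, by omega⟩
    have ih' := ih n' (by omega)
    set U := (freeFam (IsLocalRing.ResidueField R) D g ((n' + D : ℕ) : ℤ)).map (evFree (xGr_comm hx) gen) with hU
    intro v hv
    rw [grW_nat] at hv
    obtain ⟨v, rfl⟩ := hv
    obtain ⟨⟨w, hw⟩, rfl⟩ := Submodule.Quotient.mk_surjective _ v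
    suffices key : ∀ w, w ∈ Ideal.span (Set.range x) * (IsLocalRing.maximalIdeal R) ^ n' → ∀ hw : w ∈ (IsLocalRing.maximalIdeal R) ^ (n' + D),
        DirectSum.lof (IsLocalRing.ResidueField R) ℕ (GrC R) (n' + D) (Submodule.Quotient.mk ⟨w, hw⟩) ∈ U from
      key w (hn₀ n' (by omega) hw) hw
    intro w hw'
    have hsub : Ideal.span (Set.range x) * (IsLocalRing.maximalIdeal R) ^ n' ≤ (IsLocalRing.maximalIdeal R) ^ (n' + D) := by
      rw [add_comm, pow_add]
      exact Ideal.mul_mono_left (Ideal.span_le.2 (by rintro _ ⟨l, rfl⟩; exact hx l))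
    induction hw' using Submodule.mul_induction_on' with
    | mem_mul_mem y hy u hu =>
      induction hy using Submodule.span_induction with
      | mem y hy =>
        obtain ⟨l, rfl⟩ := hy
        intro hw
        have h0 : DirectSum.lof (IsLocalRing.ResidueField R) ℕ (GrC R) n' (Submodule.Quotient.mk ⟨u, hu⟩) ∈
            grW R (n' : ℤ) := by
          rw [grW_nat]
          exact ⟨_, rfl⟩
        obtain ⟨f, hf, hfe⟩ := ih' h0
        refine ⟨xFree (IsLocalRing.ResidueField R) l f, ?_, ?_⟩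
        · have := freeFam_stable g l _ f hf
          rw [SetLike.mem_coe, Nat.cast_add]
          exact this
        · rw [evFree_xFree, hfe, xGr_lof]
          rfl
      | zero =>
        intro hw
        have e : (⟨0 * u, hw⟩ : ↥((IsLocalRing.maximalIdeal R) ^ (n' + D))) = 0 := Subtype.ext (zero_mul u)
        rw [e, Submodule.Quotient.mk_zero, map_zero]
        exact zero_mem _
      | add y y' hys hys' hy hy' =>
        intro hw
        have m1 : y * u ∈ (IsLocalRing.maximalIdeal R) ^ (n' + D) := hsub (Ideal.mul_mem_mul hys hu)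
        have m2 : y' * u ∈ (IsLocalRing.maximalIdeal R) ^ (n' + D) := hsub (Ideal.mul_mem_mul hys' hu)
        have e : (⟨(y + y') * u, hw⟩ : ↥((IsLocalRing.maximalIdeal R) ^ (n' + D))) = ⟨y * u, m1⟩ + ⟨y' * u, m2⟩ :=
          Subtype.ext (add_mul y y' u)
        rw [e, Submodule.Quotient.mk_add, map_add]
        exact Submodule.add_mem _ (hy m1) (hy' m2)
      | smul b y hys hy =>
        intro hw
        have m1 : y * u ∈ (IsLocalRing.maximalIdeal R) ^ (n' + D) := hsub (Ideal.mul_mem_mul hys hu)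
        have e : (⟨b • y * u, hw⟩ : ↥((IsLocalRing.maximalIdeal R) ^ (n' + D))) = b • ⟨y * u, m1⟩ :=
          Subtype.ext (by simp [smul_eq_mul, mul_assoc])
        rw [e, Submodule.Quotient.mk_smul, ← IsScalarTower.algebraMap_smul (IsLocalRing.ResidueField R) b, map_smul]
        exact Submodule.smul_mem _ _ (hy m1)
    | add w₁ hw₁ w₂ hw₂ h₁ h₂ =>
      intro hw
      have e : (⟨w₁ + w₂, hw⟩ : ↥((IsLocalRing.maximalIdeal R) ^ (n' + D))) = ⟨w₁, hsub hw₁⟩ + ⟨w₂, hsub hw₂⟩ := rfl
      rw [e, Submodule.Quotient.mk_add, map_add]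
      exact Submodule.add_mem _ (h₁ (hsub hw₁)) (h₂ (hsub hw₂))

end graded

end Vale.Agent.P202
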