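import Vale.Agent.P202.PhiGrFree

/-!
Module B, layer 9c: the multiplicity is the rank of the free part divided by `D ^ d`.
-/

universe u

namespace Vale.Agent.P202

open Finset Filter

section counting

variable {d m : ℕ}

/-- The exponents of degree less than `A`. -/
noncomputable def bbox (d A : ℕ) : Finset (Fin d →₀ ℕ) :=
  (range A).biUnion fun i => (univ : Finset (Fin d)).finsuppAntidiag i

lemma mem_bbox {A : ℕ} {β : Fin d →₀ ℕ} : β ∈ bbox d A ↔ bdeg β < A := by
  simp [bbox, Finset.mem_finsuppAntidiag, bdeg]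

lemma card_bbox_succ (A : ℕ) : (bbox d (A + 1)).card = (A + d).choose d := by
  rw [← Nat.choose_symm_add]
  induction A with
  | zero =>
    have e : bbox d 1 = {0} := by
      ext β
      rw [mem_bbox, Finset.mem_singleton, Nat.lt_one_iff]
      constructor
      · intro h
        ext j
        simpa using (Finset.sum_eq_zero_iff_of_nonneg (fun _ _ => Nat.zero_le _)).1 h j (mem_univ j)
      · rintro rfl; simp [bdeg]
    simp [e]
  | succ A ih =>
    have e : bbox d (A + 1 + 1) =
        (univ : Finset (Fin d)).finsuppAntidiag (A + 1) ∪ bbox d (A + 1) := by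
      rw [bbox, bbox, Finset.range_add_one (n := A + 1), Finset.biUnion_insert]
    rw [e, Finset.card_union_of_disjoint, ih, Finset.card_finsuppAntidiag_nat_eq_choose]
    · rw [Finset.card_univ, Fintype.card_fin, show d + (A + 1) - 1 = A + d by omega,
        show A + 1 + d = A + d + 1 by omega, Nat.choose_succ_succ]
      ring
    · refine Finset.disjoint_left.2 fun β h1 h2 => ?_
      rw [mem_bbox] at h2
      rw [Finset.mem_finsuppAntidiag] at h1
      have : bdeg β = A + 1 := h1.1
      omega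

/-- The monomials of a free family in degree `n`. -/
noncomputable def fib (D : ℕ) (g : Fin m → ℤ) (n : ℤ) : Finset (FIdx m d) :=
  ((univ : Finset (Fin m)) ×ˢ bbox d (n.natAbs + (∑ i, (g i).natAbs) + 1)).filter
    fun p => g p.1 + D * bdeg p.2 = n

variable {D : ℕ} {g : Fin m → ℤ}

lemma mem_fib (hD : 0 < D) {n : ℤ} {p : FIdx m d} :
    p ∈ fib D g n ↔ g p.1 + D * bdeg p.2 = n := by
  rw [fib, Finset.mem_filter, Finset.mem_product, mem_bbox, and_iff_right_iff_imp]
  intro h
  refine ⟨mem_univ _, ?_⟩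
  have h1 : (g p.1).natAbs ≤ ∑ i, (g i).natAbs :=
    Finset.single_le_sum (f := fun i => (g i).natAbs) (fun _ _ => Nat.zero_le _) (mem_univ p.1)
  have h2 : bdeg p.2 ≤ D * bdeg p.2 := Nat.le_mul_of_pos_left _ hD
  have h3 : g p.1 + ((D * bdeg p.2 : ℕ) : ℤ) = n := by rw [← h]; push_cast; rfl
  omega

lemma card_fib_le (hd : 0 < d) (hD : 0 < D) (n : ℤ) :
    ((fib D g n : Finset (FIdx m d))).card ≤
      m * (n.natAbs + (∑ i, (g i).natAbs) + d) ^ (d - 1) := by
  have hsub : (fib D g n : Finset (FIdx m d)) ⊆ (univ : Finset (Fin m)).biUnion fun k =>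
      ((univ : Finset (Fin d)).finsuppAntidiag ((n - g k) / D).toNat).image fun β => (k, β) := by
    intro p hp
    have hp' := (mem_fib hD).1 hp
    refine Finset.mem_biUnion.2 ⟨p.1, mem_univ _, Finset.mem_image.2 ⟨p.2, ?_, rfl⟩⟩
    rw [Finset.mem_finsuppAntidiag, ← hp', add_sub_cancel_left,
      Int.mul_ediv_cancel_left _ (by omega), Int.toNat_natCast]
    exact ⟨rfl, Finset.subset_univ _⟩
  refine (Finset.card_le_card hsub).trans (Finset.card_biUnion_le.trans ?_)
  refine (Finset.sum_le_sum (g := fun _ => (n.natAbs + (∑ i, (g i).natAbs) + d) ^ (d - 1))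
    fun k _ => ?_).trans (by simp)
  refine Finset.card_image_le.trans ?_
  rw [Finset.card_finsuppAntidiag_nat_eq_choose, Finset.card_univ, Fintype.card_fin,
    Nat.choose_symm_of_eq_add (b := d - 1) (by omega)]
  refine (Nat.choose_le_pow _ _).trans (Nat.pow_le_pow_left ?_ _)
  have h1 : (g k).natAbs ≤ ∑ i, (g i).natAbs :=
    Finset.single_le_sum (f := fun i => (g i).natAbs) (fun _ _ => Nat.zero_le _) (mem_univ k)
  have h2 : ((n - g k) / (D : ℤ)).natAbs ≤ (n - g k).natAbs := Int.natAbs_ediv_le_natAbs _ _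
  omega

/-- The number of degrees `h + D * b` below `N`. -/
def numBelow (D : ℕ) (h : ℤ) (N : ℕ) : ℕ := ((N : ℤ) - h + D - 1).toNat / D

lemma lt_numBelow (hD : 0 < D) (h : ℤ) (N b : ℕ) : b < numBelow D h N ↔ h + D * b < N := by
  rw [numBelow, ← Nat.add_one_le_iff, Nat.le_div_iff_mul_le hD,
    show (b + 1) * D = D * b + D by ring]
  have h3 : h + (D : ℤ) * b = h + ((D * b : ℕ) : ℤ) := by push_cast; rfl
  omega

lemma sum_card_fib (hD : 0 < D) (hg : ∀ k, 0 ≤ g k) (N : ℕ) :
    ∑ n ∈ range N, ((fib D g (n : ℤ) : Finset (FIdx m d))).card =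
      ∑ k, (bbox d (numBelow D (g k) N)).card := by
  classical
  set U := (univ : Finset (Fin m)).sigma fun k => bbox d (numBelow D (g k) N) with hU
  have hmaps : ∀ q ∈ U, (g q.1 + D * bdeg q.2).toNat ∈ range N := by
    intro q hq
    rw [hU, Finset.mem_sigma, mem_bbox, lt_numBelow hD] at hq
    rw [Finset.mem_range]
    have := hg q.1
    have : (0 : ℤ) ≤ D * (bdeg q.2 : ℤ) := by positivity
    omega
  rw [show ∑ k, (bbox d (numBelow D (g k) N)).card = U.card from (Finset.card_sigma _ _).symm,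
    Finset.card_eq_sum_card_fiberwise hmaps]
  refine Finset.sum_congr rfl fun n hn => ?_
  refine (Finset.card_bij (fun q _ => (q.1, q.2)) ?_ ?_ ?_).symm
  · intro q hq
    rw [Finset.mem_filter, hU, Finset.mem_sigma, mem_bbox, lt_numBelow hD] at hq
    rw [mem_fib hD]
    have := hg q.1
    have : (0 : ℤ) ≤ D * (bdeg q.2 : ℤ) := by positivity
    dsimp only
    omega
  · intro q _ q' _ h
    simp only [Prod.mk.injEq] at h
    exact Sigma.ext h.1 (heq_of_eq h.2)
  · intro p hp
    rw [mem_fib hD] at hp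
    refine ⟨⟨p.1, p.2⟩, ?_, rfl⟩
    rw [Finset.mem_filter, hU, Finset.mem_sigma, mem_bbox, lt_numBelow hD]
    rw [Finset.mem_range] at hn
    dsimp only
    refine ⟨⟨mem_univ _, by omega⟩, by omega⟩

lemma tendsto_affine_pow (c : ℝ) (D n : ℕ) :
    Tendsto (fun N : ℕ => (((N : ℝ) + c) / D) ^ n / (N : ℝ) ^ n) atTop
      (nhds (1 / (D : ℝ) ^ n)) := by
  have h0 : Tendsto (fun N : ℕ => ((1 : ℝ) + c / N) / D) atTop (nhds ((1 + 0) / D)) :=
    ((tendsto_const_nhds.add (tendsto_const_div_atTop_nhds_zero_nat c)).div_const _)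
  have h1 := h0.pow n
  rw [add_zero, div_pow, one_pow] at h1
  refine h1.congr' ?_
  filter_upwards [eventually_gt_atTop 0] with N hN
  have : (N : ℝ) ≠ 0 := by positivity
  rw [← div_pow]
  congr 1
  field_simp

lemma tendsto_card_bbox (hD : 0 < D) (h : ℤ) :
    Tendsto (fun N : ℕ => (d.factorial : ℝ) * (bbox d (numBelow D h N)).card / (N : ℝ) ^ d) atTop
      (nhds (1 / (D : ℝ) ^ d)) := by
  refine tendsto_of_tendsto_of_tendsto_of_le_of_le' (tendsto_affine_pow (-(h : ℝ)) D d)
    (tendsto_affine_pow (-(h : ℝ) + d * D) D d) ?_ ?_ <;>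
  · filter_upwards [eventually_gt_atTop h.toNat] with N hN
    have hpos : 0 < numBelow D h N := (lt_numBelow hD h N 0).2 (by omega)
    obtain ⟨A, hA⟩ : ∃ A, numBelow D h N = A + 1 := ⟨_, (Nat.sub_add_cancel hpos).symm⟩
    have hlo : h + (D : ℤ) * A < N := (lt_numBelow hD h N A).1 (by omega)
    have hhi : (N : ℤ) ≤ h + (D : ℤ) * (A + 1 : ℕ) := by
      by_contra hh
      have := (lt_numBelow hD h N (A + 1)).2 (by omega)
      omega
    have hloR : (h : ℝ) + D * A ≤ N := by exact_mod_cast hlo.le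
    have hhiR : (N : ℝ) ≤ h + D * (A + 1) := by exact_mod_cast hhi
    rw [hA, card_bbox_succ]
    have hch : (d.factorial : ℝ) * ((A + d).choose d : ℕ) = ((A + 1).ascFactorial d : ℕ) := by
      rw [Nat.ascFactorial_eq_factorial_mul_choose]; push_cast; rfl
    rw [hch]
    have hb1 : (((A + 1) ^ d : ℕ) : ℝ) ≤ (((A + 1).ascFactorial d : ℕ) : ℝ) := by
      exact_mod_cast Nat.pow_succ_le_ascFactorial (A + 1) d
    have hb2 : (((A + 1).ascFactorial d : ℕ) : ℝ) ≤ (((A + d) ^ d : ℕ) : ℝ) := by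
      exact_mod_cast Nat.ascFactorial_le_pow_add A d
    push_cast at hb1 hb2
    have hD' : (0 : ℝ) < D := by exact_mod_cast hD
    have hhN : (h : ℝ) ≤ N := by
      have : h ≤ (N : ℤ) := by omega
      exact_mod_cast this
    gcongr
    first
    | refine le_trans (pow_le_pow_left₀ (div_nonneg (by linarith) hD'.le) ?_ _) hb1
      rw [div_le_iff₀ hD']
      nlinarith
    | refine hb2.trans (pow_le_pow_left₀ (by positivity) ?_ _)
      rw [le_div_iff₀ hD']
      nlinarith

/-- Sums of differences at distance `Δ` telescope. -/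
lemma sum_sub_shift (f : ℤ → ℤ) (Δ : ℕ) (N : ℕ) :
    ∑ n ∈ range N, (f n - f ((n : ℤ) - Δ)) =
      ∑ i ∈ range Δ, f ((N : ℤ) - Δ + i) - ∑ i ∈ range Δ, f (-(Δ : ℤ) + i) := by
  induction N with
  | zero => simp
  | succ N ih =>
    have h1 := Finset.sum_range_succ (fun i => f ((N : ℤ) - Δ + i)) Δ
    have h2 := Finset.sum_range_succ' (fun i => f ((N : ℤ) - Δ + i)) Δ
    have e1 : (N : ℤ) - Δ + Δ = N := by ring
    have e2 : ∀ i : ℕ, (N : ℤ) - Δ + ((i + 1 : ℕ) : ℤ) = ((N + 1 : ℕ) : ℤ) - Δ + i := fun i => by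
      push_cast; ring
    simp only [e1, e2, Nat.cast_zero, add_zero] at h1 h2
    rw [Finset.sum_range_succ, ih]
    linarith [h1, h2]

end counting

section dim

variable {k : Type u} [Field k] {d D m : ℕ} {g : Fin m → ℤ}

lemma freeFam_eq_supported (hD : 0 < D) (n : ℤ) :
    freeFam k (d := d) D g n = Finsupp.supported k k (↑(fib (d := d) D g n) : Set (FIdx m d)) := by
  rw [freeFam]
  congr 1
  ext p
  simp [mem_fib hD]

lemma finite_freeFam (hD : 0 < D) (n : ℤ) : Module.Finite k ↥(freeFam k (d := d) D g n) := by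
  rw [freeFam_eq_supported hD]
  exact Module.Finite.equiv (Finsupp.supportedEquivFinsupp (↑(fib (d := d) D g n) : Set (FIdx m d))).symm

lemma finrank_freeFam (hD : 0 < D) (n : ℤ) :
    Module.finrank k ↥(freeFam k (d := d) D g n) = (fib D g n : Finset (FIdx m d)).card := by
  rw [freeFam_eq_supported hD,
    (Finsupp.supportedEquivFinsupp (↑(fib (d := d) D g n) : Set (FIdx m d))).finrank_eq,
    Module.finrank_finsupp_self]
  exact Fintype.card_coe _

lemma finrank_map_of_injOn {V V' : Type*} [AddCommGroup V] [Module k V] [AddCommGroup V']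
    [Module k V'] (f : V →ₗ[k] V') (U : Submodule k V) [Module.Finite k U]
    (h : ∀ v ∈ U, f v = 0 → v = 0) : Module.finrank k ↥(U.map f) = Module.finrank k U := by
  have h1 := LinearMap.finrank_range_add_finrank_ker (f ∘ₗ U.subtype)
  have h2 : LinearMap.ker (f ∘ₗ U.subtype) = ⊥ := by
    rw [Submodule.eq_bot_iff]
    exact fun v hv => Subtype.ext (h v.1 v.2 hv)
  rw [h2, finrank_bot, add_zero, LinearMap.range_comp, Submodule.range_subtype] at h1
  exact h1

variable {M : Type u} [AddCommGroup M] [Module k M] {X : Fin d → M →ₗ[k] M}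

/-- The dimension of a family differs from that of its free part by that of a torsion quotient. -/
theorem dim_sandwich (hD : 0 < D) (hX : ∀ a b, X a ∘ₗ X b = X b ∘ₗ X a) {W : ℤ → Submodule k M}
    (hW : FamStable D X W) (gen : Fin m → M) (hgen : ∀ i, gen i ∈ W (g i))
    (hsur : ∀ n, W n ≤ (freeFam k D g n).map (evFree hX gen)) {s : ℕ} (h : Fin s → ℤ)
    (gen' : Fin s → M) (hgen' : ∀ i, gen' i ∈ W (h i))
    (hinj : ∀ n, ∀ f ∈ freeFam k (d := d) D h n, evFree hX gen' f = 0 → f = 0)
    {P : MvPolynomial (Fin d) k} {δ : ℕ} (hne : P ≠ 0) (hP : ∀ β ∈ P.support, bdeg β = δ)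
    (hkill : ∀ n, ∀ v ∈ W n, pAct hX P v ∈ (freeFam k D h (n + D * δ)).map (evFree hX gen'))
    (n : ℤ) :
    ((fib D h n : Finset (FIdx s d)).card : ℤ) ≤ Module.finrank k ↥(W n) ∧
      (Module.finrank k ↥(W n) : ℤ) - (fib D h n : Finset (FIdx s d)).card ≤
        ((fib D g n : Finset (FIdx m d)).card : ℤ) -
          (fib D g (n - (D : ℤ) * δ) : Finset (FIdx m d)).card := by
  have := finite_freeFam (k := k) (d := d) (g := g) hD n
  have := finite_freeFam (k := k) (d := d) (g := g) hD (n - (D : ℤ) * δ)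
  have := finite_freeFam (k := k) (d := d) (g := h) hD n
  have hWeq : W n = (freeFam k D g n).map (evFree hX gen) :=
    le_antisymm (hsur n) (Submodule.map_le_iff_le_comap.2 fun f hf => evFree_mem hX gen hW hgen hf)
  have hWfin : Module.Finite k ↥(W n) := by rw [hWeq]; infer_instance
  set T := (freeFam k D h n).map (evFree hX gen') with hT
  have hTW : T ≤ W n :=
    Submodule.map_le_iff_le_comap.2 fun f hf => evFree_mem hX gen' hW hgen' hf
  have hTdim : Module.finrank k T = (fib D h n : Finset (FIdx s d)).card := by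
    rw [hT, finrank_map_of_injOn _ _ (hinj n), finrank_freeFam hD]
  have h1 := LinearMap.finrank_range_add_finrank_ker (T.mkQ ∘ₗ (W n).subtype)
  have hk1 : LinearMap.ker (T.mkQ ∘ₗ (W n).subtype) = T.comap (W n).subtype := by
    rw [LinearMap.ker_comp, Submodule.ker_mkQ]
  rw [hk1, (Submodule.comapSubtypeEquivOfLe hTW).finrank_eq, hTdim, LinearMap.range_comp,
    Submodule.range_subtype] at h1
  have h2 := LinearMap.finrank_range_add_finrank_ker (K := k) (V := ↥(freeFam k (d := d) D g n))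
    ((T.mkQ ∘ₗ evFree hX gen) ∘ₗ (freeFam k (d := d) D g n).subtype)
  rw [LinearMap.range_comp, Submodule.range_subtype, Submodule.map_comp, ← hWeq,
    finrank_freeFam hD] at h2
  set ψ : FreeMod k m d →ₗ[k] FreeMod k m d :=
    pAct (X := fun l => (xFree k l : FreeMod k m d →ₗ[k] _)) xFree_comm P with hψ
  set I := (freeFam k (d := d) D g (n - (D : ℤ) * δ)).map ψ with hI
  have hIle : I ≤ freeFam k D g n := by
    rintro _ ⟨f, hf, rfl⟩
    have := pAct_mem (X := fun l => (xFree k l : FreeMod k m d →ₗ[k] _)) xFree_comm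
      (freeFam_stable g) hP hf
    rwa [sub_add_cancel] at this
  have hIdim : Module.finrank k I =
      (fib D g (n - (D : ℤ) * δ) : Finset (FIdx m d)).card := by
    rw [hI, finrank_map_of_injOn _ _ (fun f _ hf => ?_), finrank_freeFam hD]
    apply (polyEquiv k m d).injective
    rw [map_zero]
    have := congrArg (polyEquiv k m d) hf
    rw [map_zero, hψ, polyEquiv_pAct] at this
    exact (smul_eq_zero.1 this).resolve_left hne
  have hker : I.comap (freeFam k (d := d) D g n).subtype ≤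
      LinearMap.ker ((T.mkQ ∘ₗ evFree hX gen) ∘ₗ (freeFam k (d := d) D g n).subtype) := by
    rintro ⟨v, hv⟩ ⟨f, hf, hfv⟩
    simp only [Submodule.subtype_apply] at hfv
    rw [LinearMap.mem_ker, LinearMap.comp_apply, LinearMap.comp_apply, Submodule.mkQ_apply,
      Submodule.Quotient.mk_eq_zero, Submodule.subtype_apply]
    change evFree hX gen v ∈ T
    rw [← hfv, hψ, evFree_pAct]
    have := hkill _ _ (evFree_mem hX gen hW hgen hf)
    rwa [sub_add_cancel] at this
  have : Module.Finite k ↥(LinearMap.ker ((T.mkQ ∘ₗ evFree hX gen) ∘ₗ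
      (freeFam k (d := d) D g n).subtype)) :=
    have := isNoetherian_of_isNoetherianRing_of_finite k ↥(freeFam k (d := d) D g n)
    Module.Finite.iff_fg.2 (IsNoetherian.noetherian _)
  have h3 := Submodule.finrank_mono hker
  rw [(Submodule.comapSubtypeEquivOfLe hIle).finrank_eq, hIdim] at h3
  omega

/-- The growth of a family is that of its free part. -/
theorem hilbert_limit (hd : 0 < d) (hD : 0 < D) (hX : ∀ a b, X a ∘ₗ X b = X b ∘ₗ X a)
    {W : ℤ → Submodule k M} (hW : FamStable D X W) (hneg : ∀ n : ℤ, n < 0 → W n = ⊥)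
    (gen : Fin m → M) (hgen : ∀ i, gen i ∈ W (g i))
    (hsur : ∀ n, W n ≤ (freeFam k D g n).map (evFree hX gen)) {s : ℕ} (h : Fin s → ℤ)
    (gen' : Fin s → M) (hgen' : ∀ i, gen' i ∈ W (h i))
    (hinj : ∀ n, ∀ f ∈ freeFam k (d := d) D h n, evFree hX gen' f = 0 → f = 0)
    {P : MvPolynomial (Fin d) k} {δ : ℕ} (hne : P ≠ 0) (hP : ∀ β ∈ P.support, bdeg β = δ)
    (hkill : ∀ n, ∀ v ∈ W n, pAct hX P v ∈ (freeFam k D h (n + D * δ)).map (evFree hX gen')) :
    Tendsto (fun N : ℕ => (d.factorial : ℝ) *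
        ((∑ n ∈ range N, Module.finrank k ↥(W (n : ℤ)) : ℕ) : ℝ) / (N : ℝ) ^ d) atTop
      (nhds ((s : ℝ) / (D : ℝ) ^ d)) := by
  have hh : ∀ i, 0 ≤ h i := by
    intro i
    by_contra hneg'
    have h0 := hgen' i
    rw [hneg _ (by omega), Submodule.mem_bot] at h0
    have hz := hinj (h i) (Finsupp.single (i, 0) 1) (mem_freeFam.2 fun p hp => by
      rw [Finsupp.single_apply] at hp
      split at hp
      · rename_i e; subst e; simp [bdeg]
      · exact absurd rfl hp) (by rw [evFree_single, one_smul, xPow_zero, h0])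
    simp at hz
  set Δ := D * δ with hΔ
  set G := ∑ i, (g i).natAbs with hG
  let f : ℤ → ℤ := fun n => ((fib D g n : Finset (FIdx m d)).card : ℤ)
  have herr : ∀ N : ℕ,
      (((∑ n ∈ range N, Module.finrank k ↥(W (n : ℤ))) : ℕ) : ℝ) -
        ((∑ i, (bbox d (numBelow D (h i) N)).card : ℕ) : ℝ) ≤
      ((Δ * m : ℕ) : ℝ) * ((N : ℝ) + (Δ + G + d : ℕ)) ^ (d - 1) ∧
      ((∑ i, (bbox d (numBelow D (h i) N)).card : ℕ) : ℝ) ≤
        (((∑ n ∈ range N, Module.finrank k ↥(W (n : ℤ))) : ℕ) : ℝ) := by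
    intro N
    have hs : ∀ n : ℕ, ((fib D h (n : ℤ) : Finset (FIdx s d)).card : ℤ) ≤
        Module.finrank k ↥(W (n : ℤ)) ∧
        (Module.finrank k ↥(W (n : ℤ)) : ℤ) - (fib D h (n : ℤ) : Finset (FIdx s d)).card ≤
          f n - f ((n : ℤ) - Δ) := fun n => by
      have := dim_sandwich hD hX hW gen hgen hsur h gen' hgen' hinj hne hP hkill n
      simp only [f, hΔ, Nat.cast_mul]
      exact this
    have hlow := Finset.sum_le_sum (s := range N) fun n _ => (hs n).1
    have hupp := Finset.sum_le_sum (s := range N) fun n _ => (hs n).2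
    rw [Finset.sum_sub_distrib, sum_sub_shift] at hupp
    have hpos : (0 : ℤ) ≤ ∑ i ∈ range Δ, f (-(Δ : ℤ) + i) :=
      Finset.sum_nonneg fun _ _ => Int.natCast_nonneg _
    have hbd : ∑ i ∈ range Δ, f ((N : ℤ) - Δ + i) ≤
        ((Δ * (m * (N + (Δ + G + d)) ^ (d - 1)) : ℕ) : ℤ) := by
      refine (Finset.sum_le_sum (g := fun _ => (((m * (N + (Δ + G + d)) ^ (d - 1)) : ℕ) : ℤ))
        fun i hi => ?_).trans (by simp)
      rw [Finset.mem_range] at hi
      refine Int.ofNat_le.2 ((card_fib_le hd hD _).trans (Nat.mul_le_mul_left m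
        (Nat.pow_le_pow_left ?_ _)))
      omega
    rw [← sum_card_fib hD hh]
    refine ⟨?_, ?_⟩
    · have hz : ((∑ n ∈ range N, Module.finrank k ↥(W (n : ℤ)) : ℕ) : ℤ) -
          ((∑ n ∈ range N, (fib D h (n : ℤ) : Finset (FIdx s d)).card : ℕ) : ℤ) ≤
          ((Δ * (m * (N + (Δ + G + d)) ^ (d - 1)) : ℕ) : ℤ) := by
        push_cast at hupp hbd ⊢
        linarith
      have := (Int.cast_le (R := ℝ)).2 hz
      push_cast at this ⊢
      linarith
    · exact_mod_cast hlow
  have hmain : Tendsto (fun N : ℕ => (d.factorial : ℝ) *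
      ((∑ i, (bbox d (numBelow D (h i) N)).card : ℕ) : ℝ) / (N : ℝ) ^ d) atTop
      (nhds ((s : ℝ) / (D : ℝ) ^ d)) := by
    have := tendsto_finsetSum (univ : Finset (Fin s)) fun i _ =>
      tendsto_card_bbox (d := d) hD (h i)
    simp only [Finset.sum_const, Finset.card_univ, Fintype.card_fin, nsmul_eq_mul] at this
    refine (this.congr fun N => ?_).trans (le_of_eq (by rw [mul_one_div]))
    rw [← Finset.sum_div, ← Finset.mul_sum]
    push_cast
    rfl
  have hsmall : Tendsto (fun N : ℕ => (d.factorial : ℝ) * ((Δ * m : ℕ) : ℝ) *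
      ((N : ℝ) + (Δ + G + d : ℕ)) ^ (d - 1) / (N : ℝ) ^ d) atTop (nhds 0) := by
    have h1 := ((tendsto_affine_pow ((Δ + G + d : ℕ) : ℝ) 1 (d - 1)).mul
      (tendsto_const_div_atTop_nhds_zero_nat (1 : ℝ))).const_mul
      ((d.factorial : ℝ) * ((Δ * m : ℕ) : ℝ))
    rw [mul_zero, mul_zero] at h1
    refine h1.congr' ?_
    filter_upwards [eventually_gt_atTop 0] with N hN
    have : (N : ℝ) ≠ 0 := by positivity
    rw [Nat.cast_one, div_one, show (N : ℝ) ^ d = N ^ (d - 1) * N by
      rw [← pow_succ, Nat.sub_add_cancel hd]]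
    field_simp
  refine tendsto_of_tendsto_of_tendsto_of_le_of_le' hmain
    ((hmain.add hsmall).trans (le_of_eq (by rw [add_zero]))) ?_ ?_
  · filter_upwards with N
    gcongr
    exact_mod_cast (herr N).2
  · filter_upwards with N
    rw [← add_div, mul_assoc, ← mul_add]
    gcongr
    linarith [(herr N).1]

end dim

section ring

variable {R : Type u} [CommRing R] [IsLocalRing R]


lemma length_GrC (n : ℕ) [Module.Finite (IsLocalRing.ResidueField R) (GrC R n)] :
    sq R ((IsLocalRing.maximalIdeal R) ^ n) ((IsLocalRing.maximalIdeal R) ^ (n + 1)) = Module.finrank (IsLocalRing.ResidueField R) ↥(grW R (n : ℤ)) := by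
  have e1 : sq R ((IsLocalRing.maximalIdeal R) ^ n) ((IsLocalRing.maximalIdeal R) ^ (n + 1)) = Module.length R (GrC R n) := by
    rw [sq]
    refine (Submodule.quotEquivOfEq _ _ ?_).length_eq
    ext w
    rw [mem_smul_top]
    rfl
  rw [e1, Module.length_eq_of_surjective (S := R) (R := (IsLocalRing.ResidueField R)) (residue_surjective R),
    Module.length_eq_finrank, grW_nat,
    LinearMap.finrank_range_of_inj (DirectSum.of_injective n)]

/-- The lengths of `R / (IsLocalRing.maximalIdeal R) ^ N` are the partial sums of the Hilbert function. -/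
lemma length_quot_pow [IsNoetherianRing R] (N : ℕ) :
    Module.length R (R ⧸ (IsLocalRing.maximalIdeal R) ^ N) =
      ((∑ n ∈ range N, Module.finrank (IsLocalRing.ResidueField R) ↥(grW R (n : ℤ)) : ℕ) : ℕ∞) := by
  have e : ∀ I : Ideal R, Module.length R (R ⧸ I) = sq R (⊤ : Submodule R R) I := fun I => by
    rw [sq]
    refine (Submodule.Quotient.equiv _ _ Submodule.topEquiv ?_).length_eq.symm
    ext v
    simp
  rw [e]
  induction N with
  | zero =>
    rw [pow_zero, Ideal.one_eq_top, Finset.range_zero, Finset.sum_empty, Nat.cast_zero]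
    exact sq_eq_zero_iff.2 le_rfl
  | succ N ih =>
    have : Module.Finite R ↥((IsLocalRing.maximalIdeal R) ^ N) := Module.Finite.iff_fg.2 (IsNoetherian.noetherian _)
    have : Module.Finite (IsLocalRing.ResidueField R) (GrC R N) := Module.Finite.of_restrictScalars_finite R (IsLocalRing.ResidueField R) _
    rw [sq_add (M := (IsLocalRing.maximalIdeal R) ^ N) (Ideal.pow_le_pow_right (Nat.le_succ N)) le_top, ih, length_GrC,
      Finset.sum_range_succ, Nat.cast_add]

/-- The multiplicity is the rank of the free part of the associated graded ring over `D ^ d`. -/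
theorem mult_eq [IsNoetherianRing R] {d D : ℕ} {x : Fin d → R} (hR : RedData R d D x) {e : ℝ}
    (he : HasMult R e) {m : ℕ} {g : Fin m → ℤ} (gen : Fin m → GrM R)
    (hgen : ∀ i, gen i ∈ grW R (g i))
    (hsur : ∀ n, grW R n ≤
      (freeFam (IsLocalRing.ResidueField R) D g n).map (evFree (A := (IsLocalRing.ResidueField R)) (M := GrM R) (xGr_comm hR.mem) gen))
    {s : ℕ} (h : Fin s → ℤ) (gen' : Fin s → GrM R) (hgen' : ∀ i, gen' i ∈ grW R (h i))
    (hinj : ∀ n, ∀ f ∈ freeFam (IsLocalRing.ResidueField R) (d := d) D h n,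
      evFree (A := (IsLocalRing.ResidueField R)) (M := GrM R) (xGr_comm hR.mem) gen' f = 0 → f = 0)
    {P : MvPolynomial (Fin d) (IsLocalRing.ResidueField R)} {δ : ℕ} (hne : P ≠ 0) (hP : ∀ β ∈ P.support, bdeg β = δ)
    (hkill : ∀ n, ∀ v ∈ grW R n, pAct (A := (IsLocalRing.ResidueField R)) (M := GrM R) (xGr_comm hR.mem) P v ∈
      (freeFam (IsLocalRing.ResidueField R) D h (n + D * δ)).map (evFree (A := (IsLocalRing.ResidueField R)) (M := GrM R) (xGr_comm hR.mem) gen')) :
    e = (s : ℝ) / (D : ℝ) ^ d := by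
  refine tendsto_nhds_unique he ?_
  refine (hilbert_limit (k := (IsLocalRing.ResidueField R)) (M := GrM R) hR.dpos hR.Dpos (xGr_comm hR.mem)
    (grW_stable hR.mem) (fun n hn => by rw [grW, if_neg (by omega)]) gen hgen hsur h gen' hgen'
    hinj hne hP hkill).congr fun N => ?_
  rw [length_quot_pow, hR.dim_eq, ENat.toNat_natCast]

end ring

end Vale.Agent.P202
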