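import Vale.Agent.P202.PhiEuler

/-!
Module B, layer 8a: on cohomology a polynomial in the operators acts as the translation operator
of its value at the elementary forms.
-/

universe u

namespace Vale.Agent.P202

open Finset

section chain

variable {A : Type*} [CommRing A] {d : ℕ} {M : Type*} [AddCommGroup M] [Module A M]

lemma chOp_commute_shOp (c : PLaur d) : Commute (chOp A M d) (shOp A M c) := by
  refine commute_shOp A M (fun g => Finsupp.lhom_ext fun i v => ?_) c
  simp only [Module.End.mul_apply, shOp_single, chOp_single, map_sum, map_zsmul]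

lemma chOp_remOp (l : Fin d) : chOp A M d * remOp A M l + remOp A M l * chOp A M d = 0 := by
  refine Finsupp.lhom_ext fun i v => ?_
  obtain ⟨⟨J, C⟩, p⟩ := i
  simp only [LinearMap.add_apply, Module.End.mul_apply, LinearMap.zero_apply]
  rw [remOp_single, chOp_single, map_sum]
  by_cases h : l ∈ J
  swap
  · rw [if_neg h, map_zero, zero_add]
    exact Finset.sum_eq_zero fun y _ => by rw [map_zsmul, remOp_single, if_neg h, smul_zero]
  rw [if_pos h, map_zsmul, chOp_single, Finset.smul_sum, ← Finset.sum_add_distrib]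
  refine Finset.sum_eq_zero fun y hy => ?_
  rw [map_zsmul, remOp_single, if_pos h, nBoth_update J (Finset.mem_filter.1 hy).2 p.1 p.2,
    smul_smul, smul_smul, ← add_smul]
  convert zero_smul ℤ _ using 2
  ring

variable {X : Fin d → M →ₗ[A] M}

lemma phiD_shOp (c : PLaur d) (f : PIdx d →₀ M) :
    phiD X (shOp A M c f) = shOp A M c (phiD X f) := by
  have h1 := LinearMap.congr_fun (chOp_commute_shOp (A := A) (M := M) c).eq f
  have h2 := LinearMap.congr_fun (shOp_commute_kOp A (X := X) c).eq f
  simp only [Module.End.mul_apply] at h1 h2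
  rw [phiD_eq_add, LinearMap.add_apply, LinearMap.add_apply, map_add, h1, h2]

lemma phiD_rho (l : Fin d) (f : PIdx d →₀ M) :
    phiD X (rhoOp A l f) + rhoOp A l (phiD X f) = xOp A X l f - shOp A M (ftPoly l) f := by
  have h1 : chOp A M d (rhoOp A l f) + rhoOp A l (chOp A M d f) = 0 := by
    have e1 := LinearMap.congr_fun (chOp_commute_shOp (A := A) (M := M) (downPoly (d := d))).eq
      (remOp A M l f)
    have e2 := LinearMap.congr_fun (chOp_remOp (A := A) (M := M) l) f
    simp only [Module.End.mul_apply, LinearMap.add_apply, LinearMap.zero_apply] at e1 e2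
    simp only [rhoOp, Module.End.mul_apply, e1, ← map_add, e2, map_zero]
  have h2 := LinearMap.congr_fun (kOp_rho A (X := X) l) f
  simp only [LinearMap.add_apply, Module.End.mul_apply, LinearMap.sub_apply] at h2
  rw [phiD_eq_add, LinearMap.add_apply, LinearMap.add_apply, map_add, ← h2]
  linear_combination (norm := abel) h1

lemma prod_pow_add_single {S : Type*} [CommMonoid S] (f : Fin d → S) (β : Fin d →₀ ℕ) (l : Fin d) :
    (∏ j, f j ^ (β + Finsupp.single l 1 : Fin d →₀ ℕ) j) = f l * ∏ j, f j ^ β j := by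
  simp only [Finsupp.add_apply, pow_add, Finset.prod_mul_distrib]
  rw [mul_comm, Finset.prod_eq_single l (fun j _ hj => by simp [Finsupp.single_apply, Ne.symm hj])
    (fun h => absurd (Finset.mem_univ l) h)]
  simp

/-- The product of the elementary forms with exponents `β`. -/
noncomputable def ftPow (β : Fin d →₀ ℕ) : PLaur d := ∏ l, ftPoly l ^ β l

lemma ftPow_zero : ftPow (0 : Fin d →₀ ℕ) = 1 := by simp [ftPow]

lemma ftPow_add_single (β : Fin d →₀ ℕ) (l : Fin d) :
    ftPow (β + Finsupp.single l 1) = ftPoly l * ftPow β := by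
  exact prod_pow_add_single _ β l

variable (hX : ∀ a b, X a ∘ₗ X b = X b ∘ₗ X a)

lemma xPow_commute (β : Fin d →₀ ℕ) (l : Fin d) (v : M) :
    xPow hX β (X l v) = X l (xPow hX β v) := by
  refine xPow_induction (P := fun β => xPow hX β (X l v) = X l (xPow hX β v)) ?_ ?_ β
  · rw [xPow_zero, xPow_zero]
  · intro β j ih
    rw [xPow_add_single, xPow_add_single, ih]
    exact LinearMap.congr_fun (hX j l) _

lemma shOp_ftPow_mem {D : ℕ} {a : Fin (d - 1) → ℤ} {W : ℤ → Submodule A M} (β : Fin d →₀ ℕ)
    {c r : ℤ} {f : PIdx d →₀ M} (hf : f ∈ phiC D a W c r) :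
    shOp A M (ftPow β) f ∈ phiC D a W (c + D * bdeg β) r := by
  refine xPow_induction (P := fun β => shOp A M (ftPow β) f ∈ phiC D a W (c + D * bdeg β) r) ?_ ?_ β
  · simpa [ftPow_zero, bdeg] using hf
  · intro β l ih
    rw [ftPow_add_single, map_mul, Module.End.mul_apply]
    refine ⟨?_, ?_⟩
    · have h := shOp_ft_le A (a := a) (W := W) (D := D) l (c + D * bdeg β) 1
        (Submodule.mem_map_of_mem ih.1)
      rw [pow_one] at h
      rwa [bdeg_add_single, show c + (D : ℤ) * ((bdeg β + 1 : ℕ) : ℤ) =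
        c + D * bdeg β + ((1 : ℕ) : ℤ) * D by push_cast; ring]
    · have h := presDeg_shOp A (M := M) (ftPoly l) r (Submodule.mem_map_of_mem ih.2)
      rwa [add_zero] at h

/-- A monomial in the operators is homotopic to the translation by the elementary forms. -/
lemma xPow_homotopic {D : ℕ} {a : Fin (d - 1) → ℤ} {W : ℤ → Submodule A M}
    (hW : FamStable D X W) (β : Fin d →₀ ℕ) {c r : ℤ} {f : PIdx d →₀ M}
    (hf : f ∈ phiC D a W c r) (hfc : phiD X f = 0) :
    chainMap (xPow hX β) f - shOp A M (ftPow β) f ∈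
      (phiC D a W (c + D * bdeg β) (r - 1)).map (phiD X) := by
  refine xPow_induction (P := fun β => chainMap (xPow hX β) f - shOp A M (ftPow β) f ∈
      (phiC D a W (c + D * bdeg β) (r - 1)).map (phiD X)) ?_ ?_ β
  · have e : chainMap (xPow hX 0) f = f := Finsupp.ext fun i => by
      rw [chainMap_apply, xPow_zero]
    simp [e, ftPow_zero]
  intro β l ⟨y, hy, hyeq⟩
  set w := chainMap (xPow hX β) f with hw
  have hwW : w ∈ phiC D a W (c + D * bdeg β) r := by
    refine ⟨fun i => ⟨?_, fun hn => by rw [hw, chainMap_apply, (hf.1 i).2 hn, map_zero]⟩,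
      fun i hi => by rw [hw, chainMap_apply, hf.2 i hi, map_zero]⟩
    rw [hw, chainMap_apply]
    convert xPow_mem hX hW (hf.1 i).1 β using 2
    ring
  have hwc : phiD X w = 0 := by
    rw [hw, ← chainMap_phiD (xPow hX β) (xPow_commute hX β), hfc, map_zero]
  have e1 : chainMap (xPow hX (β + Finsupp.single l 1)) f = xOp A X l w := Finsupp.ext fun i => by
    rw [chainMap_apply, xPow_add_single, hw]
    change _ = chainMap (X l) (chainMap (xPow hX β) f) i
    rw [chainMap_apply, chainMap_apply]
  have hr := phiD_rho (X := X) l w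
  rw [hwc, map_zero, add_zero] at hr
  refine ⟨rhoOp A l w + shOp A M (ftPoly l) y, ?_, ?_⟩
  · rw [bdeg_add_single, show c + (D : ℤ) * ((bdeg β + 1 : ℕ) : ℤ) = c + D * bdeg β + D by
      push_cast; ring]
    refine Submodule.add_mem _ ⟨rhoOp_le A l _ (Submodule.mem_map_of_mem hwW.1), ?_⟩ ⟨?_, ?_⟩
    · have h0 : PresDeg A (rhoOp A (M := M) l) (-1) := by
        simpa [rhoOp] using (presDeg_shOp A (M := M) downPoly).mul (presDeg_remOp A l)
      have := h0 r (Submodule.mem_map_of_mem hwW.2)
      rwa [← sub_eq_add_neg] at this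
    · have h := shOp_ft_le A (a := a) (W := W) (D := D) l (c + D * bdeg β) 1
        (Submodule.mem_map_of_mem hy.1)
      rw [pow_one, Nat.cast_one, one_mul] at h
      exact h
    · have h := presDeg_shOp A (M := M) (ftPoly l) (r - 1) (Submodule.mem_map_of_mem hy.2)
      rwa [add_zero] at h
  · rw [map_add, hr, phiD_shOp, hyeq, e1, ftPow_add_single, map_mul, Module.End.mul_apply, map_sub]
    abel

/-- Translation by the value of a polynomial at the elementary forms. -/
noncomputable def shPoly (A : Type*) [CommRing A] (M : Type*) [AddCommGroup M] [Module A M] {d : ℕ}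
    (P : MvPolynomial (Fin d) A) : (PIdx d →₀ M) →ₗ[A] (PIdx d →₀ M) :=
  ∑ β ∈ P.support, MvPolynomial.coeff β P • shOp A M (ftPow β)

lemma pAct_eq_sum (P : MvPolynomial (Fin d) A) (v : M) :
    pAct hX P v = ∑ β ∈ P.support, MvPolynomial.coeff β P • xPow hX β v := by
  conv_lhs => rw [P.as_sum]
  rw [map_sum, LinearMap.sum_apply]
  refine Finset.sum_congr rfl fun β _ => ?_
  have : MvPolynomial.monomial β (MvPolynomial.coeff β P) =
      MvPolynomial.coeff β P • MvPolynomial.monomial β (1 : A) := by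
    rw [MvPolynomial.smul_monomial, smul_eq_mul, mul_one]
  rw [this, map_smul, LinearMap.smul_apply]
  rfl

/-- A homogeneous polynomial is homotopic to the translation by its value. -/
lemma poly_homotopic {D : ℕ} {a : Fin (d - 1) → ℤ} {W : ℤ → Submodule A M}
    (hW : FamStable D X W) {P : MvPolynomial (Fin d) A} {δ : ℕ}
    (hP : ∀ β ∈ P.support, bdeg β = δ) {c r : ℤ} {f : PIdx d →₀ M}
    (hf : f ∈ phiC D a W c r) (hfc : phiD X f = 0) :
    chainMap (pAct hX P) f - shPoly A M P f ∈ (phiC D a W (c + D * δ) (r - 1)).map (phiD X) := by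
  have e : chainMap (pAct hX P) f =
      ∑ β ∈ P.support, MvPolynomial.coeff β P • chainMap (xPow hX β) f := Finsupp.ext fun i => by
    rw [chainMap_apply, pAct_eq_sum, Finsupp.finsetSum_apply]
    exact Finset.sum_congr rfl fun β _ => by rw [Finsupp.smul_apply, chainMap_apply]
  rw [e, shPoly, LinearMap.sum_apply, ← Finset.sum_sub_distrib]
  refine Submodule.sum_mem _ fun β hβ => ?_
  rw [LinearMap.smul_apply, ← smul_sub]
  have := xPow_homotopic hX hW β hf hfc
  rw [hP β hβ] at this
  exact Submodule.smul_mem _ _ this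

end chain

section coeff

variable {d : ℕ}

lemma ftPow_support (β : Fin d →₀ ℕ) : ∀ g ∈ (ftPow β).coeff.support,
    g.1 = -(bdeg β : ℤ) ∧ ∀ j, 0 ≤ g.2 j ∧ g.2 j ≤ bdeg β := by
  refine xPow_induction (P := fun β => ∀ g ∈ (ftPow β).coeff.support,
    g.1 = -(bdeg β : ℤ) ∧ ∀ j, 0 ≤ g.2 j ∧ g.2 j ≤ bdeg β) ?_ ?_ β
  · intro g hg
    rw [ftPow_zero, AddMonoidAlgebra.one_def, AddMonoidAlgebra.coeff_single] at hg
    obtain rfl := Finset.mem_singleton.1 (Finsupp.support_single_subset hg)
    simp [bdeg]
  · intro β l ih g hg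
    rw [ftPow_add_single, ftPoly, Finset.sum_mul, AddMonoidAlgebra.coeff_sum] at hg
    obtain ⟨ε, -, hε⟩ := Finset.mem_biUnion.1 (Finsupp.support_finsetSum hg)
    obtain ⟨y, hy, rfl⟩ :=
      Finset.mem_image.1 (AddMonoidAlgebra.support_coeff_single_mul_subset _ _ _ hε)
    obtain ⟨h1, h2⟩ := ih y hy
    rw [bdeg_add_single]
    refine ⟨by simp only [Prod.fst_add, h1]; push_cast; ring, fun j => ?_⟩
    obtain ⟨a1, a2⟩ := h2 j
    by_cases hj : j ∈ ε <;>
      · simp only [Prod.snd_add, Pi.add_apply, expOf, hj, if_true, if_false]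
        push_cast
        omega

lemma shOp_apply {A : Type*} [CommRing A] {M : Type*} [AddCommGroup M] [Module A M] (c : PLaur d)
    (f : PIdx d →₀ M) (T : PIdx d) :
    shOp A M c f T = ∑ g ∈ c.coeff.support, c.coeff g • f (T.1, T.2 - g) := by
  induction f using Finsupp.induction_linear with
  | zero => simp
  | add f f' hf hf' =>
    simp only [map_add, Finsupp.add_apply, hf, hf', smul_add, Finset.sum_add_distrib]
  | single i v =>
    classical
    rw [shOp_apply_single, Finsupp.finsetSum_apply]
    refine Finset.sum_congr rfl fun g _ => ?_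
    rw [Finsupp.smul_apply, Finsupp.single_apply, Finsupp.single_apply]
    congr 1
    refine if_congr ⟨?_, ?_⟩ rfl rfl
    · rintro rfl; simp
    · rintro rfl; simp

variable {A : Type*} [CommRing A]

/-- The coefficient of `u ^ η` in the value of `P` at the elementary forms. -/
noncomputable def valCoef (P : MvPolynomial (Fin d) A) (δ : ℕ) (η : Fin (d - 1) → ℤ) : A :=
  ∑ β ∈ P.support, MvPolynomial.coeff β P *
    ((ftPow β).coeff ((-(δ : ℤ), η) : PExp d) : A)

lemma shPoly_apply {m : ℕ} {P : MvPolynomial (Fin d) A} {δ : ℕ}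
    (hP : ∀ β ∈ P.support, bdeg β = δ) (f : PIdx d →₀ FreeMod A m d) (T : PIdx d) (p : FIdx m d) :
    shPoly A (FreeMod A m d) P f T p =
      ∑ η ∈ Fintype.piFinset (fun _ : Fin (d - 1) => Finset.Icc (0 : ℤ) δ),
        valCoef P δ η * f (T.1, T.2 - ((-(δ : ℤ), η) : PExp d)) p := by
  rw [shPoly, LinearMap.sum_apply, Finsupp.finsetSum_apply, Finsupp.finsetSum_apply]
  have e : ∀ η, valCoef P δ η * f (T.1, T.2 - ((-(δ : ℤ), η) : PExp d)) p =
      ∑ β ∈ P.support, MvPolynomial.coeff β P * (((ftPow β).coeff ((-(δ : ℤ), η) : PExp d) : A) *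
        f (T.1, T.2 - ((-(δ : ℤ), η) : PExp d)) p) := fun η => by
    rw [valCoef, Finset.sum_mul]
    exact Finset.sum_congr rfl fun β _ => mul_assoc _ _ _
  rw [Finset.sum_congr rfl fun η _ => e η, Finset.sum_comm]
  refine Finset.sum_congr rfl fun β hβ => ?_
  rw [LinearMap.smul_apply, Finsupp.smul_apply, Finsupp.smul_apply, smul_eq_mul, shOp_apply,
    Finsupp.finsetSum_apply, ← Finset.mul_sum]
  congr 1
  let emb : (Fin (d - 1) → ℤ) ↪ PExp d :=
    ⟨fun η => (-(δ : ℤ), η), fun η η' h => (Prod.mk.inj h).2⟩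
  have hsub : (ftPow β).coeff.support ⊆
      (Fintype.piFinset (fun _ : Fin (d - 1) => Finset.Icc (0 : ℤ) δ)).map emb := by
    intro g hg
    obtain ⟨h1, h2⟩ := ftPow_support β g hg
    rw [hP β hβ] at h1 h2
    exact Finset.mem_map.2 ⟨g.2, Fintype.mem_piFinset.2 fun j => Finset.mem_Icc.2 (h2 j),
      Prod.ext h1.symm rfl⟩
  rw [Finset.sum_subset hsub (fun g _ hg => by
    rw [Finsupp.notMem_support_iff.1 hg]; simp), Finset.sum_map]
  refine Finset.sum_congr rfl fun η _ => ?_
  rw [Finsupp.smul_apply, zsmul_eq_mul]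
  rfl

/-- The exponent embedding of polynomials in `u` into Laurent polynomials. -/
def expEmb (d : ℕ) : (Fin (d - 1) →₀ ℕ) →+ PExp d where
  toFun γ := (0, fun j => (γ j : ℤ))
  map_zero' := by ext <;> simp
  map_add' γ γ' := by ext <;> simp

lemma expEmb_injective : Function.Injective (expEmb d) := fun γ γ' h => Finsupp.ext fun j => by
  have := congrFun (congrArg Prod.snd h) j
  simpa [expEmb] using this

/-- Polynomials in `u` as Laurent polynomials. -/
noncomputable def psiHom (d : ℕ) : MvPolynomial (Fin (d - 1)) ℤ →+* PLaur d :=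
  AddMonoidAlgebra.mapDomainRingHom ℤ (expEmb d)

lemma psiHom_X (j : Fin (d - 1)) :
    psiHom d (MvPolynomial.X j) = AddMonoidAlgebra.single ((0, expOf {j}) : PExp d) 1 := by
  change AddMonoidAlgebra.mapDomain _ (AddMonoidAlgebra.single (Finsupp.single j 1) (1 : ℤ)) = _
  rw [AddMonoidAlgebra.mapDomain_single]
  congr 1
  refine Prod.ext rfl (funext fun i => ?_)
  by_cases h : i = j
  · subst h; simp [expEmb, expOf]
  · simp [expEmb, expOf, h, Finsupp.single_apply, Ne.symm h]

lemma ftPoly_eq_psi (l : Fin d) :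
    ftPoly l = AddMonoidAlgebra.single ((-1, 0) : PExp d) 1 *
      psiHom d (MvPolynomial.esymm (Fin (d - 1)) ℤ l) := by
  rw [MvPolynomial.esymm, map_sum, Finset.mul_sum, ftPoly]
  refine Finset.sum_congr rfl fun ε _ => ?_
  have key : ∀ s : Finset (Fin (d - 1)), psiHom d (∏ j ∈ s, MvPolynomial.X j) =
      AddMonoidAlgebra.single ((0, expOf s) : PExp d) 1 := by
    intro s
    induction s using Finset.induction_on with
    | empty =>
      rw [Finset.prod_empty, map_one, AddMonoidAlgebra.one_def]
      congr 1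
    | insert j s hj ih =>
      rw [Finset.prod_insert hj, map_mul, psiHom_X, ih, AddMonoidAlgebra.single_mul_single, one_mul]
      congr 1
      refine Prod.ext (by simp) (funext fun i => ?_)
      by_cases hi : i = j
      · subst hi; simp [expOf, hj]
      · simp [expOf, hi]
  rw [key, AddMonoidAlgebra.single_mul_single, one_mul]
  simp

/-- The value monomials in `u`. -/
noncomputable def esymPow (A : Type*) [CommRing A] (β : Fin d →₀ ℕ) :
    MvPolynomial (Fin (d - 1)) A :=
  ∏ l : Fin d, MvPolynomial.esymm (Fin (d - 1)) A l ^ β l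

lemma ftPow_eq_psi (β : Fin d →₀ ℕ) :
    ftPow β = AddMonoidAlgebra.single ((-(bdeg β : ℤ), 0) : PExp d) 1 *
      psiHom d (esymPow ℤ β) := by
  refine xPow_induction (P := fun β => ftPow β = AddMonoidAlgebra.single
    ((-(bdeg β : ℤ), 0) : PExp d) 1 * psiHom d (esymPow ℤ β)) ?_ ?_ β
  · rw [ftPow_zero, show esymPow ℤ (0 : Fin d →₀ ℕ) = 1 by simp [esymPow], map_one, mul_one,
      AddMonoidAlgebra.one_def]
    simp [bdeg]
    rfl
  · intro β l ih
    rw [ftPow_add_single, ih, ftPoly_eq_psi,
      show esymPow ℤ (β + Finsupp.single l 1) =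
          esymPow ℤ β * MvPolynomial.esymm (Fin (d - 1)) ℤ l from
        (prod_pow_add_single _ β l).trans (mul_comm _ _),
      map_mul, bdeg_add_single]
    rw [mul_mul_mul_comm, AddMonoidAlgebra.single_mul_single, one_mul, mul_comm (psiHom d _)]
    congr 2
    refine Prod.ext ?_ (by simp)
    push_cast
    simp only [Prod.fst_add]
    ring

lemma coeff_ftPow {β : Fin d →₀ ℕ} {δ : ℕ} (hβ : bdeg β = δ) (γ : Fin (d - 1) →₀ ℕ) :
    (ftPow β).coeff ((-(δ : ℤ), fun j => (γ j : ℤ)) : PExp d) =
      MvPolynomial.coeff γ (esymPow ℤ β) := by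
  rw [ftPow_eq_psi, hβ, show ((-(δ : ℤ), fun j => (γ j : ℤ)) : PExp d) =
      ((-(δ : ℤ), 0) : PExp d) + expEmb d γ by simp [expEmb],
    AddMonoidAlgebra.coeff_single_mul_eq_mul_coeff (expEmb d γ) (fun _ _ => add_right_inj _), one_mul]
  · exact Finsupp.mapDomain_apply expEmb_injective _ _

lemma map_esymPow (f : ℤ →+* A) (β : Fin d →₀ ℕ) :
    MvPolynomial.map f (esymPow ℤ β) = esymPow A β := by
  simp [esymPow, MvPolynomial.map_esymm]

/-- A nonzero homogeneous polynomial takes a nonzero value at the elementary forms. -/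
lemma exists_valCoef_ne_zero [IsDomain A] (hd : 0 < d) {P : MvPolynomial (Fin d) A} {δ : ℕ}
    (hP : ∀ β ∈ P.support, bdeg β = δ) (hne : P ≠ 0) : ∃ η, valCoef P δ η ≠ 0 := by
  by_contra h
  simp only [ne_eq, not_exists, not_not] at h
  let val : MvPolynomial (Fin d) A →ₐ[A] MvPolynomial (Fin (d - 1)) A :=
    MvPolynomial.aeval fun l : Fin d => MvPolynomial.esymm (Fin (d - 1)) A l
  have hval : val P = 0 := by
    refine MvPolynomial.ext _ _ fun γ => ?_
    rw [MvPolynomial.coeff_zero, ← h fun j => (γ j : ℤ), valCoef]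
    conv_lhs => rw [P.as_sum]
    rw [map_sum, MvPolynomial.coeff_sum]
    refine Finset.sum_congr rfl fun β hβ => ?_
    rw [coeff_ftPow (hP β hβ), MvPolynomial.aeval_monomial, MvPolynomial.algebraMap_eq,
      MvPolynomial.coeff_C_mul]
    congr 1
    rw [← eq_intCast (Int.castRingHom A), ← MvPolynomial.coeff_map, map_esymPow,
      Finsupp.prod_fintype _ _ (fun _ => pow_zero _)]
    rfl
  -- dehomogenise
  let tl : Fin (d - 1) → Fin d := fun i => ⟨i + 1, by omega⟩
  let deh : MvPolynomial (Fin d) A →ₐ[A] MvPolynomial (Fin (d - 1)) A :=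
    MvPolynomial.aeval fun l : Fin d =>
      if h : (l : ℕ) = 0 then 1 else MvPolynomial.X ⟨l - 1, by omega⟩
  have hcomp : val P = ((MvPolynomial.esymmAlgHom (Fin (d - 1)) A (d - 1)) (deh P)).val := by
    rw [MvPolynomial.esymmAlgHom_apply, ← AlgHom.comp_apply]
    refine AlgHom.congr_fun (MvPolynomial.algHom_ext fun l => ?_) P
    rw [AlgHom.comp_apply, MvPolynomial.aeval_X, MvPolynomial.aeval_X]
    split
    · rename_i h0
      simp [h0, MvPolynomial.esymm_zero]
    · rename_i h0
      rw [MvPolynomial.aeval_X]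
      congr 1
      change (l : ℕ) = (l : ℕ) - 1 + 1
      omega
  rw [hval] at hcomp
  have hdeh : deh P = 0 := by
    apply MvPolynomial.esymmAlgHom_injective A (σ := Fin (d - 1)) (n := d - 1) (by simp)
    rw [map_zero]
    exact Subtype.ext hcomp.symm
  refine hne (MvPolynomial.ext _ _ fun β => ?_)
  by_contra hβ
  rw [MvPolynomial.coeff_zero] at hβ
  have hβs : β ∈ P.support := MvPolynomial.mem_support_iff.2 hβ
  let tail : (Fin d →₀ ℕ) → (Fin (d - 1) →₀ ℕ) := fun β =>
    Finsupp.equivFunOnFinite.symm fun i => β (tl i)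
  have hmono : ∀ β : Fin d →₀ ℕ, deh (MvPolynomial.monomial β 1) =
      MvPolynomial.monomial (tail β) 1 := by
    intro β
    refine xPow_induction (P := fun β => deh (MvPolynomial.monomial β 1) =
      MvPolynomial.monomial (tail β) 1) ?_ ?_ β
    · rw [show MvPolynomial.monomial (0 : Fin d →₀ ℕ) (1 : A) = 1 from rfl, map_one]
      rw [show tail 0 = 0 from Finsupp.ext fun i => rfl]
      rfl
    · intro β l ih
      rw [show MvPolynomial.monomial (β + Finsupp.single l 1) (1 : A) =
        MvPolynomial.X l * MvPolynomial.monomial β 1 by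
          rw [MvPolynomial.X, MvPolynomial.monomial_mul, one_mul, add_comm],
        map_mul, ih, MvPolynomial.aeval_X]
      split
      · rename_i h0
        rw [one_mul]
        congr 2
        refine Finsupp.ext fun i => ?_
        have : l ≠ tl i := fun e => by have := congrArg Fin.val e; simp [tl] at this; omega
        simp [tail, Finsupp.single_apply, this]
      · rename_i h0
        rw [MvPolynomial.X, MvPolynomial.monomial_mul, one_mul]
        congr 2
        refine Finsupp.ext fun i => ?_
        by_cases hi : (l : ℕ) = i + 1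
        · have e1 : l = tl i := Fin.ext (by simp [tl, hi])
          simp [tail, e1, Finsupp.single_apply, tl, add_comm]
        · have e1 : l ≠ tl i := fun e => hi (congrArg Fin.val e)
          have e2 : (⟨(l : ℕ) - 1, by omega⟩ : Fin (d - 1)) ≠ i := fun e => hi (by
            have := congrArg Fin.val e; simp at this; omega)
          simp [tail, Finsupp.single_apply, e1, e2]
  have hc := congrArg (MvPolynomial.coeff (tail β)) hdeh
  conv at hc => lhs; rw [P.as_sum, map_sum]
  rw [MvPolynomial.coeff_sum, MvPolynomial.coeff_zero, Finset.sum_eq_single β] at hc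
  · rw [← mul_one (MvPolynomial.coeff β P), ← MvPolynomial.C_mul_monomial, map_mul, hmono,
      MvPolynomial.aeval_C, MvPolynomial.algebraMap_eq, MvPolynomial.C_mul_monomial,
      MvPolynomial.coeff_monomial, if_pos rfl, mul_one] at hc
    exact hβ hc
  · intro β' hβ' hne'
    rw [← mul_one (MvPolynomial.coeff β' P), ← MvPolynomial.C_mul_monomial, map_mul, hmono,
      MvPolynomial.aeval_C, MvPolynomial.algebraMap_eq, MvPolynomial.C_mul_monomial]
    classical
    rw [MvPolynomial.coeff_monomial, if_neg]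
    intro e
    refine hne' (Finsupp.ext fun l => ?_)
    have ht : ∀ i, β' (tl i) = β (tl i) := fun i => by
      simpa [tail] using DFunLike.congr_fun e i
    have hsucc : ∀ l : Fin d, (l : ℕ) ≠ 0 → β' l = β l := fun l hl => by
      have : l = tl ⟨(l : ℕ) - 1, by omega⟩ := Fin.ext (by simp [tl]; omega)
      rw [this]; exact ht _
    by_cases hl : (l : ℕ) = 0
    · have hrest : ∀ j ∈ Finset.univ.erase l, β' j = β j := fun j hj => hsucc j fun h =>
        (Finset.mem_erase.1 hj).1 (Fin.ext (by omega))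
      have h1 := hP β' hβ'
      have h2 := hP β hβs
      rw [bdeg, ← Finset.add_sum_erase _ _ (Finset.mem_univ l)] at h1 h2
      have e : (∑ j ∈ Finset.univ.erase l, β' j) = ∑ j ∈ Finset.univ.erase l, β j :=
        Finset.sum_congr rfl hrest
      rw [e] at h1
      omega
    · exact hsucc l hl
  · exact fun h => absurd hβs h

end coeff

end Vale.Agent.P202
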