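import Vale.Agent.P202.PhiEuler

/-!
Module B, layer 7a: the polynomial ring as a family, and the chain of relations `g_i = z X_i - x_i X_L`.
-/

universe u

namespace Vale.Agent.P202

open Finset MvPolynomial

variable {R : Type u} [CommRing R] {d : ℕ}

/-- Multiplication by the variables. -/
noncomputable def polX (R : Type u) [CommRing R] {d : ℕ} (l : Fin d) :
    MvPolynomial (Fin d) R →ₗ[R] MvPolynomial (Fin d) R :=
  LinearMap.mulLeft R (MvPolynomial.X l)

lemma polX_apply (l : Fin d) (v : MvPolynomial (Fin d) R) : polX R l v = MvPolynomial.X l * v := rfl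

lemma polX_comm (a b : Fin d) : polX R a ∘ₗ polX R b = polX R b ∘ₗ polX R a := by
  refine LinearMap.ext fun v => ?_
  simp only [LinearMap.comp_apply, polX_apply]
  ring

lemma monomial_add_single' (β : Fin d →₀ ℕ) (l : Fin d) :
    monomial (β + Finsupp.single l 1) (1 : R) = MvPolynomial.X l * monomial β 1 := by
  rw [MvPolynomial.X, monomial_mul, one_mul, add_comm]

lemma xPow_polX (β : Fin d →₀ ℕ) (v : MvPolynomial (Fin d) R) :
    xPow (polX_comm (R := R)) β v = monomial β 1 * v := by
  refine xPow_induction (P := fun β => xPow (polX_comm (R := R)) β v = monomial β 1 * v) ?_ ?_ β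
  · rw [xPow_zero, show monomial (0 : Fin d →₀ ℕ) (1 : R) = 1 from rfl, one_mul]
  · intro β l ih
    rw [xPow_add_single, ih, monomial_add_single', polX_apply, mul_assoc]

/-- Homogeneous polynomials, the variables having degree `D`. -/
noncomputable def pFam (R : Type u) [CommRing R] (d D : ℕ) (n : ℤ) :
    Submodule R (MvPolynomial (Fin d) R) :=
  Submodule.span R ((fun β => monomial β 1) '' {β | (D : ℤ) * bdeg β = n})

lemma monomial_mem_pFam {D : ℕ} (β : Fin d →₀ ℕ) :
    monomial β (1 : R) ∈ pFam R d D (D * bdeg β) :=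
  Submodule.subset_span ⟨β, rfl, rfl⟩

lemma pFam_map_le {M : Type*} [AddCommGroup M] [Module R M]
    (L : MvPolynomial (Fin d) R →ₗ[R] M) {D : ℕ} {n : ℤ} {Q : Submodule R M}
    (h : ∀ β : Fin d →₀ ℕ, (D : ℤ) * bdeg β = n → L (monomial β 1) ∈ Q) :
    ∀ v ∈ pFam R d D n, L v ∈ Q := by
  intro v hv
  have : (pFam R d D n).map L ≤ Q :=
    (Submodule.map_span_le L _ Q).2 (by rintro _ ⟨β, hβ, rfl⟩; exact h β hβ)
  exact this (Submodule.mem_map_of_mem hv)

lemma pFam_stable {D : ℕ} : FamStable D (fun l => polX R l) (pFam R d D) := by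
  intro l n v hv
  refine pFam_map_le (polX R l) (fun β hβ => ?_) v hv
  rw [polX_apply, ← monomial_add_single', ← hβ,
    show (D : ℤ) * bdeg β + D = D * bdeg (β + Finsupp.single l 1) by
      rw [bdeg_add_single]; push_cast; ring]
  exact monomial_mem_pFam _

lemma evFree_one_single (p : FIdx 1 d) (v : R) :
    evFree (polX_comm (R := R)) (fun _ : Fin 1 => (1 : MvPolynomial (Fin d) R)) (Finsupp.single p v) =
      monomial p.2 v := by
  rw [evFree_single, xPow_polX, mul_one, smul_monomial, smul_eq_mul, mul_one]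

lemma evFree_one_injective :
    Function.Injective (evFree (polX_comm (R := R)) (fun _ : Fin 1 => (1 : MvPolynomial (Fin d) R))) := by
  have h : ∀ (f : FreeMod R 1 d) (β : Fin d →₀ ℕ), coeff β
      (evFree (polX_comm (R := R)) (fun _ : Fin 1 => (1 : MvPolynomial (Fin d) R)) f) = f (0, β) := by
    intro f β
    induction f using Finsupp.induction_linear with
    | zero => simp
    | add f g hf hg => rw [map_add, coeff_add, hf, hg, Finsupp.add_apply]
    | single p v =>
      classical
      rw [evFree_one_single, coeff_monomial, Finsupp.single_apply]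
      obtain ⟨k, γ⟩ := p
      obtain rfl : k = 0 := Subsingleton.elim _ _
      simp
  intro f g hfg
  ext ⟨k, β⟩
  obtain rfl : k = 0 := Subsingleton.elim _ _
  rw [← h, hfg, h]

lemma evFree_one_mem {D : ℕ} {n : ℤ} {f : FreeMod R 1 d}
    (hf : f ∈ freeFam R D (fun _ : Fin 1 => (0 : ℤ)) n) :
    evFree (polX_comm (R := R)) (fun _ : Fin 1 => (1 : MvPolynomial (Fin d) R)) f ∈ pFam R d D n :=
  evFree_mem _ _ pFam_stable (g := fun _ : Fin 1 => (0 : ℤ))
    (fun _ => by simpa [bdeg] using monomial_mem_pFam (R := R) (D := D) (0 : Fin d →₀ ℕ)) hf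

lemma pFam_le_map {D : ℕ} (n : ℤ) :
    pFam R d D n ≤ (freeFam R D (fun _ : Fin 1 => (0 : ℤ)) n).map
      (evFree (polX_comm (R := R)) (fun _ : Fin 1 => (1 : MvPolynomial (Fin d) R))) := by
  rw [pFam, Submodule.span_le]
  rintro _ ⟨β, hβ, rfl⟩
  refine ⟨Finsupp.single ((0 : Fin 1), β) 1, mem_freeFam.2 fun p hp => ?_, evFree_one_single _ _⟩
  rw [Finsupp.single_apply] at hp
  split at hp
  · rename_i e; subst e; simpa using hβ
  · exact absurd rfl hp

lemma pFam_fg {D : ℕ} {W' : ℤ → Submodule R (MvPolynomial (Fin d) R)}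
    (hW' : FamStable D (fun l => polX R l) W') (hle : ∀ n, W' n ≤ pFam R d D n) :
    FGPair D (X := fun l => polX R l) polX_comm (pFam R d D) W' :=
  ⟨pFam_stable, hW', hle, 1, fun _ => 0, fun _ => 1,
    fun _ => by simpa [bdeg] using monomial_mem_pFam (R := R) (D := D) (0 : Fin d →₀ ℕ),
    fun n => (pFam_le_map n).trans le_sup_left⟩

section rel

variable (hd : 0 < d) (x : Fin d → R)

/-- The last index. -/
def lastIdx : Fin d := ⟨d - 1, Nat.sub_lt hd Nat.one_pos⟩

/-- The `i`-th relation. -/
noncomputable def relPoly (i : ℕ) : MvPolynomial (Fin d) R :=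
  if h : i < d - 1 then
    C (x (lastIdx hd)) * MvPolynomial.X (⟨i, by omega⟩ : Fin d) -
      C (x ⟨i, by omega⟩) * MvPolynomial.X (lastIdx hd)
  else 0

/-- The families generated by the first `i` relations. -/
noncomputable def relFam (D : ℕ) : ℕ → ℤ → Submodule R (MvPolynomial (Fin d) R)
  | 0, _ => ⊥
  | i + 1, n => relFam D i n ⊔ (pFam R d D (n - D)).map (LinearMap.mulLeft R (relPoly hd x i))

lemma relFam_mono_succ (D i : ℕ) (n : ℤ) : relFam hd x D i n ≤ relFam hd x D (i + 1) n :=
  le_sup_left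

lemma relFam_mono (D : ℕ) {i j : ℕ} (h : i ≤ j) (n : ℤ) : relFam hd x D i n ≤ relFam hd x D j n := by
  induction h with
  | refl => exact le_rfl
  | step _ ih => exact ih.trans (relFam_mono_succ hd x D _ n)

lemma relFam_stable (D i : ℕ) : FamStable D (fun l => polX R l) (relFam hd x D i) := by
  induction i with
  | zero =>
    intro l n v hv
    rw [(Submodule.mem_bot R).1 hv, map_zero]
    exact zero_mem _
  | succ i ih =>
    intro l n v hv
    obtain ⟨a, ha, _, ⟨q, hq, rfl⟩, rfl⟩ := Submodule.mem_sup.1 hv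
    rw [map_add]
    refine Submodule.add_mem_sup (ih l n a ha) ⟨polX R l q, ?_, ?_⟩
    · have := pFam_stable (R := R) (D := D) l _ q hq
      rwa [show n - (D : ℤ) + D = n + D - D by ring] at this
    · simp only [LinearMap.mulLeft_apply, polX_apply]; ring

lemma relPoly_mul_mem (D : ℕ) {i : ℕ} {n : ℤ} {v : MvPolynomial (Fin d) R}
    (hv : v ∈ pFam R d D n) : relPoly hd x i * v ∈ pFam R d D (n + D) := by
  unfold relPoly
  split
  · rw [sub_mul, mul_assoc, mul_assoc, C_mul', C_mul']
    exact Submodule.sub_mem _ (Submodule.smul_mem _ _ (pFam_stable _ _ _ hv))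
      (Submodule.smul_mem _ _ (pFam_stable _ _ _ hv))
  · rw [zero_mul]; exact zero_mem _

lemma relFam_le (D i : ℕ) (n : ℤ) : relFam hd x D i n ≤ pFam R d D n := by
  induction i with
  | zero => exact bot_le
  | succ i ih =>
    refine sup_le ih ?_
    rintro _ ⟨q, hq, rfl⟩
    have := relPoly_mul_mem hd x D (i := i) hq
    rwa [sub_add_cancel] at this

/-- The substitution eliminating the first `i` relations. -/
noncomputable def thetaHom (i : ℕ) : MvPolynomial (Fin d) R →ₐ[R] MvPolynomial (Fin d) R :=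
  aeval fun l : Fin d =>
    C (if (l : ℕ) < i then x l else x (lastIdx hd)) *
      MvPolynomial.X (if (l : ℕ) < i then lastIdx hd else l)

lemma thetaHom_X (i : ℕ) (l : Fin d) :
    thetaHom hd x i (MvPolynomial.X l) = C (if (l : ℕ) < i then x l else x (lastIdx hd)) *
      MvPolynomial.X (if (l : ℕ) < i then lastIdx hd else l) := aeval_X _ _

lemma thetaHom_C (i : ℕ) (b : R) : thetaHom hd x i (C b) = C b := aeval_C _ _

lemma thetaHom_relPoly_lt {i j : ℕ} (hj : j < i) (hi : i ≤ d - 1) :
    thetaHom hd x i (relPoly hd x j) = 0 := by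
  unfold relPoly
  rw [dif_pos (by omega), map_sub, map_mul, map_mul, thetaHom_C, thetaHom_C, thetaHom_X, thetaHom_X]
  have h1 : ((⟨j, by omega⟩ : Fin d) : ℕ) < i := hj
  have h2 : ¬ ((lastIdx hd : Fin d) : ℕ) < i := by simp [lastIdx]; omega
  rw [if_pos h1, if_pos h1, if_neg h2, if_neg h2]
  ring

lemma thetaHom_relPoly_self {i : ℕ} (hi : i < d - 1) :
    thetaHom hd x i (relPoly hd x i) = C (x (lastIdx hd)) * relPoly hd x i := by
  unfold relPoly
  rw [dif_pos hi, map_sub, map_mul, map_mul, thetaHom_C, thetaHom_C, thetaHom_X, thetaHom_X]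
  have h1 : ¬ ((⟨i, by omega⟩ : Fin d) : ℕ) < i := lt_irrefl i
  have h2 : ¬ ((lastIdx hd : Fin d) : ℕ) < i := by simp [lastIdx]; omega
  rw [if_neg h1, if_neg h1, if_neg h2, if_neg h2]
  ring

lemma thetaHom_relFam {i j : ℕ} (hj : j ≤ i) (hi : i ≤ d - 1) (D : ℕ) (n : ℤ) :
    ∀ v ∈ relFam hd x D j n, thetaHom hd x i v = 0 := by
  induction j with
  | zero => intro v hv; rw [(Submodule.mem_bot R).1 hv, map_zero]
  | succ j ih =>
    intro v hv
    obtain ⟨a, ha, _, ⟨q, -, rfl⟩, rfl⟩ := Submodule.mem_sup.1 hv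
    rw [map_add, ih (by omega) a ha, LinearMap.mulLeft_apply, map_mul,
      thetaHom_relPoly_lt hd x (by omega) hi, zero_mul, add_zero]

lemma theta_monomial_key {i : ℕ} (hi : i ≤ d - 1) (D : ℕ) (β : Fin d →₀ ℕ) :
    C (x (lastIdx hd)) ^ bdeg β * monomial β 1 - thetaHom hd x i (monomial β 1) ∈
        relFam hd x D i (D * bdeg β) ∧
      thetaHom hd x i (monomial β 1) ∈ pFam R d D (D * bdeg β) := by
  refine xPow_induction (P := fun β =>
    C (x (lastIdx hd)) ^ bdeg β * monomial β 1 - thetaHom hd x i (monomial β 1) ∈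
        relFam hd x D i (D * bdeg β) ∧
      thetaHom hd x i (monomial β 1) ∈ pFam R d D (D * bdeg β)) ?_ ?_ β
  · have h1 : monomial (0 : Fin d →₀ ℕ) (1 : R) = 1 := rfl
    have h0 := monomial_mem_pFam (R := R) (D := D) (0 : Fin d →₀ ℕ)
    refine ⟨?_, ?_⟩
    · simp [h1, bdeg]
    · simpa [h1] using h0
  intro β l ⟨hk, hp⟩
  have hs : (D : ℤ) * bdeg (β + Finsupp.single l 1) = D * bdeg β + D := by
    rw [bdeg_add_single]; push_cast; ring
  rw [hs, monomial_add_single', map_mul, thetaHom_X]
  refine ⟨?_, ?_⟩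
  · have e : C (x (lastIdx hd)) ^ bdeg (β + Finsupp.single l 1) *
        (MvPolynomial.X l * monomial β 1) -
        C (if (l : ℕ) < i then x l else x (lastIdx hd)) *
          MvPolynomial.X (if (l : ℕ) < i then lastIdx hd else l) * thetaHom hd x i (monomial β 1) =
        x (lastIdx hd) • polX R l (C (x (lastIdx hd)) ^ bdeg β * monomial β 1 -
          thetaHom hd x i (monomial β 1)) +
        (C (x (lastIdx hd)) * MvPolynomial.X l -
          C (if (l : ℕ) < i then x l else x (lastIdx hd)) *
            MvPolynomial.X (if (l : ℕ) < i then lastIdx hd else l)) *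
          thetaHom hd x i (monomial β 1) := by
      rw [bdeg_add_single, polX_apply, ← C_mul', pow_succ]
      ring
    rw [e]
    refine Submodule.add_mem _ (Submodule.smul_mem _ _ (relFam_stable hd x D i l _ _ hk)) ?_
    by_cases hl : (l : ℕ) < i
    · rw [if_pos hl, if_pos hl]
      have hrel : relPoly hd x (l : ℕ) = C (x (lastIdx hd)) * MvPolynomial.X l -
          C (x l) * MvPolynomial.X (lastIdx hd) := by
        rw [relPoly, dif_pos (by omega)]
      rw [← hrel]
      refine relFam_mono hd x D (show (l : ℕ) + 1 ≤ i by omega) _ (Submodule.mem_sup_right ?_)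
      exact ⟨_, by rwa [add_sub_cancel_right], rfl⟩
    · rw [if_neg hl, if_neg hl, sub_self, zero_mul]
      exact zero_mem _
  · rw [mul_assoc, C_mul']
    exact Submodule.smul_mem _ _ (pFam_stable _ _ _ hp)

lemma theta_key {i : ℕ} (hi : i ≤ d - 1) {D : ℕ} (hD : 0 < D) {n : ℤ}
    {v : MvPolynomial (Fin d) R} (hv : v ∈ pFam R d D n) :
    x (lastIdx hd) ^ (n / D).toNat • v - thetaHom hd x i v ∈ relFam hd x D i n ∧
      thetaHom hd x i v ∈ pFam R d D n := by
  have h1 := pFam_map_le (x (lastIdx hd) ^ (n / D).toNat • LinearMap.id -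
      (thetaHom hd x i).toLinearMap) (Q := relFam hd x D i n) (n := n) (fun β hβ => by
    have hn : (n / D).toNat = bdeg β := by
      rw [← hβ, Int.mul_ediv_cancel_left _ (by omega), Int.toNat_natCast]
    simp only [LinearMap.sub_apply, LinearMap.smul_apply, LinearMap.id_apply,
      AlgHom.toLinearMap_apply]
    rw [hn, ← C_mul', map_pow, ← hβ]
    exact (theta_monomial_key hd x hi D β).1) v hv
  have h2 := pFam_map_le (thetaHom hd x i).toLinearMap (Q := pFam R d D n) (n := n) (fun β hβ => by
    rw [AlgHom.toLinearMap_apply, ← hβ]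
    exact (theta_monomial_key hd x hi D β).2) v hv
  simp only [LinearMap.sub_apply, LinearMap.smul_apply, LinearMap.id_apply,
    AlgHom.toLinearMap_apply] at h1 h2
  exact ⟨h1, h2⟩

/-- Cancellation: `(a X_i - b X_L) w = 0` forces a power of `a` to kill `w`. -/
lemma cancel_lemma {i L : Fin d} (hne : i ≠ L) (a b : R) (w : MvPolynomial (Fin d) R)
    (h : (C a * MvPolynomial.X i - C b * MvPolynomial.X L) * w = 0) :
    a ^ (degreeOf i w + 1) • w = 0 := by
  have hit : ∀ m : ℕ, (C a * MvPolynomial.X i) ^ m * w = (C b * MvPolynomial.X L) ^ m * w := by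
    intro m
    induction m with
    | zero => simp
    | succ m ih =>
      rw [sub_mul, sub_eq_zero] at h
      calc (C a * MvPolynomial.X i) ^ (m + 1) * w
          = (C a * MvPolynomial.X i) ^ m * ((C a * MvPolynomial.X i) * w) := by ring
        _ = (C b * MvPolynomial.X L) * ((C a * MvPolynomial.X i) ^ m * w) := by rw [h]; ring
        _ = _ := by rw [ih]; ring
  set m := degreeOf i w + 1 with hm
  have he := hit m
  simp only [mul_pow, ← map_pow, X_pow_eq_monomial, C_mul_monomial, mul_one] at he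
  ext β
  rw [coeff_smul, coeff_zero, smul_eq_mul]
  have hc := congrArg (coeff (β + Finsupp.single i m)) he
  rw [coeff_monomial_mul', coeff_monomial_mul', if_pos le_add_self, add_tsub_cancel_right] at hc
  rw [hc]
  split
  swap
  · rfl
  by_contra hne0
  have hmem : β + Finsupp.single i m - Finsupp.single L m ∈ w.support :=
    mem_support_iff.2 fun e => hne0 (by rw [e, mul_zero])
  have := monomial_le_degreeOf i hmem
  simp [Finsupp.tsub_apply, Finsupp.single_apply, hne.symm] at this
  omega

/-- The next relation is injective modulo the previous ones up to powers of `z`. -/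
lemma relPoly_torsion {i : ℕ} (hi : i < d - 1) {D : ℕ} (hD : 0 < D) {n : ℤ}
    {v : MvPolynomial (Fin d) R} (hv : v ∈ pFam R d D (n - D))
    (hg : relPoly hd x i * v ∈ relFam hd x D i n) :
    ∃ k : ℕ, x (lastIdx hd) ^ k • v ∈ relFam hd x D i (n - D) := by
  set z := x (lastIdx hd) with hz
  set w := thetaHom hd x i v with hw
  have h0 : relPoly hd x i * (C z * w) = 0 := by
    have := thetaHom_relFam hd x le_rfl hi.le D n _ hg
    rw [map_mul, thetaHom_relPoly_self hd x hi] at this
    rw [← this, hw]; ring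
  have hrel : relPoly hd x i = C z * MvPolynomial.X (⟨i, by omega⟩ : Fin d) -
      C (x ⟨i, by omega⟩) * MvPolynomial.X (lastIdx hd) := by
    rw [relPoly, dif_pos hi]
  rw [hrel] at h0
  have hk := cancel_lemma (fun e => by
    have := congrArg Fin.val e
    simp [lastIdx] at this
    omega) _ _ _ h0
  set m := degreeOf (⟨i, by omega⟩ : Fin d) (C z * w) + 1 with hm
  rw [C_mul', smul_smul, ← pow_succ] at hk
  refine ⟨m + 1 + ((n - D) / D).toNat, ?_⟩
  have hkey := (theta_key hd x hi.le hD hv).1
  have := Submodule.smul_mem _ (z ^ (m + 1)) hkey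
  rw [smul_sub, smul_smul, ← pow_add, hk, sub_zero] at this
  exact this

end rel

end Vale.Agent.P202
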