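import Vale.Agent.P202.M7Calc
import Vale.Agent.P202.M7StepMap

/-!
Almost calculus for `GoalRankCompare`: endomorphisms with small powers, transfer of ranks of
transitions along maps with almost trivial kernel and cokernel.
-/

universe u

namespace Vale.Agent.P202

namespace RCmp

open M7

variable {P : Type u} [CommRing P] {X Y Z : Type u} [AddCommGroup X] [Module P X] [AddCommGroup Y]
  [Module P Y] [AddCommGroup Z] [Module P Z]

lemma sq_bot (N : Submodule P X) : sq P N ⊥ = Module.length P ↥N := by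
  rw [sq, Submodule.comap_bot, Submodule.ker_subtype]
  exact (Submodule.quotEquivOfEqBot _ rfl).length_eq

lemma ell_mono {M N : Submodule P X} (h : M ≤ N) : Module.length P ↥M ≤ Module.length P ↥N :=
  Module.length_le_of_injective (Submodule.inclusion h) (Submodule.inclusion_injective h)

lemma ell_map_le (g : X →ₗ[P] Y) (N : Submodule P X) :
    Module.length P ↥(N.map g) ≤ Module.length P ↥N :=
  Module.length_le_of_surjective _ (g.submoduleMap_surjective N)

lemma ell_map_le_add (φ : X →ₗ[P] Y) (g : X →ₗ[P] Z) (U : Submodule P X) :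
    Module.length P ↥(U.map φ) ≤
      Module.length P ↥((U ⊓ LinearMap.ker g).map φ) + Module.length P ↥(U.map g) := by
  rw [← sq_bot (U.map φ),
    sq_add (M := (U ⊓ LinearMap.ker g).map φ) bot_le (Submodule.map_mono inf_le_left), sq_bot,
    add_comm]
  refine add_le_add le_rfl ?_
  rw [← sq_bot (U.map g), sq_map, sq_map, Submodule.comap_bot]
  exact (sq_mono_right (Submodule.map_le_iff_le_comap.1 le_rfl)).trans
    (sq_inf_self U (LinearMap.ker g)).le

/-- The `b`-th power has image of length at most `L`. -/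
def Small (D : X →ₗ[P] X) (b : ℕ) (L : ℕ∞) : Prop :=
  Module.length P ↥(LinearMap.range (D ^ b)) ≤ L

lemma Small.mono {D : X →ₗ[P] X} {b b' : ℕ} {L L' : ℕ∞} (h : Small D b L) (hb : b ≤ b')
    (hL : L ≤ L') : Small D b' L' :=
  ((ell_mono (range_pow_anti D hb)).trans h).trans hL

lemma Small.of_surjective {D : X →ₗ[P] X} {E : Y →ₗ[P] Y} {f : X →ₗ[P] Y}
    (h : E ∘ₗ f = f ∘ₗ D) (hf : Function.Surjective f) {b : ℕ} {L : ℕ∞} (hD : Small D b L) :
    Small E b L := by
  refine le_trans ?_ hD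
  refine le_trans (ell_mono ?_) (ell_map_le f _)
  rintro _ ⟨y, rfl⟩
  obtain ⟨x, rfl⟩ := hf y
  exact ⟨(D ^ b) x, ⟨x, rfl⟩, (pow_apply_comm h b x).symm⟩

lemma Small.of_injective {D : X →ₗ[P] X} {E : Y →ₗ[P] Y} {f : X →ₗ[P] Y}
    (h : E ∘ₗ f = f ∘ₗ D) (hf : Function.Injective f) {b : ℕ} {L : ℕ∞} (hE : Small E b L) :
    Small D b L := by
  refine le_trans ((Submodule.equivMapOfInjective f hf _).length_eq.le.trans (ell_mono ?_)) hE
  rintro _ ⟨_, ⟨x, rfl⟩, rfl⟩
  exact ⟨f x, pow_apply_comm h b x⟩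

/-- Extensions. -/
lemma Small.ext {DA : X →ₗ[P] X} {DB : Y →ₗ[P] Y} {DC : Z →ₗ[P] Z} {f : X →ₗ[P] Y}
    {g : Y →ₗ[P] Z} (hf : DB ∘ₗ f = f ∘ₗ DA) (hg : DC ∘ₗ g = g ∘ₗ DB) (hex : Function.Exact f g)
    {a b : ℕ} {LA LC : ℕ∞} (hA : Small DA a LA) (hC : Small DC b LC) :
    Small DB (a + b) (LA + LC) := by
  have h1 : LinearMap.range (DB ^ (a + b)) = (LinearMap.range (DB ^ b)).map (DB ^ a) := by
    rw [pow_add, Module.End.mul_eq_comp, LinearMap.range_comp]
  refine le_trans (le_of_eq_of_le (by rw [h1]) (ell_map_le_add (DB ^ a) g _)) (add_le_add ?_ ?_)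
  · refine le_trans (ell_mono ?_) ((ell_map_le f _).trans hA)
    rintro _ ⟨z, ⟨-, hz⟩, rfl⟩
    obtain ⟨x, rfl⟩ := (hex z).1 hz
    exact ⟨(DA ^ a) x, ⟨x, rfl⟩, (pow_apply_comm hf a x).symm⟩
  · refine le_trans (ell_mono ?_) hC
    rintro _ ⟨_, ⟨y, rfl⟩, rfl⟩
    exact ⟨g y, pow_apply_comm hg b y⟩

/-- The kernel of a map in an exact sequence. -/
lemma ker_small {DA : X →ₗ[P] X} {DB : Y →ₗ[P] Y} {f : X →ₗ[P] Y} (hf : DB ∘ₗ f = f ∘ₗ DA)
    {g : Y →ₗ[P] Z} (hex : Function.Exact f g) {b : ℕ} {L : ℕ∞} (hA : Small DA b L) :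
    Module.length P ↥((LinearMap.ker g).map (DB ^ b)) ≤ L := by
  refine le_trans (ell_mono ?_) ((ell_map_le f _).trans hA)
  rintro _ ⟨z, hz, rfl⟩
  obtain ⟨x, rfl⟩ := (hex z).1 hz
  exact ⟨(DA ^ b) x, ⟨x, rfl⟩, (pow_apply_comm hf b x).symm⟩

/-- The cokernel of a map in an exact sequence. -/
lemma coker_small {DB : Y →ₗ[P] Y} {DC : Z →ₗ[P] Z} {f : X →ₗ[P] Y} {g : Y →ₗ[P] Z}
    (hg : DC ∘ₗ g = g ∘ₗ DB) (hex : Function.Exact f g) {b : ℕ} {L : ℕ∞} (hC : Small DC b L) :
    sq P (LinearMap.range (DB ^ b)) (LinearMap.range f) ≤ L := by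
  rw [← LinearMap.exact_iff.1 hex, ← Submodule.comap_bot, ← sq_map, sq_bot]
  refine le_trans (ell_mono ?_) hC
  rintro _ ⟨_, ⟨y, rfl⟩, rfl⟩
  exact ⟨g y, pow_apply_comm hg b y⟩

/-- Following `f` by a map with kernel and cokernel killed by the endomorphisms. -/
lemma ker_small_comp {D : X →ₗ[P] X} {E : Y →ₗ[P] Y} {f : X →ₗ[P] Y} (hf : E ∘ₗ f = f ∘ₗ D)
    {g : Y →ₗ[P] Z} (hg : ∀ v, g v = 0 → E v = 0) {b : ℕ} {L : ℕ∞}
    (hk : Module.length P ↥((LinearMap.ker f).map (D ^ b)) ≤ L) :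
    Module.length P ↥((LinearMap.ker (g ∘ₗ f)).map (D ^ (b + 1))) ≤ L := by
  refine le_trans (ell_mono ?_) hk
  rintro _ ⟨x, hx, rfl⟩
  refine ⟨D x, ?_, ?_⟩
  · rw [SetLike.mem_coe, LinearMap.mem_ker, ← LinearMap.comp_apply, ← hf]
    exact hg _ hx
  · rw [← Module.End.mul_apply, ← pow_succ]

/-- Following `f` by a map with kernel and cokernel killed by the endomorphisms. -/
lemma coker_small_comp {E : Y →ₗ[P] Y} {F : Z →ₗ[P] Z} {f : X →ₗ[P] Y} {g : Y →ₗ[P] Z}
    (hg : F ∘ₗ g = g ∘ₗ E) (hs : LinearMap.range F ≤ LinearMap.range g) {b : ℕ} {L : ℕ∞}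
    (hc : sq P (LinearMap.range (E ^ b)) (LinearMap.range f) ≤ L) :
    sq P (LinearMap.range (F ^ (b + 1))) (LinearMap.range (g ∘ₗ f)) ≤ L := by
  refine le_trans ?_ hc
  have h : LinearMap.range (F ^ (b + 1)) ≤ (LinearMap.range (E ^ b)).map g := by
    rw [pow_succ, Module.End.mul_eq_comp, LinearMap.range_comp]
    refine (Submodule.map_mono hs).trans ?_
    rintro _ ⟨_, ⟨y, rfl⟩, rfl⟩
    exact ⟨(E ^ b) y, ⟨y, rfl⟩, (pow_apply_comm hg b y).symm⟩
  refine (sq_mono_left h).trans ?_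
  rw [sq_map, LinearMap.range_comp]
  exact sq_mono_right (Submodule.map_le_iff_le_comap.1 le_rfl)

/-- Ranks of transitions along maps with almost trivial kernel and cokernel. -/
lemma transfer {X' Y' : Type u} [AddCommGroup X'] [Module P X'] [AddCommGroup Y'] [Module P Y']
    [IsNoetherian P X] [IsArtinian P X] [IsNoetherian P Y] [IsArtinian P Y]
    {D : X →ₗ[P] X} {E : Y →ₗ[P] Y} {E' : Y' →ₗ[P] Y'} {t : X' →ₗ[P] X} {t' : Y' →ₗ[P] Y}
    {f : X →ₗ[P] Y} {f' : X' →ₗ[P] Y'} (hf : E ∘ₗ f = f ∘ₗ D) (ht' : E ∘ₗ t' = t' ∘ₗ E')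
    (hsq : f ∘ₗ t = t' ∘ₗ f') {i η J b : ℕ} (hR : Reg E i η J) {L : ℕ}
    (hker : Module.length P ↥((LinearMap.ker f).map (D ^ b)) ≤ (L : ℕ∞))
    (hcok : sq P (LinearMap.range (E' ^ b)) (LinearMap.range f') ≤ (L : ℕ∞))
    {a : ℕ} (ha : i + b ≤ a) (haJ : a + b ≤ J) :
    rkS D (LinearMap.range t) a ≤ rkS E (LinearMap.range t') a + (L + η) ∧
      rkS E (LinearMap.range t') a ≤ rkS D (LinearMap.range t) a + (L + η) := by
  set M := (LinearMap.range t).map (D ^ a) with hM
  have hfM : M.map f = ((LinearMap.range f').map t').map (E ^ a) := by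
    rw [hM, ← map_comm hf, ← LinearMap.range_comp t f, hsq, LinearMap.range_comp f' t']
  constructor
  · have h1 : len P ↥M = _ := len_split f M
    have h2 : len P ↥(M.map f) ≤ rkS E (LinearMap.range t') a := by
      rw [hfM]
      exact len_mono (Submodule.map_mono LinearMap.map_le_range)
    have h3 : len P ↥(M ⊓ LinearMap.ker f) ≤
        len P ↥(LinearMap.range (D ^ a) ⊓ LinearMap.ker f) :=
      len_mono (inf_le_inf_right _ LinearMap.map_le_range)
    have h4 := kerK hf hR (show i ≤ a by omega) (show a - i ≤ J by omega)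
      (LinearMap.id : X →ₗ[P] X)
    rw [Submodule.map_id, Submodule.map_id] at h4
    have h5 : len P ↥((LinearMap.ker f).map (D ^ (a - i))) ≤ L := by
      refine ENat.toNat_le_of_le_natCast (le_trans ?_ hker)
      rw [show a - i = (a - i - b) + b by omega, ← map_pow_add]
      exact ell_map_le _ _
    show len P ↥M ≤ _
    omega
  · have h1 := drop hR (LinearMap.range t') (show i ≤ a by omega) (Nat.le_add_right a b) (by omega)
    have hW : (LinearMap.range t').map (E ^ (a + b)) =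
        (LinearMap.range (E' ^ b)).map ((E ^ a) ∘ₗ t') := by
      rw [← map_pow_add, LinearMap.range_eq_map t', map_comm ht', Submodule.map_comp,
        Submodule.map_top]
    have hR' : (LinearMap.range f').map ((E ^ a) ∘ₗ t') = M.map f := by
      rw [hfM, Submodule.map_comp]
    have h2 : Module.length P ↥((LinearMap.range t').map (E ^ (a + b))) ≤
        (L : ℕ∞) + Module.length P ↥(M.map f) := by
      rw [hW, ← hR']
      refine le_trans (ell_mono (Submodule.map_mono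
        (le_sup_left : _ ≤ LinearMap.range (E' ^ b) ⊔ LinearMap.range f'))) ?_
      rw [← sq_bot (((LinearMap.range (E' ^ b)) ⊔ LinearMap.range f').map _),
        sq_add (M := (LinearMap.range f').map ((E ^ a) ∘ₗ t')) bot_le
          (Submodule.map_mono le_sup_right), sq_bot]
      refine add_le_add (le_trans ?_ hcok) le_rfl
      rw [Submodule.map_sup, sq_sup_left, sq_map]
      exact sq_mono_right (Submodule.map_le_iff_le_comap.1 le_rfl)
    have h3 : rkS E (LinearMap.range t') (a + b) ≤ L + len P ↥(M.map f) := by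
      refine ENat.toNat_le_of_le_natCast (h2.trans (le_of_eq ?_))
      rw [Nat.cast_add, len, ENat.natCast_toNat Module.length_ne_top]
    have h4 := len_map_le f M
    change _ ≤ len P ↥M + (L + η)
    omega

/-- Transport along an isomorphism. -/
lemma rkS_equiv {D : X →ₗ[P] X} {E : Y →ₗ[P] Y} {f : X →ₗ[P] Y} (h : E ∘ₗ f = f ∘ₗ D)
    (hf : Function.Injective f) (N : Submodule P X) (a : ℕ) :
    rkS E (N.map f) a = rkS D N a := by
  rw [rkS, map_comm h, len_map_inj f hf]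
  rfl

end RCmp

end Vale.Agent.P202
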