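import Vale.Agent.P202.RCompareRank

/-!
R2: the transition of the windows of the twisted complexes has, up to small errors, the rank of the
induced map on the Koszul homology of `S ⊗ V`.
-/

universe u

namespace Vale.Agent.P202

open TensorProduct IsLocalRing

/-- A square of two maps induced on quotients by maps defined on larger submodules. -/
lemma stepSquare {S : Type u} [CommRing S] {M M' N N' : Type u} [AddCommGroup M] [Module S M]
    [AddCommGroup M'] [Module S M'] [AddCommGroup N] [Module S N] [AddCommGroup N'] [Module S N']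
    {φ : M' →ₗ[S] M} {g : N' →ₗ[S] N} {q' p' : Submodule S M'} {q p : Submodule S M}
    {h' : q' ≤ p'} {h : q ≤ p} {f' : ↥p' →ₗ[S] N'} {f : ↥p →ₗ[S] N} {K' : Submodule S N'}
    {K : Submodule S N} {hK' : ∀ v, (f' ∘ₗ Submodule.inclusion h') v ∈ K'}
    {hK : ∀ v, (f ∘ₗ Submodule.inclusion h) v ∈ K} {hφ : ∀ v ∈ q', φ v ∈ q}
    {hg : ∀ v ∈ K', g v ∈ K} {b₁ : Submodule S ↥q'} {b₂ : Submodule S ↥K'}
    {b₃ : Submodule S ↥q} {b₄ : Submodule S ↥K}
    {c₁ : b₁ ≤ b₂.comap ((f' ∘ₗ Submodule.inclusion h').codRestrict K' hK')}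
    {c₂ : b₂ ≤ b₄.comap (g.restrict hg)} {c₃ : b₁ ≤ b₃.comap (φ.restrict hφ)}
    {c₄ : b₃ ≤ b₄.comap ((f ∘ₗ Submodule.inclusion h).codRestrict K hK)}
    (H : ∀ (v : ↥p') (hv : φ v.1 ∈ p), g (f' v) = f ⟨φ v.1, hv⟩) :
    b₂.mapQ b₄ (g.restrict hg) c₂ ∘ₗ
        b₁.mapQ b₂ ((f' ∘ₗ Submodule.inclusion h').codRestrict K' hK') c₁ =
      b₃.mapQ b₄ ((f ∘ₗ Submodule.inclusion h).codRestrict K hK) c₄ ∘ₗ
        b₁.mapQ b₃ (φ.restrict hφ) c₃ :=
  Submodule.linearMap_qext _ (LinearMap.ext fun v => congrArg Submodule.Quotient.mk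
    (Subtype.ext (H ⟨v.1, h' v.2⟩ (h (hφ v.1 v.2)))))

section Window

variable {R S : Type u} [CommRing R] [IsLocalRing R] [CommRing S] [Algebra R S] {d : ℕ}
  {x : Fin d → R} {e : ℝ} {C H J Z η : ℕ} (D : RankSys (S := S) x e C H J Z η)

omit [Algebra R S] in
lemma win_zero_subsingleton {A : Type u} [AddCommGroup A] [Module R A] (δ : A →ₗ[R] A)
    (P Gt : ℤ → Submodule R A) (k : ℤ) : Subsingleton (winH δ P Gt 0 0 k) :=
  hmod_subsingleton fun _ hz => Submodule.mem_sup_right hz.1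

/-- The windows `[0, T)` are finite, with small rank away from the degree zero. -/
lemma win_small (hd : 0 < d) :
    ∀ T : ℕ, T ≤ H → ∀ k : ℤ, Module.length R (winH D.δ D.P D.Gt 0 (T : ℤ) k) ≠ ⊤ ∧
      (k ≠ 0 → rkD (D.dl.winMap 0 (T : ℤ) k) (2 * T) ≤ T * η) := by
  intro T
  induction T with
  | zero =>
    intro _ k
    haveI := win_zero_subsingleton D.δ D.P D.Gt k
    exact ⟨by rw [Nat.cast_zero, Module.length_eq_zero]; simp,
      fun _ => by rw [Nat.cast_zero, rkD_subsingleton]; exact Nat.zero_le _⟩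
  | succ T ih =>
    intro hT k
    obtain ⟨h1, h2⟩ := ih (by omega) k
    have hb := D.blk_finite (T : ℤ) k
    rw [show ((T + 1 : ℕ) : ℤ) = (T : ℤ) + 1 by push_cast; ring]
    have hQP : ∀ r, lvl D.P D.Gt ((T : ℤ) + 1) r ≤ lvl D.P D.Gt (T : ℤ) r :=
      fun r => inf_le_inf_right _ (D.filt.anti (by omega))
    have hPO : ∀ r, lvl D.P D.Gt (T : ℤ) r ≤ lvl D.P D.Gt 0 r :=
      fun r => inf_le_inf_right _ (D.filt.anti (by omega))
    have hex := exact_hinc_hproj (δ := D.δ) hQP hPO D.filt.sq0 k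
    obtain ⟨_, _⟩ := isFiniteLength_iff_isNoetherian_isArtinian.1 (Module.length_ne_top_iff.1 h1)
    obtain ⟨_, _⟩ := isFiniteLength_iff_isNoetherian_isArtinian.1 (Module.length_ne_top_iff.1 hb)
    have hker := (LinearMap.exact_iff.1 hex).symm
    haveI : IsNoetherian R (winH D.δ D.P D.Gt 0 ((T : ℤ) + 1) k) :=
      isNoetherian_of_range_eq_ker _ _ hker
    haveI : IsArtinian R (winH D.δ D.P D.Gt 0 ((T : ℤ) + 1) k) :=
      isArtinian_of_range_eq_ker _ _ hker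
    refine ⟨Module.length_ne_top, fun hk => ?_⟩
    rw [show 2 * (T + 1) = 2 + 2 * T by ring, show (T + 1) * η = η + T * η by ring]
    refine (rkD_le_add (DA := D.dl.winMap (T : ℤ) ((T : ℤ) + 1) k) ?_ ?_ hex 2 (2 * T)).trans
      (add_le_add (D.blk_out _ _ (by omega) (by omega) fun hI => hk ?_) (h2 hk))
    · exact hmap_sq_comm _ k
    · exact hmap_sq_comm _ k
    · obtain ⟨a, b⟩ := hI
      omega

end Window

variable {R S : Type u} [CommRing R] [CommRing S] [Algebra R S] {A : Type u} [AddCommGroup A]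
  [Module R A] {d : ℕ} {I : Ideal R} {δ g : A →ₗ[R] A} {P Gt : ℤ → Submodule R A}

lemma Ysub_top (hF : FiltSys I d δ P Gt) (y : Fin d → S) (T : ℤ) :
    Ysub y δ P Gt T d = DT S y P Gt (fun _ => 0) := by
  funext r
  ext f
  rw [mem_DT_const, mem_DT_const]
  refine forall_congr' fun s => ?_
  by_cases h : r + (s.card : ℤ) < d
  · rw [show YP δ P Gt T d (r + s.card) = P (r + s.card) by simp [YP, h]]
  · have hb := hF.bound (r + s.card) (Or.inr (by omega))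
    have hy : YP δ P Gt T d (r + s.card) = ⊥ := eq_bot_iff.2 ((YP_le T d _).trans hb.le)
    rw [hy, hb]

lemma Ysub_bot (hF : FiltSys I d δ P Gt) (y : Fin d → S) {T : ℤ} (hT : 0 ≤ T) :
    Ysub y δ P Gt T (-(d : ℤ) - 1) = DT S y P Gt (fun _ => T) := by
  funext r
  ext f
  rw [mem_DT_const, mem_DT_const]
  refine forall_congr' fun s => ?_
  suffices Gt 0 ⊓ YP δ P Gt T (-(d : ℤ) - 1) (r + s.card) = Gt T ⊓ P (r + s.card) by rw [this]
  by_cases h : r + (s.card : ℤ) ≤ -(d : ℤ) - 1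
  · have hb := hF.bound (r + s.card) (Or.inl (by omega))
    have hy : YP δ P Gt T (-(d : ℤ) - 1) (r + s.card) = ⊥ :=
      eq_bot_iff.2 ((YP_le T _ _).trans hb.le)
    rw [hy, hb, inf_bot_eq, inf_bot_eq]
  · rw [show YP δ P Gt T (-(d : ℤ) - 1) (r + s.card) = P (r + s.card) ⊓ Gt T by
      simp [YP, show ¬ r + (s.card : ℤ) < -(d : ℤ) - 1 by omega,
        show r + (s.card : ℤ) ≠ -(d : ℤ) - 1 by omega]]
    rw [inf_comm (P _), ← inf_assoc, inf_eq_right.2 (hF.anti hT)]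

/-- The transition between truncations at two tops. -/
noncomputable def yTr (hF : FiltSys I d δ P Gt) (y : Fin d → S) {T T' : ℤ} (h : T ≤ T')
    (k k' r : ℤ) :
    HMod (dT S y δ) (Ysub y δ P Gt T' k) (Ysub y δ P Gt T' k') r →ₗ[S]
      HMod (dT S y δ) (Ysub y δ P Gt T k) (Ysub y δ P Gt T k') r :=
  hmap (δ := dT S y δ) (δ' := dT S y δ) LinearMap.id
    (fun _ _ hv => mem_DT_const.2 fun s =>
      gbar_mono (inf_le_inf_left _ (YP_anti hF h k _)) (mem_DT_const.1 hv s))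
    (fun _ _ hv => mem_DT_const.2 fun s =>
      gbar_mono (inf_le_inf_left _ (YP_anti hF h k' _)) (mem_DT_const.1 hv s))
    (fun _ _ _ => rfl) r

/-- The full truncation is the window. -/
noncomputable def topIso (hF : FiltSys I d δ P Gt) (y : Fin d → S) {T : ℤ} (hT : 0 ≤ T) (r : ℤ) :
    HMod (dT S y δ) (Ysub y δ P Gt T d) (Ysub y δ P Gt T (-(d : ℤ) - 1)) r →ₗ[S]
      uH y δ P Gt T r :=
  hmap (δ := dT S y δ) (δ' := dT S y δ) LinearMap.id
    (fun r _ hv => (congrFun (Ysub_top hF y T) r).le hv)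
    (fun r _ hv => (congrFun (Ysub_bot hF y hT) r).le hv) (fun _ _ _ => rfl) r

variable [Module.Flat R S] (hF : FiltSys I d δ P Gt)
include hF

lemma topIso_bijective (y : Fin d → S) {T : ℤ} (hT : 0 ≤ T) (r : ℤ) :
    Function.Bijective (topIso hF y hT r) := by
  refine hmap_bijective _ ?_ ?_ _ _ _ (fun r v hv => ?_) (fun r v _ hv => ?_) r
  · exact DT_stable (YP_filt hF T d) y _
  · exact DT_stable hF y _
  · exact Submodule.mem_sup_left ⟨v, (congrFun (Ysub_top hF y T) r).ge hv, rfl⟩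
  · exact (congrFun (Ysub_bot hF y hT) r).ge hv

lemma theta_winTr {T T' : ℤ} (h : T ≤ T') (k : ℤ) (x : ↥(gbar S S (wcyc δ P Gt T' k)))
    (hx : x.1 ∈ gbar S S (wcyc δ P Gt T k)) :
    theta δ P Gt T k ⟨x.1, hx⟩ = lT S S (winTr δ hF.anti 0 h k) (theta δ P Gt T' k x) := by
  have hle : wcyc δ P Gt T' k ≤ wcyc δ P Gt T k := fun x hx =>
    ⟨hx.1, (inf_le_inf_right (P (k + 1)) (hF.anti h) : _) hx.2⟩
  obtain ⟨z, hz⟩ := x.2
  have e : lT S S (wcyc δ P Gt T k).subtype (lT S S (Submodule.inclusion hle) z) = x.1 := by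
    rw [← hz, lT_comp_apply]
    rfl
  rw [theta_apply (⟨x.1, hx⟩ : ↥(gbar S S (wcyc δ P Gt T k))) _ e, theta_apply x z hz,
    lT_comp_apply, lT_comp_apply]
  congr 2

lemma topChain_yTr (y : Fin d → S) {T T' : ℤ} (h : T ≤ T') {k r : ℤ} {p : ℕ} (hr : r + p = k)
    (v : ↥(Ysub y δ P Gt T' k r)) (hv : v.1 ∈ Ysub y δ P Gt T k r) (s : Finset (Fin d)) :
    lT S S (winTr δ hF.anti 0 h k) (topChain hF y T' hr v s) =
      topChain hF y T hr ⟨v.1, hv⟩ s := by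
  by_cases hs : s.card = p
  · have hs' : r + (s.card : ℤ) = k := by rw [hs]; exact hr
    have hm : v.1 s ∈ gbar S S (wcyc δ P Gt T' k) := Ysub_mem_top hF v.2 hs'
    have hm' : v.1 s ∈ gbar S S (wcyc δ P Gt T k) := Ysub_mem_top hF hv hs'
    rw [topChain_apply hF hr v hs hm, topChain_apply hF hr ⟨v.1, hv⟩ hs hm']
    exact (theta_winTr hF h k ⟨v.1 s, hm⟩ hm').symm
  · rw [(topChain_mem hF hr _) s hs, (topChain_mem hF hr _) s hs, map_zero]

lemma stepMap_yTr (y : Fin d → S) {T T' : ℤ} (hT : 0 ≤ T) (h : T ≤ T') {k r : ℤ} {p : ℕ}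
    (hr : r + p = k) :
    hkT y (winTr δ hF.anti 0 h k) p ∘ₗ stepMap hF y (hT.trans h) hr =
      stepMap hF y hT hr ∘ₗ yTr hF y h k (k - 1) r := by
  unfold hkT hkF hkMap stepMap yTr hmap
  exact stepSquare fun v hv => funext fun s => topChain_yTr hF y h hr v hv s

variable [IsLocalRing R] (hg : LevelEnd δ P Gt g)
include hg

omit [Module.Flat R S] [IsLocalRing R] in
lemma yTr_nat (y : Fin d → S) {T T' : ℤ} (h : T ≤ T') (k k' r : ℤ) :
    yEnd hg y T k k' r ∘ₗ yTr hF y h k k' r = yTr hF y h k k' r ∘ₗ yEnd hg y T' k k' r := by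
  unfold yEnd yTr
  exact hmap_sq_comm _ r

omit hg in
lemma yTr_hinc (y : Fin d → S) {T T' : ℤ} (h : T ≤ T') {k k' k'' : ℤ}
    (hk : ∀ i, Ysub y δ P Gt T k' i ≤ Ysub y δ P Gt T k i)
    (hk' : ∀ i, Ysub y δ P Gt T' k' i ≤ Ysub y δ P Gt T' k i) (r : ℤ) :
    yTr hF y h k k'' r ∘ₗ hinc hk' r = hinc hk r ∘ₗ yTr hF y h k' k'' r := by
  unfold yTr hinc
  exact hmap_sq_id r

omit hg in
lemma yTr_hproj (y : Fin d → S) {T T' : ℤ} (h : T ≤ T') {k k' k'' : ℤ}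
    (hk : ∀ i, Ysub y δ P Gt T k'' i ≤ Ysub y δ P Gt T k' i)
    (hk' : ∀ i, Ysub y δ P Gt T' k'' i ≤ Ysub y δ P Gt T' k' i) (r : ℤ) :
    yTr hF y h k k' r ∘ₗ hproj hk' r = hproj hk r ∘ₗ yTr hF y h k k'' r := by
  unfold yTr hproj
  exact hmap_sq_id r

lemma yFinite (hs : Module.length S (S ⊗[R] ResidueField R) ≠ ⊤) (y : Fin d → S) {T : ℤ}
    (hT : 0 ≤ T) (hfin : ∀ k, Module.length R (winH δ P Gt 0 T k) ≠ ⊤) {b c : ℕ}
    (hb : ∀ k : ℤ, k ≠ 0 → rkD (hg.winMap 0 T k) b ≤ c) {k₀ k : ℤ} (hk : k₀ ≤ k) (r : ℤ) :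
    IsNoetherian S (HMod (dT S y δ) (Ysub y δ P Gt T k) (Ysub y δ P Gt T k₀) r) ∧
      IsArtinian S (HMod (dT S y δ) (Ysub y δ P Gt T k) (Ysub y δ P Gt T k₀) r) :=
  (chain_small hF hg hs y hT hfin hb (k - k₀).toNat k₀ k (by omega) r).1

/-- The rank of the transition between two tops of a piece. -/
noncomputable def yRk (y : Fin d → S) {T T' : ℤ} (h : T ≤ T') (k k' r : ℤ) (a : ℕ) : ℕ :=
  rkS (yEnd hg y T k k' r) (LinearMap.range (yTr hF y h k k' r)) a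

section Transfer

variable (hs : Module.length S (S ⊗[R] ResidueField R) ≠ ⊤) (y : Fin d → S) {T T' : ℤ}
  (hT : 0 ≤ T) (h : T ≤ T') (hfin : ∀ k, Module.length R (winH δ P Gt 0 T k) ≠ ⊤)
  (hfin' : ∀ k, Module.length R (winH δ P Gt 0 T' k) ≠ ⊤) {b c : ℕ}
  (hb : ∀ k : ℤ, k ≠ 0 → rkD (hg.winMap 0 T k) b ≤ c)
  (hb' : ∀ k : ℤ, k ≠ 0 → rkD (hg.winMap 0 T' k) b ≤ c)
  {k₀ k₁ k₂ : ℤ} (h01 : k₀ ≤ k₁) (h12 : k₁ ≤ k₂)
include hs hT hfin hb hb' hfin' h01 h12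

lemma yRk_hinc_up (r : ℤ) (a m : ℕ) :
    yRk hF hg y h k₂ k₀ r (a + m) ≤
      yRk hF hg y h k₁ k₀ r a + rkD (yEnd hg y T' k₂ k₁ r) m := by
  obtain ⟨_, _⟩ := yFinite hF hg hs y hT hfin hb h01 r
  obtain ⟨_, _⟩ := yFinite hF hg hs y hT hfin hb (h01.trans h12) r
  obtain ⟨_, _⟩ := yFinite hF hg hs y (hT.trans h) hfin' hb' (h01.trans h12) r
  obtain ⟨_, _⟩ := yFinite hF hg hs y (hT.trans h) hfin' hb' h12 r
  unfold yRk
  have hd2 : dT S y δ ∘ₗ dT S y δ = 0 := dT_dT y δ hF.sq0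
  have u12 : ∀ i, Ysub y δ P Gt T k₁ i ≤ Ysub y δ P Gt T k₂ i := Ysub_mono hF T h12
  have u12' : ∀ i, Ysub y δ P Gt T' k₁ i ≤ Ysub y δ P Gt T' k₂ i := Ysub_mono hF T' h12
  have u01 : ∀ i, Ysub y δ P Gt T k₀ i ≤ Ysub y δ P Gt T k₁ i := Ysub_mono hF T h01
  have u01' : ∀ i, Ysub y δ P Gt T' k₀ i ≤ Ysub y δ P Gt T' k₁ i := Ysub_mono hF T' h01
  exact rkS_transfer_up (φ := hinc (δ := dT S y δ) (Q := Ysub y δ P Gt T k₀) u12 r) (φ' := hinc (δ := dT S y δ) (Q := Ysub y δ P Gt T' k₀) u12' r)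
    (yEnd_hinc hg y T' _ _) (yTr_nat hF hg y h k₁ k₀ r) (yTr_nat hF hg y h k₂ k₀ r)
    (yTr_hinc hF y h _ _ _)
    (yEnd_hproj hg y T' _ _)
    (exact_hinc_hproj u01' u12' hd2 r) a m

lemma yRk_hinc_down (q : ℤ) (a m : ℕ) :
    yRk hF hg y h k₁ k₀ (q + 1) (m + a) ≤
      yRk hF hg y h k₂ k₀ (q + 1) a + rkD (yEnd hg y T k₂ k₁ q) m := by
  obtain ⟨_, _⟩ := yFinite hF hg hs y hT hfin hb h01 (q + 1)
  obtain ⟨_, _⟩ := yFinite hF hg hs y hT hfin hb (h01.trans h12) (q + 1)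
  obtain ⟨_, _⟩ := yFinite hF hg hs y hT hfin hb h12 q
  have hst : IsStable (dT S y δ) (Ysub y δ P Gt T k₁) := DT_stable (YP_filt hF T k₁) y _
  unfold yRk
  have hd2 : dT S y δ ∘ₗ dT S y δ = 0 := dT_dT y δ hF.sq0
  have u12 : ∀ i, Ysub y δ P Gt T k₁ i ≤ Ysub y δ P Gt T k₂ i := Ysub_mono hF T h12
  have u12' : ∀ i, Ysub y δ P Gt T' k₁ i ≤ Ysub y δ P Gt T' k₂ i := Ysub_mono hF T' h12
  have u01 : ∀ i, Ysub y δ P Gt T k₀ i ≤ Ysub y δ P Gt T k₁ i := Ysub_mono hF T h01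
  have u01' : ∀ i, Ysub y δ P Gt T' k₀ i ≤ Ysub y δ P Gt T' k₁ i := Ysub_mono hF T' h01
  exact rkS_transfer_down (φ := hinc (δ := dT S y δ) (Q := Ysub y δ P Gt T k₀) u12 (q + 1))
    (φ' := hinc (δ := dT S y δ) (Q := Ysub y δ P Gt T' k₀) u12' (q + 1)) (yEnd_hinc hg y T _ _)
    (yTr_hinc hF y h _ _ _)
    (yEnd_hconn hg y T hd2 hst q)
    (exact_hconn_hinc u12 hd2 hst u01 q) a m

lemma yRk_hproj_up (r : ℤ) (a m : ℕ) :
    yRk hF hg y h k₂ k₁ r (a + m) ≤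
      yRk hF hg y h k₂ k₀ r a + rkD (yEnd hg y T' k₁ k₀ (r + 1)) m := by
  obtain ⟨_, _⟩ := yFinite hF hg hs y hT hfin hb (h01.trans h12) r
  obtain ⟨_, _⟩ := yFinite hF hg hs y hT hfin hb h12 r
  obtain ⟨_, _⟩ := yFinite hF hg hs y (hT.trans h) hfin' hb' h12 r
  obtain ⟨_, _⟩ := yFinite hF hg hs y (hT.trans h) hfin' hb' h01 (r + 1)
  have hst : IsStable (dT S y δ) (Ysub y δ P Gt T' k₁) := DT_stable (YP_filt hF T' k₁) y _
  unfold yRk
  have hd2 : dT S y δ ∘ₗ dT S y δ = 0 := dT_dT y δ hF.sq0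
  have u12 : ∀ i, Ysub y δ P Gt T k₁ i ≤ Ysub y δ P Gt T k₂ i := Ysub_mono hF T h12
  have u12' : ∀ i, Ysub y δ P Gt T' k₁ i ≤ Ysub y δ P Gt T' k₂ i := Ysub_mono hF T' h12
  have u01 : ∀ i, Ysub y δ P Gt T k₀ i ≤ Ysub y δ P Gt T k₁ i := Ysub_mono hF T h01
  have u01' : ∀ i, Ysub y δ P Gt T' k₀ i ≤ Ysub y δ P Gt T' k₁ i := Ysub_mono hF T' h01
  exact rkS_transfer_up (φ := hproj (δ := dT S y δ) (O := Ysub y δ P Gt T k₂) u01 r) (φ' := hproj (δ := dT S y δ) (O := Ysub y δ P Gt T' k₂) u01' r)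
    (yEnd_hproj hg y T' _ _) (yTr_nat hF hg y h k₂ k₀ r) (yTr_nat hF hg y h k₂ k₁ r)
    (yTr_hproj hF y h _ _ _)
    (yEnd_hconn hg y T' hd2 hst r)
    (exact_hproj_hconn u01' u12' hd2 hst r) a m

lemma yRk_hproj_down (r : ℤ) (a m : ℕ) :
    yRk hF hg y h k₂ k₀ r (m + a) ≤
      yRk hF hg y h k₂ k₁ r a + rkD (yEnd hg y T k₁ k₀ r) m := by
  obtain ⟨_, _⟩ := yFinite hF hg hs y hT hfin hb (h01.trans h12) r
  obtain ⟨_, _⟩ := yFinite hF hg hs y hT hfin hb h12 r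
  obtain ⟨_, _⟩ := yFinite hF hg hs y hT hfin hb h01 r
  unfold yRk
  have hd2 : dT S y δ ∘ₗ dT S y δ = 0 := dT_dT y δ hF.sq0
  have u12 : ∀ i, Ysub y δ P Gt T k₁ i ≤ Ysub y δ P Gt T k₂ i := Ysub_mono hF T h12
  have u12' : ∀ i, Ysub y δ P Gt T' k₁ i ≤ Ysub y δ P Gt T' k₂ i := Ysub_mono hF T' h12
  have u01 : ∀ i, Ysub y δ P Gt T k₀ i ≤ Ysub y δ P Gt T k₁ i := Ysub_mono hF T h01
  have u01' : ∀ i, Ysub y δ P Gt T' k₀ i ≤ Ysub y δ P Gt T' k₁ i := Ysub_mono hF T' h01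
  exact rkS_transfer_down (φ := hproj (δ := dT S y δ) (O := Ysub y δ P Gt T k₂) u01 r) (φ' := hproj (δ := dT S y δ) (O := Ysub y δ P Gt T' k₂) u01' r)
    (yEnd_hproj hg y T _ _)
    (yTr_hproj hF y h _ _ _)
    (yEnd_hinc hg y T _ _)
    (exact_hinc_hproj u01 u12 hd2 r) a m

end Transfer

lemma yRk_top (y : Fin d → S) {T T' : ℤ} (hT : 0 ≤ T) (h : T ≤ T') (r : ℤ) (m : ℕ) :
    yRk hF hg y h d (-(d : ℤ) - 1) r m =
      rkS (hg.uD y T r) (LinearMap.range (uTr y δ hF.anti h r)) m :=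
  rkS_transfer_iso (φ := topIso hF y hT r) (φ' := topIso hF y (hT.trans h) r)
    (hmap_sq_comm _ r) (hmap_sq_id r)
    (topIso_bijective hF y hT r).1 (topIso_bijective hF y (hT.trans h) r).2 m

lemma yRk_step (y : Fin d → S) {T T' : ℤ} (hT : 0 ≤ T) (h : T ≤ T') {p : ℕ} {r : ℤ}
    (hr : r + p = 0) (m : ℕ) :
    yRk hF hg y h 0 (0 - 1) r m =
      rkS (hkT y (hg.winMap 0 T 0) p) (LinearMap.range (hkT y (winTr δ hF.anti 0 h 0) p)) m :=
  rkS_transfer_iso (stepMap_yEnd hF hg y hT hr) (stepMap_yTr hF y hT h hr)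
    (stepMap_injective hF y hT hr) (stepMap_surjective hF y (hT.trans h) hr) m

/-- The windows against the Koszul homology of their cohomology in degree zero. -/
lemma window_compare (hs : Module.length S (S ⊗[R] ResidueField R) ≠ ⊤) (y : Fin d → S) {T T' : ℤ}
    (hT : 0 ≤ T) (h : T ≤ T') (hfin : ∀ k, Module.length R (winH δ P Gt 0 T k) ≠ ⊤)
    (hfin' : ∀ k, Module.length R (winH δ P Gt 0 T' k) ≠ ⊤) {b c : ℕ}
    (hb : ∀ k : ℤ, k ≠ 0 → rkD (hg.winMap 0 T k) b ≤ c)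
    (hb' : ∀ k : ℤ, k ≠ 0 → rkD (hg.winMap 0 T' k) b ≤ c) {p : ℕ} {r : ℤ} (hr : r + p = 0)
    (a : ℕ) :
    rkS (hg.uD y T r) (LinearMap.range (uTr y δ hF.anti h r)) (a + 2 * (d * b)) ≤
        rkS (hkT y (hg.winMap 0 T 0) p) (LinearMap.range (hkT y (winTr δ hF.anti 0 h 0) p)) a +
          2 * (d * (2 ^ d * (fibreLen R S * c))) ∧
      rkS (hkT y (hg.winMap 0 T 0) p) (LinearMap.range (hkT y (winTr δ hF.anti 0 h 0) p))
          (a + 2 * (d * b)) ≤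
        rkS (hg.uD y T r) (LinearMap.range (uTr y δ hF.anti h r)) a +
          2 * (d * (2 ^ d * (fibreLen R S * c))) := by
  obtain ⟨q, rfl⟩ : ∃ q, r = q + 1 := ⟨r - 1, by ring⟩
  have hT' := hT.trans h
  set kb : ℤ := -(d : ℤ) - 1 with hkb
  have e0 : (0 : ℤ) - 1 = kb + d := by omega
  have e2 : (d : ℤ) = 0 + d := by omega
  have hC := (chain_small hF hg hs y hT hfin hb d 0 d e2 q).2 (Or.inl le_rfl)
  have hC' := (chain_small hF hg hs y hT' hfin' hb' d 0 d e2 (q + 1)).2 (Or.inl le_rfl)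
  have hL := (chain_small hF hg hs y hT hfin hb d kb (0 - 1) e0 (q + 1)).2 (Or.inr (by omega))
  have hL' := (chain_small hF hg hs y hT' hfin' hb' d kb (0 - 1) e0 (q + 1 + 1)).2
    (Or.inr (by omega))
  have g01 : kb ≤ (0 : ℤ) := by omega
  have g12 : (0 : ℤ) ≤ (d : ℤ) := by omega
  have g01' : kb ≤ (0 : ℤ) - 1 := by omega
  have g12' : (0 : ℤ) - 1 ≤ 0 := by omega
  constructor
  · have h1 := yRk_hinc_up hF hg hs y hT h hfin hfin' hb hb' g01 g12 (q + 1) (a + d * b) (d * b)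
    have h2 := yRk_hproj_down hF hg hs y hT h hfin hfin' hb hb' g01' g12' (q + 1) a (d * b)
    rw [hkb, yRk_top hF hg y hT h] at h1
    rw [yRk_step hF hg y hT h hr, add_comm (d * b) a] at h2
    rw [hkb] at h2 hL
    rw [show a + 2 * (d * b) = a + d * b + d * b by ring]
    omega
  · have h1 := yRk_hproj_up hF hg hs y hT h hfin hfin' hb hb' g01' g12' (q + 1) (a + d * b) (d * b)
    have h2 := yRk_hinc_down hF hg hs y hT h hfin hfin' hb hb' g01 g12 q a (d * b)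
    rw [yRk_step hF hg y hT h hr] at h1
    rw [hkb, yRk_top hF hg y hT h, add_comm (d * b) a] at h2
    rw [hkb] at h1 hL'
    rw [show a + 2 * (d * b) = a + d * b + d * b by ring]
    omega

omit hF hg

omit [Module.Flat R S] [IsLocalRing R] in
lemma len_range_hkT (y : Fin d → S) {V W : Type u} [AddCommGroup V] [Module R V] [AddCommGroup W]
    [Module R W] (f : V →ₗ[R] W) (p : ℕ) :
    hpRk y f p = len S ↥(LinearMap.range (hkT y f p)) := by
  rw [hpRk, len, kimgM_eq_range]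

/-- Precomposing with an almost bijective endomorphism hardly changes the image. -/
lemma hpRk_precomp (hs : Module.length S (S ⊗[R] ResidueField R) ≠ ⊤) (y : Fin d → S)
    {V W : Type u} [AddCommGroup V] [Module R V] [AddCommGroup W] [Module R W]
    (hV : Module.length R V ≠ ⊤) (hW : Module.length R W ≠ ⊤) (f : V →ₗ[R] W) (g : V →ₗ[R] V)
    (p : ℕ) :
    hpRk y f p ≤ hpRk y (f ∘ₗ g) p +
      2 ^ d * (2 * fibreLen R S * len R ↥(LinearMap.ker g)) := by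
  obtain ⟨_, _⟩ := finite_tensor (S := S) hs V hV
  obtain ⟨_, _⟩ := finite_tensor (S := S) hs W hW
  obtain ⟨_, _⟩ := isFiniteLength_iff_isNoetherian_isArtinian.1 (Module.length_ne_top_iff.1 hV)
  have h := kimgM_ge_of_square y p (φ := lT S S (f ∘ₗ g)) (ψ := lT S S f) (f' := lT S S g)
    (f := LinearMap.id) (by rw [LinearMap.id_comp, lT_comp])
  set k := len R ↥(LinearMap.ker g) with hk
  have hkl : Module.length R ↥(LinearMap.ker g) = (k : ℕ∞) :=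
    (ENat.natCast_toNat Module.length_ne_top).symm
  have hq : Module.length R (V ⧸ LinearMap.range g) = (k : ℕ∞) := by
    have h1 := Module.length_eq_add_of_exact _ _ (Submodule.injective_subtype _)
      g.surjective_rangeRestrict (show Function.Exact (LinearMap.ker g).subtype g.rangeRestrict by
        rw [LinearMap.exact_iff, LinearMap.ker_rangeRestrict, Submodule.range_subtype])
    have h2 := Module.length_eq_add_of_exact _ _ (Submodule.injective_subtype (LinearMap.range g))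
      (Submodule.mkQ_surjective _) (LinearMap.exact_subtype_mkQ (LinearMap.range g))
    rw [hkl, h2, add_comm] at h1
    exact WithTop.add_right_cancel Module.length_ne_top h1
  have hfin : ∀ {X : Type u} [AddCommGroup X] [Module R X], Module.length R X = (k : ℕ∞) →
      Module.length S (S ⊗[R] X) = ((k * fibreLen R S : ℕ) : ℕ∞) := by
    intro X _ _ hX
    rw [length_tensor R S X (by rw [hX]; exact ENat.natCast_ne_top k), hX, Nat.cast_mul, fibreLen,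
      ENat.natCast_toNat hs]
  have hkerl : Module.length S ↥(LinearMap.ker (lT S S g)) =
      ((k * fibreLen R S : ℕ) : ℕ∞) := by
    have heq : gbar S S (LinearMap.ker g) = LinearMap.ker (lT S S g) := by
      rw [← Submodule.comap_bot, gbar_comap, gbar_bot, Submodule.comap_bot]
    rw [← hfin hkl, ← heq]
    exact (gEquiv (S := S) (LinearMap.ker g)).symm.length_eq
  have hqkl : Module.length S ((S ⊗[R] V) ⧸ LinearMap.range (lT S S g)) =
      ((k * fibreLen R S : ℕ) : ℕ∞) := by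
    rw [← hfin hq, LinearMap.range_eq_map, ← gbar_top (R := R) (S := S) (B := S) (A := V),
      ← gbar_map, Submodule.map_top, ← ker_lT_mkQ]
    exact LinearEquiv.length_eq (LinearMap.quotKerEquivOfSurjective _
      (lT_surjective (Submodule.mkQ_surjective _)))
  rw [hkerl, hqkl] at h
  have hfinR : kimgM y (lT S S (f ∘ₗ g)) p ≠ ⊤ := by
    rw [kimgM_eq_range]; exact Module.length_ne_top
  have e : (2 : ℕ∞) ^ d * (((k * fibreLen R S : ℕ) : ℕ∞) + ((k * fibreLen R S : ℕ) : ℕ∞)) =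
      ((2 ^ d * (2 * fibreLen R S * k) : ℕ) : ℕ∞) := by push_cast; ring
  rw [e] at h
  rw [hpRk, hpRk, ← ENat.toNat_natCast (2 ^ d * (2 * fibreLen R S * k)),
    ← ENat.toNat_add hfinR (ENat.natCast_ne_top _)]
  exact ENat.toNat_le_toNat h (WithTop.add_ne_top.2 ⟨hfinR, ENat.natCast_ne_top _⟩)

/-- A factorisation `W → V → W` of the endomorphism, seen on Koszul homology. -/
lemma rank_factor {R S : Type u} [CommRing R] [IsLocalRing R] [CommRing S] [Algebra R S]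
    [Module.Flat R S] {d : ℕ} (hs : Module.length S (S ⊗[R] ResidueField R) ≠ ⊤) (y : Fin d → S)
    {W W' V V' : Type u} [AddCommGroup W] [Module R W] [AddCommGroup W'] [Module R W']
    [AddCommGroup V] [Module R V] [AddCommGroup V'] [Module R V'] (hW : Module.length R W ≠ ⊤)
    (hV : Module.length R V ≠ ⊤) {DW : W →ₗ[R] W} {DW' : W' →ₗ[R] W'} {DV' : V' →ₗ[R] V'}
    {t : W' →ₗ[R] W} {f : V' →ₗ[R] V} {τ : W →ₗ[R] V} {τ' : W' →ₗ[R] V'} {σ : V →ₗ[R] W}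
    {σ' : V' →ₗ[R] W'} (ht : DW ∘ₗ t = t ∘ₗ DW') (hτ : DV' ∘ₗ τ' = τ' ∘ₗ DW')
    (hστ : σ ∘ₗ τ = DW) (hτσ : τ' ∘ₗ σ' = DV') (hf : f ∘ₗ τ' = τ ∘ₗ t) (p m : ℕ) :
    hpRk y (f ∘ₗ DV' ^ (m + 1)) p ≤
        rkS (hkT y DW p) (LinearMap.range (hkT y t p)) m ∧
      rkS (hkT y DW p) (LinearMap.range (hkT y t p)) (m + 1) ≤ hpRk y (f ∘ₗ DV' ^ m) p := by
  obtain ⟨_, _⟩ := finite_tensor (S := S) hs _ hW
  obtain ⟨_, _⟩ := finite_tensor (S := S) hs _ hV
  have hfac := rkS_factor (u := hkT y f p) (τ := hkT y τ p) (τ' := hkT y τ' p) (σ := hkT y σ p)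
    (σ' := hkT y σ' p) (DA := hkT y DW p) (DA' := hkT y DW' p) (DB' := hkT y DV' p)
    (t := hkT y t p) (by rw [← hkT_comp, ← hkT_comp, ht]) (by rw [← hkT_comp, ← hkT_comp, hτ])
    (by rw [← hkT_comp, hστ]) (by rw [← hkT_comp, hτσ]) (by rw [← hkT_comp, ← hkT_comp, hf]) m
  have hv : ∀ m, len S ↥((LinearMap.range (hkT y DV' p ^ m)).map (hkT y f p)) =
      hpRk y (f ∘ₗ DV' ^ m) p := fun m => by
    rw [len_range_hkT, hkT_comp, hkT_pow, LinearMap.range_comp]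
  rw [← hv, ← hv]
  exact hfac

lemma winTr_comm {R : Type u} [CommRing R] {A : Type u} [AddCommGroup A] [Module R A]
    {δ g : A →ₗ[R] A} {P Gt : ℤ → Submodule R A} (hg : LevelEnd δ P Gt g) (hG : Antitone Gt)
    {c c' : ℤ} (h : c ≤ c') (r : ℤ) :
    hg.winMap 0 c r ∘ₗ winTr δ hG 0 h r = winTr δ hG 0 h r ∘ₗ hg.winMap 0 c' r := by
  unfold LevelEnd.winMap winTr
  exact hmap_sq_comm _ r

private lemma chain_up {a b c h E K : ℕ} (h1 : a ≤ b + E) (h2 : b ≤ c) (h3 : c ≤ h) (hK : E ≤ K) :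
    a ≤ h + K := by omega

private lemma chain_down {a b c h E F F' K : ℕ} (h1 : b ≤ a + E) (h2 : c ≤ b) (h3 : h ≤ c + F)
    (h5 : F ≤ F') (hK : E + F' ≤ K) : h ≤ a + K := by omega

theorem goalRankCompare : GoalRankCompare.{u} := by
  intro R S _ _ _ _ _ _ _ _ _ d hd hR hS x y hy H
  have hs := length_tensor_residue_ne_top
    (length_fiber_ne_top (R := R) (S := S) (hR.trans hS.symm))
  refine ⟨2 * (d * (2 ^ d * (fibreLen R S * H))) + 2 ^ d * (2 * fibreLen R S),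
    2 * (d * (2 * H)) + 1, ?_⟩
  intro e C J Z η D T T' hT hT' f hf i₀ η' J' _ hiX hJ p hp a ha haJ
  have hw : ∀ T : ℕ, T ≤ H → ∀ k : ℤ, k ≠ 0 →
      rkD (D.dl.winMap 0 (T : ℤ) k) (2 * H) ≤ H * η := fun T hT k hk => by
    obtain ⟨h1, h2⟩ := win_small D hd T hT k
    obtain ⟨_, _⟩ := isFiniteLength_iff_isNoetherian_isArtinian.1 (Module.length_ne_top_iff.1 h1)
    exact ((rkD_anti _ (by omega)).trans (h2 hk)).trans (Nat.mul_le_mul_right η hT)
  have hfin := fun k => (win_small D hd T (hT.trans hT') k).1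
  have hfin' := fun k => (win_small D hd T' hT' k).1
  have hr : -(p : ℤ) + (p : ℤ) = 0 := by ring
  have hcmp := window_compare D.filt D.dl hs y (Int.natCast_nonneg T) (Int.ofNat_le.2 hT) hfin hfin'
    (hw T (hT.trans hT')) (hw T' hT') hr
  -- the passage to `V`
  have hV := D.V_finite T (hT.trans hT')
  have hV' := D.V_finite T' hT'
  have hfac := rank_factor (t := winTr D.δ D.filt.anti 0 (Int.ofNat_le.2 hT) 0) (f := f)
    hs y (hfin 0) hV (winTr_comm D.dl D.filt.anti (Int.ofNat_le.2 hT) 0) (D.toV_comm T')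
    (D.from_to T) (D.to_from T') hf p
  obtain ⟨_, _⟩ := finite_tensor (S := S) hs _ hV
  have hle : ∀ m, hpRk y (f ∘ₗ D.DV T' ^ m) p ≤ hpRk y f p := fun m => by
    rw [len_range_hkT, len_range_hkT, hkT_comp]
    exact M7.len_mono (LinearMap.range_comp_le_range _ _)
  have hK1 : 2 * (d * (2 ^ d * (fibreLen R S * (H * η)))) ≤
      (2 * (d * (2 ^ d * (fibreLen R S * H))) + 2 ^ d * (2 * fibreLen R S)) * (η + η') := by
    calc 2 * (d * (2 ^ d * (fibreLen R S * (H * η))))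
        = (2 * (d * (2 ^ d * (fibreLen R S * H)))) * η := by ring
      _ ≤ _ := Nat.mul_le_mul (Nat.le_add_right _ _) (Nat.le_add_right _ _)
  constructor
  · obtain ⟨m, rfl⟩ : ∃ m, a = m + 1 + 2 * (d * (2 * H)) :=
      ⟨a - 1 - 2 * (d * (2 * H)), by omega⟩
    exact chain_up (hcmp (m + 1)).1 (hfac m).2 (hle m) hK1
  · have hm : a + 2 * (d * (2 * H)) + 1 ≤ J := by omega
    have h4 := D.DV_ker T' hT' (a + 2 * (d * (2 * H)) + 1) hm
    have h5 : 2 ^ d * (2 * fibreLen R S *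
          len R ↥(LinearMap.ker (D.DV T' ^ (a + 2 * (d * (2 * H)) + 1)))) ≤
        2 ^ d * (2 * fibreLen R S) * η := by
      rw [mul_assoc (2 ^ d)]
      exact Nat.mul_le_mul_left _ (Nat.mul_le_mul_left _ h4)
    have hK2 : 2 * (d * (2 ^ d * (fibreLen R S * (H * η)))) + 2 ^ d * (2 * fibreLen R S) * η ≤
        (2 * (d * (2 ^ d * (fibreLen R S * H))) + 2 ^ d * (2 * fibreLen R S)) * (η + η') := by
      calc _ = (2 * (d * (2 ^ d * (fibreLen R S * H))) + 2 ^ d * (2 * fibreLen R S)) * η := by ring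
        _ ≤ _ := Nat.mul_le_mul_left _ (Nat.le_add_right _ _)
    exact chain_down (hcmp a).2 (hfac (a + 2 * (d * (2 * H)))).1
      (hpRk_precomp hs y hV' hV f (D.DV T' ^ (a + 2 * (d * (2 * H)) + 1)) p) h5 hK2

end Vale.Agent.P202
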