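import Vale.Agent.P202.RCompareTrunc
import Vale.Agent.P202.M7Calc
import Vale.Agent.P202.M10Compare

/-!
Ranks at a finite depth: upper bounds along exact places, transfer of transition ranks, and the
devissage of the truncated total complexes.
-/

universe u v

namespace Vale.Agent.P202

open TensorProduct IsLocalRing

section Square

variable {S : Type*} [CommRing S] {A B : Type*} [AddCommGroup A] [Module S A] [AddCommGroup B]
  [Module S B]

/-- A map commutes with the maps induced by the identity. -/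
lemma hmap_sq_comm {δ : A →ₗ[S] A} {δ' : A →ₗ[S] A} (φ : A →ₗ[S] A) {P₁ Q₁ P₂ Q₂ : ℤ → Submodule S A}
    {hP : ∀ r, ∀ x ∈ P₁ r, LinearMap.id (R := S) x ∈ P₂ r}
    {hQ : ∀ r, ∀ x ∈ Q₁ r, LinearMap.id (R := S) x ∈ Q₂ r}
    {hc : ∀ r, ∀ x ∈ P₁ r, LinearMap.id (R := S) (δ x) = δ' (LinearMap.id (R := S) x)}
    {hP₁ : ∀ r, ∀ x ∈ P₁ r, φ x ∈ P₁ r} {hQ₁ : ∀ r, ∀ x ∈ Q₁ r, φ x ∈ Q₁ r}
    {hc₁ : ∀ r, ∀ x ∈ P₁ r, φ (δ x) = δ (φ x)}
    {hP₂ : ∀ r, ∀ x ∈ P₂ r, φ x ∈ P₂ r} {hQ₂ : ∀ r, ∀ x ∈ Q₂ r, φ x ∈ Q₂ r}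
    {hc₂ : ∀ r, ∀ x ∈ P₂ r, φ (δ' x) = δ' (φ x)} (r : ℤ) :
    hmap φ hP₂ hQ₂ hc₂ r ∘ₗ hmap LinearMap.id hP hQ hc r =
      hmap LinearMap.id hP hQ hc r ∘ₗ hmap φ hP₁ hQ₁ hc₁ r :=
  Submodule.linearMap_qext _ (LinearMap.ext fun _ => congrArg Submodule.Quotient.mk rfl)

/-- Two paths of identities agree. -/
lemma hmap_sq_id {δ : A →ₗ[S] A} {P₁ Q₁ P₂ Q₂ P₃ Q₃ P₄ Q₄ : ℤ → Submodule S A}
    {h₁ : ∀ r, ∀ x ∈ P₁ r, LinearMap.id (R := S) x ∈ P₂ r}
    {h₁' : ∀ r, ∀ x ∈ Q₁ r, LinearMap.id (R := S) x ∈ Q₂ r}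
    {c₁ : ∀ r, ∀ x ∈ P₁ r, LinearMap.id (R := S) (δ x) = δ (LinearMap.id (R := S) x)}
    {h₂ : ∀ r, ∀ x ∈ P₂ r, LinearMap.id (R := S) x ∈ P₄ r}
    {h₂' : ∀ r, ∀ x ∈ Q₂ r, LinearMap.id (R := S) x ∈ Q₄ r}
    {c₂ : ∀ r, ∀ x ∈ P₂ r, LinearMap.id (R := S) (δ x) = δ (LinearMap.id (R := S) x)}
    {h₃ : ∀ r, ∀ x ∈ P₁ r, LinearMap.id (R := S) x ∈ P₃ r}
    {h₃' : ∀ r, ∀ x ∈ Q₁ r, LinearMap.id (R := S) x ∈ Q₃ r}
    {c₃ : ∀ r, ∀ x ∈ P₁ r, LinearMap.id (R := S) (δ x) = δ (LinearMap.id (R := S) x)}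
    {h₄ : ∀ r, ∀ x ∈ P₃ r, LinearMap.id (R := S) x ∈ P₄ r}
    {h₄' : ∀ r, ∀ x ∈ Q₃ r, LinearMap.id (R := S) x ∈ Q₄ r}
    {c₄ : ∀ r, ∀ x ∈ P₃ r, LinearMap.id (R := S) (δ x) = δ (LinearMap.id (R := S) x)} (r : ℤ) :
    hmap LinearMap.id h₂ h₂' c₂ r ∘ₗ hmap LinearMap.id h₁ h₁' c₁ r =
      hmap LinearMap.id h₄ h₄' c₄ r ∘ₗ hmap LinearMap.id h₃ h₃' c₃ r :=
  Submodule.linearMap_qext _ (LinearMap.ext fun _ => congrArg Submodule.Quotient.mk rfl)

/-- A map commutes with the connecting map. -/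
lemma hmap_sq_conn {δ : A →ₗ[S] A} (φ : A →ₗ[S] A) {O P Q : ℤ → Submodule S A}
    (hc : ∀ x, φ (δ x) = δ (φ x)) {hd : δ ∘ₗ δ = 0} {hst : IsStable δ P}
    {hO : ∀ r, ∀ x ∈ O r, φ x ∈ O r} {hP : ∀ r, ∀ x ∈ P r, φ x ∈ P r}
    {hQ : ∀ r, ∀ x ∈ Q r, φ x ∈ Q r} {c : ∀ r, ∀ x ∈ O r, φ (δ x) = δ (φ x)}
    {c' : ∀ r, ∀ x ∈ P r, φ (δ x) = δ (φ x)} (r : ℤ) :
    hmap φ hP hQ c' (r + 1) ∘ₗ hconn (O := O) hd hst r =
      hconn hd hst r ∘ₗ hmap φ hO hP c r :=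
  Submodule.linearMap_qext _ (LinearMap.ext fun v => congrArg Submodule.Quotient.mk
    (Subtype.ext (hc v.1)))

end Square

section Abstract

variable {P : Type u} [CommRing P]

lemma range_pow_add {X : Type v} [AddCommGroup X] [Module P X] (D : X →ₗ[P] X) (a b : ℕ) :
    LinearMap.range (D ^ (a + b)) = (LinearMap.range (D ^ b)).map (D ^ a) := by
  rw [pow_add, Module.End.mul_eq_comp, LinearMap.range_comp]

/-- An upper bound at an exact place, with no regularity. -/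
lemma rkD_le_add {A B C : Type v} [AddCommGroup A] [Module P A] [IsNoetherian P A] [IsArtinian P A]
    [AddCommGroup B] [Module P B] [IsNoetherian P B] [IsArtinian P B] [AddCommGroup C]
    [Module P C] [IsNoetherian P C] [IsArtinian P C] {DA : A →ₗ[P] A} {DB : B →ₗ[P] B}
    {DC : C →ₗ[P] C} {f : A →ₗ[P] B} {g : B →ₗ[P] C} (hf : DB ∘ₗ f = f ∘ₗ DA)
    (hg : DC ∘ₗ g = g ∘ₗ DB) (hex : Function.Exact f g) (a b : ℕ) :
    rkD DB (a + b) ≤ rkD DA a + rkD DC b := by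
  rw [rkD, range_pow_add]
  refine (M7.map_le_add (DB ^ a) g _).trans (add_le_add ?_ (M7.len_mono ?_))
  · refine (M7.len_mono (N := (LinearMap.range (DA ^ a)).map f) ?_).trans (M7.len_map_le _ _)
    rintro _ ⟨x, ⟨-, hx⟩, rfl⟩
    obtain ⟨z, rfl⟩ := (hex x).1 hx
    exact ⟨(DA ^ a) z, ⟨z, rfl⟩, (M7.pow_apply_comm hf a z).symm⟩
  · rintro _ ⟨_, ⟨x, rfl⟩, rfl⟩
    exact ⟨g x, M7.pow_apply_comm hg b x⟩

lemma rkD_le_of_injective {X Y : Type v} [AddCommGroup X] [Module P X] [AddCommGroup Y]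
    [Module P Y] [IsNoetherian P Y] [IsArtinian P Y] {D : X →ₗ[P] X} {E : Y →ₗ[P] Y}
    {f : X →ₗ[P] Y} (h : E ∘ₗ f = f ∘ₗ D) (hf : Function.Injective f) (a : ℕ) :
    rkD D a ≤ rkD E a := by
  rw [rkD, ← M7.len_map_inj f hf]
  refine M7.len_mono ?_
  rintro _ ⟨_, ⟨x, rfl⟩, rfl⟩
  exact ⟨f x, M7.pow_apply_comm h a x⟩

lemma rkD_subsingleton {X : Type v} [AddCommGroup X] [Module P X] [Subsingleton X]
    (D : X →ₗ[P] X) (a : ℕ) : rkD D a = 0 := by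
  have : Subsingleton ↥(LinearMap.range (D ^ a)) := inferInstance
  rw [rkD, len, Module.length_eq_zero]
  rfl

lemma rkD_anti {X : Type v} [AddCommGroup X] [Module P X] [IsNoetherian P X] [IsArtinian P X]
    (D : X →ₗ[P] X) {a b : ℕ} (h : b ≤ a) : rkD D a ≤ rkD D b :=
  M7.len_mono (M7.range_pow_anti D h)

variable {A A' B B' C : Type v} [AddCommGroup A] [Module P A] [AddCommGroup A'] [Module P A']
  [AddCommGroup B] [Module P B] [AddCommGroup B'] [Module P B'] [AddCommGroup C] [Module P C]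
  {DA : A →ₗ[P] A} {DA' : A' →ₗ[P] A'} {DB : B →ₗ[P] B} {DB' : B' →ₗ[P] B'} {DC : C →ₗ[P] C}
  {t : A' →ₗ[P] A} {u : B' →ₗ[P] B} {φ : A →ₗ[P] B} {φ' : A' →ₗ[P] B'}

/-- Ranks go up along maps with small cokernel. -/
lemma rkS_transfer_up [IsNoetherian P A] [IsArtinian P A] [IsNoetherian P B] [IsArtinian P B]
    [IsNoetherian P B'] [IsArtinian P B'] [IsNoetherian P C] [IsArtinian P C]
    (hA' : DB' ∘ₗ φ' = φ' ∘ₗ DA') (ht : DA ∘ₗ t = t ∘ₗ DA') (hu : DB ∘ₗ u = u ∘ₗ DB')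
    (hsq : u ∘ₗ φ' = φ ∘ₗ t) {g : B' →ₗ[P] C} (hg : DC ∘ₗ g = g ∘ₗ DB')
    (hex : Function.Exact φ' g) (a b : ℕ) :
    rkS DB (LinearMap.range u) (a + b) ≤ rkS DA (LinearMap.range t) a + rkD DC b := by
  rw [M7.rkS_range hu, range_pow_add, ← Submodule.map_comp]
  refine (M7.map_le_add (u ∘ₗ DB' ^ a) g _).trans (add_le_add ?_ (M7.len_mono ?_))
  · refine (M7.len_mono (N := ((LinearMap.range t).map (DA ^ a)).map φ) ?_).trans
      (M7.len_map_le _ _)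
    rintro _ ⟨x, ⟨-, hx⟩, rfl⟩
    obtain ⟨z, rfl⟩ := (hex x).1 hx
    refine ⟨(DA ^ a) (t z), ⟨t z, ⟨z, rfl⟩, rfl⟩, ?_⟩
    show φ ((DA ^ a) (t z)) = u ((DB' ^ a) (φ' z))
    rw [M7.pow_apply_comm ht, M7.pow_apply_comm hA']
    exact (LinearMap.congr_fun hsq _).symm
  · rintro _ ⟨_, ⟨x, rfl⟩, rfl⟩
    exact ⟨g x, M7.pow_apply_comm hg b x⟩

/-- Ranks go down along maps with small kernel. -/
lemma rkS_transfer_down [IsNoetherian P A] [IsArtinian P A] [IsNoetherian P B] [IsArtinian P B]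
    [IsNoetherian P C] [IsArtinian P C] (hA : DB ∘ₗ φ = φ ∘ₗ DA)
    (hsq : u ∘ₗ φ' = φ ∘ₗ t) {h : C →ₗ[P] A} (hh : DA ∘ₗ h = h ∘ₗ DC)
    (hex : Function.Exact h φ) (a b : ℕ) :
    rkS DA (LinearMap.range t) (b + a) ≤ rkS DB (LinearMap.range u) a + rkD DC b := by
  have h1 := M7.map_le_add (DA ^ b) φ ((LinearMap.range t).map (DA ^ a))
  rw [M7.map_pow_add] at h1
  refine h1.trans ((add_le_add ?_ (M7.len_mono ?_)).trans (add_comm _ _).le)
  · refine (M7.len_mono (N := (LinearMap.range (DC ^ b)).map h) ?_).trans (M7.len_map_le _ _)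
    rintro _ ⟨x, ⟨-, hx⟩, rfl⟩
    obtain ⟨z, rfl⟩ := (hex x).1 hx
    exact ⟨(DC ^ b) z, ⟨z, rfl⟩, (M7.pow_apply_comm hh b z).symm⟩
  · rintro _ ⟨_, ⟨_, ⟨x, rfl⟩, rfl⟩, rfl⟩
    refine ⟨u (φ' x), ⟨φ' x, rfl⟩, ?_⟩
    rw [show u (φ' x) = φ (t x) from LinearMap.congr_fun hsq x, M7.pow_apply_comm hA]

/-- Isomorphisms do not change ranks. -/
lemma rkS_transfer_iso (hA : DB ∘ₗ φ = φ ∘ₗ DA) (hsq : u ∘ₗ φ' = φ ∘ₗ t)
    (hi : Function.Injective φ) (hs : Function.Surjective φ') (a : ℕ) :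
    rkS DA (LinearMap.range t) a = rkS DB (LinearMap.range u) a := by
  rw [rkS, rkS, ← M7.len_map_inj φ hi, ← M7.map_comm hA, ← LinearMap.range_comp, ← hsq,
    LinearMap.range_comp_of_range_eq_top u (LinearMap.range_eq_top.2 hs)]

/-- A factorisation of the endomorphism shifts the depth by one. -/
lemma rkS_factor [IsNoetherian P A] [IsArtinian P A] [IsNoetherian P B] [IsArtinian P B]
    {τ : A →ₗ[P] B} {τ' : A' →ₗ[P] B'} {σ : B →ₗ[P] A} {σ' : B' →ₗ[P] A'}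
    (ht : DA ∘ₗ t = t ∘ₗ DA') (hτ' : DB' ∘ₗ τ' = τ' ∘ₗ DA') (hστ : σ ∘ₗ τ = DA)
    (hτσ' : τ' ∘ₗ σ' = DB') (hsq : u ∘ₗ τ' = τ ∘ₗ t) (a : ℕ) :
    len P ↥((LinearMap.range (DB' ^ (a + 1))).map u) ≤ rkS DA (LinearMap.range t) a ∧
      rkS DA (LinearMap.range t) (a + 1) ≤ len P ↥((LinearMap.range (DB' ^ a)).map u) := by
  have hsq' := LinearMap.congr_fun hsq
  simp only [LinearMap.comp_apply] at hsq'
  refine ⟨(M7.len_mono (N := ((LinearMap.range t).map (DA ^ a)).map τ) ?_).trans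
    (M7.len_map_le _ _), (M7.len_mono (N := ((LinearMap.range (DB' ^ a)).map u).map σ) ?_).trans
      (M7.len_map_le _ _)⟩
  · rintro _ ⟨_, ⟨w, rfl⟩, rfl⟩
    refine ⟨(DA ^ a) (t (σ' w)), ⟨_, ⟨σ' w, rfl⟩, rfl⟩, ?_⟩
    rw [M7.pow_apply_comm ht, ← hsq', ← M7.pow_apply_comm hτ', pow_succ, Module.End.mul_apply,
      show τ' (σ' w) = DB' w from LinearMap.congr_fun hτσ' w]
  · rintro _ ⟨_, ⟨x, rfl⟩, rfl⟩
    refine ⟨u ((DB' ^ a) (τ' x)), ⟨_, ⟨τ' x, rfl⟩, rfl⟩, ?_⟩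
    rw [M7.pow_apply_comm hτ', hsq', pow_succ', Module.End.mul_apply, M7.pow_apply_comm ht,
      show σ (τ (t ((DA' ^ a) x))) = DA (t ((DA' ^ a) x)) from LinearMap.congr_fun hστ _]

end Abstract

section Koszul

variable {R S : Type u} [CommRing R] [CommRing S] [Algebra R S] {d : ℕ}

/-- The action on Koszul homology of a map of coefficients. -/
noncomputable abbrev hkT (y : Fin d → S) {V W : Type u} [AddCommGroup V] [Module R V]
    [AddCommGroup W] [Module R W] (g : V →ₗ[R] W) (p : ℕ) :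
    Hk y (S ⊗[R] V) p →ₗ[S] Hk y (S ⊗[R] W) p :=
  hkF y (lT S S g) p

lemma hkT_comp (y : Fin d → S) {U V W : Type u} [AddCommGroup U] [Module R U] [AddCommGroup V]
    [Module R V] [AddCommGroup W] [Module R W] (f : U →ₗ[R] V) (g : V →ₗ[R] W) (p : ℕ) :
    hkT (S := S) y (g ∘ₗ f) p = hkT y g p ∘ₗ hkT y f p :=
  Submodule.linearMap_qext _ (LinearMap.ext fun v => congrArg Submodule.Quotient.mk
    (Subtype.ext (funext fun s => (lT_comp_apply (S := S) (B := S) g f _).symm)))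

lemma hkT_pow (y : Fin d → S) {V : Type u} [AddCommGroup V] [Module R V] (g : V →ₗ[R] V)
    (p a : ℕ) : hkT (S := S) y (g ^ a) p = hkT y g p ^ a := by
  induction a with
  | zero =>
    refine Submodule.linearMap_qext _ (LinearMap.ext fun v => congrArg Submodule.Quotient.mk
      (Subtype.ext (funext fun s => ?_)))
    show lT S S (LinearMap.id : V →ₗ[R] V) _ = _
    rw [lT_id]; rfl
  | succ a ih => rw [pow_succ, pow_succ, Module.End.mul_eq_comp, hkT_comp, ih]; rfl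

variable [IsLocalRing R] [Module.Flat R S]

lemma finite_tensor (hs : Module.length S (S ⊗[R] ResidueField R) ≠ ⊤) (V : Type u)
    [AddCommGroup V] [Module R V] (hV : Module.length R V ≠ ⊤) :
    IsNoetherian S (S ⊗[R] V) ∧ IsArtinian S (S ⊗[R] V) := by
  rw [← isFiniteLength_iff_isNoetherian_isArtinian, ← Module.length_ne_top_iff,
    length_tensor R S V hV]
  exact WithTop.mul_ne_top hV hs

/-- Image on Koszul homology against the rank downstairs. -/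
lemma len_range_hkT_le (hs : Module.length S (S ⊗[R] ResidueField R) ≠ ⊤) (y : Fin d → S)
    {V W : Type u} [AddCommGroup V] [Module R V] [AddCommGroup W] [Module R W]
    (hW : Module.length R W ≠ ⊤) (g : V →ₗ[R] W) (p : ℕ) :
    len S ↥(LinearMap.range (hkT y g p)) ≤
      2 ^ d * (fibreLen R S * len R ↥(LinearMap.range g)) := by
  have hWr : Module.length R ↥(LinearMap.range g) ≠ ⊤ := ne_top_of_le_ne_top hW
    (Module.length_le_of_injective _ (LinearMap.range g).injective_subtype)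
  set ι := kmap d (lT S S (LinearMap.range g).subtype)
  have h : kimgM y (lT S S g) p ≤ 2 ^ d * Module.length S (S ⊗[R] ↥(LinearMap.range g)) := by
    refine (sq_mono (N' := LinearMap.range ι) ?_ bot_le).trans ?_
    · rintro _ ⟨v, -, rfl⟩
      refine ⟨kmap d (lT S S g.rangeRestrict) v, funext fun s => ?_⟩
      simp only [ι, kmap_apply, lT_comp_apply]
      rfl
    · rw [sq_bot_right, ← Submodule.map_top, ← sq_bot_right]
      rw [sq_map, Submodule.comap_bot]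
      refine (sq_mono_right bot_le).trans ?_
      rw [sq_bot_right, Module.length_top, Module.length_pi_of_fintype, Finset.sum_const,
        Finset.card_univ, Fintype.card_finset, Fintype.card_fin, nsmul_eq_mul, Nat.cast_pow,
        Nat.cast_ofNat]
  rw [length_tensor R S _ hWr] at h
  rw [len, ← kimgM_eq_range]
  refine (ENat.toNat_le_toNat h ?_).trans (le_of_eq ?_)
  · refine enat_mul_ne_top ?_ (enat_mul_ne_top hWr hs)
    exact_mod_cast ENat.natCast_ne_top (2 ^ d)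
  · rw [ENat.toNat_mul, ENat.toNat_mul, ← Nat.cast_ofNat, ← Nat.cast_pow, ENat.toNat_natCast,
      fibreLen, len]
    ring

end Koszul

section Devissage

variable {R S : Type u} [CommRing R] [CommRing S] [Algebra R S] {A : Type u}
  [AddCommGroup A] [Module R A] {d : ℕ} {I : Ideal R} {δ g : A →ₗ[R] A}
  {P Gt : ℤ → Submodule R A}

/-- The action on a piece of the truncated total complex. -/
noncomputable def yEnd (hg : LevelEnd δ P Gt g) (y : Fin d → S) (T k k' r : ℤ) :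
    HMod (dT S y δ) (Ysub y δ P Gt T k) (Ysub y δ P Gt T k') r →ₗ[S]
      HMod (dT S y δ) (Ysub y δ P Gt T k) (Ysub y δ P Gt T k') r :=
  hmap (δ := dT S y δ) (δ' := dT S y δ) (kmap d (lT S S g))
    (fun _ _ hv => kmap_mem_DT g (fun _ => map_YP_le hg T k _) (fun _ => hg.level _) hv)
    (fun _ _ hv => kmap_mem_DT g (fun _ => map_YP_le hg T k' _) (fun _ => hg.level _) hv)
    (fun _ v _ => (dT_kmap g hg.comm v).symm) r

lemma yEnd_hinc (hg : LevelEnd δ P Gt g) (y : Fin d → S) (T : ℤ) {k k' k'' : ℤ}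
    (h : ∀ r, Ysub y δ P Gt T k' r ≤ Ysub y δ P Gt T k r) (r : ℤ) :
    yEnd hg y T k k'' r ∘ₗ hinc h r = hinc h r ∘ₗ yEnd hg y T k' k'' r :=
  hmap_sq_comm _ r

lemma yEnd_hproj (hg : LevelEnd δ P Gt g) (y : Fin d → S) (T : ℤ) {k k' k'' : ℤ}
    (h : ∀ r, Ysub y δ P Gt T k'' r ≤ Ysub y δ P Gt T k' r) (r : ℤ) :
    yEnd hg y T k k' r ∘ₗ hproj h r = hproj h r ∘ₗ yEnd hg y T k k'' r :=
  hmap_sq_comm _ r

lemma yEnd_hconn (hg : LevelEnd δ P Gt g) (y : Fin d → S) (T : ℤ) {k k' k'' : ℤ}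
    (hd : dT S y δ ∘ₗ dT S y δ = 0) (hst : IsStable (dT S y δ) (Ysub y δ P Gt T k')) (r : ℤ) :
    yEnd hg y T k' k'' (r + 1) ∘ₗ hconn (O := Ysub y δ P Gt T k) hd hst r =
      hconn hd hst r ∘ₗ yEnd hg y T k k' r :=
  hmap_sq_conn _ (fun v => (dT_kmap g hg.comm v).symm) r

variable [Module.Flat R S] (hF : FiltSys I d δ P Gt) (hg : LevelEnd δ P Gt g)
include hF hg

lemma stepMap_yEnd (y : Fin d → S) {T : ℤ} (hT : 0 ≤ T) {k r : ℤ} {p : ℕ} (hr : r + p = k) :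
    hkT y (hg.winMap 0 T k) p ∘ₗ stepMap hF y hT hr =
      stepMap hF y hT hr ∘ₗ yEnd hg y T k (k - 1) r := by
  refine Submodule.linearMap_qext _ (LinearMap.ext fun v => congrArg Submodule.Quotient.mk
    (Subtype.ext (funext fun s => ?_)))
  show lT S S (hg.winMap 0 T k) (topChain hF y T hr ⟨v.1, v.2.1⟩ s) =
    topChain hF y T hr ⟨kmap d (lT S S g) v.1, _⟩ s
  by_cases hs : s.card = p
  · rw [topChain_apply hF hr _ hs (Ysub_mem_top hF v.2.1 (by rw [hs]; exact hr)),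
      topChain_apply hF hr _ hs (Ysub_mem_top hF
        (kmap_mem_DT g (fun _ => map_YP_le hg T k _) (fun _ => hg.level _) v.2.1)
        (by rw [hs]; exact hr))]
    refine (theta_natural (g := g) ?_ (hg.mem 0) (hg.mem T)
      (fun _ v _ => (LinearMap.congr_fun hg.comm v).symm) _ _).symm
    exact fun x hx => ⟨hg.mem 0 k x hx.1, show δ (g x) ∈ lvl P Gt T (k + 1) by
      rw [show δ (g x) = g (δ x) from LinearMap.congr_fun hg.comm x]; exact hg.mem T _ _ hx.2⟩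
  · rw [(topChain_mem hF hr _) s hs, (topChain_mem hF hr _) s hs, map_zero]

variable [IsLocalRing R]

/-- One step. -/
lemma step_small (hs : Module.length S (S ⊗[R] ResidueField R) ≠ ⊤) (y : Fin d → S) {T : ℤ}
    (hT : 0 ≤ T) (hfin : ∀ k, Module.length R (winH δ P Gt 0 T k) ≠ ⊤) (k r : ℤ) :
    (IsNoetherian S (HMod (dT S y δ) (Ysub y δ P Gt T k) (Ysub y δ P Gt T (k - 1)) r) ∧
      IsArtinian S (HMod (dT S y δ) (Ysub y δ P Gt T k) (Ysub y δ P Gt T (k - 1)) r)) ∧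
      ∀ b, rkD (yEnd hg y T k (k - 1) r) b ≤
        2 ^ d * (fibreLen R S * rkD (hg.winMap 0 T k) b) := by
  by_cases h : ∃ p : ℕ, p ≤ d ∧ r + p = k
  · obtain ⟨p, -, hr⟩ := h
    obtain ⟨_, _⟩ := finite_tensor hs _ (hfin k)
    refine ⟨⟨isNoetherian_of_injective _ (stepMap_injective hF y hT hr),
      isArtinian_of_injective _ (stepMap_injective hF y hT hr)⟩, fun b => ?_⟩
    refine (rkD_le_of_injective (stepMap_yEnd hF hg y hT hr)
      (stepMap_injective hF y hT hr) b).trans ?_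
    rw [rkD, ← hkT_pow]
    exact len_range_hkT_le hs y (hfin k) _ p
  · push_neg at h
    haveI := step_subsingleton hF y hT (k := k) (r := r) fun s =>
      h s.card ((Finset.card_le_univ s).trans (by simp))
    exact ⟨⟨inferInstance, inferInstance⟩, fun b => by
      rw [rkD_subsingleton]; exact Nat.zero_le _⟩

/-- Several steps avoiding the degree zero. -/
lemma chain_small (hs : Module.length S (S ⊗[R] ResidueField R) ≠ ⊤) (y : Fin d → S) {T : ℤ}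
    (hT : 0 ≤ T) (hfin : ∀ k, Module.length R (winH δ P Gt 0 T k) ≠ ⊤) {b c : ℕ}
    (hb : ∀ k : ℤ, k ≠ 0 → rkD (hg.winMap 0 T k) b ≤ c) :
    ∀ (n : ℕ) (k₀ k : ℤ), k = k₀ + n → ∀ r : ℤ,
      (IsNoetherian S (HMod (dT S y δ) (Ysub y δ P Gt T k) (Ysub y δ P Gt T k₀) r) ∧
        IsArtinian S (HMod (dT S y δ) (Ysub y δ P Gt T k) (Ysub y δ P Gt T k₀) r)) ∧
        ((0 ≤ k₀ ∨ k < 0) →
          rkD (yEnd hg y T k k₀ r) (n * b) ≤ n * (2 ^ d * (fibreLen R S * c))) := by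
  intro n
  induction n with
  | zero =>
    intro k₀ k hk r
    obtain rfl : k = k₀ := by simpa using hk
    haveI := hmod_subsingleton (δ := dT S y δ) (P := Ysub y δ P Gt T k)
      (Q := Ysub y δ P Gt T k) (r := r) fun z hz => Submodule.mem_sup_right hz.1
    exact ⟨⟨inferInstance, inferInstance⟩, fun _ => by simp [rkD_subsingleton]⟩
  | succ n ih =>
    intro k₀ k hk r
    obtain ⟨⟨_, _⟩, hih⟩ := ih k₀ (k - 1) (by push_cast at hk; omega) r
    obtain ⟨⟨_, _⟩, hst⟩ := step_small hF hg hs y hT hfin k r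
    have hQP : ∀ i, Ysub y δ P Gt T k₀ i ≤ Ysub y δ P Gt T (k - 1) i :=
      fun i => Ysub_mono hF T (by push_cast at hk; omega) i
    have hPO : ∀ i, Ysub y δ P Gt T (k - 1) i ≤ Ysub y δ P Gt T k i :=
      fun i => Ysub_mono hF T (by omega) i
    have hex := exact_hinc_hproj (δ := dT S y δ) hQP hPO (dT_dT y δ hF.sq0) r
    have hker := (LinearMap.exact_iff.1 hex).symm
    obtain ⟨_, _⟩ : IsNoetherian S (HMod (dT S y δ) (Ysub y δ P Gt T k) (Ysub y δ P Gt T k₀) r) ∧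
        IsArtinian S (HMod (dT S y δ) (Ysub y δ P Gt T k) (Ysub y δ P Gt T k₀) r) :=
      ⟨isNoetherian_of_range_eq_ker _ _ hker, isArtinian_of_range_eq_ker _ _ hker⟩
    refine ⟨⟨inferInstance, inferInstance⟩, fun hk0 => ?_⟩
    rw [Nat.succ_mul, Nat.succ_mul]
    refine (rkD_le_add (yEnd_hinc hg y T hPO r) (yEnd_hproj hg y T hQP r) hex _ _).trans
      (add_le_add (hih (by omega)) ((hst b).trans ?_))
    have hk1 : k ≠ 0 := by push_cast at hk; omega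
    exact Nat.mul_le_mul_left _ (Nat.mul_le_mul_left _ (hb k hk1))

end Devissage

end Vale.Agent.P202
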