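import Vale.Agent.P202.InterfacesR2
import Vale.Agent.P202.M10Mult

/-!
Truncations of the window `[0, T)` in the degree of the filtered complex: the step of the total
complex at the degree `k` computes the Koszul homology of `S ⊗` the cohomology in degree `k`.
-/

universe u

namespace Vale.Agent.P202

open TensorProduct

variable {R S : Type u} [CommRing R] [CommRing S] [Algebra R S] {A : Type u} [AddCommGroup A]
  [Module R A] {d : ℕ} {I : Ideal R} {δ : A →ₗ[R] A} {P Gt : ℤ → Submodule R A}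

lemma gbar_sup_le (N L : Submodule R A) :
    gbar S S (N ⊔ L) ≤ gbar S S N ⊔ gbar S S L := by
  rintro _ ⟨x, rfl⟩
  induction x using TensorProduct.induction_on with
  | zero => simp
  | tmul b v =>
    obtain ⟨n, hn, l, hl, hv⟩ := Submodule.mem_sup.1 v.2
    rw [lT_tmul, Submodule.subtype_apply, ← hv, TensorProduct.tmul_add]
    exact Submodule.add_mem_sup ⟨b ⊗ₜ ⟨n, hn⟩, rfl⟩ ⟨b ⊗ₜ ⟨l, hl⟩, rfl⟩
  | add x x' hx hx' => rw [map_add]; exact add_mem hx hx'

lemma mem_DT_const {y : Fin d → S} {P Gt : ℤ → Submodule R A} {c r : ℤ}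
    {f : Finset (Fin d) → S ⊗[R] A} :
    f ∈ DT S y P Gt (fun _ => c) r ↔ ∀ s, f s ∈ gbar S S (Gt c ⊓ P (r + s.card)) := by
  rw [mem_DT]
  refine ⟨fun h => h.1, fun h => ⟨h, fun s => ?_⟩⟩
  exact kd_mem_of_comp y _ f s fun l _ => gbar_mono inf_le_left (h _)

/-- The family truncated at the degree `k`, above the level `T`. -/
def YP (δ : A →ₗ[R] A) (P Gt : ℤ → Submodule R A) (T k i : ℤ) : Submodule R A :=
  if i < k then P i else if i = k then P i ⊓ (Gt T).comap δ else P i ⊓ Gt T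

lemma YP_le (T k i : ℤ) : YP δ P Gt T k i ≤ P i := by
  unfold YP; split_ifs <;> simp

lemma le_YP (hF : FiltSys I d δ P Gt) (T k i : ℤ) : P i ⊓ Gt T ≤ YP δ P Gt T k i := by
  unfold YP
  split_ifs
  · exact inf_le_left
  · exact inf_le_inf_left _ (Submodule.map_le_iff_le_comap.1 (hF.level T))
  · exact le_rfl

lemma YP_filt (hF : FiltSys I d δ P Gt) (T k : ℤ) : FiltSys I d δ (YP δ P Gt T k) Gt where
  sq0 := hF.sq0
  level := hF.level
  anti := hF.anti
  kill := hF.kill
  bound i hi := eq_bot_iff.2 ((YP_le T k i).trans (hF.bound i hi).le)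
  degree i := by
    rcases lt_trichotomy i k with h | h | h
    · rw [show YP δ P Gt T k i = P i by simp [YP, h]]
      rcases lt_or_eq_of_le (show i + 1 ≤ k by omega) with h' | h'
      · rw [show YP δ P Gt T k (i + 1) = P (i + 1) by simp [YP, h']]
        exact hF.degree i
      · rw [show YP δ P Gt T k (i + 1) = P (i + 1) ⊓ (Gt T).comap δ by simp [YP, h']]
        refine le_inf (hF.degree i) ?_
        rintro _ ⟨x, -, rfl⟩
        rw [Submodule.mem_comap, ← LinearMap.comp_apply, hF.sq0]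
        exact zero_mem _
    · rw [show YP δ P Gt T k i = P i ⊓ (Gt T).comap δ by simp [YP, h],
        show YP δ P Gt T k (i + 1) = P (i + 1) ⊓ Gt T by simp [YP, h]]
      exact (Submodule.map_inf_le _).trans (inf_le_inf (hF.degree i) (Submodule.map_comap_le _ _))
    · rw [show YP δ P Gt T k i = P i ⊓ Gt T by simp [YP, show ¬ i < k by omega, h.ne'],
        show YP δ P Gt T k (i + 1) = P (i + 1) ⊓ Gt T by
          simp [YP, show ¬ i + 1 < k by omega, show i + 1 ≠ k by omega]]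
      exact (Submodule.map_inf_le _).trans (inf_le_inf (hF.degree i) (hF.level T))

lemma YP_mono (hF : FiltSys I d δ P Gt) (T : ℤ) {k k' : ℤ} (h : k ≤ k') (i : ℤ) :
    YP δ P Gt T k i ≤ YP δ P Gt T k' i := by
  rcases lt_or_eq_of_le h with h | rfl
  · by_cases h1 : i < k'
    · rw [show YP δ P Gt T k' i = P i by simp [YP, h1]]
      exact YP_le T k i
    · rw [show YP δ P Gt T k i = P i ⊓ Gt T by
        simp [YP, show ¬ i < k by omega, show i ≠ k by omega]]
      exact le_YP hF T k' i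
  · exact le_rfl

lemma YP_anti (hF : FiltSys I d δ P Gt) {T T' : ℤ} (h : T ≤ T') (k i : ℤ) :
    YP δ P Gt T' k i ≤ YP δ P Gt T k i := by
  unfold YP
  split_ifs
  · exact le_rfl
  · exact inf_le_inf_left _ (Submodule.comap_mono (hF.anti h))
  · exact inf_le_inf_left _ (hF.anti h)

lemma map_YP_le {g : A →ₗ[R] A} (hg : LevelEnd δ P Gt g) (T k i : ℤ) :
    (YP δ P Gt T k i).map g ≤ YP δ P Gt T k i := by
  unfold YP
  split_ifs
  · exact hg.deg i
  · rintro _ ⟨x, hx, rfl⟩
    refine ⟨hg.deg i ⟨x, hx.1, rfl⟩, ?_⟩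
    rw [SetLike.mem_coe, Submodule.mem_comap,
      show δ (g x) = g (δ x) from LinearMap.congr_fun hg.comm x]
    exact hg.level T ⟨δ x, hx.2, rfl⟩
  · exact (Submodule.map_inf_le _).trans (inf_le_inf (hg.deg i) (hg.level T))

/-- The truncated total complex. -/
noncomputable abbrev Ysub (y : Fin d → S) (δ : A →ₗ[R] A) (P Gt : ℤ → Submodule R A) (T k : ℤ)
    (r : ℤ) : Submodule S (Finset (Fin d) → S ⊗[R] A) :=
  DT S y (YP δ P Gt T k) Gt (fun _ => 0) r

/-- The cycles and boundaries of the window in degree `k`. -/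
abbrev wcyc (δ : A →ₗ[R] A) (P Gt : ℤ → Submodule R A) (T k : ℤ) : Submodule R A :=
  hcyc δ (lvl P Gt 0) (lvl P Gt T) k

/-- The boundaries of the window in degree `k`. -/
abbrev wbd (δ : A →ₗ[R] A) (P Gt : ℤ → Submodule R A) (T k : ℤ) : Submodule R A :=
  hbd δ (lvl P Gt 0) (lvl P Gt T) k

lemma inf_YP_self (hF : FiltSys I d δ P Gt) (T k : ℤ) :
    Gt 0 ⊓ YP δ P Gt T k k = wcyc δ P Gt T k := by
  rw [show YP δ P Gt T k k = P k ⊓ (Gt T).comap δ by simp [YP]]
  refine le_antisymm ?_ ?_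
  · rintro x ⟨h0, hP, hT⟩
    exact ⟨⟨h0, hP⟩, hT, hF.degree k ⟨x, hP, rfl⟩⟩
  · rintro x ⟨⟨h0, hP⟩, hT, -⟩
    exact ⟨h0, hP, hT⟩

lemma wbd_le_wcyc (hF : FiltSys I d δ P Gt) {T : ℤ} (hT : 0 ≤ T) (k : ℤ) :
    wbd δ P Gt T k ≤ wcyc δ P Gt T k := by
  refine sup_le ?_ ?_
  · rintro _ ⟨x, hx, rfl⟩
    refine ⟨⟨hF.level 0 ⟨x, hx.1, rfl⟩, by simpa using hF.degree (k - 1) ⟨x, hx.2, rfl⟩⟩, ?_⟩
    rw [SetLike.mem_coe, Submodule.mem_comap, ← LinearMap.comp_apply, hF.sq0]
    exact zero_mem _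
  · exact fun x hx => ⟨⟨hF.anti hT hx.1, hx.2⟩,
      hF.level T ⟨x, hx.1, rfl⟩, hF.degree k ⟨x, hx.2, rfl⟩⟩

variable [Module.Flat R S] {y : Fin d → S}

/-- The tensor product of a submodule, as its image. -/
noncomputable def gEquiv (N : Submodule R A) : (S ⊗[R] ↥N) ≃ₗ[S] ↥(gbar S S N) :=
  LinearEquiv.ofBijective ((lT S S N.subtype).codRestrict (gbar S S N) fun z => ⟨z, rfl⟩)
    ⟨fun _ _ h => lT_injective (S := S) (B := S) N.injective_subtype (congrArg Subtype.val h),
      fun x => by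
        obtain ⟨z, hz⟩ := x.2
        exact ⟨z, Subtype.ext hz⟩⟩

/-- The class of a cycle, on the image of the tensor product. -/
noncomputable def theta (δ : A →ₗ[R] A) (P Gt : ℤ → Submodule R A) (T k : ℤ) :
    ↥(gbar S S (wcyc δ P Gt T k)) →ₗ[S] S ⊗[R] winH δ P Gt 0 T k :=
  lT S S (hmk δ (lvl P Gt 0) (lvl P Gt T) k) ∘ₗ (gEquiv (wcyc δ P Gt T k)).symm.toLinearMap

lemma theta_apply {T k : ℤ} (x : ↥(gbar S S (wcyc δ P Gt T k))) (z : S ⊗[R] ↥(wcyc δ P Gt T k))
    (h : lT S S (wcyc δ P Gt T k).subtype z = x.1) :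
    theta δ P Gt T k x = lT S S (hmk δ (lvl P Gt 0) (lvl P Gt T) k) z := by
  show lT S S _ ((gEquiv (wcyc δ P Gt T k)).symm x) = _
  congr 1
  exact (LinearEquiv.symm_apply_eq _).2 (Subtype.ext h.symm)

lemma theta_surjective (T k : ℤ) :
    Function.Surjective (theta (S := S) δ P Gt T k) := by
  intro v
  obtain ⟨z, rfl⟩ := lT_surjective (S := S) (B := S)
    (hmk_surjective δ (lvl P Gt 0) (lvl P Gt T) k) v
  exact ⟨⟨_, z, rfl⟩, theta_apply _ z rfl⟩

lemma theta_eq_zero (hF : FiltSys I d δ P Gt) {T k : ℤ} (hT : 0 ≤ T)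
    {x : ↥(gbar S S (wcyc δ P Gt T k))} :
    theta δ P Gt T k x = 0 ↔ (x : S ⊗[R] A) ∈ gbar S S (wbd δ P Gt T k) := by
  obtain ⟨z, hzx⟩ := x.2
  rw [theta_apply x z hzx, ← hzx, ← LinearMap.mem_ker,
    show hmk δ (lvl P Gt 0) (lvl P Gt T) k =
      ((wbd δ P Gt T k).comap (wcyc δ P Gt T k).subtype).mkQ from rfl, ker_lT_mkQ]
  have h : gbar S S (wbd δ P Gt T k) =
      (gbar S S ((wbd δ P Gt T k).comap (wcyc δ P Gt T k).subtype)).map
        (lT S S (wcyc δ P Gt T k).subtype) := by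
    rw [← gbar_map, Submodule.map_comap_subtype, inf_eq_right.2 (wbd_le_wcyc hF hT k)]
  rw [h]
  refine ⟨fun hz => ⟨z, hz, rfl⟩, fun ⟨w, hw, hwz⟩ => ?_⟩
  rwa [← lT_injective (wcyc δ P Gt T k).injective_subtype hwz]

lemma theta_natural {g : A →ₗ[R] A} {T T' k : ℤ}
    (hZ : ∀ x ∈ wcyc δ P Gt T' k, g x ∈ wcyc δ P Gt T k)
    (h₀ : ∀ r, ∀ x ∈ lvl P Gt 0 r, g x ∈ lvl P Gt 0 r)
    (h₁ : ∀ r, ∀ x ∈ lvl P Gt T' r, g x ∈ lvl P Gt T r)
    (hc : ∀ r, ∀ x ∈ lvl P Gt 0 r, g (δ x) = δ (g x))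
    (x : ↥(gbar S S (wcyc δ P Gt T' k))) (hx : lT S S g x.1 ∈ gbar S S (wcyc δ P Gt T k)) :
    theta δ P Gt T k ⟨_, hx⟩ =
      lT S S (hmap (δ := δ) (δ' := δ) g h₀ h₁ hc k) (theta δ P Gt T' k x) := by
  obtain ⟨z, hzx⟩ := x.2
  rw [theta_apply x z hzx,
    theta_apply (⟨_, hx⟩ : ↥(gbar S S (wcyc δ P Gt T k))) (lT S S (g.restrict hZ) z) (by
      show lT S S _ _ = lT S S g x.1
      rw [lT_comp_apply, ← hzx, lT_comp_apply]; rfl),
    lT_comp_apply, lT_comp_apply]
  rfl

variable (hF : FiltSys I d δ P Gt)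
include hF

lemma Ysub_mono (T : ℤ) {k k' : ℤ} (h : k ≤ k') (r : ℤ) :
    Ysub y δ P Gt T k r ≤ Ysub y δ P Gt T k' r := fun f hf => by
  rw [mem_DT_const] at hf ⊢
  exact fun s => gbar_mono (inf_le_inf_left _ (YP_mono hF T h _)) (hf s)

omit [Module.Flat R S] in
lemma Ysub_mem_top {T k r : ℤ} {f : Finset (Fin d) → S ⊗[R] A} (hf : f ∈ Ysub y δ P Gt T k r)
    {s : Finset (Fin d)} (hs : r + s.card = k) : f s ∈ gbar S S (wcyc δ P Gt T k) := by
  have := (mem_DT_const.1 hf) s
  rwa [hs, inf_YP_self hF] at this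

omit [Module.Flat R S] in
lemma Ysub_mem_below {T k r : ℤ} {f : Finset (Fin d) → S ⊗[R] A} (hf : f ∈ Ysub y δ P Gt T k r)
    (s : Finset (Fin d)) : f s ∈ gbar S S (lvl P Gt 0 (r + s.card)) :=
  gbar_mono (inf_le_inf_left _ (YP_le T k _)) ((mem_DT_const.1 hf) s)

omit [Module.Flat R S] in
lemma Ysub_mem_above {T k r : ℤ} (hT : 0 ≤ T) {f : Finset (Fin d) → S ⊗[R] A}
    (hf : f ∈ Ysub y δ P Gt T k r) {s : Finset (Fin d)} (hs : k < r + s.card) :
    f s ∈ gbar S S (lvl P Gt T (r + s.card)) := by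
  have := (mem_DT_const.1 hf) s
  rw [show YP δ P Gt T k (r + s.card) = P (r + s.card) ⊓ Gt T by
    simp [YP, show ¬ r + (s.card : ℤ) < k by omega, hs.ne']] at this
  exact gbar_mono (le_inf (inf_le_right.trans inf_le_right) (inf_le_right.trans inf_le_left)) this

omit [Module.Flat R S] in
lemma dT_sub_kd_mem {k r : ℤ} {f : Finset (Fin d) → S ⊗[R] A} {s : Finset (Fin d)}
    (hf : f s ∈ gbar S S (lvl P Gt 0 (k - 1))) (T : ℤ) :
    dT S y δ f s - kd y (S ⊗[R] A) f s ∈ gbar S S (wbd δ P Gt T k) := by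
  rw [dT_apply, add_sub_cancel_left]
  exact zsmul_mem (lT_mem_gbar le_sup_left hf) _

/-- A cycle of the step whose top part lies in the level `T` lies in the lower truncation. -/
lemma mem_Ysub_pred {T k r : ℤ} (hT : 0 ≤ T) {z : Finset (Fin d) → S ⊗[R] A}
    (hz : z ∈ Ysub y δ P Gt T k r) (hdz : dT S y δ z ∈ Ysub y δ P Gt T (k - 1) (r + 1))
    (htop : ∀ s, r + s.card = k → z s ∈ gbar S S (lvl P Gt T k)) :
    z ∈ Ysub y δ P Gt T (k - 1) r := by
  rw [mem_DT_const]
  intro s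
  rcases lt_trichotomy (r + (s.card : ℤ)) (k - 1) with h | h | h
  · rw [show YP δ P Gt T (k - 1) (r + s.card) = P (r + s.card) by simp [YP, h]]
    exact Ysub_mem_below hF hz s
  · rw [show YP δ P Gt T (k - 1) (r + s.card) = P (r + s.card) ⊓ (Gt T).comap δ by
      simp [YP, h], ← inf_assoc, gbar_inf, gbar_comap]
    refine ⟨Ysub_mem_below hF hz s, ?_⟩
    rw [SetLike.mem_coe, Submodule.mem_comap]
    have h1 : dT S y δ z s ∈ gbar S S (Gt T) := by
      have := Ysub_mem_above (k := k - 1) hF hT hdz (s := s) (by omega)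
      exact gbar_mono inf_le_left this
    have h2 : kd y (S ⊗[R] A) z s ∈ gbar S S (Gt T) := by
      refine kd_mem_of_comp y _ z s fun l hl => gbar_mono inf_le_left (htop _ ?_)
      rw [Finset.card_insert_of_notMem hl]; push_cast; omega
    rw [dT_apply] at h1
    have h3 := zsmul_mem (Submodule.sub_mem _ h1 h2) ((-1 : ℤ) ^ s.card)
    rwa [add_sub_cancel_left, smul_smul, ← mul_pow, neg_one_mul, neg_neg, one_pow, one_smul] at h3
  · rw [show YP δ P Gt T (k - 1) (r + s.card) = P (r + s.card) ⊓ Gt T by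
      simp [YP, show ¬ r + (s.card : ℤ) < k - 1 by omega, h.ne']]
    have : z s ∈ gbar S S (lvl P Gt T (r + s.card)) := by
      rcases lt_or_eq_of_le (show k ≤ r + (s.card : ℤ) by omega) with h' | h'
      · exact Ysub_mem_above hF hT hz h'
      · rw [← h']; exact htop s h'.symm
    exact gbar_mono (le_inf (inf_le_left.trans (hF.anti hT)) (inf_comm (P _) _).ge) this

/-- Lifting boundaries at the top degree. -/
lemma exists_top_lift {T k r : ℤ} (v : Finset (Fin d) → S ⊗[R] A)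
    (hv : ∀ s, r + s.card = k → v s ∈ gbar S S (wbd δ P Gt T k)) :
    ∃ w ∈ Ysub y δ P Gt T k (r - 1), (∀ s, r + s.card ≠ k → w s = 0) ∧
      ∀ s, r + s.card = k → v s - dT S y δ w s ∈ gbar S S (lvl P Gt T k) := by
  classical
  have hex : ∀ s : Finset (Fin d), r + s.card = k → ∃ u ∈ gbar S S (lvl P Gt 0 (k - 1)),
      v s - ((-1 : ℤ) ^ s.card) • lT S S δ u ∈ gbar S S (lvl P Gt T k) := by
    intro s hs
    obtain ⟨a, ha, b, hb, hab⟩ := Submodule.mem_sup.1 (gbar_sup_le _ _ (hv s hs))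
    rw [gbar_map] at ha
    obtain ⟨u, hu, rfl⟩ := ha
    refine ⟨((-1 : ℤ) ^ s.card) • u, zsmul_mem hu _, ?_⟩
    rw [map_zsmul, smul_smul, ← mul_pow, neg_one_mul, neg_neg, one_pow, one_smul, ← hab,
      add_sub_cancel_left]
    exact hb
  choose u hu huv using hex
  set w : Finset (Fin d) → S ⊗[R] A := fun s => if h : r + s.card = k then u s h else 0 with hw
  have hw0 : ∀ s, r + s.card ≠ k → w s = 0 := fun s hs => dif_neg hs
  refine ⟨w, ?_, hw0, fun s hs => ?_⟩
  · rw [mem_DT_const]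
    intro s
    by_cases hs : r + s.card = k
    · rw [show r - 1 + (s.card : ℤ) = k - 1 by omega,
        show YP δ P Gt T k (k - 1) = P (k - 1) by simp [YP], hw]
      simp only [dif_pos hs]
      exact hu s hs
    · rw [hw0 s hs]; exact zero_mem _
  · rw [dT_apply, show kd y (S ⊗[R] A) w s = 0 by
      rw [kd_apply]
      refine Finset.sum_eq_zero fun l hl => ?_
      rw [hw0 _ (by rw [Finset.card_insert_of_notMem (by simpa using hl)]; push_cast; omega),
        smul_zero, smul_zero], zero_add, hw]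
    simp only [dif_pos hs]
    exact huv s hs

/-- A cycle of the step with top part a boundary is a boundary. -/
lemma hmk_eq_zero_of_top {T k r : ℤ} (hT : 0 ≤ T) {z : Finset (Fin d) → S ⊗[R] A}
    (hz : z ∈ Ysub y δ P Gt T k r) (hdz : dT S y δ z ∈ Ysub y δ P Gt T (k - 1) (r + 1))
    (htop : ∀ s, r + s.card = k → z s ∈ gbar S S (wbd δ P Gt T k)) :
    z ∈ hbd (dT S y δ) (Ysub y δ P Gt T k) (Ysub y δ P Gt T (k - 1)) r := by
  obtain ⟨w, hw, -, hwv⟩ := exists_top_lift hF z htop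
  rw [← add_sub_cancel (dT S y δ w) z]
  refine Submodule.add_mem_sup (Submodule.mem_map_of_mem hw) (mem_Ysub_pred hF hT
    (Submodule.sub_mem _ hz ((DT_stable (YP_filt hF T k) y _).map_pred r
      (Submodule.mem_map_of_mem hw))) ?_ hwv)
  rwa [map_sub, ← LinearMap.comp_apply (dT S y δ) (dT S y δ), dT_dT y δ hF.sq0,
    LinearMap.zero_apply, sub_zero]

/-- The top part of a cycle of the step, as a chain with values in the cohomology. -/
noncomputable def topChain (y : Fin d → S) (T : ℤ) {k r : ℤ} {p : ℕ} (hr : r + p = k) :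
    ↥(Ysub y δ P Gt T k r) →ₗ[S] (Finset (Fin d) → S ⊗[R] winH δ P Gt 0 T k) :=
  LinearMap.pi fun s => if hs : s.card = p then
    theta δ P Gt T k ∘ₗ (LinearMap.proj s ∘ₗ (Ysub y δ P Gt T k r).subtype).codRestrict _
      (fun z => Ysub_mem_top hF z.2 (by rw [hs]; exact hr))
  else 0

lemma topChain_apply {T k r : ℤ} {p : ℕ} (hr : r + p = k) (z : ↥(Ysub y δ P Gt T k r))
    {s : Finset (Fin d)} (hs : s.card = p) (h : z.1 s ∈ gbar S S (wcyc δ P Gt T k)) :
    topChain hF y T hr z s = theta δ P Gt T k ⟨z.1 s, h⟩ := by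
  simp only [topChain, LinearMap.pi_apply, dif_pos hs, LinearMap.comp_apply]
  rfl

lemma topChain_mem {T k r : ℤ} {p : ℕ} (hr : r + p = k) (z : ↥(Ysub y δ P Gt T k r)) :
    topChain hF y T hr z ∈ kchain S d (S ⊗[R] winH δ P Gt 0 T k) p := fun s hs => by
  simp [topChain, hs]

/-- The Koszul differential of a top chain. -/
lemma kd_topChain {T k r : ℤ} {p : ℕ} (hr : r + (p + 1 : ℕ) = k) (z : ↥(Ysub y δ P Gt T k r))
    {s : Finset (Fin d)} (hs : s.card = p) :
    ∃ h : kd y (S ⊗[R] A) z.1 s ∈ gbar S S (wcyc δ P Gt T k),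
      kd y (S ⊗[R] winH δ P Gt 0 T k) (topChain hF y T hr z) s = theta δ P Gt T k ⟨_, h⟩ := by
  classical
  have hins : ∀ l ∈ sᶜ, (insert l s).card = p + 1 := fun l hl => by
    rw [Finset.card_insert_of_notMem (by simpa using hl), hs]
  have hm : ∀ l ∈ sᶜ, z.1 (insert l s) ∈ gbar S S (wcyc δ P Gt T k) := fun l hl =>
    Ysub_mem_top hF z.2 (by rw [hins l hl]; exact hr)
  refine ⟨kd_mem_of_comp y _ _ s fun l hl => hm l (by simpa using hl), ?_⟩
  have e : (⟨kd y (S ⊗[R] A) z.1 s, kd_mem_of_comp y _ _ s fun l hl => hm l (by simpa using hl)⟩ :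
      ↥(gbar S S (wcyc δ P Gt T k))) =
      ∑ l ∈ sᶜ.attach, ksign l.1 s • (y l.1 • ⟨z.1 (insert l.1 s), hm l.1 l.2⟩) := by
    apply Subtype.ext
    rw [Submodule.coe_sum]
    show kd y (S ⊗[R] A) z.1 s = _
    rw [kd_apply, ← Finset.sum_attach]
    rfl
  rw [e, map_sum, kd_apply, ← Finset.sum_attach]
  refine Finset.sum_congr rfl fun l _ => ?_
  rw [LinearMap.map_smul_of_tower, map_smul, topChain_apply hF hr z (hins l.1 l.2)]

/-- The step of the total complex in degree `k`, mapped to Koszul homology. -/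
noncomputable def stepMap (y : Fin d → S) {T : ℤ} (hT : 0 ≤ T) {k r : ℤ} {p : ℕ} (hr : r + p = k) :
    HMod (dT S y δ) (Ysub y δ P Gt T k) (Ysub y δ P Gt T (k - 1)) r →ₗ[S]
      Hk y (S ⊗[R] winH δ P Gt 0 T k) p :=
  Submodule.mapQ _ _
    ((topChain hF y T hr ∘ₗ Submodule.inclusion inf_le_left).codRestrict
      (kcyc y (S ⊗[R] winH δ P Gt 0 T k) p) fun z => by
        refine ⟨topChain_mem hF hr _, LinearMap.mem_ker.2 ?_⟩
        rcases Nat.eq_zero_or_pos p with hp | hp
        · subst hp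
          exact kd_kchain_zero y (topChain_mem hF hr _)
        obtain ⟨q, rfl⟩ := Nat.exists_eq_succ_of_ne_zero hp.ne'
        funext s
        by_cases hs : s.card = q
        · obtain ⟨h, e⟩ := kd_topChain hF hr (Submodule.inclusion inf_le_left z) hs
          rw [LinearMap.comp_apply, e, Pi.zero_apply, theta_eq_zero hF hT]
          have h1 : dT S y δ z.1 s ∈ gbar S S (lvl P Gt T k) := by
            have := Ysub_mem_above hF hT (k := k - 1) (r := r + 1) z.2.2 (s := s)
              (by push_cast at hr; omega)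
            rwa [show r + 1 + (s.card : ℤ) = k by push_cast at hr; omega] at this
          have h2 := dT_sub_kd_mem (k := k) (r := r) hF (y := y) (f := z.1) (s := s) (by
            have := Ysub_mem_below hF z.2.1 s
            rwa [show r + (s.card : ℤ) = k - 1 by push_cast at hr; omega] at this) T
          have h3 := Submodule.sub_mem _ (gbar_mono (le_sup_right) h1) h2
          rwa [sub_sub_cancel] at h3
        · exact (kd_mem_kchain y (topChain_mem hF hr _)) s hs)
    (by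
      rintro ⟨z, hz⟩ hz'
      obtain ⟨_, ⟨w, hw, rfl⟩, q, hq, he⟩ := Submodule.mem_sup.1 hz'
      have hr' : r - 1 + (p + 1 : ℕ) = k := by push_cast; omega
      refine ⟨topChain hF y T hr' ⟨w, hw⟩, topChain_mem hF hr' _, funext fun s => ?_⟩
      show kd y _ (topChain hF y T hr' ⟨w, hw⟩) s = topChain hF y T hr ⟨z, hz.1⟩ s
      by_cases hs : s.card = p
      · obtain ⟨h, e⟩ := kd_topChain hF hr' ⟨w, hw⟩ hs
        rw [e, topChain_apply hF hr ⟨z, hz.1⟩ hs (Ysub_mem_top hF hz.1 (by rw [hs]; exact hr)),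
          ← sub_eq_zero, ← map_sub, theta_eq_zero hF hT]
        show kd y (S ⊗[R] A) w s - z s ∈ gbar S S (wbd δ P Gt T k)
        have h1 : q s ∈ gbar S S (lvl P Gt T k) := by
          have := Ysub_mem_above hF hT hq (s := s) (by omega)
          rwa [show r + (s.card : ℤ) = k by omega] at this
        have h2 := dT_sub_kd_mem (k := k) (r := r) hF (y := y) (f := w) (s := s) (by
          have := Ysub_mem_below hF hw s
          rwa [show r - 1 + (s.card : ℤ) = k - 1 by omega] at this) T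
        have he' : dT S y δ w s + q s = z s := congrFun he s
        rw [← he', show kd y (S ⊗[R] A) w s - (dT S y δ w s + q s) =
          -(dT S y δ w s - kd y (S ⊗[R] A) w s) - q s by abel]
        exact Submodule.sub_mem _ (Submodule.neg_mem _ h2) (gbar_mono le_sup_right h1)
      · rw [(kd_mem_kchain y (topChain_mem hF hr' _)) s hs, (topChain_mem hF hr _) s hs])

lemma stepMap_injective (y : Fin d → S) {T : ℤ} (hT : 0 ≤ T) {k r : ℤ} {p : ℕ}
    (hr : r + p = k) : Function.Injective (stepMap hF y hT hr) := by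
  classical
  rw [injective_iff_map_eq_zero]
  intro a ha
  obtain ⟨⟨z, hz⟩, rfl⟩ := hmk_surjective (dT S y δ) _ _ r a
  obtain ⟨v, hv, hvz⟩ := (Submodule.Quotient.mk_eq_zero _).1 ha
  have hr' : r - 1 + (p + 1 : ℕ) = k := by push_cast; omega
  choose u hu using fun s => theta_surjective (δ := δ) (P := P) (Gt := Gt) (S := S) T k (v s)
  set w : Finset (Fin d) → S ⊗[R] A := fun s => if s.card = p + 1 then (u s).1 else 0 with hw
  have hwY : w ∈ Ysub y δ P Gt T k (r - 1) := by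
    rw [mem_DT_const]
    intro s
    by_cases hs : s.card = p + 1
    · simp only [hw, if_pos hs, show r - 1 + (s.card : ℤ) = k by omega, inf_YP_self hF]
      exact (u s).2
    · simp only [hw, if_neg hs]; exact zero_mem _
  have htop : topChain hF y T hr' ⟨w, hwY⟩ = v := funext fun s => by
    by_cases hs : s.card = p + 1
    · rw [topChain_apply hF hr' _ hs (by simp only [hw, if_pos hs]; exact (u s).2), ← hu s]
      congr 1
      exact Subtype.ext (if_pos hs)
    · rw [(topChain_mem hF hr' _) s hs, hv s hs]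
  rw [hmk_eq_zero]
  have hwd := (DT_stable (YP_filt hF T k) y _).map_pred r (Submodule.mem_map_of_mem hwY)
  show z ∈ _
  rw [show z = dT S y δ w + (z - dT S y δ w) by abel]
  refine add_mem (Submodule.mem_sup_left (Submodule.mem_map_of_mem hwY))
    (hmk_eq_zero_of_top hF hT (Submodule.sub_mem _ hz.1 hwd) ?_ fun s hs => ?_)
  · rw [map_sub, ← LinearMap.comp_apply (dT S y δ) (dT S y δ), dT_dT y δ hF.sq0,
      LinearMap.zero_apply, sub_zero]
    exact hz.2
  · have hs' : s.card = p := by omega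
    obtain ⟨h, e⟩ := kd_topChain hF hr' ⟨w, hwY⟩ hs'
    have h1 := congrFun hvz s
    change kd y _ v s = topChain hF y T hr ⟨z, hz.1⟩ s at h1
    rw [← htop, e, topChain_apply hF hr ⟨z, hz.1⟩ hs' (Ysub_mem_top hF hz.1 hs),
      ← sub_eq_zero, ← map_sub, theta_eq_zero hF hT] at h1
    have h2 : dT S y δ w s = kd y (S ⊗[R] A) w s := by
      rw [dT_apply, show w s = 0 from if_neg (by omega), map_zero, smul_zero, add_zero]
    rw [Pi.sub_apply, h2]
    have h3 := Submodule.neg_mem _ h1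
    simpa using h3

lemma exists_correct {T k r : ℤ} (hT : 0 ≤ T) {z₀ : Finset (Fin d) → S ⊗[R] A}
    (hz₀ : z₀ ∈ Ysub y δ P Gt T k r)
    (hb : ∀ s : Finset (Fin d), r + 1 + s.card = k →
      dT S y δ z₀ s ∈ gbar S S (wbd δ P Gt T k)) :
    ∃ w : Finset (Fin d) → S ⊗[R] A, (∀ s, r + 1 + s.card ≠ k → w s = 0) ∧
      z₀ - w ∈ hcyc (dT S y δ) (Ysub y δ P Gt T k) (Ysub y δ P Gt T (k - 1)) r := by
  obtain ⟨w, hw, hw0, hwv⟩ := exists_top_lift hF (r := r + 1) (dT S y δ z₀) hb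
  have hw' : w ∈ Ysub y δ P Gt T k r := by simpa only [add_sub_cancel_right] using hw
  have hst : IsStable (dT S y δ) (Ysub y δ P Gt T k) := DT_stable (YP_filt hF T k) y _
  have hdd : ∀ x, dT S y δ (dT S y δ x) = 0 := fun x =>
    LinearMap.congr_fun (dT_dT y δ hF.sq0) x
  refine ⟨w, hw0, Submodule.sub_mem _ hz₀ hw', ?_⟩
  rw [SetLike.mem_coe, Submodule.mem_comap, map_sub]
  refine mem_Ysub_pred hF hT (Submodule.sub_mem _ (hst.le_comap r hz₀) (hst.le_comap r hw')) ?_
    fun s hs => hwv s hs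
  rw [map_sub, hdd, hdd, sub_zero]
  exact zero_mem _

lemma stepMap_surjective (y : Fin d → S) {T : ℤ} (hT : 0 ≤ T) {k r : ℤ} {p : ℕ}
    (hr : r + p = k) : Function.Surjective (stepMap hF y hT hr) := by
  classical
  intro b
  obtain ⟨⟨v, hv, hv'⟩, rfl⟩ := Submodule.mkQ_surjective _ b
  choose u hu using fun s => theta_surjective (δ := δ) (P := P) (Gt := Gt) (S := S) T k (v s)
  set z₀ : Finset (Fin d) → S ⊗[R] A := fun s => if s.card = p then (u s).1 else 0 with hz₀
  have hz₀Y : z₀ ∈ Ysub y δ P Gt T k r := by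
    rw [mem_DT_const]
    intro s
    by_cases hs : s.card = p
    · simp only [hz₀, if_pos hs, show r + (s.card : ℤ) = k by omega, inf_YP_self hF]
      exact (u s).2
    · simp only [hz₀, if_neg hs]; exact zero_mem _
  have htop : topChain hF y T hr ⟨z₀, hz₀Y⟩ = v := funext fun s => by
    by_cases hs : s.card = p
    · rw [topChain_apply hF hr _ hs (by simp only [hz₀, if_pos hs]; exact (u s).2), ← hu s]
      congr 1
      exact Subtype.ext (if_pos hs)
    · rw [(topChain_mem hF hr _) s hs, hv s hs]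
  -- correct the differential at the top degree
  have hb : ∀ s : Finset (Fin d), r + 1 + s.card = k →
      dT S y δ z₀ s ∈ gbar S S (wbd δ P Gt T k) := by
    intro s hs
    obtain ⟨q, rfl⟩ : ∃ q, p = q + 1 := ⟨p - 1, by omega⟩
    obtain ⟨h, e⟩ := kd_topChain hF hr ⟨z₀, hz₀Y⟩ (s := s) (p := q) (by omega)
    rw [htop, LinearMap.mem_ker.1 hv', Pi.zero_apply, eq_comm, theta_eq_zero hF hT] at e
    rwa [dT_apply, show z₀ s = 0 from if_neg (by omega), map_zero, smul_zero, add_zero]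
  obtain ⟨w, hw0, hcyc⟩ := exists_correct hF hT hz₀Y hb
  refine ⟨hmk _ _ _ r ⟨z₀ - w, hcyc⟩, congrArg (Submodule.mkQ _) (Subtype.ext ?_)⟩
  show topChain hF y T hr ⟨z₀ - w, hcyc.1⟩ = v
  rw [← htop]
  funext s
  by_cases hs : s.card = p
  · rw [topChain_apply hF hr _ hs (Ysub_mem_top hF hcyc.1 (by rw [hs]; exact hr)),
      topChain_apply hF hr _ hs (Ysub_mem_top hF hz₀Y (by rw [hs]; exact hr))]
    congr 1
    exact Subtype.ext (show z₀ s - w s = z₀ s by rw [hw0 s (by omega), sub_zero])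
  · rw [(topChain_mem hF hr _) s hs, (topChain_mem hF hr _) s hs]

lemma stepMap_bijective (y : Fin d → S) {T : ℤ} (hT : 0 ≤ T) {k r : ℤ} {p : ℕ}
    (hr : r + p = k) : Function.Bijective (stepMap hF y hT hr) := by
  exact ⟨stepMap_injective hF y hT hr, stepMap_surjective hF y hT hr⟩

/-- The step has no homology away from the degrees of the Koszul complex. -/
lemma step_subsingleton (y : Fin d → S) {T : ℤ} (hT : 0 ≤ T) {k r : ℤ}
    (hr : ∀ s : Finset (Fin d), r + s.card ≠ k) :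
    Subsingleton (HMod (dT S y δ) (Ysub y δ P Gt T k) (Ysub y δ P Gt T (k - 1)) r) := by
  refine hmod_subsingleton fun z hz => hmk_eq_zero_of_top hF hT hz.1 hz.2 fun s hs => ?_
  exact absurd hs (hr s)

end Vale.Agent.P202
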