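import Vale.Agent.P202.RStable

/-!
R1: what the ghost gives on the windows `[τ, T)`: stability in the top, and small negative degrees.
-/

universe u

namespace Vale.Agent.P202

open IsLocalRing TensorProduct

variable {R S : Type u} [CommRing R] [IsLocalRing R] [CommRing S] [Algebra R S] [Module.Flat R S]
  {d : ℕ} {x : Fin d → R} {e : ℝ} {C H J Z η : ℕ} (D : RankSys (S := S) x e C H J Z η)
  {y : Fin d → S}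

theorem tD_pow_hmk (n : ℕ) (τ υ : ℕ → ℤ) (r : ℤ)
    (z : ↥(hcyc (dT S y D.δ) (DT S y D.P D.Gt τ) (DT S y D.P D.Gt υ) r))
    (h : kmap d (lT S S (D.Dl ^ n)) z.1 ∈
      hcyc (dT S y D.δ) (DT S y D.P D.Gt τ) (DT S y D.P D.Gt υ) r) :
    ((D.dl.tD y τ υ r) ^ n) (hmk _ _ _ r z) = hmk _ _ _ r ⟨kmap d (lT S S (D.Dl ^ n)) z.1, h⟩ := by
  rw [D.dl.tD_pow]
  exact hmap_hmk _ _ _ _ r z h

theorem tMap_hmk {τ υ τ' υ' : ℕ → ℤ} (hτ : ∀ l, l ≤ d → τ' l ≤ τ l)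
    (hυ : ∀ l, l ≤ d → υ' l ≤ υ l) (r : ℤ)
    (z : ↥(hcyc (dT S y D.δ) (DT S y D.P D.Gt τ) (DT S y D.P D.Gt υ) r))
    (h : z.1 ∈ hcyc (dT S y D.δ) (DT S y D.P D.Gt τ') (DT S y D.P D.Gt υ') r) :
    tMap y D.δ D.P D.filt.anti hτ hυ r (hmk _ _ _ r z) = hmk _ _ _ r ⟨z.1, h⟩ :=
  hmap_hmk LinearMap.id _ _ _ r z h

omit [Module.Flat R S] in
/-- The ghost, with membership in its plain form. -/
theorem ghost_split {N : ℕ} (hN : ∀ l, algebraMap R S (x l) ^ N ∈ Ideal.span (Set.range y))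
    {τ υ : ℕ → ℤ} (hτ : ∀ l, l < d → τ (l + 1) ≤ τ l) (hυ : ∀ l, l < d → υ (l + 1) ≤ υ l)
    (hle : ∀ l, l ≤ d → τ l ≤ υ l) (hlo : -(H : ℤ) + (d * N : ℕ) ≤ τ d) (hhi : υ 0 ≤ H) (r : ℤ)
    {f : Finset (Fin d) → S ⊗[R] D.A} (hf : f ∈ DT S y D.P D.Gt τ r)
    (hdf : dT S y D.δ f ∈ DT S y D.P D.Gt υ (r + 1)) :
    ∃ w ∈ DT S y D.P D.Gt (fun l => τ l - (d * N : ℕ)) (r - 1),
      ∃ g ∈ DT S y D.P D.Gt (fun l => υ l - (d * N : ℕ)) r,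
        dT S y D.δ w + g = kmap d (lT S S (D.Dl ^ (d + 1))) f := by
  obtain ⟨_, ⟨w, hw, rfl⟩, g, hg, he⟩ :=
    Submodule.mem_sup.1 (D.ghost N y hN τ υ hτ hυ hle hlo hhi r f hf hdf)
  exact ⟨w, hw, g, hg, he⟩

theorem dd_zero (f : Finset (Fin d) → S ⊗[R] D.A) : dT S y D.δ (dT S y D.δ f) = 0 :=
  LinearMap.congr_fun (dT_dT y D.δ D.filt.sq0) f

/-- A class killed by lowering the top is killed by the ghost. -/
theorem ghost_kill {N : ℕ} (hN : ∀ l, algebraMap R S (x l) ^ N ∈ Ideal.span (Set.range y))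
    {τ : ℕ → ℤ} (hτ0 : ∀ l, τ l ≤ 0) {T₃ T₂ T₁ : ℕ} (hM : d * N ≤ T₃) (h₂ : T₃ ≤ T₂)
    (h₁ : T₂ ≤ T₁) (h12 : T₂ + d * N ≤ T₁) (hH : T₂ + d * N ≤ H) (r : ℤ)
    (z : tH y D.δ D.P D.Gt τ (cstT (T₂ : ℤ)) r)
    (hz : z ∈ LinearMap.range (tMap y D.δ D.P D.filt.anti (fun l _ => le_refl (τ l))
      (cstT_le_cstT (Int.ofNat_le.2 h₁) d) r))
    (hsz : tMap y D.δ D.P D.filt.anti (fun l _ => le_refl (τ l))
      (cstT_le_cstT (Int.ofNat_le.2 h₂) d) r z = 0) :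
    ((D.dl.tD y τ (cstT (T₂ : ℤ)) r) ^ (d + 1)) z = 0 := by
  obtain ⟨a, rfl⟩ := hz
  obtain ⟨⟨f, hfτ, hfdf⟩, rfl⟩ := hmk_surjective _ _ _ _ a
  have hdf : dT S y D.δ f ∈ DT S y D.P D.Gt (cstT (T₁ : ℤ)) (r + 1) := hfdf
  have hmem : ∀ T : ℕ, T ≤ T₁ → f ∈
      hcyc (dT S y D.δ) (DT S y D.P D.Gt τ) (DT S y D.P D.Gt (cstT (T : ℤ))) r := fun T hT =>
    ⟨hfτ, DT_mono y D.filt.anti (fun l _ => show (T : ℤ) ≤ T₁ by omega) _ hdf⟩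
  rw [tMap_hmk D _ _ r _ (hmem T₂ h₁)] at hsz ⊢
  rw [tMap_hmk D _ _ r _ (hmem T₃ (h₂.trans h₁)), hmk_eq_zero] at hsz
  obtain ⟨_, ⟨w₀, hw₀, rfl⟩, g₀, hg₀, hf0⟩ := Submodule.mem_sup.1 hsz
  have hf0' : dT S y D.δ w₀ + g₀ = f := hf0
  have hg1 : dT S y D.δ g₀ ∈
      DT S y D.P D.Gt (cstT ((T₂ : ℤ) + (d * N : ℕ))) (r + 1) := by
    refine DT_mono y D.filt.anti (fun l _ => show (T₂ : ℤ) + (d * N : ℕ) ≤ T₁ by omega) _ ?_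
    have e1 : dT S y D.δ g₀ = dT S y D.δ f := by rw [← hf0', map_add, dd_zero, zero_add]
    rw [e1]
    exact hdf
  obtain ⟨w, hw, g, hg, he⟩ := ghost_split D hN (τ := cstT (T₃ : ℤ))
    (υ := cstT ((T₂ : ℤ) + (d * N : ℕ))) (fun _ _ => le_refl _) (fun _ _ => le_refl _)
    (fun _ _ => show (T₃ : ℤ) ≤ T₂ + (d * N : ℕ) by omega)
    (show -(H : ℤ) + (d * N : ℕ) ≤ T₃ by omega) (show (T₂ : ℤ) + (d * N : ℕ) ≤ H by omega) r hg₀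
    hg1
  have hk : kmap d (lT S S (D.Dl ^ (d + 1))) f ∈
      hcyc (dT S y D.δ) (DT S y D.P D.Gt τ) (DT S y D.P D.Gt (cstT (T₂ : ℤ))) r :=
    ⟨(D.dl.pow (d + 1)).tmem y τ r f hfτ, by
      rw [SetLike.mem_coe, Submodule.mem_comap, dT_kmap _ (D.dl.pow (d + 1)).comm]
      exact (D.dl.pow (d + 1)).tmem y _ _ _ (hmem T₂ h₁).2⟩
  rw [tD_pow_hmk D _ _ _ r _ hk, hmk_eq_zero]
  show kmap d (lT S S (D.Dl ^ (d + 1))) f ∈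
    hbd (dT S y D.δ) (DT S y D.P D.Gt τ) (DT S y D.P D.Gt (cstT (T₂ : ℤ))) r
  rw [← hf0', map_add, ← dT_kmap _ (D.dl.pow (d + 1)).comm, ← he, ← add_assoc, ← map_add]
  refine Submodule.add_mem_sup (Submodule.mem_map_of_mem (Submodule.add_mem _
    ((D.dl.pow (d + 1)).tmem y τ _ _ hw₀) ?_)) ?_
  · exact DT_mono y D.filt.anti (fun l _ => le_trans (hτ0 l)
      (show (0 : ℤ) ≤ (T₃ : ℤ) - (d * N : ℕ) by omega)) _ hw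
  · exact DT_mono y D.filt.anti
      (fun l _ => show (T₂ : ℤ) ≤ (T₂ : ℤ) + (d * N : ℕ) - (d * N : ℕ) by omega) _ hg

/-- After the ghost, a class of top `T₂` seen at top `T₃` comes from the top `T₁`. -/
theorem ghost_lift {N : ℕ} (hN : ∀ l, algebraMap R S (x l) ^ N ∈ Ideal.span (Set.range y))
    {τ : ℕ → ℤ} (hτ0 : ∀ l, τ l ≤ 0) {T₃ T₂ T₁ : ℕ} (hM : d * N ≤ T₂) (h₂ : T₃ ≤ T₂)
    (h23 : T₃ + d * N ≤ T₂) (h₁ : T₂ ≤ T₁) (hH : T₁ + d * N ≤ H) (r : ℤ)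
    (z : tH y D.δ D.P D.Gt τ (cstT (T₃ : ℤ)) r)
    (hz : z ∈ LinearMap.range (tMap y D.δ D.P D.filt.anti (fun l _ => le_refl (τ l))
      (cstT_le_cstT (Int.ofNat_le.2 h₂) d) r)) :
    ((D.dl.tD y τ (cstT (T₃ : ℤ)) r) ^ (d + 1)) z ∈
      LinearMap.range (tMap y D.δ D.P D.filt.anti (fun l _ => le_refl (τ l))
        (cstT_le_cstT (Int.ofNat_le.2 (h₂.trans h₁)) d) r) := by
  obtain ⟨a, rfl⟩ := hz
  obtain ⟨⟨f, hfτ, hfdf⟩, rfl⟩ := hmk_surjective _ _ _ _ a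
  have hdf : dT S y D.δ f ∈ DT S y D.P D.Gt (cstT (T₂ : ℤ)) (r + 1) := hfdf
  obtain ⟨w, hw, g, hg, he⟩ := ghost_split D hN (τ := cstT (T₂ : ℤ))
    (υ := cstT ((T₁ : ℤ) + (d * N : ℕ))) (fun _ _ => le_refl _) (fun _ _ => le_refl _)
    (fun _ _ => show (T₂ : ℤ) ≤ T₁ + (d * N : ℕ) by omega)
    (show -(H : ℤ) + (d * N : ℕ) ≤ T₂ by omega) (show (T₁ : ℤ) + (d * N : ℕ) ≤ H by omega)
    (r + 1) hdf (by rw [dd_zero]; exact zero_mem _)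
  rw [add_sub_cancel_right] at hw
  have hwτ : w ∈ DT S y D.P D.Gt τ r := DT_mono y D.filt.anti (fun l _ => le_trans (hτ0 l)
    (show (0 : ℤ) ≤ (T₂ : ℤ) - (d * N : ℕ) by omega)) _ hw
  have hw3 : w ∈ DT S y D.P D.Gt (cstT (T₃ : ℤ)) r := DT_mono y D.filt.anti
    (fun l _ => show (T₃ : ℤ) ≤ (T₂ : ℤ) - (d * N : ℕ) by omega) _ hw
  have hDf := (D.dl.pow (d + 1)).tmem y τ r f hfτ
  have hc1 : kmap d (lT S S (D.Dl ^ (d + 1))) f - w ∈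
      hcyc (dT S y D.δ) (DT S y D.P D.Gt τ) (DT S y D.P D.Gt (cstT (T₁ : ℤ))) r := by
    refine ⟨Submodule.sub_mem _ hDf hwτ, ?_⟩
    rw [SetLike.mem_coe, Submodule.mem_comap, map_sub, dT_kmap _ (D.dl.pow (d + 1)).comm, ← he,
      add_sub_cancel_left]
    exact DT_mono y D.filt.anti
      (fun l _ => show (T₁ : ℤ) ≤ (T₁ : ℤ) + (d * N : ℕ) - (d * N : ℕ) by omega) _ hg
  refine ⟨hmk _ _ _ r ⟨_, hc1⟩, ?_⟩
  have hcf : f ∈ hcyc (dT S y D.δ) (DT S y D.P D.Gt τ) (DT S y D.P D.Gt (cstT (T₃ : ℤ))) r :=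
    ⟨hfτ, DT_mono y D.filt.anti (fun l _ => show (T₃ : ℤ) ≤ T₂ by omega) _ hdf⟩
  have hk : kmap d (lT S S (D.Dl ^ (d + 1))) f ∈
      hcyc (dT S y D.δ) (DT S y D.P D.Gt τ) (DT S y D.P D.Gt (cstT (T₃ : ℤ))) r :=
    ⟨hDf, by
      rw [SetLike.mem_coe, Submodule.mem_comap, dT_kmap _ (D.dl.pow (d + 1)).comm]
      exact (D.dl.pow (d + 1)).tmem y _ _ _ hcf.2⟩
  have hc3 : kmap d (lT S S (D.Dl ^ (d + 1))) f - w ∈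
      hcyc (dT S y D.δ) (DT S y D.P D.Gt τ) (DT S y D.P D.Gt (cstT (T₃ : ℤ))) r :=
    ⟨hc1.1, DT_mono y D.filt.anti (fun l _ => show (T₃ : ℤ) ≤ T₁ by omega) _ hc1.2⟩
  rw [tMap_hmk D _ _ r _ hc3, tMap_hmk D _ _ r _ hcf, tD_pow_hmk D _ _ _ r _ hk, ← sub_eq_zero,
    ← map_sub, hmk_eq_zero]
  show kmap d (lT S S (D.Dl ^ (d + 1))) f - w - kmap d (lT S S (D.Dl ^ (d + 1))) f ∈
    hbd (dT S y D.δ) (DT S y D.P D.Gt τ) (DT S y D.P D.Gt (cstT (T₃ : ℤ))) r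
  rw [sub_sub_cancel_left]
  exact Submodule.neg_mem _ (Submodule.mem_sup_right hw3)

/-- After the ghost, a class of the staircase window comes by the connecting map. -/
theorem ghost_conn {N : ℕ} (hN : ∀ l, algebraMap R S (x l) ^ N ∈ Ideal.span (Set.range y))
    {T₃ T₁ : ℕ} (h : T₃ ≤ T₁) (h' : T₃ + d * N ≤ T₁) (hH : T₁ ≤ H) (hd : d + d * N ≤ H) (r : ℤ)
    (z : tH y D.δ D.P D.Gt (shfT 0) (cstT (T₃ : ℤ)) (r + 1))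
    (hz : z ∈ LinearMap.range (tMap y D.δ D.P D.filt.anti (fun l _ => le_refl (shfT 0 l))
      (cstT_le_cstT (Int.ofNat_le.2 h) d) (r + 1))) :
    ((D.dl.tD y (shfT 0) (cstT (T₃ : ℤ)) (r + 1)) ^ (d + 1)) z ∈
      LinearMap.range (tConn (y := y) D.filt (shfT (-((d * N : ℕ) : ℤ))) (shfT 0)
        (cstT (T₃ : ℤ)) r) := by
  obtain ⟨a, rfl⟩ := hz
  obtain ⟨⟨f, hfτ, hfdf⟩, rfl⟩ := hmk_surjective _ _ _ _ a
  have hdf : dT S y D.δ f ∈ DT S y D.P D.Gt (cstT (T₁ : ℤ)) (r + 1 + 1) := hfdf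
  obtain ⟨w, hw, g, hg, he⟩ := ghost_split D hN (τ := shfT 0) (υ := cstT (T₁ : ℤ))
    (fun l _ => by simp [shfT]) (fun _ _ => le_refl _)
    (fun l _ => show (0 : ℤ) - l ≤ T₁ by omega)
    (show -(H : ℤ) + (d * N : ℕ) ≤ 0 - (d : ℤ) by omega) (show (T₁ : ℤ) ≤ H by omega) (r + 1) hfτ
    hdf
  rw [add_sub_cancel_right] at hw
  have hw' : w ∈ DT S y D.P D.Gt (shfT (-((d * N : ℕ) : ℤ))) r :=
    DT_mono y D.filt.anti (fun l _ => by simp only [shfT]; omega) _ hw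
  have hg' : g ∈ DT S y D.P D.Gt (cstT (T₃ : ℤ)) (r + 1) := DT_mono y D.filt.anti
    (fun l _ => show (T₃ : ℤ) ≤ (T₁ : ℤ) - (d * N : ℕ) by omega) _ hg
  have hDf := (D.dl.pow (d + 1)).tmem y (shfT 0) _ f hfτ
  have hdw : dT S y D.δ w ∈ DT S y D.P D.Gt (shfT 0) (r + 1) := by
    rw [eq_sub_of_add_eq he]
    exact Submodule.sub_mem _ hDf
      (DT_mono y D.filt.anti (fun l _ => show (0 : ℤ) - l ≤ T₃ by omega) _ hg')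
  refine ⟨hmk _ _ _ r ⟨w, hw', hdw⟩, ?_⟩
  have hcf : f ∈ hcyc (dT S y D.δ) (DT S y D.P D.Gt (shfT 0))
      (DT S y D.P D.Gt (cstT (T₃ : ℤ))) (r + 1) :=
    ⟨hfτ, DT_mono y D.filt.anti (fun l _ => show (T₃ : ℤ) ≤ T₁ by omega) _ hdf⟩
  have hk : kmap d (lT S S (D.Dl ^ (d + 1))) f ∈ hcyc (dT S y D.δ) (DT S y D.P D.Gt (shfT 0))
      (DT S y D.P D.Gt (cstT (T₃ : ℤ))) (r + 1) :=
    ⟨hDf, by
      rw [SetLike.mem_coe, Submodule.mem_comap, dT_kmap _ (D.dl.pow (d + 1)).comm]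
      exact (D.dl.pow (d + 1)).tmem y _ _ _ hcf.2⟩
  have hcw : dT S y D.δ w ∈ hcyc (dT S y D.δ) (DT S y D.P D.Gt (shfT 0))
      (DT S y D.P D.Gt (cstT (T₃ : ℤ))) (r + 1) :=
    ⟨hdw, by rw [SetLike.mem_coe, Submodule.mem_comap, dd_zero]; exact zero_mem _⟩
  rw [tMap_hmk D _ _ _ _ hcf, tD_pow_hmk D _ _ _ _ _ hk]
  show hmk _ _ _ (r + 1) ⟨dT S y D.δ w, hcw⟩ = _
  rw [← sub_eq_zero, ← map_sub, hmk_eq_zero]
  show dT S y D.δ w - kmap d (lT S S (D.Dl ^ (d + 1))) f ∈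
    hbd (dT S y D.δ) (DT S y D.P D.Gt (shfT 0)) (DT S y D.P D.Gt (cstT (T₃ : ℤ))) (r + 1)
  rw [← he, sub_add_cancel_left]
  exact Submodule.neg_mem _ (Submodule.mem_sup_right hg')

end Vale.Agent.P202
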