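import Vale.Agent.P202.InterfacesR2
import Vale.Agent.P202.M10Compare

/-! R3: the Koszul side of the rank core. -/

universe u

namespace Vale.Agent.P202

open IsLocalRing TensorProduct

lemma kchi_nonneg {S : Type u} [CommRing S] [IsLocalRing S] [IsNoetherianRing S] {d : ℕ}
    {y : Fin d → S} (hy : Par y) : 0 ≤ kchi y S := by
  have hf : IsFiniteLength S (S ⧸ Ideal.span (Set.range y) • (⊤ : Submodule S S)) := by
    rw [← Module.length_ne_top_iff, smul_eq_mul, Ideal.mul_top]; exact hy.fin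
  have := ge_of_tendsto' (b := (0 : ℝ)) (goalKoszulMult S S d y hy.mem hf) fun n => by positivity
  exact_mod_cast this

lemma kimgM_eq_zero {S : Type u} [CommRing S] {d : ℕ} (z : Fin d → S) {M N : Type u}
    [AddCommGroup M] [Module S M] [AddCommGroup N] [Module S N] (φ : M →ₗ[S] N) {p : ℕ}
    (hp : d < p) : kimgM z φ p = 0 := by
  rw [kimgM, sq_eq_zero_iff]
  refine (Submodule.map_mono (inf_le_left.trans (le_of_eq (kchain_eq_bot hp)))).trans ?_
  simp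

theorem goalRankKoszul : GoalRankKoszul.{u} := by
  intro R S _ _ _ _ _ _ _ _ _ d _ hR hS y hy
  refine ⟨kchi_nonneg hy, ?_⟩
  obtain ⟨C, hC⟩ := exists_kchiImg_free (R := R) (hR.trans hS.symm) y hy
  have hfib := length_fiber_ne_top (R := R) (S := S) (hR.trans hS.symm)
  have hs := length_tensor_residue_ne_top hfib
  refine ⟨max C 1, (d + 1) * (2 ^ d * (2 * fibreLen R S * 2)), fun n hn => ?_⟩
  refine ⟨(d + 1) * 4 * n ^ d, ?_⟩
  intro V₁ V₂ V₃ _ _ _ _ _ _ _ h₂ h₃ t s η hst T₁ T₃ n₀ L g₁ g₃ hT₃ hT₁ hg hg₁ hg₃ hk₁ hk₃ hc₁ hc₃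
  have hfin : ∀ (V : Type u) [AddCommGroup V] [Module R V], Module.length R V ≠ ⊤ →
      IsNoetherian S (S ⊗[R] V) ∧ IsArtinian S (S ⊗[R] V) := fun V _ _ hV => by
    rw [← isFiniteLength_iff_isNoetherian_isArtinian, ← Module.length_ne_top_iff,
      length_tensor R S V hV]
    exact WithTop.mul_ne_top hV hs
  obtain ⟨i₁, i₂⟩ := hfin V₂ h₂
  obtain ⟨i₃, i₄⟩ := hfin V₃ h₃
  set tS := lT S S t with htS
  set sS := lT S S s with hsS
  have hcomp : lT S S (s ∘ₗ t) = sS ∘ₗ tS := lT_comp s t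
  have hstab : ∀ a : Fin d → ℕ, (∀ l, 1 ≤ a l ∧ a l ≤ n) → ImgStable tS sS (powS y a) η := by
    intro a ha p
    rcases le_or_gt p d with hp | hp
    · rw [← hcomp]
      exact hst a (fun l => ha l) p hp
    · simp [kimgM_eq_zero _ _ hp]
  have hsum : ∀ z : Fin d → S, kchiImg z (lT S S (s ∘ₗ t)) =
      ∑ p ∈ Finset.range (d + 1), (-1 : ℤ) ^ p * (hpRk z (s ∘ₗ t) p : ℤ) := fun _ => rfl
  have h1 := kchiImg_pow y hstab (fun _ => n) fun _ => ⟨hn, le_rfl⟩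
  simp only [← hcomp, Finset.prod_const, Finset.card_univ, Fintype.card_fin] at h1
  have hle : T₃ ≤ T₁ :=
    (Nat.le_mul_of_pos_left T₃ (lt_of_lt_of_le Nat.one_pos (le_max_right C 1))).trans hT₁
  have h2 := hC n T₃ T₁ hn ((Nat.mul_le_mul_right n (le_max_left C 1)).trans hT₃)
    ((Nat.mul_le_mul_right T₃ (le_max_left C 1)).trans hT₁) hle V₁ V₃ (s ∘ₗ t) n₀ L L g₁ g₃ hg
    hg₁ hg₃ hk₁ hc₁ hk₃ hc₃
  have hpow : powS y (fun _ => n) = fun l => y l ^ n := rfl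
  rw [hpow] at h1
  rw [← hsum]
  rw [abs_le] at h1 h2
  have h3 : (((d + 1) * (4 * η) : ℕ) : ℤ) * ((n : ℤ) ^ d - 1) ≤
      (((d + 1) * 4 * n ^ d * η : ℕ) : ℤ) := by
    have h4 : (0 : ℤ) ≤ (((d + 1) * (4 * η) : ℕ) : ℤ) := Int.natCast_nonneg _
    push_cast at h4 ⊢
    linarith
  push_cast at h1 h2 h3 ⊢
  linarith [h1.1, h2.2]

end Vale.Agent.P202
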