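import Vale.Agent.P202.InterfacesR3

/-!
R1: walks of the three shapes, regularity of the windows, and stability in the tops by the ghost.
-/

universe u

namespace Vale.Agent.P202

open IsLocalRing TensorProduct

theorem Walk.congr_right {d : ℕ} {τ υ υ' : ℕ → ℤ} {L : List (ℕ × ℤ)} (h : Walk d τ υ L)
    (e : ∀ l, l ≤ d → υ' l = υ l) : Walk d τ υ' L := by
  induction h with
  | refl τ υ he => exact Walk.refl _ _ fun l hl => (he l hl).trans (e l hl).symm
  | step τ τ₀ σ υ p j L _ hs he ih => exact Walk.step τ τ₀ σ υ' p j L (ih e) hs he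

/-- Constant twists. -/
theorem exists_walk_const (d : ℕ) : ∀ (n : ℕ) (a : ℤ), ∃ L, Walk d (cstT a) (cstT (a + n)) L ∧
    L.length ≤ n * (d + 1) ∧ ∀ q ∈ L, q.1 ≤ d ∧ a ≤ q.2 ∧ q.2 < a + n
  | 0, a => ⟨[], Walk.refl _ _ fun _ _ => by simp [cstT], by simp, by simp⟩
  | n + 1, a => by
    obtain ⟨L, hL, hlen, hmem⟩ := exists_walk_const d n (a + 1)
    have h1 := Walk.of_chain (d := d) (fun k => tauConst d a k) (fun k => d - k) (fun _ => a)
      (d + 1) fun k hk => tauConst_step a (by omega)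
    have h2 : Walk d (cstT a) (cstT (a + 1)) ((List.range (d + 1)).map fun k => (d - k, a)) :=
      (h1.congr_left fun l _ => by simp only [cstT, tauConst]; split_ifs <;> omega).congr_right
        fun l _ => by simp only [cstT, tauConst]; split_ifs <;> omega
    rw [show a + ((n + 1 : ℕ) : ℤ) = a + 1 + n by push_cast; ring]
    refine ⟨L ++ (List.range (d + 1)).map fun k => (d - k, a), h2.trans hL, ?_, ?_⟩
    · simp only [List.length_append, List.length_map, List.length_range]
      rw [show (n + 1) * (d + 1) = n * (d + 1) + (d + 1) by ring]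
      omega
    · intro q hq
      rcases List.mem_append.1 hq with hq | hq
      · obtain ⟨q1, q2, q3⟩ := hmem q hq
        omega
      · obtain ⟨k, hk, rfl⟩ := List.mem_map.1 hq
        have := List.mem_range.1 hk
        dsimp only
        omega

/-- Shifted twists. -/
theorem exists_walk_shift (d : ℕ) : ∀ (n : ℕ) (a : ℤ), ∃ L, Walk d (shfT a) (shfT (a + n)) L ∧
    L.length ≤ n * (d + 1) ∧ ∀ q ∈ L, q.1 ≤ d ∧ a ≤ q.2 + q.1 ∧ q.2 + q.1 < a + n
  | 0, a => ⟨[], Walk.refl _ _ fun _ _ => by simp [shfT], by simp, by simp⟩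
  | n + 1, a => by
    obtain ⟨L, hL, hlen, hmem⟩ := exists_walk_shift d n (a + 1)
    have h1 := Walk.of_chain (d := d) (fun k => tauShift a k) (fun k => k) (fun k => a - k)
      (d + 1) fun k hk => tauShift_step a (by omega)
    have h2 : Walk d (shfT a) (shfT (a + 1)) ((List.range (d + 1)).map fun k : ℕ => (k, a - (k : ℤ))) :=
      (h1.congr_left fun l _ => by simp only [shfT, tauShift]; split_ifs <;> omega).congr_right
        fun l _ => by simp only [shfT, tauShift]; split_ifs <;> omega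
    rw [show a + ((n + 1 : ℕ) : ℤ) = a + 1 + n by push_cast; ring]
    refine ⟨L ++ (List.range (d + 1)).map fun k : ℕ => (k, a - (k : ℤ)), h2.trans hL, ?_, ?_⟩
    · simp only [List.length_append, List.length_map, List.length_range]
      rw [show (n + 1) * (d + 1) = n * (d + 1) + (d + 1) by ring]
      omega
    · intro q hq
      rcases List.mem_append.1 hq with hq | hq
      · obtain ⟨q1, q2, q3⟩ := hmem q hq
        omega
      · obtain ⟨k, hk, rfl⟩ := List.mem_map.1 hq
        have := List.mem_range.1 hk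
        dsimp only
        omega

/-- The staircase. -/
theorem exists_walk_stair (d : ℕ) : ∃ L, Walk d (shfT 0) (cstT 0) L ∧
    L.length ≤ d * (d + 1) ∧ ∀ q ∈ L, q.1 ≤ d ∧ q.2 ≤ -1 ∧ -q.2 ≤ (q.1 : ℤ) := by
  have h : ∀ m, m ≤ d → ∃ L, Walk d (fun l => -((min l m : ℕ) : ℤ)) (cstT 0) L ∧
      L.length ≤ m * (d + 1) ∧ ∀ q ∈ L, q.1 ≤ d ∧ q.2 ≤ -1 ∧ -q.2 ≤ (q.1 : ℤ) := by
    intro m
    induction m with
    | zero => exact fun _ => ⟨[], Walk.refl _ _ fun _ _ => by simp [cstT], by simp, by simp⟩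
    | succ m ih =>
      intro hm
      obtain ⟨L, hL, hlen, hmem⟩ := ih (by omega)
      have h1 := Walk.of_chain (d := d) (fun k => tauWalk d m k) (fun k => d - k)
        (fun _ => -((m + 1 : ℕ) : ℤ)) (d - m) fun k hk => tauWalk_step m (by omega)
      have h2 : Walk d (fun l => -((min l (m + 1) : ℕ) : ℤ)) (fun l => -((min l m : ℕ) : ℤ))
          ((List.range (d - m)).map fun k => (d - k, -((m + 1 : ℕ) : ℤ))) :=
        (h1.congr_left fun l _ => by simp only [tauWalk]; split_ifs <;> omega).congr_right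
          fun l _ => by simp only [tauWalk]; split_ifs <;> omega
      refine ⟨L ++ (List.range (d - m)).map fun k => (d - k, -((m + 1 : ℕ) : ℤ)), h2.trans hL,
        ?_, ?_⟩
      · simp only [List.length_append, List.length_map, List.length_range]
        rw [show (m + 1) * (d + 1) = m * (d + 1) + (d + 1) by ring]
        omega
      · intro q hq
        rcases List.mem_append.1 hq with hq | hq
        · exact hmem q hq
        · obtain ⟨k, hk, rfl⟩ := List.mem_map.1 hq
          have := List.mem_range.1 hk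
          dsimp only
          omega
  obtain ⟨L, hL, h1, h2⟩ := h d le_rfl
  exact ⟨L, hL.congr_left fun l hl => by simp [shfT, min_eq_left hl], h1, h2⟩

/-- A common bound for the lengths of all walks in use. -/
def walkBd (d H : ℕ) : ℕ := H * (d + 1) + d * (d + 1)

/-- The windows in use are walks. -/
theorem top_walk (d : ℕ) {H T : ℕ} (hT : T ≤ H) {τ : ℕ → ℤ} (hτ : τ = cstT 0 ∨ τ = shfT 0) :
    ∃ L, Walk d τ (cstT (T : ℤ)) L ∧ L.length ≤ walkBd d H := by
  obtain ⟨L, hL, hlen, -⟩ := exists_walk_const d T 0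
  rw [zero_add] at hL
  have hm : T * (d + 1) ≤ H * (d + 1) := Nat.mul_le_mul_right _ hT
  rcases hτ with rfl | rfl
  · exact ⟨L, hL, by simp only [walkBd]; omega⟩
  · obtain ⟨L', hL', hlen', -⟩ := exists_walk_stair d
    exact ⟨_, hL'.trans hL, by simp only [List.length_append, walkBd]; omega⟩

section

variable {R S : Type u} [CommRing R] [IsLocalRing R] [IsNoetherianRing R] [CommRing S]
  [IsLocalRing S] [IsNoetherianRing S] [Algebra R S] [Module.Flat R S]
  [IsLocalHom (algebraMap R S)] {d : ℕ}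
  {x : Fin d → R} {e : ℝ} {C H J Z η : ℕ} (D : RankSys (S := S) x e C H J Z η) {y : Fin d → S}
  (hy : Par y)

include hy

/-- A short walk: finite length, regular with uniform constants. -/
theorem win_reg {τ υ : ℕ → ℤ} {L : List (ℕ × ℤ)} (hw : Walk d τ υ L) {B : ℕ} (hB : L.length ≤ B)
    (r : ℤ) :
    Module.length S (tH y D.δ D.P D.Gt τ υ r) ≠ ⊤ ∧ ∀ J', J' + 2 * B ≤ J →
      Reg (D.dl.tD y τ υ r) (2 * B) (B * (fibSum R y * η)) J' := by
  obtain ⟨h1, h2⟩ := walk_reg D hy hw r
  refine ⟨h1, fun J' hJ' => ?_⟩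
  obtain ⟨_, _⟩ := RW.fin_of_length h1
  exact (goalRegRank S _ _ _ _ J').2 _ _ J' (by omega) (Nat.mul_le_mul_right _ hB) le_rfl
    (h2 J' (by omega))

/-- A short walk through unexpected degrees. -/
theorem win_out {τ υ : ℕ → ℤ} {L : List (ℕ × ℤ)} (hw : Walk d τ υ L) {B : ℕ} (hB : L.length ≤ B)
    (r : ℤ) (h : ∀ q ∈ L, ¬ InExpected d q.2 (r + q.1)) {a : ℕ} (ha : 2 * B ≤ a) :
    rkD (D.dl.tD y τ υ r) a ≤ B * (fibSum R y * η) := by
  obtain ⟨_, _⟩ := RW.fin_of_length (walk_reg D hy hw r).1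
  refine le_trans ?_ ((walk_out D hy hw r h).trans (Nat.mul_le_mul_right _ hB))
  rw [← M7.rkS_top, ← M7.rkS_top]
  exact M7.rkS_anti _ _ (by omega)

theorem top_reg {T : ℕ} (hT : T ≤ H) {τ : ℕ → ℤ} (hτ : τ = cstT 0 ∨ τ = shfT 0) (r : ℤ) :
    Module.length S (tH y D.δ D.P D.Gt τ (cstT (T : ℤ)) r) ≠ ⊤ ∧ ∀ J', J' + 2 * walkBd d H ≤ J →
      Reg (D.dl.tD y τ (cstT (T : ℤ)) r) (2 * walkBd d H)
        (walkBd d H * (fibSum R y * η)) J' := by
  obtain ⟨L, hL, hlen⟩ := top_walk d hT hτ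
  exact win_reg D hy hL hlen r

end

/-- R1: regularity. -/
theorem goalRankReg : GoalRankReg.{u} := by
  intro R S _ _ _ _ _ _ _ _ _ d _ _ _ x y hy H
  refine ⟨walkBd d H * fibSum R y, 2 * walkBd d H, 2 * walkBd d H,
    fun e C J Z η D hJ T hT r => ?_⟩
  obtain ⟨h1, h2⟩ := top_reg D hy hT (τ := cstT 0) (Or.inl rfl) r
  refine ⟨h1, ?_⟩
  rw [Nat.mul_assoc]
  exact h2 _ (by omega)

end Vale.Agent.P202
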