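import Vale.Agent.P202.InterfacesR3
import Vale.Agent.P202.Final

/-!
`GoalStairChi`: the Euler characteristic of the window from the staircase to the constant twist.
-/

universe u

namespace Vale.Agent.P202

open IsLocalRing TensorProduct

namespace RStair

lemma abs_sgn (r : ℤ) : |sgn r| = 1 := by
  rcases Int.units_eq_one_or (Int.negOnePow r) with h | h <;> simp [sgn, h]

/-- Three rank functions along a long exact sequence, `F`, `G`, `K` the ranks of the maps. -/
lemma chi_tel (d e : ℕ) (A B C F G K : ℤ → ℕ)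
    (hB : ∀ r, F r + G r ≤ B r ∧ B r ≤ F r + G r + e)
    (hC : ∀ r, G r + K r ≤ C r ∧ C r ≤ G r + K r + e)
    (hA : ∀ r, K r + F (r + 1) ≤ A (r + 1) ∧ A (r + 1) ≤ K r + F (r + 1) + e)
    (h0 : K (-((3 * d + 3 : ℕ) : ℤ) - 1) = 0) (h1 : K ((3 * d + 3 : ℕ) : ℤ) = 0) :
    |chiSum d B - chiSum d A - chiSum d C| ≤ ((6 * d + 7) * (2 * e) : ℕ) := by
  set f : ℤ → ℤ := fun r => sgn r * (K (r - 1) : ℤ) with hf
  have htel : ∑ r ∈ Finset.Icc (-((3 * d + 3 : ℕ) : ℤ)) (3 * d + 3 : ℕ),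
      sgn r * ((K r : ℤ) + K (r - 1)) = 0 := by
    have e1 : ∀ r : ℤ, sgn r * ((K r : ℤ) + K (r - 1)) = f r - f (r + 1) := fun r => by
      simp only [hf, sgn_succ, add_sub_cancel_right]
      ring
    rw [Finset.sum_congr rfl fun r _ => e1 r]
    have := sum_Icc_telescope f (-((3 * d + 3 : ℕ) : ℤ)) (6 * d + 6)
    rw [show -((3 * d + 3 : ℕ) : ℤ) + ((6 * d + 6 : ℕ) : ℤ) = ((3 * d + 3 : ℕ) : ℤ) by
      push_cast; ring] at this
    rw [this]
    simp only [hf, add_sub_cancel_right, h0, h1]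
    simp
  have he : chiSum d B - chiSum d A - chiSum d C =
      ∑ r ∈ Finset.Icc (-((3 * d + 3 : ℕ) : ℤ)) (3 * d + 3 : ℕ),
        sgn r * ((B r : ℤ) - A r - C r + ((K r : ℤ) + K (r - 1))) := by
    simp only [chiSum, mul_add, mul_sub, Finset.sum_add_distrib, Finset.sum_sub_distrib]
    simp only [mul_add, Finset.sum_add_distrib] at htel
    linarith
  rw [he]
  refine (Finset.abs_sum_le_sum_abs _ _).trans
    ((Finset.sum_le_card_nsmul _ _ ((2 * e : ℕ) : ℤ) fun r _ => ?_).trans (le_of_eq ?_))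
  · rw [abs_mul, abs_sgn, one_mul, abs_le]
    have h3 := hA (r - 1)
    rw [sub_add_cancel] at h3
    obtain ⟨hb, hb'⟩ := hB r
    obtain ⟨hc, hc'⟩ := hC r
    obtain ⟨ha, ha'⟩ := h3
    constructor <;> omega
  · rw [Int.card_Icc, nsmul_eq_mul]
    push_cast
    rw [show ((3 : ℤ) * d + 3 + 1 - -(3 * d + 3)).toNat = 6 * d + 7 by omega]
    push_cast
    ring

lemma rkS_subsingleton {P : Type u} [CommRing P] {M : Type u} [AddCommGroup M] [Module P M]
    [Subsingleton M] (D : M →ₗ[P] M) (N : Submodule P M) (a : ℕ) : rkS D N a = 0 := by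
  simp [rkS, len]

/-- The intermediate stages of the walk. -/
def sg (m l : ℕ) : ℤ := -((min l m : ℕ) : ℤ)

lemma walk_congr_right {d : ℕ} {τ υ υ' : ℕ → ℤ} {L : List (ℕ × ℤ)} (h : Walk d τ υ L)
    (e : ∀ l, l ≤ d → υ' l = υ l) : Walk d τ υ' L := by
  induction h with
  | refl τ υ he => exact Walk.refl _ _ fun l hl => (he l hl).trans (e l hl).symm
  | step τ τ₀ σ υ p j L _ hs he ih => exact Walk.step _ τ₀ σ _ p j L (ih e) hs he

lemma stage_walk {d m : ℕ} (hm : m < d) :
    Walk d (sg (m + 1)) (sg m)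
      ((List.range (d - m)).map fun k => (d - k, -((m + 1 : ℕ) : ℤ))) := by
  have h := Walk.of_chain (d := d) (tauWalk d m) (fun k => d - k)
    (fun _ => -((m + 1 : ℕ) : ℤ)) (d - m) fun k hk => tauWalk_step m (by omega)
  refine walk_congr_right (h.congr_left fun l _ => ?_) fun l _ => ?_ <;>
    simp only [sg, tauWalk] <;> split_ifs <;> omega

section blocks

variable {R S : Type u} [CommRing R] [IsLocalRing R] [CommRing S] [Algebra R S] {d : ℕ}
  {x : Fin d → R} {e : ℝ} {C H J Z η : ℕ} (D : RankSys (S := S) x e C H J Z η)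

/-- The Euler characteristic of one block. -/
noncomputable def chb (a : ℕ) (j : ℤ) : ℤ :=
  ∑ r ∈ Finset.Icc (-(d : ℤ)) d, sgn r * (rkD (D.dl.winMap j (j + 1) r) a : ℤ)

/-- The value of one step. -/
noncomputable def vb (y : Fin d → S) (a : ℕ) (q : ℕ × ℤ) : ℤ :=
  (-1) ^ q.1 * (fibRk R y q.1 : ℤ) * chb D a q.2

/-- The tail sums. -/
noncomputable def tail (R : Type u) {S : Type u} [CommRing R] [IsLocalRing R] [CommRing S]
    [Algebra R S] {d : ℕ} (y : Fin d → S) (m : ℕ) : ℤ :=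
  ∑ p ∈ Finset.Icc (m + 1) d, (-1 : ℤ) ^ p * (fibRk R y p : ℤ)

lemma exists_walk (y : Fin d → S) (a : ℕ) : ∀ M, M ≤ d → ∃ L : List (ℕ × ℤ),
    Walk d (sg M) (sg 0) L ∧ L.length ≤ M * d ∧
      (L.map (vb D y a)).sum =
        ∑ m ∈ Finset.range M, tail R y m * chb D a (-((m + 1 : ℕ) : ℤ))
  | 0, _ => ⟨[], Walk.refl _ _ fun _ _ => rfl, by simp, by simp⟩
  | M + 1, hM => by
    obtain ⟨L, hL, hlen, hsum⟩ := exists_walk y a M (by omega)
    refine ⟨_, (stage_walk (show M < d by omega)).trans hL, ?_, ?_⟩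
    · simp only [List.length_append, List.length_map, List.length_range]
      rw [Nat.succ_mul]
      omega
    · rw [List.map_append, List.sum_append, hsum, Finset.sum_range_succ, List.map_map]
      refine congrArg₂ (· + ·) rfl ?_
      show ∑ k ∈ Finset.range (d - M), vb D y a (d - k, -((M + 1 : ℕ) : ℤ)) = _
      rw [tail, Finset.sum_mul]
      refine Finset.sum_bij (fun k _ => d - k) ?_ ?_ ?_ ?_
      · intro k hk; rw [Finset.mem_range] at hk; rw [Finset.mem_Icc]; omega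
      · intro k hk k' hk' h; rw [Finset.mem_range] at hk hk'; omega
      · intro p hp; rw [Finset.mem_Icc] at hp
        exact ⟨d - p, Finset.mem_range.2 (by omega), by omega⟩
      · intro k _; rfl

variable [IsNoetherianRing R] [IsLocalRing S] [IsNoetherianRing S]
  [IsLocalHom (algebraMap R S)] [Module.Flat R S] {y : Fin d → S} (hy : Par y)

include hy

lemma chi_step {τ τ' : ℕ → ℤ} {p : ℕ} {j : ℤ} (hs : TwistStep d τ τ' p j) (a : ℕ) :
    chiSum d (fun r => rkD (D.dl.tD y τ' τ r) a) = vb D y a (p, j) := by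
  have hp := hs.le
  have h0 : ∀ i : ℤ, i < -(d : ℤ) ∨ (d : ℤ) ≤ i → rkD (D.dl.winMap j (j + 1) i) a = 0 := by
    intro i hi
    have : Subsingleton (winH D.δ D.P D.Gt j (j + 1) i) := by
      refine hmod_subsingleton (le_trans inf_le_left ?_)
      rw [lvl, D.filt.bound i hi, inf_bot_eq]
      exact bot_le
    exact RW.rkD_subsingleton _ _
  rw [chiSum, vb, chb, Finset.mul_sum]
  have hsub : (Finset.Icc (-(d : ℤ)) d).image (fun i : ℤ => i - p) ⊆
      Finset.Icc (-((3 * d + 3 : ℕ) : ℤ)) (3 * d + 3 : ℕ) := by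
    intro r hr
    simp only [Finset.mem_image, Finset.mem_Icc] at hr
    obtain ⟨i, hi, rfl⟩ := hr
    rw [Finset.mem_Icc]; omega
  rw [← Finset.sum_subset hsub ?_, Finset.sum_image ?_]
  · refine Finset.sum_congr rfl fun i _ => ?_
    rw [step_rk D hy hs, show i - (p : ℤ) + p = i by ring, sgn_sub, sgn_natCast]
    push_cast
    ring
  · intro i _ i' _ h; simpa using h
  · intro r _ hr
    rw [step_rk D hy hs, h0]
    · simp
    by_contra hc
    exact hr (Finset.mem_image.2 ⟨r + p, Finset.mem_Icc.2 (by omega), by ring⟩)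

/-- Additivity along one step. -/
lemma chi_add {τ σ υ : ℕ → ℤ} {L : List (ℕ × ℤ)} {p : ℕ} {j : ℤ} (hA : Walk d σ υ L)
    (hC : Walk d τ σ [(p, j)]) (hB : Walk d τ υ (L ++ [(p, j)])) (N : ℕ) (hN : L.length + 1 ≤ N)
    {a : ℕ} (ha : 4 * N ≤ a) (hJ : a + 2 * N ≤ J) :
    |chiSum d (fun r => rkD (D.dl.tD y τ υ r) a) - chiSum d (fun r => rkD (D.dl.tD y σ υ r) a) -
        chiSum d (fun r => rkD (D.dl.tD y τ σ r) a)| ≤
      ((6 * d + 7) * (2 * (2 * (N * (fibSum R y * η)))) : ℕ) := by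
  have hreg : ∀ {τ' υ' : ℕ → ℤ} {L' : List (ℕ × ℤ)}, Walk d τ' υ' L' → L'.length ≤ N → ∀ r,
      (IsNoetherian S (tH y D.δ D.P D.Gt τ' υ' r) ∧ IsArtinian S (tH y D.δ D.P D.Gt τ' υ' r)) ∧
        Reg (D.dl.tD y τ' υ' r) (2 * N) (N * (fibSum R y * η)) a := by
    intro τ' υ' L' hw hl r
    obtain ⟨hfin, hr⟩ := walk_reg D hy hw r
    obtain ⟨_, _⟩ := RW.fin_of_length hfin
    exact ⟨RW.fin_of_length hfin, (goalRegRank S _ _ _ _ _).2 _ _ _ (by omega)
      (Nat.mul_le_mul_right _ hl) le_rfl (hr a (by omega))⟩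
  have rA := hreg hA (by omega)
  have rC := hreg hC (by simp only [List.length_singleton]; omega)
  have rB := hreg hB (by simp only [List.length_append, List.length_singleton]; omega)
  have fA := fun r => (rA r).1.1
  have fA' := fun r => (rA r).1.2
  have fB := fun r => (rB r).1.1
  have fB' := fun r => (rB r).1.2
  have fC := fun r => (rC r).1.1
  have fC' := fun r => (rC r).1.2
  have h1 := hC.le
  have h2 := hA.le
  let f := fun r => tMap y D.δ D.P D.filt.anti (τ := σ) (υ := υ) (τ' := τ) (υ' := υ) h1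
    (fun _ _ => le_rfl) r
  let g := fun r => tMap y D.δ D.P D.filt.anti (τ := τ) (υ := υ) (τ' := τ) (υ' := σ)
    (fun _ _ => le_rfl) h2 r
  let c := fun r => tConn (y := y) D.filt τ σ υ r
  have hf := fun r => D.dl.tMap_comm y D.filt.anti (υ := υ) (υ' := υ) h1 (fun _ _ => le_rfl) r
  have hg := fun r => D.dl.tMap_comm y D.filt.anti (τ := τ) (τ' := τ) (fun _ _ => le_rfl) h2 r
  have hc := fun r => D.dl.tConn_comm y D.filt τ σ υ r
  have hex := fun r => exact_tMap (y := y) D.filt h1 h2 r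
  refine chi_tel d _ _ _ _ (fun r => rkS (D.dl.tD y τ υ r) (LinearMap.range (f r)) a)
    (fun r => rkS (D.dl.tD y τ σ r) (LinearMap.range (g r)) a)
    (fun r => rkS (D.dl.tD y σ υ (r + 1)) (LinearMap.range (c r)) a)
    (fun r => goalRkExact S _ _ _ (D.dl.tD y σ υ r) _ (D.dl.tD y τ σ r) (f r) (g r) _ _ a
      (hf r) (hg r) (hex r).1 (rA r).2 (rC r).2 a (by omega) le_rfl)
    (fun r => goalRkExact S _ _ _ (D.dl.tD y τ υ r) _ (D.dl.tD y σ υ (r + 1)) (g r) (c r) _ _ a
      (hg r) (hc r) (hex r).2.1 (rB r).2 (rA (r + 1)).2 a (by omega) le_rfl)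
    (fun r => goalRkExact S _ _ _ (D.dl.tD y τ σ r) _ (D.dl.tD y τ υ (r + 1)) (c r) (f (r + 1))
      _ _ a (hc r) (hf (r + 1)) (hex r).2.2 (rC r).2 (rB (r + 1)).2 a (by omega) le_rfl) ?_ ?_
  · have := tH_subsingleton (R := R) y D.filt σ υ
      (r := -((3 * d + 3 : ℕ) : ℤ) - 1 + 1) (Or.inl (by omega))
    exact rkS_subsingleton _ _ _
  · have := tH_subsingleton (R := R) y D.filt σ υ
      (r := ((3 * d + 3 : ℕ) : ℤ) + 1) (Or.inr (by omega))
    exact rkS_subsingleton _ _ _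

/-- The Euler characteristic along a walk. -/
lemma chi_walk {τ υ : ℕ → ℤ} {L : List (ℕ × ℤ)} (hw : Walk d τ υ L) (N : ℕ) {a : ℕ}
    (ha : 4 * N ≤ a) (hJ : a + 2 * N ≤ J) : L.length ≤ N →
    |chiSum d (fun r => rkD (D.dl.tD y τ υ r) a) - (L.map (vb D y a)).sum| ≤
      (L.length * ((6 * d + 7) * (2 * (2 * (N * (fibSum R y * η))))) : ℕ) := by
  induction hw with
  | refl τ υ he =>
    intro _
    have h0 : ∀ r, rkD (D.dl.tD y τ υ r) a = 0 := fun r => by
      have : Subsingleton (tH y D.δ D.P D.Gt τ υ r) := by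
        refine hmod_subsingleton (le_trans inf_le_left (le_trans ?_ le_sup_right))
        rw [DT_congr (B := S) (y := y) D.filt he]
      exact RW.rkD_subsingleton _ _
    simp [chiSum, h0]
  | step τ τ₀ σ υ p j L hw hs he ih =>
    intro hN
    simp only [List.length_append, List.length_singleton] at hN ⊢
    have hw1 : Walk d τ σ [(p, j)] :=
      Walk.step τ τ₀ σ σ p j [] (Walk.refl σ σ fun _ _ => rfl) hs he
    have h1 := chi_add D hy hw hw1 (Walk.step τ τ₀ σ υ p j L hw hs he) N hN ha hJ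
    have h2 := ih (by omega)
    have eT : DT S y D.P D.Gt τ = DT S y D.P D.Gt τ₀ := DT_congr (B := S) D.filt he
    have h3 : chiSum d (fun r => rkD (D.dl.tD y τ σ r) a) = vb D y a (p, j) := by
      rw [← chi_step D hy hs a]
      refine congrArg (chiSum d) (funext fun r => ?_)
      exact (RW.hmap_congr_fam (dd := dT S y D.δ) (φ := kmap d (lT S S D.Dl)) eT
        (rfl : DT S y D.P D.Gt σ = _) (D.dl.tmem y τ) (D.dl.tmem y σ) (D.dl.tmem y τ₀)
        (D.dl.tmem y σ) (D.dl.tcomm y τ) (D.dl.tcomm y τ₀) r).2.2 a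
    rw [h3] at h1
    rw [List.map_append, List.sum_append, List.map_cons, List.map_nil, List.sum_singleton,
      show (L.length + 1) * ((6 * d + 7) * (2 * (2 * (N * (fibSum R y * η))))) =
        L.length * ((6 * d + 7) * (2 * (2 * (N * (fibSum R y * η))))) +
          (6 * d + 7) * (2 * (2 * (N * (fibSum R y * η)))) by ring, Nat.cast_add]
    rw [abs_le] at h1 h2 ⊢
    constructor <;> linarith

end blocks

end RStair

open RStair in
theorem goalStairChi : GoalStairChi.{u} := by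
  intro R S _ _ _ _ _ _ _ _ _ d hd hR hS x y hy H hH
  set N := d * d with hN
  refine ⟨N * ((6 * d + 7) * (4 * (N * fibSum R y))) +
    ∑ m ∈ Finset.range d, (tail R y m).natAbs, 4 * N + 2, ?_⟩
  intro e C J Z η D a ha hJ
  obtain ⟨L, hw, hlen, hsum⟩ := exists_walk D y a d le_rfl
  have hw' : Walk d (shfT 0) (cstT 0) L :=
    walk_congr_right (hw.congr_left fun l hl => by simp only [shfT, sg]; omega)
      fun l _ => by simp [cstT, sg]
  have h1 := (abs_le.1 (chi_walk D hy hw' N (a := a) (by omega) (by omega) hlen)).2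
  rw [hsum] at h1
  have h1' : ((chiSum d fun r => rkD (D.dl.tD y (shfT 0) (cstT 0) r) a : ℤ) : ℝ) ≤
      ∑ m ∈ Finset.range d, (tail R y m : ℝ) * (chb D a (-((m + 1 : ℕ) : ℤ)) : ℝ) +
        ((N * ((6 * d + 7) * (2 * (2 * (N * (fibSum R y * η))))) : ℕ) : ℝ) := by
    have h := (sub_le_iff_le_add'.1 h1).trans (add_le_add_right
      (Int.ofNat_le.2 (Nat.mul_le_mul_right _ hlen)) _)
    have h' := (Int.cast_le (R := ℝ)).2 h
    simp only [Int.cast_add, Int.cast_sum, Int.cast_mul, Int.cast_natCast] at h'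
    exact h'
  have h2 := sum_mul_le_main hd (fun m => (tail R y m : ℝ)) (fun j => (chb D a j : ℝ))
    (((d - 1).factorial : ℝ) * e * Z) (η : ℝ) fun j hj hj' =>
      D.blk_euler j hj hj' (by omega) a (by omega) (by omega)
  have hT0 : tail R y 0 = -(fibRk R y 0 : ℤ) :=
    tail_sum_residue koszulGoals.{u} hd hy (hR.trans hS.symm)
  have e0 : (tail R y 0 : ℝ) = -(fibRk R y 0 : ℝ) := by exact_mod_cast hT0
  simp only [e0] at h2
  have e1 : ((∑ m ∈ Finset.range d, (tail R y m).natAbs : ℕ) : ℝ) =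
      ∑ m ∈ Finset.range d, |(tail R y m : ℝ)| := by
    rw [Nat.cast_sum]
    exact Finset.sum_congr rfl fun m _ => by rw [Nat.cast_natAbs, Int.cast_abs]
  refine h1'.trans ((add_le_add h2 le_rfl).trans (le_of_eq ?_))
  show _ = -(((fibRk R y 0 : ℕ) : ℝ) * ((d - 1).factorial : ℝ) * e * Z) + _
  rw [← e1]
  push_cast
  ring

end Vale.Agent.P202
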