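import Vale.Agent.P202.InterfacesR3

/-!
Lemma P on the triangle of the windows `[0, T)`, `[-l, T)`, `[-l, 0)`: one place of Lemma P, applied
along the long exact sequence, and a telescoping sum.
-/

universe u v

namespace Vale.Agent.P202

open IsLocalRing TensorProduct M7

namespace RT

section place

variable {P : Type u} [CommRing P]
variable {A B C A' B' C' : Type v} [AddCommGroup A] [Module P A] [AddCommGroup B] [Module P B]
  [AddCommGroup C] [Module P C] [AddCommGroup A'] [Module P A'] [AddCommGroup B'] [Module P B']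
  [AddCommGroup C'] [Module P C'] [IsNoetherian P B] [IsArtinian P B] [IsNoetherian P C]
  [IsArtinian P C] [IsNoetherian P A'] [IsArtinian P A'] [IsNoetherian P B'] [IsArtinian P B']
  {DA : A →ₗ[P] A} {DB : B →ₗ[P] B} {DC : C →ₗ[P] C} {DA' : A' →ₗ[P] A'} {DB' : B' →ₗ[P] B'}
  {DC' : C' →ₗ[P] C'} {f : A →ₗ[P] B} {g : B →ₗ[P] C} {f' : A' →ₗ[P] B'} {g' : B' →ₗ[P] C'}
  {sA : A →ₗ[P] A'} {sB : B →ₗ[P] B'} {sC : C →ₗ[P] C'}

/-- The rank of `B'` at one place of a transition is the sum of the ranks of its two maps. -/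
theorem place (hg : DC ∘ₗ g = g ∘ₗ DB) (hf' : DB' ∘ₗ f' = f' ∘ₗ DA')
    (hg' : DC' ∘ₗ g' = g' ∘ₗ DB') (hsB : DB' ∘ₗ sB = sB ∘ₗ DB) (hsC : DC' ∘ₗ sC = sC ∘ₗ DC)
    (hcA : f' ∘ₗ sA = sB ∘ₗ f) (hcB : g' ∘ₗ sB = sC ∘ₗ g) (hex : Function.Exact f g)
    (hcx : Function.Exact f' g') (NA : Submodule P A) (NB : Submodule P B) (NC : Submodule P C)
    (hNA : NA.map f ≤ NB) (hNB : NB.map g ≤ NC) {i η η' J a : ℕ} (hRC : Reg DC i η J)
    (hRA : Reg DA' i η J) (hRB : Reg DB' i η J) (ha : 2 * i ≤ a) (haJ : a ≤ J)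
    (hC : rkS DC NC a ≤ rkS DC' (NC.map sC) a + η')
    (hA : rkS DA' (LinearMap.range sA) a ≤ rkS DA' (NA.map sA) a + η') :
    rkS DB' ((NA.map sA).map f') a + rkS DC' ((NB.map sB).map g') a ≤
        rkS DB' (NB.map sB) a ∧
      rkS DB' (NB.map sB) a ≤ rkS DB' ((NA.map sA).map f') a +
        rkS DC' ((NB.map sB).map g') a + (3 * η + 2 * η') := by
  have hI : (NB.map (DB ^ a)).map sB = (NB.map sB).map (DB' ^ a) := (map_comm hsB NB a).symm
  have hsplit := len_split g' ((NB.map sB).map (DB' ^ a))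
  have hu : ((NB.map sB).map g').map (DC' ^ a) = ((NB.map sB).map (DB' ^ a)).map g' :=
    map_comm hg' _ a
  have hlow : ((NA.map sA).map f').map (DB' ^ a) ≤
      (NB.map sB).map (DB' ^ a) ⊓ LinearMap.ker g' := by
    have hle : (NA.map sA).map f' ≤ NB.map sB := by
      rw [← Submodule.map_comp, hcA, Submodule.map_comp]
      exact Submodule.map_mono hNA
    refine le_inf (Submodule.map_mono hle) ?_
    rintro _ ⟨_, ⟨x, -, rfl⟩, rfl⟩
    show g' ((DB' ^ a) (f' x)) = 0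
    rw [← pow_apply_comm hg', hcx.apply_apply_eq_zero x, map_zero]
  set Z : Submodule P B := NB.map (DB ^ a) ⊓ (LinearMap.ker g').comap sB with hZ
  have a1 : (NB.map sB).map (DB' ^ a) ⊓ LinearMap.ker g' ≤ Z.map sB := by
    rw [← hI]
    rintro _ ⟨⟨z, hz, rfl⟩, hy⟩
    exact ⟨z, ⟨hz, hy⟩, rfl⟩
  have a2 := map_le_add sB g Z
  have a3 : Z.map g ≤ NC.map (DC ^ a) ⊓ LinearMap.ker sC := by
    rintro _ ⟨z, ⟨⟨x, hx, rfl⟩, hz⟩, rfl⟩
    refine ⟨⟨g x, hNB (Submodule.mem_map_of_mem hx), pow_apply_comm hg a x⟩, ?_⟩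
    show sC (g ((DB ^ a) x)) = 0
    exact (LinearMap.congr_fun hcB _).symm.trans hz
  have a4 := len_split sC (NC.map (DC ^ a))
  rw [← map_comm hsC] at a4
  have a6 : len P ↥((Z ⊓ LinearMap.ker g).map sB) ≤
      len P ↥((LinearMap.range (DB ^ a) ⊓ LinearMap.ker g).map sB) :=
    len_mono (Submodule.map_mono (inf_le_inf_right _ (inf_le_left.trans LinearMap.map_le_range)))
  have a7 := kerK hg hRC (by omega : i ≤ a) (by omega) sB
  have a8 : ((LinearMap.ker g).map (DB ^ (a - i))).map sB =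
      ((LinearMap.range sA).map (DA' ^ (a - i))).map f' := by
    rw [← map_comm hsB, ← map_comm hf', LinearMap.exact_iff.mp hex, ← LinearMap.range_comp,
      ← hcA, LinearMap.range_comp]
  rw [a8] at a7
  have hAs : NA.map sA ≤ LinearMap.range sA := LinearMap.map_le_range
  have a9 := key f' (Submodule.map_mono (f := DA' ^ (a - i)) hAs)
  have b1 := drop hRA (LinearMap.range sA) (by omega : i ≤ a - i) (Nat.sub_le a i) (by omega)
  have b2 := drop hRB ((NA.map sA).map f') (by omega : i ≤ a - i) (Nat.sub_le a i) (by omega)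
  have b3 := rkS_anti DA' (NA.map sA) (Nat.sub_le a i)
  have b6 : rkS DB' ((NA.map sA).map f') (a - i) =
      len P ↥(((NA.map sA).map (DA' ^ (a - i))).map f') := by
    rw [rkS, map_comm hf']
  have b7 := len_mono a1
  have b8 := len_mono a3
  have b9 := len_mono hlow
  simp only [rkS] at *
  rw [hu]
  omega

theorem rkS_subsingleton {M : Type v} [AddCommGroup M] [Module P M] [Subsingleton M]
    (D : M →ₗ[P] M) (N : Submodule P M) (a : ℕ) : rkS D N a = 0 := by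
  simp [rkS, len]

theorem rkS_map_subsingleton {M M' : Type v} [AddCommGroup M] [Module P M] [AddCommGroup M']
    [Module P M'] [Subsingleton M] (D : M' →ₗ[P] M') (φ : M →ₗ[P] M') (N : Submodule P M)
    (a : ℕ) : rkS D (N.map φ) a = 0 := by
  have h : N.map φ = ⊥ := by
    rw [Submodule.eq_bot_iff]
    rintro _ ⟨z, -, rfl⟩
    rw [Subsingleton.elim z 0, map_zero]
  rw [h, rkS, Submodule.map_bot, len, Module.length_eq_zero, ENat.toNat_zero]

end place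

theorem telescope_Icc (g : ℤ → ℤ) (lo : ℤ) (n : ℕ) :
    ∑ r ∈ Finset.Icc lo (lo - 1 + n), (g (r - 1) - g r) = g (lo - 1) - g (lo - 1 + n) := by
  induction n with
  | zero => simp
  | succ n ih =>
    have h : Finset.Icc lo (lo - 1 + ((n + 1 : ℕ) : ℤ)) =
        insert (lo + n) (Finset.Icc lo (lo - 1 + n)) := by
      ext x
      simp only [Finset.mem_insert, Finset.mem_Icc]
      push_cast
      omega
    rw [h, Finset.sum_insert (by simp), ih]
    push_cast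
    ring_nf

/-- Alternating sums of three sequences with two ranks at every place. -/
theorem triangle_sum (d : ℕ) (fU fD fW v₁ v₂ w : ℤ → ℕ) (c : ℕ)
    (hD : ∀ r, v₁ r + v₂ r ≤ fD r ∧ fD r ≤ v₁ r + v₂ r + c)
    (hW : ∀ r, v₂ r + w r ≤ fW r ∧ fW r ≤ v₂ r + w r + c)
    (hU : ∀ r, w (r - 1) + v₁ r ≤ fU r ∧ fU r ≤ w (r - 1) + v₁ r + c)
    (hlo : w (-((3 * d + 3 : ℕ) : ℤ) - 1) = 0) (hhi : w ((3 * d + 3 : ℕ) : ℤ) = 0) :
    |chiSum d fD - chiSum d fU - chiSum d fW| ≤ ((3 * (6 * d + 8)) * c : ℕ) := by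
  set M : ℕ := 3 * d + 3 with hM
  let g : ℤ → ℤ := fun r => sgn r * (w r : ℤ)
  have hg : ∑ r ∈ Finset.Icc (-(M : ℤ)) M, (g (r - 1) - g r) = 0 := by
    have h := telescope_Icc g (-(M : ℤ)) (2 * M + 1)
    rw [show -(M : ℤ) - 1 + ((2 * M + 1 : ℕ) : ℤ) = M by push_cast; ring] at h
    rw [h]
    simp only [g, hlo, hhi]
    simp
  have hs : ∀ r : ℤ, sgn (r - 1) = -sgn r := fun r => by
    rw [sgn, sgn, Int.negOnePow_sub, Int.negOnePow_one]
    simp
  have e1 : chiSum d fD - chiSum d fU - chiSum d fW =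
      ∑ r ∈ Finset.Icc (-(M : ℤ)) M, (g (r - 1) - g r + sgn r *
        ((fD r : ℤ) - fU r - fW r + w (r - 1) + w r)) := by
    rw [Finset.sum_add_distrib, hg, zero_add]
    simp only [chiSum, ← hM, ← Finset.sum_sub_distrib]
    have h0 : ∀ r, sgn r * ((fD r : ℤ) - fU r - fW r + w (r - 1) + w r) =
        (sgn r * (fD r : ℤ) - sgn r * fU r - sgn r * fW r) + (-(g (r - 1) - g r)) := by
      intro r
      simp only [g, hs]
      ring
    simp only [h0, Finset.sum_add_distrib, Finset.sum_neg_distrib, hg, neg_zero, add_zero]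
  rw [e1, Finset.sum_add_distrib, hg, zero_add]
  refine (Finset.abs_sum_le_sum_abs _ _).trans ?_
  refine (Finset.sum_le_sum (g := fun _ => ((3 * c : ℕ) : ℤ)) fun r _ => ?_).trans ?_
  · obtain ⟨h1, h2⟩ := hD r
    obtain ⟨h3, h4⟩ := hW r
    obtain ⟨h5, h6⟩ := hU r
    have h7 : |((fD r : ℤ) - fU r - fW r + w (r - 1) + w r)| ≤ ((3 * c : ℕ) : ℤ) :=
      abs_le.2 ⟨by omega, by omega⟩
    rw [abs_mul]
    refine le_trans (le_of_eq ?_) h7
    rw [show |sgn r| = 1 from by rw [sgn]; exact abs_of_sgn r, one_mul]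
  · rw [Finset.sum_const, nsmul_eq_mul, Int.card_Icc,
      show ((M : ℤ) + 1 - -(M : ℤ)).toNat = 2 * M + 1 by omega]
    have h : (2 * M + 1) * (3 * c) ≤ 3 * (6 * d + 8) * c := by
      rw [hM]; nlinarith
    exact_mod_cast h
where
  abs_of_sgn (r : ℤ) : |((Int.negOnePow r : ℤˣ) : ℤ)| = 1 := Int.abs_negOnePow r

section places

variable {R S : Type u} [CommRing R] [CommRing S] [Algebra R S] [Module.Flat R S] {A : Type u}
  [AddCommGroup A] [Module R A] {d : ℕ} {δ g : A →ₗ[R] A} {P Gt : ℤ → Submodule R A} {I : Ideal R}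
  {y : Fin d → S}

/-- The connecting map is natural in the top. -/
theorem tConn_tMap (F : FiltSys I d δ P Gt) (τ σ : ℕ → ℤ) {υ υ' : ℕ → ℤ}
    (hυ : ∀ l, l ≤ d → υ' l ≤ υ l) (r : ℤ) :
    tMap y δ P F.anti (fun _ _ => le_refl (σ _)) hυ (r + 1) ∘ₗ tConn (y := y) F τ σ υ r =
      tConn (y := y) F τ σ υ' r :=
  LinearMap.ext fun x => by
    obtain ⟨x, rfl⟩ := hmk_surjective _ _ _ _ x
    exact congrArg (hmk _ _ _ _) (Subtype.ext rfl)

/-- Finite length and regularity of a window. -/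
def Good (h : LevelEnd δ P Gt g) (y : Fin d → S) (i η J : ℕ) (τ υ : ℕ → ℤ) : Prop :=
  ∀ r : ℤ, Module.length S (tH y δ P Gt τ υ r) ≠ ⊤ ∧ Reg (h.tD y τ υ r) i η J

/-- The rank of the transition of tops. -/
noncomputable abbrev trk (h : LevelEnd δ P Gt g) (y : Fin d → S) (hG : Antitone Gt)
    (τ : ℕ → ℤ) {υ υ' : ℕ → ℤ} (hυ : ∀ l, l ≤ d → υ' l ≤ υ l) (r : ℤ) (a : ℕ) : ℕ :=
  rkS (h.tD y τ υ' r)
    (LinearMap.range (tMap y δ P hG (fun l (_ : l ≤ d) => le_refl (τ l)) hυ r)) a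

variable (F : FiltSys I d δ P Gt) (h : LevelEnd δ P Gt g) {τ σ υ₁ υ₂ υ₃ : ℕ → ℤ}
  (hτσ : ∀ l, l ≤ d → τ l ≤ σ l) (h₂ : ∀ l, l ≤ d → σ l ≤ υ₂ l) (h₃ : ∀ l, l ≤ d → σ l ≤ υ₃ l)
  (h32 : ∀ l, l ≤ d → υ₃ l ≤ υ₂ l) (h21 : ∀ l, l ≤ d → υ₂ l ≤ υ₁ l)
  (h31 : ∀ l, l ≤ d → υ₃ l ≤ υ₁ l) {i η η' J a : ℕ} (ha : 2 * i ≤ a) (haJ : a ≤ J)

omit [Module.Flat R S] in
theorem range_tr (hG : Antitone Gt) (ρ : ℕ → ℤ) (r : ℤ) :
    (LinearMap.range (tMap y δ P hG (fun l (_ : l ≤ d) => le_refl (ρ l)) h21 r)).map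
      (tMap y δ P hG (fun l (_ : l ≤ d) => le_refl (ρ l)) h32 r) =
    LinearMap.range (tMap y δ P hG (fun l (_ : l ≤ d) => le_refl (ρ l)) h31 r) := by
  rw [← LinearMap.range_comp, tMap_tMap]

/-- The rank between `[σ, υ₃)` and `[τ, υ₃)`. -/
noncomputable abbrev w₁ (r : ℤ) (a : ℕ) : ℕ :=
  rkS (h.tD y τ υ₃ r) ((LinearMap.range
    (tMap y δ P F.anti (fun l (_ : l ≤ d) => le_refl (σ l)) h31 r)).map
    (tMap y δ P F.anti hτσ (fun l _ => le_refl (υ₃ l)) r)) a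

/-- The rank between `[τ, υ₃)` and `[τ, σ)`. -/
noncomputable abbrev w₂ (r : ℤ) (a : ℕ) : ℕ :=
  rkS (h.tD y τ σ r) ((LinearMap.range
    (tMap y δ P F.anti (fun l (_ : l ≤ d) => le_refl (τ l)) h31 r)).map
    (tMap y δ P F.anti (fun l _ => le_refl (τ l)) h₃ r)) a

/-- The rank between `[τ, σ)` and `[σ, υ₃)`. -/
noncomputable abbrev w₃ (τ σ υ₃ : ℕ → ℤ) (r : ℤ) (a : ℕ) : ℕ :=
  rkS (h.tD y σ υ₃ (r + 1))
    ((⊤ : Submodule S (tH y δ P Gt τ σ r)).map (tConn (y := y) F τ σ υ₃ r)) a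

variable (hU₂ : Good h y i η J σ υ₂) (hU₃ : Good h y i η J σ υ₃) (hD₂ : Good h y i η J τ υ₂)
  (hD₃ : Good h y i η J τ υ₃) (hW : Good h y i η J τ σ)

include ha haJ hW hU₃ hD₃ hD₂ h₂ h₃ h21 h32

theorem place_mid (r : ℤ) (hA : trk h y F.anti σ h32 r a ≤ trk h y F.anti σ h31 r a + η') :
    w₁ F h (y := y) hτσ h31 r a + w₂ F h (y := y) (τ := τ) h₃ h31 r a ≤ trk h y F.anti τ h31 r a ∧
      trk h y F.anti τ h31 r a ≤
        w₁ F h (y := y) hτσ h31 r a + w₂ F h (y := y) (τ := τ) h₃ h31 r a + (3 * η + 2 * η') := by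
  obtain ⟨_, _⟩ := RW.fin_of_length (hD₂ r).1
  obtain ⟨_, _⟩ := RW.fin_of_length (hD₃ r).1
  obtain ⟨_, _⟩ := RW.fin_of_length (hU₃ r).1
  obtain ⟨_, _⟩ := RW.fin_of_length (hW r).1
  have := place
    (f := tMap y δ P F.anti hτσ (fun l _ => le_refl (υ₂ l)) r)
    (g := tMap y δ P F.anti (fun l _ => le_refl (τ l)) h₂ r)
    (f' := tMap y δ P F.anti hτσ (fun l _ => le_refl (υ₃ l)) r)
    (g' := tMap y δ P F.anti (fun l _ => le_refl (τ l)) h₃ r)
    (sA := tMap y δ P F.anti (fun l _ => le_refl (σ l)) h32 r)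
    (sB := tMap y δ P F.anti (fun l _ => le_refl (τ l)) h32 r)
    (sC := LinearMap.id)
    (h.tMap_comm y F.anti _ _ r) (h.tMap_comm y F.anti _ _ r) (h.tMap_comm y F.anti _ _ r)
    (h.tMap_comm y F.anti _ _ r) rfl
    (by rw [tMap_tMap, tMap_tMap]) (by rw [tMap_tMap, LinearMap.id_comp])
    (exact_tMap F hτσ h₂ r).1 (exact_tMap F hτσ h₃ r).1
    (LinearMap.range (tMap y δ P F.anti (fun l (_ : l ≤ d) => le_refl (σ l)) h21 r))
    (LinearMap.range (tMap y δ P F.anti (fun l (_ : l ≤ d) => le_refl (τ l)) h21 r)) ⊤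
    (by
      rw [← LinearMap.range_comp, tMap_tMap,
        ← tMap_tMap y F.anti hτσ (fun l _ => le_refl (υ₁ l)) (fun l _ => le_refl (τ l)) h21 r]
      exact LinearMap.range_comp_le_range _ _)
    le_top (hW r).2 (hU₃ r).2 (hD₃ r).2 ha haJ
    (by rw [Submodule.map_id]; exact Nat.le_add_right _ η')
    (by rw [range_tr h32 h21 h31]; exact hA)
  simpa only [range_tr h32 h21 h31] using this

include hU₂ hτσ h₃

omit hD₂ in
theorem place_quot (r : ℤ) (hC : trk h y F.anti σ h21 (r + 1) a ≤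
      trk h y F.anti σ h31 (r + 1) a + η')
    (hA : trk h y F.anti τ h32 r a ≤ trk h y F.anti τ h31 r a + η') :
    w₂ F h (y := y) (τ := τ) h₃ h31 r a + w₃ F h (y := y) τ σ υ₃ r a ≤ rkD (h.tD y τ σ r) a ∧
      rkD (h.tD y τ σ r) a ≤
        w₂ F h (y := y) (τ := τ) h₃ h31 r a + w₃ F h (y := y) τ σ υ₃ r a + (3 * η + 2 * η') := by
  obtain ⟨_, _⟩ := RW.fin_of_length (hU₂ (r + 1)).1
  obtain ⟨_, _⟩ := RW.fin_of_length (hU₃ (r + 1)).1
  obtain ⟨_, _⟩ := RW.fin_of_length (hD₃ r).1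
  obtain ⟨_, _⟩ := RW.fin_of_length (hW r).1
  have := place
    (f := tMap y δ P F.anti (fun l _ => le_refl (τ l)) h₂ r)
    (g := tConn (y := y) F τ σ υ₂ r)
    (f' := tMap y δ P F.anti (fun l _ => le_refl (τ l)) h₃ r)
    (g' := tConn (y := y) F τ σ υ₃ r)
    (sA := tMap y δ P F.anti (fun l _ => le_refl (τ l)) h32 r)
    (sB := LinearMap.id)
    (sC := tMap y δ P F.anti (fun l _ => le_refl (σ l)) h32 (r + 1))
    (h.tConn_comm y F _ _ _ r) (h.tMap_comm y F.anti _ _ r) (h.tConn_comm y F _ _ _ r)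
    rfl (h.tMap_comm y F.anti _ _ (r + 1))
    (by rw [tMap_tMap, LinearMap.id_comp]) (by rw [tConn_tMap F, LinearMap.comp_id])
    (exact_tMap F hτσ h₂ r).2.1 (exact_tMap F hτσ h₃ r).2.1
    (LinearMap.range (tMap y δ P F.anti (fun l (_ : l ≤ d) => le_refl (τ l)) h21 r)) ⊤
    (LinearMap.range (tMap y δ P F.anti (fun l (_ : l ≤ d) => le_refl (σ l)) h21 (r + 1)))
    le_top
    (by
      rw [← tConn_tMap (y := y) F τ σ h21 r]
      exact LinearMap.map_le_range.trans (LinearMap.range_comp_le_range _ _))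
    (hU₂ (r + 1)).2 (hD₃ r).2 (hW r).2 ha haJ
    (by rw [range_tr h32 h21 h31]; exact hC)
    (by rw [range_tr h32 h21 h31]; exact hA)
  simpa only [range_tr h32 h21 h31, Submodule.map_id, rkS_top] using this

theorem place_sub (r : ℤ) (hC : trk h y F.anti τ h21 (r + 1) a ≤
      trk h y F.anti τ h31 (r + 1) a + η') :
    w₃ F h (y := y) τ σ υ₃ r a + w₁ F h (y := y) hτσ h31 (r + 1) a ≤ trk h y F.anti σ h31 (r + 1) a ∧
      trk h y F.anti σ h31 (r + 1) a ≤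
        w₃ F h (y := y) τ σ υ₃ r a + w₁ F h (y := y) hτσ h31 (r + 1) a + (3 * η + 2 * η') := by
  obtain ⟨_, _⟩ := RW.fin_of_length (hU₂ (r + 1)).1
  obtain ⟨_, _⟩ := RW.fin_of_length (hU₃ (r + 1)).1
  obtain ⟨_, _⟩ := RW.fin_of_length (hD₂ (r + 1)).1
  obtain ⟨_, _⟩ := RW.fin_of_length (hD₃ (r + 1)).1
  obtain ⟨_, _⟩ := RW.fin_of_length (hW r).1
  have := place
    (f := tConn (y := y) F τ σ υ₂ r)
    (g := tMap y δ P F.anti hτσ (fun l _ => le_refl (υ₂ l)) (r + 1))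
    (f' := tConn (y := y) F τ σ υ₃ r)
    (g' := tMap y δ P F.anti hτσ (fun l _ => le_refl (υ₃ l)) (r + 1))
    (sA := LinearMap.id)
    (sB := tMap y δ P F.anti (fun l _ => le_refl (σ l)) h32 (r + 1))
    (sC := tMap y δ P F.anti (fun l _ => le_refl (τ l)) h32 (r + 1))
    (h.tMap_comm y F.anti _ _ (r + 1)) (h.tConn_comm y F _ _ _ r)
    (h.tMap_comm y F.anti _ _ (r + 1))
    (h.tMap_comm y F.anti _ _ (r + 1)) (h.tMap_comm y F.anti _ _ (r + 1))
    (by rw [tConn_tMap F, LinearMap.comp_id]) (by rw [tMap_tMap, tMap_tMap])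
    (exact_tMap F hτσ h₂ r).2.2 (exact_tMap F hτσ h₃ r).2.2 ⊤
    (LinearMap.range (tMap y δ P F.anti (fun l (_ : l ≤ d) => le_refl (σ l)) h21 (r + 1)))
    (LinearMap.range (tMap y δ P F.anti (fun l (_ : l ≤ d) => le_refl (τ l)) h21 (r + 1)))
    (by
      rw [← tConn_tMap (y := y) F τ σ h21 r]
      exact LinearMap.map_le_range.trans (LinearMap.range_comp_le_range _ _))
    (by
      rw [← LinearMap.range_comp, tMap_tMap,
        ← tMap_tMap y F.anti hτσ (fun l _ => le_refl (υ₁ l)) (fun l _ => le_refl (τ l)) h21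
          (r + 1)]
      exact LinearMap.range_comp_le_range _ _)
    (hD₂ (r + 1)).2 (hW r).2 (hU₃ (r + 1)).2 ha haJ
    (by rw [range_tr h32 h21 h31]; exact hC)
    (by rw [Submodule.map_id, LinearMap.range_id]; exact Nat.le_add_right _ η')
  simpa only [range_tr h32 h21 h31, Submodule.map_id] using this

end places

end RT

open RT in
/-- Lemma P on the triangle, for three tops. -/
theorem goalTriangleChi : GoalTriangleChi.{u} := by
  intro R S _ _ _ _ _ d A _ _ δ g P Gt F h hG y T₃ T₂ T₁ h₂ h₁ i η η' J a ha haJ hReg hW hH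
  have hst : ∀ l, l ≤ d → shfT 0 l ≤ cstT 0 l := fun l _ => shfT_le_cstT 0 l
  have ht : ∀ T : ℕ, ∀ l, l ≤ d → cstT 0 l ≤ cstT (T : ℤ) l :=
    fun T => cstT_le_cstT (Int.natCast_nonneg T) d
  have h32 := cstT_le_cstT (Int.ofNat_le.2 h₂) d
  have h21 := cstT_le_cstT (Int.ofNat_le.2 h₁) d
  have h31 := cstT_le_cstT (Int.ofNat_le.2 (h₂.trans h₁)) d
  have gU₂ : Good h y i η J (cstT 0) (cstT (T₂ : ℤ)) :=
    hReg T₂ (by simp) _ (List.mem_cons_self ..)
  have gU₃ : Good h y i η J (cstT 0) (cstT (T₃ : ℤ)) :=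
    hReg T₃ (by simp) _ (List.mem_cons_self ..)
  have gD₂ : Good h y i η J (shfT 0) (cstT (T₂ : ℤ)) :=
    hReg T₂ (by simp) _ (List.mem_cons_of_mem _ (List.mem_cons_self ..))
  have gD₃ : Good h y i η J (shfT 0) (cstT (T₃ : ℤ)) :=
    hReg T₃ (by simp) _ (List.mem_cons_of_mem _ (List.mem_cons_self ..))
  have hHU := hH _ (List.mem_cons_self ..)
  have hHD := hH _ (List.mem_cons_of_mem _ (List.mem_cons_self ..))
  refine triangle_sum d _ _ _ (fun r => w₁ F h (y := y) hst h31 r a)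
    (fun r => w₂ F h (y := y) (τ := shfT 0) (ht T₃) h31 r a)
    (fun r => w₃ F h (y := y) (shfT 0) (cstT 0) (cstT (T₃ : ℤ)) r a) _
    (fun r => place_mid F h hst (ht T₂) (ht T₃) h32 h21 h31 ha haJ gU₃ gD₂ gD₃ hW r (hHU r).2)
    (fun r => place_quot F h hst (ht T₂) (ht T₃) h32 h21 h31 ha haJ gU₂ gU₃ gD₃ hW r
      (hHU (r + 1)).1 (hHD r).2)
    (fun r => ?_) ?_ ?_
  · obtain ⟨r, rfl⟩ : ∃ r', r = r' + 1 := ⟨r - 1, by ring⟩
    rw [show r + 1 - 1 = r by ring]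
    exact place_sub F h hst (ht T₂) (ht T₃) h32 h21 h31 ha haJ gU₂ gU₃ gD₂ gD₃ hW r
      (hHD (r + 1)).1
  · have := tH_subsingleton y F (cstT 0) (cstT (T₃ : ℤ))
      (r := -((3 * d + 3 : ℕ) : ℤ) - 1 + 1) (Or.inl (by omega))
    exact rkS_subsingleton _ _ _
  · have := tH_subsingleton y F (cstT 0) (cstT (T₃ : ℤ))
      (r := ((3 * d + 3 : ℕ) : ℤ) + 1) (Or.inr (by omega))
    exact rkS_subsingleton _ _ _

end Vale.Agent.P202
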