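import Vale.Agent.P202.InterfacesR2
import Vale.Agent.P202.InterfacesM7S
import Vale.Agent.P202.M7Calc
import Vale.Agent.P202.M7StepMap
import Vale.Agent.P202.Core
import Vale.Agent.P202.HPApp
import Vale.Agent.P202.KoszulMult

/-!
Windows of twisted complexes with a level endomorphism: functoriality, one step of the twist,
walks, and the bounds along walks.
-/

universe u v

namespace Vale.Agent.P202

open IsLocalRing TensorProduct

namespace RW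

section generic

variable {P : Type u} [CommRing P]

theorem fin_of_length {M : Type v} [AddCommGroup M] [Module P M]
    (h : Module.length P M ≠ ⊤) : IsNoetherian P M ∧ IsArtinian P M :=
  isFiniteLength_iff_isNoetherian_isArtinian.mp (Module.length_ne_top_iff.mp h)

theorem reg_subsingleton {M : Type v} [AddCommGroup M] [Module P M] [Subsingleton M]
    (D : M →ₗ[P] M) (i η J : ℕ) : Reg D i η J := fun j _ => by
  simp [len]

theorem rkD_subsingleton {M : Type v} [AddCommGroup M] [Module P M] [Subsingleton M]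
    (D : M →ₗ[P] M) (a : ℕ) : rkD D a = 0 := by
  simp [rkD, len]

/-- The rank bound along an exact place, without regularity. -/
theorem rk_ext {A B C : Type v} [AddCommGroup A] [Module P A] [AddCommGroup B] [Module P B]
    [AddCommGroup C] [Module P C] [IsNoetherian P A] [IsArtinian P A] [IsNoetherian P B]
    [IsArtinian P B] [IsNoetherian P C] [IsArtinian P C] {DA : A →ₗ[P] A} {DB : B →ₗ[P] B}
    {DC : C →ₗ[P] C} {f : A →ₗ[P] B} {g : B →ₗ[P] C} (hf : DB ∘ₗ f = f ∘ₗ DA)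
    (hg : DC ∘ₗ g = g ∘ₗ DB) (hex : Function.Exact f g) (a c : ℕ) {b : ℕ} (hb : a + c ≤ b) :
    rkD DB b ≤ rkD DA a + rkD DC c := by
  have h0 : rkD DB b ≤ rkD DB (a + c) := by
    rw [← M7.rkS_top, ← M7.rkS_top]
    exact M7.rkS_anti DB ⊤ hb
  have h1 := M7.map_le_add (DB ^ a) g (LinearMap.range (DB ^ c))
  have h2 : (LinearMap.range (DB ^ c)).map g ≤ LinearMap.range (DC ^ c) := by
    rintro _ ⟨_, ⟨z, rfl⟩, rfl⟩
    exact ⟨g z, M7.pow_apply_comm hg c z⟩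
  have h3 : (LinearMap.range (DB ^ c) ⊓ LinearMap.ker g).map (DB ^ a) ≤
      (LinearMap.range (DA ^ a)).map f := by
    rintro _ ⟨x, ⟨-, hx⟩, rfl⟩
    obtain ⟨z, rfl⟩ := (hex x).1 hx
    exact ⟨(DA ^ a) z, ⟨z, rfl⟩, (M7.pow_apply_comm hf a z).symm⟩
  have h4 := M7.len_mono h2
  have h5 := (M7.len_mono h3).trans (M7.len_map_le f _)
  have h6 : (LinearMap.range (DB ^ c)).map (DB ^ a) = LinearMap.range (DB ^ (a + c)) := by
    rw [pow_add, Module.End.mul_eq_comp, LinearMap.range_comp]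
  rw [h6] at h1
  simp only [rkD] at h0 ⊢
  omega

end generic

section maps

variable {S : Type*} [CommRing S] {W W' W'' W₃ : Type*} [AddCommGroup W] [Module S W]
  [AddCommGroup W'] [Module S W'] [AddCommGroup W''] [Module S W''] [AddCommGroup W₃] [Module S W₃]
  {d₀ : W →ₗ[S] W} {d₁ : W' →ₗ[S] W'} {d₂ : W'' →ₗ[S] W''} {d₃ : W₃ →ₗ[S] W₃}
  {X Y : ℤ → Submodule S W} {X' Y' : ℤ → Submodule S W'} {X'' Y'' : ℤ → Submodule S W''}
  {X₃ Y₃ : ℤ → Submodule S W₃}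

/-- Composition. -/
theorem hmap_comp (ψ : W' →ₗ[S] W'') (φ : W →ₗ[S] W') (ζ : W →ₗ[S] W'') (e : ∀ v, ψ (φ v) = ζ v)
    (a₁ : ∀ r, ∀ v ∈ X r, φ v ∈ X' r) (a₂ : ∀ r, ∀ v ∈ Y r, φ v ∈ Y' r)
    (a₃ : ∀ r, ∀ v ∈ X r, φ (d₀ v) = d₁ (φ v)) (b₁ : ∀ r, ∀ v ∈ X' r, ψ v ∈ X'' r)
    (b₂ : ∀ r, ∀ v ∈ Y' r, ψ v ∈ Y'' r) (b₃ : ∀ r, ∀ v ∈ X' r, ψ (d₁ v) = d₂ (ψ v))
    (c₁ : ∀ r, ∀ v ∈ X r, ζ v ∈ X'' r) (c₂ : ∀ r, ∀ v ∈ Y r, ζ v ∈ Y'' r)
    (c₃ : ∀ r, ∀ v ∈ X r, ζ (d₀ v) = d₂ (ζ v)) (r : ℤ) :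
    hmap ψ b₁ b₂ b₃ r ∘ₗ hmap φ a₁ a₂ a₃ r = hmap ζ c₁ c₂ c₃ r :=
  LinearMap.ext fun x => by
    obtain ⟨x, rfl⟩ := hmk_surjective _ _ _ _ x
    exact congrArg (hmk _ _ _ _) (Subtype.ext (e x.1))

/-- Commutative squares. -/
theorem hmap_square (φ : W →ₗ[S] W') (ψ : W' →ₗ[S] W'') (φ' : W →ₗ[S] W₃)
    (ψ' : W₃ →ₗ[S] W'') (e : ∀ v, ψ (φ v) = ψ' (φ' v))
    (a₁ : ∀ r, ∀ v ∈ X r, φ v ∈ X' r) (a₂ : ∀ r, ∀ v ∈ Y r, φ v ∈ Y' r)
    (a₃ : ∀ r, ∀ v ∈ X r, φ (d₀ v) = d₁ (φ v)) (b₁ : ∀ r, ∀ v ∈ X' r, ψ v ∈ X'' r)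
    (b₂ : ∀ r, ∀ v ∈ Y' r, ψ v ∈ Y'' r) (b₃ : ∀ r, ∀ v ∈ X' r, ψ (d₁ v) = d₂ (ψ v))
    (a₁' : ∀ r, ∀ v ∈ X r, φ' v ∈ X₃ r) (a₂' : ∀ r, ∀ v ∈ Y r, φ' v ∈ Y₃ r)
    (a₃' : ∀ r, ∀ v ∈ X r, φ' (d₀ v) = d₃ (φ' v)) (b₁' : ∀ r, ∀ v ∈ X₃ r, ψ' v ∈ X'' r)
    (b₂' : ∀ r, ∀ v ∈ Y₃ r, ψ' v ∈ Y'' r) (b₃' : ∀ r, ∀ v ∈ X₃ r, ψ' (d₃ v) = d₂ (ψ' v))
    (r : ℤ) :
    hmap ψ b₁ b₂ b₃ r ∘ₗ hmap φ a₁ a₂ a₃ r = hmap ψ' b₁' b₂' b₃' r ∘ₗ hmap φ' a₁' a₂' a₃' r :=
  LinearMap.ext fun x => by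
    obtain ⟨x, rfl⟩ := hmk_surjective _ _ _ _ x
    exact congrArg (hmk _ _ _ _) (Subtype.ext (e x.1))

/-- The identity. -/
theorem hmap_id (h₁ : ∀ r, ∀ v ∈ X r, LinearMap.id (R := S) v ∈ X r)
    (h₂ : ∀ r, ∀ v ∈ Y r, LinearMap.id (R := S) v ∈ Y r)
    (h₃ : ∀ r, ∀ v ∈ X r, LinearMap.id (R := S) (d₀ v) = d₀ (LinearMap.id (R := S) v)) (r : ℤ) :
    hmap LinearMap.id h₁ h₂ h₃ r = LinearMap.id :=
  LinearMap.ext fun x => by
    obtain ⟨x, rfl⟩ := hmk_surjective _ _ _ _ x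
    rfl

/-- Powers. -/
theorem hmap_pow (φ : W →ₗ[S] W) (h₁ : ∀ r, ∀ v ∈ X r, φ v ∈ X r) (h₂ : ∀ r, ∀ v ∈ Y r, φ v ∈ Y r)
    (h₃ : ∀ r, ∀ v ∈ X r, φ (d₀ v) = d₀ (φ v)) (r : ℤ) :
    ∀ (n : ℕ) (φn : W →ₗ[S] W) (_ : ∀ v, φn v = (φ ^ n) v) (k₁ : ∀ r, ∀ v ∈ X r, φn v ∈ X r)
      (k₂ : ∀ r, ∀ v ∈ Y r, φn v ∈ Y r) (k₃ : ∀ r, ∀ v ∈ X r, φn (d₀ v) = d₀ (φn v)),
      (hmap φ h₁ h₂ h₃ r) ^ n = hmap φn k₁ k₂ k₃ r
  | 0, φn, e, _, _, _ => LinearMap.ext fun x => by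
    obtain ⟨x, rfl⟩ := hmk_surjective _ _ _ _ x
    exact congrArg (hmk _ _ _ _) (Subtype.ext (e x.1).symm)
  | n + 1, φn, e, _, _, _ => by
    have hp : ∀ m, ∀ (Z : ℤ → Submodule S W), (∀ r, ∀ v ∈ Z r, φ v ∈ Z r) →
        ∀ r, ∀ v ∈ Z r, (φ ^ m) v ∈ Z r := by
      intro m Z hZ r v hv
      induction m with
      | zero => exact hv
      | succ m ih => rw [pow_succ', Module.End.mul_apply]; exact hZ r _ ih
    have hc : ∀ m, ∀ r, ∀ v ∈ X r, (φ ^ m) (d₀ v) = d₀ ((φ ^ m) v) := by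
      intro m r v hv
      induction m with
      | zero => rfl
      | succ m ih =>
        rw [pow_succ', Module.End.mul_apply, Module.End.mul_apply, ih,
          h₃ r _ (hp m X h₁ r v hv)]
    rw [pow_succ', Module.End.mul_eq_comp,
      hmap_pow φ h₁ h₂ h₃ r n (φ ^ n) (fun _ => rfl) (hp n X h₁) (hp n Y h₂) (hc n)]
    exact hmap_comp φ (φ ^ n) φn (fun v => by rw [e v, pow_succ']; rfl) _ _ _ _ _ _ _ _ _ r

/-- The connecting map is natural. -/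
theorem hconn_square {O : ℤ → Submodule S W} (φ : W →ₗ[S] W) (hd : d₀ ∘ₗ d₀ = 0)
    (hX : IsStable d₀ X) (h₁ : ∀ r, ∀ v ∈ O r, φ v ∈ O r) (h₂ : ∀ r, ∀ v ∈ X r, φ v ∈ X r)
    (h₂' : ∀ r, ∀ v ∈ Y r, φ v ∈ Y r) (h₃ : ∀ v, φ (d₀ v) = d₀ (φ v)) (r : ℤ) :
    hmap φ h₂ h₂' (fun _ v _ => h₃ v) (r + 1) ∘ₗ hconn (Q := Y) (O := O) hd hX r =
      hconn (Q := Y) (O := O) hd hX r ∘ₗ hmap φ h₁ h₂ (fun _ v _ => h₃ v) r :=
  LinearMap.ext fun x => by
    obtain ⟨x, rfl⟩ := hmk_surjective _ _ _ _ x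
    exact congrArg (hmk _ _ _ _) (Subtype.ext (h₃ x.1))

end maps

section congr

variable {S : Type u} [CommRing S] {W : Type u} [AddCommGroup W] [Module S W] {dd φ : W →ₗ[S] W}
  {X Y X' Y' : ℤ → Submodule S W}

/-- Equal families give the same ranks. -/
theorem hmap_congr_fam (eX : X = X') (eY : Y = Y') (h₁ : ∀ r, ∀ v ∈ X r, φ v ∈ X r)
    (h₂ : ∀ r, ∀ v ∈ Y r, φ v ∈ Y r) (h₁' : ∀ r, ∀ v ∈ X' r, φ v ∈ X' r)
    (h₂' : ∀ r, ∀ v ∈ Y' r, φ v ∈ Y' r) (hc : ∀ r, ∀ v ∈ X r, φ (dd v) = dd (φ v))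
    (hc' : ∀ r, ∀ v ∈ X' r, φ (dd v) = dd (φ v)) (r : ℤ) :
    Module.length S (HMod dd X Y r) = Module.length S (HMod dd X' Y' r) ∧
      (∀ i η J, Reg (hmap (δ := dd) (δ' := dd) φ h₁ h₂ hc r) i η J ↔
        Reg (hmap (δ := dd) (δ' := dd) φ h₁' h₂' hc' r) i η J) ∧
      ∀ a, rkD (hmap (δ := dd) (δ' := dd) φ h₁ h₂ hc r) a =
        rkD (hmap (δ := dd) (δ' := dd) φ h₁' h₂' hc' r) a := by
  subst eX eY
  exact ⟨rfl, fun _ _ _ => Iff.rfl, fun _ => rfl⟩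

end congr

end RW

open RW

section levels

variable {R : Type u} [CommRing R] {A : Type u} [AddCommGroup A] [Module R A]
  {δ g : A →ₗ[R] A} {P Gt : ℤ → Submodule R A}

/-- Powers of level endomorphisms. -/
theorem LevelEnd.pow (h : LevelEnd δ P Gt g) : ∀ a : ℕ, LevelEnd δ P Gt (g ^ a)
  | 0 => ⟨rfl, fun i => by simp [Module.End.one_eq_id],
      fun j => by simp [Module.End.one_eq_id]⟩
  | a + 1 => by
    have ih := h.pow a
    refine ⟨?_, fun i => ?_, fun j => ?_⟩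
    · rw [pow_succ, Module.End.mul_eq_comp, ← LinearMap.comp_assoc, ih.comm, LinearMap.comp_assoc,
        h.comm, LinearMap.comp_assoc]
    · rw [pow_succ, Module.End.mul_eq_comp, Submodule.map_comp]
      exact (Submodule.map_mono (h.deg i)).trans (ih.deg i)
    · rw [pow_succ, Module.End.mul_eq_comp, Submodule.map_comp]
      exact (Submodule.map_mono (h.level j)).trans (ih.level j)

theorem LevelEnd.winMap_pow (h : LevelEnd δ P Gt g) (a b c : ℤ) :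
    ∀ n : ℕ, (h.winMap a b c) ^ n = (h.pow n).winMap a b c
  | 0 => LinearMap.ext fun x => by
    obtain ⟨x, rfl⟩ := hmk_surjective _ _ _ _ x
    rfl
  | n + 1 => LinearMap.ext fun x => by
    obtain ⟨x, rfl⟩ := hmk_surjective _ _ _ _ x
    rw [pow_succ, Module.End.mul_apply, h.winMap_pow a b c n]
    rfl

end levels

section tw

variable {R S : Type u} [CommRing R] [CommRing S] [Algebra R S] {A : Type u} [AddCommGroup A]
  [Module R A] {d : ℕ} {δ g : A →ₗ[R] A} {P Gt : ℤ → Submodule R A}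

/-- The homology of the window from the twist `τ` to the twist `υ`. -/
abbrev tH (y : Fin d → S) (δ : A →ₗ[R] A) (P Gt : ℤ → Submodule R A) (τ υ : ℕ → ℤ) (r : ℤ) :
    Type u :=
  HMod (dT S y δ) (DT S y P Gt τ) (DT S y P Gt υ) r

theorem LevelEnd.tmem (h : LevelEnd δ P Gt g) (y : Fin d → S) (τ : ℕ → ℤ) :
    ∀ r, ∀ v ∈ DT S y P Gt τ r, kmap d (lT S S g) v ∈ DT S y P Gt τ r :=
  fun _ _ hv => kmap_mem_DT g (fun _ => h.deg _) (fun _ => h.level _) hv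

theorem LevelEnd.tcomm (h : LevelEnd δ P Gt g) (y : Fin d → S) (τ : ℕ → ℤ) :
    ∀ r, ∀ v ∈ DT S y P Gt τ r,
      kmap d (lT S S g) (dT S y δ v) = dT S y δ (kmap d (lT S S g) v) :=
  fun _ v _ => (dT_kmap g h.comm v).symm

/-- The action of a level endomorphism on a window. -/
noncomputable def LevelEnd.tD (h : LevelEnd δ P Gt g) (y : Fin d → S) (τ υ : ℕ → ℤ) (r : ℤ) :
    tH y δ P Gt τ υ r →ₗ[S] tH y δ P Gt τ υ r :=
  hmap (δ := dT S y δ) (δ' := dT S y δ) (kmap d (lT S S g)) (h.tmem y τ) (h.tmem y υ)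
    (h.tcomm y τ) r

/-- The map between windows given by the identity. -/
noncomputable def tMap (y : Fin d → S) (δ : A →ₗ[R] A) (P : ℤ → Submodule R A)
    {Gt : ℤ → Submodule R A}
    (hG : Antitone Gt) {τ υ τ' υ' : ℕ → ℤ} (hτ : ∀ l, l ≤ d → τ' l ≤ τ l)
    (hυ : ∀ l, l ≤ d → υ' l ≤ υ l) (r : ℤ) :
    tH y δ P Gt τ υ r →ₗ[S] tH y δ P Gt τ' υ' r :=
  hmap (δ := dT S y δ) (δ' := dT S y δ) LinearMap.id (fun r _ hv => DT_mono y hG hτ r hv)
    (fun r _ hv => DT_mono y hG hυ r hv) (fun _ _ _ => rfl) r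

/-- The connecting map of windows. -/
noncomputable def tConn [Module.Flat R S] {I : Ideal R} {y : Fin d → S}
    (F : FiltSys I d δ P Gt) (τ σ υ : ℕ → ℤ) (r : ℤ) :
    tH y δ P Gt τ σ r →ₗ[S] tH y δ P Gt σ υ (r + 1) :=
  hconn (dT_dT y δ F.sq0) (DT_stable F y σ) r

theorem tMap_tMap (y : Fin d → S) (hG : Antitone Gt) {τ υ τ' υ' τ'' υ'' : ℕ → ℤ}
    (hτ : ∀ l, l ≤ d → τ' l ≤ τ l) (hυ : ∀ l, l ≤ d → υ' l ≤ υ l)
    (hτ' : ∀ l, l ≤ d → τ'' l ≤ τ' l) (hυ' : ∀ l, l ≤ d → υ'' l ≤ υ' l) (r : ℤ) :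
    tMap y δ P hG hτ' hυ' r ∘ₗ tMap y δ P hG hτ hυ r =
      tMap y δ P hG (fun l hl => (hτ' l hl).trans (hτ l hl))
        (fun l hl => (hυ' l hl).trans (hυ l hl)) r :=
  RW.hmap_comp _ _ _ (fun _ => rfl) _ _ _ _ _ _ _ _ _ r

theorem tMap_self (y : Fin d → S) (hG : Antitone Gt) {τ υ : ℕ → ℤ}
    (hτ : ∀ l, l ≤ d → τ l ≤ τ l) (hυ : ∀ l, l ≤ d → υ l ≤ υ l) (r : ℤ) :
    tMap y δ P hG hτ hυ r = LinearMap.id :=
  RW.hmap_id _ _ _ r

theorem LevelEnd.tMap_comm (h : LevelEnd δ P Gt g) (y : Fin d → S) (hG : Antitone Gt)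
    {τ υ τ' υ' : ℕ → ℤ} (hτ : ∀ l, l ≤ d → τ' l ≤ τ l) (hυ : ∀ l, l ≤ d → υ' l ≤ υ l) (r : ℤ) :
    h.tD y τ' υ' r ∘ₗ tMap y δ P hG hτ hυ r = tMap y δ P hG hτ hυ r ∘ₗ h.tD y τ υ r :=
  RW.hmap_square LinearMap.id (kmap d (lT S S g)) (kmap d (lT S S g)) LinearMap.id
    (fun _ => by simp only [LinearMap.id_apply]) (fun r _ hv => DT_mono y hG hτ r hv)
    (fun r _ hv => DT_mono y hG hυ r hv) (fun _ _ _ => by simp only [LinearMap.id_apply])
    (h.tmem y τ') (h.tmem y υ') (h.tcomm y τ') (h.tmem y τ) (h.tmem y υ) (h.tcomm y τ)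
    (fun r _ hv => DT_mono y hG hτ r hv) (fun r _ hv => DT_mono y hG hυ r hv)
    (fun _ _ _ => by simp only [LinearMap.id_apply]) r

theorem LevelEnd.tConn_comm [Module.Flat R S] {I : Ideal R} (h : LevelEnd δ P Gt g)
    (y : Fin d → S) (F : FiltSys I d δ P Gt) (τ σ υ : ℕ → ℤ) (r : ℤ) :
    h.tD y σ υ (r + 1) ∘ₗ tConn (y := y) F τ σ υ r = tConn F τ σ υ r ∘ₗ h.tD y τ σ r :=
  RW.hconn_square _ _ _ (h.tmem y τ) (h.tmem y σ) (h.tmem y υ)
    (fun v => (dT_kmap g h.comm v).symm) r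

theorem LevelEnd.tD_pow (h : LevelEnd δ P Gt g) (y : Fin d → S) (τ υ : ℕ → ℤ) (r : ℤ)
    (n : ℕ) : (h.tD y τ υ r) ^ n = (h.pow n).tD y τ υ r := by
  refine RW.hmap_pow _ _ _ _ r n _ (fun v => ?_) _ _ _
  induction n generalizing v with
  | zero =>
    funext s
    simp [pow_zero, Module.End.one_eq_id, lT_id]
  | succ n ih =>
    rw [pow_succ (kmap d (lT S S g)), Module.End.mul_apply, ← ih]
    funext s
    simp [pow_succ, Module.End.mul_eq_comp, lT_comp_apply]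

theorem tH_subsingleton [Module.Flat R S] {I : Ideal R} (y : Fin d → S) (F : FiltSys I d δ P Gt)
    (τ υ : ℕ → ℤ) {r : ℤ} (hr : r < -((3 * d + 3 : ℕ) : ℤ) + 1 ∨ ((3 * d + 3 : ℕ) : ℤ) < r) :
    Subsingleton (tH y δ P Gt τ υ r) := by
  refine hmod_subsingleton ?_
  intro v hv
  have := hv.1
  rw [DT_eq_bot (B := S) (y := y) F τ le_rfl hr] at this
  rw [(Submodule.mem_bot S).1 this]
  exact zero_mem _

theorem exact_tMap [Module.Flat R S] {I : Ideal R} {y : Fin d → S} (F : FiltSys I d δ P Gt)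
    {τ σ υ : ℕ → ℤ} (h₁ : ∀ l, l ≤ d → τ l ≤ σ l) (h₂ : ∀ l, l ≤ d → σ l ≤ υ l) (r : ℤ) :
    Function.Exact (tMap y δ P F.anti h₁ (fun _ _ => le_refl (υ _)) r)
        (tMap y δ P F.anti (fun _ _ => le_refl (τ _)) h₂ r) ∧
      Function.Exact (tMap y δ P F.anti (fun _ _ => le_refl (τ _)) h₂ r)
        (tConn (y := y) F τ σ υ r) ∧
      Function.Exact (tConn (y := y) F τ σ υ r)
        (tMap y δ P F.anti h₁ (fun _ _ => le_refl (υ _)) (r + 1)) :=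
  ⟨exact_hinc_hproj (DT_mono y F.anti h₂) (DT_mono y F.anti h₁) (dT_dT y δ F.sq0) r,
    exact_hproj_hconn (DT_mono y F.anti h₂) (DT_mono y F.anti h₁) (dT_dT y δ F.sq0)
      (DT_stable F y σ) r,
    exact_hconn_hinc (DT_mono y F.anti h₁) (dT_dT y δ F.sq0) (DT_stable F y σ)
      (DT_mono y F.anti h₂) r⟩

end tw

/-- The length of the Koszul homology of the fibre. -/
noncomputable def fibRk (R : Type u) {S : Type u} [CommRing R] [IsLocalRing R] [CommRing S]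
    [Algebra R S] {d : ℕ} (y : Fin d → S) (p : ℕ) : ℕ :=
  (khlen y (S ⊗[R] ResidueField R) p).toNat

/-- The sum of these lengths. -/
noncomputable def fibSum (R : Type u) {S : Type u} [CommRing R] [IsLocalRing R] [CommRing S]
    [Algebra R S] {d : ℕ} (y : Fin d → S) : ℕ :=
  ∑ p ∈ Finset.range (d + 1), fibRk R y p

theorem hpHyp_self {R S : Type u} [CommRing R] [IsLocalRing R] [IsNoetherianRing R] [CommRing S]
    [IsLocalRing S] [IsNoetherianRing S] [Algebra R S] {d : ℕ} {y : Fin d → S} (hy : Par y) :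
    HPHyp S y (maximalIdeal R) (fibRk R y) := by
  have hex : ∀ (U V W : Type u) [AddCommGroup U] [Module R U] [AddCommGroup V] [Module R V]
      [AddCommGroup W] [Module R W] (f : U →ₗ[R] V) (g : V →ₗ[R] W),
      KilledBy (maximalIdeal R) U → KilledBy (maximalIdeal R) V → KilledBy (maximalIdeal R) W →
      Function.Injective f → Function.Exact f g → Function.Surjective g → ∀ p,
      hp S y U p ⊓ LinearMap.ker (hpMap S y p f) = ⊥ ∧
      hp S y V p ⊓ LinearMap.ker (hpMap S y p g) ≤ (hp S y U p).map (hpMap S y p f) ∧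
      hp S y W p ≤ (hp S y V p).map (hpMap S y p g) := by
    intro U V W _ _ _ _ _ _ f g hU hV _ hf he hg p
    obtain ⟨r, t, hr, ht, hid⟩ := exists_split hU hV f g hf he hg
    exact hp_exact_of_split f g r t hr ht hid
  refine ⟨hex, fun V _ _ hV hfin p => ?_⟩
  refine khlen_eq_mul_length hex (fibRk R y) (fun V _ _ _ hs p => ?_) V hV hfin p
  obtain ⟨m, hm, ⟨e⟩⟩ := isSimpleModule_iff_quot_maximal.1 hs
  obtain rfl := eq_maximalIdeal hm
  rw [fibRk, ENat.coe_toNat (goalKoszulFinite S (S ⊗[R] ResidueField R) d y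
    (hy.finiteLength _) p)]
  exact khlen_congr y (AlgebraTensorModule.congr (LinearEquiv.refl S S) e) p

/-- A walk of elementary changes of the twist from `υ` down to `τ`. -/
inductive Walk (d : ℕ) : (ℕ → ℤ) → (ℕ → ℤ) → List (ℕ × ℤ) → Prop
  | refl (τ υ : ℕ → ℤ) : (∀ l, l ≤ d → τ l = υ l) → Walk d τ υ []
  | step (τ τ₀ σ υ : ℕ → ℤ) (p : ℕ) (j : ℤ) (L : List (ℕ × ℤ)) : Walk d σ υ L →
      TwistStep d σ τ₀ p j → (∀ l, l ≤ d → τ l = τ₀ l) → Walk d τ υ (L ++ [(p, j)])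

theorem Walk.le {d : ℕ} {τ υ : ℕ → ℤ} {L : List (ℕ × ℤ)} (h : Walk d τ υ L) :
    ∀ l, l ≤ d → τ l ≤ υ l := by
  induction h with
  | refl τ υ he => exact fun l hl => (he l hl).le
  | step τ τ₀ σ υ p j L _ hs he ih =>
    intro l hl
    rw [he l hl]
    refine le_trans ?_ (ih l hl)
    by_cases hp : l = p
    · subst hp; rw [hs.at_p, hs.at_p']; omega
    · rw [hs.other l hp]

theorem Walk.congr_left {d : ℕ} {τ τ' υ : ℕ → ℤ} {L : List (ℕ × ℤ)} (h : Walk d τ υ L)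
    (e : ∀ l, l ≤ d → τ' l = τ l) : Walk d τ' υ L := by
  cases h with
  | refl _ _ he => exact Walk.refl _ _ fun l hl => (e l hl).trans (he l hl)
  | step _ τ₀ σ _ p j L hw hs he =>
    exact Walk.step _ τ₀ σ _ p j L hw hs fun l hl => (e l hl).trans (he l hl)

theorem Walk.trans {d : ℕ} {τ σ υ : ℕ → ℤ} {L L' : List (ℕ × ℤ)} (h' : Walk d τ σ L')
    (h : Walk d σ υ L) : Walk d τ υ (L ++ L') := by
  induction h' with
  | refl τ σ he => rw [List.append_nil]; exact h.congr_left he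
  | step τ τ₀ ρ σ p j L' _ hs he ih =>
    rw [← List.append_assoc]
    exact Walk.step τ τ₀ ρ υ p j _ (ih h) hs he

theorem Walk.of_chain {d : ℕ} (X : ℕ → ℕ → ℤ) (p : ℕ → ℕ) (j : ℕ → ℤ) :
    ∀ K : ℕ, (∀ k < K, TwistStep d (X k) (X (k + 1)) (p k) (j k)) →
      Walk d (X K) (X 0) ((List.range K).map fun k => (p k, j k))
  | 0, _ => Walk.refl _ _ fun _ _ => rfl
  | K + 1, h => by
    rw [List.range_succ, List.map_append, List.map_cons, List.map_nil]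
    exact Walk.step _ (X (K + 1)) (X K) _ _ _ _
      (Walk.of_chain X p j K fun k hk => h k (by omega)) (h K (by omega)) fun _ _ => rfl

section blocks

variable {R S : Type u} [CommRing R] [IsLocalRing R] [CommRing S] [Algebra R S] {d : ℕ}
  {x : Fin d → R} {e : ℝ} {C H J Z η : ℕ} (D : RankSys (S := S) x e C H J Z η)

theorem blk_subsingleton {j : ℤ} (hj : j < -(H : ℤ) ∨ (H : ℤ) ≤ j) (r : ℤ) :
    Subsingleton (winH D.δ D.P D.Gt j (j + 1) r) := by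
  refine hmod_subsingleton (le_trans inf_le_left (le_trans ?_ le_sup_right))
  rcases hj with hj | hj
  · show D.Gt j ⊓ D.P r ≤ D.Gt (j + 1) ⊓ D.P r
    rw [D.bottom j (by omega), D.bottom (j + 1) (by omega)]
  · show D.Gt j ⊓ D.P r ≤ D.Gt (j + 1) ⊓ D.P r
    have h : D.Gt j = ⊥ := le_bot_iff.1 (D.top ▸ D.filt.anti hj)
    rw [h, bot_inf_eq]
    exact bot_le

theorem blk_reg_all (j r : ℤ) : Reg (D.dl.winMap j (j + 1) r) 2 η J := by
  by_cases h : -(H : ℤ) ≤ j ∧ j < H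
  · exact D.blk_reg j r h.1 h.2
  · haveI := blk_subsingleton D (j := j) (by omega) r
    exact reg_subsingleton _ _ _ _

theorem blk_out_all {j r : ℤ} (h : ¬ InExpected d j r) : rkD (D.dl.winMap j (j + 1) r) 2 ≤ η := by
  by_cases hj : -(H : ℤ) ≤ j ∧ j < H
  · exact D.blk_out j r hj.1 hj.2 h
  · haveI := blk_subsingleton D (j := j) (by omega) r
    rw [rkD_subsingleton]
    omega

variable [IsNoetherianRing R] [IsLocalRing S] [IsNoetherianRing S]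
  [IsLocalHom (algebraMap R S)] [Module.Flat R S] {y : Fin d → S} (hy : Par y)

include hy

theorem step_length {τ τ' : ℕ → ℤ} {p : ℕ} {j : ℤ} (hs : TwistStep d τ τ' p j) (r : ℤ) :
    Module.length S (tH y D.δ D.P D.Gt τ' τ r) ≠ ⊤ :=
  hlen_step_ne_top (B := S) D.filt (hpHyp_self hy) (fun j i => D.blk_finite j i) hs r

/-- The rank on one step. -/
theorem step_rk {τ τ' : ℕ → ℤ} {p : ℕ} {j : ℤ} (hs : TwistStep d τ τ' p j) (r : ℤ) (a : ℕ) :
    rkD (D.dl.tD y τ' τ r) a =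
      fibRk R y p * rkD (D.dl.winMap j (j + 1) (r + p)) a := by
  rw [rkD, rkD, D.dl.tD_pow, D.dl.winMap_pow]
  have h := goalStepMap R S S D.A D.A d y (maximalIdeal R) (fibRk R y) D.δ D.P D.Gt D.δ D.P D.Gt
    D.filt D.filt (hpHyp_self hy) (D.Dl ^ a) (D.dl.pow a).comm (D.dl.pow a).deg
    (D.dl.pow a).level τ τ' p j hs r (D.blk_finite j (r + p)) (D.blk_finite j (r + p))
    ((D.dl.pow a).tmem y τ') ((D.dl.pow a).tmem y τ) ((D.dl.pow a).tcomm y τ')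
    ((D.dl.pow a).mem j) ((D.dl.pow a).mem (j + 1))
    (fun _ v _ => (LinearMap.congr_fun (D.dl.pow a).comm v).symm)
  exact (congrArg ENat.toNat h).trans (by rw [ENat.toNat_mul, ENat.toNat_coe]; rfl)

omit hy in
theorem fibRk_le {p : ℕ} (hp : p ≤ d) : fibRk R y p ≤ fibSum R y :=
  Finset.single_le_sum (f := fibRk R y) (fun _ _ => Nat.zero_le _) (Finset.mem_range.2 (by omega))

theorem step_reg {τ τ' : ℕ → ℤ} {p : ℕ} {j : ℤ} (hs : TwistStep d τ τ' p j) (r : ℤ) :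
    Reg (D.dl.tD y τ' τ r) 2 (fibSum R y * η) J := by
  obtain ⟨_, _⟩ := fin_of_length (step_length D hy hs r)
  obtain ⟨_, _⟩ := fin_of_length (D.blk_finite j (r + p))
  refine ((goalRegRank S _ _ 2 _ J).1).2 ?_
  have h := ((goalRegRank R _ _ 2 η J).1).1 (blk_reg_all D j (r + p))
  rw [step_rk D hy hs, step_rk D hy hs]
  have h1 := Nat.mul_le_mul_left (fibRk R y p) h
  have h2 := Nat.mul_le_mul_right η (fibRk_le (R := R) (y := y) hs.le)
  rw [Nat.mul_add] at h1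
  omega

theorem step_out {τ τ' : ℕ → ℤ} {p : ℕ} {j : ℤ} (hs : TwistStep d τ τ' p j) (r : ℤ)
    (h : ¬ InExpected d j (r + p)) : rkD (D.dl.tD y τ' τ r) 2 ≤ fibSum R y * η := by
  rw [step_rk D hy hs]
  exact Nat.mul_le_mul (fibRk_le hs.le) (blk_out_all D h)

/-- The window of a walk: finite length, and regular. -/
theorem walk_reg {τ υ : ℕ → ℤ} {L : List (ℕ × ℤ)} (hw : Walk d τ υ L) (r : ℤ) :
    Module.length S (tH y D.δ D.P D.Gt τ υ r) ≠ ⊤ ∧ ∀ J', J' + 2 * L.length ≤ J →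
      Reg (D.dl.tD y τ υ r) (2 * L.length) (L.length * (fibSum R y * η)) J' := by
  induction hw generalizing r with
  | refl τ υ he =>
    haveI : Subsingleton (tH y D.δ D.P D.Gt τ υ r) := by
      refine hmod_subsingleton (le_trans inf_le_left (le_trans ?_ le_sup_right))
      rw [DT_congr (B := S) (y := y) D.filt he]
    exact ⟨by rw [Module.length_eq_zero]; exact ENat.zero_ne_top,
      fun _ _ => reg_subsingleton _ _ _ _⟩
  | step τ τ₀ σ υ p j L hw hs he ih =>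
    have hστ : ∀ l, l ≤ d → τ l ≤ σ l :=
      (Walk.step τ τ₀ σ σ p j [] (Walk.refl σ σ fun _ _ => rfl) hs he).le
    have eT : DT S y D.P D.Gt τ = DT S y D.P D.Gt τ₀ := DT_congr (B := S) D.filt he
    obtain ⟨e1, e2, -⟩ := hmap_congr_fam (dd := dT S y D.δ) (φ := kmap d (lT S S D.Dl)) eT
      (rfl : DT S y D.P D.Gt σ = _) (D.dl.tmem y τ) (D.dl.tmem y σ) (D.dl.tmem y τ₀)
      (D.dl.tmem y σ) (D.dl.tcomm y τ) (D.dl.tcomm y τ₀) r
    have hC : Module.length S (tH y D.δ D.P D.Gt τ σ r) ≠ ⊤ := by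
      rw [e1]; exact step_length D hy hs r
    have hA := (ih r).1
    have hB : Module.length S (tH y D.δ D.P D.Gt τ υ r) ≠ ⊤ :=
      ne_top_of_le_ne_top (WithTop.add_ne_top.2 ⟨hA, hC⟩)
        (hlen_mid_le (dT_dT y D.δ D.filt.sq0) (DT_stable D.filt y σ) (DT_stable D.filt y υ)
          (DT_stable D.filt y τ) (DT_mono y D.filt.anti hw.le) (DT_mono y D.filt.anti hστ) r)
    refine ⟨hB, fun J' hJ' => ?_⟩
    simp only [List.length_append, List.length_singleton] at hJ' ⊢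
    obtain ⟨_, _⟩ := fin_of_length hA
    obtain ⟨_, _⟩ := fin_of_length hB
    obtain ⟨_, _⟩ := fin_of_length hC
    have h1 : Reg (D.dl.tD y τ σ r) 2 (fibSum R y * η) (J' + 2 * L.length) := by
      have := (goalRegRank S _ _ 2 (fibSum R y * η) J).2 2 (fibSum R y * η) (J' + 2 * L.length)
        le_rfl le_rfl (by omega) ((e2 _ _ _).2 (step_reg D hy hs r))
      exact this
    have h := goalRegExt S _ _ _ (D.dl.tD y σ υ r) (D.dl.tD y τ υ r) (D.dl.tD y τ σ r) _ _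
      (2 * L.length) 2 _ _ J' (D.dl.tMap_comm y D.filt.anti hστ (fun _ _ => le_rfl) r)
      (D.dl.tMap_comm y D.filt.anti (fun _ _ => le_rfl) hw.le r)
      (exact_tMap D.filt hστ hw.le r).1 ((ih r).2 J' (by omega)) h1
    rw [show 2 * (L.length + 1) = 2 * L.length + 2 by ring,
      show (L.length + 1) * (fibSum R y * η) = L.length * (fibSum R y * η) + fibSum R y * η by
        ring]
    exact h

/-- The window of a walk through unexpected degrees has small rank. -/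
theorem walk_out {τ υ : ℕ → ℤ} {L : List (ℕ × ℤ)} (hw : Walk d τ υ L) (r : ℤ)
    (h : ∀ q ∈ L, ¬ InExpected d q.2 (r + q.1)) :
    rkD (D.dl.tD y τ υ r) (2 * L.length) ≤ L.length * (fibSum R y * η) := by
  induction hw with
  | refl τ υ he =>
    haveI : Subsingleton (tH y D.δ D.P D.Gt τ υ r) := by
      refine hmod_subsingleton (le_trans inf_le_left (le_trans ?_ le_sup_right))
      rw [DT_congr (B := S) (y := y) D.filt he]
    rw [rkD_subsingleton]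
    omega
  | step τ τ₀ σ υ p j L hw hs he ih =>
    have hw1 := Walk.step τ τ₀ σ σ p j [] (Walk.refl σ σ fun _ _ => rfl) hs he
    obtain ⟨_, _⟩ := fin_of_length (walk_reg D hy hw r).1
    obtain ⟨_, _⟩ := fin_of_length (walk_reg D hy hw1 r).1
    obtain ⟨_, _⟩ := fin_of_length (walk_reg D hy (Walk.step τ τ₀ σ υ p j L hw hs he) r).1
    have eT : DT S y D.P D.Gt τ = DT S y D.P D.Gt τ₀ := DT_congr (B := S) D.filt he
    obtain ⟨-, -, e3⟩ := hmap_congr_fam (dd := dT S y D.δ) (φ := kmap d (lT S S D.Dl)) eT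
      (rfl : DT S y D.P D.Gt σ = _) (D.dl.tmem y τ) (D.dl.tmem y σ) (D.dl.tmem y τ₀)
      (D.dl.tmem y σ) (D.dl.tcomm y τ) (D.dl.tcomm y τ₀) r
    have h2 : rkD (D.dl.tD y τ σ r) 2 ≤ fibSum R y * η :=
      (e3 2).trans_le (step_out D hy hs r (h (p, j) (by simp)))
    have h1 := ih fun q hq => h q (List.mem_append_left _ hq)
    have h3 := rk_ext (D.dl.tMap_comm y D.filt.anti hw1.le (fun _ _ => le_rfl) r)
      (D.dl.tMap_comm y D.filt.anti (fun _ _ => le_rfl) hw.le r)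
      (exact_tMap D.filt hw1.le hw.le r).1 (2 * L.length) 2 (le_refl _)
    simp only [List.length_append, List.length_singleton]
    rw [show 2 * (L.length + 1) = 2 * L.length + 2 by ring,
      show (L.length + 1) * (fibSum R y * η) = L.length * (fibSum R y * η) + fibSum R y * η by ring]
    omega

end blocks

end Vale.Agent.P202
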