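import Vale.Agent.P202.RGhost

/-!
R1: stability and the lower bound for the Euler characteristic, from the staircase and triangle
statements of `InterfacesR3`.
-/

universe u

namespace Vale.Agent.P202

open IsLocalRing TensorProduct

theorem chiSum_ge (d : ℕ) (f : ℤ → ℕ) (E : ℕ) (h : ∀ r, r ≠ 0 → f r ≤ E) :
    -(((6 * d + 7) * E : ℕ) : ℤ) ≤ chiSum d f := by
  have h1 : ∀ r ∈ Finset.Icc (-((3 * d + 3 : ℕ) : ℤ)) (3 * d + 3 : ℕ),
      -(E : ℤ) ≤ sgn r * (f r : ℤ) := by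
    intro r _
    by_cases hr : r = 0
    · subst hr
      simp only [sgn, Int.negOnePow_zero, Units.val_one, one_mul]
      omega
    · have := h r hr
      rcases Int.units_eq_one_or (Int.negOnePow r) with h' | h' <;> simp only [sgn, h'] <;>
        push_cast <;> omega
  refine le_trans (le_of_eq ?_) (Finset.sum_le_sum h1)
  rw [Finset.sum_const, Int.card_Icc, nsmul_eq_mul,
    show (((3 * d + 3 : ℕ) : ℤ) + 1 - -((3 * d + 3 : ℕ) : ℤ)).toNat = 6 * d + 7 by omega]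
  push_cast
  ring

theorem chiSum_le_fin (d : ℕ) (f : ℤ → ℕ) (E : ℕ)
    (h : ∀ r : ℤ, r < -(d : ℤ) ∨ 0 < r → f r ≤ E) :
    chiSum d f ≤ ∑ p ∈ Finset.range (d + 1), (-1 : ℤ) ^ p * (f (-(p : ℤ)) : ℤ) +
      (((6 * d + 7) * E : ℕ) : ℤ) := by
  classical
  set I := Finset.Icc (-((3 * d + 3 : ℕ) : ℤ)) (3 * d + 3 : ℕ)
  have hsub : (Finset.range (d + 1)).image (fun p : ℕ => -(p : ℤ)) ⊆ I := by
    intro r hr
    obtain ⟨p, hp, rfl⟩ := Finset.mem_image.1 hr
    rw [Finset.mem_range] at hp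
    simp only [I, Finset.mem_Icc]
    omega
  rw [chiSum, ← Finset.sum_sdiff hsub, add_comm, Finset.sum_image (fun a _ b _ hab => by omega)]
  refine add_le_add (le_of_eq (Finset.sum_congr rfl fun p _ => ?_)) ?_
  · rw [sgn, Int.negOnePow_neg]
    exact congrArg (· * _) (sgn_natCast p)
  · refine (Finset.sum_le_card_nsmul _ _ (E : ℤ) fun r hr => ?_).trans ?_
    · rw [Finset.mem_sdiff] at hr
      have := h r (by
        by_contra hc
        exact hr.2 (Finset.mem_image.2 ⟨(-r).toNat, Finset.mem_range.2 (by omega), by omega⟩))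
      rcases Int.units_eq_one_or (Int.negOnePow r) with h' | h' <;> simp only [sgn, h'] <;>
        push_cast <;> omega
    · rw [nsmul_eq_mul]
      push_cast
      refine mul_le_mul_of_nonneg_right ?_ (Int.natCast_nonneg E)
      have h1 := Finset.card_le_card
        (Finset.sdiff_subset (s := I) (t := (Finset.range (d + 1)).image fun p : ℕ => -(p : ℤ)))
      simp only [I, Int.card_Icc] at h1 ⊢
      omega

section

variable {R S : Type u} [CommRing R] [IsLocalRing R] [IsNoetherianRing R] [CommRing S]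
  [IsLocalRing S] [IsNoetherianRing S] [Algebra R S] [Module.Flat R S]
  [IsLocalHom (algebraMap R S)] {d : ℕ} {x : Fin d → R} {e : ℝ} {C H J Z η : ℕ}
  (D : RankSys (S := S) x e C H J Z η) {y : Fin d → S}

theorem tRk_le (τ : ℕ → ℤ) {T T' : ℤ} (hT : T ≤ T') (r : ℤ) (a : ℕ)
    (hfin : Module.length S (tH y D.δ D.P D.Gt τ (cstT T) r) ≠ ⊤) :
    tRk D.dl y D.filt.anti τ hT r a ≤ rkD (D.dl.tD y τ (cstT T) r) a := by
  obtain ⟨_, _⟩ := RW.fin_of_length hfin
  rw [← M7.rkS_top]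
  exact M7.rkS_mono _ le_top a

variable (hy : Par y) {N : ℕ} (hN : ∀ l, algebraMap R S (x l) ^ N ∈ Ideal.span (Set.range y))

include hy hN

/-- Stability in the tops. -/
theorem top_stable {τ : ℕ → ℤ} (hτ : τ = cstT 0 ∨ τ = shfT 0) {T₃ T₂ T₁ : ℕ} (hM : d * N ≤ T₃)
    (h₂ : T₃ ≤ T₂) (h₁ : T₂ ≤ T₁) (h23 : T₃ + d * N ≤ T₂) (h12 : T₂ + d * N ≤ T₁)
    (hH : T₁ + d * N ≤ H) (r : ℤ) {a : ℕ} (ha : 2 * walkBd d H ≤ a)
    (haJ : d + 1 + 2 * walkBd d H ≤ J) :
    tRk D.dl y D.filt.anti τ (Int.ofNat_le.2 h₁) r a ≤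
        tRk D.dl y D.filt.anti τ (Int.ofNat_le.2 (h₂.trans h₁)) r a +
          walkBd d H * (fibSum R y * η) ∧
      tRk D.dl y D.filt.anti τ (Int.ofNat_le.2 h₂) r a ≤
        tRk D.dl y D.filt.anti τ (Int.ofNat_le.2 (h₂.trans h₁)) r a +
          walkBd d H * (fibSum R y * η) := by
  have hτ0 : ∀ l, τ l ≤ 0 := fun l => by rcases hτ with rfl | rfl <;> simp [cstT, shfT]
  obtain ⟨f2, g2⟩ := top_reg D hy (T := T₂) (by omega) hτ r
  obtain ⟨f3, g3⟩ := top_reg D hy (T := T₃) (by omega) hτ r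
  have g2' := g2 (d + 1) haJ
  have g3' := g3 (d + 1) haJ
  obtain ⟨_, _⟩ := RW.fin_of_length f2
  obtain ⟨_, _⟩ := RW.fin_of_length f3
  set t := tMap y D.δ D.P D.filt.anti (fun l (_ : l ≤ d) => le_refl (τ l))
    (cstT_le_cstT (Int.ofNat_le.2 h₁) d) r with ht
  set s := tMap y D.δ D.P D.filt.anti (fun l (_ : l ≤ d) => le_refl (τ l))
    (cstT_le_cstT (Int.ofNat_le.2 h₂) d) r with hs
  have hst : tMap y D.δ D.P D.filt.anti (fun l (_ : l ≤ d) => le_refl (τ l))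
      (cstT_le_cstT (Int.ofNat_le.2 (h₂.trans h₁)) d) r = s ∘ₗ t :=
    (tMap_tMap y D.filt.anti _ _ _ _ r).symm
  constructor
  · unfold tRk
    rw [hst, LinearMap.range_comp, rkS, rkS]
    rw [M7.map_comm (D.dl.tMap_comm y D.filt.anti _ _ r) (LinearMap.range t) a]
    have h1 := M7.len_split s ((LinearMap.range t).map (D.dl.tD y τ (cstT (T₂ : ℤ)) r ^ a))
    have h2 : (LinearMap.range t).map (D.dl.tD y τ (cstT (T₂ : ℤ)) r ^ a) ⊓ LinearMap.ker s ≤
        LinearMap.ker (D.dl.tD y τ (cstT (T₂ : ℤ)) r ^ (d + 1)) ⊓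
          LinearMap.range (D.dl.tD y τ (cstT (T₂ : ℤ)) r ^ (2 * walkBd d H)) := by
      rintro z ⟨⟨_, ⟨u, rfl⟩, rfl⟩, hz⟩
      refine ⟨ghost_kill D hN hτ0 hM h₂ h₁ h12 (by omega) r _ ?_ hz,
        M7.range_pow_anti _ ha ⟨_, rfl⟩⟩
      rw [M7.pow_apply_comm (D.dl.tMap_comm y D.filt.anti _ _ r)]
      exact ⟨_, rfl⟩
    have h3 := (M7.len_mono h2).trans (g2' (d + 1) le_rfl)
    exact h1.trans_le (Nat.add_le_add_left h3 _)
  · have h1 : rkS (D.dl.tD y τ (cstT (T₃ : ℤ)) r) (LinearMap.range s) a ≤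
        rkS (D.dl.tD y τ (cstT (T₃ : ℤ)) r) (LinearMap.range s) (a + (d + 1)) +
          walkBd d H * (fibSum R y * η) :=
      M7.drop (i := 2 * walkBd d H) (η := walkBd d H * (fibSum R y * η)) (J := d + 1) g3' _ ha
        (Nat.le_add_right a (d + 1)) (le_of_eq (Nat.add_sub_cancel_left a (d + 1)))
    unfold tRk
    refine h1.trans (Nat.add_le_add_right ?_ _)
    rw [rkS, rkS, ← M7.map_pow_add]
    refine M7.len_mono (Submodule.map_mono ?_)
    rintro _ ⟨z, hz, rfl⟩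
    exact ghost_lift D hN hτ0 (by omega) h₂ h23 h₁ hH r z hz

omit hN in
/-- The windows `[0, T)` are small outside the degrees `-d .. 0`. -/
theorem const_small (hd0 : 0 < d) {T : ℕ} (hT : T ≤ H) {r : ℤ} (hr : r < -(d : ℤ) ∨ 0 < r) {a : ℕ}
    (ha : 2 * walkBd d H ≤ a) :
    rkD (D.dl.tD y (cstT 0) (cstT (T : ℤ)) r) a ≤ walkBd d H * (fibSum R y * η) := by
  obtain ⟨L, hL, hlen, hmem⟩ := exists_walk_const d T 0
  rw [zero_add] at hL hmem
  have hm : T * (d + 1) ≤ H * (d + 1) := Nat.mul_le_mul_right _ hT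
  refine win_out D hy hL (by simp only [walkBd]; omega) r (fun q hq => ?_) ha
  obtain ⟨h1, h2, h3⟩ := hmem q hq
  simp only [InExpected]
  omega

omit hN in
/-- The staircase window is small in the degrees `≥ 0`. -/
theorem stair_small (hd0 : 0 < d) {r : ℤ} (hr : 0 ≤ r) {a : ℕ} (ha : 2 * walkBd d H ≤ a) :
    rkD (D.dl.tD y (shfT 0) (cstT 0) r) a ≤ walkBd d H * (fibSum R y * η) := by
  obtain ⟨L, hL, hlen, hmem⟩ := exists_walk_stair d
  refine win_out D hy hL (by simp only [walkBd]; omega) r (fun q hq => ?_) ha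
  obtain ⟨h1, h2, h3⟩ := hmem q hq
  simp only [InExpected]
  omega

/-- The stabilised twisted window is small in the degrees `≠ 0`. -/
theorem shift_small (hd0 : 0 < d) {T₃ T₁ : ℕ} (h : T₃ ≤ T₁) (h' : T₃ + d * N ≤ T₁) (hH : T₁ ≤ H)
    (hd : d + d * N ≤ H) {r : ℤ} (hr : r ≠ 0) {a : ℕ} (ha : 4 * walkBd d H + d + 1 ≤ a) :
    tRk D.dl y D.filt.anti (shfT 0) (Int.ofNat_le.2 h) r a ≤
      2 * (walkBd d H * (fibSum R y * η)) := by
  obtain ⟨f3, -⟩ := top_reg D hy (T := T₃) (by omega) (τ := shfT 0) (Or.inr rfl) r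
  obtain ⟨_, _⟩ := RW.fin_of_length f3
  by_cases hpos : 0 < r
  · refine (tRk_le D _ _ r a f3).trans ?_
    obtain ⟨fU, -⟩ := top_reg D hy (T := T₃) (by omega) (τ := cstT 0) (Or.inl rfl) r
    obtain ⟨L, hL, hlen, -⟩ := exists_walk_stair d
    obtain ⟨fW, -⟩ := walk_reg D hy hL r
    obtain ⟨_, _⟩ := RW.fin_of_length fU
    obtain ⟨_, _⟩ := RW.fin_of_length fW
    have hle : ∀ l, l ≤ d → shfT 0 l ≤ cstT 0 l := fun l _ => shfT_le_cstT 0 l
    have hle' : ∀ l, l ≤ d → cstT 0 l ≤ cstT (T₃ : ℤ) l := cstT_le_cstT (by omega) d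
    have h1 := RW.rk_ext (D.dl.tMap_comm y D.filt.anti hle (fun _ _ => le_rfl) r)
      (D.dl.tMap_comm y D.filt.anti (fun _ _ => le_rfl) hle' r)
      (exact_tMap D.filt hle hle' r).1 (2 * walkBd d H) (2 * walkBd d H) (b := a) (by omega)
    have h2 := const_small D hy hd0 (T := T₃) (by omega) (Or.inr hpos)
      (le_refl (2 * walkBd d H))
    have h3 := stair_small D hy hd0 hpos.le (le_refl (2 * walkBd d H))
    omega
  · obtain ⟨r', rfl⟩ : ∃ r', r = r' + 1 := ⟨r - 1, by ring⟩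
    obtain ⟨L, hL, hlen, hmem⟩ := exists_walk_shift d (d * N) (-((d * N : ℕ) : ℤ))
    rw [neg_add_cancel] at hL hmem
    have hm : d * N * (d + 1) ≤ H * (d + 1) := Nat.mul_le_mul_right _ (by omega)
    have hsmall : rkD (D.dl.tD y (shfT (-((d * N : ℕ) : ℤ))) (shfT 0) r') (a - (d + 1)) ≤
        walkBd d H * (fibSum R y * η) := by
      refine win_out D hy hL (by simp only [walkBd]; omega) r' (fun q hq => ?_) (by omega)
      obtain ⟨h1, h2, h3⟩ := hmem q hq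
      simp only [InExpected]
      omega
    obtain ⟨_, _⟩ := RW.fin_of_length (walk_reg D hy hL r').1
    refine le_trans ?_ ((hsmall.trans (Nat.le_add_right _ _)).trans_eq (two_mul _).symm)
    refine le_trans ?_ (M7.len_map_le (tConn (y := y) D.filt (shfT (-((d * N : ℕ) : ℤ))) (shfT 0)
      (cstT (T₃ : ℤ)) r') (LinearMap.range (D.dl.tD y (shfT (-((d * N : ℕ) : ℤ))) (shfT 0) r' ^
        (a - (d + 1)))))
    rw [← M7.rkS_range (D.dl.tConn_comm y D.filt _ _ _ r')]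
    show len S _ ≤ len S _
    conv_lhs => rw [show a = a - (d + 1) + (d + 1) by omega]
    rw [← M7.map_pow_add]
    refine M7.len_mono (Submodule.map_mono ?_)
    rintro _ ⟨z, hz, rfl⟩
    exact ghost_conn D hN h h' hH hd r' z hz

end

/-- R1, from the staircase and the triangle. -/
theorem goalRankWindow_of (hst : GoalStairChi.{u}) (htri : GoalTriangleChi.{u}) :
    GoalRankWindow.{u} := by
  intro R S _ _ _ _ _ _ _ _ _ d hd0 hR hS x y hy N H hN
  by_cases hdH : d ≤ H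
  swap
  · exact ⟨0, 0, 0, fun e C J Z η D T₃ T₂ T₁ _ _ _ _ _ hH => absurd hH (by omega)⟩
  obtain ⟨K₀, a₀, hK₀⟩ := hst R S d hd0 hR hS x y hy H hdH
  set B := walkBd d H with hB
  set β := fibSum R y with hβ
  refine ⟨3 * (6 * d + 8) * (3 * (B * β) + 2 * (B * β)) + (6 * d + 7) * (2 * (B * β)) +
      (6 * d + 7) * (B * β) + K₀ + B * β,
    max (4 * B + d + 1) a₀, max (4 * B + d + 1) a₀,
    fun e C J Z η D T₃ T₂ T₁ h₂ h₁ hM h23 h12 hH a ha haJ => ?_⟩
  have hη : B * (β * η) = B * β * η := (Nat.mul_assoc _ _ _).symm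
  have hstab : ∀ τ, (τ = cstT 0 ∨ τ = shfT 0) → ∀ r,
      tRk D.dl y D.filt.anti τ (Int.ofNat_le.2 h₁) r a ≤
          tRk D.dl y D.filt.anti τ (Int.ofNat_le.2 (h₂.trans h₁)) r a + B * β * η ∧
        tRk D.dl y D.filt.anti τ (Int.ofNat_le.2 h₂) r a ≤
          tRk D.dl y D.filt.anti τ (Int.ofNat_le.2 (h₂.trans h₁)) r a + B * β * η := by
    intro τ hτ r
    rw [← hη]
    exact top_stable D hy hN hτ (by omega) h₂ h₁ (by omega) (by omega) (by omega) r (by omega)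
      (by omega)
  refine ⟨fun p _ => ?_, ?_⟩
  · obtain ⟨k1, k2⟩ := hstab (cstT 0) (Or.inl rfl) (-(p : ℤ))
    have hK : B * β * η ≤ (3 * (6 * d + 8) * (3 * (B * β) + 2 * (B * β)) +
        (6 * d + 7) * (2 * (B * β)) + (6 * d + 7) * (B * β) + K₀ + B * β) * η :=
      Nat.mul_le_mul_right _ (Nat.le_add_left _ _)
    exact ⟨le_trans k1 (Nat.add_le_add_left hK _), le_trans k2 (Nat.add_le_add_left hK _)⟩
  have htop : ∀ T ∈ [T₁, T₂, T₃], ∀ τ ∈ [cstT 0, shfT 0], ∀ r : ℤ,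
      Module.length S (tH y D.δ D.P D.Gt τ (cstT (T : ℤ)) r) ≠ ⊤ ∧
        Reg (D.dl.tD y τ (cstT (T : ℤ)) r) (2 * B) (B * β * η) (a + d + 1) := by
    intro T hT τ hτ r
    have hTH : T ≤ H := by
      simp only [List.mem_cons, List.not_mem_nil, or_false] at hT
      omega
    obtain ⟨k1, k2⟩ := top_reg D hy hTH (τ := τ) (by simpa using hτ) r
    exact ⟨k1, by rw [← hη]; exact k2 _ (by omega)⟩
  have hW : ∀ r : ℤ, Module.length S (tH y D.δ D.P D.Gt (shfT 0) (cstT 0) r) ≠ ⊤ ∧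
      Reg (D.dl.tD y (shfT 0) (cstT 0) r) (2 * B) (B * β * η) (a + d + 1) := by
    intro r
    obtain ⟨L, hL, hlen, -⟩ := exists_walk_stair d
    obtain ⟨k1, k2⟩ := win_reg D hy hL (B := B) (by simp only [hB, walkBd]; omega) r
    exact ⟨k1, by rw [← hη]; exact k2 _ (by omega)⟩
  have hT := htri R S d D.A D.δ D.Dl D.P D.Gt D.filt D.dl D.filt.anti y T₃ T₂ T₁ h₂ h₁ (2 * B)
    (B * β * η) (B * β * η) (a + d + 1) a (by omega) (by omega) htop hW
    (fun τ hτ r => hstab τ (by simpa using hτ) r)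
  have hD := chiSum_ge d
    (fun r => tRk D.dl y D.filt.anti (shfT 0) (Int.ofNat_le.2 (h₂.trans h₁)) r a)
    (2 * (B * β * η)) fun r hr => by
      rw [← hη]
      exact shift_small D hy hN hd0 (h₂.trans h₁) (by omega) (by omega) (by omega) hr (by omega)
  have hU := chiSum_le_fin d
    (fun r => tRk D.dl y D.filt.anti (cstT 0) (Int.ofNat_le.2 (h₂.trans h₁)) r a)
    (B * β * η) fun r hr => by
      refine (tRk_le D _ _ r a ?_).trans ?_
      · exact (top_reg D hy (T := T₃) (by omega) (τ := cstT 0) (Or.inl rfl) r).1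
      · rw [← hη]
        exact const_small D hy hd0 (by omega) hr (by omega)
  have hS := hK₀ e C J Z η D a (by omega) (by omega)
  show _ ≤ ((∑ p ∈ Finset.range (d + 1), (-1 : ℤ) ^ p *
    (tRk D.dl y D.filt.anti (cstT 0) (Int.ofNat_le.2 (h₂.trans h₁)) (-(p : ℤ)) a : ℤ) : ℤ) : ℝ)
  rw [abs_le] at hT
  have hT' := (Int.cast_le (R := ℝ)).2 hT.2
  have hD' := (Int.cast_le (R := ℝ)).2 hD
  have hU' := (Int.cast_le (R := ℝ)).2 hU
  push_cast at hT' hD' hU' hS ⊢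
  have hpos : (0 : ℝ) ≤ (B : ℝ) * β * η := by positivity
  linarith

end Vale.Agent.P202
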