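import Vale.Agent.P202.RankCoreAsm
import Vale.Agent.P202.RWindowMain
import Vale.Agent.P202.RStairChi
import Vale.Agent.P202.RTriangle

/-! M10: the inequality follows from rank systems of good quality. -/

universe u

namespace Vale.Agent.P202

/-- R1: stability and the Euler characteristic of the windows. -/
theorem goalRankWindow : GoalRankWindow.{u} :=
  goalRankWindow_of goalStairChi goalTriangleChi

/-- M10. -/
theorem goalRankCore : GoalRankCore.{u} :=
  goalRankCore_of goalRankReg goalRankWindow

end Vale.Agent.P202
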