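import Vale.Agent.P202.RKoszul
import Vale.Agent.P202.RCompare
import Vale.Agent.P202.Fr
import Vale.Agent.P202.KoszulMult

/-!
The assembly of `GoalRankCore` from the regularity and stability of the windows (R1), their
comparison with the Koszul homology of `S ⊗ V T` (R2) and the Koszul side (R3).
-/

universe u

namespace Vale.Agent.P202

open TensorProduct IsLocalRing

attribute [local instance] Algebra.TensorProduct.rightAlgebra

/-- The transitions of windows compose. -/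
lemma winTr_trans {R : Type u} [CommRing R] {A : Type u} [AddCommGroup A] [Module R A]
    (δ : A →ₗ[R] A) {P Gt : ℤ → Submodule R A} (hG : Antitone Gt) (a : ℤ) {c₁ c₂ c₃ : ℤ}
    (h₁ : c₁ ≤ c₂) (h₂ : c₂ ≤ c₃) (r : ℤ) :
    winTr δ (P := P) hG a h₁ r ∘ₗ winTr δ hG a h₂ r = winTr δ hG a (h₁.trans h₂) r :=
  Submodule.linearMap_qext _ (LinearMap.ext fun _ => congrArg Submodule.Quotient.mk rfl)

lemma alt_sum_le (d E : ℕ) (u h : ℕ → ℕ) (huh : ∀ p, p ≤ d → u p ≤ h p + E ∧ h p ≤ u p + E) :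
    ∑ p ∈ Finset.range (d + 1), (-1 : ℤ) ^ p * (u p : ℤ) ≤
      (∑ p ∈ Finset.range (d + 1), (-1 : ℤ) ^ p * (h p : ℤ)) + (((d + 1) * E : ℕ) : ℤ) := by
  have hE : (((d + 1) * E : ℕ) : ℤ) = ∑ _p ∈ Finset.range (d + 1), (E : ℤ) := by simp
  rw [hE, ← Finset.sum_add_distrib]
  refine Finset.sum_le_sum fun p hp => ?_
  obtain ⟨h1, h2⟩ := huh p (Nat.lt_succ_iff.1 (Finset.mem_range.1 hp))
  rcases neg_one_pow_eq_or ℤ p with hs | hs <;> rw [hs] <;> omega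

variable {R S : Type u} [CommRing R] [IsLocalRing R] [IsNoetherianRing R] [CommRing S]
  [IsLocalRing S] [IsNoetherianRing S] [Algebra R S] [IsLocalHom (algebraMap R S)]

lemma one_le_khlen_residue {d : ℕ} {y : Fin d → S} (hy : Par y) :
    1 ≤ (khlen y (S ⊗[R] ResidueField R) 0).toNat := by
  haveI : Nontrivial (S ⊗[R] ResidueField R) := by
    haveI : Nontrivial (S ⧸ (maximalIdeal R).map (algebraMap R S)) :=
      Ideal.Quotient.nontrivial_iff.2 (map_maximalIdeal_lt_top (algebraMap R S)).ne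
    exact (Algebra.TensorProduct.quotIdealMapEquivTensorQuot S
      (maximalIdeal R)).toEquiv.symm.nontrivial
  have h0 := khlen_zero_pos hy.mem (S ⊗[R] ResidueField R)
  have h1 := goalKoszulFinite S (S ⊗[R] ResidueField R) d y (hy.finiteLength _) 0
  rw [Nat.one_le_iff_ne_zero]
  simp only [ne_eq, ENat.toNat_eq_zero, not_or]
  exact ⟨h0, h1⟩

omit [IsNoetherianRing R] in
/-- A linear exponent puts the powers of `x l` in the ideals of the powers of `y`. -/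
lemma exists_linear_exp {d : ℕ} {x : Fin d → R} (hx : ∀ l, x l ∈ maximalIdeal R) {y : Fin d → S}
    (hy : Par y) : ∃ c : ℕ, ∀ n : ℕ, 0 < n → ∀ a : Fin d → ℕ, (∀ l, a l ≤ n) →
      ∀ l, algebraMap R S (x l) ^ (c * n) ∈ Ideal.span (Set.range fun l => y l ^ a l) := by
  obtain ⟨c, -, hc⟩ := hy.exists_pow_le
  refine ⟨c * (d + 1), fun n hn a ha l => ?_⟩
  have h1 := pow_add_le_span_pow y hn 1
  rw [pow_one] at h1
  have h2 : algebraMap R S (x l) ^ (c * (d + 1) * n) ∈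
      maximalIdeal S ^ (c * (d + 1) * n) := by
    refine Ideal.pow_mem_pow ?_ _
    rw [mem_maximalIdeal]
    intro h
    exact (hx l) (IsLocalHom.map_nonunit _ h)
  have h3 : Ideal.span (Set.range fun l => y l ^ n) ≤
      Ideal.span (Set.range fun l => y l ^ a l) := by
    refine Ideal.span_le.2 ?_
    rintro _ ⟨k, rfl⟩
    rw [SetLike.mem_coe, show n = a k + (n - a k) by have := ha k; omega]
    simp only [pow_add]
    exact Ideal.mul_mem_right _ _ (Ideal.subset_span ⟨k, rfl⟩)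
  refine h3 (h1 ?_)
  have h4 : n * 1 + d * (n - 1) ≤ (d + 1) * n := by
    have := Nat.mul_le_mul_left d (Nat.sub_le n 1)
    rw [add_mul, one_mul, mul_one]
    omega
  rw [mul_assoc, pow_mul (maximalIdeal S)] at h2
  rw [mul_assoc]
  exact Ideal.pow_le_pow_right h4 (Ideal.pow_right_mono hc _ h2)

variable [Module.Flat R S]

/-- One exponent vector: stability of the transitions of `V` and the Euler characteristic. -/
lemma exp_data (hreg : GoalRankReg.{u}) (hwin : GoalRankWindow.{u}) {d : ℕ} (hd : 0 < d)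
    (hR : ndim R = d) (hS : ndim S = d) (x : Fin d → R) {z : Fin d → S} (hz : Par z) {N H : ℕ}
    (hN : ∀ l, algebraMap R S (x l) ^ N ∈ Ideal.span (Set.range z)) {T₃ T₂ T₁ : ℕ} (h₂ : T₃ ≤ T₂)
    (h₁ : T₂ ≤ T₁) (b₃ : 2 * (d * N) ≤ T₃) (b₂ : T₃ + 2 * (d * N) ≤ T₂)
    (b₁ : T₂ + 2 * (d * N) ≤ T₁) (bH : T₁ + d * N + d + 1 ≤ H) :
    ∃ Q J₀ : ℕ, ∀ (e : ℝ) (C J Z η : ℕ) (D : RankSys (S := S) x e C H J Z η), J₀ ≤ J →
      (∀ p, p ≤ d →
        hpRk z (D.trV T₂ T₁ h₁) p ≤ hpRk z (D.trV T₃ T₂ h₂ ∘ₗ D.trV T₂ T₁ h₁) p + Q * η ∧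
          hpRk z (D.trV T₃ T₂ h₂) p ≤
            hpRk z (D.trV T₃ T₂ h₂ ∘ₗ D.trV T₂ T₁ h₁) p + Q * η) ∧
      ((khlen z (S ⊗[R] ResidueField R) 0).toNat : ℝ) * ((d - 1).factorial : ℝ) * e * Z -
          (Q * η : ℕ) ≤
        ((∑ p ∈ Finset.range (d + 1), (-1 : ℤ) ^ p *
          (hpRk z (D.trV T₃ T₂ h₂ ∘ₗ D.trV T₂ T₁ h₁) p : ℤ) : ℤ) : ℝ) := by
  obtain ⟨Kr, ir, Xr, hr⟩ := hreg R S d hd hR hS x z hz H
  obtain ⟨Kw, iw, Xw, hw⟩ := hwin R S d hd hR hS x z hz N H hN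
  obtain ⟨Kc, Xc, hc⟩ := goalRankCompare R S d hd hR hS x z hz H
  refine ⟨Kw + (d + 2) * (Kc * (1 + Kr)), ir + Xc + iw + Xc + Xr + Xw, fun e C J Z η D hJ => ?_⟩
  have hrr := hr e C J Z η D (by omega)
  have hcmp : ∀ (T T' : ℕ) (hT : T ≤ T'), T' ≤ H → ∀ (f : D.V T' →ₗ[R] D.V T),
      f ∘ₗ D.toV T' = D.toV T ∘ₗ winTr D.δ D.filt.anti 0 (Int.ofNat_le.2 hT) 0 → ∀ p, p ≤ d →
        uRk D.dl z D.filt.anti (Int.ofNat_le.2 hT) p (ir + Xc + iw) ≤
            hpRk z f p + Kc * (η + Kr * η) ∧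
          hpRk z f p ≤
            uRk D.dl z D.filt.anti (Int.ofNat_le.2 hT) p (ir + Xc + iw) + Kc * (η + Kr * η) :=
    fun T T' hT hT' f hf p hp =>
      hc e C J Z η D T T' hT hT' f hf ir (Kr * η) (J - Xr)
        (fun r => ⟨(hrr T (hT.trans hT') r).1, (hrr T' hT' r).1, (hrr T (hT.trans hT') r).2⟩)
        (by omega) (Nat.sub_le _ _) p hp _ (by omega) (by omega)
  obtain ⟨hstab, heul⟩ :=
    hw e C J Z η D T₃ T₂ T₁ h₂ h₁ b₃ b₂ b₁ bH (ir + Xc + iw) (by omega) (by omega)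
  have hT₁H : T₁ ≤ H := by omega
  have hf13 : (D.trV T₃ T₂ h₂ ∘ₗ D.trV T₂ T₁ h₁) ∘ₗ D.toV T₁ =
      D.toV T₃ ∘ₗ winTr D.δ D.filt.anti 0 (Int.ofNat_le.2 (h₂.trans h₁)) 0 := by
    rw [LinearMap.comp_assoc, D.trV_toV, ← LinearMap.comp_assoc, D.trV_toV, LinearMap.comp_assoc,
      winTr_trans]
  have h13 := hcmp T₃ T₁ (h₂.trans h₁) hT₁H _ hf13
  have h12 := hcmp T₂ T₁ h₁ hT₁H _ (D.trV_toV T₂ T₁ h₁)
  have h23 := hcmp T₃ T₂ h₂ (h₁.trans hT₁H) _ (D.trV_toV T₃ T₂ h₂)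
  have hQ : (Kw + (d + 2) * (Kc * (1 + Kr))) * η =
      Kw * η + (d * (Kc * (η + Kr * η)) + 2 * (Kc * (η + Kr * η))) := by ring
  refine ⟨fun p hp => ?_, ?_⟩
  · obtain ⟨s1, s2⟩ := hstab p hp
    have a1 := (h12 p hp).2
    have a2 := (h23 p hp).2
    have a3 := (h13 p hp).1
    rw [hQ]
    constructor
    · omega
    · omega
  · have hs := alt_sum_le d _ _ _ h13
    have hs' : ((∑ p ∈ Finset.range (d + 1), (-1 : ℤ) ^ p *
        (uRk D.dl z D.filt.anti (Int.ofNat_le.2 (h₂.trans h₁)) p (ir + Xc + iw) : ℤ) : ℤ) : ℝ) ≤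
        ((∑ p ∈ Finset.range (d + 1), (-1 : ℤ) ^ p *
          (hpRk z (D.trV T₃ T₂ h₂ ∘ₗ D.trV T₂ T₁ h₁) p : ℤ) : ℤ) : ℝ) +
          (((d + 1) * (Kc * (η + Kr * η)) : ℕ) : ℝ) := by
      exact_mod_cast hs
    have hle : (((d + 1) * (Kc * (η + Kr * η)) : ℕ) : ℝ) + ((Kw * η : ℕ) : ℝ) ≤
        (((Kw + (d + 2) * (Kc * (1 + Kr))) * η : ℕ) : ℝ) := by
      rw [← Nat.cast_add, Nat.cast_le, hQ, add_mul, one_mul]
      omega
    linarith

/-- `GoalRankCore` from the regularity and the stability of the windows. -/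
theorem goalRankCore_of (hreg : GoalRankReg.{u}) (hwin : GoalRankWindow.{u}) :
    GoalRankCore.{u} := by
  intro R S _ _ _ _ _ _ _ _ _ d hd hR hS x hx y hy e he C hD
  obtain ⟨hk, C', K, hK⟩ := goalRankKoszul R S d hd hR hS y hy
  obtain ⟨c, hc⟩ := exists_linear_exp (R := R) hx hy
  set β := (khlen y (S ⊗[R] ResidueField R) 0).toNat with hβ
  have hβ1 : 1 ≤ β := one_le_khlen_residue (R := R) hy
  obtain ⟨cA, hcA⟩ : ∃ cA, cA = C' + 2 * (d * c) + 1 := ⟨_, rfl⟩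
  obtain ⟨cB, hcB⟩ : ∃ cB, cB = cA + 4 * (d * c) + C' * cA := ⟨_, rfl⟩
  have hF : (0 : ℝ) < ((d - 1).factorial : ℝ) := by exact_mod_cast Nat.factorial_pos _
  have key : ∀ n : ℕ, 0 < n → (n : ℝ) ^ d * (((d - 1).factorial : ℝ) * (e - (kchi y S : ℝ))) ≤
      ((K * C * cB ^ (d - 1) : ℕ) : ℝ) * (n : ℝ) ^ (d - 1) := by
    intro n hn
    obtain ⟨K', hK'⟩ := hK n hn
    have b₃ : 2 * (d * (c * n)) ≤ cA * n := by
      rw [hcA, add_mul, add_mul, show 2 * (d * c) * n = 2 * (d * (c * n)) by ring]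
      omega
    have b₁ : cA * n + 2 * (d * (c * n)) + 2 * (d * (c * n)) ≤ cB * n := by
      rw [hcB, add_mul, add_mul, show 4 * (d * c) * n = 4 * (d * (c * n)) by ring]
      omega
    have h₂ : cA * n ≤ cA * n + 2 * (d * (c * n)) := Nat.le_add_right _ _
    have h₁ : cA * n + 2 * (d * (c * n)) ≤ cB * n := le_trans (Nat.le_add_right _ _) b₁
    obtain ⟨T₂, hT₂⟩ : ∃ T₂, T₂ = cA * n + 2 * (d * (c * n)) := ⟨_, rfl⟩
    rw [← hT₂] at h₂ h₁ b₁
    have b₂ : cA * n + 2 * (d * (c * n)) ≤ T₂ := hT₂.ge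
    have hdata := fun (z : Fin d → S) (hz : Par z)
        (hN : ∀ l, algebraMap R S (x l) ^ (c * n) ∈ Ideal.span (Set.range z)) =>
      exp_data hreg hwin hd hR hS x hz (H := cB * n + d * (c * n) + d + 1) hN h₂ h₁ b₃ b₂ b₁ le_rfl
    have hpar : ∀ a : Fin d → ℕ, (∀ l, 0 < a l) → (∀ l, a l ≤ n) →
        Par fun l => y l ^ a l := fun a h0 h1 => by
      refine ⟨fun l => Ideal.pow_mem_of_mem _ (hy.mem l) _ (h0 l), ?_⟩
      refine ne_top_of_le_ne_top (hy.pow hn).fin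
        (Module.length_le_of_surjective _ (Submodule.factor_surjective ?_))
      refine Ideal.span_le.2 ?_
      rintro _ ⟨k, rfl⟩
      rw [SetLike.mem_coe, show n = a k + (n - a k) by have := h1 k; omega]
      simp only [pow_add]
      exact Ideal.mul_mem_right _ _ (Ideal.subset_span ⟨k, rfl⟩)
    choose Q J₀ hQ using fun i : Fin d → Fin n =>
      hdata (fun l => y l ^ ((i l : ℕ) + 1)) (hpar _ (fun _ => Nat.succ_pos _) fun l => (i l).2)
        (hc n hn _ fun l => (i l).2)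
    obtain ⟨Q₁, J₁, hQ₁⟩ := hdata y hy fun l => by
      simpa using hc n hn (fun _ => 1) (fun _ => hn) l
    set Qm := Finset.univ.sup Q with hQm
    refine le_of_forall_pos_le_add fun ε hε => ?_
    obtain ⟨M, hM⟩ : ∃ M, M = n ^ d * Q₁ + K' * Qm + K := ⟨_, rfl⟩
    have hM0 : (0 : ℝ) < (M : ℝ) + 1 := by positivity
    obtain ⟨Z, η, hZ, hη, ⟨D⟩⟩ := hD (cB * n + d * (c * n) + d + 1) (Finset.univ.sup J₀ + J₁)
      (ε / ((M : ℝ) + 1)) (div_pos hε hM0)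
    obtain ⟨-, heul⟩ := hQ₁ e C _ Z η D (Nat.le_add_left _ _)
    have hst : ∀ a : Fin d → ℕ, (∀ l, 0 < a l ∧ a l ≤ n) → ∀ p, p ≤ d →
        hpRk (fun l => y l ^ a l) (D.trV T₂ (cB * n) h₁) p ≤
            hpRk (fun l => y l ^ a l) (D.trV (cA * n) T₂ h₂ ∘ₗ D.trV T₂ (cB * n) h₁) p + Qm * η ∧
          hpRk (fun l => y l ^ a l) (D.trV (cA * n) T₂ h₂) p ≤
            hpRk (fun l => y l ^ a l) (D.trV (cA * n) T₂ h₂ ∘ₗ D.trV T₂ (cB * n) h₁) p +
              Qm * η := by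
      intro a ha p hp
      obtain ⟨i, rfl⟩ : ∃ i : Fin d → Fin n, a = fun l => (i l : ℕ) + 1 :=
        ⟨fun l => ⟨a l - 1, by have := ha l; omega⟩, funext fun l => by
          have := ha l; simp only; omega⟩
      have hi : Q i * η ≤ Qm * η := Nat.mul_le_mul_right _ (Finset.le_sup (Finset.mem_univ i))
      have hJ : J₀ i ≤ Finset.univ.sup J₀ + J₁ :=
        (Finset.le_sup (Finset.mem_univ i)).trans (Nat.le_add_right _ _)
      obtain ⟨u1, u2⟩ := (hQ i e C _ Z η D hJ).1 p hp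
      exact ⟨u1.trans (Nat.add_le_add_left hi _), u2.trans (Nat.add_le_add_left hi _)⟩
    have hT₁H : cB * n ≤ cB * n + d * (c * n) + d + 1 := by omega
    have hT₃H : cA * n ≤ cB * n + d * (c * n) + d + 1 := (h₂.trans h₁).trans hT₁H
    have hA0 : 0 < cA * n := Nat.mul_pos (by omega) hn
    have hpow : C * Z * (cA * n) ^ (d - 1) + η ≤ C * Z * (cB * n) ^ (d - 1) + η :=
      Nat.add_le_add_right (Nat.mul_le_mul_left _ (Nat.pow_le_pow_left (h₂.trans h₁) _)) _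
    have hC'1 : C' * n ≤ cA * n := Nat.mul_le_mul_right _ (by omega)
    have hC'2 : C' * (cA * n) ≤ cB * n := by
      rw [← mul_assoc, hcB]
      exact Nat.mul_le_mul_right _ (Nat.le_add_left _ _)
    have hkos := hK' (D.V (cB * n)) (D.V T₂) (D.V (cA * n)) (D.V_finite _ hT₁H)
      (D.V_finite _ (h₁.trans hT₁H)) (D.V_finite _ hT₃H) (D.trV T₂ (cB * n) h₁)
      (D.trV (cA * n) T₂ h₂) (Qm * η) hst (cB * n) (cA * n) D.n₀
      (C * Z * (cB * n) ^ (d - 1) + η) (D.g (cB * n)) (D.g (cA * n)) hC'1 hC'2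
      (by rw [LinearMap.comp_assoc, D.g_nat, D.g_nat]) (D.g_kill _ hT₁H) (D.g_kill _ hT₃H)
      (D.g_ker _ (hA0.trans_le (h₂.trans h₁)) hT₁H)
      ((D.g_ker _ hA0 hT₃H).trans (Nat.cast_le.2 hpow))
      (D.g_coker _ (hA0.trans_le (h₂.trans h₁)) hT₁H)
      ((D.g_coker _ hA0 hT₃H).trans (Nat.cast_le.2 hpow))
    obtain ⟨σ, hσ⟩ : ∃ σ : ℤ, σ = ∑ p ∈ Finset.range (d + 1), (-1 : ℤ) ^ p *
        (hpRk y (D.trV (cA * n) T₂ h₂ ∘ₗ D.trV T₂ (cB * n) h₁) p : ℤ) := ⟨_, rfl⟩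
    rw [← hσ] at hkos heul
    have hkos' : (n : ℝ) ^ d * (σ : ℝ) ≤ (D.n₀ : ℝ) * ((n : ℝ) ^ d * (kchi y S : ℝ)) +
        ((K' * (Qm * η) + K * (C * Z * (cB * n) ^ (d - 1) + η) : ℕ) : ℝ) := by
      exact_mod_cast hkos
    have hn₀ : (D.n₀ : ℝ) ≤ ((d - 1).factorial : ℝ) * Z := by exact_mod_cast D.n₀_le
    push_cast at hkos' heul
    have hk' : (0 : ℝ) ≤ (n : ℝ) ^ d * (kchi y S : ℝ) :=
      mul_nonneg (by positivity) (by exact_mod_cast hk)
    have e1 := mul_le_mul_of_nonneg_right hn₀ hk'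
    have hn' : (0 : ℝ) ≤ (n : ℝ) ^ d := by positivity
    have e2 := mul_le_mul_of_nonneg_left heul hn'
    have e3 : ((d - 1).factorial : ℝ) * e * Z ≤
        (β : ℝ) * ((d - 1).factorial : ℝ) * e * Z := by
      have h1 : (1 : ℝ) ≤ (β : ℝ) := by exact_mod_cast hβ1
      have h2 : (0 : ℝ) ≤ ((d - 1).factorial : ℝ) * e * Z := by positivity
      nlinarith
    have e4 := mul_le_mul_of_nonneg_left e3 hn'
    have e5 : (M : ℝ) * (η : ℝ) ≤ ε * Z := by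
      have h1 : (η : ℝ) * ((M : ℝ) + 1) ≤ ε * Z := by
        have := mul_le_mul_of_nonneg_right hη hM0.le
        rwa [div_mul_eq_mul_div, div_mul_cancel₀ _ hM0.ne'] at this
      have h2 : (0 : ℝ) ≤ (η : ℝ) := Nat.cast_nonneg _
      nlinarith
    have hM' : (M : ℝ) = (n : ℝ) ^ d * Q₁ + (K' : ℝ) * Qm + K := by exact_mod_cast hM
    rw [hM'] at e5
    rw [mul_pow] at hkos'
    refine le_of_mul_le_mul_right ?_ (show (0 : ℝ) < (Z : ℝ) by exact_mod_cast hZ)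
    push_cast
    linarith
  by_contra hlt
  have hpos : (0 : ℝ) < ((d - 1).factorial : ℝ) * (e - (kchi y S : ℝ)) :=
    mul_pos hF (sub_pos.2 (not_le.1 hlt))
  obtain ⟨n, hn⟩ := exists_nat_gt
    (((K * C * cB ^ (d - 1) : ℕ) : ℝ) / (((d - 1).factorial : ℝ) * (e - (kchi y S : ℝ))))
  rw [div_lt_iff₀ hpos] at hn
  have hn0 : 0 < n := by
    rcases Nat.eq_zero_or_pos n with rfl | h
    · rw [Nat.cast_zero, zero_mul] at hn
      exact absurd hn (not_lt.2 (Nat.cast_nonneg _))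
    · exact h
  have h := key n hn0
  rw [show (n : ℝ) ^ d = (n : ℝ) ^ (d - 1) * n by rw [← pow_succ, Nat.sub_add_cancel hd]] at h
  have hp : (0 : ℝ) < (n : ℝ) ^ (d - 1) := pow_pos (by exact_mod_cast hn0) _
  nlinarith [mul_lt_mul_of_pos_left hn hp]

end Vale.Agent.P202
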