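import Vale.Agent.P202.Fr
import Vale.Agent.P202.Core
import Vale.Agent.P202.PhiBasic
import Vale.Agent.P202.PhiGhost

/-! The core inequality at one Frobenius scale `q = p ^ e`. -/

universe u

namespace Vale.Agent.P202

open TensorProduct IsLocalRing Filter

attribute [local instance] Algebra.TensorProduct.rightAlgebra

lemma khlen_toNat_residue_pos {R S : Type u} [CommRing R] [IsLocalRing R] [IsNoetherianRing R]
    [CommRing S] [IsLocalRing S] [IsNoetherianRing S] [Algebra R S]
    [IsLocalHom (algebraMap R S)] (G : KoszulGoals.{u}) {d : ℕ} {y : Fin d → S} (hy : Par y) :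
    1 ≤ (khlen y (S ⊗[R] ResidueField R) 0).toNat := by
  haveI : Nontrivial (S ⊗[R] ResidueField R) := by
    haveI : Nontrivial (S ⧸ (maximalIdeal R).map (algebraMap R S)) :=
      Ideal.Quotient.nontrivial_iff.2 (map_maximalIdeal_lt_top (algebraMap R S)).ne
    exact (Algebra.TensorProduct.quotIdealMapEquivTensorQuot S
      (maximalIdeal R)).toEquiv.symm.nontrivial
  have h0 := khlen_zero_pos hy.mem (S ⊗[R] ResidueField R)
  have h1 := G.kfin S (S ⊗[R] ResidueField R) d y (hy.finiteLength _) 0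
  rw [Nat.one_le_iff_ne_zero]
  simp only [ne_eq, ENat.toNat_eq_zero, not_or]
  exact ⟨h0, h1⟩

/-- The alternating sum of the Betti numbers of the fibre vanishes. -/
lemma sum_khlen_residue {R S : Type u} [CommRing R] [IsLocalRing R] [IsNoetherianRing R]
    [CommRing S] [IsLocalRing S] [IsNoetherianRing S] [Algebra R S]
    [IsLocalHom (algebraMap R S)] [Module.Flat R S] (G : KoszulGoals.{u}) {d : ℕ} (hd : 0 < d)
    {y : Fin d → S} (hy : Par y) (h : ndim R = ndim S) :
    ∑ p ∈ Finset.range (d + 1),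
      (-1 : ℤ) ^ p * ((khlen y (S ⊗[R] ResidueField R) p).toNat : ℤ) = 0 := by
  have h1 : psi R y (ResidueField R) = 0 := by
    refine psi_eq_zero G hy h (maximalIdeal R) ?_ _ ?_
    · have : ringKrullDim (R ⧸ maximalIdeal R) = 0 :=
        letI : Field (R ⧸ maximalIdeal R) := Ideal.Quotient.field _
        ringKrullDim_eq_zero_of_field _
      rw [ndim, this]
      exact hd
    · intro a ha v
      obtain ⟨v, rfl⟩ := residue_surjective v
      rw [Algebra.smul_def, show algebraMap R (ResidueField R) a = 0 from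
        (residue_eq_zero_iff a).2 ha, zero_mul]
  exact h1

variable {R S : Type u} [CommRing R] [IsLocalRing R] [IsNoetherianRing R] [CommRing S]
  [IsLocalRing S] [IsNoetherianRing S] [Algebra R S] [IsLocalHom (algebraMap R S)]
  [Module.Flat R S]

/-- The core inequality for the twist by the `e`-th Frobenius, with the residue degree cancelled. -/
theorem scale_inequality (G : KoszulGoals.{u}) (hC : GoalPhiClass.{u}) (p : ℕ) [Fact p.Prime]
    [CharP R p] (hF : (frobenius R p).Finite) {d D : ℕ} {x : Fin d → R}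
    (hx : RedData R d D x) (hS : ndim R = ndim S) {y : Fin d → S} (hy : Par y) {M : ℕ}
    (hM0 : 0 < M) (c : Fin d → Fin d → S)
    (hc : ∀ i, algebraMap R S (x i) ^ M = ∑ l, y l * c i l) (e : ℕ) (a : Fin (d - 1) → ℤ)
    (hfin : ∀ j r, hg (phiD (mulFam x)) (phiDeg R R d) (phiG R D (p ^ e) a) j r ≠ ⊤) :
    0 ≤ ((d - 1).factorial : ℤ) * (((p ^ e : ℕ) : ℤ) ^ d * kchi y S) +
      ∑ m ∈ Finset.range d, (∑ i ∈ Finset.Icc (m + 1) d,
          (-1 : ℤ) ^ i * ((khlen y (S ⊗[R] ResidueField R) i).toNat : ℤ)) *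
        chiG d (phiD (mulFam x)) (phiDeg R R d) (phiG R D (p ^ e) a) (-((m + 1 : ℕ) : ℤ)) +
      ∑ r ∈ Finset.Icc (-((3 * d + 3 : ℕ) : ℤ)) (3 * d + 3 : ℕ),
        if r = 0 then 0 else (errBound d (d * (M * D))
          (fun i => (khlen y (S ⊗[R] ResidueField R) i).toNat)
          (phiD (mulFam x)) (phiDeg R R d) (phiG R D (p ^ e) a) r : ℤ) := by
  classical
  set q := p ^ e with hqdef
  have hq : 0 < q := pow_pos (Fact.out : p.Prime).pos e
  let R' := Fr R p e
  let σ : R ≃+* R' := Fr.equiv R p e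
  let f : R →+* R' := algebraMap R R'
  have hf : f.Finite := Fr.finite R p e hF
  have hfq : ∀ b, f b = σ b ^ q := fun b => rfl
  let x' : Fin d → R' := fun l => σ (x l)
  have hx' : RedData R' d D x' := ⟨hx.dpos, hx.dim_eq, hx.Dpos, hx.mem, hx.red⟩
  obtain ⟨n₀, hn₀⟩ := hx.red
  obtain ⟨cx, -, hcx⟩ := exists_pow_le_of_reduction (hn₀ n₀ le_rfl)
  have hxm : ∀ l, x l ∈ maximalIdeal R :=
    fun l => Ideal.pow_le_self hx.Dpos.ne' (hx.mem l)
  have hparx : Par x := par_of_pow_le hxm hcx
  set β : ℕ → ℕ := fun i => (khlen y (S ⊗[R] ResidueField R) i).toNat with hβdef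
  have hβ : ∀ i, khlen y (S ⊗[R] ResidueField R) i = (β i : ℕ∞) := fun i =>
    (ENat.coe_toNat (G.kfin S (S ⊗[R] ResidueField R) d y (hy.finiteLength _) i)).symm
  set κ := resDeg f with hκdef
  have hκ0 : 0 < κ := resDeg_pos f hf
  have hκ : Module.length R (ResidueField R') = (κ : ℕ∞) := by
    rw [hκdef, resDeg_eq f hf]
    exact LinearEquiv.length_eq
      { toFun := fun v => (Res.equiv f (ResidueField R') v : Res f (ResidueField R'))
        map_add' := fun _ _ => rfl
        map_smul' := fun b v => (algebraMap_smul R' b v).symm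
        invFun := fun v => v
        left_inv := fun _ => rfl
        right_inv := fun _ => rfl }
  -- the input of the core inequality
  set 𝔮 : Ideal R' := (maximalIdeal R).map f with h𝔮
  have HB : HPHyp (R' ⊗[R] S) y 𝔮 (fun i => κ * β i) := hpHyp_baseChange R R' S y κ hκ β hβ
  have hkill𝔮 : 𝔮 ≤ maximalIdeal R' ^ q := by
    rw [h𝔮, Ideal.map_le_iff_le_comap]
    intro b hb
    rw [Ideal.mem_comap, hfq]
    exact Ideal.pow_mem_pow (hb : σ b ∈ maximalIdeal R') q
  set δ := phiD (mulFam x') with hδdef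
  set P := phiDeg R' R' d with hPdef
  set Gt := phiG R' D q a with hGtdef
  have H : FiltSys 𝔮 d δ P Gt :=
    { sq0 := phiD_phiD (mulFam_comm x')
      degree := fun i => phiDeg_stable (mulFam x') i
      level := fun j => phiSub_stable (reesFam_stable hx'.mem) a _
      anti := fun i j hij v hv k => ⟨reesFam_antitone (by gcongr) (hv k).1, (hv k).2⟩
      kill := fun j b hb v hv k => by
        refine ⟨?_, fun hk => by rw [Finsupp.smul_apply, (hv k).2 hk, smul_zero]⟩
        rw [Finsupp.smul_apply, smul_eq_mul, reesFam]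
        have h1 : v k ∈ maximalIdeal R' ^ ((q : ℤ) * j + D * k.2.1).toNat := (hv k).1
        refine Ideal.pow_le_pow_right ?_ (pow_add (maximalIdeal R') q _ ▸
          Ideal.mul_mem_mul (hkill𝔮 hb) h1)
        rw [show (q : ℤ) * (j + 1) = (q : ℤ) * j + q by ring]
        omega
      bound := fun i hi => phiDeg_eq_bot hx.dpos hi }
  obtain ⟨φ, h, hφF, hhF, hφP, hhP, hφG, hhG, hcomm, hid⟩ :=
    goalPhiGhost R' d D x' hx' (q * M) (Nat.mul_pos hq hM0) a
  have hlev : ∀ j : ℤ, (q : ℤ) * (j - ((M * D : ℕ) : ℤ)) =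
      (q : ℤ) * j - ((q * M : ℕ) : ℤ) * (D : ℤ) := fun j => by push_cast; ring
  have hB : ∀ i, ∀ b : R' ⊗[R] S,
      (x' i ^ (q * M)) • b = (∑ l, y l * c i l) • b := by
    intro i b
    induction b using TensorProduct.induction_on with
    | zero => rw [smul_zero, smul_zero]
    | tmul r t =>
      have e1 : x' i ^ (q * M) = f (x i ^ M) := by
        show σ (x i) ^ (q * M) = f (x i ^ M)
        rw [hfq, map_pow, ← pow_mul, mul_comm q M]
      rw [TensorProduct.smul_tmul', rsmul_tmul, ← hc i, e1, ← map_pow (algebraMap R S) (x i) M,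
        smul_eq_mul, ← Algebra.smul_def, ← Algebra.smul_def, TensorProduct.smul_tmul]
    | add b b' hb hb' => rw [smul_add, smul_add, hb, hb']
  let GD : GhostData (R' ⊗[R] S) y δ P Gt (M * D) d :=
    { Fil := phiFil R' R' d
      fil_zero := eq_top_iff.2 fun v _ k hk => absurd hk (Nat.not_lt_zero _)
      fil_end := eq_bot_iff.2 fun v hv => by
        refine (Submodule.mem_bot R').2 (Finsupp.ext fun k => hv k ?_)
        exact (nBoth_le k).trans_lt (Nat.sub_lt hx.dpos Nat.one_pos)
      a := fun i => x' i ^ (q * M)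
      c := c
      a_smul := hB
      φ := φ
      h := h
      φ_fil := hφF
      h_fil := hhF
      φ_deg := hφP
      h_deg := hhP
      φ_level := fun i j => by
        simp only [hGtdef, phiG]; rw [hlev]; exact hφG i _
      h_level := fun j => by
        simp only [hGtdef, phiG]; rw [hlev]; exact hhG _
      comm := hcomm
      identity := hid }
  have hfin' : ∀ j r, hg δ P Gt j r ≠ ⊤ := hfin
  obtain ⟨hHfin, hclass⟩ := hC R' d D x' hx' q hq a
  let η : ∀ (N : Type u) [AddCommGroup N] [Module R' N], ℤ := fun N _ _ => psi R y (Res f N)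
  have hchi : ∀ (V : Type u) [AddCommGroup V] [Module R' V],
      kchi y ((R' ⊗[R] S) ⊗[R'] V) = psi R y (Res f V) := by
    intro V _ _
    haveI : IsScalarTower R R' (Res f V) := IsScalarTower.of_algebraMap_smul fun _ _ => rfl
    exact kchi_congr y (chg R R' S (Res f V))
  have hK : ∀ n i, khlen y ((R' ⊗[R] S) ⊗[R']
      HMod δ (fun i => Gt 0 ⊓ P i) (fun _ => ⊥) n) i ≠ ⊤ := by
    intro n i
    haveI := hHfin n
    let V := HMod δ (fun i => Gt 0 ⊓ P i) (fun _ => ⊥) n
    haveI : Module.Finite R' V := hHfin n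
    haveI : IsScalarTower R R' (Res f V) := IsScalarTower.of_algebraMap_smul fun _ _ => rfl
    haveI : Module.Finite R (Res f V) := Res.finite f hf
    have h1 := khlen_congr y (chg R R' S (Res f V)) i
    intro h2
    exact G.kfin S (S ⊗[R] Res f V) d y (hy.finiteLength _) i (h1.symm.trans h2)
  have hkill : IsAddKilling R' (x' ⟨d - 1, Nat.sub_lt hx.dpos Nat.one_pos⟩) η := by
    refine ⟨?_, ?_⟩
    · intro N₁ N₂ N₃ _ _ _ _ _ _ _ _ _ g h hg he hh
      haveI := Res.finite f (V := N₁) hf
      haveI := Res.finite f (V := N₂) hf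
      haveI := Res.finite f (V := N₃) hf
      exact psi_add G hy (Res.map f g) (Res.map f h) hg he hh
    · intro N _ _ _ k hk
      haveI := Res.finite f (V := N) hf
      refine psi_eq_zero G hy hS (Ideal.span {x ⟨d - 1, Nat.sub_lt hx.dpos Nat.one_pos⟩ ^ k})
        (ndim_quotient_span_pow_lt hxm cx hcx _ k) (Res f N) ?_
      intro b hb v
      obtain ⟨b', rfl⟩ := Ideal.mem_span_singleton'.1 hb
      show f (b' * _ ^ k) • v = 0
      rw [map_mul, map_pow, hfq (x _), mul_smul]
      rw [← pow_mul, Nat.mul_comm q k, pow_mul]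
      obtain ⟨q', hq'⟩ : ∃ q', q = q' + 1 := ⟨q - 1, (Nat.succ_pred_eq_of_pos hq).symm⟩
      have : ∀ w : Res f N, (x' ⟨d - 1, Nat.sub_lt hx.dpos Nat.one_pos⟩ ^ k) ^ q • w = 0 := by
        intro w
        rw [hq', pow_succ, mul_smul]
        rw [show x' ⟨d - 1, Nat.sub_lt hx.dpos Nat.one_pos⟩ ^ k • w = (0 : Res f N) from hk w,
          smul_zero]
      rw [show (σ (x ⟨d - 1, Nat.sub_lt hx.dpos Nat.one_pos⟩) ^ k) ^ q • v = 0 from this v,
        smul_zero]
  have hη : η R' = (κ : ℤ) * (q : ℤ) ^ d * kchi y S := by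
    show psi R y (Res f R') = _
    rw [psi_twist G hy hS hx.dim_eq hparx σ f hf hq hfq R', psi_res_equiv_self]
  have hsum : ∑ n ∈ Finset.Icc (-(d : ℤ)) d,
      sgn n * kchi y ((R' ⊗[R] S) ⊗[R'] HMod δ (fun i => Gt 0 ⊓ P i) (fun _ => ⊥) n) =
      ((d - 1).factorial : ℤ) * η R' := by
    rw [← hclass η hkill]
    refine Finset.sum_congr rfl fun n _ => ?_
    rw [hchi]
    rfl
  have hcore := core_inequality H HB GD hfin' hK
  rw [hsum, hη] at hcore
  have hTm : ∀ m : ℕ, (∑ i ∈ Finset.Icc (m + 1) d, (-1 : ℤ) ^ i * (((κ * β i : ℕ)) : ℤ)) =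
      (κ : ℤ) * ∑ i ∈ Finset.Icc (m + 1) d, (-1 : ℤ) ^ i * (β i : ℤ) := by
    intro m
    rw [Finset.mul_sum]
    refine Finset.sum_congr rfl fun i _ => ?_
    push_cast; ring
  have herr : ∀ r, errBound d (d * (M * D)) (fun i => κ * β i) δ P Gt r =
      κ * errBound d (d * (M * D)) β δ P Gt r := by
    intro r
    simp only [errBound, Finset.mul_sum, mul_assoc]
  simp only [hTm, herr, Nat.cast_mul, ← mul_ite_zero] at hcore
  refine nonneg_of_mul_nonneg_right (a := (κ : ℤ)) ?_ (by exact_mod_cast hκ0)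
  refine hcore.trans_eq ?_
  simp only [mul_add, Finset.mul_sum, mul_ite, mul_zero]
  congr 1
  · congr 1
    · ring
    · refine Finset.sum_congr rfl fun m _ => ?_
      show _ = _
      rw [Finset.sum_mul, Finset.sum_mul, Finset.mul_sum]
      refine Finset.sum_congr rfl fun i _ => ?_
      simp only [hβdef]
      ring
      rfl

end Vale.Agent.P202
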