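import Vale.Agent.P202.Tot

/-! The quotient of two twisted complexes differing by one elementary change of the twist. -/

universe u

namespace Vale.Agent.P202

open TensorProduct

variable {R S : Type u} [CommRing R] [CommRing S] {B : Type u} [AddCommGroup B] [Module R B]
  [Module S B] [SMulCommClass R S B] [Module.Flat R B] {A : Type u} [AddCommGroup A] [Module R A]
  {d : ℕ} {y : Fin d → S} {I : Ideal R} {β : ℕ → ℕ} {δ : A →ₗ[R] A} {P Gt : ℤ → Submodule R A}

/-- `τ'` is obtained from `τ` by lowering the value at `p`, from `j + 1` to `j`. -/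
structure TwistStep (d : ℕ) (τ τ' : ℕ → ℤ) (p : ℕ) (j : ℤ) : Prop where
  le : p ≤ d
  at_p : τ p = j + 1
  at_p' : τ' p = j
  other : ∀ l, l ≠ p → τ' l = τ l
  below : ∀ l, l + 1 = p → τ l = j + 1
  above : p < d → τ (p + 1) = j

lemma hlen_step (H : FiltSys I d δ P Gt) (HB : HPHyp B y I β) {τ τ' : ℕ → ℤ} {p : ℕ} {j : ℤ}
    (hτ : TwistStep d τ τ' p j) (r : ℤ)
    (hfin : hlen R δ (fun i => Gt j ⊓ P i) (fun i => Gt (j + 1) ⊓ P i) (r + p) ≠ ⊤) :
    hlen S (dT B y δ) (DT B y P Gt τ') (DT B y P Gt τ) r =
      β p * hlen R δ (fun i => Gt j ⊓ P i) (fun i => Gt (j + 1) ⊓ P i) (r + p) := by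
  classical
  -- the graded piece
  let G' : Submodule R A := Gt (j + 1)
  have hG'le : G' ≤ Gt j := H.anti (by omega)
  let N : Submodule R ↥(Gt j) := G'.comap (Gt j).subtype
  let δres : ↥(Gt j) →ₗ[R] ↥(Gt j) :=
    δ.restrict fun x hx => H.level j (Submodule.mem_map_of_mem hx)
  let δV : (↥(Gt j) ⧸ N) →ₗ[R] (↥(Gt j) ⧸ N) :=
    N.mapQ N δres fun x hx => H.level (j + 1) (Submodule.mem_map_of_mem (show (x : A) ∈ G' from hx))
  let Pres : ℤ → Submodule R ↥(Gt j) := fun i => (P i).comap (Gt j).subtype
  let g : ℤ → Submodule R (↥(Gt j) ⧸ N) := fun i => (Pres i).map N.mkQ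
  let δA : (A ⧸ G') →ₗ[R] (A ⧸ G') :=
    G'.mapQ G' δ (Submodule.map_le_iff_le_comap.1 (H.level (j + 1)))
  let jV : (↥(Gt j) ⧸ N) →ₗ[R] (A ⧸ G') := N.mapQ G' (Gt j).subtype le_rfl
  have hVk : KilledBy I (↥(Gt j) ⧸ N) := by
    intro a ha v
    obtain ⟨⟨v, hv⟩, rfl⟩ := Submodule.mkQ_surjective _ v
    rw [← map_smul, Submodule.mkQ_apply, Submodule.Quotient.mk_eq_zero]
    exact H.kill j a ha v hv
  have hjV : Function.Injective jV := by
    rw [← LinearMap.ker_eq_bot, Submodule.eq_bot_iff]
    intro x hx
    obtain ⟨x, rfl⟩ := Submodule.mkQ_surjective _ x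
    have : Submodule.Quotient.mk (p := G') (x : A) = 0 := hx
    rw [Submodule.Quotient.mk_eq_zero] at this
    rw [Submodule.mkQ_apply, Submodule.Quotient.mk_eq_zero]
    exact this
  have hPres : IsStable δres Pres := by
    rintro i _ ⟨x, hx, rfl⟩
    exact H.degree i (Submodule.mem_map_of_mem (show (x : A) ∈ P i from hx))
  have hg : IsStable δV g := by
    rintro i _ ⟨_, ⟨x, hx, rfl⟩, rfl⟩
    exact ⟨δres x, hPres i (Submodule.mem_map_of_mem hx), rfl⟩
  have hδV : δV ∘ₗ δV = 0 := by
    refine LinearMap.ext fun x => ?_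
    obtain ⟨x, rfl⟩ := Submodule.mkQ_surjective _ x
    have : δres (δres x) = 0 := Subtype.ext (LinearMap.congr_fun H.sq0 (x : A))
    show Submodule.Quotient.mk (δres (δres x)) = 0
    rw [this]; rfl
  have hgr : ∀ i, hlen R δ (fun i => Gt j ⊓ P i) (fun i => Gt (j + 1) ⊓ P i) i =
      hlen R δV g (fun _ => ⊥) i := by
    intro i
    rw [← hlen_map (d := δres) (d' := δV) N.mkQ (P := Pres) (Q := fun i => Pres i ⊓ N)
        (P' := g) (Q' := fun _ => ⊥) hPres (fun r => by simp [IsStable])
        (fun r x _ => rfl) (fun r => by simp [g]) (fun r => by simp [Submodule.comap_bot]) i]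
    refine (hlen_map (d := δres) (d' := δ) (Gt j).subtype hPres ?_ (fun r x _ => rfl) ?_ ?_ i).symm
    · rintro i _ ⟨x, hx, rfl⟩
      exact ⟨H.level (j + 1) (Submodule.mem_map_of_mem hx.1),
        H.degree i (Submodule.mem_map_of_mem hx.2)⟩
    · intro r
      rw [Submodule.map_comap_subtype, sup_eq_left]
      exact inf_le_inf_right _ hG'le
    · intro r
      ext x
      constructor
      · exact fun h => ⟨h.1, h.2.1⟩
      · exact fun h => ⟨h.1, h.2, h.1⟩
  -- the target of the projection
  let Bd' : Submodule S (Finset (Fin d) → B ⊗[R] (A ⧸ G')) :=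
    (kbd y (B ⊗[R] (↥(Gt j) ⧸ N)) p).map (kmap d (lT S B jV))
  let ι : HQ (R := R) B y (↥(Gt j) ⧸ N) p →ₗ[S] (Finset (Fin d) → B ⊗[R] (A ⧸ G')) ⧸ Bd' :=
    Submodule.mapQ _ Bd' (kmap d (lT S B jV)) (Submodule.map_le_iff_le_comap.1 le_rfl)
  have hkjV : Function.Injective (kmap d (lT S B jV)) := fun a b h =>
    funext fun s => lT_injective (S := S) (B := B) hjV (congrFun h s)
  have hι : Function.Injective ι := by
    rw [← LinearMap.ker_eq_bot, Submodule.eq_bot_iff]
    intro x hx
    obtain ⟨x, rfl⟩ := Submodule.mkQ_surjective _ x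
    have : Submodule.Quotient.mk (p := Bd') (kmap d (lT S B jV) x) = 0 := hx
    rw [Submodule.Quotient.mk_eq_zero] at this
    obtain ⟨b, hb, hbx⟩ := this
    rw [Submodule.mkQ_apply, Submodule.Quotient.mk_eq_zero, ← hkjV hbx]
    exact hb
  have hjVδ : jV ∘ₗ δV = δA ∘ₗ jV := by
    refine LinearMap.ext fun x => ?_
    obtain ⟨x, rfl⟩ := Submodule.mkQ_surjective _ x
    rfl
  have hBdstab : Bd' ≤ Bd'.comap (kmap d (lT S B δA)) := by
    rintro _ ⟨b, hb, rfl⟩
    refine ⟨kmap d (lT S B δV) b, kmap_kbd_le y _ p (Submodule.mem_map_of_mem hb), ?_⟩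
    funext s
    simp only [kmap_apply, lT_comp_apply, hjVδ]
  let δ' : ((Finset (Fin d) → B ⊗[R] (A ⧸ G')) ⧸ Bd') →ₗ[S]
      ((Finset (Fin d) → B ⊗[R] (A ⧸ G')) ⧸ Bd') :=
    ((-1 : ℤ) ^ p) • Submodule.mapQ _ _ (kmap d (lT S B δA)) hBdstab
  have hιδ : ∀ x, ι (((-1 : ℤ) ^ p • hpMap B y p δV) x) = δ' (ι x) := by
    intro x
    obtain ⟨x, rfl⟩ := Submodule.mkQ_surjective _ x
    simp only [δ', LinearMap.smul_apply, map_zsmul]
    congr 1
    show Submodule.Quotient.mk (p := Bd') (kmap d (lT S B jV) (kmap d (lT S B δV) x)) =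
      Submodule.Quotient.mk (p := Bd') (kmap d (lT S B δA) (kmap d (lT S B jV) x))
    congr 1
    funext s
    simp only [kmap_apply, lT_comp_apply, hjVδ]
  let sel : (Finset (Fin d) → B ⊗[R] A) →ₗ[S] (Finset (Fin d) → B ⊗[R] (A ⧸ G')) :=
    LinearMap.pi fun s => if s.card = p then lT S B G'.mkQ ∘ₗ LinearMap.proj s else 0
  have hsel : ∀ f s, sel f s = if s.card = p then lT S B G'.mkQ (f s) else 0 := by
    intro f s
    simp only [sel, LinearMap.pi_apply]
    split <;> rfl
  let φ : (Finset (Fin d) → B ⊗[R] A) →ₗ[S] (Finset (Fin d) → B ⊗[R] (A ⧸ G')) ⧸ Bd' :=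
    Bd'.mkQ ∘ₗ sel
  -- auxiliary facts on the twists
  have hcard : ∀ s : Finset (Fin d), s.card ≤ d := fun s =>
    (Finset.card_le_univ s).trans (by simp)
  have hup : ∀ s : Finset (Fin d), s.card = p + 1 → τ' s.card = j ∧ τ s.card = j := by
    intro s hs
    have h1 : τ (p + 1) = j := hτ.above (by have := hcard s; omega)
    exact ⟨by rw [hs, hτ.other _ (by omega), h1], by rw [hs, h1]⟩
  have hins : ∀ (s : Finset (Fin d)) l, l ∉ s → (insert l s).card = s.card + 1 :=
    fun s l hl => Finset.card_insert_of_notMem hl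
  have hmkQ0 : ∀ x ∈ gbar S B G', lT S B G'.mkQ x = 0 := fun x hx => by
    rw [← LinearMap.mem_ker, ker_lT_mkQ]; exact hx
  -- lifts to the degree `i` part of level `j`
  have hlift : ∀ i, ∀ z : B ⊗[R] ↥(g i), ∃ Z ∈ gbar S B (Gt j ⊓ P i),
      lT S B G'.mkQ Z = lT S B jV (lT S B (g i).subtype z) := by
    intro i z
    let π : ↥(Gt j ⊓ P i) →ₗ[R] ↥(g i) :=
      { toFun := fun x => ⟨N.mkQ ⟨x.1, x.2.1⟩, ⟨⟨x.1, x.2.1⟩, x.2.2, rfl⟩⟩
        map_add' := fun _ _ => rfl
        map_smul' := fun _ _ => rfl }
    have hπ : Function.Surjective π := by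
      rintro ⟨_, ⟨x, hx, rfl⟩⟩
      exact ⟨⟨x.1, x.2, hx⟩, rfl⟩
    obtain ⟨w, rfl⟩ := lT_surjective (S := S) (B := B) hπ z
    refine ⟨lT S B (Gt j ⊓ P i).subtype w, ⟨w, rfl⟩, ?_⟩
    simp only [lT_comp_apply]
    rfl
  have hproj : ∀ i, ∀ x ∈ gbar S B (Gt j ⊓ P i), ∃ z : B ⊗[R] ↥(g i),
      lT S B G'.mkQ x = lT S B jV (lT S B (g i).subtype z) := by
    rintro i _ ⟨w, rfl⟩
    let π : ↥(Gt j ⊓ P i) →ₗ[R] ↥(g i) :=
      { toFun := fun x => ⟨N.mkQ ⟨x.1, x.2.1⟩, ⟨⟨x.1, x.2.1⟩, x.2.2, rfl⟩⟩
        map_add' := fun _ _ => rfl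
        map_smul' := fun _ _ => rfl }
    refine ⟨lT S B π w, ?_⟩
    simp only [lT_comp_apply]
    rfl
  have hinjg : ∀ i, Function.Injective
      (lT S B jV ∘ₗ lT S B (g i).subtype : B ⊗[R] ↥(g i) →ₗ[S] B ⊗[R] (A ⧸ G')) := fun i =>
    (lT_injective (S := S) (B := B) hjV).comp (lT_injective (S := S) (B := B) (g i).injective_subtype)
  -- the middle complex
  let O : ℤ → Submodule S (Finset (Fin d) → B ⊗[R] A) := fun r =>
    DT B y P Gt τ' r ⊓ kchain S d (B ⊗[R] A) (p + 1)
  let D3 : ℤ → Submodule S (Finset (Fin d) → B ⊗[R] A) := fun r =>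
    DT B y P Gt τ r ⊔ (O r ⊔ (O (r - 1)).map (dT B y δ))
  have hd : dT B y δ ∘ₗ dT B y δ = 0 := dT_dT y δ H.sq0
  have hQ := DT_stable (S := S) (B := B) H y τ
  have hP' := DT_stable (S := S) (B := B) H y τ'
  have hle : ∀ r, DT B y P Gt τ r ≤ DT B y P Gt τ' r :=
    DT_mono y H.anti fun l _ => by
      by_cases hl : l = p
      · subst hl; rw [hτ.at_p, hτ.at_p']; omega
      · rw [hτ.other l hl]
  have hD3le : ∀ r, D3 r ≤ DT B y P Gt τ' r := fun r =>
    sup_le (hle r) (sup_le inf_le_left ((Submodule.map_mono inf_le_left).trans (hP'.map_pred r)))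
  have hD3 : IsStable (dT B y δ) D3 := by
    intro r
    simp only [D3, Submodule.map_sup]
    refine sup_le ((hQ r).trans le_sup_left) (sup_le ?_ ?_)
    · simp only [add_sub_cancel_right]
      exact le_sup_of_le_right le_sup_right
    · rw [← Submodule.map_comp, hd, Submodule.map_zero]
      exact bot_le
  have hacyc : ∀ r, hlen S (dT B y δ) D3 (DT B y P Gt τ) r = 0 := by
    refine hlen_eq_zero_of_cone hd hQ (fun r => rfl) fun r => ?_
    rintro f ⟨⟨hf, hfc⟩, hdf⟩
    rw [SetLike.mem_coe, mem_DT] at hf
    rw [SetLike.mem_coe, Submodule.mem_comap, mem_DT] at hdf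
    rw [mem_DT]
    constructor
    · intro s
      by_cases hs : s.card = p + 1
      · have h := hup s hs
        have h2 := hf.1 s
        rw [h.1] at h2
        rw [h.2]; exact h2
      · rw [hfc s hs]; exact Submodule.zero_mem _
    · intro s
      by_cases hs : s.card = p
      · have h2 := gbar_mono (S := S) (B := B) inf_le_left (hdf.1 s)
        rwa [dT_apply, hfc s (by omega), map_zero, smul_zero, add_zero] at h2
      · rw [kd_mem_kchain y hfc s hs]; exact Submodule.zero_mem _
  rw [hlen_eq_of_left_zero hd hD3 hQ hP' (fun r => le_sup_left) hD3le hacyc r]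
  -- projection to the homology of the piece
  have hfin' : hlen R δV g (fun _ => ⊥) (r + p) ≠ ⊤ := hgr (r + p) ▸ hfin
  rw [hgr, ← hlen_EE HB hVk p δV hδV g hg (r + p) hfin']
  let E : ℤ → Submodule S (HQ (R := R) B y (↥(Gt j) ⧸ N) p) := fun i => EE B y p (g i)
  have hE : IsStable (hpMap B y p δV) E := fun i => by
    simp only [E]
    rw [← EE_map HB hVk]
    exact EE_mono p (hg i)
  have hE' : IsStable ((-1 : ℤ) ^ p • hpMap B y p δV) E := by
    rintro i _ ⟨x, hx, rfl⟩
    exact zsmul_mem (hE i (Submodule.mem_map_of_mem hx)) _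
  have hshift : hlen S (hpMap B y p δV) E (fun _ => ⊥) (r + p) =
      hlen S δ' (fun r : ℤ => (E (r + p)).map ι) (fun _ => ⊥) r := by
    rw [← hlen_zsmul (hpMap B y p δV) _ _ _ p]
    refine Eq.trans ?_ (hlen_map (d := (-1 : ℤ) ^ p • hpMap B y p δV) (d' := δ') ι
      (P := fun r : ℤ => E (r + p)) (Q := fun _ => ⊥)
      (P' := fun r : ℤ => (E (r + p)).map ι) (Q' := fun _ => ⊥) (fun i => ?_)
      (fun i => by simp) (fun i x _ => hιδ x) (fun i => by simp) (fun i => ?_) r)
    · simp only [hlen]
      rw [show r - 1 + (p : ℤ) = r + p - 1 by ring]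
    · have := hE' (i + p)
      rwa [show i + (p : ℤ) + 1 = i + 1 + p by ring] at this
    · rw [Submodule.comap_bot, LinearMap.ker_eq_bot.2 hι, inf_bot_eq]
  rw [hshift]
  refine hlen_map φ hP' (fun r => by simp) ?_ ?_ ?_ r
  · -- commutation
    intro i f hf
    rw [mem_DT] at hf
    have hw : ∀ s : Finset (Fin d), s.card = p + 1 →
        ∃ w : B ⊗[R] (↥(Gt j) ⧸ N), lT S B jV w = lT S B G'.mkQ (f s) := by
      intro s hs
      have h1 := hf.1 s
      rw [(hup s hs).1] at h1
      obtain ⟨z, hz⟩ := hproj _ _ h1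
      exact ⟨_, hz.symm⟩
    choose! w hw using hw
    let W : Finset (Fin d) → B ⊗[R] (↥(Gt j) ⧸ N) := fun s => if s.card = p + 1 then w s else 0
    have hW : W ∈ kchain S d _ (p + 1) := fun s hs => if_neg hs
    show Submodule.Quotient.mk (sel (dT B y δ f)) =
      ((-1 : ℤ) ^ p) • Submodule.Quotient.mk (p := Bd') (kmap d (lT S B δA) (sel f))
    rw [← Submodule.Quotient.mk_smul, Submodule.Quotient.eq]
    refine ⟨kd y _ W, ⟨W, hW, rfl⟩, ?_⟩
    rw [← kd_kmap]
    funext s
    simp only [Pi.sub_apply, Pi.smul_apply, kmap_apply, hsel, dT_apply]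
    by_cases hs : s.card = p
    · rw [if_pos hs, if_pos hs, map_add, map_zsmul, hs, lT_comp_apply (S := S) (B := B),
        lT_comp_apply (S := S) (B := B), show δA ∘ₗ G'.mkQ = G'.mkQ ∘ₗ δ from rfl,
        add_sub_cancel_right, kd_apply, kd_apply, map_sum]
      refine Finset.sum_congr rfl fun l hl => ?_
      have hc : (insert l s).card = p + 1 := by rw [hins s l (by simpa using hl), hs]
      rw [map_zsmul, map_smul, kmap_apply]
      simp only [W, if_pos hc, hw _ hc]
    · rw [if_neg hs, if_neg hs, map_zero, smul_zero, sub_zero]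
      exact kd_mem_kchain y (kmap_kchain_le _ _ (Submodule.mem_map_of_mem hW)) s hs
  · -- surjectivity
    intro i
    simp only [sup_bot_eq]
    apply le_antisymm
    · rintro _ ⟨f, hf, rfl⟩
      rw [SetLike.mem_coe, mem_DT] at hf
      have hz : ∀ s : Finset (Fin d), s.card = p →
          ∃ z : B ⊗[R] ↥(g (i + p)),
            lT S B G'.mkQ (f s) = lT S B jV (lT S B (g (i + p)).subtype z) := by
        intro s hs
        have h1 := hf.1 s
        rw [hs, hτ.at_p'] at h1
        exact hproj _ _ h1
      choose! z hz using hz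
      let Z : Finset (Fin d) → B ⊗[R] ↥(g (i + p)) := fun s => if s.card = p then z s else 0
      have hZc : Z ∈ kchain S d _ p := fun s hs => if_neg hs
      have hZsel : kmap d (lT S B jV) (kmap d (lT S B (g (i + p)).subtype) Z) = sel f := by
        funext s
        by_cases hs : s.card = p
        · simp [hsel, hs, Z, hz s hs]
        · simp [hsel, hs, Z]
      have hZ : Z ∈ kcyc y _ p := by
        refine ⟨hZc, ?_⟩
        rw [SetLike.mem_coe, LinearMap.mem_ker]
        funext s
        apply hinjg (i + p)
        show lT S B jV (lT S B (g (i + p)).subtype (kd y _ Z s)) = _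
        rw [← kmap_apply (d := d) (lT S B (g (i + p)).subtype), ← kd_kmap,
          ← kmap_apply (d := d) (lT S B jV), ← kd_kmap, hZsel]
        simp only [Pi.zero_apply, map_zero]
        by_cases hs : s.card + 1 = p
        · have h2 := hf.2 s
          rw [hτ.other _ (by omega), hτ.below _ hs] at h2
          rw [← hmkQ0 _ h2, kd_apply, kd_apply, map_sum]
          refine Finset.sum_congr rfl fun l hl => ?_
          rw [map_zsmul, map_smul, hsel, if_pos (by rw [hins s l (by simpa using hl), hs])]
        · rw [kd_apply]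
          refine Finset.sum_eq_zero fun l hl => ?_
          rw [hsel, if_neg (by rw [hins s l (by simpa using hl)]; exact hs), smul_zero, smul_zero]
      refine ⟨hpMap B y p (g (i + p)).subtype (Submodule.Quotient.mk Z), ?_, ?_⟩
      · exact Submodule.mem_map_of_mem ⟨Z, hZ, rfl⟩
      · show Submodule.Quotient.mk (p := Bd')
          (kmap d (lT S B jV) (kmap d (lT S B (g (i + p)).subtype) Z)) = _
        rw [hZsel]; rfl
    · rintro _ ⟨_, ⟨_, ⟨Z, ⟨hZc, hZk⟩, rfl⟩, rfl⟩, rfl⟩
      choose L hL hL' using fun s => hlift (i + p) (Z s)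
      let F : Finset (Fin d) → B ⊗[R] A := fun s => if s.card = p then L s else 0
      have hFc : F ∈ kchain S d _ p := fun s hs => if_neg hs
      have hFsel : sel F = kmap d (lT S B jV) (kmap d (lT S B (g (i + p)).subtype) Z) := by
        funext s
        by_cases hs : s.card = p
        · simp [hsel, hs, F, hL' s]
        · simp [hsel, hs, hZc s hs]
      refine ⟨F, ?_, ?_⟩
      · rw [SetLike.mem_coe, mem_DT]
        constructor
        · intro s
          by_cases hs : s.card = p
          · simp only [F, if_pos hs]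
            rw [hs, hτ.at_p']
            exact hL s
          · simp only [F, if_neg hs]; exact Submodule.zero_mem _
        · intro s
          by_cases hs : s.card + 1 = p
          · rw [hτ.other _ (by omega), hτ.below _ hs, ← ker_lT_mkQ, LinearMap.mem_ker]
            have h1 : kd y _ (sel F) s = 0 := by
              rw [hFsel, kd_kmap, kd_kmap, LinearMap.mem_ker.1 hZk]
              simp
            rw [← h1, kd_apply, kd_apply, map_sum]
            refine Finset.sum_congr rfl fun l hl => ?_
            rw [map_zsmul, map_smul, hsel, if_pos (by rw [hins s l (by simpa using hl), hs])]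
          · rw [kd_apply]
            refine Submodule.sum_mem _ fun l hl => ?_
            simp only [F]
            rw [if_neg (by rw [hins s l (by simpa using hl)]; exact hs), smul_zero, smul_zero]
            exact Submodule.zero_mem _
      · show Submodule.Quotient.mk (sel F) = _
        rw [hFsel]; rfl
  · -- kernel
    intro i
    apply le_antisymm
    · rintro f ⟨hf, hf0⟩
      have hfD : f ∈ DT B y P Gt τ' i := hf
      rw [SetLike.mem_coe, mem_DT] at hf
      have hf0' : sel f ∈ Bd' := by
        have : Submodule.Quotient.mk (p := Bd') (sel f) = 0 := hf0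
        rwa [Submodule.Quotient.mk_eq_zero] at this
      have hz : ∀ s : Finset (Fin d), s.card = p →
          ∃ z : B ⊗[R] ↥(g (i + p)),
            lT S B G'.mkQ (f s) = lT S B jV (lT S B (g (i + p)).subtype z) := by
        intro s hs
        have h1 := hf.1 s
        rw [hs, hτ.at_p'] at h1
        exact hproj _ _ h1
      choose! z hz using hz
      let Z : Finset (Fin d) → B ⊗[R] ↥(g (i + p)) := fun s => if s.card = p then z s else 0
      have hZc : Z ∈ kchain S d _ p := fun s hs => if_neg hs
      have hZsel : kmap d (lT S B jV) (kmap d (lT S B (g (i + p)).subtype) Z) = sel f := by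
        funext s
        by_cases hs : s.card = p
        · simp [hsel, hs, Z, hz s hs]
        · simp [hsel, hs, Z]
      rw [← hZsel] at hf0'
      obtain ⟨b, hb, hb'⟩ := hf0'
      have hZb : kmap d (lT S B (g (i + p)).subtype) Z ∈ kbd y _ p := hkjV hb' ▸ hb
      have hZker : Z ∈ LinearMap.ker (kd y (B ⊗[R] ↥(g (i + p)))) := by
        rw [LinearMap.mem_ker]
        have hinj2 : Function.Injective (kmap d (lT S B (g (i + p)).subtype)) := fun a b h =>
          funext fun s => lT_injective (S := S) (B := B) (g (i + p)).injective_subtype (congrFun h s)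
        apply hinj2
        obtain ⟨w, hw, hw'⟩ := hZb
        rw [← kd_kmap, ← hw', map_zero]
        exact LinearMap.congr_fun (kd_kd y) w
      have hZhp : (Submodule.Quotient.mk Z : HQ (R := R) B y ↥(g (i + p)) p) ∈
          hp B y ↥(g (i + p)) p ⊓ LinearMap.ker (hpMap B y p (g (i + p)).subtype) :=
        ⟨⟨Z, ⟨hZc, hZker⟩, rfl⟩, by
          rw [SetLike.mem_coe, LinearMap.mem_ker, hpMap_mk, Submodule.Quotient.mk_eq_zero]
          exact hZb⟩
      rw [EE_inj HB hVk, Submodule.mem_bot, Submodule.Quotient.mk_eq_zero] at hZhp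
      obtain ⟨w, hw, hw'⟩ := hZhp
      choose L hL hL' using fun s => hlift (i + p) (w s)
      let X : Finset (Fin d) → B ⊗[R] A := fun s => if s.card = p + 1 then L s else 0
      have hXc : X ∈ kchain S d _ (p + 1) := fun s hs => if_neg hs
      have hX : X ∈ O (i - 1) := by
        refine ⟨?_, hXc⟩
        rw [SetLike.mem_coe, mem_DT]
        constructor
        · intro s
          by_cases hs : s.card = p + 1
          · simp only [X, if_pos hs]
            rw [(hup s hs).1, hs, show i - 1 + ((p + 1 : ℕ) : ℤ) = i + p by push_cast; ring]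
            exact hL s
          · simp only [X, if_neg hs]; exact Submodule.zero_mem _
        · intro s
          by_cases hs : s.card = p
          · rw [hs, hτ.at_p']
            refine kd_mem_of_comp y _ X s fun l hl => ?_
            simp only [X, if_pos (show (insert l s).card = p + 1 by rw [hins s l hl, hs])]
            exact gbar_mono inf_le_left (hL _)
          · rw [kd_mem_kchain y hXc s hs]; exact Submodule.zero_mem _
      have hfX : f - dT B y δ X ∈ DT B y P Gt τ' i :=
        Submodule.sub_mem _ hfD (hP'.map_pred i (Submodule.mem_map_of_mem hX.1))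
      let f' := f - dT B y δ X
      have hp' : ∀ s : Finset (Fin d), s.card = p → f' s ∈ gbar S B G' := by
        intro s hs
        rw [← ker_lT_mkQ, LinearMap.mem_ker]
        show lT S B G'.mkQ (f s - dT B y δ X s) = 0
        rw [dT_apply, hXc s (by omega), map_zero, smul_zero, add_zero, map_sub, sub_eq_zero,
          hz s hs]
        have h1 : z s = kd y _ w s := by
          have := congrFun hw' s
          simpa [Z, hs] using this.symm
        rw [h1, kd_apply, kd_apply, map_sum, map_sum, map_sum]
        refine Finset.sum_congr rfl fun l hl => ?_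
        rw [map_zsmul, map_zsmul, map_zsmul, map_smul, map_smul, map_smul]
        simp only [X, if_pos (show (insert l s).card = p + 1 by
          rw [hins s l (by simpa using hl), hs])]
        rw [hL']
      have hfX2 : f' ∈ DT B y P Gt τ' i := hfX
      rw [mem_DT] at hfX2
      let o : Finset (Fin d) → B ⊗[R] A := fun s => if s.card = p + 1 then f' s else 0
      have hoc : o ∈ kchain S d _ (p + 1) := fun s hs => if_neg hs
      have ho : o ∈ O i := by
        refine ⟨?_, hoc⟩
        rw [SetLike.mem_coe, mem_DT]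
        constructor
        · intro s
          by_cases hs : s.card = p + 1
          · simp only [o, if_pos hs]; exact hfX2.1 s
          · simp only [o, if_neg hs]; exact Submodule.zero_mem _
        · intro s
          by_cases hs : s.card = p
          · rw [hs, hτ.at_p']
            refine kd_mem_of_comp y _ o s fun l hl => ?_
            have hc : (insert l s).card = p + 1 := by rw [hins s l hl, hs]
            simp only [o, if_pos hc]
            have h1 := gbar_mono (S := S) (B := B) inf_le_left (hfX2.1 (insert l s))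
            rwa [(hup _ hc).1] at h1
          · rw [kd_mem_kchain y hoc s hs]; exact Submodule.zero_mem _
      have hq : f' - o ∈ DT B y P Gt τ i := by
        rw [mem_DT]
        constructor
        · intro s
          by_cases hs : s.card = p + 1
          · simp [o, hs]
          · simp only [Pi.sub_apply, o, if_neg hs, sub_zero]
            by_cases hs' : s.card = p
            · rw [hs', hτ.at_p, gbar_inf]
              refine ⟨hp' s hs', ?_⟩
              have := gbar_mono (S := S) (B := B) inf_le_right (hfX2.1 s)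
              rwa [hs'] at this
            · rw [← hτ.other _ hs']; exact hfX2.1 s
        · intro s
          by_cases hs : s.card = p
          · have h0 : kd y (B ⊗[R] A) (f' - o) s = 0 := by
              rw [kd_apply]
              refine Finset.sum_eq_zero fun l hl => ?_
              have hc : (insert l s).card = p + 1 := by rw [hins s l (by simpa using hl), hs]
              simp [o, hc]
            rw [h0]; exact Submodule.zero_mem _
          · by_cases hs2 : s.card + 1 = p
            · rw [hτ.below _ hs2]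
              refine kd_mem_of_comp y _ _ s fun l hl => ?_
              have hc : (insert l s).card = p := by rw [hins s l hl, hs2]
              simp only [Pi.sub_apply, o, if_neg (show ¬ (insert l s).card = p + 1 by omega),
                sub_zero]
              exact hp' _ hc
            · rw [map_sub, Pi.sub_apply, kd_mem_kchain y hoc s hs, sub_zero, ← hτ.other _ hs]
              exact hfX2.2 s
      have : f = (f' - o) + (o + dT B y δ X) := by simp only [f']; abel
      rw [this]
      exact Submodule.add_mem_sup hq (Submodule.add_mem_sup ho (Submodule.mem_map_of_mem hX))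
    · refine le_inf (hD3le i) (sup_le ?_ (sup_le ?_ ?_))
      · intro f hf
        rw [mem_DT] at hf
        rw [Submodule.mem_comap, Submodule.mem_bot]
        show Submodule.Quotient.mk (sel f) = 0
        have : sel f = 0 := by
          funext s
          rw [hsel]
          by_cases hs : s.card = p
          · rw [if_pos hs]
            have h1 := gbar_mono (S := S) (B := B) inf_le_left (hf.1 s)
            rw [hs, hτ.at_p] at h1
            exact hmkQ0 _ h1
          · rw [if_neg hs]; rfl
        rw [this]; rfl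
      · intro f hf
        rw [Submodule.mem_comap, Submodule.mem_bot]
        show Submodule.Quotient.mk (sel f) = 0
        have : sel f = 0 := by
          funext s
          rw [hsel]
          by_cases hs : s.card = p
          · rw [if_pos hs, hf.2 s (by omega), map_zero]; rfl
          · rw [if_neg hs]; rfl
        rw [this]; rfl
      · rintro _ ⟨x, ⟨hx, hxc⟩, rfl⟩
        rw [Submodule.mem_comap, Submodule.mem_bot]
        show Submodule.Quotient.mk (sel (dT B y δ x)) = 0
        rw [SetLike.mem_coe, mem_DT] at hx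
        have hw : ∀ s : Finset (Fin d), s.card = p + 1 →
            ∃ w : B ⊗[R] (↥(Gt j) ⧸ N), lT S B jV w = lT S B G'.mkQ (x s) := by
          intro s hs
          have h1 := hx.1 s
          rw [(hup s hs).1] at h1
          obtain ⟨z, hz⟩ := hproj _ _ h1
          exact ⟨_, hz.symm⟩
        choose! w hw using hw
        let W : Finset (Fin d) → B ⊗[R] (↥(Gt j) ⧸ N) := fun s =>
          if s.card = p + 1 then w s else 0
        have hW : W ∈ kchain S d _ (p + 1) := fun s hs => if_neg hs
        rw [Submodule.Quotient.mk_eq_zero]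
        refine ⟨kd y _ W, ⟨W, hW, rfl⟩, ?_⟩
        rw [← kd_kmap]
        funext s
        rw [hsel]
        by_cases hs : s.card = p
        · rw [if_pos hs, dT_apply, hxc s (by omega), map_zero, smul_zero, add_zero, kd_apply,
            kd_apply, map_sum]
          refine Finset.sum_congr rfl fun l hl => ?_
          have hc : (insert l s).card = p + 1 := by rw [hins s l (by simpa using hl), hs]
          rw [map_zsmul, map_smul, kmap_apply]
          simp only [W, if_pos hc, hw _ hc]
        · rw [if_neg hs]
          exact kd_mem_kchain y (kmap_kchain_le _ _ (Submodule.mem_map_of_mem hW)) s hs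

end Vale.Agent.P202
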