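import Vale.Agent.P202.HPApp

/-! Koszul homology of `(R' ⊗[R] S) ⊗[R'] V` for a change of rings `R → R'`. -/

universe u

namespace Vale.Agent.P202

open TensorProduct IsLocalRing

attribute [local instance] Algebra.TensorProduct.rightAlgebra

section

variable {R S : Type*} [CommRing R] [CommRing S] {B : Type*} [AddCommGroup B] [Module R B]
  [Module S B] [SMulCommClass R S B] {d : ℕ} {y : Fin d → S} {p : ℕ}
  {U V W : Type*} [AddCommGroup U] [Module R U] [AddCommGroup V] [Module R V] [AddCommGroup W]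
  [Module R W]

/-- Exactness from splittings that only exist after tensoring. -/
lemma hp_exact_of_split' (f : U →ₗ[R] V) (g : V →ₗ[R] W)
    (ρ : (B ⊗[R] V) →ₗ[S] (B ⊗[R] U)) (τ : (B ⊗[R] W) →ₗ[S] (B ⊗[R] V))
    (hρ : ρ ∘ₗ lT S B f = LinearMap.id) (hτ : lT S B g ∘ₗ τ = LinearMap.id)
    (hid : lT S B f ∘ₗ ρ + τ ∘ₗ lT S B g = LinearMap.id) :
    hp B y U p ⊓ LinearMap.ker (hpMap B y p f) = ⊥ ∧
      hp B y V p ⊓ LinearMap.ker (hpMap B y p g) ≤ (hp B y U p).map (hpMap B y p f) ∧
      hp B y W p ≤ (hp B y V p).map (hpMap B y p g) := by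
  refine ⟨?_, ?_, ?_⟩
  · rw [eq_bot_iff]
    rintro _ ⟨⟨z, _, rfl⟩, hz'⟩
    rw [SetLike.mem_coe, LinearMap.mem_ker, Submodule.mkQ_apply, hpMap_mk,
      Submodule.Quotient.mk_eq_zero] at hz'
    rw [Submodule.mem_bot, Submodule.mkQ_apply, Submodule.Quotient.mk_eq_zero]
    have h1 := kmap_kbd_le y ρ p (Submodule.mem_map_of_mem hz')
    have h2 : kmap d ρ (kmap d (lT S B f) z) = z := funext fun s => LinearMap.congr_fun hρ (z s)
    rwa [h2] at h1
  · rintro _ ⟨⟨z, hz, rfl⟩, hz'⟩
    rw [SetLike.mem_coe, LinearMap.mem_ker, Submodule.mkQ_apply, hpMap_mk,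
      Submodule.Quotient.mk_eq_zero] at hz'
    refine ⟨Submodule.Quotient.mk (kmap d ρ z),
      ⟨_, kmap_kcyc_le y ρ p (Submodule.mem_map_of_mem hz), rfl⟩, ?_⟩
    rw [hpMap_mk, Submodule.mkQ_apply, Submodule.Quotient.eq]
    have h1 := kmap_kbd_le y τ p (Submodule.mem_map_of_mem hz')
    have h2 : kmap d (lT S B f) (kmap d ρ z) - z = -kmap d τ (kmap d (lT S B g) z) := by
      funext s
      have := LinearMap.congr_fun hid (z s)
      simp only [LinearMap.add_apply, LinearMap.comp_apply, LinearMap.id_apply] at this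
      simp only [Pi.sub_apply, Pi.neg_apply, kmap_apply]
      linear_combination (norm := abel) this
    rw [h2]
    exact Submodule.neg_mem _ h1
  · rintro _ ⟨z, hz, rfl⟩
    refine ⟨Submodule.Quotient.mk (kmap d τ z),
      ⟨_, kmap_kcyc_le y τ p (Submodule.mem_map_of_mem hz), rfl⟩, ?_⟩
    rw [hpMap_mk, Submodule.mkQ_apply]
    congr 1
    exact funext fun s => LinearMap.congr_fun hτ (z s)

end

section

variable (R R' S : Type u) [CommRing R] [CommRing R'] [CommRing S] [Algebra R R'] [Algebra R S]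

lemma rsmul_tmul (s : S) (r : R') (t : S) :
    s • (r ⊗ₜ[R] t) = r ⊗ₜ[R] (s * t) := by
  rw [Algebra.smul_def, Algebra.TensorProduct.right_algebraMap_apply,
    Algebra.TensorProduct.tmul_mul_tmul, one_mul]

variable (V : Type u) [AddCommGroup V] [Module R' V] [Module R V] [IsScalarTower R R' V]

/-- `(R' ⊗ S) ⊗[R'] V ≅ S ⊗[R] V`. -/
noncomputable def chg : ((R' ⊗[R] S) ⊗[R'] V) ≃ₗ[S] S ⊗[R] V :=
  let e : ((R' ⊗[R] S) ⊗[R'] V) ≃+ S ⊗[R] V :=
    ((TensorProduct.comm R' (R' ⊗[R] S) V).toAddEquiv.trans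
      (AlgebraTensorModule.cancelBaseChange R R' R' V S).toAddEquiv).trans
      (TensorProduct.comm R V S).toAddEquiv
  { e with
    map_smul' := fun s x => by
      show e (s • x) = s • e x
      induction x using TensorProduct.induction_on with
      | zero => simp
      | tmul b v =>
        induction b using TensorProduct.induction_on with
        | zero => simp
        | tmul r t =>
          rw [TensorProduct.smul_tmul', rsmul_tmul]
          simp [e, TensorProduct.smul_tmul']
        | add b c hb hc =>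
          rw [TensorProduct.add_tmul, smul_add, map_add, map_add, smul_add, hb, hc]
      | add x z hx hz => rw [smul_add, map_add, map_add, smul_add, hx, hz] }

lemma chg_tmul (r : R') (t : S) (v : V) :
    chg R R' S V ((r ⊗ₜ[R] t) ⊗ₜ[R'] v) = t ⊗ₜ[R] (r • v) := rfl

variable {R R' S V} {W : Type u} [AddCommGroup W] [Module R' W] [Module R W] [IsScalarTower R R' W]

lemma chg_natural (g : V →ₗ[R'] W) (x : (R' ⊗[R] S) ⊗[R'] V) :
    chg R R' S W (lT S (R' ⊗[R] S) g x) = lT S S (g.restrictScalars R) (chg R R' S V x) := by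
  induction x using TensorProduct.induction_on with
  | zero => simp
  | tmul b v =>
    induction b using TensorProduct.induction_on with
    | zero => simp
    | tmul r t => rw [lT_tmul, chg_tmul, chg_tmul, lT_tmul]; simp
    | add b c hb hc => simp only [TensorProduct.add_tmul, map_add, hb, hc]
  | add x z hx hz => simp only [map_add, hx, hz]

variable (R R' S) in
/-- The conjugate of an `R`-linear map. -/
noncomputable def chgMap (r : V →ₗ[R] W) :
    ((R' ⊗[R] S) ⊗[R'] V) →ₗ[S] ((R' ⊗[R] S) ⊗[R'] W) :=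
  (chg R R' S W).symm.toLinearMap ∘ₗ lT S S r ∘ₗ (chg R R' S V).toLinearMap

lemma chgMap_restrict (g : V →ₗ[R'] W) :
    chgMap R R' S (g.restrictScalars R) = lT S (R' ⊗[R] S) g := by
  refine LinearMap.ext fun x => ?_
  simp [chgMap, ← chg_natural]

variable {U : Type u} [AddCommGroup U] [Module R' U] [Module R U] [IsScalarTower R R' U]

lemma chgMap_comp (g : V →ₗ[R] W) (f : U →ₗ[R] V) :
    chgMap R R' S g ∘ₗ chgMap R R' S f = chgMap R R' S (g ∘ₗ f) := by
  refine LinearMap.ext fun x => ?_
  simp [chgMap, lT_comp_apply]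

lemma chgMap_id : chgMap R R' S (LinearMap.id : V →ₗ[R] V) = LinearMap.id := by
  refine LinearMap.ext fun x => ?_
  simp [chgMap, lT_id]

lemma chgMap_add (f g : V →ₗ[R] W) :
    chgMap R R' S (f + g) = chgMap R R' S f + chgMap R R' S g := by
  refine LinearMap.ext fun x => ?_
  simp [chgMap, lT_add]

end

/-- `HPHyp` for the base change, with the multiplicities scaled by the residue degree `κ`. -/
theorem hpHyp_baseChange (R R' S : Type u) [CommRing R] [IsLocalRing R] [CommRing R']
    [IsLocalRing R'] [CommRing S] [Algebra R R'] [IsLocalHom (algebraMap R R')] [Algebra R S]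
    {d : ℕ} (y : Fin d → S) (κ : ℕ) (hκ : Module.length R (ResidueField R') = κ) (β : ℕ → ℕ)
    (hβ : ∀ p, khlen y (S ⊗[R] ResidueField R) p = β p) :
    HPHyp (R' ⊗[R] S) y ((maximalIdeal R).map (algebraMap R R')) (fun p => κ * β p) := by
  have hkill : ∀ (V : Type u) [AddCommGroup V] [Module R' V] [Module R V] [IsScalarTower R R' V],
      KilledBy ((maximalIdeal R).map (algebraMap R R')) V → KilledBy (maximalIdeal R) V := by
    intro V _ _ _ _ h a ha v
    rw [← algebraMap_smul R' a v]
    exact h _ (Ideal.mem_map_of_mem _ ha) v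
  have hex : ∀ (U V W : Type u) [AddCommGroup U] [Module R' U] [AddCommGroup V] [Module R' V]
      [AddCommGroup W] [Module R' W] (f : U →ₗ[R'] V) (g : V →ₗ[R'] W),
      KilledBy ((maximalIdeal R).map (algebraMap R R')) U →
      KilledBy ((maximalIdeal R).map (algebraMap R R')) V →
      KilledBy ((maximalIdeal R).map (algebraMap R R')) W →
      Function.Injective f → Function.Exact f g → Function.Surjective g → ∀ p,
      hp (R' ⊗[R] S) y U p ⊓ LinearMap.ker (hpMap (R' ⊗[R] S) y p f) = ⊥ ∧
      hp (R' ⊗[R] S) y V p ⊓ LinearMap.ker (hpMap (R' ⊗[R] S) y p g) ≤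
        (hp (R' ⊗[R] S) y U p).map (hpMap (R' ⊗[R] S) y p f) ∧
      hp (R' ⊗[R] S) y W p ≤ (hp (R' ⊗[R] S) y V p).map (hpMap (R' ⊗[R] S) y p g) := by
    intro U V W _ _ _ _ _ _ f g hU hV _ hf he hg p
    letI : Module R U := Module.compHom U (algebraMap R R')
    letI : Module R V := Module.compHom V (algebraMap R R')
    letI : Module R W := Module.compHom W (algebraMap R R')
    haveI : IsScalarTower R R' U := IsScalarTower.of_algebraMap_smul fun _ _ => rfl
    haveI : IsScalarTower R R' V := IsScalarTower.of_algebraMap_smul fun _ _ => rfl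
    haveI : IsScalarTower R R' W := IsScalarTower.of_algebraMap_smul fun _ _ => rfl
    obtain ⟨r, t, hr, ht, hid⟩ := exists_split (hkill U hU) (hkill V hV) (f.restrictScalars R)
      (g.restrictScalars R) hf he hg
    refine hp_exact_of_split' f g (chgMap R R' S r) (chgMap R R' S t) ?_ ?_ ?_
    · rw [← chgMap_restrict, chgMap_comp, hr, chgMap_id]
    · rw [← chgMap_restrict, chgMap_comp, ht, chgMap_id]
    · rw [← chgMap_restrict f, ← chgMap_restrict g, chgMap_comp, chgMap_comp, ← chgMap_add, hid,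
        chgMap_id]
  -- lengths over `R` of modules killed by the maximal ideal of `R`
  have hlen : ∀ (W : Type u) [AddCommGroup W] [Module R W], KilledBy (maximalIdeal R) W →
      Module.length R W ≠ ⊤ → ∀ p, khlen y (S ⊗[R] W) p = β p * Module.length R W := by
    intro W _ _ hW hfin p
    refine khlen_eq_mul_length (I := maximalIdeal R) ?_ β ?_ W hW hfin p
    · intro U V W _ _ _ _ _ _ f g hU hV _ hf he hg p
      obtain ⟨r, t, hr, ht, hid⟩ := exists_split hU hV f g hf he hg
      exact hp_exact_of_split f g r t hr ht hid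
    · intro V _ _ _ hs p
      obtain ⟨m, hm, ⟨e⟩⟩ := isSimpleModule_iff_quot_maximal.1 hs
      obtain rfl := eq_maximalIdeal hm
      rw [← hβ p]
      refine khlen_congr y
        (AlgebraTensorModule.congr (LinearEquiv.refl S S) e) p
  refine ⟨hex, ?_⟩
  intro V _ _ hV hfin p
  refine khlen_eq_mul_length (I := (maximalIdeal R).map (algebraMap R R')) hex (fun p => κ * β p) ?_ V hV hfin p
  intro V _ _ hV hs p
  letI : Module R V := Module.compHom V (algebraMap R R')
  haveI : IsScalarTower R R' V := IsScalarTower.of_algebraMap_smul fun _ _ => rfl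
  obtain ⟨m, hm, ⟨e⟩⟩ := isSimpleModule_iff_quot_maximal.1 hs
  obtain rfl := eq_maximalIdeal hm
  have hl : Module.length R V = κ := by
    rw [← hκ]
    exact (e.restrictScalars R).length_eq
  rw [khlen_congr y (chg R R' S V) p, hlen V (hkill V hV) (by rw [hl]; exact ENat.coe_ne_top κ) p,
    hl, Nat.cast_mul, mul_comm]

end Vale.Agent.P202
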