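import Vale.Agent.P202.Psi

/-!
The value of `psi` on a twisted module: `psi (twist of M) = resDeg q^d psi M`.
-/

universe u

namespace Vale.Agent.P202

open TensorProduct IsLocalRing Filter

variable {R S : Type u} [CommRing R] [IsLocalRing R] [IsNoetherianRing R] [CommRing S]
  [IsLocalRing S] [IsNoetherianRing S] [Algebra R S] [IsLocalHom (algebraMap R S)]
  [Module.Flat R S] {d : ℕ} {y : Fin d → S}

lemma psi_killedBy_subsingleton (G : KoszulGoals.{u}) (hy : Par y) (M : Type u) [AddCommGroup M]
    [Module R M] (h : ∀ v : M, v = 0) : psi R y M = 0 :=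
  haveI : Subsingleton M := subsingleton_of_forall_eq 0 h
  psi_subsingleton G hy M

omit [IsLocalRing R] [IsNoetherianRing R] in
lemma killedBy_of_injective {I : Ideal R} {M N : Type u} [AddCommGroup M] [Module R M]
    [AddCommGroup N] [Module R N] (f : M →ₗ[R] N) (hf : Function.Injective f)
    (hN : KilledBy I N) : KilledBy I M :=
  fun a ha v => hf (by rw [map_smul, hN a ha, map_zero])

omit [IsLocalRing R] [IsNoetherianRing R] in
lemma killedBy_of_surjective {I : Ideal R} {M N : Type u} [AddCommGroup M] [Module R M]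
    [AddCommGroup N] [Module R N] (f : M →ₗ[R] N) (hf : Function.Surjective f)
    (hM : KilledBy I M) : KilledBy I N := by
  intro a ha v
  obtain ⟨w, rfl⟩ := hf v
  rw [← map_smul, hM a ha, map_zero]

/-- Two such functionals are proportional on the modules killed by a prime. -/
lemma psi_mul_psi {S' : Type u} [CommRing S'] [IsLocalRing S'] [IsNoetherianRing S']
    [Algebra R S'] [IsLocalHom (algebraMap R S')] [Module.Flat R S'] {y' : Fin d → S'}
    (G : KoszulGoals.{u}) (hy : Par y) (hy' : Par y') (hS : ndim R = ndim S)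
    (hS' : ndim R = ndim S') (P : Ideal R) [P.IsPrime] (hP : ndim (R ⧸ P) ≤ d)
    (M : Type u) [AddCommGroup M] [Module R M] [Module.Finite R M] (hM : KilledBy P M) :
    psi R y M * psi R y' (R ⧸ P) = psi R y' M * psi R y (R ⧸ P) := by
  revert hM
  refine IsNoetherianRing.induction_on_isQuotientEquivQuotientPrime R (M := M) ‹_›
    (motive := fun N _ _ _ => KilledBy P N →
      psi R y N * psi R y' (R ⧸ P) = psi R y' N * psi R y (R ⧸ P)) ?_ ?_ ?_
  · intro N _ _ _ _ _
    rw [psi_subsingleton G hy N, psi_subsingleton G hy' N]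
    simp
  · intro N _ _ _ Q e hN
    have hPQ : P ≤ Q.asIdeal := by
      intro a ha
      have h1 := congrArg e (hN a ha (e.symm (Ideal.Quotient.mk Q.asIdeal 1)))
      rw [map_smul, e.apply_symm_apply, map_zero, ← Ideal.Quotient.mk_eq_mk,
        ← Submodule.Quotient.mk_smul, Submodule.Quotient.mk_eq_zero] at h1
      simpa using h1
    rw [psi_congr (y := y) e, psi_congr (y := y') e]
    rcases hPQ.eq_or_lt with h | h
    · subst h
      exact mul_comm _ _
    · obtain ⟨z, hzQ, hzP⟩ := SetLike.exists_of_lt h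
      have hQm : Q.asIdeal ≤ maximalIdeal R := le_maximalIdeal Q.isPrime.ne_top
      have hlt := ndim_quotient_lt P hzP (hQm hzQ)
      have hkill : KilledBy (P ⊔ Ideal.span {z}) (R ⧸ Q.asIdeal) := by
        intro a ha v
        have haQ : a ∈ Q.asIdeal :=
          sup_le hPQ ((Ideal.span_singleton_le_iff_mem _).2 hzQ) ha
        obtain ⟨v, rfl⟩ := Submodule.Quotient.mk_surjective _ v
        rw [← Submodule.Quotient.mk_smul, Submodule.Quotient.mk_eq_zero]
        exact Q.asIdeal.mul_mem_right v haQ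
      rw [psi_eq_zero G hy hS _ (hlt.trans_le hP) _ hkill,
        psi_eq_zero G hy' hS' _ (hlt.trans_le hP) _ hkill]
      simp
  · intro N₁ _ _ _ N₂ _ _ _ N₃ _ _ _ f g hf hg he h₁ h₃ hN
    rw [psi_add G hy f g hf he hg, psi_add G hy' f g hf he hg, add_mul, add_mul,
      h₁ (killedBy_of_injective f hf hN), h₃ (killedBy_of_surjective g hg hN)]

section Chi

omit [IsLocalHom (algebraMap R S)] [Module.Flat R S] in
/-- The limit formula for `psi` with `S = R`. -/
lemma tendsto_psi_base (G : KoszulGoals.{u}) {x : Fin d → R} (hx : Par x) (M : Type u)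
    [AddCommGroup M] [Module R M] [Module.Finite R M] :
    Tendsto (fun n : ℕ => (d.factorial : ℝ) *
        ((Module.length R (M ⧸ (Ideal.span (Set.range x) ^ n • (⊤ : Submodule R M)))).toNat : ℝ) /
          (n : ℝ) ^ d) atTop (nhds (psi R x M : ℝ)) := by
  have h : IsFiniteLength R (M ⧸ (Ideal.span (Set.range x) • (⊤ : Submodule R M))) := by
    obtain ⟨n, g, hg⟩ := Module.Finite.exists_fin' R M
    exact Module.length_ne_top_iff.1 (ne_top_of_le_ne_top
      (WithTop.mul_ne_top (ENat.coe_ne_top n) hx.fin) (length_quot_smul_le hg _))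
  rw [psi, kchi_congr x (TensorProduct.lid R M)]
  exact G.kmult R M d x hx.mem h

variable {R' : Type u} [CommRing R'] [IsLocalRing R'] [IsNoetherianRing R']

omit [IsLocalHom (algebraMap R S)] [Module.Flat R S] [IsNoetherianRing R'] in
lemma tendsto_psi_res (G : KoszulGoals.{u}) {x : Fin d → R} (hx : Par x) (f : R →+* R')
    [IsLocalHom f] (hf : f.Finite) (D' : Type u) [AddCommGroup D'] [Module R' D']
    [Module.Finite R' D'] :
    Tendsto (fun n : ℕ => (resDeg f : ℝ) * ((d.factorial : ℝ) *
        ((Module.length R' (D' ⧸ (Ideal.span (Set.range fun i => f (x i)) ^ n •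
          (⊤ : Submodule R' D')))).toNat : ℝ) / (n : ℝ) ^ d))
      atTop (nhds (psi R x (Res f D') : ℝ)) := by
  haveI := Res.finite f (V := D') hf
  refine (tendsto_psi_base G hx (Res f D')).congr fun n => ?_
  rw [length_res_quot f hf, Ideal.map_pow, Ideal.map_span, ← Set.range_comp, ENat.toNat_mul,
    ENat.toNat_coe, Nat.cast_mul]
  simp only [Function.comp_def]
  ring

omit [IsLocalHom (algebraMap R S)] [Module.Flat R S] in
/-- `psi x` on the twist and on the untwisted copy of a prime quotient. -/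
lemma psi_base_twist (G : KoszulGoals.{u}) {x : Fin d → R} (hx : Par x) (σ : R ≃+* R')
    (f : R →+* R') [IsLocalHom f] (hf : f.Finite) {q : ℕ} (hq : 0 < q)
    (hfq : ∀ a, f a = σ a ^ q) (P' : Ideal R') [P'.IsPrime] (hP : ndim (R' ⧸ P') = d) :
    (psi R x (Res f (R' ⧸ P')) =
      (resDeg f : ℤ) * (q : ℤ) ^ d * psi R x (Res σ.toRingHom (R' ⧸ P'))) ∧
    0 < psi R x (Res σ.toRingHom (R' ⧸ P')) := by
  haveI : IsLocalHom σ.toRingHom := IsLocalHom.of_surjective _ σ.surjective
  have hσ : σ.toRingHom.Finite := RingHom.Finite.of_surjective _ σ.surjective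
  set J := Ideal.span (Set.range fun i => σ (x i)) with hJ
  set b : ℕ → ℕ := fun n => (Module.length R' ((R' ⧸ P') ⧸ J ^ n •
    (⊤ : Submodule R' (R' ⧸ P')))).toNat with hb
  set a : ℕ → ℕ := fun n => (Module.length R' ((R' ⧸ P') ⧸
    Ideal.span (Set.range fun i => σ (x i) ^ q) ^ n •
      (⊤ : Submodule R' (R' ⧸ P')))).toNat with ha
  set cN : ℝ := (psi R x (Res σ.toRingHom (R' ⧸ P')) : ℝ) with hcN
  have h1 : Tendsto (fun n : ℕ => (d.factorial : ℝ) * (b n : ℝ) / (n : ℝ) ^ d) atTop (nhds cN) := by
    refine (tendsto_psi_res G hx σ.toRingHom hσ (R' ⧸ P')).congr fun n => ?_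
    rw [resDeg_of_surjective _ σ.surjective, Nat.cast_one, one_mul]
    rfl
  have h2 : Tendsto (fun n : ℕ => (resDeg f : ℝ) * ((d.factorial : ℝ) * (a n : ℝ) / (n : ℝ) ^ d))
      atTop (nhds (psi R x (Res f (R' ⧸ P')) : ℝ)) := by
    refine (tendsto_psi_res G hx f hf (R' ⧸ P')).congr fun n => ?_
    have hfun : (fun i => f (x i)) = fun i => σ (x i) ^ q := funext fun i => hfq _
    rw [hfun]
  haveI : IsLocalRing (R' ⧸ P') := .of_surjective' _ Ideal.Quotient.mk_surjective
  -- finiteness of the lengths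
  have hJfin : ∀ n, Module.length R' ((R' ⧸ P') ⧸ J ^ n • (⊤ : Submodule R' (R' ⧸ P'))) ≠ ⊤ := by
    intro n
    obtain ⟨c, hc⟩ : ∃ c, maximalIdeal R' ^ c ≤ J := by
      haveI : IsArtinianRing (R ⧸ Ideal.span (Set.range x)) := by
        have hfl := Module.length_ne_top_iff.1 hx.fin
        rw [isFiniteLength_iff_isNoetherian_isArtinian] at hfl
        haveI := hfl.2
        exact isArtinian_of_tower R inferInstance
      obtain ⟨c, hc⟩ :=
        IsLocalRing.exists_maximalIdeal_pow_le_of_isArtinianRing_quotient (Ideal.span (Set.range x))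
      refine ⟨c, ?_⟩
      have := Ideal.map_mono (f := σ.toRingHom) hc
      rw [Ideal.map_pow, IsLocalRing.map_maximalIdeal_of_surjective _ σ.surjective, Ideal.map_span,
        ← Set.range_comp] at this
      exact this
    rw [length_quot_quot]
    refine ne_top_of_le_ne_top ?_ (Module.length_le_of_surjective
      (Submodule.factor (show maximalIdeal R' ^ (c * n) ≤ P' ⊔ J ^ n from
        le_sup_of_le_right (by rw [pow_mul]; exact pow_le_pow_left' hc n)))
      (Submodule.factor_surjective _))
    exact length_quot_maxPow_ne_top R' _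
  have hqJ : Ideal.span (Set.range fun i => σ (x i) ^ q) ≤ J ^ q :=
    Ideal.span_le.2 (by
      rintro _ ⟨i, rfl⟩
      exact Ideal.pow_mem_pow (Ideal.subset_span (Set.mem_range_self i)) q)
  have hup : ∀ n, Module.length R' ((R' ⧸ P') ⧸ Ideal.span (Set.range fun i => σ (x i) ^ q) ^ n •
      (⊤ : Submodule R' (R' ⧸ P'))) ≤
      Module.length R' ((R' ⧸ P') ⧸ J ^ (q * (n + d)) • (⊤ : Submodule R' (R' ⧸ P'))) := fun n =>
    Module.length_le_of_surjective (Submodule.factor (Submodule.smul_mono_left
      (span_range_pow_le hq (fun i => σ (x i)) n))) (Submodule.factor_surjective _)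
  have hlo : ∀ n, Module.length R' ((R' ⧸ P') ⧸ J ^ (q * n) • (⊤ : Submodule R' (R' ⧸ P'))) ≤
      Module.length R' ((R' ⧸ P') ⧸ Ideal.span (Set.range fun i => σ (x i) ^ q) ^ n •
      (⊤ : Submodule R' (R' ⧸ P'))) := fun n =>
    Module.length_le_of_surjective (Submodule.factor (Submodule.smul_mono_left
      (by rw [pow_mul]; exact pow_le_pow_left' hqJ n))) (Submodule.factor_surjective _)
  have hq' : (0 : ℝ) < q := by exact_mod_cast hq
  have hmul : ∀ s : ℕ, Tendsto (fun n : ℕ => q * (n + s)) atTop atTop := fun s =>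
    tendsto_atTop_atTop.2 fun m => ⟨m, fun n hn =>
      hn.trans ((Nat.le_add_right n s).trans (Nat.le_mul_of_pos_left _ hq))⟩
  have hs : ∀ s : ℕ, Tendsto (fun n : ℕ => (d.factorial : ℝ) * (b (q * (n + s)) : ℝ) /
      (n : ℝ) ^ d) atTop (nhds ((q : ℝ) ^ d * cN)) := by
    intro s
    have hr : Tendsto (fun n : ℕ => (((q * (n + s) : ℕ) : ℝ) / n) ^ d) atTop
        (nhds (((q : ℝ) * 1) ^ d)) := by
      refine Tendsto.pow ?_ d
      have hone : Tendsto (fun n : ℕ => (1 : ℝ) + (s : ℝ) * ((n : ℝ))⁻¹) atTop (nhds 1) := by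
        have := (tendsto_inv_atTop_nhds_zero_nat (𝕜 := ℝ)).const_mul (s : ℝ)
        simpa using this.const_add (1 : ℝ)
      refine (hone.const_mul (q : ℝ)).congr' ?_
      filter_upwards [eventually_gt_atTop 0] with n hn
      have : (n : ℝ) ≠ 0 := by exact_mod_cast hn.ne'
      push_cast
      field_simp
    have h3 := (h1.comp (hmul s)).mul hr
    rw [mul_one, mul_comm cN] at h3
    refine h3.congr' ?_
    filter_upwards [eventually_gt_atTop 0] with n hn
    have hn' : (n : ℝ) ≠ 0 := by exact_mod_cast hn.ne'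
    have hqn : ((q * (n + s) : ℕ) : ℝ) ≠ 0 := by
      have : 0 < q * (n + s) := Nat.mul_pos hq (by omega)
      exact_mod_cast this.ne'
    simp only [Function.comp_apply, div_pow]
    field_simp
  have hka : Tendsto (fun n : ℕ => (d.factorial : ℝ) * (a n : ℝ) / (n : ℝ) ^ d) atTop
      (nhds ((q : ℝ) ^ d * cN)) := by
    refine tendsto_of_tendsto_of_tendsto_of_le_of_le (hs 0) (hs d) (fun n => ?_) (fun n => ?_)
    · refine div_le_div_of_nonneg_right (mul_le_mul_of_nonneg_left ?_ (Nat.cast_nonneg _))
        (by positivity)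
      simp only [hb, ha, add_zero]
      exact_mod_cast ENat.toNat_le_toNat (hlo n) (ne_top_of_le_ne_top (hJfin _) (hup n))
    · refine div_le_div_of_nonneg_right (mul_le_mul_of_nonneg_left ?_ (Nat.cast_nonneg _))
        (by positivity)
      simp only [hb, ha, add_zero]
      exact_mod_cast ENat.toNat_le_toNat (hup n) (hJfin _)
  refine ⟨?_, ?_⟩
  · have := tendsto_nhds_unique h2 (hka.const_mul (resDeg f : ℝ))
    rw [hcN, ← mul_assoc] at this
    exact_mod_cast this
  · obtain ⟨e, he0, he⟩ := G.mult (R' ⧸ P')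
    rw [HasMult, hP] at he
    have hle : ∀ n, (Module.length (R' ⧸ P') ((R' ⧸ P') ⧸ maximalIdeal (R' ⧸ P') ^ n)).toNat ≤
        b n := by
      intro n
      refine ENat.toNat_le_toNat ?_ (hJfin n)
      rw [← length_quot_sup_pow, length_quot_quot]
      refine Module.length_le_of_surjective (Submodule.factor ?_) (Submodule.factor_surjective _)
      refine sup_le_sup_left (pow_le_pow_left' (Ideal.span_le.2 ?_) n) _
      rintro _ ⟨i, rfl⟩
      exact map_nonunit σ.toRingHom _ (hx.mem i)
    have : e ≤ cN := by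
      refine le_of_tendsto_of_tendsto' he h1 fun n => ?_
      exact div_le_div_of_nonneg_right (mul_le_mul_of_nonneg_left (by exact_mod_cast hle n)
        (Nat.cast_nonneg _)) (by positivity)
    have h0 : (0 : ℝ) < cN := he0.trans_le this
    rw [hcN] at h0
    exact_mod_cast h0

end Chi

variable {R' : Type u} [CommRing R'] [IsLocalRing R'] [IsNoetherianRing R']

/-- `psi` on twisted modules. -/
theorem psi_twist (G : KoszulGoals.{u}) (hy : Par y) (hS : ndim R = ndim S) (hd : ndim R = d)
    {x : Fin d → R} (hx : Par x) (σ : R ≃+* R') (f : R →+* R') [IsLocalHom f] (hf : f.Finite)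
    {q : ℕ} (hq : 0 < q) (hfq : ∀ a, f a = σ a ^ q)
    (V : Type u) [AddCommGroup V] [Module R' V] [Module.Finite R' V] :
    psi R y (Res f V) = (resDeg f : ℤ) * (q : ℤ) ^ d * psi R y (Res σ.toRingHom V) := by
  have hσ : σ.toRingHom.Finite := RingHom.Finite.of_surjective _ σ.surjective
  refine IsNoetherianRing.induction_on_isQuotientEquivQuotientPrime R' (M := V) ‹_›
    (motive := fun W _ _ _ => psi R y (Res f W) =
      (resDeg f : ℤ) * (q : ℤ) ^ d * psi R y (Res σ.toRingHom W)) ?_ ?_ ?_
  · intro W _ _ _ hW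
    haveI : Subsingleton (Res f W) := hW
    haveI : Subsingleton (Res σ.toRingHom W) := hW
    rw [psi_subsingleton G hy, psi_subsingleton G hy, mul_zero]
  · intro W _ _ _ P' e
    have e1 : Res f W ≃ₗ[R] Res f (R' ⧸ P'.asIdeal) :=
      { Res.map f e.toLinearMap with
        invFun := e.symm
        left_inv := e.symm_apply_apply
        right_inv := e.apply_symm_apply }
    have e2 : Res σ.toRingHom W ≃ₗ[R] Res σ.toRingHom (R' ⧸ P'.asIdeal) :=
      { Res.map σ.toRingHom e.toLinearMap with
        invFun := e.symm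
        left_inv := e.symm_apply_apply
        right_inv := e.apply_symm_apply }
    rw [psi_congr e1, psi_congr e2]
    set M := Res f (R' ⧸ P'.asIdeal) with hM
    set N := Res σ.toRingHom (R' ⧸ P'.asIdeal) with hN
    haveI : Module.Finite R M := Res.finite f hf
    haveI : Module.Finite R N := Res.finite σ.toRingHom hσ
    haveI : P'.asIdeal.IsPrime := P'.isPrime
    let P : Ideal R := P'.asIdeal.comap σ.toRingHom
    haveI : P.IsPrime := Ideal.comap_isPrime _ _
    have hkP : KilledBy P'.asIdeal (R' ⧸ P'.asIdeal) := fun a ha v => by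
      obtain ⟨v, rfl⟩ := Submodule.Quotient.mk_surjective _ v
      rw [← Submodule.Quotient.mk_smul, Submodule.Quotient.mk_eq_zero]
      exact P'.asIdeal.mul_mem_right v ha
    have hkM : KilledBy P M := Res.killedBy f P P'.asIdeal (fun a ha => by
      rw [Ideal.mem_comap, hfq]
      exact P'.asIdeal.pow_mem_of_mem ha q hq) hkP
    have hkN : KilledBy P N := Res.killedBy σ.toRingHom P P'.asIdeal le_rfl hkP
    have hdim : ndim (R ⧸ P) = ndim (R' ⧸ P'.asIdeal) :=
      ndim_congr (Ideal.quotientEquiv P P'.asIdeal σ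
        (Ideal.map_comap_of_surjective σ.toRingHom σ.surjective P'.asIdeal).symm)
    have hPd : ndim (R ⧸ P) ≤ d := hd ▸ ndim_quotient_le P (Ideal.IsPrime.ne_top ‹_›)
    rcases hPd.lt_or_eq with h | h
    · rw [psi_eq_zero G hy hS P h M hkM, psi_eq_zero G hy hS P h N hkN, mul_zero]
    · obtain ⟨ht, hpos⟩ := psi_base_twist G hx σ f hf hq hfq P'.asIdeal (hdim ▸ h)
      have i1 := psi_mul_psi G hy hx hS rfl P hPd M hkM
      have i2 := psi_mul_psi G hy hx hS rfl P hPd N hkN
      change psi R x M = (resDeg f : ℤ) * (q : ℤ) ^ d * psi R x N at ht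
      change 0 < psi R x N at hpos
      have hc : psi R x (R ⧸ P) ≠ 0 := by
        intro h0
        have i3 := psi_mul_psi G hx hy rfl hS P hPd N hkN
        obtain ⟨e3⟩ : Nonempty (N ≃ₗ[R] R ⧸ P) := by
          let v₀ : N := Ideal.Quotient.mk P'.asIdeal 1
          let π : R →ₗ[R] N := LinearMap.toSpanSingleton R N v₀
          have hπ : ∀ a, π a = Ideal.Quotient.mk P'.asIdeal (σ a) := fun a => by
            show Ideal.Quotient.mk P'.asIdeal (σ a * 1) = _
            rw [mul_one]
          have hs : Function.Surjective π := fun v => by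
            obtain ⟨b, rfl⟩ := Ideal.Quotient.mk_surjective (I := P'.asIdeal) v
            exact ⟨σ.symm b, by rw [hπ, σ.apply_symm_apply]⟩
          have hk : LinearMap.ker π = P := by
            ext a
            rw [LinearMap.mem_ker, hπ]
            exact Ideal.Quotient.eq_zero_iff_mem
          exact ⟨(π.quotKerEquivOfSurjective hs).symm.trans (Submodule.quotEquivOfEq _ _ hk)⟩
        rw [psi_congr e3, h0] at hpos
        exact lt_irrefl _ hpos
      refine mul_right_cancel₀ hc ?_
      rw [i1, ht]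
      linear_combination (-((resDeg f : ℤ) * (q : ℤ) ^ d)) * i2
  · intro W₁ _ _ _ W₂ _ _ _ W₃ _ _ _ g h hg hh he i₁ i₃
    haveI := Res.finite f (V := W₁) hf
    haveI := Res.finite f (V := W₂) hf
    haveI := Res.finite f (V := W₃) hf
    haveI := Res.finite σ.toRingHom (V := W₁) hσ
    haveI := Res.finite σ.toRingHom (V := W₂) hσ
    haveI := Res.finite σ.toRingHom (V := W₃) hσ
    rw [psi_add G hy (Res.map f g) (Res.map f h) hg he hh,
      psi_add G hy (Res.map σ.toRingHom g) (Res.map σ.toRingHom h) hg he hh, i₁, i₃, mul_add]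

lemma psi_res_equiv_self (σ : R ≃+* R') : psi R y (Res σ.toRingHom R') = kchi y S := by
  rw [← psi_self (R := R) (y := y)]
  exact psi_congr (LinearEquiv.symm
    { σ with
      toFun := fun a => σ a
      map_smul' := fun a b => map_mul σ a b })

end Vale.Agent.P202
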