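import Vale.Agent.P202.Euler
import Vale.Agent.P202.PhiDefs

/-!
The Euler characteristic of the untwisted complex `Koszul(y; B) ⊗ G` is the alternating sum of the
Koszul Euler characteristics of `B ⊗ H^n(G)`.
-/

universe u

namespace Vale.Agent.P202

open TensorProduct

variable {R S : Type*} [CommRing R] [CommRing S] {B : Type*} [AddCommGroup B] [Module R B]
  [Module S B] [SMulCommClass R S B] {A : Type*} [AddCommGroup A] [Module R A] {d : ℕ}
  {δ : A →ₗ[R] A}

variable (S B) in
/-- The total complex of Koszul chains with values in a family of submodules of `A`. -/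
noncomputable def UT (d : ℕ) (Pf : ℤ → Submodule R A) (r : ℤ) :
    Submodule S (Finset (Fin d) → B ⊗[R] A) :=
  cardPi d fun l => gbar S B (Pf (r + l))

lemma mem_UT {Pf : ℤ → Submodule R A} {r : ℤ} {f : Finset (Fin d) → B ⊗[R] A} :
    f ∈ UT S B d Pf r ↔ ∀ s, f s ∈ gbar S B (Pf (r + s.card)) := by
  simp [UT]

lemma UT_stable (y : Fin d → S) {Pf : ℤ → Submodule R A} (h : IsStable δ Pf) :
    IsStable (dT B y δ) (UT S B d Pf) := by
  rintro r _ ⟨f, hf, rfl⟩
  rw [SetLike.mem_coe, mem_UT] at hf
  rw [mem_UT]
  intro s
  rw [dT_apply]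
  refine Submodule.add_mem _ ?_ (zsmul_mem (lT_mem_gbar ?_ (hf s)) _)
  · refine kd_mem_of_comp y _ f s fun l hl => ?_
    have := hf (insert l s)
    rw [Finset.card_insert_of_notMem hl] at this
    convert this using 2
    push_cast; ring_nf
  · convert h (r + s.card) using 2
    ring

lemma UT_mono {Pf Pf' : ℤ → Submodule R A} (h : ∀ i, Pf i ≤ Pf' i) (r : ℤ) :
    UT S B d Pf r ≤ UT S B d Pf' r := by
  intro f hf
  rw [mem_UT] at hf ⊢
  exact fun s => gbar_mono (h _) (hf s)

/-- The canonical truncation in degrees `≤ n`. -/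
def truncC (δ : A →ₗ[R] A) (C : ℤ → Submodule R A) (n : ℤ) (i : ℤ) : Submodule R A :=
  if i < n then C i else if i = n then C n ⊓ (⊥ : Submodule R A).comap δ else ⊥

/-- The variant with boundaries in degree `n`. -/
def truncB (δ : A →ₗ[R] A) (C : ℤ → Submodule R A) (n : ℤ) (i : ℤ) : Submodule R A :=
  if i < n then C i else if i = n then (C (n - 1)).map δ ⊔ ⊥ else ⊥

lemma truncC_stable {C : ℤ → Submodule R A} (hC : IsStable δ C) (h0 : δ ∘ₗ δ = 0) (n : ℤ) :
    IsStable δ (truncC δ C n) := by
  intro i
  rcases lt_trichotomy i n with h | h | h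
  · rcases lt_or_eq_of_le (show i + 1 ≤ n by omega) with h' | h'
    · simp only [truncC, if_pos h, if_pos h']; exact hC i
    · simp only [truncC, if_pos h, if_neg (show ¬ i + 1 < n by omega), if_pos h']
      refine le_inf ?_ (map_pred_le_comap h0 _ _)
      rw [← h']; exact hC i
  · simp only [truncC, if_neg (show ¬ i < n by omega), if_pos h]
    rintro _ ⟨x, hx, rfl⟩
    have : δ x = 0 := (Submodule.mem_bot R).1 hx.2
    rw [this]; exact Submodule.zero_mem _
  · simp only [truncC, if_neg (show ¬ i < n by omega), if_neg (show ¬ i = n by omega),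
      Submodule.map_bot]
    exact bot_le

lemma truncB_stable {C : ℤ → Submodule R A} (hC : IsStable δ C) (h0 : δ ∘ₗ δ = 0) (n : ℤ) :
    IsStable δ (truncB δ C n) := by
  intro i
  rcases lt_trichotomy i n with h | h | h
  · rcases lt_or_eq_of_le (show i + 1 ≤ n by omega) with h' | h'
    · simp only [truncB, if_pos h, if_pos h']; exact hC i
    · simp only [truncB, if_pos h, if_neg (show ¬ i + 1 < n by omega), if_pos h']
      rw [show n - 1 = i by omega]
      exact le_sup_left
  · simp only [truncB, if_neg (show ¬ i < n by omega), if_pos h, Submodule.map_sup,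
      Submodule.map_bot, sup_bot_eq, ← Submodule.map_comp, h0, Submodule.map_zero]
    exact bot_le
  · simp only [truncB, if_neg (show ¬ i < n by omega), if_neg (show ¬ i = n by omega),
      Submodule.map_bot]
    exact bot_le

lemma truncC_le_truncB {C : ℤ → Submodule R A} (n i : ℤ) :
    truncC δ C (n - 1) i ≤ truncB δ C n i := by
  rcases lt_trichotomy i (n - 1) with h | h | h
  · simp only [truncC, truncB, if_pos h, if_pos (show i < n by omega)]; exact le_rfl
  · subst h
    simp only [truncC, truncB, if_neg (lt_irrefl (n - 1)), if_true,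
      if_pos (show n - 1 < n by omega)]
    exact inf_le_left
  · simp only [truncC, if_neg (show ¬ i < n - 1 by omega), if_neg (show ¬ i = n - 1 by omega)]
    exact bot_le

lemma truncB_le_truncC {C : ℤ → Submodule R A} (hC : IsStable δ C) (h0 : δ ∘ₗ δ = 0) (n i : ℤ) :
    truncB δ C n i ≤ truncC δ C n i := by
  rcases lt_trichotomy i n with h | h | h
  · simp only [truncC, truncB, if_pos h]; exact le_rfl
  · simp only [truncC, truncB, if_neg (show ¬ i < n by omega), if_pos h, sup_bot_eq]
    exact le_inf (hC.map_pred n) (map_pred_le_comap h0 _ _)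
  · simp only [truncC, truncB, if_neg (show ¬ i < n by omega), if_neg (show ¬ i = n by omega)]
    exact le_rfl

variable [Module.Flat R B]

lemma hlen_truncB_eq_zero (y : Fin d → S) {C : ℤ → Submodule R A} (hC : IsStable δ C)
    (h0 : δ ∘ₗ δ = 0) (n r : ℤ) :
    hlen S (dT B y δ) (UT S B d (truncB δ C n)) (UT S B d (truncC δ C (n - 1))) r = 0 := by
  classical
  have hQ := UT_stable (S := S) (B := B) y (truncC_stable hC h0 (n - 1))
  have hB := UT_stable (S := S) (B := B) y (truncB_stable hC h0 n)
  let O : ℤ → Submodule S (Finset (Fin d) → B ⊗[R] A) := fun r =>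
    cardPi d fun l => if r + (l : ℤ) = n - 1 then gbar S B (C (n - 1)) else ⊥
  have hle : ∀ r, O r ≤ UT S B d (truncB δ C n) r := by
    intro r f hf
    simp only [O, mem_cardPi] at hf
    rw [mem_UT]
    intro s
    have h := hf s
    by_cases hs : r + (s.card : ℤ) = n - 1
    · rw [if_pos hs] at h
      simp only [truncB, hs, if_pos (show n - 1 < n by omega)]
      exact h
    · rw [if_neg hs, Submodule.mem_bot] at h
      rw [h]; exact Submodule.zero_mem _
  refine hlen_eq_zero_of_cone (dT_dT y δ h0) hQ (O := O) (fun r => ?_) (fun r => ?_) r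
  · apply le_antisymm
    · intro f hf
      rw [mem_UT] at hf
      have hX : ∀ s : Finset (Fin d), r + (s.card : ℤ) = n →
          ∃ X ∈ gbar S B (C (n - 1)), lT S B δ X = ((-1 : ℤ) ^ s.card) • f s := by
        intro s hs
        have h := hf s
        simp only [truncB, hs, if_neg (lt_irrefl n), sup_bot_eq, if_true, gbar_map] at h
        have h' := zsmul_mem h ((-1 : ℤ) ^ s.card)
        obtain ⟨X, hX, hX'⟩ := h'
        exact ⟨X, hX, hX'⟩
      choose! X hX hX' using hX
      let x : Finset (Fin d) → B ⊗[R] A := fun s => if r + (s.card : ℤ) = n then X s else 0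
      have hx : x ∈ O (r - 1) := by
        simp only [O, mem_cardPi]
        intro s
        by_cases hs : r + (s.card : ℤ) = n
        · simp only [x, if_pos hs, if_pos (show r - 1 + (s.card : ℤ) = n - 1 by omega)]
          exact hX s hs
        · simp only [x, if_neg hs]; exact Submodule.zero_mem _
      have hf'' : f - dT B y δ x ∈ UT S B d (truncB δ C n) r :=
        Submodule.sub_mem _ (by rw [mem_UT]; exact hf)
          (hB.map_pred r (Submodule.mem_map_of_mem (hle _ hx)))
      let f' := f - dT B y δ x
      rw [mem_UT] at hf''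
      let o : Finset (Fin d) → B ⊗[R] A := fun s =>
        if r + (s.card : ℤ) = n - 1 then f' s else 0
      have ho : o ∈ O r := by
        simp only [O, mem_cardPi]
        intro s
        by_cases hs : r + (s.card : ℤ) = n - 1
        · simp only [o, if_pos hs]
          have h := hf'' s
          simp only [truncB, hs, if_pos (show n - 1 < n by omega)] at h
          exact h
        · simp only [o, if_neg hs]; exact Submodule.zero_mem _
      have hq : f' - o ∈ UT S B d (truncC δ C (n - 1)) r := by
        rw [mem_UT]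
        intro s
        by_cases hs : r + (s.card : ℤ) = n - 1
        · simp [o, hs]
        · simp only [Pi.sub_apply, o, if_neg hs, sub_zero]
          by_cases hs' : r + (s.card : ℤ) = n
          · have : f' s = 0 := by
              have hk : kd y (B ⊗[R] A) x s = 0 := by
                rw [kd_apply]
                refine Finset.sum_eq_zero fun l hl => ?_
                simp only [x]
                rw [Finset.card_insert_of_notMem (by simpa using hl), if_neg (by push_cast; omega),
                  smul_zero, smul_zero]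
              simp only [f', Pi.sub_apply, dT_apply, hk, zero_add, x, if_pos hs', hX' s hs',
                smul_smul, ← mul_pow]
              simp
            rw [this]; exact Submodule.zero_mem _
          · have h := hf'' s
            rcases lt_trichotomy (r + (s.card : ℤ)) n with h1 | h1 | h1
            · simp only [truncC, truncB, if_pos h1,
                if_pos (show r + (s.card : ℤ) < n - 1 by omega)] at h ⊢
              exact h
            · exact absurd h1 hs'
            · simp only [truncB, if_neg (show ¬ r + (s.card : ℤ) < n by omega), if_neg hs',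
                gbar_bot, Submodule.mem_bot] at h
              rw [show f' s = 0 from h]; exact Submodule.zero_mem _
      have : f = (f' - o) + (o + dT B y δ x) := by simp only [f']; abel
      rw [this]
      exact Submodule.add_mem_sup hq (Submodule.add_mem_sup ho (Submodule.mem_map_of_mem hx))
    · exact sup_le (UT_mono (fun i => truncC_le_truncB n i) r)
        (sup_le (hle r) ((Submodule.map_mono (hle _)).trans (hB.map_pred r)))
  · rintro x ⟨hx, hdx⟩
    simp only [O, SetLike.mem_coe, mem_cardPi] at hx
    rw [SetLike.mem_coe, Submodule.mem_comap, mem_UT] at hdx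
    rw [mem_UT]
    intro s
    by_cases hs : r + (s.card : ℤ) = n - 1
    · have h1 := hdx s
      have h2 := hx s
      simp only [truncC, if_neg (show ¬ r + 1 + (s.card : ℤ) < n - 1 by omega),
        if_neg (show ¬ r + 1 + (s.card : ℤ) = n - 1 by omega), gbar_bot, Submodule.mem_bot,
        dT_apply] at h1
      have hk : kd y (B ⊗[R] A) x s = 0 := by
        rw [kd_apply]
        refine Finset.sum_eq_zero fun l hl => ?_
        have h3 := hx (insert l s)
        rw [Finset.card_insert_of_notMem (by simpa using hl), if_neg (by push_cast; omega),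
          Submodule.mem_bot] at h3
        rw [h3, smul_zero, smul_zero]
      rw [hk, zero_add] at h1
      rw [if_pos hs] at h2
      simp only [truncC, hs, if_neg (lt_irrefl (n - 1)), if_true, gbar_inf, gbar_comap, gbar_bot]
      refine ⟨h2, ?_⟩
      rw [SetLike.mem_coe, Submodule.mem_comap, Submodule.mem_bot]
      have h4 := congrArg (fun v => ((-1 : ℤ) ^ s.card) • v) h1
      simpa [smul_smul, ← mul_pow] using h4
    · have h2 := hx s
      rw [if_neg hs, Submodule.mem_bot] at h2
      rw [h2]; exact Submodule.zero_mem _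

lemma hlen_truncC_eq (y : Fin d → S) {C : ℤ → Submodule R A} (hC : IsStable δ C)
    (h0 : δ ∘ₗ δ = 0) (n r : ℤ) :
    hlen S (dT B y δ) (UT S B d (truncC δ C n)) (UT S B d (truncB δ C n)) r =
      hlen S (kd y (B ⊗[R] HMod δ C (fun _ => ⊥) n))
        (fun r => cardPi d fun l => if r + (l : ℤ) = n then ⊤ else ⊥) (fun _ => ⊥) r := by
  classical
  let Z : Submodule R A := C n ⊓ (⊥ : Submodule R A).comap δ
  let Bd : Submodule R A := (C (n - 1)).map δ ⊔ ⊥
  let π : ↥Z →ₗ[R] HMod δ C (fun _ => ⊥) n := (Bd.comap Z.subtype).mkQ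
  let K : ℤ → Submodule S (Finset (Fin d) → B ⊗[R] ↥Z) :=
    fun r => cardPi d fun l => if r + (l : ℤ) = n then ⊤ else ⊥
  have hK : IsStable (kd y (B ⊗[R] ↥Z)) K := by
    rintro r _ ⟨f, hf, rfl⟩
    simp only [K, SetLike.mem_coe, mem_cardPi] at hf ⊢
    intro s
    refine kd_mem_of_comp y _ f s fun l hl => ?_
    have := hf (insert l s)
    rw [Finset.card_insert_of_notMem hl] at this
    convert this using 3
    push_cast; ring
  have h1 := fun r => hlen_map (d := kd y (B ⊗[R] ↥Z))
    (d' := kd y (B ⊗[R] HMod δ C (fun _ => ⊥) n)) (kmap d (lT S B π))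
    (P := K) (Q := fun r => K r ⊓ (⊥ : Submodule S _).comap (kmap d (lT S B π)))
    (P' := fun r => cardPi d fun l => if r + (l : ℤ) = n then ⊤ else ⊥) (Q' := fun _ => ⊥)
    hK (fun r => by simp) (fun r x _ => (kd_kmap y (lT S B π) x).symm)
    (fun r => by
      simp only [sup_bot_eq]
      apply le_antisymm
      · rintro _ ⟨f, hf, rfl⟩
        simp only [K, SetLike.mem_coe, mem_cardPi] at hf ⊢
        intro s
        have h := hf s
        by_cases hs : r + (s.card : ℤ) = n
        · simp [hs]
        · rw [if_neg hs, Submodule.mem_bot] at h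
          simp [h]
      · intro f hf
        simp only [mem_cardPi] at hf
        choose w hw using fun s => lT_surjective (S := S) (B := B)
          (Submodule.mkQ_surjective (Bd.comap Z.subtype)) (f s)
        refine ⟨fun s => if r + (s.card : ℤ) = n then w s else 0, ?_, ?_⟩
        · simp only [K, SetLike.mem_coe, mem_cardPi]
          intro s
          by_cases hs : r + (s.card : ℤ) = n <;> simp [hs]
        · funext s
          by_cases hs : r + (s.card : ℤ) = n
          · simp only [kmap_apply, if_pos hs]; exact hw s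
          · have h := hf s
            rw [if_neg hs, Submodule.mem_bot] at h
            simp only [kmap_apply, if_neg hs, map_zero, h])
    (fun r => rfl) r
  rw [← h1]
  symm
  refine hlen_map (d := kd y (B ⊗[R] ↥Z)) (d' := dT B y δ) (kmap d (lT S B Z.subtype))
    hK (UT_stable y (truncB_stable hC h0 n)) ?_ ?_ ?_ r
  · intro r f _
    funext s
    rw [dT_apply, kd_kmap]
    simp only [kmap_apply]
    rw [lT_comp_apply, show δ ∘ₗ Z.subtype = 0 from
        LinearMap.ext fun x => (Submodule.mem_bot R).1 x.2.2, lT_zero]
    simp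
  · intro r
    apply le_antisymm
    · refine sup_le ?_ (UT_mono (truncB_le_truncC hC h0 n) r)
      rintro _ ⟨f, hf, rfl⟩
      simp only [K, SetLike.mem_coe, mem_cardPi] at hf
      rw [mem_UT]
      intro s
      have h := hf s
      by_cases hs : r + (s.card : ℤ) = n
      · simp only [truncC, hs, if_neg (lt_irrefl n), if_true, kmap_apply]
        exact ⟨f s, rfl⟩
      · rw [if_neg hs, Submodule.mem_bot] at h
        simp [h]
    · intro f hf
      rw [mem_UT] at hf
      have hw : ∀ s : Finset (Fin d), r + (s.card : ℤ) = n →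
          ∃ w, lT S B Z.subtype w = f s := by
        intro s hs
        have h := hf s
        simp only [truncC, hs, if_neg (lt_irrefl n), if_true] at h
        exact h
      choose! w hw using hw
      let g : Finset (Fin d) → B ⊗[R] ↥Z := fun s => if r + (s.card : ℤ) = n then w s else 0
      rw [← add_sub_cancel (kmap d (lT S B Z.subtype) g) f]
      refine Submodule.add_mem_sup (Submodule.mem_map_of_mem ?_) ?_
      · simp only [K, mem_cardPi]
        intro s
        by_cases hs : r + (s.card : ℤ) = n <;> simp [g, hs]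
      · rw [mem_UT]
        intro s
        by_cases hs : r + (s.card : ℤ) = n
        · simp [g, hs, hw s hs]
        · simp only [Pi.sub_apply, kmap_apply, g, if_neg hs, map_zero, sub_zero]
          have h := hf s
          rcases lt_trichotomy (r + (s.card : ℤ)) n with h1 | h1 | h1
          · simp only [truncC, truncB, if_pos h1] at h ⊢; exact h
          · exact absurd h1 hs
          · simp only [truncC, truncB, if_neg (show ¬ r + (s.card : ℤ) < n by omega),
              if_neg hs] at h ⊢
            exact h
  · intro r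
    apply le_antisymm
    · rintro f ⟨hf, hf'⟩
      refine ⟨hf, ?_⟩
      simp only [K, SetLike.mem_coe, mem_cardPi] at hf
      rw [SetLike.mem_coe, Submodule.mem_comap, mem_UT] at hf'
      rw [SetLike.mem_coe, Submodule.mem_comap, Submodule.mem_bot]
      funext s
      have h := hf s
      by_cases hs : r + (s.card : ℤ) = n
      · have h' := hf' s
        simp only [truncB, hs, if_neg (lt_irrefl n), if_true, kmap_apply] at h'
        rw [Pi.zero_apply, kmap_apply, ← LinearMap.mem_ker, ker_lT_mkQ, gbar_comap]
        exact h'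
      · rw [if_neg hs, Submodule.mem_bot] at h
        simp [h]
    · rintro f ⟨hf, hf'⟩
      refine ⟨hf, ?_⟩
      simp only [K, SetLike.mem_coe, mem_cardPi] at hf
      rw [SetLike.mem_coe, Submodule.mem_comap, Submodule.mem_bot] at hf'
      rw [SetLike.mem_coe, Submodule.mem_comap, mem_UT]
      intro s
      have h := hf s
      by_cases hs : r + (s.card : ℤ) = n
      · have h' : lT S B π (f s) = 0 := congrFun hf' s
        rw [← LinearMap.mem_ker, ker_lT_mkQ, gbar_comap] at h'
        simp only [truncB, hs, if_neg (lt_irrefl n), if_true, kmap_apply]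
        exact h'
      · rw [if_neg hs, Submodule.mem_bot] at h
        simp [h]

omit [Module.Flat R B] in
lemma hlen_kd_degree (y : Fin d → S) (M : Type*) [AddCommGroup M] [Module S M] (n r : ℤ) :
    hlen S (kd y M) (fun r => cardPi d fun l => if r + (l : ℤ) = n then ⊤ else ⊥) (fun _ => ⊥) r =
      if 0 ≤ n - r ∧ n - r ≤ d then khlen y M (n - r).toNat else 0 := by
  have hpi : ∀ (r : ℤ), 0 ≤ n - r →
      (cardPi d fun l => if r + (l : ℤ) = n then (⊤ : Submodule S M) else ⊥) =
        kchain S d M (n - r).toNat := by
    intro r h0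
    ext f
    rw [mem_cardPi]
    constructor
    · intro h s hs
      have := h s
      rwa [if_neg (by omega), Submodule.mem_bot] at this
    · intro h s
      by_cases hs : r + (s.card : ℤ) = n
      · rw [if_pos hs]; trivial
      · rw [if_neg hs, Submodule.mem_bot]
        exact h s (by omega)
  by_cases h : 0 ≤ n - r ∧ n - r ≤ d
  · rw [if_pos h, hlen, khlen, Submodule.comap_bot, sup_bot_eq, hpi r h.1,
      hpi (r - 1) (by omega), show (n - (r - 1)).toNat = (n - r).toNat + 1 by omega]
  · rw [if_neg h, hlen_eq_bot_zero]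
    rw [eq_bot_iff]
    intro f hf
    rw [mem_cardPi] at hf
    rw [Submodule.mem_bot]
    funext s
    have := hf s
    have hc : s.card ≤ d := (Finset.card_le_univ s).trans (by simp)
    rwa [if_neg (by omega), Submodule.mem_bot] at this

omit [Module.Flat R B] in
lemma eu_kd_degree (y : Fin d → S) (M : Type*) [AddCommGroup M] [Module S M] (n : ℤ) (N : ℕ)
    (hN : ∀ p : ℕ, p ≤ d → -(N : ℤ) ≤ n - p ∧ n - p ≤ N) :
    eu S (kd y M) (fun r => cardPi d fun l => if r + (l : ℤ) = n then ⊤ else ⊥) (fun _ => ⊥) N =
      sgn n * kchi y M := by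
  have hsub : (Finset.range (d + 1)).image (fun p : ℕ => n - (p : ℤ)) ⊆
      Finset.Icc (-(N : ℤ)) N := by
    intro r hr
    simp only [Finset.mem_image, Finset.mem_range] at hr
    obtain ⟨p, hp, rfl⟩ := hr
    simpa using hN p (by omega)
  rw [eu, kchi, Finset.mul_sum, ← Finset.sum_subset hsub ?_, Finset.sum_image ?_]
  · refine Finset.sum_congr rfl fun p hp => ?_
    rw [Finset.mem_range] at hp
    rw [hlen_kd_degree, if_pos (by omega), show (n - (n - (p : ℤ))).toNat = p by omega, sgn_sub,
      sgn_natCast]
    ring
  · intro a _ b _ h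
    simpa using h
  · intro r _ hr
    rw [hlen_kd_degree, if_neg]
    · simp
    · intro h
      exact hr (Finset.mem_image.2 ⟨(n - r).toNat, Finset.mem_range.2 (by omega), by omega⟩)

/-- Finiteness and value of the Euler characteristic of the untwisted complex. -/
lemma eu_UT (y : Fin d → S) (h0 : δ ∘ₗ δ = 0) {C : ℤ → Submodule R A} (hC : IsStable δ C)
    (hbot : ∀ i : ℤ, i < -(d : ℤ) ∨ (d : ℤ) ≤ i → C i = ⊥)
    (hfin : ∀ n p, khlen y (B ⊗[R] HMod δ C (fun _ => ⊥) n) p ≠ ⊤) (N : ℕ) (hN : 3 * d + 3 ≤ N) :
    eu S (dT B y δ) (UT S B d C) (fun _ => ⊥) N =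
      ∑ n ∈ Finset.Icc (-(d : ℤ)) d, sgn n * kchi y (B ⊗[R] HMod δ C (fun _ => ⊥) n) := by
  have hd := dT_dT (B := B) y δ h0
  let X : ℕ → ℤ → Submodule S (Finset (Fin d) → B ⊗[R] A) := fun k =>
    UT S B d (truncC δ C (-(d : ℤ) - 1 + k))
  have hstab : ∀ k, IsStable (dT B y δ) (X k) := fun k => UT_stable y (truncC_stable hC h0 _)
  have hle : ∀ k r, X k r ≤ X (k + 1) r := by
    intro k r
    refine UT_mono (fun i => ?_) r
    rw [show -(d : ℤ) - 1 + (k : ℕ) = (-(d : ℤ) - 1 + ((k + 1 : ℕ) : ℤ)) - 1 by push_cast; ring]
    exact (truncC_le_truncB _ i).trans (truncB_le_truncC hC h0 _ i)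
  have hpiece : ∀ k r, hlen S (dT B y δ) (X (k + 1)) (X k) r =
      hlen S (kd y (B ⊗[R] HMod δ C (fun _ => ⊥) (-(d : ℤ) + k)))
        (fun r => cardPi d fun l => if r + (l : ℤ) = -(d : ℤ) + k then ⊤ else ⊥) (fun _ => ⊥) r := by
    intro k r
    rw [← hlen_truncC_eq y hC h0]
    simp only [X]
    rw [show -(d : ℤ) - 1 + ((k + 1 : ℕ) : ℤ) = -(d : ℤ) + k by push_cast; ring,
      show -(d : ℤ) - 1 + (k : ℕ) = (-(d : ℤ) + k) - 1 by ring]
    exact hlen_eq_of_left_zero hd (UT_stable y (truncB_stable hC h0 _))
      (UT_stable y (truncC_stable hC h0 _)) (UT_stable y (truncC_stable hC h0 _))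
      (fun r => UT_mono (truncC_le_truncB _) r) (fun r => UT_mono (truncB_le_truncC hC h0 _) r)
      (fun r => hlen_truncB_eq_zero y hC h0 _ r) r
  have hpfin : ∀ k r, hlen S (dT B y δ) (X (k + 1)) (X k) r ≠ ⊤ := by
    intro k r
    rw [hpiece, hlen_kd_degree]
    split
    · exact hfin _ _
    · simp
  have hbd : ∀ k, ∀ r : ℤ, r < -(N : ℤ) + 1 ∨ (N : ℤ) < r → X k r = ⊥ := by
    intro k r hr
    rw [eq_bot_iff]
    intro f hf
    simp only [X, mem_UT] at hf
    rw [Submodule.mem_bot]
    funext s
    have hc : s.card ≤ d := (Finset.card_le_univ s).trans (by simp)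
    have hb : truncC δ C (-(d : ℤ) - 1 + k) (r + s.card) = ⊥ := by
      have hC0 : C (r + s.card) = ⊥ := hbot _ (by omega)
      simp only [truncC]
      split_ifs with h1 h2
      · exact hC0
      · rw [← h2, hC0, bot_inf_eq]
      · rfl
    have := hf s
    rw [hb, gbar_bot, Submodule.mem_bot] at this
    exact this
  have htop : X (2 * d + 1) = UT S B d C := by
    funext r
    simp only [X]
    rw [show -(d : ℤ) - 1 + ((2 * d + 1 : ℕ) : ℤ) = d by push_cast; ring]
    apply le_antisymm <;> refine UT_mono (fun i => ?_) r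
    · simp only [truncC]; split_ifs with h1 h2
      · exact le_rfl
      · rw [h2]; exact inf_le_left
      · exact bot_le
    · simp only [truncC]; split_ifs with h1 h2
      · exact le_rfl
      · rw [hbot i (Or.inr (by omega))]; exact bot_le
      · rw [hbot i (Or.inr (by omega))]
  have hbottom : X 0 = fun _ => ⊥ := by
    funext r
    rw [eq_bot_iff]
    intro f hf
    simp only [X, mem_UT] at hf
    rw [Submodule.mem_bot]
    funext s
    have hb : truncC δ C (-(d : ℤ) - 1 + (0 : ℕ)) (r + s.card) = ⊥ := by
      simp only [truncC]; split_ifs with h1 h2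
      · exact hbot _ (Or.inl (by omega))
      · rw [hbot _ (Or.inl (by omega)), bot_inf_eq]
      · rfl
    have := hf s
    rw [hb, gbar_bot, Submodule.mem_bot] at this
    exact this
  rw [← htop, ← hbottom, eu_chain hd X (2 * d + 1) (fun k _ => hstab k) (fun k _ => hle k) N
    (fun k _ => hbd k) (fun k _ => hpfin k)]
  have he : ∀ k ∈ Finset.range (2 * d + 1), eu S (dT B y δ) (X (k + 1)) (X k) N =
      sgn (-(d : ℤ) + k) * kchi y (B ⊗[R] HMod δ C (fun _ => ⊥) (-(d : ℤ) + k)) := by
    intro k hk
    rw [Finset.mem_range] at hk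
    rw [← eu_kd_degree y _ _ N (fun p hp => by omega), eu, eu]
    simp only [hpiece]
  rw [Finset.sum_congr rfl he]
  refine Finset.sum_bij (fun k _ => -(d : ℤ) + k) ?_ ?_ ?_ (fun k _ => rfl)
  · intro k hk
    rw [Finset.mem_range] at hk
    rw [Finset.mem_Icc]; omega
  · intro a _ b _ h
    simpa using h
  · intro r hr
    rw [Finset.mem_Icc] at hr
    exact ⟨(r + d).toNat, Finset.mem_range.2 (by omega), by omega⟩

end Vale.Agent.P202
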